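import Crest.Agent.R289.Fac_281

/-!
Row 289, block A, leaf A.T4 (posts 5789 (T3) (T4), 5969): the commutation rule
`ϖ · be_{l.ϖ} = be_l · ϖ'` for an element `ϖ` with constant term one and norm prime to the place,
with the odd vector `l# = l'.be_l` (`det (l, l') = 1`) carried by `ϖ' / N(ϖ)(x)`.
Everything over `Fac_281` (`act`, `be`, `Q`, `N`).
-/

set_option autoImplicit false

namespace Crest.Agent.R289.Corner223

open Polynomial Crest.Agent.R289.Exp820 Crest.Agent.R289.Exp820.Sk Crest.Agent.R289.Fac281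

variable {K : Type*} [Field K] {σ : K →+* K}

/-! ### generalities on `Sk` -/

theorem conj_conj (hσ : ∀ a, σ (σ a) = a) (r : Sk σ) : conj (conj r) = r := by
  ext1 <;> simp only [conj, sg_sg hσ, neg_neg]

theorem conj_mul (hσ : ∀ a, σ (σ a) = a) (r s : Sk σ) : conj (r * s) = conj s * conj r := by
  ext1
  · simp only [conj, mul_re, mul_im, map_add, map_mul, map_neg, sg_sg hσ, sg_X]
    ring
  · simp only [conj, mul_re, mul_im, sg_sg hσ]
    ring

theorem N_conj (hσ : ∀ a, σ (σ a) = a) (r : Sk σ) : N (conj r) = N r := by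
  simp only [N, conj, map_neg, sg_sg hσ]
  ring

/-- left cancellation -/
theorem mul_left_cancel' (hσ : ∀ a, σ (σ a) = a) {w r s : Sk σ} (hw : N w ≠ 0)
    (h : w * r = w * s) : r = s := by
  have h1 := N_mul_re hσ w r
  have h2 := N_mul_im hσ w r
  have h1' := N_mul_re hσ w s
  have h2' := N_mul_im hσ w s
  rw [h, ← h1'] at h1
  rw [h, ← h2'] at h2
  ext1
  · exact mul_left_cancel₀ hw h1
  · exact mul_left_cancel₀ hw h2

/-- right cancellation -/
theorem mul_right_cancel' (hσ : ∀ a, σ (σ a) = a) {w r s : Sk σ} (hw : N w ≠ 0)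
    (h : r * w = s * w) : r = s := by
  have h1 := congrArg conj h
  rw [conj_mul hσ, conj_mul hσ] at h1
  have h2 := mul_left_cancel' hσ (by rw [N_conj hσ]; exact hw) h1
  rw [← conj_conj hσ r, h2, conj_conj hσ]

theorem eval_sg_sigma (hσ : ∀ a, σ (σ a) = a) (p : K[X]) (x : K) :
    p.eval (σ x) = σ ((sg σ p).eval x) := by
  have := eval_sg (σ := σ) (sg σ p) x
  rwa [sg_sg hσ] at this

/-! ### the odd vector -/

/-- `l# = l'.be_l` for any `l'` with `det (l, l') = 1` -/
noncomputable def sharp (σ : K →+* K) (x : K) (l : K × K) : K × K :=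
  ((σ x - x) * (σ l.2 / σ (Q σ x l)), (σ x - x) / σ x * (σ l.1 / Q σ x l))

theorem act_be_gen (hσ : ∀ a, σ (σ a) = a) {x : K} (hx : σ x ≠ x) {l : K × K} (hl : l ≠ 0)
    (v : K × K) :
    act x v (be σ x l) = (l.1 * v.2 - l.2 * v.1) • sharp σ x l := by
  have hx0 : x ≠ 0 := x_ne_zero hx
  have hsx0 : σ x ≠ 0 := (map_ne_zero σ).2 hx0
  have hQ := Q_ne_zero hσ hx hl
  have hQs : σ (Q σ x l) ≠ 0 := (map_ne_zero σ).2 hQ
  have hsg : sg σ (1 + C (gam σ x l) * X) = 1 + C (σ (gam σ x l)) * X := by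
    simp only [map_add, map_one, map_mul, sg_C, sg_X]
  have hgs : σ (gam σ x l) = -(Q σ x l / σ (Q σ x l)) / x := by
    simp only [gam, map_div₀, map_neg, hσ]
  have hbs : σ (bet σ x l) = (σ x - x) / σ x * (σ l.1 * l.2 / Q σ x l) := by
    simp only [bet, map_div₀, map_mul, map_sub, hσ]
  have e1 : σ (Q σ x l) = nm σ l.1 - σ x * nm σ l.2 := Q_sigma hσ x l
  ext
  · simp only [act, be, hsg, eval_add, eval_one, eval_mul, eval_C, eval_X, hgs, sharp,
      Prod.smul_fst, smul_eq_mul]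
    have h1 : (1 + -(Q σ x l / σ (Q σ x l)) / x * x) * v.1 - x * bet σ x l * v.2
        = (v.1 * (σ (Q σ x l) - Q σ x l) - (x - σ x) * (l.1 * σ l.2) * v.2) / σ (Q σ x l) := by
      simp only [bet]
      field_simp
      ring
    rw [h1, e1, ← e1]
    have h2 : v.1 * (σ (Q σ x l) - Q σ x l) - (x - σ x) * (l.1 * σ l.2) * v.2
        = (l.1 * v.2 - l.2 * v.1) * ((σ x - x) * σ l.2) := by
      rw [e1]
      simp only [Q, nm]
      ring
    rw [h2]
    ring
  · simp only [act, be, sg_C, eval_add, eval_one, eval_mul, eval_C, eval_X, hbs, sharp,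
      Prod.smul_snd, smul_eq_mul]
    have h1 : (1 + gam σ x l * x) * v.2 - (σ x - x) / σ x * (σ l.1 * l.2 / Q σ x l) * v.1
        = (v.2 * (σ x * Q σ x l - x * σ (Q σ x l)) - (σ x - x) * (σ l.1 * l.2) * v.1)
          / (σ x * Q σ x l) := by
      simp only [gam]
      field_simp
      ring
    have h2 : v.2 * (σ x * Q σ x l - x * σ (Q σ x l)) - (σ x - x) * (σ l.1 * l.2) * v.1
        = (l.1 * v.2 - l.2 * v.1) * ((σ x - x) * σ l.1) := by
      rw [e1]
      simp only [Q, nm]
      ring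
    rw [h1, h2]
    field_simp

theorem act_be_sharp (hσ : ∀ a, σ (σ a) = a) {x : K} (hx : σ x ≠ x) {l : K × K} (hl : l ≠ 0)
    {v : K × K} (hv : l.1 * v.2 - l.2 * v.1 = 1) : act x v (be σ x l) = sharp σ x l := by
  rw [act_be_gen hσ hx hl, hv, one_smul]

theorem sharp_ne_zero (hσ : ∀ a, σ (σ a) = a) {x : K} (hx : σ x ≠ x) {l : K × K} (hl : l ≠ 0) :
    sharp σ x l ≠ 0 := by
  have hx0 : x ≠ 0 := x_ne_zero hx
  have hsx0 : σ x ≠ 0 := (map_ne_zero σ).2 hx0
  have hQ := Q_ne_zero hσ hx hl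
  have hQs : σ (Q σ x l) ≠ 0 := (map_ne_zero σ).2 hQ
  have hd : σ x - x ≠ 0 := sub_ne_zero.2 hx
  intro h
  have h1 := congrArg Prod.fst h
  have h2 := congrArg Prod.snd h
  simp only [sharp, Prod.fst_zero, Prod.snd_zero, mul_eq_zero, div_eq_zero_iff, hd, hQ, hQs, hsx0,
    false_or, or_false, map_eq_zero] at h1 h2
  exact hl (Prod.ext h2 h1)

theorem sharp_smul (hσ : ∀ a, σ (σ a) = a) {x : K} (hx : σ x ≠ x) {l : K × K} (hl : l ≠ 0) {c : K}
    (hc : c ≠ 0) : sharp σ x (c • l) = c⁻¹ • sharp σ x l := by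
  obtain ⟨v, hv⟩ : ∃ v : K × K, l.1 * v.2 - l.2 * v.1 = 1 := by
    by_cases h : l.1 = 0
    · have h2 : l.2 ≠ 0 := fun h2 => hl (Prod.ext h h2)
      exact ⟨(-l.2⁻¹, 0), by simp [h2]⟩
    · exact ⟨(0, l.1⁻¹), by simp [h]⟩
  have h1 := act_be_sharp hσ hx (smul_ne_zero hc hl) (v := c⁻¹ • v) (by
    simp only [Prod.smul_fst, Prod.smul_snd, smul_eq_mul]
    field_simp
    exact hv)
  rw [← h1, act_smul, be_smul hσ hx hl hc, act_be_sharp hσ hx hl hv]

theorem exists_det_one {l : K × K} (hl : l ≠ 0) : ∃ v : K × K, l.1 * v.2 - l.2 * v.1 = 1 := by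
  by_cases h : l.1 = 0
  · have h2 : l.2 ≠ 0 := fun h2 => hl (Prod.ext h h2)
    exact ⟨(-l.2⁻¹, 0), by simp [h2]⟩
  · exact ⟨(0, l.1⁻¹), by simp [h]⟩

/-- determinants are multiplied by the value of the norm -/
theorem det_act (x : K) (l v : K × K) (r : Sk σ) :
    (act x l r).1 * (act x v r).2 - (act x l r).2 * (act x v r).1
      = (N r).eval x * (l.1 * v.2 - l.2 * v.1) := by
  simp only [act, N, eval_sub, eval_mul, eval_X]
  ring

/-- the conjugate of `be_l` is the `be` of the odd vector -/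
theorem conj_be (hσ : ∀ a, σ (σ a) = a) {x : K} (hx : σ x ≠ x) {l : K × K} (hl : l ≠ 0) :
    conj (be σ x l) = be σ x (sharp σ x l) := by
  obtain ⟨v, hv⟩ := exists_det_one hl
  have hk : act x (sharp σ x l) (conj (be σ x l)) = 0 := by
    rw [← act_be_sharp hσ hx hl hv, act_conj hσ, N_be_eval hσ hx hl]
    simp
  have e : conj (be σ x l) = ⟨1 + C (σ (gam σ x l)) * X, C (-(bet σ x l))⟩ := by
    ext1 <;> simp only [conj, be, map_add, map_one, map_mul, sg_C, sg_X, C_neg]
  rw [e] at hk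
  obtain ⟨h1, h2⟩ := be_unique hσ hx (sharp_ne_zero hσ hx hl) hk
  rw [e]
  simp only [be, h1, h2]

/-! ### division by `be_l` -/

theorem XX_dvd (hσ : ∀ a, σ (σ a) = a) {x : K} (hx : σ x ≠ x) {p : K[X]} (h1 : p.eval x = 0)
    (h2 : (sg σ p).eval x = 0) : XX σ x ∣ p := by
  have h3 : p.eval (σ x) = 0 := by rw [eval_sg_sigma hσ, h2, map_zero]
  obtain ⟨a, ha⟩ := dvd_iff_isRoot.2 (show p.IsRoot x from h1)
  have h4 : a.eval (σ x) = 0 := by
    rw [ha, eval_mul] at h3
    simp only [eval_sub, eval_X, eval_C, mul_eq_zero] at h3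
    exact h3.resolve_left (sub_ne_zero.2 hx)
  obtain ⟨b, hb⟩ := dvd_iff_isRoot.2 (show a.IsRoot (σ x) from h4)
  exact ⟨b, by rw [ha, hb, XX]; ring⟩

/-- **division**: an element killing `l` is a multiple of `be_l`, with the expected degrees -/
theorem be_dvd (hσ : ∀ a, σ (σ a) = a) {x : K} (hx : σ x ≠ x) {l : K × K} (hl : l ≠ 0)
    {r : Sk σ} (h : act x l r = 0) : ∃ r' : Sk σ, r = be σ x l * r' ∧
      ∀ n, r.re.natDegree ≤ n + 1 → r.im.natDegree ≤ n →
        r'.re.natDegree ≤ n ∧ r'.im.natDegree ≤ n - 1 := by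
  have hx0 : x ≠ 0 := x_ne_zero hx
  have hsx0 : σ x ≠ 0 := (map_ne_zero σ).2 hx0
  have hb := act_be hσ hx hl
  set w := be σ x l with hw
  -- relations at `x`
  have a1 := congrArg Prod.fst hb
  have a2 := congrArg Prod.snd hb
  have b1 := congrArg Prod.fst h
  have b2 := congrArg Prod.snd h
  simp only [act, Prod.fst_zero, Prod.snd_zero] at a1 a2 b1 b2
  set A := w.re.eval x with hA
  set A' := (sg σ w.re).eval x with hA'
  set B := w.im.eval x with hB
  set B' := (sg σ w.im).eval x with hB'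
  set P := r.re.eval x with hP
  set P' := (sg σ r.re).eval x with hP'
  set R := r.im.eval x with hR
  set R' := (sg σ r.im).eval x with hR'
  have hne : l.1 ≠ 0 ∨ l.2 ≠ 0 := by
    by_contra hc
    push Not at hc
    exact hl (Prod.ext hc.1 hc.2)
  have z1 : A' * P - x * (B * R') = 0 := by
    rcases hne with h0 | h0
    · apply (mul_eq_zero.1 (_ : l.1 * _ = 0)).resolve_left h0
      linear_combination P * a1 + x * B * b2
    · apply (mul_eq_zero.1 (_ : l.2 * _ = 0)).resolve_left h0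
      linear_combination A' * b2 + R' * a1
  have z2 : A * P' - x * (B' * R) = 0 := by
    rcases hne with h0 | h0
    · apply (mul_eq_zero.1 (_ : l.1 * _ = 0)).resolve_left h0
      linear_combination A * b1 + x * R * a2
    · apply (mul_eq_zero.1 (_ : l.2 * _ = 0)).resolve_left h0
      linear_combination P' * a2 + B' * b1
  have z3 : A' * R - B * P' = 0 := by
    rcases hne with h0 | h0
    · apply (mul_eq_zero.1 (_ : l.1 * _ = 0)).resolve_left h0
      linear_combination R * a1 - B * b1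
    · apply (mul_eq_zero.1 (_ : x * l.2 * _ = 0)).resolve_left (mul_ne_zero hx0 h0)
      linear_combination P' * a1 - A' * b1
  have z4 : A * R' - B' * P = 0 := by
    rcases hne with h0 | h0
    · apply (mul_eq_zero.1 (_ : l.1 * _ = 0)).resolve_left h0
      linear_combination P * a2 - A * b2
    · apply (mul_eq_zero.1 (_ : l.2 * _ = 0)).resolve_left h0
      linear_combination R' * a2 - B' * b2
  have d1 : XX σ x ∣ (conj w * r).re := by
    apply XX_dvd hσ hx
    · simp only [conj, mul_re, eval_add, eval_mul, eval_X, eval_neg, ← hA', ← hP, ← hB, ← hR']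
      linear_combination z1
    · simp only [conj, mul_re, map_add, map_mul, map_neg, sg_sg hσ, sg_X, eval_add, eval_mul,
        eval_X, eval_neg, ← hA, ← hP', ← hB', ← hR]
      linear_combination z2
  have d2 : XX σ x ∣ (conj w * r).im := by
    apply XX_dvd hσ hx
    · simp only [conj, mul_im, eval_add, eval_mul, eval_neg, ← hA', ← hP', ← hB, ← hR]
      linear_combination z3
    · simp only [conj, mul_im, map_add, map_mul, map_neg, sg_sg hσ, eval_add, eval_mul,
        eval_neg, ← hA, ← hP, ← hB', ← hR']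
      linear_combination z4
  obtain ⟨u, hu⟩ := d1
  obtain ⟨v, hv⟩ := d2
  have hNw : N w = C (x * σ x)⁻¹ * XX σ x := N_be hσ hx hl
  have hcc : (C (x * σ x)⁻¹ : K[X]) * C (x * σ x) = 1 := by
    rw [← C_mul, inv_mul_cancel₀ (mul_ne_zero hx0 hsx0), C_1]
  have hNw0 : N w ≠ 0 := by
    rw [hNw]
    exact mul_ne_zero (C_ne_zero.2 (inv_ne_zero (mul_ne_zero hx0 hsx0))) XX_ne_zero
  have e1 : (conj w * r).re = N w * (C (x * σ x) * u) := by
    rw [hu, hNw]; linear_combination (-(XX σ x * u)) * hcc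
  have e2 : (conj w * r).im = N w * (C (x * σ x) * v) := by
    rw [hv, hNw]; linear_combination (-(XX σ x * v)) * hcc
  refine ⟨⟨C (x * σ x) * u, C (x * σ x) * v⟩, ?_, ?_⟩
  · apply mul_left_cancel' hσ (w := conj w) (by rw [N_conj hσ]; exact hNw0)
    rw [← sk_mul_assoc hσ]
    have hcw : conj w * w = ⟨N w, 0⟩ := by
      ext1
      · simp only [conj, mul_re, N]; ring
      · simp only [conj, mul_im]; ring
    rw [hcw]
    ext1
    · rw [e1]; simp only [mul_re]; ring
    · rw [e2]; simp only [mul_im]; ring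
  · intro n hn1 hn2
    have hre1 : w.re.natDegree ≤ 1 := be_re_deg x l
    have him0 : w.im.natDegree = 0 := be_im_deg x l
    have hsre : (sg σ w.re).natDegree ≤ 1 := by rw [natDegree_sg]; exact hre1
    have k1 : (conj w * r).re.natDegree ≤ n + 2 := by
      simp only [conj, mul_re]
      refine (natDegree_add_le _ _).trans (max_le ?_ ?_)
      · exact natDegree_mul_le.trans (by omega)
      · refine natDegree_mul_le.trans ?_
        have : (X * -w.im).natDegree ≤ 1 := by
          refine natDegree_mul_le.trans ?_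
          rw [natDegree_X, natDegree_neg, him0]
        rw [natDegree_sg]
        omega
    have k2 : (conj w * r).im.natDegree ≤ n + 1 := by
      simp only [conj, mul_im]
      refine (natDegree_add_le _ _).trans (max_le ?_ ?_)
      · exact natDegree_mul_le.trans (by omega)
      · refine natDegree_mul_le.trans ?_
        rw [natDegree_neg, him0, natDegree_sg]
        omega
    constructor
    · have hle : (C (x * σ x) * u).natDegree ≤ u.natDegree := natDegree_C_mul_le _ _
      by_cases hu0 : u = 0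
      · rw [hu0]; simp
      · rw [hu, natDegree_mul XX_ne_zero hu0, XX_natDegree] at k1
        simp only
        omega
    · have hle : (C (x * σ x) * v).natDegree ≤ v.natDegree := natDegree_C_mul_le _ _
      by_cases hv0 : v = 0
      · rw [hv0]; simp
      · rw [hv, natDegree_mul XX_ne_zero hv0, XX_natDegree] at k2
        simp only
        omega

/-! ### the commutation rule (T4) -/

/-- constant term one, `τ`-degree at most four -/
def Small (r : Sk σ) : Prop :=
  r.re.coeff 0 = 1 ∧ r.re.natDegree ≤ 2 ∧ r.im.natDegree ≤ 1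

theorem N_be_ne_zero (hσ : ∀ a, σ (σ a) = a) {x : K} (hx : σ x ≠ x) {l : K × K} (hl : l ≠ 0) :
    N (be σ x l) ≠ 0 := by
  have hx0 : x ≠ 0 := x_ne_zero hx
  have hsx0 : σ x ≠ 0 := (map_ne_zero σ).2 hx0
  rw [N_be hσ hx hl]
  exact mul_ne_zero (C_ne_zero.2 (inv_ne_zero (mul_ne_zero hx0 hsx0))) XX_ne_zero

theorem coeff_zero_mul (r s : Sk σ) : (r * s).re.coeff 0 = r.re.coeff 0 * s.re.coeff 0 := by
  rw [mul_re, mul_assoc, coeff_add, mul_coeff_zero, mul_coeff_zero, coeff_X_zero, zero_mul,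
    add_zero]

/-- **(T4)**, constant term one, any degree -/
theorem comm_any (hσ : ∀ a, σ (σ a) = a) {x : K} (hx : σ x ≠ x) {l : K × K} (hl : l ≠ 0)
    {r : Sk σ} (h0 : r.re.coeff 0 = 1) (hN : (N r).eval x ≠ 0) :
    ∃ r' : Sk σ, r * be σ x (act x l r) = be σ x l * r' ∧ r'.re.coeff 0 = 1 ∧ N r' = N r ∧
      sharp σ x (act x l r) = ((N r).eval x)⁻¹ • act x (sharp σ x l) r' ∧
      ∀ n, r.re.natDegree ≤ n → r.im.natDegree ≤ n - 1 → 1 ≤ n →
        r'.re.natDegree ≤ n ∧ r'.im.natDegree ≤ n - 1 := by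
  have hL : act x l r ≠ 0 := act_ne_zero hσ hl hN
  have hk : act x l (r * be σ x (act x l r)) = 0 := by
    rw [act_mul hσ, act_be hσ hx hL]
  obtain ⟨r', hr', hdeg⟩ := be_dvd hσ hx hl hk
  refine ⟨r', hr', ?_, ?_, ?_, ?_⟩
  · have h1 := congrArg (fun s : Sk σ => s.re.coeff 0) hr'
    simp only [coeff_zero_mul, be_re_coeff, h0, one_mul] at h1
    exact h1.symm
  · have h1 := congrArg N hr'
    rw [N_mul hσ, N_mul hσ, N_be hσ hx hL, N_be hσ hx hl] at h1
    have h2 : (C (x * σ x)⁻¹ * XX σ x : K[X]) ≠ 0 := by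
      rw [← N_be hσ hx hl]; exact N_be_ne_zero hσ hx hl
    rw [mul_comm] at h1
    exact (mul_left_cancel₀ h2 h1).symm
  · obtain ⟨v, hv⟩ := exists_det_one hl
    have h1 : act x ((((N r).eval x)⁻¹) • act x v r) (be σ x (act x l r))
        = sharp σ x (act x l r) := by
      apply act_be_sharp hσ hx hL
      have := det_act x l v r
      rw [hv, mul_one] at this
      simp only [Prod.smul_fst, Prod.smul_snd, smul_eq_mul]
      have h2 : (act x l r).1 * (((N r).eval x)⁻¹ * (act x v r).2) -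
          (act x l r).2 * (((N r).eval x)⁻¹ * (act x v r).1) =
          ((N r).eval x)⁻¹ * ((act x l r).1 * (act x v r).2 - (act x l r).2 * (act x v r).1) := by
        ring
      rw [h2, this, inv_mul_cancel₀ hN]
    rw [← h1, act_smul, ← act_mul hσ, hr', act_mul hσ, act_be_sharp hσ hx hl hv]
  · intro n hn1 hn2 hn3
    apply hdeg n
    · simp only [mul_re]
      refine (natDegree_add_le _ _).trans (max_le ?_ ?_)
      · refine natDegree_mul_le.trans ?_
        have := be_re_deg (σ := σ) x (act x l r)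
        omega
      · refine natDegree_mul_le.trans ?_
        have h3 : (X * r.im).natDegree ≤ 1 + r.im.natDegree := by
          refine natDegree_mul_le.trans ?_
          rw [natDegree_X]
        rw [natDegree_sg, be_im_deg]
        omega
    · simp only [mul_im]
      refine (natDegree_add_le _ _).trans (max_le ?_ ?_)
      · refine natDegree_mul_le.trans ?_
        rw [be_im_deg]
        omega
      · refine natDegree_mul_le.trans ?_
        rw [natDegree_sg]
        have := be_re_deg (σ := σ) x (act x l r)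
        omega

/-- **(T4)** for small elements -/
theorem comm_small (hσ : ∀ a, σ (σ a) = a) {x : K} (hx : σ x ≠ x) {l : K × K} (hl : l ≠ 0)
    {r : Sk σ} (hr : Small r) (hN : (N r).eval x ≠ 0) :
    ∃ r' : Sk σ, Small r' ∧ r * be σ x (act x l r) = be σ x l * r' ∧ N r' = N r ∧
      sharp σ x (act x l r) = ((N r).eval x)⁻¹ • act x (sharp σ x l) r' := by
  obtain ⟨r', h1, h2, h3, h4, h5⟩ := comm_any hσ hx hl hr.1 hN
  obtain ⟨h6, h7⟩ := h5 2 hr.2.1 hr.2.2 (by norm_num)
  exact ⟨r', ⟨h2, h6, h7⟩, h1, h3, h4⟩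

/-- uniqueness of `ϖ'` -/
theorem comm_unique (hσ : ∀ a, σ (σ a) = a) {x : K} (hx : σ x ≠ x) {l : K × K} (hl : l ≠ 0)
    {r s s' : Sk σ} (h : r = be σ x l * s) (h' : r = be σ x l * s') : s = s' :=
  mul_left_cancel' hσ (N_be_ne_zero hσ hx hl) (h.symm.trans h')

theorem comm_existsUnique (hσ : ∀ a, σ (σ a) = a) {x : K} (hx : σ x ≠ x) {l : K × K} (hl : l ≠ 0)
    {r : Sk σ} (hr : Small r) (hN : (N r).eval x ≠ 0) :
    ∃! r' : Sk σ, Small r' ∧ r * be σ x (act x l r) = be σ x l * r' ∧ N r' = N r ∧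
      sharp σ x (act x l r) = ((N r).eval x)⁻¹ • act x (sharp σ x l) r' := by
  obtain ⟨r', h⟩ := comm_small hσ hx hl hr hN
  exact ⟨r', h, fun s hs => comm_unique hσ hx hl hs.2.1 h.2.1⟩

/-- injectivity of `ϖ ↦ ϖ'` for a fixed line -/
theorem comm_inj (hσ : ∀ a, σ (σ a) = a) {x : K} (hx : σ x ≠ x) {l : K × K} (hl : l ≠ 0)
    {r₁ r₂ r' : Sk σ} (hN₁ : (N r₁).eval x ≠ 0) (hN₂ : (N r₂).eval x ≠ 0)
    (e₁ : r₁ * be σ x (act x l r₁) = be σ x l * r') (e₂ : r₂ * be σ x (act x l r₂) = be σ x l * r')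
    (n₁ : N r' = N r₁) (n₂ : N r' = N r₂)
    (s₁ : sharp σ x (act x l r₁) = ((N r₁).eval x)⁻¹ • act x (sharp σ x l) r')
    (s₂ : sharp σ x (act x l r₂) = ((N r₂).eval x)⁻¹ • act x (sharp σ x l) r') : r₁ = r₂ := by
  have hL₁ : act x l r₁ ≠ 0 := act_ne_zero hσ hl hN₁
  have hL₂ : act x l r₂ ≠ 0 := act_ne_zero hσ hl hN₂
  have h1 : sharp σ x (act x l r₁) = sharp σ x (act x l r₂) := by
    rw [s₁, s₂, ← n₁, ← n₂]
  have h2 : be σ x (act x l r₁) = be σ x (act x l r₂) := by
    rw [← conj_conj hσ (be σ x (act x l r₁)), conj_be hσ hx hL₁, h1, ← conj_be hσ hx hL₂,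
      conj_conj hσ]
  rw [← h2, ← e₁] at e₂
  exact mul_right_cancel' hσ (N_be_ne_zero hσ hx hL₁) e₂.symm

end Crest.Agent.R289.Corner223
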