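import Crest.Agent.R289.HeckeTwo_622
import Crest.Agent.R289.Corner_223

/-!
Row 289, block A: digits of the small elements (605's `el`), reindexing of Hecke sums, weights.
-/

set_option autoImplicit false

namespace Crest.Agent.R289.HeckePlug548

open Polynomial Crest.Agent.R289.Exp820 Crest.Agent.R289.Exp820.Sk Crest.Agent.R289.Fac281
  Crest.Agent.R289.Corner223 Crest.Agent.R289.HeckeTwo622

section digits

variable {K : Type*} [Field K] {σ : K →+* K}

/-- the small element with digits `a 0, …, a 3` -/
noncomputable def el (σ : K →+* K) (a : Fin 4 → K) : Sk σ :=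
  ⟨1 + C (a 1) * X + C (a 3) * X ^ 2, C (a 0) + C (a 2) * X⟩

theorem el_small (a : Fin 4 → K) : Small (el σ a) := by
  refine ⟨?_, ?_, ?_⟩
  · simp [el, coeff_X, coeff_one]
  · simp only [el]
    compute_degree
  · simp only [el]
    compute_degree

theorem el_inj : Function.Injective (el σ) := by
  intro a b h
  have h1 := congrArg (fun r : Sk σ => r.im.coeff 0) h
  have h2 := congrArg (fun r : Sk σ => r.re.coeff 1) h
  have h3 := congrArg (fun r : Sk σ => r.im.coeff 1) h
  have h4 := congrArg (fun r : Sk σ => r.re.coeff 2) h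
  simp [el, coeff_X, coeff_one, coeff_C, coeff_X_pow] at h1 h2 h3 h4
  funext i
  fin_cases i
  · exact h1
  · exact h2
  · exact h3
  · exact h4

theorem el_surj {r : Sk σ} (hr : Small r) : ∃ a, el σ a = r := by
  obtain ⟨h0, h1, h2⟩ := hr
  refine ⟨![r.im.coeff 0, r.re.coeff 1, r.im.coeff 1, r.re.coeff 2], ?_⟩
  apply Fac281.ext'
  · simp only [el]
    ext n
    simp only [coeff_add, coeff_one, coeff_C_mul, coeff_X, coeff_X_pow, Matrix.cons_val_one,
      Matrix.cons_val_zero, Matrix.cons_val]
    match n with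
    | 0 => simp [h0]
    | 1 => simp
    | 2 => simp
    | n + 3 =>
      rw [coeff_eq_zero_of_natDegree_lt (p := r.re) (n := n + 3) (by omega)]
      simp
  · simp only [el]
    ext n
    simp only [coeff_add, coeff_C, coeff_C_mul, coeff_X,
      Matrix.cons_val_zero, Matrix.cons_val]
    match n with
    | 0 => simp
    | 1 => simp
    | n + 2 =>
      rw [coeff_eq_zero_of_natDegree_lt (p := r.im) (n := n + 2) (by omega)]
      simp

end digits

section reindex

variable {K : Type*} [Field K] {P : Type*} [Group P] {Λ Λ' : Type*} [Fintype Λ] [Fintype Λ']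

/-- a Hecke sum over `Λ` with a weight that vanishes outside the image of `e` is the sum over
`Λ'` -/
theorem S_reindex (s t : ℕ) (ν : Λ → P) (X' Y' : Λ → (K × K) →ₗ[K] (K × K)) (wt : Λ → K)
    (e : Λ' → Λ) (he : Function.Injective e) (hw : ∀ a, (¬ ∃ b, e b = a) → wt a = 0) :
    S s t ν X' Y' wt = S s t (fun b => ν (e b)) (fun b => X' (e b)) (fun b => Y' (e b))
      (fun b => wt (e b)) := by
  classical
  apply LinearMap.ext
  intro w
  funext p i j
  show ∑ a, _ = ∑ b, _
  rw [← Finset.sum_image (s := (Finset.univ : Finset Λ')) (g := e)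
    (f := fun a => wt a * ext2 s t (w (p * ν a)) (X' a (rp i)) (Y' a (rp j)))
    (fun a _ b _ h => he h)]
  symm
  apply Finset.sum_subset (Finset.subset_univ _)
  intro a _ ha
  rw [hw a, zero_mul]
  rintro ⟨b, hb⟩
  exact ha (Finset.mem_image.2 ⟨b, Finset.mem_univ _, hb⟩)

end reindex

end Crest.Agent.R289.HeckePlug548
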