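import Mathlib

/-!
Block B, item B2 (row 289): robust (agreement) testability of the tensor product of two
Reed–Solomon codes (Polishchuk–Spielman), by linear algebra only.  helper459.
-/

set_option autoImplicit false

open Polynomial Polynomial.Bivariate

namespace Crest.Agent.R289.PS459

section basic

variable {F : Type*} [Field F]

/-- `p(x, ·)` as polynomial in `y`. -/
noncomputable def rowP (p : F[X][Y]) (x : F) : F[X] := p.map (evalRingHom x)

/-- `p(·, y)` as polynomial in `x`. -/
noncomputable def colP (p : F[X][Y]) (y : F) : F[X] := p.eval (C y)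

/-- degree in the inner variable. -/
noncomputable def xdeg (p : F[X][Y]) : ℕ := (swap p).natDegree

theorem coeff_swap (p : F[X][Y]) (i j : ℕ) : ((swap p).coeff i).coeff j = (p.coeff j).coeff i := by
  induction p using Polynomial.induction_on' with
  | add p q hp hq => simp only [map_add, coeff_add, hp, hq]
  | monomial n a =>
    induction a using Polynomial.induction_on' with
    | add p q hp hq => simp only [map_add, coeff_add, hp, hq]
    | monomial m r =>
      rw [swap_monomial_monomial]
      simp only [coeff_monomial]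
      by_cases h1 : m = i <;> by_cases h2 : n = j <;> simp [h1, h2, coeff_monomial]

theorem rowP_mul (p q : F[X][Y]) (x : F) : rowP (p * q) x = rowP p x * rowP q x := by
  simp [rowP]

theorem colP_mul (p q : F[X][Y]) (x : F) : colP (p * q) x = colP p x * colP q x := by
  simp [colP]

theorem rowP_sub (p q : F[X][Y]) (x : F) : rowP (p - q) x = rowP p x - rowP q x := by
  simp [rowP]

theorem rowP_smul (c : F) (p : F[X][Y]) (x : F) : rowP (c • p) x = c • rowP p x := by
  ext j
  simp [rowP, coeff_map, coeff_smul, eval_smul]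

theorem coeff_rowP (p : F[X][Y]) (x : F) (j : ℕ) : (rowP p x).coeff j = (p.coeff j).eval x := by
  simp [rowP, coeff_map]

theorem rowP_eq (p : F[X][Y]) (x : F) : rowP p x = (swap p).eval (C x) := by
  induction p using Polynomial.induction_on' with
  | add p q hp hq => simp only [rowP, Polynomial.map_add, map_add, eval_add] at *; rw [hp, hq]
  | monomial n a =>
    rw [swap_monomial]
    simp only [rowP, map_monomial, eval_mul, eval_C, coe_evalRingHom, eval_map]
    rw [← C_mul_X_pow_eq_monomial]
    congr 1
    exact (eval₂_at_apply C x).symm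

theorem rowP_swap (p : F[X][Y]) (y : F) : rowP (swap p) y = colP p y := by
  rw [rowP_eq, Bivariate.swap_swap_apply]; rfl

theorem colP_swap (p : F[X][Y]) (x : F) : colP (swap p) x = rowP p x := by
  rw [rowP_eq]; rfl

theorem xdeg_swap (p : F[X][Y]) : xdeg (swap p) = p.natDegree := by
  rw [xdeg, Bivariate.swap_swap_apply]

theorem eval_rowP (p : F[X][Y]) (x y : F) : (rowP p x).eval y = (colP p y).eval x := by
  induction p using Polynomial.induction_on' with
  | add p q hp hq => simp only [rowP, colP, Polynomial.map_add, eval_add] at *; rw [hp, hq]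
  | monomial n a => simp [rowP, colP]

theorem xdeg_mul {p q : F[X][Y]} (hp : p ≠ 0) (hq : q ≠ 0) : xdeg (p * q) = xdeg p + xdeg q := by
  unfold xdeg
  rw [map_mul, natDegree_mul]
  · exact fun h => hp (by simpa using h)
  · exact fun h => hq (by simpa using h)

theorem xdeg_mul_le (p q : F[X][Y]) : xdeg (p * q) ≤ xdeg p + xdeg q := by
  unfold xdeg; rw [map_mul]; exact natDegree_mul_le

theorem xdeg_le_iff (p : F[X][Y]) (n : ℕ) : xdeg p ≤ n ↔ ∀ j, (p.coeff j).natDegree ≤ n := by
  unfold xdeg
  constructor
  · intro h j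
    rw [natDegree_le_iff_coeff_eq_zero]
    intro i hi
    rw [← coeff_swap, coeff_eq_zero_of_natDegree_lt (lt_of_le_of_lt h hi), coeff_zero]
  · intro h
    rw [natDegree_le_iff_coeff_eq_zero]
    intro i hi
    ext j
    rw [coeff_swap, coeff_zero]
    exact coeff_eq_zero_of_natDegree_lt (lt_of_le_of_lt (h j) hi)

/-- a nonzero bivariate polynomial has at most `xdeg` zero rows. -/
theorem card_zero_rows (p : F[X][Y]) (hp : p ≠ 0) (s : Finset F) (hs : ∀ x ∈ s, rowP p x = 0) :
    s.card ≤ xdeg p := by
  by_contra hlt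
  push Not at hlt
  apply hp
  have h := eq_zero_of_natDegree_lt_card_of_eval_eq_zero' (swap p) (s.map ⟨C, C_injective⟩) ?_ ?_
  · simpa using h
  · intro i hi
    rw [Finset.mem_map] at hi
    obtain ⟨x, hx, rfl⟩ := hi
    have := hs x hx
    rw [rowP_eq] at this
    exact this
  · rw [Finset.card_map]; exact hlt

/-- equality from rows. -/
theorem ext_rows (p q : F[X][Y]) (n : ℕ) (hp : xdeg p ≤ n) (hq : xdeg q ≤ n) (s : Finset F)
    (hs : n < s.card) (h : ∀ x ∈ s, rowP p x = rowP q x) : p = q := by
  by_contra hne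
  have h1 : p - q ≠ 0 := sub_ne_zero.mpr hne
  have h2 := card_zero_rows (p - q) h1 s (fun x hx => by rw [rowP_sub, h x hx, sub_self])
  have h3 : xdeg (p - q) ≤ n := by
    unfold xdeg at *; rw [map_sub]
    exact (natDegree_sub_le _ _).trans (max_le hp hq)
  omega

theorem card_zero_cols (p : F[X][Y]) (hp : p ≠ 0) (s : Finset F) (hs : ∀ y ∈ s, colP p y = 0) :
    s.card ≤ p.natDegree := by
  have := card_zero_rows (swap p) (by simpa using hp) s (fun y hy => by rw [rowP_swap]; exact hs y hy)
  rwa [xdeg_swap] at this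

/-! ### polynomials with given coefficients -/

/-- polynomial with `x`-degree `< M` and `y`-degree `< N`. -/
noncomputable def mk (M N : ℕ) : (Fin M × Fin N → F) →ₗ[F] F[X][Y] where
  toFun v := ∑ ij : Fin M × Fin N, monomial (ij.2 : ℕ) (monomial (ij.1 : ℕ) (v ij))
  map_add' u v := by simp [Finset.sum_add_distrib]
  map_smul' c v := by
    simp only [Pi.smul_apply, smul_eq_mul, RingHom.id_apply, Finset.smul_sum]
    refine Finset.sum_congr rfl fun ij _ => ?_
    rw [smul_monomial, smul_monomial, smul_eq_mul]

theorem coeff_mk (M N : ℕ) (v : Fin M × Fin N → F) (i j : ℕ) :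
    ((mk M N v).coeff j).coeff i =
      if h : i < M ∧ j < N then v (⟨i, h.1⟩, ⟨j, h.2⟩) else 0 := by
  simp only [mk, LinearMap.coe_mk, AddHom.coe_mk, finsetSum_coeff, coeff_monomial]
  split_ifs with h
  · rw [Finset.sum_eq_single (⟨i, h.1⟩, ⟨j, h.2⟩)]
    · simp
    · rintro ⟨a, b⟩ _ hne
      by_cases hb : (b : ℕ) = j
      · have ha : (a : ℕ) ≠ i := by
          intro ha; apply hne; ext <;> simp [ha, hb]
        simp [hb, coeff_monomial, ha]
      · simp [hb]
    · intro h'; exact absurd (Finset.mem_univ _) h'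
  · apply Finset.sum_eq_zero
    rintro ⟨a, b⟩ _
    by_cases hb : (b : ℕ) = j
    · by_cases ha : (a : ℕ) = i
      · exact absurd ⟨ha ▸ a.2, hb ▸ b.2⟩ h
      · simp [hb, coeff_monomial, ha]
    · simp [hb]

theorem mk_injective (M N : ℕ) (v : Fin M × Fin N → F) (h : mk M N v = 0) : v = 0 := by
  funext ⟨i, j⟩
  have := coeff_mk M N v i j
  rw [h] at this
  simp only [coeff_zero, i.2, j.2, and_self, dite_true, Fin.eta] at this
  exact this.symm

theorem xdeg_mk (M N : ℕ) (v : Fin M × Fin N → F) : xdeg (mk M N v) ≤ M - 1 := by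
  rw [xdeg_le_iff]
  intro j
  rw [natDegree_le_iff_coeff_eq_zero]
  intro i hi
  rw [coeff_mk, dif_neg]
  omega

theorem ydeg_mk (M N : ℕ) (v : Fin M × Fin N → F) : (mk M N v).natDegree ≤ N - 1 := by
  rw [natDegree_le_iff_coeff_eq_zero]
  intro j hj
  ext i
  rw [coeff_mk, dif_neg, coeff_zero]
  omega

/-- Key linear algebra step. -/
theorem key {E P : F[X][Y]} (hE : E ≠ 0) (a b d e k : ℕ) (ha : xdeg E ≤ a)
    (hPa : xdeg P ≤ a + d) (hb : 1 ≤ b) (hk : a * (b + e) < k * b)
    (s : Finset F) (hs : k + a + d ≤ s.card)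
    (h : ∀ x ∈ s, ∃ R : F[X], R.natDegree ≤ e ∧ rowP P x = rowP E x * R) :
    ∃ A B : F[X][Y], B ≠ 0 ∧ B.natDegree < b ∧ E * A = P * B := by
  classical
  obtain ⟨t, hts, htc⟩ := Finset.exists_subset_card_eq hs
  choose! R hR1 hR2 using h
  let T : ((Fin (k + d) × Fin (b + e) → F) × (Fin k × Fin b → F)) →ₗ[F] (t × Fin (b + e) → F) :=
    { toFun := fun u xj => (rowP (mk (k + d) (b + e) u.1) xj.1
          - R xj.1 * rowP (mk k b u.2) xj.1).coeff xj.2
      map_add' := fun u v => by
        funext xj
        simp only [Prod.fst_add, Prod.snd_add, map_add, rowP, Polynomial.map_add, mul_add,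
          coeff_sub, coeff_add, Pi.add_apply]
        ring
      map_smul' := fun c u => by
        funext xj
        simp only [Prod.smul_fst, Prod.smul_snd, map_smul, rowP_smul, RingHom.id_apply,
          Pi.smul_apply, smul_eq_mul, coeff_sub, mul_smul_comm, coeff_smul]
        ring }
  have hrank : Module.finrank F (t × Fin (b + e) → F) <
      Module.finrank F ((Fin (k + d) × Fin (b + e) → F) × (Fin k × Fin b → F)) := by
    rw [Module.finrank_prod, Module.finrank_fintype_fun_eq_card,
      Module.finrank_fintype_fun_eq_card, Module.finrank_fintype_fun_eq_card]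
    simp only [Fintype.card_prod, Fintype.card_fin, Fintype.card_coe, htc]
    nlinarith
  have hker := LinearMap.ker_ne_bot_of_finrank_lt hrank (f := T)
  rw [Submodule.ne_bot_iff] at hker
  obtain ⟨⟨u, v⟩, huv, hne⟩ := hker
  rw [LinearMap.mem_ker] at huv
  have hk1 : 1 ≤ k := by
    rcases Nat.eq_zero_or_pos k with h0 | h0
    · subst h0; omega
    · exact h0
  have hrow : ∀ x ∈ t, rowP (mk (k + d) (b + e) u) x = R x * rowP (mk k b v) x := by
    intro x hx
    rw [← sub_eq_zero]
    ext j
    rw [coeff_zero]
    by_cases hj : j < b + e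
    · have := congrFun huv (⟨x, hx⟩, ⟨j, hj⟩)
      simpa [T] using this
    · apply coeff_eq_zero_of_natDegree_lt
      have h1 : (rowP (mk (k + d) (b + e) u) x).natDegree ≤ b + e - 1 :=
        (natDegree_map_le).trans (ydeg_mk _ _ _)
      have h2 : (R x * rowP (mk k b v) x).natDegree ≤ e + (b - 1) :=
        (natDegree_mul_le).trans (Nat.add_le_add (hR1 x (hts hx))
          ((natDegree_map_le).trans (ydeg_mk _ _ _)))
      have h3 := natDegree_sub_le (rowP (mk (k + d) (b + e) u) x) (R x * rowP (mk k b v) x)
      omega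
  have heq : E * mk (k + d) (b + e) u = P * mk k b v := by
    apply ext_rows _ _ (a + (k + d - 1)) _ _ t _ _
    · exact (xdeg_mul_le _ _).trans (Nat.add_le_add ha (xdeg_mk _ _ _))
    · have := (xdeg_mul_le P (mk k b v)).trans (Nat.add_le_add hPa (xdeg_mk _ _ _))
      omega
    · omega
    · intro x hx
      rw [rowP_mul, rowP_mul, hrow x hx, hR2 x (hts hx)]
      ring
  refine ⟨mk (k + d) (b + e) u, mk k b v, ?_, ?_, heq⟩
  · intro h0
    rw [h0, mul_zero] at heq
    have h1 : mk (k + d) (b + e) u = 0 := by
      rcases mul_eq_zero.mp heq with h | h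
      · exact absurd h hE
      · exact h
    exact hne (Prod.ext (mk_injective _ _ _ h1) (mk_injective _ _ _ h0))
  · have := ydeg_mk k b v
    omega

/-- core of the divisibility lemma for relatively prime polynomials. -/
theorem core {E P : F[X][Y]} (hE : E ≠ 0) (d e : ℕ) (hrel : IsRelPrime E P)
    (hPa : xdeg P ≤ xdeg E + d) (hab : xdeg E ≤ E.natDegree) (hb : 1 ≤ E.natDegree)
    (s : Finset F) (hs : 2 * xdeg E + d + e + 1 ≤ s.card)
    (h : ∀ x ∈ s, ∃ R : F[X], R.natDegree ≤ e ∧ rowP P x = rowP E x * R) : False := by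
  obtain ⟨A, B, hB, hBd, hAB⟩ := key hE (xdeg E) E.natDegree d e (xdeg E + e + 1) le_rfl hPa hb
    (by nlinarith) s (by omega) h
  have hdvd : E ∣ P * B := ⟨A, hAB.symm⟩
  have h2 : E ∣ B := hrel.dvd_of_dvd_mul_left hdvd
  have := natDegree_le_of_dvd h2 hB
  omega

theorem isRelPrime_swap {E P : F[X][Y]} (h : IsRelPrime E P) : IsRelPrime (swap E) (swap P) := by
  intro q h1 h2
  have h3 : swap q ∣ E := by
    have := map_dvd (swap (R := F)) h1
    rwa [Bivariate.swap_swap_apply] at this
  have h4 : swap q ∣ P := by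
    have := map_dvd (swap (R := F)) h2
    rwa [Bivariate.swap_swap_apply] at this
  have h5 := h h3 h4
  have := h5.map (swap (R := F))
  rwa [Bivariate.swap_swap_apply] at this

/-- The divisibility lemma of Polishchuk and Spielman. -/
theorem dvd_of_rows_cols {E P : F[X][Y]} (hE : E ≠ 0) (d e : ℕ)
    (hPx : xdeg P ≤ xdeg E + d) (hPy : P.natDegree ≤ E.natDegree + e)
    (s t : Finset F) (hs : 2 * xdeg E + d + e + 1 ≤ s.card)
    (ht : 2 * E.natDegree + d + e + 1 ≤ t.card)
    (h : ∀ x ∈ s, ∃ R : F[X], R.natDegree ≤ e ∧ rowP P x = rowP E x * R)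
    (h' : ∀ y ∈ t, ∃ R : F[X], R.natDegree ≤ d ∧ colP P y = colP E y * R) : E ∣ P := by
  classical
  by_cases hP : P = 0
  · rw [hP]; exact dvd_zero E
  obtain ⟨E', P', G, hrel, hGE, hGP⟩ := UniqueFactorizationMonoid.exists_reduced_factors E hE P
  have hG : G ≠ 0 := by rintro rfl; simp at hGE; exact hE hGE.symm
  have hE' : E' ≠ 0 := by rintro rfl; simp at hGE; exact hE hGE.symm
  have hP' : P' ≠ 0 := by rintro rfl; simp at hGP; exact hP hGP.symm
  have dE : xdeg E = xdeg G + xdeg E' := by rw [← hGE, xdeg_mul hG hE']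
  have dP : xdeg P = xdeg G + xdeg P' := by rw [← hGP, xdeg_mul hG hP']
  have nE : E.natDegree = G.natDegree + E'.natDegree := by rw [← hGE, natDegree_mul hG hE']
  have nP : P.natDegree = G.natDegree + P'.natDegree := by rw [← hGP, natDegree_mul hG hP']
  by_cases hab : xdeg E' ≤ E'.natDegree
  · by_cases hb : 1 ≤ E'.natDegree
    · exfalso
      set s' := s.filter (fun x => rowP G x ≠ 0) with hs'
      have hc1 : (s.filter (fun x => ¬ (rowP G x ≠ 0))).card ≤ xdeg G :=
        card_zero_rows G hG _ (fun x hx => by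
          rw [Finset.mem_filter] at hx; simpa using hx.2)
      have hc2 : s'.card + (s.filter (fun x => ¬ (rowP G x ≠ 0))).card = s.card :=
        Finset.card_filter_add_card_filter_not (s := s) (fun x => rowP G x ≠ 0)
      refine core hE' d e hrel (by omega) hab hb s' (by omega) ?_
      intro x hx
      rw [hs', Finset.mem_filter] at hx
      obtain ⟨R, hR, hR2⟩ := h x hx.1
      refine ⟨R, hR, ?_⟩
      rw [← hGE, ← hGP, rowP_mul, rowP_mul, mul_assoc] at hR2
      exact mul_left_cancel₀ hx.2 hR2
    · have hb0 : E'.natDegree = 0 := by omega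
      have ha0 : xdeg E' = 0 := by omega
      obtain ⟨f, hf⟩ := natDegree_eq_zero.mp hb0
      have hf0 : f.natDegree ≤ 0 := by
        have := (xdeg_le_iff E' 0).mp (by omega) 0
        rw [← hf, coeff_C_zero] at this
        exact this
      obtain ⟨c, hc⟩ := natDegree_eq_zero.mp (Nat.le_zero.mp hf0)
      have hunit : IsUnit E' := by
        rw [← hf, ← hc]
        have hc0 : c ≠ 0 := by
          rintro rfl
          apply hE'
          rw [← hf, ← hc]; simp
        exact ((IsUnit.mk0 c hc0).map C).map C
      have h1 : E ∣ G := by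
        rw [← hGE]
        exact (hunit.mul_right_dvd).mpr dvd_rfl
      exact h1.trans ⟨P', hGP.symm⟩
  · exfalso
    push Not at hab
    set t' := t.filter (fun y => colP G y ≠ 0) with ht'
    have hc1 : (t.filter (fun y => ¬ (colP G y ≠ 0))).card ≤ G.natDegree :=
      card_zero_cols G hG _ (fun y hy => by
        rw [Finset.mem_filter] at hy; simpa using hy.2)
    have hc2 : t'.card + (t.filter (fun y => ¬ (colP G y ≠ 0))).card = t.card :=
      Finset.card_filter_add_card_filter_not (s := t) (fun y => colP G y ≠ 0)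
    have hsE : swap E' ≠ 0 := by simpa using hE'
    have e1 : (swap E').natDegree = xdeg E' := rfl
    refine core hsE e d (isRelPrime_swap hrel) ?_ ?_ ?_ t' ?_ ?_
    · rw [xdeg_swap, xdeg_swap]; omega
    · rw [xdeg_swap, e1]; omega
    · rw [e1]; omega
    · rw [xdeg_swap]; omega
    intro y hy
    rw [ht', Finset.mem_filter] at hy
    obtain ⟨R, hR, hR2⟩ := h' y hy.1
    refine ⟨R, hR, ?_⟩
    rw [rowP_swap, rowP_swap]
    rw [← hGE, ← hGP, colP_mul, colP_mul, mul_assoc] at hR2
    exact mul_left_cancel₀ hy.2 hR2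

/-- error locator. -/
theorem locator (a b : ℕ) (S : Finset (F × F)) (hS : S.card < (a + 1) * (b + 1)) :
    ∃ E : F[X][Y], E ≠ 0 ∧ xdeg E ≤ a ∧ E.natDegree ≤ b ∧ ∀ p ∈ S, (rowP E p.1).eval p.2 = 0 := by
  classical
  let T : (Fin (a + 1) × Fin (b + 1) → F) →ₗ[F] (S → F) :=
    { toFun := fun v p => (rowP (mk (a + 1) (b + 1) v) p.1.1).eval p.1.2
      map_add' := fun u v => by
        funext p
        simp only [map_add, rowP, Polynomial.map_add, eval_add, Pi.add_apply]
      map_smul' := fun c u => by
        funext p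
        simp only [map_smul, rowP_smul, RingHom.id_apply, Pi.smul_apply, smul_eq_mul, eval_smul] }
  have hrank : Module.finrank F (S → F) < Module.finrank F (Fin (a + 1) × Fin (b + 1) → F) := by
    rw [Module.finrank_fintype_fun_eq_card, Module.finrank_fintype_fun_eq_card]
    simpa using hS
  have hker := LinearMap.ker_ne_bot_of_finrank_lt hrank (f := T)
  rw [Submodule.ne_bot_iff] at hker
  obtain ⟨v, hv, hne⟩ := hker
  rw [LinearMap.mem_ker] at hv
  refine ⟨mk (a + 1) (b + 1) v, fun h => hne (mk_injective _ _ _ h), xdeg_mk _ _ _, ydeg_mk _ _ _,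
    ?_⟩
  intro p hp
  exact congrFun hv ⟨p, hp⟩

/-- polynomials are determined by few values. -/
theorem eq_of_eval_eq {f g : F[X]} {n : ℕ} (hf : f.natDegree ≤ n) (hg : g.natDegree ≤ n)
    (s : Finset F) (hs : n + 1 ≤ s.card) (h : ∀ x ∈ s, f.eval x = g.eval x) : f = g := by
  rw [← sub_eq_zero]
  apply eq_zero_of_natDegree_lt_card_of_eval_eq_zero' _ s
  · intro x hx
    rw [eval_sub, h x hx, sub_self]
  · have := natDegree_sub_le f g
    omega

/-- tensor product of Reed–Solomon codes = bivariate polynomials. -/
theorem glue (M N : ℕ) (s t : Finset F) (hs : M + 1 ≤ s.card) (ht : N + 1 ≤ t.card)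
    (f g : F → F[X]) (hf : ∀ x ∈ s, (f x).natDegree ≤ N) (hg : ∀ y ∈ t, (g y).natDegree ≤ M)
    (h : ∀ x ∈ s, ∀ y ∈ t, (f x).eval y = (g y).eval x) :
    ∃ P : F[X][Y], xdeg P ≤ M ∧ P.natDegree ≤ N ∧ (∀ x ∈ s, rowP P x = f x) ∧
      ∀ y ∈ t, colP P y = g y := by
  classical
  obtain ⟨s1, hs1, hc1⟩ := Finset.exists_subset_card_eq hs
  let P : F[X][Y] := ∑ x ∈ s1, (f x).map C * C (Lagrange.basis s1 id x)
  have hinj : Set.InjOn (id : F → F) s1 := Function.injective_id.injOn
  have hcolP : ∀ y, colP P y = ∑ x ∈ s1, C ((f x).eval y) * Lagrange.basis s1 id x := by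
    intro y
    simp only [P, colP, eval_finsetSum, eval_mul, eval_C, eval_map]
    refine Finset.sum_congr rfl fun x _ => ?_
    congr 1
    exact eval₂_at_apply C y
  have hcolP_deg : ∀ y, (colP P y).natDegree ≤ M := by
    intro y
    rw [hcolP]
    apply natDegree_sum_le_of_forall_le
    intro x hx
    refine (natDegree_C_mul_le _ _).trans ?_
    rw [Lagrange.natDegree_basis hinj hx, hc1]
    omega
  have hcolP_eval : ∀ y, ∀ x ∈ s1, (colP P y).eval x = (f x).eval y := by
    intro y x hx
    rw [hcolP, eval_finsetSum, Finset.sum_eq_single x]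
    · have := Lagrange.eval_basis_self (v := (id : F → F)) hinj hx
      simp only [id] at this
      rw [eval_mul, eval_C]
      erw [this]
      rw [mul_one]
    · intro x' hx' hne
      have := Lagrange.eval_basis_of_ne (v := (id : F → F)) hne hx
      rw [eval_mul, eval_C]
      erw [this]
      rw [mul_zero]
    · intro hx'; exact absurd hx hx'
  have hcol : ∀ y ∈ t, colP P y = g y := by
    intro y hy
    apply eq_of_eval_eq (hcolP_deg y) (hg y hy) s1 (by omega)
    intro x hx
    rw [hcolP_eval y x hx, h x (hs1 hx) y hy]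
  have hPx : xdeg P ≤ M := by
    rw [xdeg_le_iff]
    intro j
    simp only [P, finsetSum_coeff, coeff_mul_C, coeff_map]
    apply natDegree_sum_le_of_forall_le
    intro x hx
    refine (natDegree_C_mul_le _ _).trans ?_
    rw [Lagrange.natDegree_basis hinj hx, hc1]
    omega
  have hPy : P.natDegree ≤ N := by
    apply natDegree_sum_le_of_forall_le
    intro x hx
    refine (natDegree_mul_C_le _ _).trans ?_
    exact (natDegree_map_le).trans (hf x (hs1 hx))
  refine ⟨P, hPx, hPy, ?_, hcol⟩
  intro x hx
  apply eq_of_eval_eq ((natDegree_map_le).trans hPy) (hf x hx) t ht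
  intro y hy
  change (rowP P x).eval y = _
  rw [eval_rowP P x y, hcol y hy, h x hx y hy]

/-- Polishchuk–Spielman, first form. -/
theorem ps_weak (d e a b : ℕ) (s t : Finset F) (r c : F → F[X])
    (hr : ∀ x ∈ s, (r x).natDegree ≤ e) (hc : ∀ y ∈ t, (c y).natDegree ≤ d)
    (S : Finset (F × F)) (hS : ∀ x ∈ s, ∀ y ∈ t, (r x).eval y ≠ (c y).eval x → (x, y) ∈ S)
    (hSc : S.card < (a + 1) * (b + 1))
    (hs : 2 * a + d + e + 1 ≤ s.card) (ht : 2 * b + d + e + 1 ≤ t.card) :
    ∃ Q : F[X][Y], xdeg Q ≤ d ∧ Q.natDegree ≤ e ∧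
      (∀ u ⊆ s, (∀ x ∈ u, rowP Q x ≠ r x) → u.card ≤ a) ∧
      (∀ u ⊆ t, (∀ y ∈ u, colP Q y ≠ c y) → u.card ≤ b) := by
  obtain ⟨E, hE, hEa, hEb, hES⟩ := locator a b S hSc
  have hrE : ∀ x, (rowP E x).natDegree ≤ E.natDegree := fun x => natDegree_map_le
  have hcE : ∀ y, (colP E y).natDegree ≤ xdeg E := fun y => by
    rw [← rowP_swap]; exact natDegree_map_le
  obtain ⟨P, hPx, hPy, hPr, hPc⟩ := glue (xdeg E + d) (E.natDegree + e) s t (by omega) (by omega)
    (fun x => rowP E x * r x) (fun y => colP E y * c y)
    (fun x hx => natDegree_mul_le.trans (Nat.add_le_add (hrE x) (hr x hx)))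
    (fun y hy => natDegree_mul_le.trans (Nat.add_le_add (hcE y) (hc y hy)))
    (fun x hx y hy => by
      rw [eval_mul, eval_mul, eval_rowP]
      by_cases h : (r x).eval y = (c y).eval x
      · rw [h]
      · have := hES _ (hS x hx y hy h)
        rw [eval_rowP] at this
        rw [this, zero_mul, zero_mul])
  have hdvd : E ∣ P := dvd_of_rows_cols hE d e hPx hPy s t (by omega) (by omega)
    (fun x hx => ⟨r x, hr x hx, hPr x hx⟩) (fun y hy => ⟨c y, hc y hy, hPc y hy⟩)
  obtain ⟨Q, hQ⟩ := hdvd
  refine ⟨Q, ?_, ?_, ?_, ?_⟩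
  · by_cases hQ0 : Q = 0
    · rw [hQ0]; simp [xdeg]
    · have := xdeg_mul hE hQ0
      rw [← hQ] at this
      omega
  · by_cases hQ0 : Q = 0
    · rw [hQ0]; simp
    · have := natDegree_mul hE hQ0
      rw [← hQ] at this
      omega
  · intro u hu h
    refine (card_zero_rows E hE u fun x hx => ?_).trans hEa
    by_contra hne
    apply h x hx
    have := hPr x (hu hx)
    rw [hQ, rowP_mul] at this
    exact mul_left_cancel₀ hne this
  · intro u hu h
    refine (card_zero_cols E hE u fun y hy => ?_).trans hEb
    by_contra hne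
    apply h y hy
    have := hPc y (hu hy)
    rw [hQ, colP_mul] at this
    exact mul_left_cancel₀ hne this

/-! ### the projective line -/

/-- evaluation on the projective line, value at infinity = top coefficient. -/
noncomputable def ev (s : ℕ) (p : F[X]) : Option F → F
  | some x => p.eval x
  | none => p.coeff s

/-- row of a tensor word, `d` = degree in `x`. -/
noncomputable def rowO (d : ℕ) (Q : F[X][Y]) : Option F → F[X]
  | some x => rowP Q x
  | none => (swap Q).coeff d

/-- column of a tensor word, `e` = degree in `y`. -/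
noncomputable def colO (e : ℕ) (Q : F[X][Y]) : Option F → F[X]
  | some y => colP Q y
  | none => Q.coeff e

theorem ev_row_col (d e : ℕ) (Q : F[X][Y]) (a b : Option F) :
    ev e (rowO d Q a) b = ev d (colO e Q b) a := by
  cases a with
  | some x =>
    cases b with
    | some y => exact eval_rowP Q x y
    | none => exact coeff_rowP Q x e
  | none =>
    cases b with
    | some y =>
      change ((swap Q).coeff d).eval y = (colP Q y).coeff d
      rw [← coeff_rowP, rowP_swap]
    | none => exact coeff_swap Q d e

theorem natDegree_rowO (d e : ℕ) (Q : F[X][Y]) (h : Q.natDegree ≤ e) (a : Option F) :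
    (rowO d Q a).natDegree ≤ e := by
  cases a with
  | some x => exact natDegree_map_le.trans h
  | none =>
    rw [natDegree_le_iff_coeff_eq_zero]
    intro j hj
    change ((swap Q).coeff d).coeff j = 0
    rw [coeff_swap, coeff_eq_zero_of_natDegree_lt (lt_of_le_of_lt h hj), coeff_zero]

theorem natDegree_colO (d e : ℕ) (Q : F[X][Y]) (h : xdeg Q ≤ d) (b : Option F) :
    (colO e Q b).natDegree ≤ d := by
  cases b with
  | some y =>
    change (colP Q y).natDegree ≤ d
    rw [← rowP_swap]; exact natDegree_map_le.trans h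
  | none => exact (xdeg_le_iff Q d).mp h e

/-- two different polynomials of degree `≤ s` agree in at most `s` points of the projective line. -/
theorem card_agree {s : ℕ} {p q : F[X]} (hp : p.natDegree ≤ s) (hq : q.natDegree ≤ s)
    (hne : p ≠ q) (T : Finset (Option F)) (hT : ∀ b ∈ T, ev s p b = ev s q b) : T.card ≤ s := by
  classical
  have hD : p - q ≠ 0 := sub_ne_zero.mpr hne
  have hdeg : (p - q).natDegree ≤ s := (natDegree_sub_le p q).trans (max_le hp hq)
  have h1 : T.eraseNone.card ≤ (p - q).natDegree := by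
    by_contra hlt
    push Not at hlt
    apply hD
    apply eq_zero_of_natDegree_lt_card_of_eval_eq_zero' _ T.eraseNone _ hlt
    intro x hx
    rw [Finset.mem_eraseNone] at hx
    have := hT _ hx
    rw [eval_sub, sub_eq_zero]; exact this
  by_cases hn : none ∈ T
  · have h2 : (p - q).coeff s = 0 := by
      have := hT _ hn
      rw [coeff_sub, sub_eq_zero]; exact this
    have h3 : (p - q).natDegree < s := by
      rcases lt_or_eq_of_le hdeg with h | h
      · exact h
      · exfalso; apply hD
        rw [← leadingCoeff_eq_zero, leadingCoeff, h]; exact h2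
    have h4 : T.card = T.eraseNone.card + 1 := by
      have := Finset.card_eraseNone_of_mem hn
      have h5 : 0 < T.card := Finset.card_pos.mpr ⟨_, hn⟩
      omega
    omega
  · have h4 : T.eraseNone.card = T.card := Finset.card_eraseNone_of_not_mem hn
    omega

/-- counting. -/
theorem count {A B : Type*} [DecidableEq A] [DecidableEq B] (SB : Finset B) (SA : Finset A)
    (S : Finset (A × B)) (RA : Finset A) (CB : Finset B) (k l : ℕ)
    (hrow : ∀ a ∈ RA, k ≤ ((SB \ CB).filter (fun b => (a, b) ∈ S)).card)
    (hcol : ∀ b ∈ CB, l ≤ ((SA \ RA).filter (fun a => (a, b) ∈ S)).card) :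
    RA.card * k + CB.card * l ≤ S.card := by
  set S1 := (RA ×ˢ (SB \ CB)).filter (fun p => p ∈ S) with hS1
  set S2 := ((SA \ RA) ×ˢ CB).filter (fun p => p ∈ S) with hS2
  have h1 : RA.card * k ≤ S1.card := by
    rw [hS1, Finset.card_filter, Finset.sum_product]
    rw [← smul_eq_mul, ← Finset.sum_const]
    refine Finset.sum_le_sum fun a ha => ?_
    rw [← Finset.card_filter]
    exact hrow a ha
  have h2 : CB.card * l ≤ S2.card := by
    rw [hS2, Finset.card_filter, Finset.sum_product_right]
    rw [← smul_eq_mul, ← Finset.sum_const]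
    refine Finset.sum_le_sum fun a ha => ?_
    rw [← Finset.card_filter]
    exact hcol a ha
  have hdisj : Disjoint S1 S2 := by
    rw [Finset.disjoint_left]
    intro p hp1 hp2
    simp only [hS1, hS2, Finset.mem_filter, Finset.mem_product, Finset.mem_sdiff] at hp1 hp2
    exact hp2.1.1.2 hp1.1.1
  have h3 : (S1 ∪ S2).card ≤ S.card := by
    apply Finset.card_le_card
    intro p hp
    simp only [hS1, hS2, Finset.mem_union, Finset.mem_filter] at hp
    tauto
  rw [Finset.card_union_of_disjoint hdisj] at h3
  omega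

open Classical in
/-- **B2**: robust testability of `RS_s ⊗ RS_s` on a product of two projective lines (point sets
`A0 ∪ {∞}`, `B0 ∪ {∞}` over any extension field). -/
theorem robust (n s : ℕ) (A0 B0 : Finset F) (hX : A0.card = n) (hY : B0.card = n)
    (hn : 8 * s + 16 ≤ n) (r c : Option F → F[X]) (hr : ∀ a, (r a).natDegree ≤ s)
    (hc : ∀ b, (c b).natDegree ≤ s) :
    ∃ Q : F[X][Y], xdeg Q ≤ s ∧ Q.natDegree ≤ s ∧
      (n + 1) * ((Finset.insertNone A0).filter (fun a => rowO s Q a ≠ r a)).card +
      (n + 1) * ((Finset.insertNone B0).filter (fun b => colO s Q b ≠ c b)).card ≤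
      40 * ((Finset.insertNone A0 ×ˢ Finset.insertNone B0).filter
        (fun p => ev s (r p.1) p.2 ≠ ev s (c p.2) p.1)).card := by
  set S := ((Finset.insertNone A0 ×ˢ Finset.insertNone B0).filter
        (fun p => ev s (r p.1) p.2 ≠ ev s (c p.2) p.1)) with hS
  by_cases hsmall : 16 * S.card ≤ n * n
  · -- affine part
    set Sa : Finset (F × F) := (A0 ×ˢ B0).filter
      (fun p => (r (some p.1)).eval p.2 ≠ (c (some p.2)).eval p.1) with hSa
    have hSaS : Sa.card ≤ S.card := by
      apply Finset.card_le_card_of_injOn (fun p => (some p.1, some p.2))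
      · intro p hp
        simp only [hSa, Finset.coe_filter, Finset.mem_product, Set.mem_ofPred_eq] at hp
        simp only [hS, Finset.coe_filter, Finset.mem_product, Set.mem_ofPred_eq,
          Finset.some_mem_insertNone]
        exact ⟨hp.1, hp.2⟩
      · intro p _ q _ h
        simp only [Prod.mk.injEq, Option.some.injEq] at h
        exact Prod.ext h.1 h.2
    have hcard : Sa.card < (n / 4 + 1) * (n / 4 + 1) := by
      have h1 : n < 4 * (n / 4 + 1) := by omega
      nlinarith
    obtain ⟨Q, hQx, hQy, hQr, hQc⟩ := ps_weak s s (n / 4) (n / 4) A0 B0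
      (fun x => r (some x)) (fun y => c (some y)) (fun x _ => hr _) (fun y _ => hc _) Sa
      (fun x hx y hy h => by
        simp only [hSa, Finset.mem_filter, Finset.mem_product]
        exact ⟨⟨hx, hy⟩, h⟩) hcard (by omega) (by omega)
    refine ⟨Q, hQx, hQy, ?_⟩
    set RA := (Finset.insertNone A0).filter (fun a => rowO s Q a ≠ r a) with hRA
    set CB := (Finset.insertNone B0).filter (fun b => colO s Q b ≠ c b) with hCB
    have hRAc : RA.card ≤ n / 4 + 1 := by
      have h1 : RA.eraseNone.card ≤ n / 4 := by
        apply hQr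
        · intro x hx
          rw [Finset.mem_eraseNone, hRA, Finset.mem_filter, Finset.some_mem_insertNone] at hx
          exact hx.1
        · intro x hx
          rw [Finset.mem_eraseNone, hRA, Finset.mem_filter] at hx
          exact hx.2
      by_cases hm : none ∈ RA
      · have := Finset.card_eraseNone_of_mem hm; omega
      · have := Finset.card_eraseNone_of_not_mem hm; omega
    have hCBc : CB.card ≤ n / 4 + 1 := by
      have h1 : CB.eraseNone.card ≤ n / 4 := by
        apply hQc
        · intro x hx
          rw [Finset.mem_eraseNone, hCB, Finset.mem_filter, Finset.some_mem_insertNone] at hx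
          exact hx.1
        · intro x hx
          rw [Finset.mem_eraseNone, hCB, Finset.mem_filter] at hx
          exact hx.2
      by_cases hm : none ∈ CB
      · have := Finset.card_eraseNone_of_mem hm; omega
      · have := Finset.card_eraseNone_of_not_mem hm; omega
    have hcount := count (Finset.insertNone B0) (Finset.insertNone A0) S RA CB
      (n - s - n / 4) (n - s - n / 4) ?_ ?_
    · have h1 : n + 1 ≤ 2 * (n - s - n / 4) := by omega
      nlinarith
    · intro a ha
      rw [hRA, Finset.mem_filter] at ha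
      have h1 : ((Finset.insertNone B0).filter
          (fun b => ev s (rowO s Q a) b = ev s (r a) b)).card ≤ s :=
        card_agree (natDegree_rowO s s Q hQy a) (hr a) ha.2 _
          (fun b hb => (Finset.mem_filter.mp hb).2)
      have h2 := Finset.card_filter_add_card_filter_not (s := Finset.insertNone B0)
        (fun b => ev s (rowO s Q a) b = ev s (r a) b)
      have h3 : ((Finset.insertNone B0).filter
          (fun b => ¬ ev s (rowO s Q a) b = ev s (r a) b)) ⊆
          CB ∪ (((Finset.insertNone B0) \ CB).filter (fun b => (a, b) ∈ S)) := by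
        intro b hb
        rw [Finset.mem_filter] at hb
        by_cases hbC : b ∈ CB
        · exact Finset.mem_union_left _ hbC
        · apply Finset.mem_union_right
          rw [Finset.mem_filter, Finset.mem_sdiff]
          refine ⟨⟨hb.1, hbC⟩, ?_⟩
          rw [hS, Finset.mem_filter, Finset.mem_product]
          refine ⟨⟨ha.1, hb.1⟩, ?_⟩
          have h4 : colO s Q b = c b := by
            by_contra h5
            exact hbC (Finset.mem_filter.mpr ⟨hb.1, h5⟩)
          change ev s (r a) b ≠ ev s (c b) a
          rw [← h4, ← ev_row_col]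
          exact fun h => hb.2 h.symm
      have h4 := (Finset.card_le_card h3).trans (Finset.card_union_le _ _)
      rw [Finset.card_insertNone, hY] at h2
      omega
    · intro b hb
      rw [hCB, Finset.mem_filter] at hb
      have h1 : ((Finset.insertNone A0).filter
          (fun a => ev s (colO s Q b) a = ev s (c b) a)).card ≤ s :=
        card_agree (natDegree_colO s s Q hQx b) (hc b) hb.2 _
          (fun a ha => (Finset.mem_filter.mp ha).2)
      have h2 := Finset.card_filter_add_card_filter_not (s := Finset.insertNone A0)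
        (fun a => ev s (colO s Q b) a = ev s (c b) a)
      have h3 : ((Finset.insertNone A0).filter
          (fun a => ¬ ev s (colO s Q b) a = ev s (c b) a)) ⊆
          RA ∪ (((Finset.insertNone A0) \ RA).filter (fun a => (a, b) ∈ S)) := by
        intro a ha
        rw [Finset.mem_filter] at ha
        by_cases haR : a ∈ RA
        · exact Finset.mem_union_left _ haR
        · apply Finset.mem_union_right
          rw [Finset.mem_filter, Finset.mem_sdiff]
          refine ⟨⟨ha.1, haR⟩, ?_⟩
          rw [hS, Finset.mem_filter, Finset.mem_product]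
          refine ⟨⟨ha.1, hb.1⟩, ?_⟩
          have h4 : rowO s Q a = r a := by
            by_contra h5
            exact haR (Finset.mem_filter.mpr ⟨ha.1, h5⟩)
          change ev s (r a) b ≠ ev s (c b) a
          rw [← h4, ev_row_col]
          exact ha.2
      have h4 := (Finset.card_le_card h3).trans (Finset.card_union_le _ _)
      rw [Finset.card_insertNone, hX] at h2
      omega
  · refine ⟨0, by simp [xdeg], by simp, ?_⟩
    push Not at hsmall
    have h1 : ((Finset.insertNone A0).filter (fun a => rowO s 0 a ≠ r a)).card ≤ n + 1 := by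
      refine (Finset.card_filter_le _ _).trans ?_
      rw [Finset.card_insertNone, hX]
    have h2 : ((Finset.insertNone B0).filter (fun b => colO s 0 b ≠ c b)).card ≤ n + 1 := by
      refine (Finset.card_filter_le _ _).trans ?_
      rw [Finset.card_insertNone, hY]
    nlinarith

end basic

end Crest.Agent.R289.PS459
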