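import Mathlib
import Crest.Agent.R289.PS_459

/-!
Block B, item B2 for bundles (row 289): robust testability of `RS_s ⊗ RS_s` on
`P¹(K) × P¹(K)` for words with values in `K^ι` (all registers of a label at once), `ι` finite of
any size, same constant `40`.  Also the version with values scaled by nonzero units.  helper459.
-/

set_option autoImplicit false

open Polynomial Polynomial.Bivariate

namespace Crest.Agent.R289.PS459

section bundle

variable {K : Type*} [Field K] {L : Type*} [Field L] [Algebra K L]

/-- coefficients of `q` are the images of the coefficients of `Q` under `f`. -/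
def Rel (f : L →ₗ[K] K) (Q : L[X][Y]) (q : K[X][Y]) : Prop :=
  ∀ j k, (q.coeff j).coeff k = f ((Q.coeff j).coeff k)

theorem Rel.swap {f : L →ₗ[K] K} {Q : L[X][Y]} {q : K[X][Y]} (h : Rel f Q q) :
    Rel f (Bivariate.swap Q) (Bivariate.swap q) := by
  intro j k
  rw [coeff_swap, coeff_swap, h]

theorem Rel.eval {f : L →ₗ[K] K} {Q : L[X]} {q : K[X]} (h : ∀ k, q.coeff k = f (Q.coeff k))
    (x : K) : q.eval x = f (Q.eval (algebraMap K L x)) := by
  set N := max q.natDegree Q.natDegree + 1 with hN
  rw [eval_eq_sum_range' (n := N) (by omega), eval_eq_sum_range' (n := N) (by omega), map_sum]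
  refine Finset.sum_congr rfl fun k _ => ?_
  rw [h k, ← map_pow, mul_comm (Q.coeff k), ← Algebra.smul_def, map_smul, smul_eq_mul, mul_comm]

theorem Rel.rowO {f : L →ₗ[K] K} {Q : L[X][Y]} {q : K[X][Y]} (h : Rel f Q q) (s : ℕ)
    (a : Option K) (j : ℕ) :
    (rowO s q a).coeff j = f ((rowO s Q (a.map (algebraMap K L))).coeff j) := by
  cases a with
  | some x =>
    change (rowP q x).coeff j = f ((rowP Q (algebraMap K L x)).coeff j)
    rw [coeff_rowP, coeff_rowP]
    exact Rel.eval (fun k => h j k) x
  | none =>
    change ((Bivariate.swap q).coeff s).coeff j = f (((Bivariate.swap Q).coeff s).coeff j)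
    exact h.swap s j

theorem Rel.colO {f : L →ₗ[K] K} {Q : L[X][Y]} {q : K[X][Y]} (h : Rel f Q q) (s : ℕ)
    (a : Option K) (j : ℕ) :
    (colO s q a).coeff j = f ((colO s Q (a.map (algebraMap K L))).coeff j) := by
  cases a with
  | some x =>
    change (colP q x).coeff j = f ((colP Q (algebraMap K L x)).coeff j)
    rw [← rowP_swap, ← rowP_swap, coeff_rowP, coeff_rowP]
    exact Rel.eval (fun k => h.swap j k) x
  | none => exact h s j

variable {ι : Type*} [Fintype ι]

/-- combination of a bundle of polynomials. -/
noncomputable def comb (e : ι → L) (p : ι → K[X]) : L[X] :=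
  ∑ i, C (e i) * (p i).map (algebraMap K L)

theorem coeff_comb (e : ι → L) (p : ι → K[X]) (j : ℕ) :
    (comb e p).coeff j = ∑ i, (p i).coeff j • e i := by
  simp only [comb, finsetSum_coeff, coeff_C_mul, coeff_map, Algebra.smul_def]
  exact Finset.sum_congr rfl fun i _ => mul_comm _ _

theorem natDegree_comb (e : ι → L) (p : ι → K[X]) (s : ℕ) (h : ∀ i, (p i).natDegree ≤ s) :
    (comb e p).natDegree ≤ s := by
  rw [natDegree_le_iff_coeff_eq_zero]
  intro j hj
  rw [coeff_comb]
  refine Finset.sum_eq_zero fun i _ => ?_
  rw [coeff_eq_zero_of_natDegree_lt (lt_of_le_of_lt (h i) hj), zero_smul]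

theorem ev_comb (e : ι → L) (p : ι → K[X]) (s : ℕ) (b : Option K) :
    ev s (comb e p) (b.map (algebraMap K L)) = ∑ i, ev s (p i) b • e i := by
  cases b with
  | some x =>
    change (comb e p).eval (algebraMap K L x) = ∑ i, (p i).eval x • e i
    simp only [comb, eval_finsetSum, eval_mul, eval_C, Algebra.smul_def]
    refine Finset.sum_congr rfl fun i _ => ?_
    rw [mul_comm, eval_map_algebraMap, Polynomial.aeval_algebraMap_apply]
    simp
  | none => exact coeff_comb e p s

end bundle

open Classical in
/-- **B2 for bundles**: `K` a finite field with `n` elements, words with values in `K^ι`. -/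
theorem robust_bundle {K : Type*} [Field K] [Fintype K] {ι : Type*} [Fintype ι] (s : ℕ)
    (hn : 8 * s + 16 ≤ Fintype.card K) (r c : ι → Option K → K[X])
    (hr : ∀ i a, (r i a).natDegree ≤ s) (hc : ∀ i b, (c i b).natDegree ≤ s) :
    ∃ Q : ι → K[X][Y], (∀ i, xdeg (Q i) ≤ s) ∧ (∀ i, (Q i).natDegree ≤ s) ∧
      (Fintype.card K + 1) *
        (Finset.univ.filter (fun a : Option K => ∃ i, rowO s (Q i) a ≠ r i a)).card +
      (Fintype.card K + 1) *
        (Finset.univ.filter (fun b : Option K => ∃ i, colO s (Q i) b ≠ c i b)).card ≤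
      40 * (Finset.univ.filter (fun p : Option K × Option K =>
        ∃ i, ev s (r i p.1) p.2 ≠ ev s (c i p.2) p.1)).card := by
  -- an extension field with enough independent elements
  let L := RatFunc K
  let φ : K → L := algebraMap K L
  have hφ : Function.Injective φ := (algebraMap K L).injective
  have hφo : Function.Injective (Option.map φ) := Option.map_injective hφ
  let idx : ι → ℕ := fun i => (Fintype.equivFin ι i : ℕ)
  have hidx : Function.Injective idx := fun i j h =>
    (Fintype.equivFin ι).injective (Fin.ext h)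
  let e : ι → L := fun i => algebraMap K[X] L (X ^ idx i)
  have hli : LinearIndependent K e := by
    have h1 : LinearIndependent K (fun j : ℕ => (X ^ j : K[X])) := by
      have := (Polynomial.basisMonomials K).linearIndependent
      convert this using 1
      funext j
      simp [X_pow_eq_monomial]
    have h2 : LinearIndependent K (fun i : ι => (X ^ idx i : K[X])) := h1.comp idx hidx
    have h3 := h2.map' (IsScalarTower.toAlgHom K K[X] L).toLinearMap (by
      rw [LinearMap.ker_eq_bot]
      exact IsFractionRing.injective K[X] L)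
    exact h3
  obtain ⟨π, hπ⟩ : ∃ π : L →ₗ[K] (ι → K), ∀ v : ι → K, π (∑ i, v i • e i) = v := by
    have hinj : LinearMap.ker (Fintype.linearCombination K e) = ⊥ := by
      rw [LinearMap.ker_eq_bot]
      exact hli.fintypeLinearCombination_injective
    obtain ⟨g, hg⟩ := LinearMap.exists_leftInverse_of_injective _ hinj
    refine ⟨g, fun v => ?_⟩
    have := LinearMap.congr_fun hg v
    simpa [Fintype.linearCombination_apply] using this
  let A0 : Finset L := Finset.univ.map ⟨φ, hφ⟩
  have hA0 : A0.card = Fintype.card K := by simp [A0]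
  have hmemA0 : ∀ a' : Option L, a' ∈ Finset.insertNone A0 → ∃ a : Option K, a.map φ = a' := by
    intro a' ha'
    cases a' with
    | none => exact ⟨none, rfl⟩
    | some y =>
      rw [Finset.some_mem_insertNone] at ha'
      simp only [A0, Finset.mem_map, Finset.mem_univ, true_and, Function.Embedding.coeFn_mk] at ha'
      obtain ⟨x, rfl⟩ := ha'
      exact ⟨some x, rfl⟩
  have hmemA0' : ∀ a : Option K, a.map φ ∈ Finset.insertNone A0 := by
    intro a
    cases a with
    | none => exact Finset.none_mem_insertNone
    | some x =>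
      rw [Option.map_some, Finset.some_mem_insertNone]
      simp [A0]
  let r' : Option L → L[X] := Function.extend (Option.map φ) (fun a => comb e (fun i => r i a)) 0
  let c' : Option L → L[X] := Function.extend (Option.map φ) (fun a => comb e (fun i => c i a)) 0
  have hr'e : ∀ a, r' (a.map φ) = comb e (fun i => r i a) := fun a => hφo.extend_apply _ _ a
  have hc'e : ∀ a, c' (a.map φ) = comb e (fun i => c i a) := fun a => hφo.extend_apply _ _ a
  have hr' : ∀ a', (r' a').natDegree ≤ s := by
    intro a'
    by_cases h : ∃ a, Option.map φ a = a'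
    · obtain ⟨a, rfl⟩ := h
      rw [hr'e]
      exact natDegree_comb _ _ _ fun i => hr i a
    · have : r' a' = 0 := Function.extend_apply' _ _ _ h
      rw [this]; simp
  have hc' : ∀ a', (c' a').natDegree ≤ s := by
    intro a'
    by_cases h : ∃ a, Option.map φ a = a'
    · obtain ⟨a, rfl⟩ := h
      rw [hc'e]
      exact natDegree_comb _ _ _ fun i => hc i a
    · have : c' a' = 0 := Function.extend_apply' _ _ _ h
      rw [this]; simp
  obtain ⟨Q, hQx, hQy, hQ⟩ := robust (Fintype.card K) s A0 A0 hA0 hA0 hn r' c' hr' hc'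
  let q : ι → K[X][Y] := fun i =>
    mk (s + 1) (s + 1) (fun jk => π ((Q.coeff jk.2).coeff jk.1) i)
  have hrel : ∀ i, Rel ((LinearMap.proj i).comp π) Q (q i) := by
    intro i j k
    change ((mk (s + 1) (s + 1) _).coeff j).coeff k = π ((Q.coeff j).coeff k) i
    rw [coeff_mk]
    split_ifs with h
    · rfl
    · have h0 : (Q.coeff j).coeff k = 0 := by
        by_cases hj : s < j
        · rw [coeff_eq_zero_of_natDegree_lt (lt_of_le_of_lt hQy hj), coeff_zero]
        · apply coeff_eq_zero_of_natDegree_lt
          have := (xdeg_le_iff Q s).mp hQx j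
          omega
      rw [h0, map_zero]; rfl
  refine ⟨q, fun i => by simpa using xdeg_mk (s + 1) (s + 1) _,
    fun i => by simpa using ydeg_mk (s + 1) (s + 1) _, ?_⟩
  have hrow : (Finset.univ.filter (fun a : Option K => ∃ i, rowO s (q i) a ≠ r i a)).card ≤
      ((Finset.insertNone A0).filter (fun a => rowO s Q a ≠ r' a)).card := by
    apply Finset.card_le_card_of_injOn (Option.map φ)
    · intro a ha
      simp only [Finset.coe_filter, Finset.mem_univ, true_and, Set.mem_ofPred_eq] at ha ⊢
      refine ⟨hmemA0' a, fun heq => ?_⟩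
      obtain ⟨i, hi⟩ := ha
      apply hi
      ext j
      rw [(hrel i).rowO s a j]
      change π ((rowO s Q (a.map φ)).coeff j) i = _
      rw [heq, hr'e, coeff_comb, hπ]
    · exact fun a _ b _ h => hφo h
  have hcol : (Finset.univ.filter (fun a : Option K => ∃ i, colO s (q i) a ≠ c i a)).card ≤
      ((Finset.insertNone A0).filter (fun a => colO s Q a ≠ c' a)).card := by
    apply Finset.card_le_card_of_injOn (Option.map φ)
    · intro a ha
      simp only [Finset.coe_filter, Finset.mem_univ, true_and, Set.mem_ofPred_eq] at ha ⊢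
      refine ⟨hmemA0' a, fun heq => ?_⟩
      obtain ⟨i, hi⟩ := ha
      apply hi
      ext j
      rw [(hrel i).colO s a j]
      change π ((colO s Q (a.map φ)).coeff j) i = _
      rw [heq, hc'e, coeff_comb, hπ]
    · exact fun a _ b _ h => hφo h
  have hS : ((Finset.insertNone A0 ×ˢ Finset.insertNone A0).filter
        (fun p => ev s (r' p.1) p.2 ≠ ev s (c' p.2) p.1)).card ≤
      (Finset.univ.filter (fun p : Option K × Option K =>
        ∃ i, ev s (r i p.1) p.2 ≠ ev s (c i p.2) p.1)).card := by
    have hsub : ((Finset.insertNone A0 ×ˢ Finset.insertNone A0).filter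
        (fun p => ev s (r' p.1) p.2 ≠ ev s (c' p.2) p.1)) ⊆
      (Finset.univ.filter (fun p : Option K × Option K =>
        ∃ i, ev s (r i p.1) p.2 ≠ ev s (c i p.2) p.1)).image
          (fun p => (p.1.map φ, p.2.map φ)) := by
      rintro ⟨a', b'⟩ h
      rw [Finset.mem_filter, Finset.mem_product] at h
      obtain ⟨⟨ha, hb⟩, hne⟩ := h
      obtain ⟨a, rfl⟩ := hmemA0 _ ha
      obtain ⟨b, rfl⟩ := hmemA0 _ hb
      rw [Finset.mem_image]
      refine ⟨(a, b), ?_, rfl⟩
      rw [Finset.mem_filter]
      refine ⟨Finset.mem_univ _, ?_⟩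
      by_contra hall
      push Not at hall
      apply hne
      change ev s (r' (a.map φ)) (b.map φ) = ev s (c' (b.map φ)) (a.map φ)
      rw [hr'e, hc'e]
      refine (ev_comb e (fun i => r i a) s b).trans
        (Eq.trans ?_ (ev_comb e (fun i => c i b) s a).symm)
      exact Finset.sum_congr rfl fun i _ => by rw [hall i]
    exact (Finset.card_le_card hsub).trans Finset.card_image_le
  calc _ ≤ (Fintype.card K + 1) *
        ((Finset.insertNone A0).filter (fun a => rowO s Q a ≠ r' a)).card +
      (Fintype.card K + 1) *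
        ((Finset.insertNone A0).filter (fun a => colO s Q a ≠ c' a)).card := by
        gcongr
    _ ≤ _ := hQ
    _ ≤ _ := by gcongr

end Crest.Agent.R289.PS459
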