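import Mathlib
import Crest.Agent.R289.PSB_459

/-!
Block B, item B2 (row 289), GLUE: agreement-form robustness `Rob` of the tensor of two local codes
`R` (rows, functions of `z`) and `L` (columns, functions of `w`), for ALL `K`-linear codes which are
contained in a bundle of projective Reed-Solomon codes, after arbitrary bijections of the index
sets with `P¹(K) = Option K` (odd charts) and arbitrary non-zero scalars (which may depend on the
register `i`).  Registers may have different degrees and may satisfy local linear relations.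
Constant `92`.  helper459.
-/

set_option autoImplicit false

open Polynomial Polynomial.Bivariate

namespace Crest.Agent.R289.PS459

section ev

variable {K : Type*} [Field K]

theorem ev_add (s : ℕ) (p q : K[X]) (b : Option K) : ev s (p + q) b = ev s p b + ev s q b := by
  cases b with
  | some x => exact eval_add
  | none => exact coeff_add _ _ _

theorem ev_smul (s : ℕ) (a : K) (p : K[X]) (b : Option K) : ev s (a • p) b = a * ev s p b := by
  cases b with
  | some x => exact (eval_smul _ _ _).trans (smul_eq_mul _ _)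
  | none => exact (coeff_smul _ _ _).trans (smul_eq_mul _ _)

theorem ev_zero (s : ℕ) (b : Option K) : ev s (0 : K[X]) b = 0 := by
  cases b with
  | some x => exact eval_zero
  | none => exact coeff_zero _

/-- evaluation in one point of the projective line is a fixed combination of the evaluations in
any `s + 1` points, on polynomials of degree `≤ s`. -/
theorem lagrange (s : ℕ) (T : Finset (Option K)) (hT : s + 1 ≤ T.card) (b : Option K) :
    ∃ l : Option K → K, ∀ p : K[X], p.natDegree ≤ s → ev s p b = ∑ t ∈ T, l t * ev s p t := by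
  classical
  let V := Polynomial.degreeLE K s
  have hV : ∀ p : V, (p : K[X]).natDegree ≤ s := fun p =>
    natDegree_le_of_degree_le (Polynomial.mem_degreeLE.mp p.2)
  let E : V →ₗ[K] (T → K) :=
    { toFun := fun p t => ev s (p : K[X]) t
      map_add' := fun p q => by funext t; exact ev_add s _ _ _
      map_smul' := fun a p => by funext t; exact ev_smul s _ _ _ }
  have hE : LinearMap.ker E = ⊥ := by
    rw [LinearMap.ker_eq_bot']
    intro p hp
    by_contra hne
    have hne' : (p : K[X]) ≠ 0 := fun h => hne (Subtype.ext h)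
    have := card_agree (s := s) (hV p) (by simp) hne' T (fun t ht => by
      rw [ev_zero]; exact congrFun hp ⟨t, ht⟩)
    omega
  obtain ⟨g, hg⟩ := LinearMap.exists_leftInverse_of_injective E hE
  let F : V →ₗ[K] K :=
    { toFun := fun p => ev s (p : K[X]) b
      map_add' := fun p q => ev_add s _ _ _
      map_smul' := fun a p => ev_smul s _ _ _ }
  refine ⟨fun t => if h : t ∈ T then F (g (Pi.single ⟨t, h⟩ 1)) else 0, fun p hp => ?_⟩
  have hpV : p ∈ V := Polynomial.mem_degreeLE.mpr (natDegree_le_iff_degree_le.mp hp)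
  have h1 : F ⟨p, hpV⟩ = F (g (E ⟨p, hpV⟩)) := by
    have := LinearMap.congr_fun hg ⟨p, hpV⟩
    simp only [LinearMap.comp_apply, LinearMap.id_apply] at this
    rw [this]
  have h2 : E ⟨p, hpV⟩ = ∑ t : T, ev s p t • Pi.single t (1 : K) := by
    funext t
    simp only [Finset.sum_apply, Pi.smul_apply, Pi.single_apply, smul_eq_mul, mul_ite, mul_one,
      mul_zero]
    simp [E]
  change F ⟨p, hpV⟩ = _
  rw [h1, h2, map_sum, map_sum, ← Finset.sum_coe_sort T]
  refine Finset.sum_congr rfl fun t _ => ?_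
  rw [map_smul, map_smul, smul_eq_mul, mul_comm]
  simp only [Subtype.coe_eta, dif_pos t.2]

end ev

open Classical in
/-- agreement-form robustness of the tensor of the local codes `R` (rows) and `L` (columns), any
alphabet `A`. -/
def Rob {I J A : Type*} [Fintype I] [Fintype J] (R : Set (J → A)) (L : Set (I → A))
    (n C : ℕ) : Prop :=
  ∀ r : I → J → A, (∀ w, r w ∈ R) → ∀ c : J → I → A, (∀ z, c z ∈ L) →
    ∃ u : I → J → A, (∀ w, u w ∈ R) ∧ (∀ z, (fun w => u w z) ∈ L) ∧
      n * (Finset.univ.filter (fun w => u w ≠ r w)).card +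
      n * (Finset.univ.filter (fun z => (fun w => u w z) ≠ c z)).card ≤
      C * (Finset.univ.filter (fun p : I × J => r p.1 p.2 ≠ c p.2 p.1)).card

/-- **B2, general glue.**  `R`, `L` linear codes with values in `K^ι` which are, after the
bijections `ψ`, `φ` with the projective line and multiplication by the non-zero scalars `μ`, `ν`,
contained in the bundle of Reed-Solomon codes of degree `s`.  If the scalars depend on the
register, the codes have to be stable under the quotients of the scalars. -/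
theorem rob_gen {K : Type*} [Field K] [Fintype K] {ι I J : Type*} [Fintype ι] [Fintype I]
    [Fintype J] (s : ℕ) (hn : 8 * s + 16 ≤ Fintype.card K)
    (φ : I ≃ Option K) (ψ : J ≃ Option K) (μ : J → ι → K) (ν : I → ι → K)
    (hμ : ∀ z i, μ z i ≠ 0) (hν : ∀ w i, ν w i ≠ 0)
    (R : Submodule K (J → ι → K)) (L : Submodule K (I → ι → K))
    (hR : ∀ u ∈ R, ∀ i, ∃ p : K[X], p.natDegree ≤ s ∧ ∀ z, μ z i * u z i = ev s p (ψ z))
    (hL : ∀ u ∈ L, ∀ i, ∃ p : K[X], p.natDegree ≤ s ∧ ∀ w, ν w i * u w i = ev s p (φ w))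
    (hRi : ∀ w w', ∀ u ∈ R, (fun z i => (ν w i)⁻¹ * ν w' i * u z i) ∈ R)
    (hLi : ∀ z z', ∀ u ∈ L, (fun w i => (μ z i)⁻¹ * μ z' i * u w i) ∈ L) :
    Rob (R : Set (J → ι → K)) (L : Set (I → ι → K)) (Fintype.card K + 1) 92 := by
  classical
  intro r hr c hc
  set n := Fintype.card K + 1 with hndef
  suffices H : ∃ u : I → J → ι → K, (∀ w, u w ∈ R) ∧ (∀ z, (fun w => u w z) ∈ L) ∧
      n * (Finset.univ.filter (fun w => u w ≠ r w)).card +
      n * (Finset.univ.filter (fun z => (fun w => u w z) ≠ c z)).card ≤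
      92 * (Finset.univ.filter (fun p : I × J => r p.1 p.2 ≠ c p.2 p.1)).card by
    obtain ⟨u, h1, h2, h3⟩ := H
    refine ⟨u, h1, h2, ?_⟩
    convert h3
  have hI : Fintype.card I = n := by rw [Fintype.card_congr φ, Fintype.card_option]
  have hJ : Fintype.card J = n := by rw [Fintype.card_congr ψ, Fintype.card_option]
  choose p hpd hpe using fun w i => hR (r w) (hr w) i
  choose q hqd hqe using fun z i => hL (c z) (hc z) i
  obtain ⟨Q, hQx, hQy, hQ⟩ := robust_bundle s hn
    (fun i a => ν (φ.symm a) i • p (φ.symm a) i) (fun i b => μ (ψ.symm b) i • q (ψ.symm b) i)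
    (fun i a => (natDegree_smul_le _ _).trans (hpd _ _))
    (fun i b => (natDegree_smul_le _ _).trans (hqd _ _))
  -- the candidate
  let u : I → J → ι → K := fun w z i =>
    (ν w i)⁻¹ * (μ z i)⁻¹ * ev s (rowO s (Q i) (φ w)) (ψ z)
  have hu' : ∀ w z i, u w z i = (ν w i)⁻¹ * (μ z i)⁻¹ * ev s (colO s (Q i) (ψ z)) (φ w) := by
    intro w z i; change _ * ev s (rowO s (Q i) (φ w)) (ψ z) = _; rw [ev_row_col]
  -- bad rows and columns
  set BR := Finset.univ.filter (fun a : Option K => ∃ i, rowO s (Q i) a ≠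
    ν (φ.symm a) i • p (φ.symm a) i) with hBR
  set BC := Finset.univ.filter (fun b : Option K => ∃ i, colO s (Q i) b ≠
    μ (ψ.symm b) i • q (ψ.symm b) i) with hBC
  have hgoodR : ∀ a ∉ BR, u (φ.symm a) = r (φ.symm a) := by
    intro a ha
    have h0 : ∀ i, rowO s (Q i) a = ν (φ.symm a) i • p (φ.symm a) i := by
      intro i; by_contra h; exact ha (by rw [hBR, Finset.mem_filter]; exact ⟨Finset.mem_univ _, i, h⟩)
    funext z i
    change (ν (φ.symm a) i)⁻¹ * (μ z i)⁻¹ * ev s (rowO s (Q i) (φ (φ.symm a))) (ψ z) = _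
    rw [Equiv.apply_symm_apply, h0 i, ev_smul, ← hpe]
    field_simp [hμ z i, hν (φ.symm a) i]
  have hgoodC : ∀ b ∉ BC, (fun w => u w (ψ.symm b)) = c (ψ.symm b) := by
    intro b hb
    have h0 : ∀ i, colO s (Q i) b = μ (ψ.symm b) i • q (ψ.symm b) i := by
      intro i; by_contra h; exact hb (by rw [hBC, Finset.mem_filter]; exact ⟨Finset.mem_univ _, i, h⟩)
    funext w i
    rw [hu', Equiv.apply_symm_apply, h0 i, ev_smul, ← hqe]
    field_simp [hμ (ψ.symm b) i, hν w i]
  have hcR : (Finset.univ.filter (fun w => u w ≠ r w)).card ≤ BR.card := by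
    apply Finset.card_le_card_of_injOn φ
    · intro w hw
      simp only [Finset.coe_filter, Finset.mem_univ, true_and, Set.mem_ofPred_eq] at hw
      rw [Finset.mem_coe]
      by_contra h
      have := hgoodR _ h
      rw [Equiv.symm_apply_apply] at this
      exact hw this
    · exact fun a _ b _ h => φ.injective h
  have hcC : (Finset.univ.filter (fun z => (fun w => u w z) ≠ c z)).card ≤ BC.card := by
    apply Finset.card_le_card_of_injOn ψ
    · intro z hz
      simp only [Finset.coe_filter, Finset.mem_univ, true_and, Set.mem_ofPred_eq] at hz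
      rw [Finset.mem_coe]
      by_contra h
      have := hgoodC _ h
      rw [Equiv.symm_apply_apply] at this
      exact hz this
    · exact fun a _ b _ h => ψ.injective h
  -- disagreements
  set D := Finset.univ.filter (fun p : I × J => r p.1 p.2 ≠ c p.2 p.1) with hD
  have hdis : (Finset.univ.filter (fun x : Option K × Option K =>
      ∃ i, ev s (ν (φ.symm x.1) i • p (φ.symm x.1) i) x.2 ≠
        ev s (μ (ψ.symm x.2) i • q (ψ.symm x.2) i) x.1)).card ≤ D.card := by
    apply Finset.card_le_card_of_injOn (fun x => (φ.symm x.1, ψ.symm x.2))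
    · rintro ⟨a, b⟩ h
      simp only [Finset.coe_filter, Finset.mem_univ, true_and, Set.mem_ofPred_eq] at h
      obtain ⟨i, hi⟩ := h
      rw [Finset.mem_coe, hD, Finset.mem_filter]
      refine ⟨Finset.mem_univ _, fun heq => hi ?_⟩
      have h1 := hpe (φ.symm a) i (ψ.symm b)
      have h2 := hqe (ψ.symm b) i (φ.symm a)
      rw [Equiv.apply_symm_apply] at h1 h2
      change r (φ.symm a) (ψ.symm b) = c (ψ.symm b) (φ.symm a) at heq
      rw [ev_smul, ev_smul, ← h1, ← h2, heq]
      ring
    · rintro ⟨a, b⟩ _ ⟨a', b'⟩ _ h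
      simp only [Prod.mk.injEq, EmbeddingLike.apply_eq_iff_eq] at h
      exact Prod.ext h.1 h.2
  have hmain : n * BR.card + n * BC.card ≤ 40 * D.card :=
    hQ.trans (Nat.mul_le_mul_left _ hdis)
  by_cases hcase : BR.card + (s + 1) ≤ n ∧ BC.card + (s + 1) ≤ n
  · obtain ⟨hc1, hc2⟩ := hcase
    refine ⟨u, ?_, ?_, ?_⟩
    · -- rows
      intro w
      have hT : s + 1 ≤ (Finset.univ \ BR).card := by
        rw [Finset.card_sdiff_of_subset (Finset.subset_univ _), Finset.card_univ,
          Fintype.card_option]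
        omega
      obtain ⟨l, hl⟩ := lagrange s (Finset.univ \ BR) hT (φ w)
      have hw : u w = ∑ a ∈ Finset.univ \ BR, l a •
          (fun z i => (ν w i)⁻¹ * ν (φ.symm a) i * r (φ.symm a) z i) := by
        funext z i
        rw [hu', hl _ (natDegree_colO s s (Q i) (hQx i) (ψ z)), Finset.mul_sum, Finset.sum_apply,
          Finset.sum_apply]
        refine Finset.sum_congr rfl fun a ha => ?_
        rw [Finset.mem_sdiff] at ha
        simp only [Pi.smul_apply, smul_eq_mul]
        rw [← hgoodR a ha.2, hu', Equiv.apply_symm_apply]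
        field_simp [hμ z i, hν w i, hν (φ.symm a) i]
      rw [hw]
      exact R.sum_mem fun a _ => R.smul_mem _ (hRi _ _ _ (hr _))
    · -- columns
      intro z
      have hT : s + 1 ≤ (Finset.univ \ BC).card := by
        rw [Finset.card_sdiff_of_subset (Finset.subset_univ _), Finset.card_univ,
          Fintype.card_option]
        omega
      obtain ⟨l, hl⟩ := lagrange s (Finset.univ \ BC) hT (ψ z)
      have hw : (fun w => u w z) = ∑ b ∈ Finset.univ \ BC, l b •
          (fun w i => (μ z i)⁻¹ * μ (ψ.symm b) i * c (ψ.symm b) w i) := by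
        funext w i
        change (ν w i)⁻¹ * (μ z i)⁻¹ * ev s (rowO s (Q i) (φ w)) (ψ z) = _
        rw [hl _ (natDegree_rowO s s (Q i) (hQy i) (φ w)), Finset.mul_sum, Finset.sum_apply,
          Finset.sum_apply]
        refine Finset.sum_congr rfl fun b hb => ?_
        rw [Finset.mem_sdiff] at hb
        simp only [Pi.smul_apply, smul_eq_mul]
        rw [← hgoodC b hb.2]
        change _ = l b * ((μ z i)⁻¹ * μ (ψ.symm b) i *
          ((ν w i)⁻¹ * (μ (ψ.symm b) i)⁻¹ * ev s (rowO s (Q i) (φ w)) (ψ (ψ.symm b))))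
        rw [Equiv.apply_symm_apply]
        field_simp [hμ z i, hν w i, hμ (ψ.symm b) i]
      rw [hw]
      exact L.sum_mem fun b _ => L.smul_mem _ (hLi _ _ _ (hc _))
    · refine (add_le_add (Nat.mul_le_mul_left n hcR) (Nat.mul_le_mul_left n hcC)).trans
        (hmain.trans ?_)
      exact Nat.mul_le_mul_right D.card (by norm_num)
  · -- trivial case
    refine ⟨0, fun w => R.zero_mem, fun z => L.zero_mem, ?_⟩
    have h1 : (Finset.univ.filter (fun w => (0 : I → J → ι → K) w ≠ r w)).card ≤ n := by
      rw [← hI, ← Finset.card_univ]; exact Finset.card_le_card (Finset.filter_subset _ _)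
    have h2 : (Finset.univ.filter (fun z => (fun w => (0 : I → J → ι → K) w z) ≠ c z)).card ≤ n := by
      rw [← hJ, ← Finset.card_univ]; exact Finset.card_le_card (Finset.filter_subset _ _)
    have h3 : n * (n - s) ≤ 40 * D.card := by
      refine le_trans ?_ hmain
      rw [← mul_add]
      apply Nat.mul_le_mul_left
      by_contra h
      apply hcase
      constructor <;> omega
    have h4 : n * (7 * n) ≤ 8 * (n * (n - s)) := by
      have : 7 * n ≤ 8 * (n - s) := by omega
      calc n * (7 * n) ≤ n * (8 * (n - s)) := Nat.mul_le_mul_left _ this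
        _ = _ := by ring
    have h5 := Nat.mul_le_mul_left n h1
    have h6 := Nat.mul_le_mul_left n h2
    have h7 : n * (7 * n) = 7 * (n * n) := by ring
    nlinarith [h3, h4, h5, h6, h7]

/-- product codes: registers of different degrees, with their own scalars. -/
theorem rob_pi {K : Type*} [Field K] [Fintype K] {ι I J : Type*} [Fintype ι] [Fintype I]
    [Fintype J] (s : ℕ) (hn : 8 * s + 16 ≤ Fintype.card K)
    (φ : I ≃ Option K) (ψ : J ≃ Option K) (μ : ι → J → K) (ν : ι → I → K)
    (hμ : ∀ i z, μ i z ≠ 0) (hν : ∀ i w, ν i w ≠ 0)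
    (R : ι → Submodule K (J → K)) (L : ι → Submodule K (I → K))
    (hR : ∀ i, ∀ u ∈ R i, ∃ p : K[X], p.natDegree ≤ s ∧ ∀ z, μ i z * u z = ev s p (ψ z))
    (hL : ∀ i, ∀ u ∈ L i, ∃ p : K[X], p.natDegree ≤ s ∧ ∀ w, ν i w * u w = ev s p (φ w)) :
    Rob {u : J → ι → K | ∀ i, (fun z => u z i) ∈ R i} {u : I → ι → K | ∀ i, (fun w => u w i) ∈ L i}
      (Fintype.card K + 1) 92 := by
  let R' : Submodule K (J → ι → K) :=
    { carrier := {u | ∀ i, (fun z => u z i) ∈ R i}
      add_mem' := fun {a b} ha hb i => (R i).add_mem (ha i) (hb i)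
      zero_mem' := fun i => (R i).zero_mem
      smul_mem' := fun c a ha i => (R i).smul_mem c (ha i) }
  let L' : Submodule K (I → ι → K) :=
    { carrier := {u | ∀ i, (fun z => u z i) ∈ L i}
      add_mem' := fun {a b} ha hb i => (L i).add_mem (ha i) (hb i)
      zero_mem' := fun i => (L i).zero_mem
      smul_mem' := fun c a ha i => (L i).smul_mem c (ha i) }
  exact rob_gen s hn φ ψ (fun z i => μ i z) (fun w i => ν i w) (fun z i => hμ i z)
    (fun w i => hν i w) R' L' (fun u hu i => hR i _ (hu i)) (fun u hu i => hL i _ (hu i))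
    (fun w w' u hu i => (R i).smul_mem _ (hu i)) (fun z z' u hu i => (L i).smul_mem _ (hu i))

/-- the local code: values of the forms of degree `s` in the coordinate `ψ`, times scalars. -/
def RSC {K : Type*} [Field K] {J : Type*} (s : ℕ) (ψ : J → Option K) (μ : J → K) :
    Submodule K (J → K) where
  carrier := {u | ∃ p : K[X], p.natDegree ≤ s ∧ ∀ z, μ z * u z = ev s p (ψ z)}
  add_mem' := by
    rintro a b ⟨p, hp, hp'⟩ ⟨q, hq, hq'⟩
    exact ⟨p + q, (natDegree_add_le p q).trans (max_le hp hq), fun z => by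
      rw [Pi.add_apply, mul_add, hp', hq', ev_add]⟩
  zero_mem' := ⟨0, by simp, fun z => by rw [ev_zero]; simp⟩
  smul_mem' := by
    rintro c a ⟨p, hp, hp'⟩
    exact ⟨c • p, (natDegree_smul_le _ _).trans hp, fun z => by
      rw [Pi.smul_apply, ev_smul, ← hp', smul_eq_mul]; ring⟩

theorem mem_RSC {K : Type*} [Field K] {J : Type*} {s : ℕ} {ψ : J → Option K} {μ : J → K}
    {u : J → K} : u ∈ RSC s ψ μ ↔ ∃ p : K[X], p.natDegree ≤ s ∧ ∀ z, μ z * u z = ev s p (ψ z) :=
  Iff.rfl

theorem ev_mul {K : Type*} [Field K] {s t : ℕ} {p m : K[X]} (hp : p.natDegree ≤ s)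
    (hm : m.natDegree ≤ t) (b : Option K) : ev (s + t) (p * m) b = ev s p b * ev t m b := by
  cases b with
  | some x => exact eval_mul
  | none => exact coeff_mul_add_eq_of_natDegree_le hp hm

/-- over a finite field there are forms of every degree `≠ 1` without zeros on `P¹(K)`. -/
theorem exists_unit_form {K : Type*} [Field K] [Fintype K] (t : ℕ) (ht : t ≠ 1) :
    ∃ m : K[X], m.natDegree ≤ t ∧ ∀ b : Option K, ev t m b ≠ 0 := by
  rcases Nat.eq_zero_or_pos t with rfl | hpos
  · refine ⟨1, by simp, fun b => ?_⟩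
    cases b with
    | some x => change (1 : K[X]).eval x ≠ 0; simp
    | none => change (1 : K[X]).coeff 0 ≠ 0; simp
  · have h2 : 2 ≤ t := by omega
    have hns : ¬ Function.Surjective (fun x : K => x ^ t - x ^ (t - 1)) := by
      intro h
      have hinj := Finite.injective_iff_surjective.mpr h
      have h01 : (0 : K) = 1 := hinj (by
        change (0 : K) ^ t - 0 ^ (t - 1) = 1 ^ t - 1 ^ (t - 1)
        rw [zero_pow (by omega), zero_pow (by omega), one_pow, one_pow, sub_self, sub_self])
      exact zero_ne_one h01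
    rw [Function.Surjective] at hns
    push Not at hns
    obtain ⟨a, ha⟩ := hns
    have hdeg : (X ^ t - X ^ (t - 1) - C a : K[X]).natDegree ≤ t := by
      refine (natDegree_sub_le _ _).trans (max_le ((natDegree_sub_le _ _).trans (max_le ?_ ?_)) ?_)
      · simp
      · simp
      · simp
    refine ⟨X ^ t - X ^ (t - 1) - C a, hdeg, fun b => ?_⟩
    cases b with
    | some x =>
      change (X ^ t - X ^ (t - 1) - C a : K[X]).eval x ≠ 0
      simp only [eval_sub, eval_pow, eval_X, eval_C]
      exact sub_ne_zero.mpr (ha x)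
    | none =>
      change (X ^ t - X ^ (t - 1) - C a : K[X]).coeff t ≠ 0
      simp only [coeff_sub, coeff_X_pow, coeff_C]
      have h3 : t ≠ t - 1 := by omega
      have h4 : t ≠ 0 := by omega
      simp [h3, h4]

/-- product codes: registers of degrees `d i`, `e i ≤ s`, own scalars. -/
theorem rob_RSC {K : Type*} [Field K] [Fintype K] {ι I J : Type*} [Fintype ι] [Fintype I]
    [Fintype J] (s : ℕ) (hn : 8 * s + 32 ≤ Fintype.card K)
    (φ : I ≃ Option K) (ψ : J ≃ Option K) (d e : ι → ℕ) (hd : ∀ i, d i ≤ s) (he : ∀ i, e i ≤ s)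
    (μ : ι → J → K) (ν : ι → I → K) (hμ : ∀ i z, μ i z ≠ 0) (hν : ∀ i w, ν i w ≠ 0) :
    Rob {u : J → ι → K | ∀ i, (fun z => u z i) ∈ RSC (d i) ψ (μ i)}
      {u : I → ι → K | ∀ i, (fun w => u w i) ∈ RSC (e i) φ (ν i)} (Fintype.card K + 1) 92 := by
  choose m hm hm0 using fun i => exists_unit_form (K := K) (s + 2 - d i) (by have := hd i; omega)
  choose m' hm' hm0' using fun i => exists_unit_form (K := K) (s + 2 - e i)
    (by have := he i; omega)
  refine rob_pi (s + 2) (by omega) φ ψ (fun i z => μ i z * ev (s + 2 - d i) (m i) (ψ z))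
    (fun i w => ν i w * ev (s + 2 - e i) (m' i) (φ w)) (fun i z => mul_ne_zero (hμ i z) (hm0 i _))
    (fun i w => mul_ne_zero (hν i w) (hm0' i _)) _ _ ?_ ?_
  · rintro i u ⟨p, hp, hpe⟩
    have h1 : d i + (s + 2 - d i) = s + 2 := by have := hd i; omega
    refine ⟨p * m i, ?_, fun z => ?_⟩
    · refine natDegree_mul_le.trans ?_
      have := hm i
      omega
    · rw [mul_right_comm, hpe, ← ev_mul hp (hm i), h1]
  · rintro i u ⟨p, hp, hpe⟩
    have h1 : e i + (s + 2 - e i) = s + 2 := by have := he i; omega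
    refine ⟨p * m' i, ?_, fun z => ?_⟩
    · refine natDegree_mul_le.trans ?_
      have := hm' i
      omega
    · rw [mul_right_comm, hpe, ← ev_mul hp (hm' i), h1]

/-- distance of the local code. -/
theorem RSC_dist {K : Type*} [Field K] {J : Type*} [Fintype J] [DecidableEq K] {s : ℕ}
    {ψ : J → Option K} (hψ : Function.Injective ψ) {μ : J → K} (hμ : ∀ z, μ z ≠ 0) {u v : J → K}
    (hu : u ∈ RSC s ψ μ) (hv : v ∈ RSC s ψ μ) (hne : u ≠ v) :
    (Finset.univ.filter (fun z => u z = v z)).card ≤ s := by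
  classical
  obtain ⟨p, hp, hpe⟩ := hu
  obtain ⟨q, hq, hqe⟩ := hv
  have hpq : p ≠ q := by
    rintro rfl
    apply hne
    funext z
    exact mul_left_cancel₀ (hμ z) ((hpe z).trans (hqe z).symm)
  have h := card_agree hp hq hpq ((Finset.univ.filter (fun z => u z = v z)).image ψ) (by
    intro b hb
    rw [Finset.mem_image] at hb
    obtain ⟨z, hz, rfl⟩ := hb
    rw [← hpe, ← hqe, (Finset.mem_filter.mp hz).2])
  rwa [Finset.card_image_of_injective _ hψ] at h

/-- distance of the bundled local code. -/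
theorem RSC_dist_bundle {K : Type*} [Field K] {J ι : Type*} [Fintype J] [DecidableEq (ι → K)]
    {s : ℕ} {ψ : J → Option K} (hψ : Function.Injective ψ) (d : ι → ℕ) (hd : ∀ i, d i ≤ s)
    {μ : ι → J → K} (hμ : ∀ i z, μ i z ≠ 0) {u v : J → ι → K}
    (hu : ∀ i, (fun z => u z i) ∈ RSC (d i) ψ (μ i))
    (hv : ∀ i, (fun z => v z i) ∈ RSC (d i) ψ (μ i)) (hne : u ≠ v) :
    (Finset.univ.filter (fun z => u z = v z)).card ≤ s := by
  classical
  have : ∃ i, (fun z => u z i) ≠ (fun z => v z i) := by
    by_contra h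
    push Not at h
    exact hne (funext fun z => funext fun i => congrFun (h i) z)
  obtain ⟨i, hi⟩ := this
  refine le_trans (Finset.card_le_card ?_) ((RSC_dist hψ (hμ i) (hu i) (hv i) hi).trans (hd i))
  intro z hz
  rw [Finset.mem_filter] at hz ⊢
  exact ⟨Finset.mem_univ _, by rw [hz.2]⟩

/-- products of words. -/
theorem RSC_mul {K : Type*} [Field K] {J : Type*} {s t : ℕ} {ψ : J → Option K} {μ μ' : J → K}
    {u v : J → K} (hu : u ∈ RSC s ψ μ) (hv : v ∈ RSC t ψ μ') :
    u * v ∈ RSC (s + t) ψ (μ * μ') := by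
  obtain ⟨p, hp, hpe⟩ := hu
  obtain ⟨q, hq, hqe⟩ := hv
  refine ⟨p * q, natDegree_mul_le.trans (add_le_add hp hq), fun z => ?_⟩
  rw [ev_mul hp hq, ← hpe, ← hqe, Pi.mul_apply, Pi.mul_apply]
  ring

end Crest.Agent.R289.PS459
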