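import Mathlib
import Crest.Agent.R289.RobG_459

/-!
Row 289, block B service file (helper459): homogeneous polynomial functions on `K × K` versus the
evaluation `ev` on the projective line `Option K` (`some z = (z,1)`, `none = (1,0)`).
-/

set_option autoImplicit false

open Polynomial

namespace Crest.Agent.R289.Mob459

open PS459

variable {K : Type*} [Field K]

/-- section of the projective line. -/
def sec : Option K → K × K
  | some z => (z, 1)
  | none => (1, 0)

@[simp] theorem sec_some (z : K) : sec (some z) = (z, 1) := rfl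
@[simp] theorem sec_none : sec (none : Option K) = (1, 0) := rfl

theorem sec_ne_zero (b : Option K) : sec b ≠ 0 := by
  cases b with
  | some z => intro h; exact one_ne_zero (congrArg Prod.snd h)
  | none => intro h; exact one_ne_zero (congrArg Prod.fst h)

open Classical in
/-- the line of a vector. -/
noncomputable def proj (v : K × K) : Option K := if v.2 = 0 then none else some (v.1 / v.2)

open Classical in
/-- the scalar of a vector: `v = scal v • sec (proj v)`. -/
noncomputable def scal (v : K × K) : K := if v.2 = 0 then v.1 else v.2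

theorem scal_smul_sec (v : K × K) : scal v • sec (proj v) = v := by
  rcases v with ⟨x, y⟩
  by_cases h : y = 0
  · subst h; simp [scal, proj]
  · simp [scal, proj, h, mul_div_cancel₀]

theorem scal_ne_zero {v : K × K} (hv : v ≠ 0) : scal v ≠ 0 := by
  intro h
  apply hv
  rw [← scal_smul_sec v, h, zero_smul]

theorem scal_zero : scal (0 : K × K) = 0 := by simp [scal]

theorem proj_smul {c : K} (hc : c ≠ 0) (v : K × K) : proj (c • v) = proj v := by
  rcases v with ⟨x, y⟩
  by_cases h : y = 0
  · simp [proj, h]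
  · simp [proj, h, hc, mul_div_mul_left]

theorem scal_smul (c : K) (v : K × K) (hc : c ≠ 0) : scal (c • v) = c * scal v := by
  rcases v with ⟨x, y⟩
  by_cases h : y = 0
  · simp [scal, h]
  · simp [scal, h, hc]

@[simp] theorem proj_sec (b : Option K) : proj (sec b) = b := by
  cases b with
  | some z => simp [proj]
  | none => simp [proj]

@[simp] theorem scal_sec (b : Option K) : scal (sec b) = 1 := by
  cases b with
  | some z => simp [scal]
  | none => simp [scal]

theorem proj_eq_iff {v w : K × K} (hv : v ≠ 0) (hw : w ≠ 0) :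
    proj v = proj w ↔ ∃ c : K, c ≠ 0 ∧ w = c • v := by
  constructor
  · intro h
    refine ⟨scal w / scal v, div_ne_zero (scal_ne_zero hw) (scal_ne_zero hv), ?_⟩
    have h1 := scal_smul_sec v
    have h2 : v = scal v • sec (proj v) := h1.symm
    calc w = scal w • sec (proj w) := (scal_smul_sec w).symm
      _ = (scal w / scal v) • (scal v • sec (proj v)) := by
        rw [smul_smul, div_mul_cancel₀ _ (scal_ne_zero hv), h]
      _ = _ := by rw [h1]
  · rintro ⟨c, hc, rfl⟩
    rw [proj_smul hc]

/-- homogeneous polynomial function of degree `s` with coefficients of `p`. -/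
noncomputable def hom (s : ℕ) (p : K[X]) (v : K × K) : K :=
  scal v ^ s * ev s p (proj v)

theorem hom_sec (s : ℕ) (p : K[X]) (b : Option K) : hom s p (sec b) = ev s p b := by
  simp [hom]

theorem hom_smul (s : ℕ) (p : K[X]) {c : K} (hc : c ≠ 0) (v : K × K) :
    hom s p (c • v) = c ^ s * hom s p v := by
  rw [hom, hom, scal_smul c v hc, proj_smul hc, mul_pow, mul_assoc]

theorem hom_add (s : ℕ) (p q : K[X]) (v : K × K) : hom s (p + q) v = hom s p v + hom s q v := by
  rw [hom, hom, hom, ev_add, mul_add]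

theorem hom_const_smul (s : ℕ) (a : K) (p : K[X]) (v : K × K) :
    hom s (a • p) v = a * hom s p v := by
  rw [hom, hom, ev_smul]; ring

theorem hom_mul {s t : ℕ} {p m : K[X]} (hp : p.natDegree ≤ s) (hm : m.natDegree ≤ t) (v : K × K) :
    hom (s + t) (p * m) v = hom s p v * hom t m v := by
  rw [hom, hom, hom, ev_mul hp hm, pow_add]; ring

/-- explicit formula. -/
theorem hom_eq_sum (s : ℕ) (p : K[X]) (hp : p.natDegree ≤ s) (v : K × K) :
    hom s p v = ∑ k ∈ Finset.range (s + 1), p.coeff k * v.1 ^ k * v.2 ^ (s - k) := by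
  rcases v with ⟨x, y⟩
  by_cases h : y = 0
  · subst h
    have h1 : proj ((x, 0) : K × K) = none := by simp [proj]
    have h2 : scal ((x, 0) : K × K) = x := by simp [scal]
    rw [hom, h1, h2, Finset.sum_range_succ, Finset.sum_eq_zero]
    · change x ^ s * p.coeff s = _
      simp [mul_comm]
    · intro k hk
      rw [Finset.mem_range] at hk
      have h3 : s - k ≠ 0 := by omega
      simp [h3]
  · have h1 : proj ((x, y) : K × K) = some (x / y) := by simp [proj, h]
    have h2 : scal ((x, y) : K × K) = y := by simp [scal, h]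
    rw [hom, h1, h2]
    change y ^ s * p.eval (x / y) = _
    rw [eval_eq_sum_range' (n := s + 1) (by omega), Finset.mul_sum]
    refine Finset.sum_congr rfl fun k hk => ?_
    rw [Finset.mem_range] at hk
    have h4 : y ^ s = y ^ k * y ^ (s - k) := by rw [← pow_add]; congr 1; omega
    rw [h4, div_pow]
    field_simp

/-- linear forms. -/
theorem hom_one (a b : K) (v : K × K) :
    hom 1 (C a * X + C b) v = a * v.1 + b * v.2 := by
  rw [hom_eq_sum 1 _ (by
    refine (natDegree_add_le _ _).trans (max_le ?_ ?_)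
    · exact (natDegree_C_mul_le a X).trans natDegree_X_le
    · simp)]
  simp [Finset.sum_range_succ, coeff_C]
  ring

/-- the space of homogeneous polynomial functions of degree `s`. -/
def HP (K : Type*) [Field K] (s : ℕ) : Submodule K (K × K → K) where
  carrier := {F | ∃ p : K[X], p.natDegree ≤ s ∧ ∀ v, F v = hom s p v}
  add_mem' := by
    rintro a b ⟨p, hp, hp'⟩ ⟨q, hq, hq'⟩
    exact ⟨p + q, (natDegree_add_le p q).trans (max_le hp hq), fun v => by
      rw [Pi.add_apply, hp', hq', hom_add]⟩
  zero_mem' := ⟨0, by simp, fun v => by rw [hom, ev_zero]; simp⟩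
  smul_mem' := by
    rintro c a ⟨p, hp, hp'⟩
    exact ⟨c • p, (natDegree_smul_le _ _).trans hp, fun v => by
      rw [Pi.smul_apply, hp', hom_const_smul, smul_eq_mul]⟩

theorem mem_HP {s : ℕ} {F : K × K → K} :
    F ∈ HP K s ↔ ∃ p : K[X], p.natDegree ≤ s ∧ ∀ v, F v = hom s p v := Iff.rfl

theorem HP_mul {s t : ℕ} {F G : K × K → K} (hF : F ∈ HP K s) (hG : G ∈ HP K t) :
    F * G ∈ HP K (s + t) := by
  obtain ⟨p, hp, hp'⟩ := hF
  obtain ⟨q, hq, hq'⟩ := hG
  exact ⟨p * q, natDegree_mul_le.trans (add_le_add hp hq), fun v => by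
    rw [Pi.mul_apply, hp', hq', hom_mul hp hq]⟩

theorem HP_linear (a b : K) : (fun v : K × K => a * v.1 + b * v.2) ∈ HP K 1 := by
  refine ⟨C a * X + C b, ?_, fun v => (hom_one a b v).symm⟩
  refine (natDegree_add_le _ _).trans (max_le ?_ ?_)
  · exact (natDegree_C_mul_le a X).trans natDegree_X_le
  · simp

theorem HP_const (a : K) : (fun _ : K × K => a) ∈ HP K 0 := by
  refine ⟨C a, by simp, fun v => ?_⟩
  rw [hom_eq_sum 0 _ (by simp)]
  simp

theorem HP_pow {s : ℕ} {F : K × K → K} (hF : F ∈ HP K s) (k : ℕ) : F ^ k ∈ HP K (k * s) := by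
  induction k with
  | zero => rw [pow_zero, zero_mul]; exact HP_const 1
  | succ k ih => rw [pow_succ, Nat.succ_mul]; exact HP_mul ih hF

/-- linear substitution. -/
theorem HP_comp {s : ℕ} {F : K × K → K} (hF : F ∈ HP K s) (T : (K × K) →ₗ[K] (K × K)) :
    (fun v => F (T v)) ∈ HP K s := by
  obtain ⟨p, hp, hp'⟩ := hF
  have hT1 : (fun v : K × K => (T v).1) ∈ HP K 1 := by
    have : (fun v : K × K => (T v).1) = fun v => (T (1, 0)).1 * v.1 + (T (0, 1)).1 * v.2 := by
      funext v
      have h : v = v.1 • ((1, 0) : K × K) + v.2 • ((0, 1) : K × K) := by ext <;> simp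
      conv_lhs => rw [h, map_add, map_smul, map_smul]
      simp [mul_comm]
    rw [this]; exact HP_linear _ _
  have hT2 : (fun v : K × K => (T v).2) ∈ HP K 1 := by
    have : (fun v : K × K => (T v).2) = fun v => (T (1, 0)).2 * v.1 + (T (0, 1)).2 * v.2 := by
      funext v
      have h : v = v.1 • ((1, 0) : K × K) + v.2 • ((0, 1) : K × K) := by ext <;> simp
      conv_lhs => rw [h, map_add, map_smul, map_smul]
      simp [mul_comm]
    rw [this]; exact HP_linear _ _
  have h1 : (fun v => F (T v)) = ∑ k ∈ Finset.range (s + 1), p.coeff k •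
      ((fun v : K × K => (T v).1) ^ k * (fun v : K × K => (T v).2) ^ (s - k)) := by
    funext v
    rw [hp', hom_eq_sum s p hp]
    simp [Finset.sum_apply, mul_assoc]
  rw [h1]
  refine Submodule.sum_mem _ fun k hk => Submodule.smul_mem _ _ ?_
  rw [Finset.mem_range] at hk
  have h2 := HP_mul (HP_pow hT1 k) (HP_pow hT2 (s - k))
  have h3 : k * 1 + (s - k) * 1 = s := by omega
  rwa [h3] at h2

/-- the RS condition in a homogeneous chart `ψ` (any map of vectors): values `x b` times scalars are
values of a form in `ψ (sec b)` iff `x ∈ RSC` with chart `proj ∘ ψ ∘ sec`. -/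
theorem mem_RSC_iff {J : Type*} {s : ℕ} {ψ : J → K × K} (hψ : ∀ z, ψ z ≠ 0) {μ : J → K}
    {x : J → K} :
    x ∈ RSC s (fun z => proj (ψ z)) (fun z => μ z * (scal (ψ z) ^ s)⁻¹) ↔
      ∃ F ∈ HP K s, ∀ z, μ z * x z = F (ψ z) := by
  constructor
  · rintro ⟨p, hp, hp'⟩
    refine ⟨hom s p, ⟨p, hp, fun _ => rfl⟩, fun z => ?_⟩
    have h := hp' z
    have h0 : scal (ψ z) ^ s ≠ 0 := pow_ne_zero _ (scal_ne_zero (hψ z))
    rw [hom, ← h]
    field_simp
  · rintro ⟨F, ⟨p, hp, hp'⟩, hF⟩
    refine ⟨p, hp, fun z => ?_⟩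
    have h0 : scal (ψ z) ^ s ≠ 0 := pow_ne_zero _ (scal_ne_zero (hψ z))
    rw [mul_right_comm, hF, hp', hom]
    field_simp

/-- a Möbius map. -/
noncomputable def mob (T : (K × K) ≃ₗ[K] (K × K)) : Option K ≃ Option K where
  toFun b := proj (T (sec b))
  invFun b := proj (T.symm (sec b))
  left_inv b := by
    have h0 : T (sec b) ≠ 0 := fun h => sec_ne_zero b (by simpa using h)
    have h1 := scal_smul_sec (T (sec b))
    have h2 : sec (proj (T (sec b))) = (scal (T (sec b)))⁻¹ • T (sec b) := by
      rw [eq_inv_smul_iff₀ (scal_ne_zero h0)]; exact h1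
    change proj (T.symm (sec (proj (T (sec b))))) = b
    rw [h2, map_smul, T.symm_apply_apply, proj_smul (inv_ne_zero (scal_ne_zero h0)), proj_sec]
  right_inv b := by
    have h0 : T.symm (sec b) ≠ 0 := fun h => sec_ne_zero b (by simpa using h)
    have h1 := scal_smul_sec (T.symm (sec b))
    have h2 : sec (proj (T.symm (sec b))) = (scal (T.symm (sec b)))⁻¹ • T.symm (sec b) := by
      rw [eq_inv_smul_iff₀ (scal_ne_zero h0)]; exact h1
    change proj (T (sec (proj (T.symm (sec b))))) = b
    rw [h2, map_smul, T.apply_symm_apply, proj_smul (inv_ne_zero (scal_ne_zero h0)), proj_sec]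

theorem mob_apply (T : (K × K) ≃ₗ[K] (K × K)) (b : Option K) : mob T b = proj (T (sec b)) := rfl

theorem proj_map (T : (K × K) ≃ₗ[K] (K × K)) {v : K × K} (hv : v ≠ 0) :
    proj (T v) = mob T (proj v) := by
  rw [mob_apply]
  conv_lhs => rw [← scal_smul_sec v, map_smul, proj_smul (scal_ne_zero hv)]

/-- RS codes are stable under linear changes of the chart. -/
theorem RSC_linear {J : Type*} {s : ℕ} {ψ : J → K × K}
    (T : (K × K) ≃ₗ[K] (K × K)) {μ : J → K} {x : J → K} :
    (∃ F ∈ HP K s, ∀ z, μ z * x z = F (ψ z)) ↔ ∃ F ∈ HP K s, ∀ z, μ z * x z = F (T (ψ z)) := by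
  constructor
  · rintro ⟨F, hF, h⟩
    refine ⟨fun v => F (T.symm v), HP_comp hF T.symm.toLinearMap, fun z => ?_⟩
    change _ = F (T.symm (T (ψ z)))
    rw [h, T.symm_apply_apply]
  · rintro ⟨F, hF, h⟩
    exact ⟨fun v => F (T v), HP_comp hF T.toLinearMap, h⟩

end Crest.Agent.R289.Mob459
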