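import Crest.Agent.R289.Fac_281
import Crest.Agent.R289.Mob_459

/-!
Row 289, block B, TP4: labels on the projective line, permutations, odd coordinates and the four
edge equivalences of the two-place square complex (format of helper946, #5933).
-/

set_option autoImplicit false

namespace Crest.Agent.R289.FacB281

open Polynomial Crest.Agent.R289.Exp820 Crest.Agent.R289.Exp820.Sk Crest.Agent.R289.Fac281
  Crest.Agent.R289.Mob459 Crest.Agent.R289.PS459

variable {K : Type*} [Field K] {σ : K →+* K}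

/-- determinant of two row vectors -/
def dt (l n : K × K) : K := l.1 * n.2 - l.2 * n.1

theorem dt_act (x : K) (l n : K × K) (r : Sk σ) :
    dt (act x l r) (act x n r) = (N r).eval x * dt l n := by
  simp only [dt, act, N, eval_sub, eval_mul, eval_X]
  ring

theorem act_add (x : K) (l n : K × K) (r : Sk σ) :
    act x (l + n) r = act x l r + act x n r := by
  ext
  · simp only [act, Prod.fst_add, Prod.snd_add]; ring
  · simp only [act, Prod.fst_add, Prod.snd_add]; ring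

theorem conj_conj (hσ : ∀ a, σ (σ a) = a) (r : Sk σ) : conj (conj r) = r := by
  apply ext'
  · simp only [conj, sg_sg hσ]
  · simp only [conj, neg_neg]

theorem N_conj (hσ : ∀ a, σ (σ a) = a) (r : Sk σ) : N (conj r) = N r := by
  simp only [conj, N, sg_sg hσ, map_neg]
  ring

/-- the action as a linear equivalence -/
noncomputable def actE (hσ : ∀ a, σ (σ a) = a) (x : K) (r : Sk σ) (h : (N r).eval x ≠ 0) :
    (K × K) ≃ₗ[K] (K × K) where
  toFun l := act x l r
  map_add' l n := act_add x l n r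
  map_smul' c l := act_smul x c l r
  invFun l := ((N r).eval x)⁻¹ • act x l (conj r)
  left_inv l := by
    simp only
    rw [act_conj hσ, smul_smul, inv_mul_cancel₀ h, one_smul]
  right_inv l := by
    simp only
    rw [act_smul]
    have h1 := act_conj hσ x l (conj r)
    rw [conj_conj hσ, N_conj hσ] at h1
    rw [h1, smul_smul, inv_mul_cancel₀ h, one_smul]

theorem actE_apply (hσ : ∀ a, σ (σ a) = a) (x : K) (r : Sk σ) (h : (N r).eval x ≠ 0)
    (l : K × K) : actE hσ x r h l = act x l r := rfl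

/-! ### the odd coordinate -/

/-- the image of `be x l` -/
noncomputable def fl (σ : K →+* K) (x : K) (l : K × K) : K × K :=
  (-(x - σ x) * (σ l.2 / σ (Q σ x l)), -(x - σ x) * (σ l.1 / (Q σ x l * σ x)))

/-- `be x l` has rank one: explicit -/
theorem act_be_gen (hσ : ∀ a, σ (σ a) = a) {x : K} (hx : σ x ≠ x) {l : K × K} (hl : l ≠ 0)
    (n : K × K) : act x n (be σ x l) = dt l n • fl σ x l := by
  have hx0 : x ≠ 0 := x_ne_zero hx
  have hsx0 : σ x ≠ 0 := (map_ne_zero σ).2 hx0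
  have hQ := Q_ne_zero hσ hx hl
  have hQs : σ (Q σ x l) ≠ 0 := (map_ne_zero σ).2 hQ
  have hsg : sg σ (1 + C (gam σ x l) * X) = 1 + C (σ (gam σ x l)) * X := by
    simp only [map_add, map_one, map_mul, sg_C, sg_X]
  have hgs : σ (gam σ x l) = -(Q σ x l / σ (Q σ x l)) / x := by
    simp only [gam, map_div₀, map_neg, hσ]
  have hbs : σ (bet σ x l) = (σ x - x) / σ x * (σ l.1 * l.2 / Q σ x l) := by
    simp only [bet, map_div₀, map_mul, map_sub, hσ]
  have e1 : σ (Q σ x l) = nm σ l.1 - σ x * nm σ l.2 := Q_sigma hσ x l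
  ext
  · simp only [act, be, hsg, eval_add, eval_one, eval_mul, eval_C, eval_X, hgs, Prod.smul_fst,
      smul_eq_mul, dt, fl]
    have : (1 + -(Q σ x l / σ (Q σ x l)) / x * x) * n.1 - x * bet σ x l * n.2
        = ((σ (Q σ x l) - Q σ x l) * n.1 - (x - σ x) * (l.1 * σ l.2) * n.2) / σ (Q σ x l) := by
      simp only [bet]
      field_simp
      ring
    rw [this, e1]
    rw [e1] at hQs
    simp only [Q]
    field_simp
    simp only [nm]
    ring
  · simp only [act, be, sg_C, eval_add, eval_one, eval_mul, eval_C, eval_X, hbs, Prod.smul_snd,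
      smul_eq_mul, dt, fl]
    have : (1 + gam σ x l * x) * n.2 - (σ x - x) / σ x * (σ l.1 * l.2 / Q σ x l) * n.1
        = ((σ x * Q σ x l - x * σ (Q σ x l)) * n.2 - (σ x - x) * (σ l.1 * l.2) * n.1) /
          (σ x * Q σ x l) := by
      simp only [gam]
      field_simp
      ring
    rw [this, e1]
    field_simp
    simp only [Q, nm]
    ring

/-- conjugation of row vectors -/
def cj (σ : K →+* K) (v : K × K) : K × K := (σ v.1, σ v.2)

theorem cj_cj (hσ : ∀ a, σ (σ a) = a) (v : K × K) : cj σ (cj σ v) = v := by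
  ext <;> simp [cj, hσ]

theorem cj_smul (c : K) (v : K × K) : cj σ (c • v) = σ c • cj σ v := by
  ext <;> simp [cj]

theorem cj_add (v w : K × K) : cj σ (v + w) = cj σ v + cj σ w := by
  ext <;> simp [cj]

theorem cj_ne_zero {v : K × K} (h : v ≠ 0) : cj σ v ≠ 0 := by
  intro h'
  apply h
  have h1 := congrArg Prod.fst h'
  have h2 := congrArg Prod.snd h'
  simp only [cj, Prod.fst_zero, Prod.snd_zero, map_eq_zero] at h1 h2
  exact Prod.ext h1 h2

/-- the coordinate at the odd end of an edge -/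
noncomputable def psi (σ : K →+* K) (x : K) (l : K × K) : K × K := cj σ (fl σ x l)

theorem psi_eq (hσ : ∀ a, σ (σ a) = a) (x : K) (l : K × K) :
    psi σ x l = ((x - σ x) * (l.2 / Q σ x l), (x - σ x) * (l.1 / (σ (Q σ x l) * x))) := by
  ext
  · simp only [psi, cj, fl, map_mul, map_neg, map_sub, map_div₀, hσ]; ring
  · simp only [psi, cj, fl, map_mul, map_neg, map_sub, map_div₀, hσ]; ring

theorem Q_smul (x c : K) (l : K × K) : Q σ x (c • l) = nm σ c * Q σ x l := by
  simp only [Q, nm, Prod.smul_fst, Prod.smul_snd, smul_eq_mul, map_mul]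
  ring

theorem psi_smul (hσ : ∀ a, σ (σ a) = a) {x : K} (hx : σ x ≠ x) {l : K × K} (hl : l ≠ 0)
    {c : K} (hc : c ≠ 0) : psi σ x (c • l) = (σ c)⁻¹ • psi σ x l := by
  have hx0 : x ≠ 0 := x_ne_zero hx
  have hQ := Q_ne_zero hσ hx hl
  have hQs : σ (Q σ x l) ≠ 0 := (map_ne_zero σ).2 hQ
  have hc' : σ c ≠ 0 := (map_ne_zero σ).2 hc
  rw [psi_eq hσ, psi_eq hσ, Q_smul]
  ext
  · simp only [nm, Prod.smul_fst, Prod.smul_snd, smul_eq_mul, map_mul, hσ]
    field_simp
  · simp only [nm, Prod.smul_fst, Prod.smul_snd, smul_eq_mul, map_mul, hσ]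
    field_simp

theorem psi_ne_zero (hσ : ∀ a, σ (σ a) = a) {x : K} (hx : σ x ≠ x) {l : K × K} (hl : l ≠ 0) :
    psi σ x l ≠ 0 := by
  have hx0 : x ≠ 0 := x_ne_zero hx
  have hQ := Q_ne_zero hσ hx hl
  have hQs : σ (Q σ x l) ≠ 0 := (map_ne_zero σ).2 hQ
  intro h
  rw [psi_eq hσ] at h
  have h1 := congrArg Prod.fst h
  have h2 := congrArg Prod.snd h
  simp only [Prod.fst_zero, Prod.snd_zero] at h1 h2
  have hxx : x - σ x ≠ 0 := sub_ne_zero.2 hx.symm
  apply hl
  refine Prod.ext ?_ ?_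
  · have := (mul_eq_zero.1 h2).resolve_left hxx
    exact (div_eq_zero_iff.1 this).resolve_right (mul_ne_zero hQs hx0)
  · have := (mul_eq_zero.1 h1).resolve_left hxx
    exact (div_eq_zero_iff.1 this).resolve_right hQ

theorem nm_smul_Q (x : K) {l l' : K × K} {k : K} (h1 : nm σ l'.1 = k * nm σ l.1)
    (h2 : nm σ l'.2 = k * nm σ l.2) : Q σ x l' = k * Q σ x l := by
  simp only [Q, h1, h2]; ring

/-- `psi` is injective on lines -/
theorem psi_inj (hσ : ∀ a, σ (σ a) = a) {x : K} (hx : σ x ≠ x) {l l' : K × K} (hl : l ≠ 0)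
    (hl' : l' ≠ 0) {c : K} (hc : c ≠ 0) (h : psi σ x l' = c • psi σ x l) :
    ∃ k : K, k ≠ 0 ∧ l' = k • l := by
  have hx0 : x ≠ 0 := x_ne_zero hx
  have hQ := Q_ne_zero hσ hx hl
  have hQs : σ (Q σ x l) ≠ 0 := (map_ne_zero σ).2 hQ
  have hQ' := Q_ne_zero hσ hx hl'
  have hQs' : σ (Q σ x l') ≠ 0 := (map_ne_zero σ).2 hQ'
  have hxx : x - σ x ≠ 0 := sub_ne_zero.2 hx.symm
  rw [psi_eq hσ, psi_eq hσ] at h
  have h1 := congrArg Prod.fst h
  have h2 := congrArg Prod.snd h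
  simp only [Prod.smul_fst, Prod.smul_snd, smul_eq_mul] at h1 h2
  have a1 : l'.2 = c * l.2 * Q σ x l' / Q σ x l := by
    field_simp at h1 ⊢
    linear_combination h1
  have a2 : l'.1 = c * l.1 * σ (Q σ x l') / σ (Q σ x l) := by
    field_simp at h2 ⊢
    linear_combination h2
  set k : K := nm σ c * (nm σ (Q σ x l') / nm σ (Q σ x l)) with hk
  have hk0 : k ≠ 0 := mul_ne_zero (nm_ne_zero hc) (div_ne_zero (nm_ne_zero hQ') (nm_ne_zero hQ))
  have b1 : nm σ l'.1 = k * nm σ l.1 := by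
    rw [hk, a2]
    simp only [nm, map_mul, map_div₀, hσ]
    field_simp
  have b2 : nm σ l'.2 = k * nm σ l.2 := by
    rw [hk, a1]
    simp only [nm, map_mul, map_div₀, hσ]
    field_simp
  have hQk := nm_smul_Q (σ := σ) x b1 b2
  have hkσ : σ k = k := by
    rw [hk, map_mul, map_div₀, nm_fix hσ, nm_fix hσ, nm_fix hσ]
  refine ⟨k * c, mul_ne_zero hk0 hc, ?_⟩
  refine Prod.ext ?_ ?_
  · rw [a2, hQk, map_mul, hkσ, Prod.smul_fst, smul_eq_mul]
    field_simp
  · rw [a1, hQk, Prod.smul_snd, smul_eq_mul]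
    field_simp

/-! ### transport of the odd coordinate -/

theorem fl_transport (hσ : ∀ a, σ (σ a) = a) {x y : K} (hx : σ x ≠ x) (hy : σ y ≠ y)
    (hxy : x ≠ y) (hxy' : σ x ≠ y) {l m : K × K} (hl : l ≠ 0) (hm : m ≠ 0) :
    act x (fl σ x l) (be σ y (act y m (be σ x l))) =
      (N (be σ y m)).eval x • fl σ x (act x l (be σ y m)) := by
  have hyx' : σ y ≠ x := fun h => hxy' (by rw [← h, hσ])
  have hL0 : act x l (be σ y m) ≠ 0 := act_ne_zero hσ hl (N_be_eval_ne hσ hy hm hxy.symm hyx')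
  have hc := comm hσ hx hy hxy hxy' hl hm
  obtain ⟨n, hn⟩ : ∃ n : K × K, dt l n = 1 := by
    by_cases h : l.1 = 0
    · have h2 : l.2 ≠ 0 := fun h2 => hl (Prod.ext h h2)
      exact ⟨(-(l.2)⁻¹, 0), by simp [dt, h2]⟩
    · exact ⟨(0, (l.1)⁻¹), by simp [dt, h]⟩
  have e := congrArg (act x n) hc
  rw [act_mul hσ, act_mul hσ, act_be_gen hσ hx hl, act_be_gen hσ hx hL0, act_smul, dt_act, hn,
    one_smul, mul_one] at e
  exact e

/-- the conjugated action, a linear equivalence -/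
noncomputable def cactE (hσ : ∀ a, σ (σ a) = a) (x : K) (r : Sk σ) (h : (N r).eval x ≠ 0) :
    (K × K) ≃ₗ[K] (K × K) where
  toFun l := cj σ (act x (cj σ l) r)
  map_add' l n := by rw [cj_add, act_add, cj_add]
  map_smul' c l := by rw [cj_smul, act_smul, cj_smul, hσ]; rfl
  invFun l := cj σ ((actE hσ x r h).symm (cj σ l))
  left_inv l := by
    simp only
    rw [cj_cj hσ, ← actE_apply hσ x r h, LinearEquiv.symm_apply_apply, cj_cj hσ]
  right_inv l := by
    simp only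
    rw [cj_cj hσ, ← actE_apply hσ x r h, LinearEquiv.apply_symm_apply, cj_cj hσ]

theorem psi_transport (hσ : ∀ a, σ (σ a) = a) {x y : K} (hx : σ x ≠ x) (hy : σ y ≠ y)
    (hxy : x ≠ y) (hxy' : σ x ≠ y) {l m : K × K} (hl : l ≠ 0) (hm : m ≠ 0) :
    cj σ (act x (cj σ (psi σ x l)) (be σ y (act y m (be σ x l)))) =
      σ ((N (be σ y m)).eval x) • psi σ x (act x l (be σ y m)) := by
  rw [psi, psi, cj_cj hσ, fl_transport hσ hx hy hxy hxy' hl hm, cj_smul]

/-! ### labels on the projective line -/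

/-- new `y`-label -/
noncomputable def M (σ : K →+* K) (x y : K) (l m : Option K) : Option K :=
  proj (act y (sec m) (be σ x (sec l)))

/-- new `x`-label -/
noncomputable def L (σ : K →+* K) (x y : K) (l m : Option K) : Option K :=
  proj (act x (sec l) (be σ y (sec m)))

theorem proj_surj_sec {v : K × K} : v = scal v • sec (proj v) := (scal_smul_sec v).symm

theorem be_sec_proj (hσ : ∀ a, σ (σ a) = a) {x : K} (hx : σ x ≠ x) {v : K × K} (hv : v ≠ 0) :
    be σ x (sec (proj v)) = be σ x v := by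
  conv_rhs => rw [← scal_smul_sec v]
  rw [be_smul hσ hx (sec_ne_zero _) (scal_ne_zero hv)]

/-- labels are determined by the element -/
theorem be_sec_inj (hσ : ∀ a, σ (σ a) = a) {x : K} (hx : σ x ≠ x) {l l' : Option K}
    (h : be σ x (sec l) = be σ x (sec l')) : l = l' := by
  have h1 := prop_of_be hσ hx (sec_ne_zero l) (sec_ne_zero l') h
  cases l <;> cases l' <;> simp_all [sec]

section two

variable {x y : K}

theorem L_swap (l m : Option K) : L σ x y l m = M σ y x m l := rfl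

/-- the square relation -/
theorem comm' (hσ : ∀ a, σ (σ a) = a) (hx : σ x ≠ x) (hy : σ y ≠ y)
    (hxy : x ≠ y) (hxy' : σ x ≠ y) (l m : Option K) :
    be σ x (sec l) * be σ y (sec (M σ x y l m)) = be σ y (sec m) * be σ x (sec (L σ x y l m)) := by
  have hyx' : σ y ≠ x := fun h => hxy' (by rw [← h, hσ])
  have hl := sec_ne_zero l
  have hm := sec_ne_zero m
  rw [M, L, be_sec_proj hσ hy (act_ne_zero hσ hm (N_be_eval_ne hσ hx hl hxy hxy')),
    be_sec_proj hσ hx (act_ne_zero hσ hl (N_be_eval_ne hσ hy hm hxy.symm hyx'))]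
  exact comm hσ hx hy hxy hxy' hl hm

theorem M_bij (hσ : ∀ a, σ (σ a) = a) (hx : σ x ≠ x)
    (hxy : x ≠ y) (hxy' : σ x ≠ y) (l : Option K) : Function.Bijective (M σ x y l) :=
  (mob (actE hσ y (be σ x (sec l))
    (N_be_eval_ne hσ hx (sec_ne_zero l) hxy hxy'))).bijective

theorem L_bij (hσ : ∀ a, σ (σ a) = a) (hy : σ y ≠ y)
    (hxy : x ≠ y) (hxy' : σ x ≠ y) (m : Option K) :
    Function.Bijective (fun l => L σ x y l m) :=
  M_bij (x := y) (y := x) hσ hy hxy.symm (fun h => hxy' (by rw [← h, hσ])) m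

/-- difference of two `be`s: constant term `0` -/
theorem N_be_sub (x : K) (l l' : K × K) :
    N (⟨(be σ x l).re - (be σ x l').re, (be σ x l).im - (be σ x l').im⟩ : Sk σ) =
      X * (C (-((bet σ x l - bet σ x l') * σ (bet σ x l - bet σ x l'))) +
        C ((gam σ x l - gam σ x l') * σ (gam σ x l - gam σ x l')) * X) := by
  simp only [N, be, map_sub, map_add, map_one, map_mul, sg_C, sg_X, C_sub, C_mul, C_neg]
  ring

theorem sub_mul' (r s u : Sk σ) :
    (⟨r.re - s.re, r.im - s.im⟩ : Sk σ) * u = ⟨(r * u).re - (s * u).re, (r * u).im - (s * u).im⟩ := by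
  apply ext'
  · simp only [mul_re]; ring
  · simp only [mul_im]; ring

/-- **far corner**: `(l, m) ↦ (L, M)` is injective -/
theorem LM_inj (hσ : ∀ a, σ (σ a) = a) (hx : σ x ≠ x) (hy : σ y ≠ y)
    (hxy : x ≠ y) (hxy' : σ x ≠ y) :
    Function.Injective (fun p : Option K × Option K => (L σ x y p.1 p.2, M σ x y p.1 p.2)) := by
  have hyx' : σ y ≠ x := fun h => hxy' (by rw [← h, hσ])
  have hy0 : y ≠ 0 := x_ne_zero hy
  rintro ⟨l, m⟩ ⟨l', m'⟩ h
  simp only [Prod.mk.injEq] at h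
  obtain ⟨hL, hM⟩ := h
  have c1 := comm' hσ hx hy hxy hxy' l m
  have c2 := comm' hσ hx hy hxy hxy' l' m'
  rw [← hL, ← hM] at c2
  set l1 := L σ x y l m
  set m1 := M σ x y l m
  have e : (⟨(be σ x (sec l)).re - (be σ x (sec l')).re,
      (be σ x (sec l)).im - (be σ x (sec l')).im⟩ : Sk σ) * be σ y (sec m1) =
      (⟨(be σ y (sec m)).re - (be σ y (sec m')).re,
        (be σ y (sec m)).im - (be σ y (sec m')).im⟩ : Sk σ) * be σ x (sec l1) := by
    rw [sub_mul', sub_mul', c1, c2]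
  have eN := congrArg N e
  rw [N_mul hσ, N_mul hσ] at eN
  have hroot : ∀ z : K, z = y ∨ z = σ y → (N (⟨(be σ y (sec m)).re - (be σ y (sec m')).re,
        (be σ y (sec m)).im - (be σ y (sec m')).im⟩ : Sk σ)).eval z = 0 := by
    intro z hz
    have h1 := congrArg (eval z) eN
    rw [eval_mul, eval_mul, N_be_eval hσ hy (sec_ne_zero _)] at h1
    have h2 : (z - y) * (z - σ y) = 0 := by
      rcases hz with rfl | rfl <;> simp
    rw [h2, mul_zero, mul_zero] at h1
    refine (mul_eq_zero.1 h1.symm).resolve_right ?_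
    rcases hz with rfl | rfl
    · exact N_be_eval_ne hσ hx (sec_ne_zero _) hxy hxy'
    · exact N_be_eval_ne hσ hx (sec_ne_zero _) (fun h => hyx' h.symm)
        (fun h => hxy (σ.injective h))
  have hm : m = m' := by
    apply be_sec_inj hσ hy
    have r1 := hroot y (Or.inl rfl)
    have r2 := hroot (σ y) (Or.inr rfl)
    have hsy0 : σ y ≠ 0 := (map_ne_zero σ).2 hy0
    rw [N_be_sub] at r1 r2
    simp only [eval_mul, eval_X, eval_add, eval_C] at r1 r2
    have s1 := (mul_eq_zero.1 r1).resolve_left hy0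
    have s2 := (mul_eq_zero.1 r2).resolve_left hsy0
    set u := bet σ y (sec m) - bet σ y (sec m') with hu
    set v := gam σ y (sec m) - gam σ y (sec m') with hv
    have s3 : v * σ v * (y - σ y) = 0 := by linear_combination s1 - s2
    have s4 : v * σ v = 0 := (mul_eq_zero.1 s3).resolve_right (sub_ne_zero.2 hy.symm)
    have hv0 : v = 0 := by
      by_contra h0
      exact nm_ne_zero (σ := σ) h0 s4
    have hu0 : u = 0 := by
      by_contra h0
      apply nm_ne_zero (σ := σ) h0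
      simp only [nm]
      rw [s4] at s1
      linear_combination -s1
    simp only [be, sub_eq_zero.1 (hu ▸ hu0), sub_eq_zero.1 (hv ▸ hv0)]
  subst hm
  have hl : l = l' := (L_bij hσ hy hxy hxy' m).1 hL
  rw [hl]

theorem LM_bij [Finite K] (hσ : ∀ a, σ (σ a) = a) (hx : σ x ≠ x) (hy : σ y ≠ y)
    (hxy : x ≠ y) (hxy' : σ x ≠ y) :
    Function.Bijective (fun p : Option K × Option K => (L σ x y p.1 p.2, M σ x y p.1 p.2)) :=
  Finite.injective_iff_bijective.1 (LM_inj hσ hx hy hxy hxy')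

/-- the odd coordinate as a point -/
noncomputable def px (σ : K →+* K) (x : K) (l : Option K) : Option K := proj (psi σ x (sec l))

theorem px_inj (hσ : ∀ a, σ (σ a) = a) (hx : σ x ≠ x) : Function.Injective (px σ x) := by
  intro l l' h
  have h1 := psi_ne_zero hσ hx (sec_ne_zero l)
  have h2 := psi_ne_zero hσ hx (sec_ne_zero l')
  obtain ⟨c, hc, hc'⟩ := (proj_eq_iff h1 h2).1 h
  obtain ⟨k, hk, hk'⟩ := psi_inj hσ hx (sec_ne_zero l) (sec_ne_zero l') hc hc'
  have := (proj_eq_iff (sec_ne_zero l) (sec_ne_zero l')).2 ⟨k, hk, hk'⟩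
  simpa using this

theorem px_bij [Finite K] (hσ : ∀ a, σ (σ a) = a) (hx : σ x ≠ x) :
    Function.Bijective (px σ x) :=
  Finite.injective_iff_bijective.1 (px_inj hσ hx)

theorem px_proj (hσ : ∀ a, σ (σ a) = a) (hx : σ x ≠ x) {v : K × K} (hv : v ≠ 0) :
    px σ x (proj v) = proj (psi σ x v) := by
  conv_rhs => rw [← scal_smul_sec v]
  rw [psi_smul hσ hx (sec_ne_zero _) (scal_ne_zero hv), proj_smul]
  · rfl
  · exact inv_ne_zero ((map_ne_zero σ).2 (scal_ne_zero hv))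

/-! ### weights and edge equivalences -/

/-- weight at the `oe` corner -/
noncomputable def moe (σ : K →+* K) (x y : K) (s : ℕ) (l m : Option K) : K :=
  ((scal (psi σ x (sec l)) * scal (act y (sec m) (be σ x (sec l)))) ^ s)⁻¹

/-- weight at the `eo` corner -/
noncomputable def meo (σ : K →+* K) (x y : K) (s : ℕ) (l m : Option K) : K :=
  ((scal (psi σ y (sec m)) * scal (act x (sec l) (be σ y (sec m)))) ^ s)⁻¹

/-- weight at the `oo` corner -/
noncomputable def moo (σ : K →+* K) (x y : K) (s : ℕ) (l m : Option K) : K :=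
  ((scal (psi σ x (act x (sec l) (be σ y (sec m)))) *
    scal (psi σ y (act y (sec m) (be σ x (sec l))))) ^ s)⁻¹

theorem meo_swap (s : ℕ) (l m : Option K) : meo σ x y s l m = moe σ y x s m l := rfl

theorem moo_swap (s : ℕ) (l m : Option K) : moo σ x y s l m = moo σ y x s m l := by
  simp only [moo]
  rw [mul_comm (scal _) (scal _)]

/-- `x` is given by a form of degree `s` in the chart `ψ` with weights `μ`. -/
def Pl {J : Type*} (s : ℕ) (ψ : J → K × K) (μ : J → K) (f : J → K) : Prop :=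
  ∃ F ∈ HP K s, ∀ z, μ z * f z = F (ψ z)

theorem Pl_T {J : Type*} {s : ℕ} {ψ : J → K × K} {μ f : J → K} (T : (K × K) ≃ₗ[K] (K × K)) :
    Pl s ψ μ f ↔ Pl s (fun z => T (ψ z)) μ f := RSC_linear T

theorem HP_smul_arg {s : ℕ} {F : K × K → K} (hF : F ∈ HP K s) {c : K} (hc : c ≠ 0)
    (v : K × K) : F (c • v) = c ^ s * F v := by
  obtain ⟨p, -, hp⟩ := hF
  rw [hp, hp, hom_smul _ _ hc]

/-- rescaling of the chart -/
theorem Pl_s {J : Type*} {s : ℕ} {ψ : J → K × K} {μ f : J → K} {c : J → K} (hc : ∀ z, c z ≠ 0) :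
    Pl s (fun z => c z • ψ z) μ f ↔ Pl s ψ (fun z => μ z * (c z ^ s)⁻¹) f := by
  have h0 : ∀ z, c z ^ s ≠ 0 := fun z => pow_ne_zero _ (hc z)
  constructor
  · rintro ⟨F, hF, h⟩
    refine ⟨F, hF, fun z => ?_⟩
    have h1 := h z
    rw [HP_smul_arg hF (hc z)] at h1
    have h2 := h0 z
    field_simp
    linear_combination h1
  · rintro ⟨F, hF, h⟩
    refine ⟨F, hF, fun z => ?_⟩
    have h1 := h z
    rw [HP_smul_arg hF (hc z), ← h1]
    have h2 := h0 z
    field_simp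

/-- rescaling of the weights by a constant -/
theorem Pl_c {J : Type*} {s : ℕ} {ψ : J → K × K} {μ f : J → K} {c : K} (hc : c ≠ 0) :
    Pl s ψ (fun z => μ z * c) f ↔ Pl s ψ μ f := by
  constructor
  · rintro ⟨F, hF, h⟩
    refine ⟨c⁻¹ • F, (HP K s).smul_mem _ hF, fun z => ?_⟩
    rw [Pi.smul_apply, smul_eq_mul, ← h z]
    field_simp
  · rintro ⟨F, hF, h⟩
    refine ⟨c • F, (HP K s).smul_mem _ hF, fun z => ?_⟩
    rw [Pi.smul_apply, smul_eq_mul, ← h z]
    ring

theorem Pl_congr {J : Type*} {s : ℕ} {ψ ψ' : J → K × K} {μ μ' f : J → K}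
    (h1 : ∀ z, ψ z = ψ' z) (h2 : ∀ z, μ z = μ' z) : Pl s ψ μ f ↔ Pl s ψ' μ' f := by
  rw [show ψ = ψ' from funext h1, show μ = μ' from funext h2]

/-- the RS condition in a chart, in projective form -/
theorem Pl_iff_ev {J : Type*} {s : ℕ} {ψ : J → K × K} (hψ : ∀ z, ψ z ≠ 0) {μ f : J → K} :
    Pl s ψ μ f ↔ ∃ p : K[X], p.natDegree ≤ s ∧
      ∀ z, μ z * (scal (ψ z) ^ s)⁻¹ * f z = ev s p (proj (ψ z)) := by
  rw [Pl, ← mem_RSC_iff hψ]
  rfl

theorem norm_pow {s : ℕ} (hs : ∀ c : K, c ≠ 0 → (c * σ c) ^ s = 1) {c : K} (hc : c ≠ 0) :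
    ((σ c)⁻¹ ^ s)⁻¹ = (c ^ s)⁻¹ := by
  have h1 := hs c hc
  have h2 : c ^ s ≠ 0 := pow_ne_zero _ hc
  rw [mul_pow] at h1
  rw [inv_pow, inv_inv, eq_comm]
  exact inv_eq_of_mul_eq_one_right h1

/-- (h0): `x`-even, `y`-even end versus `x`-odd, `y`-even end of the edge `(g, l)` -/
theorem h0 (hσ : ∀ a, σ (σ a) = a) (hx : σ x ≠ x)
    (hxy : x ≠ y) (hxy' : σ x ≠ y) (s : ℕ) (l : Option K) (f : Option K → K) :
    (∃ p : K[X], p.natDegree ≤ s ∧ ∀ m, f m = ev s p m) ↔
      ∃ p : K[X], p.natDegree ≤ s ∧ ∀ m, moe σ x y s l m * f m = ev s p (M σ x y l m) := by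
  have hn := N_be_eval_ne hσ hx (sec_ne_zero l) hxy hxy'
  have hψ : ∀ m, act y (sec m) (be σ x (sec l)) ≠ 0 := fun m =>
    act_ne_zero hσ (sec_ne_zero m) hn
  have hc : (scal (psi σ x (sec l)) ^ s)⁻¹ ≠ 0 :=
    inv_ne_zero (pow_ne_zero _ (scal_ne_zero (psi_ne_zero hσ hx (sec_ne_zero l))))
  have a1 : (∃ p : K[X], p.natDegree ≤ s ∧ ∀ m, f m = ev s p m) ↔
      Pl s (sec : Option K → K × K) (fun _ => 1) f := by
    rw [Pl_iff_ev sec_ne_zero]
    simp
  have a2 : (∃ p : K[X], p.natDegree ≤ s ∧ ∀ m, moe σ x y s l m * f m = ev s p (M σ x y l m)) ↔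
      Pl s (fun m => act y (sec m) (be σ x (sec l)))
        (fun _ => 1 * (scal (psi σ x (sec l)) ^ s)⁻¹) f := by
    rw [Pl_iff_ev hψ]
    simp only [moe, M, mul_pow, mul_inv, one_mul]
  rw [a1, a2, Pl_c hc]
  exact Pl_T (actE hσ y (be σ x (sec l)) hn)

/-- (v1): the `y`-edge labelled `m'` at an `x`-odd vertex; `mm l` is the label at the `ee` corner -/
theorem v1 (hσ : ∀ a, σ (σ a) = a) (hx : σ x ≠ x) (hy : σ y ≠ y)
    (hxy : x ≠ y) (hxy' : σ x ≠ y) {s : ℕ} (hs : ∀ c : K, c ≠ 0 → (c * σ c) ^ s = 1)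
    (m' : Option K) (mm : Option K → Option K) (hmm : ∀ l, M σ x y l (mm l) = m')
    (f : Option K → K) :
    (∃ p : K[X], p.natDegree ≤ s ∧ ∀ l, moe σ x y s l (mm l) * f l = ev s p (px σ x l)) ↔
      ∃ p : K[X], p.natDegree ≤ s ∧
        ∀ l, moo σ x y s l (mm l) * f l = ev s p (px σ x (L σ x y l (mm l))) := by
  have hyx' : σ y ≠ x := fun h => hxy' (by rw [← h, hσ])
  have hw : ∀ l, act y (sec (mm l)) (be σ x (sec l)) ≠ 0 := fun l =>
    act_ne_zero hσ (sec_ne_zero _) (N_be_eval_ne hσ hx (sec_ne_zero l) hxy hxy')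
  have hv : ∀ l, act x (sec l) (be σ y (sec (mm l))) ≠ 0 := fun l =>
    act_ne_zero hσ (sec_ne_zero _) (N_be_eval_ne hσ hy (sec_ne_zero _) hxy.symm hyx')
  set t : Option K → K := fun l => scal (act y (sec (mm l)) (be σ x (sec l))) with ht
  have ht0 : ∀ l, t l ≠ 0 := fun l => scal_ne_zero (hw l)
  have hwt : ∀ l, act y (sec (mm l)) (be σ x (sec l)) = t l • sec m' := fun l => by
    rw [← hmm l]; exact proj_surj_sec
  have hψ : ∀ l, psi σ x (sec l) ≠ 0 := fun l => psi_ne_zero hσ hx (sec_ne_zero l)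
  have hψ' : ∀ l, psi σ x (act x (sec l) (be σ y (sec (mm l)))) ≠ 0 := fun l =>
    psi_ne_zero hσ hx (hv l)
  have a1 : (∃ p : K[X], p.natDegree ≤ s ∧
      ∀ l, moe σ x y s l (mm l) * f l = ev s p (px σ x l)) ↔
      Pl s (fun l => psi σ x (sec l)) (fun l => (t l ^ s)⁻¹) f := by
    rw [Pl_iff_ev hψ]
    simp only [moe, px, mul_pow, mul_inv, ht, mul_comm]
  have hps : ∀ l, psi σ y (act y (sec (mm l)) (be σ x (sec l))) =
      (σ (t l))⁻¹ • psi σ y (sec m') := fun l => by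
    rw [hwt l, psi_smul hσ hy (sec_ne_zero _) (ht0 l)]
  have hpsy0 := scal_ne_zero (psi_ne_zero hσ hy (sec_ne_zero m'))
  have a2 : (∃ p : K[X], p.natDegree ≤ s ∧
        ∀ l, moo σ x y s l (mm l) * f l = ev s p (px σ x (L σ x y l (mm l)))) ↔
      Pl s (fun l => psi σ x (act x (sec l) (be σ y (sec (mm l)))))
        (fun l => (t l ^ s)⁻¹ * (scal (psi σ y (sec m')) ^ s)⁻¹) f := by
    rw [Pl_iff_ev hψ']
    have b1 : ∀ l, px σ x (L σ x y l (mm l)) =
        proj (psi σ x (act x (sec l) (be σ y (sec (mm l))))) := fun l => px_proj hσ hx (hv l)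
    have b2 : ∀ l, moo σ x y s l (mm l) = (t l ^ s)⁻¹ * (scal (psi σ y (sec m')) ^ s)⁻¹ *
        (scal (psi σ x (act x (sec l) (be σ y (sec (mm l))))) ^ s)⁻¹ := fun l => by
      simp only [moo]
      rw [hps l, scal_smul _ _ (inv_ne_zero ((map_ne_zero σ).2 (ht0 l))), mul_pow, mul_pow,
        mul_inv, mul_inv, norm_pow hs (ht0 l)]
      ring
    simp only [b1, b2]
  rw [a1, a2, Pl_c (inv_ne_zero (pow_ne_zero _ hpsy0))]
  -- transport
  have hn' : (N (be σ y (sec m'))).eval x ≠ 0 :=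
    N_be_eval_ne hσ hy (sec_ne_zero _) hxy.symm hyx'
  have htr : ∀ l, cactE hσ x (be σ y (sec m')) hn' (psi σ x (sec l)) =
      σ ((N (be σ y (sec m'))).eval x) •
        psi σ x (act x (sec l) (be σ y (sec (mm l)))) := fun l => by
    have h1 := psi_transport hσ hx hy hxy hxy' (sec_ne_zero l) (sec_ne_zero (mm l))
    rw [hwt l, be_smul hσ hy (sec_ne_zero _) (ht0 l)] at h1
    have h2 : (N (be σ y (sec (mm l)))).eval x = (N (be σ y (sec m'))).eval x := by
      rw [N_be_eval hσ hy (sec_ne_zero _), N_be_eval hσ hy (sec_ne_zero _)]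
    rw [h2] at h1
    exact h1
  rw [Pl_T (cactE hσ x (be σ y (sec m')) hn')]
  have hk : σ ((N (be σ y (sec m'))).eval x) ≠ 0 := (map_ne_zero σ).2 hn'
  rw [Pl_congr (μ' := fun l => (t l ^ s)⁻¹) htr (fun _ => rfl), Pl_s (fun _ => hk),
    Pl_c (inv_ne_zero (pow_ne_zero _ hk))]

/-- (v0): even end versus `y`-odd end of the edge `(g, m)` -/
theorem v0 (hσ : ∀ a, σ (σ a) = a) (hy : σ y ≠ y)
    (hxy : x ≠ y) (hxy' : σ x ≠ y) (s : ℕ) (m : Option K) (f : Option K → K) :
    (∃ p : K[X], p.natDegree ≤ s ∧ ∀ l, f l = ev s p l) ↔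
      ∃ p : K[X], p.natDegree ≤ s ∧ ∀ l, meo σ x y s l m * f l = ev s p (L σ x y l m) :=
  h0 (x := y) (y := x) hσ hy hxy.symm (fun h => hxy' (by rw [← h, hσ])) s m f

/-- (h1): the `x`-edge labelled `l'` at a `y`-odd vertex; `ll m` is the label at the `ee` corner -/
theorem h1 (hσ : ∀ a, σ (σ a) = a) (hx : σ x ≠ x) (hy : σ y ≠ y)
    (hxy : x ≠ y) (hxy' : σ x ≠ y) {s : ℕ} (hs : ∀ c : K, c ≠ 0 → (c * σ c) ^ s = 1)
    (l' : Option K) (ll : Option K → Option K) (hll : ∀ m, L σ x y (ll m) m = l')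
    (f : Option K → K) :
    (∃ p : K[X], p.natDegree ≤ s ∧ ∀ m, meo σ x y s (ll m) m * f m = ev s p (px σ y m)) ↔
      ∃ p : K[X], p.natDegree ≤ s ∧
        ∀ m, moo σ x y s (ll m) m * f m = ev s p (px σ y (M σ x y (ll m) m)) := by
  have h := v1 (x := y) (y := x) hσ hy hx hxy.symm (fun h => hxy' (by rw [← h, hσ])) hs l' ll hll f
  simp only [moo_swap (x := y) (y := x)] at h
  exact h

theorem moe_ne_zero (hσ : ∀ a, σ (σ a) = a) (hx : σ x ≠ x)
    (hxy : x ≠ y) (hxy' : σ x ≠ y) (s : ℕ) (l m : Option K) : moe σ x y s l m ≠ 0 :=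
  inv_ne_zero (pow_ne_zero _ (mul_ne_zero (scal_ne_zero (psi_ne_zero hσ hx (sec_ne_zero l)))
    (scal_ne_zero (act_ne_zero hσ (sec_ne_zero m)
      (N_be_eval_ne hσ hx (sec_ne_zero l) hxy hxy')))))

theorem meo_ne_zero (hσ : ∀ a, σ (σ a) = a) (hy : σ y ≠ y)
    (hxy : x ≠ y) (hxy' : σ x ≠ y) (s : ℕ) (l m : Option K) : meo σ x y s l m ≠ 0 :=
  moe_ne_zero (x := y) (y := x) hσ hy hxy.symm (fun h => hxy' (by rw [← h, hσ])) s m l

theorem moo_ne_zero (hσ : ∀ a, σ (σ a) = a) (hx : σ x ≠ x) (hy : σ y ≠ y)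
    (hxy : x ≠ y) (hxy' : σ x ≠ y) (s : ℕ) (l m : Option K) : moo σ x y s l m ≠ 0 := by
  have hyx' : σ y ≠ x := fun h => hxy' (by rw [← h, hσ])
  exact inv_ne_zero (pow_ne_zero _ (mul_ne_zero
    (scal_ne_zero (psi_ne_zero hσ hx (act_ne_zero hσ (sec_ne_zero l)
      (N_be_eval_ne hσ hy (sec_ne_zero m) hxy.symm hyx'))))
    (scal_ne_zero (psi_ne_zero hσ hy (act_ne_zero hσ (sec_ne_zero m)
      (N_be_eval_ne hσ hx (sec_ne_zero l) hxy hxy'))))))

end two

end Crest.Agent.R289.FacB281
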