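import Crest.Agent.R289.TPhom_964
import Crest.Agent.R289.FacB_281

/-!
Row 289, passage A <-> B, concrete part (post 6162 (1),(2) of 388): the two-place code
`TP846.TP.Code (xcD s) (ycD s)` of block B is the intersection of the four corner codes
`HeckeTwo622.Corner` of block A, for the concrete corner data of 281 (`Fac_281`, `FacB_281`).
-/

set_option autoImplicit false

open Polynomial

namespace Crest.Agent.R289.TPhom964

open HeckeTwo622 Exp820 Fac281
open Crest.Agent.R289.TP846 (TP)

variable {K : Type} [Field K]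

/-- two places -/
structure Places (σ : K →+* K) (x y : K) : Prop where
  hσ : ∀ a, σ (σ a) = a
  hx : σ x ≠ x
  hy : σ y ≠ y
  hxy : x ≠ y
  hxy' : σ x ≠ y

namespace Places

variable {σ : K →+* K} {x y : K}

theorem swap (H : Places σ x y) : Places σ y x :=
  ⟨H.hσ, H.hy, H.hx, H.hxy.symm, fun h => H.hxy' (by rw [← h, H.hσ])⟩

theorem N_ne (H : Places σ x y) {l : K × K} (hl : l ≠ 0) : (Sk.N (be σ x l)).eval y ≠ 0 :=
  N_be_eval_ne H.hσ H.hx hl H.hxy H.hxy'

end Places

variable (σ : K →+* K) (x y : K)

/-- `x`-coordinate of the square after the `y`-step -/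
noncomputable def U (j : Bool) (l m : K × K) : K × K := if j then act x l (be σ y m) else l

/-- `x`-coordinate at the corner with `x`-parity `i` and `y`-parity `j` -/
noncomputable def V (i j : Bool) (l m : K × K) : K × K :=
  if i then FacB281.psi σ x (U σ x y j l m) else U σ x y j l m

/-- first coordinate at the corner `(i, j)` -/
noncomputable def C1 (i j : Bool) (l m : K × K) : K × K := V σ x y i j l m

/-- second coordinate at the corner `(i, j)` -/
noncomputable def C2 (i j : Bool) (l m : K × K) : K × K := V σ y x j i m l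

/-- group element of the corner -/
noncomputable def tcC {P : Type*} [Group P] (A B : K × K → P) (i j : Bool) (l m : K × K) : P :=
  (if i then A l else 1) * (if j then B (U σ y x i m l) else 1)

/-- edge codes of the `x`-edges (388 v2.4 (1)) -/
def xcD (s : ℕ) (j : Bool) (z : Option K) : Set (Option K → K) :=
  match j with
  | false => {u | ∃ p : K[X], p.natDegree ≤ s ∧ ∀ m, u m = PS459.ev s p m}
  | true => {u | ∃ p : K[X], p.natDegree ≤ s ∧ ∀ l m, FacB281.L σ x y l m = z →
      FacB281.meo σ x y s l m * u m = PS459.ev s p (FacB281.px σ y m)}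

/-- edge codes of the `y`-edges -/
def ycD (s : ℕ) (i : Bool) (w : Option K) : Set (Option K → K) :=
  match i with
  | false => {u | ∃ p : K[X], p.natDegree ≤ s ∧ ∀ l, u l = PS459.ev s p l}
  | true => {u | ∃ p : K[X], p.natDegree ≤ s ∧ ∀ l m, FacB281.M σ x y l m = w →
      FacB281.moe σ x y s l m * u l = PS459.ev s p (FacB281.px σ x l)}

theorem ycD_swap (s : ℕ) (i : Bool) (w : Option K) : ycD σ x y s i w = xcD σ y x s i w := by
  cases i
  · rfl
  · ext u
    constructor
    · rintro ⟨p, hp, h⟩
      exact ⟨p, hp, fun l m hlm => h m l hlm⟩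
    · rintro ⟨p, hp, h⟩
      exact ⟨p, hp, fun l m hlm => h m l hlm⟩

variable {σ x y}

/-! ### homogeneity and nonvanishing -/

theorem U_ne (H : Places σ x y) (j : Bool) {l m : K × K} (hl : l ≠ 0) (hm : m ≠ 0) :
    U σ x y j l m ≠ 0 := by
  cases j
  · exact hl
  · exact act_ne_zero H.hσ hl (H.swap.N_ne hm)

theorem U_smul (H : Places σ x y) (j : Bool) {c d : K} (hd : d ≠ 0) {l m : K × K} (hm : m ≠ 0) :
    U σ x y j (c • l) (d • m) = c • U σ x y j l m := by
  cases j
  · rfl
  · simp only [U, if_true]
    rw [be_smul H.hσ H.hy hm hd, act_smul]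

theorem V_ne (H : Places σ x y) (i j : Bool) {l m : K × K} (hl : l ≠ 0) (hm : m ≠ 0) :
    V σ x y i j l m ≠ 0 := by
  cases i
  · exact U_ne H j hl hm
  · exact FacB281.psi_ne_zero H.hσ H.hx (U_ne H j hl hm)

/-- weight of the coordinate of parity `i` -/
noncomputable def wt (σ : K →+* K) (i : Bool) (c : K) : K := if i then (σ c)⁻¹ else c

theorem V_smul (H : Places σ x y) (i j : Bool) {c d : K} (hc : c ≠ 0) (hd : d ≠ 0)
    {l m : K × K} (hl : l ≠ 0) (hm : m ≠ 0) :
    V σ x y i j (c • l) (d • m) = wt σ i c • V σ x y i j l m := by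
  cases i
  · exact U_smul H j hd hm
  · simp only [V, wt, if_true]
    rw [U_smul H j hd hm, FacB281.psi_smul H.hσ H.hx (U_ne H j hl hm) hc]

theorem wt_pow {s : ℕ} (hs : ∀ c : K, c ≠ 0 → (c * σ c) ^ s = 1) (i : Bool) {c : K}
    (hc : c ≠ 0) : wt σ i c ^ s = c ^ s := by
  cases i
  · rfl
  · simp only [wt, if_true]
    have h1 := hs c hc
    rw [mul_pow] at h1
    rw [inv_pow]
    exact inv_eq_of_mul_eq_one_left h1

/-- homogeneous step functions -/
def Hom0 {P : Type*} (A : K × K → P) : Prop := ∀ c : K, c ≠ 0 → ∀ l : K × K, l ≠ 0 → A (c • l) = A l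

theorem homog {P : Type*} [Group P] (H : Places σ x y) {A B : K × K → P} (hA : Hom0 A)
    (hB : Hom0 B) {s : ℕ} (hs : ∀ c : K, c ≠ 0 → (c * σ c) ^ s = 1) (i j : Bool) :
    Homog s s (tcC σ x y A B i j) (C1 σ x y i j) (C2 σ x y i j) := by
  intro c d hc hd l m hl hm
  refine ⟨?_, wt σ i c, wt σ j d, V_smul H i j hc hd hl hm,
    V_smul H.swap j i hd hc hm hl, ?_⟩
  · unfold tcC
    have h1 : (if i then A (c • l) else 1) = (if i then A l else 1) := by
      rw [hA c hc l hl]
    have h2 : (if j then B (U σ y x i (d • m) (c • l)) else 1)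
        = (if j then B (U σ y x i m l) else 1) := by
      rw [U_smul H.swap i hc hl, hB d hd _ (U_ne H.swap i hm hl)]
    rw [h1, h2]
  · rw [wt_pow hs i hc, wt_pow hs j hd]

/-! ### points -/

/-- label of the square on its `x`-edge of type `j` -/
noncomputable def xlab (σ : K →+* K) (x y : K) (j : Bool) (l m : Option K) : Option K :=
  if j then FacB281.L σ x y l m else l

/-- point of the coordinate of parity `i` -/
noncomputable def pnt (σ : K →+* K) (x : K) (i : Bool) (z : Option K) : Option K :=
  if i then FacB281.px σ x z else z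

theorem ptv_U (j : Bool) (l m : Option K) :
    ptv (U σ x y j (rp l) (rp m)) = xlab σ x y j l m := by
  cases j
  · exact ptv_rp l
  · simp only [U, xlab, if_true]
    rw [ptv_eq_proj, rp_eq_sec, rp_eq_sec]
    rfl

theorem ptv_V (H : Places σ x y) (i j : Bool) (l m : Option K) :
    ptv (V σ x y i j (rp l) (rp m)) = pnt σ x i (xlab σ x y j l m) := by
  cases i
  · exact ptv_U j l m
  · simp only [V, pnt, if_true]
    rw [← ptv_U, ptv_eq_proj, ptv_eq_proj,
      ← FacB281.px_proj H.hσ H.hx (U_ne H j (rp_ne_zero l) (rp_ne_zero m))]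

theorem pnt_inj (H : Places σ x y) (i : Bool) : Function.Injective (pnt σ x i) := by
  cases i
  · exact fun a b h => h
  · exact FacB281.px_inj H.hσ H.hx

theorem xlab_inj (H : Places σ x y) (j : Bool) (m : Option K) :
    Function.Injective fun l => xlab σ x y j l m := by
  cases j
  · exact fun a b h => h
  · exact (FacB281.L_bij H.hσ H.hy H.hxy H.hxy' m).1

theorem lab_inj (H : Places σ x y) (i j : Bool) :
    Function.Injective fun p : Option K × Option K =>
      (xlab σ x y j p.1 p.2, xlab σ y x i p.2 p.1) := by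
  rintro ⟨l, m⟩ ⟨l', m'⟩ h
  simp only [Prod.mk.injEq] at h
  obtain ⟨h1, h2⟩ := h
  cases i with
  | false =>
    have hm : m = m' := h2
    subst hm
    rw [xlab_inj H j m h1]
  | true =>
    cases j with
    | false =>
      have hl : l = l' := h1
      subst hl
      rw [xlab_inj H.swap true l h2]
    | true =>
      exact FacB281.LM_inj H.hσ H.hx H.hy H.hxy H.hxy' (Prod.ext h1 h2)

theorem chart [Finite K] (H : Places σ x y) (i j : Bool) :
    Chart (C1 σ x y i j) (C2 σ x y i j) (fun l m => pnt σ x i (xlab σ x y j l m))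
      (fun l m => pnt σ y j (xlab σ y x i m l)) where
  ne1 l m := V_ne H i j (rp_ne_zero l) (rp_ne_zero m)
  ne2 l m := V_ne H.swap j i (rp_ne_zero m) (rp_ne_zero l)
  pt1 l m := ptv_V H i j l m
  pt2 l m := ptv_V H.swap j i m l
  bij := by
    refine Finite.injective_iff_bijective.1 ?_
    intro p q h
    simp only [Prod.mk.injEq] at h
    apply lab_inj H i j
    exact Prod.ext (pnt_inj H i h.1) (pnt_inj H.swap j h.2)

/-! ### edge codes seen from both ends -/

/-- weight of the corner -/
noncomputable def mu (σ : K →+* K) (x y : K) (s : ℕ) (i j : Bool) (l m : Option K) : K :=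
  (scv (C1 σ x y i j (rp l) (rp m)) ^ s * scv (C2 σ x y i j (rp l) (rp m)) ^ s)⁻¹

theorem mu_swap (s : ℕ) (i j : Bool) (l m : Option K) :
    mu σ x y s i j l m = mu σ y x s j i m l := by
  unfold mu C1 C2
  rw [mul_comm]

theorem mu_ff (s : ℕ) (l m : Option K) : mu σ x y s false false l m = 1 := by
  simp [mu, C1, C2, V, U, scv_rp]

theorem mu_tf (s : ℕ) (l m : Option K) :
    mu σ x y s true false l m = FacB281.moe σ x y s l m := by
  simp only [mu, C1, C2, V, U, if_true, Bool.false_eq_true, if_false, FacB281.moe, mul_pow,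
    scv_eq_scal, rp_eq_sec]

theorem mu_ft (s : ℕ) (l m : Option K) :
    mu σ x y s false true l m = FacB281.meo σ x y s l m := by
  rw [mu_swap, mu_tf, FacB281.meo_swap]

theorem mu_tt (s : ℕ) (l m : Option K) :
    mu σ x y s true true l m = FacB281.moo σ x y s l m := by
  simp only [mu, C1, C2, V, U, if_true, FacB281.moo, mul_pow, scv_eq_scal, rp_eq_sec]

/-- the edge code of an `x`-edge, from the end of parity `i` -/
theorem mem_xcD (H : Places σ x y) {s : ℕ} (hs : ∀ c : K, c ≠ 0 → (c * σ c) ^ s = 1)
    (i j : Bool) (z : Option K) (u : Option K → K) :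
    u ∈ xcD σ x y s j z ↔ ∃ p : K[X], p.natDegree ≤ s ∧ ∀ l m, xlab σ x y j l m = z →
      mu σ x y s i j l m * u m = PS459.ev s p (pnt σ y j (xlab σ y x i m l)) := by
  cases j with
  | false =>
    cases i with
    | false =>
      constructor
      · rintro ⟨p, hp, h⟩
        exact ⟨p, hp, fun l m _ => by rw [mu_ff, one_mul]; exact h m⟩
      · rintro ⟨p, hp, h⟩
        refine ⟨p, hp, fun m => ?_⟩
        have := h z m rfl
        rw [mu_ff, one_mul] at this
        exact this
    | true =>
      have h0 := FacB281.h0 H.hσ H.hx H.hxy H.hxy' s z u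
      refine h0.trans ?_
      constructor
      · rintro ⟨p, hp, h⟩
        refine ⟨p, hp, fun l m hlm => ?_⟩
        have hl : l = z := hlm
        subst hl
        rw [mu_tf]
        exact h m
      · rintro ⟨p, hp, h⟩
        refine ⟨p, hp, fun m => ?_⟩
        have := h z m rfl
        rw [mu_tf] at this
        exact this
  | true =>
    cases i with
    | false =>
      constructor
      · rintro ⟨p, hp, h⟩
        exact ⟨p, hp, fun l m hlm => by rw [mu_ft]; exact h l m hlm⟩
      · rintro ⟨p, hp, h⟩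
        refine ⟨p, hp, fun l m hlm => ?_⟩
        have := h l m hlm
        rw [mu_ft] at this
        exact this
    | true =>
      have hb := fun m => FacB281.L_bij H.hσ H.hy H.hxy H.hxy' m
      choose ll hll using fun m => (hb m).2 z
      have hu : ∀ l m, FacB281.L σ x y l m = z → l = ll m := fun l m h =>
        (hb m).1 (h.trans (hll m).symm)
      have h1 := FacB281.h1 H.hσ H.hx H.hy H.hxy H.hxy' hs z ll hll u
      have e1 : u ∈ xcD σ x y s true z ↔ ∃ p : K[X], p.natDegree ≤ s ∧
          ∀ m, FacB281.meo σ x y s (ll m) m * u m = PS459.ev s p (FacB281.px σ y m) := by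
        constructor
        · rintro ⟨p, hp, h⟩
          exact ⟨p, hp, fun m => h _ _ (hll m)⟩
        · rintro ⟨p, hp, h⟩
          refine ⟨p, hp, fun l m hlm => ?_⟩
          rw [hu l m hlm]
          exact h m
      refine e1.trans (h1.trans ?_)
      constructor
      · rintro ⟨p, hp, h⟩
        refine ⟨p, hp, fun l m hlm => ?_⟩
        rw [mu_tt, hu l m hlm]
        exact h m
      · rintro ⟨p, hp, h⟩
        refine ⟨p, hp, fun m => ?_⟩
        have := h (ll m) m (hll m)
        rw [mu_tt] at this
        exact this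

theorem mem_ycD (H : Places σ x y) {s : ℕ} (hs : ∀ c : K, c ≠ 0 → (c * σ c) ^ s = 1)
    (i j : Bool) (w : Option K) (u : Option K → K) :
    u ∈ ycD σ x y s i w ↔ ∃ p : K[X], p.natDegree ≤ s ∧ ∀ l m, xlab σ y x i m l = w →
      mu σ x y s i j l m * u l = PS459.ev s p (pnt σ x i (xlab σ x y j l m)) := by
  rw [ycD_swap, mem_xcD H.swap hs j i w u]
  constructor
  · rintro ⟨p, hp, h⟩
    exact ⟨p, hp, fun l m hlm => by rw [mu_swap]; exact h m l hlm⟩
  · rintro ⟨p, hp, h⟩
    refine ⟨p, hp, fun l m hlm => ?_⟩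
    have := h m l hlm
    rw [mu_swap] at this
    exact this

/-! ### the complex and the bridge -/

variable {P : Type} [Group P]

/-- the two-place datum of block B from homogeneous steps -/
noncomputable def tp (H : Places σ x y) (A B : K × K → P) (hA : Hom0 A) (hB : Hom0 B)
    (hAB : ∀ l m : K × K, l ≠ 0 → m ≠ 0 →
      A l * B (act y m (be σ x l)) = B m * A (act x l (be σ y m))) : TP P (Option K) where
  a i := A (rp i)
  b i := B (rp i)
  L := FacB281.L σ x y
  M := FacB281.M σ x y
  comm l m := by
    have e1 : B (rp (FacB281.M σ x y l m)) = B (act y (rp m) (be σ x (rp l))) := by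
      have h := U_ne H.swap true (rp_ne_zero m) (rp_ne_zero l)
      have h1 : FacB281.M σ x y l m = ptv (U σ y x true (rp m) (rp l)) := (ptv_U true m l).symm
      rw [h1]
      have h2 := hB (scv (U σ y x true (rp m) (rp l))) (scv_ne h) (rp (ptv (U σ y x true (rp m) (rp l))))
        (rp_ne_zero _)
      rw [scv_smul_rp] at h2
      exact h2.symm
    have e2 : A (rp (FacB281.L σ x y l m)) = A (act x (rp l) (be σ y (rp m))) := by
      have h := U_ne H true (rp_ne_zero l) (rp_ne_zero m)
      have h1 : FacB281.L σ x y l m = ptv (U σ x y true (rp l) (rp m)) := (ptv_U true l m).symm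
      rw [h1]
      have h2 := hA (scv (U σ x y true (rp l) (rp m))) (scv_ne h) (rp (ptv (U σ x y true (rp l) (rp m))))
        (rp_ne_zero _)
      rw [scv_smul_rp] at h2
      exact h2.symm
    rw [e1, e2]
    exact hAB _ _ (rp_ne_zero l) (rp_ne_zero m)
  M_bij := FacB281.M_bij H.hσ H.hx H.hxy H.hxy'
  L_bij := FacB281.L_bij H.hσ H.hy H.hxy H.hxy'
  LM_inj l m l' m' h1 h2 := by
    have := FacB281.LM_inj H.hσ H.hx H.hy H.hxy H.hxy' (a₁ := (l, m)) (a₂ := (l', m'))
      (Prod.ext h1 h2)
    exact ⟨congrArg Prod.fst this, congrArg Prod.snd this⟩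

variable (H : Places σ x y) {A B : K × K → P} (hA : Hom0 A) (hB : Hom0 B)
  (hAB : ∀ l m : K × K, l ≠ 0 → m ≠ 0 →
      A l * B (act y m (be σ x l)) = B m * A (act x l (be σ y m)))

theorem tc_st (i j : Bool) (l m : Option K) :
    tcC σ x y A B i j (rp l) (rp m) = (tp H A B hA hB hAB).st i j l m := by
  unfold tcC TP.st TP.ai TP.bj TP.yl
  cases i <;> cases j
  · rfl
  · rfl
  · rfl
  · simp only [if_true]
    congr 1
    have h := U_ne H.swap true (rp_ne_zero m) (rp_ne_zero l)
    have h1 : FacB281.M σ x y l m = ptv (U σ y x true (rp m) (rp l)) := (ptv_U true m l).symm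
    show _ = B (rp (FacB281.M σ x y l m))
    rw [h1]
    have h2 := hB (scv (U σ y x true (rp m) (rp l))) (scv_ne h)
      (rp (ptv (U σ y x true (rp m) (rp l)))) (rp_ne_zero _)
    rw [scv_smul_rp] at h2
    exact h2

theorem xl_eq (j : Bool) (l m : Option K) :
    (tp H A B hA hB hAB).xl j l m = xlab σ x y j l m := rfl

theorem yl_eq (i : Bool) (l m : Option K) :
    (tp H A B hA hB hAB).yl i l m = xlab σ y x i m l := rfl

/-- **the bridge**: block B's two-place code = the four corner codes of block A -/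
theorem mem_Code_iff [Fintype P] [Fintype K] {s : ℕ} (hsK : s < Fintype.card K)
    (hs : ∀ c : K, c ≠ 0 → (c * σ c) ^ s = 1) (w : P → Option K → Option K → K) :
    w ∈ (tp H A B hA hB hAB).Code (xcD σ x y s) (ycD σ x y s) ↔
      ∀ i j : Bool, w ∈ Corner s s (tcC σ x y A B i j) (C1 σ x y i j) (C2 σ x y i j) := by
  set D := tp H A B hA hB hAB with hD
  rw [D.code_iff]
  refine forall_congr' fun i => forall_congr' fun j => ?_
  rw [mem_Corner_ev hsK (homog H hA hB hs i j) (chart H i j) (μ := mu σ x y s i j)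
    (fun _ _ => rfl) w]
  refine forall_congr' fun v => ?_
  have hst : ∀ l m, tcC σ x y A B i j (rp l) (rp m) = D.st i j l m :=
    fun l m => tc_st H hA hB hAB i j l m
  simp only [hst]
  unfold TP.LC
  rw [Set.mem_setOf_eq, and_comm]
  refine and_congr ?_ ?_
  · constructor
    · intro h b
      obtain ⟨b', rfl⟩ := (Finite.injective_iff_bijective.1 (pnt_inj H.swap j)).2 b
      obtain ⟨p, hp, h1⟩ := (mem_ycD H hs i j b' _).1 (h b')
      refine ⟨p, hp, fun l m hlm => ?_⟩
      have hlab := pnt_inj H.swap j hlm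
      have h2 := h1 l m hlab
      rw [D.sqY_eq_at] at h2
      have h3 : D.mi i l b' = m := by
        rw [← hlab]
        exact D.mi_yl i l m
      rw [h3] at h2
      exact h2
    · intro h w'
      obtain ⟨p, hp, h1⟩ := h (pnt σ y j w')
      refine (mem_ycD H hs i j w' _).2 ⟨p, hp, fun l m hlm => ?_⟩
      have h2 := h1 l m (by rw [hlm])
      rw [D.sqY_eq_at]
      have h3 : D.mi i l w' = m := by
        rw [← hlm]
        exact D.mi_yl i l m
      rw [h3]
      exact h2
  · constructor
    · intro h a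
      obtain ⟨a', rfl⟩ := (Finite.injective_iff_bijective.1 (pnt_inj H i)).2 a
      obtain ⟨p, hp, h1⟩ := (mem_xcD H hs i j a' _).1 (h a')
      refine ⟨p, hp, fun l m hlm => ?_⟩
      have hlab := pnt_inj H i hlm
      have h2 := h1 l m hlab
      rw [D.sqX_eq_at] at h2
      have h3 : D.li j m a' = l := by
        rw [← hlab]
        exact D.li_xl j l m
      rw [h3] at h2
      exact h2
    · intro h z
      obtain ⟨p, hp, h1⟩ := h (pnt σ x i z)
      refine (mem_xcD H hs i j z _).2 ⟨p, hp, fun l m hlm => ?_⟩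
      have h2 := h1 l m (by rw [hlm])
      rw [D.sqX_eq_at]
      have h3 : D.li j m z = l := by
        rw [← hlm]
        exact D.li_xl j l m
      rw [h3]
      exact h2

end Crest.Agent.R289.TPhom964
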