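import Crest.Agent.R289.CornerHecke_223
import Crest.Agent.R289.HeckePlug_548
import Crest.Agent.R289.TPhomB_964

/-!
Row 289, block A, leaf A.HI, final form: the Hecke sum over 605's digits `Fin 4 → K` preserves the
four corner codes of 964 (`tcC`, `C1`, `C2`), for every map `nu`, multiplicative on elements with
constant term one, and every weight that is a function of the norm and vanishes if the norm vanishes
at one of the places.
-/

set_option autoImplicit false

namespace Crest.Agent.R289.HeckeFin548

open Polynomial Crest.Agent.R289.Exp820 Crest.Agent.R289.Exp820.Sk Crest.Agent.R289.Fac281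
  Crest.Agent.R289.Corner223 Crest.Agent.R289.HeckeTwo622 Crest.Agent.R289.CornerHecke223
  Crest.Agent.R289.HeckePlug548 Crest.Agent.R289.TPhom964

variable {K : Type} [Field K] {σ : K →+* K} {x y : K}

theorem sharp_eq (l : K × K) : sharp σ x l = FacB281.fl σ x l := by
  ext
  · simp only [sharp, FacB281.fl]; ring
  · simp only [sharp, FacB281.fl]
    rw [mul_div_assoc', mul_comm (Q σ x l) (σ x), div_mul_eq_mul_div, ← div_div]
    ring

theorem psi_eq' (l : K × K) : CornerHecke223.psi σ x l = FacB281.psi σ x l := by
  show CornerHecke223.cj σ (sharp σ x l) = FacB281.cj σ (FacB281.fl σ x l)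
  rw [sharp_eq]
  rfl

/-- 605's digits whose element has norm prime to both places -/
abbrev Lam (σ : K →+* K) (x y : K) : Type :=
  {a : Fin 4 → K // (N (HeckePlug548.el σ a)).eval x ≠ 0 ∧ (N (HeckePlug548.el σ a)).eval y ≠ 0}

/-- the index system of the digits -/
noncomputable def idx (σ : K →+* K) (x y : K) : Idx σ x y (Lam σ x y) where
  el a := HeckePlug548.el σ a.1
  small a := el_small a.1
  nx a := a.2.1
  ny a := a.2.2
  inj _ _ h := Subtype.ext (el_inj h)
  surj r hr h1 h2 := by
    obtain ⟨a, rfl⟩ := el_surj hr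
    exact ⟨⟨a, h1, h2⟩, rfl⟩

section final

variable {P : Type*} [Group P] [Fintype K]

/-- the Hecke operator over all digits -/
noncomputable def HF (σ : K →+* K) (x y : K) (s t : ℕ) (nu : Sk σ → P) (W : K[X] → K) :
    (P → Option K → Option K → K) →ₗ[K] (P → Option K → Option K → K) :=
  S s t (fun a : Fin 4 → K => nu (HeckePlug548.el σ a)) (fun a => actL x (HeckePlug548.el σ a))
    (fun a => actL y (HeckePlug548.el σ a)) (fun a => W (N (HeckePlug548.el σ a)))

open Classical in
theorem HF_eq (s t : ℕ) (nu : Sk σ → P) (W : K[X] → K)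
    (hW : ∀ n : K[X], n.eval x = 0 ∨ n.eval y = 0 → W n = 0) :
    HF σ x y s t nu W = HS s t (idx σ x y) nu W := by
  unfold HF
  rw [S_reindex s t _ _ _ _ (fun b : Lam σ x y => b.1) Subtype.val_injective ?_]
  · rfl
  · intro a ha
    apply hW
    by_contra h
    rw [not_or] at h
    exact ha ⟨⟨a, h⟩, rfl⟩

/-- **A.HI**: all four corner codes are preserved -/
theorem HF_stable (H : Places σ x y) (s t : ℕ) {nu : Sk σ → P} (hnu : MulOne nu)
    {W : K[X] → K} (hW : ∀ n : K[X], n.eval x = 0 ∨ n.eval y = 0 → W n = 0) (i j : Bool)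
    {w : P → Option K → Option K → K}
    (hw : w ∈ Corner s t (tcC σ x y (fun l => nu (be σ x l)) (fun m => nu (be σ y m)) i j)
      (C1 σ x y i j) (C2 σ x y i j)) :
    HF σ x y s t nu W w ∈
      Corner s t (tcC σ x y (fun l => nu (be σ x l)) (fun m => nu (be σ y m)) i j)
      (C1 σ x y i j) (C2 σ x y i j) := by
  classical
  rw [HF_eq s t nu W hW]
  cases i <;> cases j
  · have e1 : tcC σ x y (fun l => nu (be σ x l)) (fun m => nu (be σ y m)) false false =
        fun _ _ => (1 : P) := by
      funext l m; simp [tcC]
    rw [e1] at hw ⊢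
    exact S_ee H.hσ (idx σ x y) nu W s t hw
  · have e1 : tcC σ x y (fun l => nu (be σ x l)) (fun m => nu (be σ y m)) false true =
        fun _ m => nu (be σ y m) := by
      funext l m; simp [tcC, U]
    have e3 : C2 σ x y false true = fun _ m => CornerHecke223.psi σ y m := by
      funext l m
      rw [psi_eq']
      rfl
    rw [e1, e3] at hw ⊢
    exact S_eo H.hσ (idx σ x y) nu W s t H.hy hnu hw
  · have e1 : tcC σ x y (fun l => nu (be σ x l)) (fun m => nu (be σ y m)) true false =
        fun l _ => nu (be σ x l) := by
      funext l m; simp [tcC]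
    have e2 : C1 σ x y true false = fun l _ => CornerHecke223.psi σ x l := by
      funext l m
      rw [psi_eq']
      rfl
    rw [e1, e2] at hw ⊢
    exact S_oe H.hσ (idx σ x y) nu W s t H.hx hnu hw
  · have e1 : tcC σ x y (fun l => nu (be σ x l)) (fun m => nu (be σ y m)) true true =
        fun l m => nu (be σ x l) * nu (be σ y (act y m (be σ x l))) := by
      funext l m; simp [tcC, U]
    have e2 : C1 σ x y true true = fun l m => CornerHecke223.psi σ x (act x l (be σ y m)) := by
      funext l m
      rw [psi_eq']
      rfl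
    have e3 : C2 σ x y true true = fun l m => CornerHecke223.psi σ y (act y m (be σ x l)) := by
      funext l m
      rw [psi_eq']
      rfl
    rw [e1, e2, e3] at hw ⊢
    exact S_oo H.hσ (idx σ x y) nu W s t H.hx H.hy H.hxy H.hxy' hnu hw

end final

end Crest.Agent.R289.HeckeFin548
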