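import Crest.Agent.R289.SkewGrp_877

/-!
# B1d': dimension bounds for the norm-one group (row 289, block B)

* `dim_of_stab`: `D |S| ≤ E |H|` for all stabilisers ==> `D ≤ E dim V` (subgroup form of
  `OrbitDim962.orbit_dim_stab`);
* `dim_bound_even`: `k` even: `q^(k/2) ≤ dim V`;
* `dim_bound_odd`: `k` odd: `q^((k-1)/2) ≤ dim V` (already for `U 1`), and
  `w q^((k-1)/2) ≤ 2 dim V` for the full norm-one group, `w = #{x : x σ x = 1}`;
* cardinalities: `|SG| = w |U 1|`, `|U 1| = q^(k + (k+1)/2)`.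
-/

namespace Crest.Agent.R289.SkewGrp877

open Finset Crest.Agent.R289.TraceM962 Crest.Agent.R289.OrbitDim962

section abstractdim

variable {Γ : Type*} [Group Γ] [Fintype Γ]

/-- subgroup form of the orbit bound. -/
theorem dim_of_stab (N : Subgroup Γ) (hcomm : ∀ u ∈ N, ∀ v ∈ N, u * v = v * u)
    (H : Subgroup Γ) (hnorm : ∀ h ∈ H, ∀ n ∈ N, h * n * h⁻¹ ∈ N) (Z : Set Γ) (hZ : Z ⊆ N)
    (V : Submodule ℂ (Γ → ℂ)) (hV : LStable V) (hV0 : V ≠ ⊥)
    (hfix : ∀ f ∈ V, (∀ u ∈ Z, ∀ x, f (u * x) = f x) → f = 0) (D E : ℕ) (hE : 0 < E)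
    (hstab : ∀ χ : Γ → ℂ, χ 1 = 1 → (∀ a ∈ N, ∀ b ∈ N, χ (a * b) = χ a * χ b) →
      (∃ u ∈ Z, χ u ≠ 1) → ∀ S : Subgroup Γ, S ≤ H →
      (∀ s ∈ S, ∀ n ∈ N, χ (s * n * s⁻¹) = χ n) → D * Nat.card S ≤ E * Nat.card H) :
    D ≤ E * Module.finrank ℂ V := by
  classical
  let instN : CommGroup N :=
    { (inferInstance : Group N) with
      mul_comm := fun a b => Subtype.ext (hcomm a a.2 b b.2) }
  let j : Additive N → Γ := fun b => ((Additive.toMul b : N) : Γ)
  have hj : ∀ a b, j (a + b) = j a * j b := fun a b => rfl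
  have hj0 : j 0 = 1 := rfl
  have hinj : Function.Injective j := fun a b h => by
    have : (Additive.toMul a : N) = Additive.toMul b := Subtype.ext h
    exact Additive.toMul.injective this
  let cc : Γ → Additive N → Additive N := fun h b =>
    if hh : h ∈ H then Additive.ofMul ⟨h * j b * h⁻¹, hnorm h hh _ (Additive.toMul b : N).2⟩ else b
  have hc : ∀ h ∈ H, ∀ b, h * j b = j (cc h b) * h := by
    intro h hh b
    have : j (cc h b) = h * j b * h⁻¹ := by
      simp only [cc, dif_pos hh]; rfl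
    rw [this, inv_mul_cancel_right]
  have hcc : ∀ h ∈ H, ∀ b, j (cc h b) = h * j b * h⁻¹ := by
    intro h hh b
    simp only [cc, dif_pos hh]; rfl
  have hfix' : ∀ f ∈ V, (∀ u ∈ {b : Additive N | j b ∈ Z}, ∀ x, f (j u * x) = f x) → f = 0 := by
    intro f hf hu
    refine hfix f hf fun u huZ x => ?_
    exact hu (Additive.ofMul ⟨u, hZ huZ⟩) huZ x
  have main : (D + E - 1) / E ≤ Module.finrank ℂ V := by
    refine orbit_dim_stab j hj hj0 hinj V hV hV0 {b | j b ∈ Z} hfix' H cc hc _ ?_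
    rintro ψ ⟨u, hu, hu1⟩
    let χ : Γ → ℂ := fun g => if hg : g ∈ N then ψ (Additive.ofMul ⟨g, hg⟩) else 0
    have hχ : ∀ g (hg : g ∈ N), χ g = ψ (Additive.ofMul ⟨g, hg⟩) := fun g hg => dif_pos hg
    have hχj : ∀ b : Additive N, χ (j b) = ψ b := fun b => hχ _ (Additive.toMul b : N).2
    have hχ1 : χ 1 = 1 := by
      rw [← hj0, hχj, AddChar.map_zero_eq_one]
    have hχm : ∀ a ∈ N, ∀ b ∈ N, χ (a * b) = χ a * χ b := by
      intro a ha b hb
      rw [hχ a ha, hχ b hb, hχ _ (N.mul_mem ha hb), ← AddChar.map_add_eq_mul]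
      rfl
    have hχu : ∃ u ∈ Z, χ u ≠ 1 := ⟨j u, hu, by rw [hχj]; exact hu1⟩
    let S : Subgroup Γ :=
      { carrier := {h | h ∈ H ∧ ∀ n ∈ N, χ (h * n * h⁻¹) = χ n}
        one_mem' := ⟨H.one_mem, fun n _ => by rw [one_mul, inv_one, mul_one]⟩
        mul_mem' := by
          rintro a b ⟨ha, ha'⟩ ⟨hb, hb'⟩
          refine ⟨H.mul_mem ha hb, fun n hn => ?_⟩
          have : a * b * n * (a * b)⁻¹ = a * (b * n * b⁻¹) * a⁻¹ := by group
          rw [this, ha' _ (hnorm b hb n hn), hb' n hn]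
        inv_mem' := by
          rintro a ⟨ha, ha'⟩
          refine ⟨H.inv_mem ha, fun n hn => ?_⟩
          have h1 := ha' _ (hnorm a⁻¹ (H.inv_mem ha) n hn)
          rw [← h1]
          congr 1
          group }
    have hSH : S ≤ H := fun s hs => hs.1
    have h1 := hstab χ hχ1 hχm hχu S hSH (fun s hs n hn => hs.2 n hn)
    have hcard : Nat.card {h : Γ // h ∈ H ∧ ∀ b, ψ (cc h b) = ψ b} = Nat.card S := by
      refine Nat.card_congr (Equiv.subtypeEquivRight fun h => ?_)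
      constructor
      · rintro ⟨hh, hb⟩
        refine ⟨hh, fun n hn => ?_⟩
        have h2 := hb (Additive.ofMul ⟨n, hn⟩)
        rw [← hχj, ← hχj, hcc h hh] at h2
        exact h2
      · rintro ⟨hh, hb⟩
        refine ⟨hh, fun b => ?_⟩
        rw [← hχj, ← hχj, hcc h hh]
        exact hb _ (Additive.toMul b : N).2
    rw [hcard]
    have h3 : Nat.card S ∣ Nat.card H := Subgroup.card_dvd_of_le hSH
    obtain ⟨I, hI⟩ := h3
    have hSpos : 0 < Nat.card S := Nat.card_pos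
    rw [hI] at h1 ⊢
    have h4 : D ≤ E * I := by
      have : Nat.card S * D ≤ Nat.card S * (E * I) := by
        calc Nat.card S * D = D * Nat.card S := mul_comm _ _
          _ ≤ E * (Nat.card S * I) := h1
          _ = Nat.card S * (E * I) := by ring
      exact Nat.le_of_mul_le_mul_left this hSpos
    rw [mul_comm]
    refine Nat.mul_le_mul_left _ ?_
    rw [Nat.div_le_iff_le_mul_add_pred hE]
    omega
  have h5 : D ≤ E * ((D + E - 1) / E) := by
    have := Nat.div_add_mod (D + E - 1) E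
    have := Nat.mod_lt (D + E - 1) hE
    omega
  exact h5.trans (Nat.mul_le_mul_left _ main)

end abstractdim

section core

variable {K : Type*} [Field K] {σ : K →+* K} {k : ℕ} (hσ : ∀ x, σ (σ x) = x) [Finite K]
include hσ

/-- stabiliser bound with a base gain `g0` at the first level which lies in `N`. -/
theorem stab_core (h2 : (2 : K) ≠ 0) (hne : ∃ x, σ x ≠ x) (hk : 1 ≤ k)
    (χ : (R σ k)ˣ → ℂ) (hχ1 : χ 1 = 1)
    (hmul : ∀ a ∈ U hσ k (k / 2 + 1), ∀ b ∈ U hσ k (k / 2 + 1), χ (a * b) = χ a * χ b)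
    (hχ : k ≠ 1 → ∃ u ∈ U hσ k k, χ u ≠ 1) (S : Subgroup (R σ k)ˣ)
    (hS : ∀ s ∈ S, ∀ n ∈ U hσ k (k / 2 + 1), χ (s * n * s⁻¹) = χ n) (g0 : ℕ)
    (hbase : g0 * Nat.card (S ⊓ U hσ k ((k - 1) / 2 + 1) : Subgroup (R σ k)ˣ) ≤
      Nat.card (U hσ k ((k - 1) / 2 + 1))) :
    g0 * q σ ^ (∑ i ∈ Finset.Ico 1 ((k - 1) / 2 + 1), gexp k i) *
      Nat.card (S ⊓ U hσ k 1 : Subgroup (R σ k)ˣ) ≤ Nat.card (U hσ k 1) := by
  by_cases hk1 : k = 1
  · subst hk1
    rw [show (1 - 1) / 2 + 1 = 1 by rfl] at hbase ⊢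
    rw [Finset.Ico_self, Finset.sum_empty, pow_zero, mul_one]
    exact hbase
  set ψ : K → ℂ := fun x => χ (ex hk x) with hψdef
  have hkk : k / 2 + 1 ≤ k := by omega
  have hex : ∀ x ∈ A σ k, ex hk x ∈ U hσ k (k / 2 + 1) := fun x hx =>
    U_mono hσ hkk (ex_mem hσ hk hx)
  have hadd : ∀ x ∈ A σ k, ∀ y ∈ A σ k, ψ (x + y) = ψ x * ψ y := by
    intro x hx y hy
    simp only [hψdef]
    rw [ex_add, hmul _ (hex x hx) _ (hex y hy)]
  have hψ : ∃ x ∈ A σ k, ψ x ≠ 1 := by
    obtain ⟨u, hu, hu1⟩ := hχ hk1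
    refine ⟨_, lead_mem hσ hk le_rfl hu, ?_⟩
    simp only [hψdef]
    rwa [← eq_ex hk hu.2]
  have hstep : ∀ t, t ≤ (k - 1) / 2 →
      g0 * q σ ^ (∑ i ∈ Finset.Ico ((k - 1) / 2 + 1 - t) ((k - 1) / 2 + 1), gexp k i) *
        Nat.card (S ⊓ U hσ k ((k - 1) / 2 + 1 - t) : Subgroup (R σ k)ˣ) ≤
        Nat.card (U hσ k ((k - 1) / 2 + 1 - t)) := by
    intro t
    induction t with
    | zero =>
      intro _
      rw [Nat.sub_zero, Finset.Ico_self, Finset.sum_empty, pow_zero, mul_one]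
      exact hbase
    | succ t ih =>
      intro ht
      have ih' := ih (by omega)
      obtain ⟨i, hi⟩ : ∃ i, i = (k - 1) / 2 + 1 - (t + 1) := ⟨_, rfl⟩
      have hi' : (k - 1) / 2 + 1 - t = i + 1 := by omega
      rw [hi'] at ih'
      rw [← hi]
      have hi1 : 1 ≤ i := by omega
      have him : i < (k - 1) / 2 + 1 := by omega
      have hl : k / 2 + 1 ≤ k - i := by omega
      rw [Finset.sum_eq_sum_Ico_succ_bot him, pow_add, card_U hσ h2 hi1 (by omega),
        card_lead hσ hi1 (S ⊓ U hσ k i) inf_le_right]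
      have hint : S ⊓ U hσ k i ⊓ U hσ k (i + 1) = S ⊓ U hσ k (i + 1) := by
        rw [inf_assoc, inf_of_le_right (U_mono hσ (Nat.le_succ i))]
      rw [hint]
      have hTle : Nat.card {x : K | ∃ u ∈ S ⊓ U hσ k i, c ((u : R σ k) - 1) i = x} ≤
          Nat.card (Tset σ ψ i (k - i)) := by
        refine Nat.card_mono (Set.toFinite _) ?_
        rintro x ⟨u, ⟨huS, hu⟩, rfl⟩
        refine ⟨lead_mem hσ hi1 (by omega) hu, fun b hb => ?_⟩
        obtain ⟨n, hn, hnb⟩ := exists_lead hσ h2 (k := k) (i := k - i) (by omega) (by omega) hb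
        have h3 := comm_eq hσ hi1 (by omega) (by omega : i + (k - i) = k) hk hu hn
        have h4 := hS u huS n (U_mono hσ hl hn)
        have hD := D_mem hσ (lead_mem hσ hi1 (by omega) hu) hb
        rw [show i + (k - i) = k by omega] at hD
        rw [h3, hnb, hmul n (U_mono hσ hl hn) _ (hex _ hD)] at h4
        have hn0 : χ n ≠ 0 := by
          intro h0
          have h5 := hmul n (U_mono hσ hl hn) n⁻¹ ((U hσ k (k / 2 + 1)).inv_mem (U_mono hσ hl hn))
          rw [mul_inv_cancel, hχ1, h0, zero_mul] at h5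
          exact one_ne_zero h5
        exact mul_left_cancel₀ hn0 (by rw [h4, mul_one])
      have hg := gain_le hσ h2 hne (by omega : i + (k - i) = k) hadd hψ
      calc g0 * (q σ ^ gexp k i * q σ ^ (∑ i ∈ Finset.Ico (i + 1) ((k - 1) / 2 + 1), gexp k i)) *
            (Nat.card {x : K | ∃ u ∈ S ⊓ U hσ k i, c ((u : R σ k) - 1) i = x} *
              Nat.card (S ⊓ U hσ k (i + 1) : Subgroup (R σ k)ˣ))
          = (q σ ^ gexp k i *
              Nat.card {x : K | ∃ u ∈ S ⊓ U hσ k i, c ((u : R σ k) - 1) i = x}) *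
            (g0 * q σ ^ (∑ i ∈ Finset.Ico (i + 1) ((k - 1) / 2 + 1), gexp k i) *
              Nat.card (S ⊓ U hσ k (i + 1) : Subgroup (R σ k)ˣ)) := by ring
        _ ≤ Nat.card (A σ i) * Nat.card (U hσ k (i + 1)) :=
            Nat.mul_le_mul ((Nat.mul_le_mul_left _ hTle).trans hg) ih'
  have h := hstep ((k - 1) / 2) le_rfl
  rwa [show (k - 1) / 2 + 1 - (k - 1) / 2 = 1 by omega] at h

omit hσ [Finite K] in
lemma sum_gexp_odd (hk : k % 2 = 1) (m : ℕ) :
    ∑ i ∈ Finset.Ico 1 (m + 1), gexp k i = m := by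
  simp [gexp, hk]

omit hσ [Finite K] in
lemma sum_gexp_even (hk : k % 2 = 0) (m : ℕ) :
    ∑ i ∈ Finset.Ico 1 (m + 1), gexp k i = 2 * ((m + 1) / 2) := by
  induction m with
  | zero => simp
  | succ m ih =>
    rw [Finset.sum_Ico_succ_top (by omega), ih]
    unfold gexp
    rw [if_neg (by omega)]
    split_ifs <;> omega

end core


section transfer

variable {K : Type*} [Field K] {σ : K →+* K} {k : ℕ} (hσ : ∀ x, σ (σ x) = x) [Finite K]

/-- transfer of the orbit bound to a group `Γ` embedded in the units. -/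
theorem dim_transfer {Γ : Type*} [Group Γ] [Fintype Γ] (φ : Γ →* (R σ k)ˣ)
    (hinj : Function.Injective φ) (N H0 : Subgroup (R σ k)ˣ) (hH : H0 ≤ φ.range)
    (hcomm : ∀ u ∈ N, ∀ v ∈ N, u * v = v * u)
    (hnorm : ∀ h ∈ H0, ∀ n ∈ N, h * n * h⁻¹ ∈ N) (hk : U hσ k k ≤ N) (hNr : N ≤ φ.range)
    (V : Submodule ℂ (Γ → ℂ)) (hV : LStable V) (hV0 : V ≠ ⊥)
    (hfix : ∀ f ∈ V, (∀ u, φ u ∈ U hσ k k → ∀ x, f (u * x) = f x) → f = 0) (D E : ℕ) (hE : 0 < E)
    (hstab : ∀ χ : (R σ k)ˣ → ℂ, χ 1 = 1 → (∀ a ∈ N, ∀ b ∈ N, χ (a * b) = χ a * χ b) →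
      (∃ u ∈ U hσ k k, χ u ≠ 1) → ∀ S : Subgroup (R σ k)ˣ, S ≤ H0 →
      (∀ s ∈ S, ∀ n ∈ N, χ (s * n * s⁻¹) = χ n) → D * Nat.card S ≤ E * Nat.card H0) :
    D ≤ E * Module.finrank ℂ V := by
  refine dim_of_stab (N.comap φ) ?_ (H0.comap φ) ?_ {u | φ u ∈ U hσ k k}
    (fun u hu => hk hu) V hV hV0 (fun f hf h => hfix f hf fun u hu x => h u hu x) D E hE ?_
  · intro u hu v hv
    apply hinj
    rw [map_mul, map_mul]
    exact hcomm _ hu _ hv
  · intro h hh n hn
    rw [Subgroup.mem_comap, map_mul, map_mul, map_inv]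
    exact hnorm _ hh _ hn
  · intro χ hχ1 hχm hχu S hSH hS
    have hext : ∀ γ, Function.extend φ χ 0 (φ γ) = χ γ := fun γ => hinj.extend_apply _ _ _
    have h := hstab (Function.extend φ χ 0) (by rw [← map_one φ, hext, hχ1]) ?_ ?_ (S.map φ) ?_ ?_
    · have e1 : Nat.card (S.map φ) = Nat.card S :=
        (Nat.card_congr (S.equivMapOfInjective φ hinj).toEquiv).symm
      have e2 : Nat.card H0 = Nat.card (H0.comap φ) := by
        have e3 : (H0.comap φ).map φ = H0 := by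
          rw [Subgroup.map_comap_eq, inf_of_le_right hH]
        conv_lhs => rw [← e3]
        exact (Nat.card_congr ((H0.comap φ).equivMapOfInjective φ hinj).toEquiv).symm
      rwa [e1, e2] at h
    · intro a ha b hb
      obtain ⟨a', rfl⟩ := hNr ha
      obtain ⟨b', rfl⟩ := hNr hb
      rw [← map_mul, hext, hext, hext]
      exact hχm _ ha _ hb
    · obtain ⟨u, hu, hu1⟩ := hχu
      exact ⟨φ u, hu, by rw [hext]; exact hu1⟩
    · rintro _ ⟨s, hs, rfl⟩
      exact hSH hs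
    · rintro _ ⟨s, hs, rfl⟩ n hn
      obtain ⟨n', rfl⟩ := hNr hn
      rw [← map_mul, ← map_inv, ← map_mul, hext, hext]
      exact hS s hs n' hn

include hσ

omit [Finite K] in
lemma U_one_le_SG {i : ℕ} : U hσ k i ≤ SG hσ k := fun _ hu => hu.1

/-- `k` odd, `U 1` acting. -/
theorem dim_bound_odd {Γ : Type*} [Group Γ] [Fintype Γ] (φ : Γ →* (R σ k)ˣ)
    (hinj : Function.Injective φ) (hU1 : U hσ k 1 ≤ φ.range)
    (h2 : (2 : K) ≠ 0) (hne : ∃ x, σ x ≠ x) (hk : k % 2 = 1)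
    (V : Submodule ℂ (Γ → ℂ)) (hV : LStable V) (hV0 : V ≠ ⊥)
    (hfix : ∀ f ∈ V, (∀ u, φ u ∈ U hσ k k → ∀ x, f (u * x) = f x) → f = 0) :
    q σ ^ ((k - 1) / 2) ≤ Module.finrank ℂ V := by
  have hle : U hσ k (k / 2 + 1) ≤ U hσ k 1 := U_mono hσ (by omega)
  have := dim_transfer hσ φ hinj (U hσ k (k / 2 + 1)) (U hσ k 1) hU1
    (fun u hu v hv => U_comm hσ (by omega) hu hv)
    (fun h hh n hn => U_conj hσ hh.1 hn) (U_mono hσ (by omega)) (hle.trans hU1) V hV hV0 hfix
    (q σ ^ ((k - 1) / 2)) 1 Nat.one_pos ?_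
  · rwa [one_mul] at this
  · intro χ hχ1 hχm hχu S hSH hS
    have h := stab_core hσ h2 hne (by omega) χ hχ1 hχm (fun _ => hχu) S hS 1 (by
      rw [one_mul]; exact Nat.card_mono (Set.toFinite _) inf_le_right)
    rwa [sum_gexp_odd hk, one_mul, inf_of_le_left hSH, ← one_mul (Nat.card (U hσ k 1))] at h

/-! ### the case `k = 2 m`, `m` odd: the Heisenberg subgroup -/

omit [Finite K] in
lemma lead_inv {i : ℕ} (hi : 1 ≤ i) {u : (R σ k)ˣ} (hu : u ∈ U hσ k i) :
    c (((u⁻¹ : (R σ k)ˣ) : R σ k) - 1) i = - c ((u : R σ k) - 1) i := by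
  have h := lead_mul hσ hi hu ((U hσ k i).inv_mem hu)
  rw [mul_inv_cancel, Units.val_one, sub_self, c_zero] at h
  exact (neg_eq_of_add_eq_zero_right h.symm).symm

omit [Finite K] in
/-- conjugation by `U 1` preserves leading coefficients. -/
lemma lead_conj {i : ℕ} {h u : (R σ k)ˣ} (hh : h ∈ U hσ k 1)
    (hu : u ∈ U hσ k i) :
    c (((h * u * h⁻¹ : (R σ k)ˣ) : R σ k) - 1) i = c ((u : R σ k) - 1) i := by
  have e : ((h * u * h⁻¹ : (R σ k)ˣ) : R σ k) - 1 = ((u : R σ k) - 1) +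
      (((h : R σ k) - 1) * ((u : R σ k) - 1) * ((h⁻¹ : (R σ k)ˣ) : R σ k) +
        ((u : R σ k) - 1) * (((h⁻¹ : (R σ k)ˣ) : R σ k) - 1)) := by
    have h1 : (h : R σ k) * ((h⁻¹ : (R σ k)ˣ) : R σ k) = 1 := Units.mul_inv h
    rw [Units.val_mul, Units.val_mul]
    have : (h : R σ k) * (u : R σ k) * ((h⁻¹ : (R σ k)ˣ) : R σ k) - 1 =
      (h : R σ k) * (u : R σ k) * ((h⁻¹ : (R σ k)ˣ) : R σ k) -
        (h : R σ k) * ((h⁻¹ : (R σ k)ˣ) : R σ k) := by rw [h1]
    rw [this]
    noncomm_ring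
  have hJ1 : J (i + 1) (((h : R σ k) - 1) * ((u : R σ k) - 1) * ((h⁻¹ : (R σ k)ˣ) : R σ k)) :=
    ((hh.2.mul hu.2).mono (by omega)).mul_right _
  have hJ2 : J (i + 1) (((u : R σ k) - 1) * (((h⁻¹ : (R σ k)ˣ) : R σ k) - 1)) :=
    hu.2.mul ((U hσ k 1).inv_mem hh).2
  rw [e, c_add, (hJ1.add hJ2) i (Nat.lt_succ_self i), add_zero]

/-- elements of `U m` with leading coefficient in the fixed field. -/
def NE (k m : ℕ) (hm : 1 ≤ m) : Subgroup (R σ k)ˣ where
  carrier := {u | u ∈ U hσ k m ∧ σ (c ((u : R σ k) - 1) m) = c ((u : R σ k) - 1) m}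
  one_mem' := ⟨(U hσ k m).one_mem, by rw [Units.val_one, sub_self, c_zero, map_zero]⟩
  mul_mem' := by
    rintro a b ⟨ha, ha'⟩ ⟨hb, hb'⟩
    exact ⟨(U hσ k m).mul_mem ha hb, by rw [lead_mul hσ hm ha hb, map_add, ha', hb']⟩
  inv_mem' := by
    rintro a ⟨ha, ha'⟩
    exact ⟨(U hσ k m).inv_mem ha, by rw [lead_inv hσ hm ha, map_neg, ha']⟩

omit [Finite K] in
lemma mem_NE {m : ℕ} (hm : 1 ≤ m) {u : (R σ k)ˣ} : u ∈ NE hσ k m hm ↔
    u ∈ U hσ k m ∧ σ (c ((u : R σ k) - 1) m) = c ((u : R σ k) - 1) m := Iff.rfl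

omit [Finite K] in
lemma U_le_NE {m : ℕ} (hm : 1 ≤ m) {l : ℕ} (hl : m + 1 ≤ l) : U hσ k l ≤ NE hσ k m hm := by
  intro u hu
  refine (mem_NE hσ hm).mpr ⟨U_mono hσ (by omega) hu, ?_⟩
  rw [hu.2 m (by omega), map_zero]

omit hσ [Finite K] in
lemma ex_zero (hk : 1 ≤ k) : (ex hk 0 : (R σ k)ˣ) = 1 := by
  have h := ex_add (σ := σ) hk 0 0
  rw [add_zero] at h
  exact (left_eq_mul.mp h)

omit [Finite K] in
lemma NE_comm {m : ℕ} (hm : 1 ≤ m) (hk : k = 2 * m) (hodd : m % 2 = 1) {u v : (R σ k)ˣ}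
    (hu : u ∈ NE hσ k m hm) (hv : v ∈ NE hσ k m hm) : u * v = v * u := by
  obtain ⟨hu, hu'⟩ := hu
  obtain ⟨hv, hv'⟩ := hv
  have h := comm_eq hσ hm hm (by omega : m + m = k) (by omega) hu hv
  have hD : D σ m m (c ((u : R σ k) - 1) m) (c ((v : R σ k) - 1) m) = 0 := by
    unfold D
    rw [spow_odd hσ hodd, spow_odd hσ hodd, hu', hv']; ring
  rw [hD, ex_zero, mul_one, mul_inv_eq_iff_eq_mul] at h
  exact h

/-- `k` even, `U 1` acting: `q^(k/2)`. -/
theorem dim_bound_even {Γ : Type*} [Group Γ] [Fintype Γ] (φ : Γ →* (R σ k)ˣ)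
    (hinj : Function.Injective φ) (hU1 : U hσ k 1 ≤ φ.range)
    (h2 : (2 : K) ≠ 0) (hne : ∃ x, σ x ≠ x) (hk : k % 2 = 0) (hk0 : k ≠ 0)
    (V : Submodule ℂ (Γ → ℂ)) (hV : LStable V) (hV0 : V ≠ ⊥)
    (hfix : ∀ f ∈ V, (∀ u, φ u ∈ U hσ k k → ∀ x, f (u * x) = f x) → f = 0) :
    q σ ^ (k / 2) ≤ Module.finrank ℂ V := by
  obtain ⟨m, hm⟩ : ∃ m, m = k / 2 := ⟨_, rfl⟩
  have hm1 : 1 ≤ m := by omega
  by_cases hmo : m % 2 = 1
  · -- Heisenberg case
    have hle : NE hσ k m hm1 ≤ U hσ k 1 := fun u hu => U_mono hσ hm1 hu.1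
    have := dim_transfer hσ φ hinj (NE hσ k m hm1) (U hσ k 1) hU1
      (fun u hu v hv => NE_comm hσ hm1 (by omega) hmo hu hv)
      (fun h hh n hn => (mem_NE hσ hm1).mpr
        ⟨U_conj hσ hh.1 hn.1, by rw [lead_conj hσ hh hn.1]; exact hn.2⟩)
      (U_le_NE hσ hm1 (by omega)) (hle.trans hU1) V hV hV0 hfix
      (q σ ^ (k / 2)) 1 Nat.one_pos ?_
    · rwa [one_mul] at this
    · intro χ hχ1 hχm hχu S hSH hS
      have hUN : U hσ k (k / 2 + 1) ≤ NE hσ k m hm1 := U_le_NE hσ hm1 (by omega)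
      have hk1 : 1 ≤ k := by omega
      have hex : ∀ x ∈ A σ k, ex hk1 x ∈ NE hσ k m hm1 := fun x hx =>
        U_le_NE hσ hm1 (by omega) (ex_mem hσ hk1 hx)
      have hbase : q σ * Nat.card (S ⊓ U hσ k ((k - 1) / 2 + 1) : Subgroup (R σ k)ˣ) ≤
          Nat.card (U hσ k ((k - 1) / 2 + 1)) := by
        rw [show (k - 1) / 2 + 1 = m by omega, card_U hσ h2 hm1 (by omega),
          card_lead hσ hm1 (S ⊓ U hσ k m) inf_le_right, ← mul_assoc]
        refine Nat.mul_le_mul ?_ ?_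
        · set T : Set K := {a | ∀ b, σ b = b → χ (ex hk1 (D σ m m a b)) = 1} with hT
          have hA : A σ m = Set.univ := by
            ext z; exact ⟨fun _ => Set.mem_univ _, fun _ => Or.inl hmo⟩
          have hDk : ∀ a b, D σ m m a b ∈ A σ k := by
            intro a b
            have := D_mem hσ (i := m) (l := m) (a := a) (b := b) (Or.inl hmo) (Or.inl hmo)
            rwa [show m + m = k by omega] at this
          have hsub : {x : K | ∃ u ∈ S ⊓ U hσ k m, c ((u : R σ k) - 1) m = x} ⊆ T := by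
            rintro x ⟨u, ⟨huS, hu⟩, rfl⟩ b hb
            obtain ⟨n, hn, hnb⟩ := exists_lead hσ h2 (k := k) (i := m) (x := b) hm1 (by omega)
              (Or.inl hmo)
            have hnN : n ∈ NE hσ k m hm1 := (mem_NE hσ hm1).mpr ⟨hn, by rw [hnb, hb]⟩
            have h3 := comm_eq hσ hm1 hm1 (by omega : m + m = k) hk1 hu hn
            have h4 := hS u huS n hnN
            rw [h3, hnb, hχm n hnN _ (hex _ (hDk _ _))] at h4
            have hn0 : χ n ≠ 0 := by
              intro h0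
              have h5 := hχm n hnN n⁻¹ ((NE hσ k m hm1).inv_mem hnN)
              rw [mul_inv_cancel, hχ1, h0, zero_mul] at h5
              exact one_ne_zero h5
            exact mul_left_cancel₀ hn0 (by rw [h4, mul_one])
          refine (Nat.mul_le_mul_left _ (Nat.card_mono (Set.toFinite _) hsub)).trans ?_
          obtain ⟨u, hu, hu1⟩ := hχu
          have hx := lead_mem hσ hk1 le_rfl hu
          have hux := eq_ex (σ := σ) hk1 hu.2
          set x := c ((u : R σ k) - 1) k with hxdef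
          have hx' : σ x = -x := hx.resolve_left (by omega)
          refine gain_aux T (A σ m) ?_ ?_ (fun a ha b hb => A_add ha hb)
            (fun f hf a ha => A_smul hf ha) (by rw [hA]; exact Set.subset_univ _)
            (a₀ := x / 2) (Or.inl hmo) ?_
          · intro a ha b hb z hz
            rw [D_add, ex_add, hχm _ (hex _ (hDk _ _)) _ (hex _ (hDk _ _)), ha z hz, hb z hz,
              one_mul]
          · intro f hf a ha z hz
            rw [D_smul m m hf]
            exact ha _ (by rw [map_mul, hf, hz])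
          · intro h
            apply hu1
            have h6 := h 1 (map_one σ)
            have hD : D σ m m (x / 2) 1 = x := by
              unfold D
              rw [spow_odd hσ hmo, spow_odd hσ hmo, map_one, map_div₀, hx', map_ofNat]
              field_simp
              ring
            rw [hD] at h6
            rw [hux]; exact h6
        · refine Nat.card_mono (Set.toFinite _) ?_
          exact inf_le_right
      have h := stab_core hσ h2 hne hk1 χ hχ1
        (fun a ha b hb => hχm a (hUN ha) b (hUN hb)) (fun _ => hχu) S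
        (fun s hs n hn => hS s hs n (hUN hn)) (q σ) hbase
      rw [sum_gexp_even hk, inf_of_le_left hSH] at h
      rw [one_mul]
      refine le_trans (le_of_eq ?_) h
      congr 1
      rw [← pow_succ']
      congr 1
      omega
  · have hle : U hσ k (k / 2 + 1) ≤ U hσ k 1 := U_mono hσ (by omega)
    have := dim_transfer hσ φ hinj (U hσ k (k / 2 + 1)) (U hσ k 1) hU1
      (fun u hu v hv => U_comm hσ (by omega) hu hv)
      (fun h hh n hn => U_conj hσ hh.1 hn) (U_mono hσ (by omega)) (hle.trans hU1) V hV hV0 hfix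
      (q σ ^ (k / 2)) 1 Nat.one_pos ?_
    · rwa [one_mul] at this
    · intro χ hχ1 hχm hχu S hSH hS
      have h := stab_core hσ h2 hne (by omega) χ hχ1 hχm (fun _ => hχu) S hS 1 (by
        rw [one_mul]; exact Nat.card_mono (Set.toFinite _) inf_le_right)
      rw [sum_gexp_even hk, one_mul, inf_of_le_left hSH] at h
      rw [one_mul]
      refine le_trans (le_of_eq ?_) h
      congr 2
      omega

end transfer


section torus

variable {K : Type*} [Field K] {σ : K →+* K} {k : ℕ} (hσ : ∀ x, σ (σ x) = x)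

/-- the constant term, a ring homomorphism. -/
def const (σ : K →+* K) (k : ℕ) : R σ k →+* K where
  toFun f := c f 0
  map_zero' := c_zero 0
  map_one' := by rw [c_one (Nat.zero_le k), if_pos rfl]
  map_add' f g := c_add f g 0
  map_mul' f g := by
    rw [c_mul _ _ (Nat.zero_le k)]
    simp

lemma const_apply (f : R σ k) : const σ k f = c f 0 := rfl

lemma mono_zero_mul (x y : K) : (mono 0 x : R σ k) * mono 0 y = mono 0 (x * y) := by
  refine ext' fun n hn => ?_
  rw [c_mul _ _ hn, c_mono _ _ hn]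
  split_ifs with h
  · subst h
    simp [c_mono]
  · refine Finset.sum_eq_zero fun p hp => ?_
    rw [HasAntidiagonal.mem_antidiagonal] at hp
    rw [c_mono _ _ (by omega), c_mono _ _ (by omega)]
    by_cases h1 : p.1 = 0
    · rw [if_neg (show p.2 ≠ 0 by omega), map_zero, mul_zero]
    · rw [if_neg h1, zero_mul]

lemma mono_zero_one : (mono 0 1 : R σ k) = 1 := by
  refine ext' fun n hn => ?_
  rw [c_mono _ _ hn, c_one hn]

lemma conj_mono_zero (x : K) : conj (mono 0 x : R σ k) = mono 0 (σ x) := by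
  refine ext' fun n hn => ?_
  rw [c_conj _ hn, c_mono _ _ hn, c_mono _ _ hn]
  split_ifs with h
  · subst h; simp
  · simp

include hσ

lemma const_SG {u : (R σ k)ˣ} (hu : u ∈ SG hσ k) :
    c (u : R σ k) 0 * σ (c (u : R σ k) 0) = 1 := by
  have h := congrArg (fun f => const σ k f) ((mem_SG hσ).mp hu)
  simp only [map_mul, map_one] at h
  rw [const_apply, const_apply, c_conj _ (Nat.zero_le k)] at h
  simpa using h

/-- the constant units of norm one. -/
def tor (k : ℕ) (x : K) (hx : x * σ x = 1) : (R σ k)ˣ where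
  val := mono 0 x
  inv := mono 0 (σ x)
  val_inv := by rw [mono_zero_mul, hx, mono_zero_one]
  inv_val := by rw [mono_zero_mul, mul_comm, hx, mono_zero_one]

lemma tor_mem (x : K) (hx : x * σ x = 1) : tor k x hx ∈ SG hσ k := by
  rw [mem_SG hσ]
  change (mono 0 x : R σ k) * conj (mono 0 x) = 1
  rw [conj_mono_zero, mono_zero_mul, hx, mono_zero_one]

/-- splitting off the constant term. -/
lemma card_const (S : Subgroup (R σ k)ˣ) (hS : S ≤ SG hσ k) :
    Nat.card S = Nat.card {x : K | ∃ u ∈ S, c (u : R σ k) 0 = x} *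
      Nat.card (S ⊓ U hσ k 1 : Subgroup (R σ k)ˣ) := by
  set φ : S →* Kˣ := (Units.map (const σ k : R σ k →* K)).comp S.subtype with hφ
  have hφa : ∀ u : S, ((φ u : Kˣ) : K) = c ((u : (R σ k)ˣ) : R σ k) 0 := fun u => rfl
  have h1 := Subgroup.card_mul_index φ.ker
  rw [Subgroup.index_ker] at h1
  have hker : ∀ u : S, φ u = 1 ↔ J 1 (((u : (R σ k)ˣ) : R σ k) - 1) := by
    intro u
    rw [Units.ext_iff, hφa, Units.val_one]
    constructor
    · intro h n hn
      have : n = 0 := by omega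
      rw [this, c_sub, h, c_one (Nat.zero_le k), if_pos rfl, sub_self]
    · intro h
      have := h 0 Nat.one_pos
      rw [c_sub, c_one (Nat.zero_le k), if_pos rfl] at this
      exact sub_eq_zero.mp this
  have h2 : Nat.card φ.ker = Nat.card (S ⊓ U hσ k 1 : Subgroup (R σ k)ˣ) := by
    refine Nat.card_congr ⟨fun x => ⟨x.1.1, x.1.2, hS x.1.2, ?_⟩,
      fun x => ⟨⟨x.1, x.2.1⟩, ?_⟩, fun x => rfl, fun x => rfl⟩
    · exact (hker x.1).mp ((MonoidHom.mem_ker).mp x.2)
    · exact (MonoidHom.mem_ker).mpr ((hker _).mpr x.2.2.2)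
  have h3 : Nat.card φ.range = Nat.card {x : K | ∃ u ∈ S, c (u : R σ k) 0 = x} := by
    refine Nat.card_congr (Equiv.ofBijective
      (fun x => (⟨(x.1 : K), ?_⟩ : {x : K | ∃ u ∈ S, c (u : R σ k) 0 = x})) ⟨?_, ?_⟩)
    · obtain ⟨u, hu⟩ := x.2
      exact ⟨u.1, u.2, by rw [← hu]; rfl⟩
    · intro x y hxy
      simp only [Subtype.mk.injEq] at hxy
      exact Subtype.ext (Units.ext hxy)
    · rintro ⟨x, u, hu, hx⟩
      exact ⟨⟨φ ⟨u, hu⟩, ⟨u, hu⟩, rfl⟩, Subtype.ext hx⟩
  rw [← h1, h2, h3, mul_comm]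

variable [Finite K]

omit hσ [Finite K] in
/-- the number of norm-one elements of `K`. -/
noncomputable def w (σ : K →+* K) : ℕ := Nat.card {x : K | x * σ x = 1}

lemma card_SG : Nat.card (SG hσ k) = w σ * Nat.card (U hσ k 1) := by
  rw [card_const hσ (SG hσ k) le_rfl, inf_of_le_right (U_one_le_SG hσ)]
  unfold w
  congr 2
  have : {x : K | ∃ u ∈ SG hσ k, c (u : R σ k) 0 = x} = {x : K | x * σ x = 1} := by
    ext x
    constructor
    · rintro ⟨u, hu, rfl⟩; exact const_SG hσ hu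
    · intro hx
      exact ⟨tor k x hx, tor_mem hσ x hx, by
        change c (mono 0 x : R σ k) 0 = x
        rw [c_mono _ _ (Nat.zero_le k), if_pos rfl]⟩
  rw [this]

omit [Finite K] in
/-- conjugation on the last layer. -/
lemma conj_ex (hk : 1 ≤ k) {s : (R σ k)ˣ} (hs : s ∈ SG hσ k) (hodd : k % 2 = 1) (x : K) :
    s * ex hk x * s⁻¹ = ex hk (c (s : R σ k) 0 * c (s : R σ k) 0 * x) := by
  rw [mul_inv_eq_iff_eq_mul]
  refine Units.ext ?_
  rw [Units.val_mul, Units.val_mul]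
  change (s : R σ k) * (1 + mono k x) =
    (1 + mono k (c (s : R σ k) 0 * c (s : R σ k) 0 * x) : R σ k) * (s : R σ k)
  rw [mul_add, add_mul, mul_one, one_mul]
  congr 1
  have hJ1 : J k ((s : R σ k) * mono k x) := (J_mono k x).mul_left _
  have hJ2 : J k ((mono k (c (s : R σ k) 0 * c (s : R σ k) 0 * x) : R σ k) * (s : R σ k)) :=
    (J_mono k _).mul_right _
  rw [eq_mono hJ1, eq_mono hJ2]
  congr 1
  have e1 := c_mul_lead (σ := σ) (k := k) (J_zero (s : R σ k)) (J_mono k x) (by omega)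
  have e2 := c_mul_lead (σ := σ) (k := k) (J_mono k (c (s : R σ k) 0 * c (s : R σ k) 0 * x))
    (J_zero (s : R σ k)) (by omega)
  rw [Nat.zero_add] at e1
  rw [Nat.add_zero] at e2
  rw [e1, e2, c_mono _ _ le_rfl, c_mono _ _ le_rfl, if_pos rfl, if_pos rfl,
    spow_odd hσ hodd, pow_zero]
  have h := const_SG hσ hs
  change c (s : R σ k) 0 * x = _
  linear_combination (-(c (s : R σ k) 0 * x)) * h

/-- `k` odd, the full norm-one group acting: `w q^((k-1)/2) / 2`. -/
theorem dim_bound_odd_torus {Γ : Type*} [Group Γ] [Fintype Γ] (φ : Γ →* (R σ k)ˣ)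
    (hinj : Function.Injective φ) (hU1 : SG hσ k ≤ φ.range)
    (h2 : (2 : K) ≠ 0) (hne : ∃ x, σ x ≠ x) (hk : k % 2 = 1)
    (V : Submodule ℂ (Γ → ℂ)) (hV : LStable V) (hV0 : V ≠ ⊥)
    (hfix : ∀ f ∈ V, (∀ u, φ u ∈ U hσ k k → ∀ x, f (u * x) = f x) → f = 0) :
    w σ * q σ ^ ((k - 1) / 2) ≤ 2 * Module.finrank ℂ V := by
  have hle : U hσ k (k / 2 + 1) ≤ SG hσ k := U_one_le_SG hσ
  have hk1 : 1 ≤ k := by omega
  refine dim_transfer hσ φ hinj (U hσ k (k / 2 + 1)) (SG hσ k) hU1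
    (fun u hu v hv => U_comm hσ (by omega) hu hv)
    (fun h hh n hn => U_conj hσ hh hn) (U_mono hσ (by omega)) (hle.trans hU1) V hV hV0 hfix
    (w σ * q σ ^ ((k - 1) / 2)) 2 (by norm_num) ?_
  intro χ hχ1 hχm hχu S hSH hS
  have h := stab_core hσ h2 hne hk1 χ hχ1 hχm (fun _ => hχu) S hS 1 (by
    rw [one_mul]; exact Nat.card_mono (Set.toFinite _) inf_le_right)
  rw [sum_gexp_odd hk, one_mul] at h
  have hA : ∀ x : K, x ∈ A σ k := fun x => Or.inl hk
  have hexN : ∀ x : K, ex hk1 x ∈ U hσ k (k / 2 + 1) := fun x =>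
    U_mono hσ (by omega) (ex_mem hσ hk1 (hA x))
  have hC : Nat.card {x : K | ∃ u ∈ S, c (u : R σ k) 0 = x} ≤ 2 := by
    have hsub : {x : K | ∃ u ∈ S, c (u : R σ k) 0 = x} ⊆ {1, -1} := by
      rintro x ⟨s, hs, rfl⟩
      set c0 := c (s : R σ k) 0 with hc0
      have h1 : c0 * c0 = 1 := by
        by_contra hcon
        obtain ⟨u, hu, hu1⟩ := hχu
        apply hu1
        rw [eq_ex (σ := σ) hk1 hu.2]
        set y := c ((u : R σ k) - 1) k
        have hd : c0 * c0 - 1 ≠ 0 := sub_ne_zero.mpr hcon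
        have hy : y = c0 * c0 * (y / (c0 * c0 - 1)) + -(y / (c0 * c0 - 1)) := by
          linear_combination -(div_mul_cancel₀ y hd)
        rw [hy, ex_add, hχm _ (hexN _) _ (hexN _)]
        have h3 := hS s hs _ (hexN (y / (c0 * c0 - 1)))
        rw [conj_ex hσ hk1 (hSH hs) hk] at h3
        rw [h3, ← hχm _ (hexN _) _ (hexN _), ← ex_add, add_neg_cancel, ex_zero, hχ1]
      rcases mul_self_eq_one_iff.mp h1 with h | h
      · exact Or.inl h
      · exact Or.inr h
    refine (Nat.card_mono (Set.toFinite _) hsub).trans ?_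
    rw [Nat.card_coe_set_eq]
    exact (Set.ncard_insert_le _ _).trans (by rw [Set.ncard_singleton])
  rw [card_SG hσ, card_const hσ S hSH]
  calc w σ * q σ ^ ((k - 1) / 2) * (Nat.card {x : K | ∃ u ∈ S, c (u : R σ k) 0 = x} *
        Nat.card (S ⊓ U hσ k 1 : Subgroup (R σ k)ˣ))
      = w σ * (Nat.card {x : K | ∃ u ∈ S, c (u : R σ k) 0 = x} * (q σ ^ ((k - 1) / 2) *
        Nat.card (S ⊓ U hσ k 1 : Subgroup (R σ k)ˣ))) := by ring
    _ ≤ w σ * (2 * Nat.card (U hσ k 1)) := Nat.mul_le_mul_left _ (Nat.mul_le_mul hC h)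
    _ = 2 * (w σ * Nat.card (U hσ k 1)) := by ring

end torus

section cards

variable {K : Type*} [Field K] {σ : K →+* K} {k : ℕ} (hσ : ∀ x, σ (σ x) = x) [Finite K]
include hσ

/-- trace-zero elements: `q` of them. -/
lemma card_A_even (hne : ∃ x, σ x ≠ x) {i : ℕ} (hi : i % 2 = 0) :
    Nat.card (A σ i) = q σ := by
  obtain ⟨θ, hθ, hθ'⟩ := exists_theta hσ hne
  unfold q
  refine Nat.card_congr ⟨fun x => ⟨x.1 / θ, ?_⟩, fun x => ⟨x.1 * θ, ?_⟩, ?_, ?_⟩
  · have : σ x.1 = -x.1 := x.2.resolve_left (by omega)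
    rw [Set.mem_ofPred_eq, map_div₀, this, hθ', neg_div_neg_eq]
  · have : σ x.1 = x.1 := x.2
    exact Or.inr (by rw [map_mul, this, hθ']; ring)
  · intro x
    exact Subtype.ext (by simp only; field_simp)
  · intro x
    exact Subtype.ext (by simp only; field_simp)

/-- `|K| = q ^ 2`. -/
lemma card_K (h2 : (2 : K) ≠ 0) (hne : ∃ x, σ x ≠ x) : Nat.card K = q σ * q σ := by
  obtain ⟨θ, hθ, hθ'⟩ := exists_theta hσ hne
  refine le_antisymm ?_ (card_A_odd hσ h2 hne)
  have h : Nat.card K ≤ Nat.card ({x : K | σ x = x} × (A σ 0)) := by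
    refine Nat.card_le_card_of_injective
      (fun x => ((⟨x + σ x, ?_⟩ : {x : K | σ x = x}), (⟨x - σ x, ?_⟩ : A σ 0))) ?_
    · rw [Set.mem_ofPred_eq, map_add, hσ, add_comm]
    · exact Or.inr (by rw [map_sub, hσ]; ring)
    · intro x y hxy
      have e1 := congrArg (fun p => (p.1 : K)) hxy
      have e2 := congrArg (fun p => (p.2 : K)) hxy
      simp only at e1 e2
      have h3 : 2 * x = 2 * y := by linear_combination e1 + e2
      exact mul_left_cancel₀ h2 h3
  rw [Nat.card_prod, card_A_even hσ hne (by omega)] at h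
  exact h

lemma card_A_odd' (h2 : (2 : K) ≠ 0) (hne : ∃ x, σ x ≠ x) {i : ℕ} (hi : i % 2 = 1) :
    Nat.card (A σ i) = q σ * q σ := by
  rw [← card_K hσ h2 hne]
  have h3 : A σ i = Set.univ := by
    ext z; exact ⟨fun _ => Set.mem_univ _, fun _ => Or.inl hi⟩
  rw [h3, Nat.card_univ]

/-- `|U 1| = q ^ (k + (k+1)/2)`. -/
lemma card_U_one (h2 : (2 : K) ≠ 0) (hne : ∃ x, σ x ≠ x) :
    Nat.card (U hσ k 1) = q σ ^ (k + (k + 1) / 2) := by
  have h : ∀ t, t ≤ k → Nat.card (U hσ k (k + 1 - t)) =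
      q σ ^ ((k + (k + 1) / 2) - ((k - t) + (k - t + 1) / 2)) := by
    intro t
    induction t with
    | zero =>
      intro _
      have : U hσ k (k + 1 - 0) = ⊥ := by
        rw [eq_bot_iff]; intro u hu; exact U_top hσ hu
      rw [this, Subgroup.card_bot]
      simp
    | succ t ih =>
      intro ht
      rw [card_U hσ h2 (by omega) (by omega), show k + 1 - (t + 1) + 1 = k + 1 - t by omega,
        ih (by omega)]
      by_cases hp : (k + 1 - (t + 1)) % 2 = 1
      · rw [card_A_odd' hσ h2 hne hp, ← pow_two, ← pow_add]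
        congr 1
        omega
      · rw [card_A_even hσ hne (by omega), ← pow_succ']
        congr 1
        omega
  have := h k le_rfl
  rw [show k + 1 - k = 1 by omega, Nat.sub_self] at this
  simpa using this

/-- `w = q + 1`. -/
lemma w_eq (h2 : (2 : K) ≠ 0) (hne : ∃ x, σ x ≠ x) : w σ = q σ + 1 := by
  classical
  obtain ⟨θ, hθ, hθ'⟩ := exists_theta hσ hne
  set φ : Kˣ →* Kˣ :=
    { toFun := fun y => y / Units.map (σ : K →* K) y
      map_one' := by simp
      map_mul' := fun a b => by rw [map_mul, mul_div_mul_comm] } with hφ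
  have h1 := Subgroup.card_mul_index φ.ker
  rw [Subgroup.index_ker] at h1
  have hker : Nat.card φ.ker = q σ - 1 := by
    have e : Nat.card φ.ker = Nat.card {x : K // σ x = x ∧ x ≠ 0} := by
      refine Nat.card_congr (Equiv.ofBijective (fun y => (⟨((y.1 : Kˣ) : K), ?_, y.1.ne_zero⟩ :
        {x : K // σ x = x ∧ x ≠ 0})) ⟨?_, ?_⟩)
      · have h := y.2
        rw [MonoidHom.mem_ker] at h
        have h' := div_eq_one.mp h
        have h3 := congrArg Units.val h'
        exact h3.symm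
      · intro a b hab
        simp only [Subtype.mk.injEq] at hab
        exact Subtype.ext (Units.ext hab)
      · rintro ⟨x, hx, hx0⟩
        refine ⟨⟨Units.mk0 x hx0, ?_⟩, rfl⟩
        rw [MonoidHom.mem_ker]
        exact div_eq_one.mpr (Units.ext hx.symm)
    rw [e]
    unfold q
    have : {x : K // σ x = x ∧ x ≠ 0} ≃ {y : {x : K | σ x = x} // y ≠ ⟨0, map_zero σ⟩} :=
      ⟨fun x => ⟨⟨x.1, x.2.1⟩, fun h => x.2.2 (congrArg Subtype.val h)⟩,
        fun y => ⟨y.1.1, y.1.2, fun h => y.2 (Subtype.ext h)⟩, fun x => rfl, fun y => rfl⟩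
    rw [Nat.card_congr this]
    have := Fintype.ofFinite K
    rw [Nat.card_eq_fintype_card, Nat.card_eq_fintype_card, Fintype.card_subtype_compl,
      Fintype.card_subtype_eq]
  have hrange : Nat.card φ.range = w σ := by
    unfold w
    refine Nat.card_congr (Equiv.ofBijective (fun y => (⟨((y.1 : Kˣ) : K), ?_⟩ :
        {x : K | x * σ x = 1})) ⟨?_, ?_⟩)
    · obtain ⟨u, hu⟩ := y.2
      rw [← hu]
      change ((u / Units.map (σ : K →* K) u : Kˣ) : K) *
        σ ((u / Units.map (σ : K →* K) u : Kˣ) : K) = 1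
      rw [Units.val_div_eq_div_val]
      change (u : K) / σ u * σ ((u : K) / σ u) = 1
      have h5 : σ (u : K) ≠ 0 := fun h => u.ne_zero ((map_eq_zero σ).mp h)
      have h6 : (u : K) ≠ 0 := u.ne_zero
      rw [map_div₀, hσ]
      field_simp
    · intro a b hab
      simp only [Subtype.mk.injEq] at hab
      exact Subtype.ext (Units.ext hab)
    · rintro ⟨x, hx⟩
      rw [Set.mem_ofPred_eq] at hx
      have key : ∃ y : K, y ≠ 0 ∧ y / σ y = x := by
        by_cases hx1 : x = -1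
        · exact ⟨θ, hθ, by rw [hx1, hθ']; field_simp⟩
        · have hy : (1 : K) + x ≠ 0 := fun h => hx1 (by linear_combination h)
          refine ⟨1 + x, hy, ?_⟩
          have hsy : σ (1 + x) ≠ 0 := fun h => hy ((map_eq_zero σ).mp h)
          rw [div_eq_iff hsy, map_add, map_one, mul_add, mul_one, hx, add_comm]
      obtain ⟨y, hy0, hy⟩ := key
      refine ⟨⟨φ (Units.mk0 y hy0), ⟨_, rfl⟩⟩, Subtype.ext ?_⟩
      change ((Units.mk0 y hy0 / Units.map (σ : K →* K) (Units.mk0 y hy0) : Kˣ) : K) = x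
      rw [Units.val_div_eq_div_val]
      exact hy
  have hK : Nat.card Kˣ = q σ * q σ - 1 := by
    rw [← card_K hσ h2 hne]
    have := Fintype.ofFinite K
    rw [Nat.card_eq_fintype_card, Nat.card_eq_fintype_card, Fintype.card_units]
  rw [hker, hrange, hK] at h1
  have hq2 : 2 ≤ q σ := by
    unfold q
    have : Nontrivial {x : K | σ x = x} :=
      ⟨⟨⟨0, map_zero σ⟩, ⟨1, map_one σ⟩, fun h => zero_ne_one (congrArg Subtype.val h)⟩⟩
    exact Finite.one_lt_card
  obtain ⟨r, hr⟩ : ∃ r, q σ = r + 2 := ⟨q σ - 2, by omega⟩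
  rw [hr] at h1 ⊢
  have e1 : (r + 2) * (r + 2) - 1 = (r + 1) * (r + 3) := by
    have : (r + 2) * (r + 2) = (r + 1) * (r + 3) + 1 := by ring
    omega
  rw [e1, show r + 2 - 1 = r + 1 by omega] at h1
  exact Nat.eq_of_mul_eq_mul_left (Nat.succ_pos r) h1

end cards

end Crest.Agent.R289.SkewGrp877
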