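import Crest.Agent.R289.ExpTr_820
import Crest.Agent.R289.SkewDim_877

/-!
Row 289, block B1: the concrete elements `π_i = τ² + b_i τ + c_i` as units of `R σ k`, the
elements `t_i = π_{i₀}⁻¹ π_i` of the norm-one group and the number of their closed words.
-/

set_option autoImplicit false

namespace Crest.Agent.R289.Exp820

open Polynomial Sk TraceM962 SkewGrp877

section units

variable {K : Type*} [Field K] {σ : K →+* K} {k : ℕ}

theorem J_pow {y : R σ k} (hy : J 1 y) : ∀ n : ℕ, J n (y ^ n)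
  | 0 => J_zero _
  | n + 1 => by
    rw [pow_succ]
    exact (J_pow hy n).mul hy

theorem c_mul_zero (f g : R σ k) : c (f * g) 0 = c f 0 * c g 0 := by
  rw [c_mul _ _ (Nat.zero_le _)]
  simp

theorem isUnit_of_const {f : R σ k} (hf : c f 0 ≠ 0) : IsUnit f := by
  set a := c f 0 with ha
  have h1 : (mono 0 a : R σ k) * mono 0 a⁻¹ = 1 := by
    rw [mono_zero_mul, mul_inv_cancel₀ hf, mono_zero_one]
  have h2 : (mono 0 a⁻¹ : R σ k) * mono 0 a = 1 := by
    rw [mono_zero_mul, inv_mul_cancel₀ hf, mono_zero_one]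
  have hy : J 1 (f * mono 0 a⁻¹ - 1) := by
    intro n hn
    have hn0 : n = 0 := by omega
    subst hn0
    rw [c_sub, c_mul_zero, c_mono _ _ (Nat.zero_le _), if_pos rfl, c_one (Nat.zero_le _),
      if_pos rfl, ← ha, mul_inv_cancel₀ hf, sub_self]
  have hnil : IsNilpotent (f * mono 0 a⁻¹ - 1) :=
    ⟨k + 1, (J_pow hy (k + 1)).eq_zero (Nat.lt_succ_self k)⟩
  have hu : IsUnit (f * mono 0 a⁻¹) := by
    have := hnil.isUnit_one_add
    rwa [add_sub_cancel] at this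
  have hv : IsUnit (mono 0 a : R σ k) := ⟨⟨mono 0 a, mono 0 a⁻¹, h1, h2⟩, rfl⟩
  have e : f = f * mono 0 a⁻¹ * mono 0 a := by rw [mul_assoc, h2, mul_one]
  rw [e]
  exact hu.mul hv

theorem conj_mul_N (r : Sk σ) : Sk.conj r * r = ⟨N r, 0⟩ := by
  ext1
  · simp only [mul_re, Sk.conj, N]
    ring
  · simp only [mul_im, Sk.conj]
    ring

end units

section pis

variable {K : Type*} [Field K] {σ : K →+* K} {x : K} {ι : Type*}

/-- `π_i` -/
noncomputable def pil (σ : K →+* K) (cc bb : ι → K) (i : ι) : Sk σ := ⟨X + C (cc i), C (bb i)⟩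

/-- `π_i` in the truncated ring: `c_i + b_i τ + τ²` -/
def pev (σ : K →+* K) (cc bb : ι → K) (k : ℕ) (i : ι) : R σ k :=
  mk fun n => if n = 0 then cc i else if n = 1 then bb i else if n = 2 then 1 else 0

theorem tr_pil (cc bb : ι → K) (k : ℕ) (i : ι) : tr k (pil σ cc bb i) = pev σ cc bb k i := by
  refine ext' fun n hn => ?_
  rw [c_tr _ hn, pev, c_mk _ hn]
  rcases Nat.even_or_odd' n with ⟨m, rfl | rfl⟩
  · rw [cf_even]
    change (X + C (cc i)).coeff m = _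
    rw [coeff_add, coeff_X, coeff_C]
    rcases Nat.lt_or_ge m 2 with h | h
    · interval_cases m <;> simp
    · rw [if_neg (by omega), if_neg (by omega), if_neg (by omega), if_neg (by omega),
        if_neg (by omega), add_zero]
  · rw [cf_odd]
    change (C (bb i)).coeff m = _
    rw [coeff_C]
    by_cases h : m = 0
    · simp [h]
    · rw [if_neg h, if_neg (by omega), if_neg (by omega), if_neg (by omega)]

open scoped Classical in
/-- `π_i` as a unit of `R σ k` -/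
noncomputable def pe (σ : K →+* K) (cc bb : ι → K) (k : ℕ) (i : ι) : (R σ k)ˣ :=
  if h : IsUnit (pev σ cc bb k i) then h.unit else 1

/-- the two equations of `π_i` -/
def PMem (σ : K →+* K) (x : K) (cc bb : ι → K) : Prop := ∀ i,
  cc i * σ (cc i) = x * σ x ∧ bb i * σ (bb i) = cc i + σ (cc i) + (x + σ x)

variable {cc bb : ι → K}

theorem isPi_pil (hm : PMem σ x cc bb) (i : ι) : IsPi σ x (pil σ cc bb i) :=
  ⟨cc i, bb i, rfl, (N_lin_eq_iff _ _).2 (hm i)⟩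

theorem pil_injective (hinj : Function.Injective fun i => (cc i, bb i)) :
    Function.Injective (pil σ cc bb) := by
  intro i j h
  apply hinj
  have h1 := congrArg (fun r : Sk σ => r.re.coeff 0) h
  have h2 := congrArg (fun r : Sk σ => r.im.coeff 0) h
  simp [pil] at h1 h2
  exact Prod.ext h1 h2

theorem pe_val (hx0 : x ≠ 0) (hm : PMem σ x cc bb) (k : ℕ) (i : ι) :
    ((pe σ cc bb k i : (R σ k)ˣ) : R σ k) = pev σ cc bb k i := by
  have hc : c (pev σ cc bb k i) 0 ≠ 0 := by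
    rw [pev, c_mk _ (Nat.zero_le _), if_pos rfl]
    intro h
    have := (hm i).1
    rw [h, zero_mul] at this
    exact (mul_ne_zero hx0 ((map_ne_zero σ).2 hx0)) this.symm
  have hu := isUnit_of_const hc
  rw [pe, dif_pos hu]
  rfl

theorem pe_val' (hx0 : x ≠ 0) (hm : PMem σ x cc bb) (k : ℕ) (i : ι) :
    ((pe σ cc bb k i : (R σ k)ˣ) : R σ k) = tr k (pil σ cc bb i) := by
  rw [pe_val hx0 hm, tr_pil]

theorem pe_mul_conj (hσ : ∀ a, σ (σ a) = a) (hx0 : x ≠ 0) (hm : PMem σ x cc bb) (k : ℕ) (i : ι) :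
    ((pe σ cc bb k i : (R σ k)ˣ) : R σ k) * SkewGrp877.conj ((pe σ cc bb k i : (R σ k)ˣ) : R σ k) =
      tr k (⟨XX σ x, 0⟩ : Sk σ) := by
  rw [pe_val' hx0 hm, ← tr_conj hσ, ← tr_mul hσ, mul_conj_N hσ,
    show N (pil σ cc bb i) = XX σ x from (N_lin_eq_iff _ _).2 (hm i)]

theorem pe_conj_mul (hσ : ∀ a, σ (σ a) = a) (hx0 : x ≠ 0) (hm : PMem σ x cc bb) (k : ℕ) (i : ι) :
    SkewGrp877.conj ((pe σ cc bb k i : (R σ k)ˣ) : R σ k) * ((pe σ cc bb k i : (R σ k)ˣ) : R σ k) =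
      tr k (⟨XX σ x, 0⟩ : Sk σ) := by
  rw [pe_val' hx0 hm, ← tr_conj hσ, ← tr_mul hσ, conj_mul_N,
    show N (pil σ cc bb i) = XX σ x from (N_lin_eq_iff _ _).2 (hm i)]

/-- `π_i⁻¹ π_j` has norm one -/
theorem pe_mem_SG (hσ : ∀ a, σ (σ a) = a) (hx0 : x ≠ 0) (hm : PMem σ x cc bb) (k : ℕ) (i j : ι) :
    (pe σ cc bb k i)⁻¹ * pe σ cc bb k j ∈ SG hσ k := by
  rw [mem_SG hσ, Units.val_mul, SkewGrp877.conj_mul hσ]
  have h1 := pe_mul_conj hσ hx0 hm k j
  have h2 := pe_conj_mul hσ hx0 hm k i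
  have hz := tr_central (k := k) hσ (sg_XX (x := x) hσ)
    (((pe σ cc bb k i)⁻¹ : (R σ k)ˣ) : R σ k)
  set u : R σ k := ((pe σ cc bb k i : (R σ k)ˣ) : R σ k) with hu
  set v : R σ k := ((pe σ cc bb k j : (R σ k)ˣ) : R σ k) with hv
  set w : R σ k := (((pe σ cc bb k i)⁻¹ : (R σ k)ˣ) : R σ k) with hw
  have huw : u * w = 1 := Units.mul_inv _
  have hwu : w * u = 1 := Units.inv_mul _
  calc w * v * (SkewGrp877.conj v * SkewGrp877.conj w)
      = w * (v * SkewGrp877.conj v) * SkewGrp877.conj w := by simp only [mul_assoc]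
    _ = w * tr k (⟨XX σ x, 0⟩ : Sk σ) * SkewGrp877.conj w := by rw [h1]
    _ = tr k (⟨XX σ x, 0⟩ : Sk σ) * w * SkewGrp877.conj w := by rw [hz.eq]
    _ = SkewGrp877.conj u * (u * w) * SkewGrp877.conj w := by rw [← h2]; simp only [mul_assoc]
    _ = SkewGrp877.conj u * SkewGrp877.conj w := by rw [huw, mul_one]
    _ = SkewGrp877.conj (w * u) := by rw [SkewGrp877.conj_mul hσ]
    _ = 1 := by rw [hwu, SkewGrp877.conj_one]

/-- `t_i = π_{i₀}⁻¹ π_i` -/
noncomputable def tk (hσ : ∀ a, σ (σ a) = a) (hx0 : x ≠ 0) (hm : PMem σ x cc bb) (i₀ : ι) (k : ℕ)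
    (i : ι) : SG hσ k := ⟨(pe σ cc bb k i₀)⁻¹ * pe σ cc bb k i, pe_mem_SG hσ hx0 hm k i₀ i⟩

theorem tk_val (hσ : ∀ a, σ (σ a) = a) (hx0 : x ≠ 0) (hm : PMem σ x cc bb) (i₀ : ι) (k : ℕ)
    (i : ι) : ((tk hσ hx0 hm i₀ k i : SG hσ k) : (R σ k)ˣ) =
      (pe σ cc bb k i₀)⁻¹ * pe σ cc bb k i := rfl

variable [Fintype K] {q : ℕ} [Fintype ι]

/-- **number of closed words**, any group `Γ` mapping to the unit group, elements
`a π_i b` -/
theorem closedWords_pe (hc : Fintype.card K = q ^ 2) (hσq : ∀ a, σ a = a ^ q) (hq : 2 ≤ q)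
    (h2 : (2 : K) ≠ 0) (hx : σ x ≠ x) (hm : PMem σ x cc bb)
    (hinj : Function.Injective fun i => (cc i, bb i)) {k : ℕ}
    {Γ : Type*} [Group Γ] [DecidableEq Γ] (f : Γ →* (R σ k)ˣ) (t : ι → Γ) (a b : (R σ k)ˣ)
    (ht : ∀ i, f (t i) = a * pe σ cc bb k i * b) (l : ℕ) :
    closedWords t l * q ^ (k + 1 + (k / 2 + 1)) ≤
      4 ^ l * (q ^ 2 + 1) ^ l * q ^ (k + 1 + (k / 2 + 1)) +
        l * (64 ^ l * (q + 1) * (q ^ 2 + 1) ^ (2 * l)) := by
  have hx0 : x ≠ 0 := by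
    rintro rfl
    exact hx (map_zero σ)
  refine closedWords_trunc hc hσq hq h2 hx f t a b (pil_injective hinj) (isPi_pil hm)
    (fun i => ?_) l
  rw [ht, Units.val_mul, Units.val_mul, pe_val' hx0 hm]

/-- **number of closed words** for `t_i = π_{i₀}⁻¹ π_i` in `SG` -/
theorem closedWords_tk (hc : Fintype.card K = q ^ 2) (hσq : ∀ a, σ a = a ^ q) (hq : 2 ≤ q)
    (h2 : (2 : K) ≠ 0) (hx : σ x ≠ x) (hσ : ∀ a, σ (σ a) = a) (hx0 : x ≠ 0)
    (hm : PMem σ x cc bb) (hinj : Function.Injective fun i => (cc i, bb i)) {k : ℕ} (i₀ : ι)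
    [DecidableEq (SG hσ k)] (l : ℕ) :
    closedWords (tk hσ hx0 hm i₀ k) l * q ^ (k + 1 + (k / 2 + 1)) ≤
      4 ^ l * (q ^ 2 + 1) ^ l * q ^ (k + 1 + (k / 2 + 1)) +
        l * (64 ^ l * (q + 1) * (q ^ 2 + 1) ^ (2 * l)) :=
  closedWords_pe hc hσq hq h2 hx hm hinj (SG hσ k).subtype _ (pe σ cc bb k i₀)⁻¹ 1
    (fun i => by rw [mul_one]; rfl) l

end pis

end Crest.Agent.R289.Exp820
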