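import Mathlib

/-!
Row 289, block B, leaf B3 (helper595, post #5449): two-place local testability.

An abstract square complex with expanding vertex graphs and agreement-testable local codes:
a function on the squares with few bad vertices is close to a code word.  No linearity is used.
-/

set_option autoImplicit false
set_option linter.unusedSectionVars false

namespace Crest.Agent.R289.TwoPlace595

open Finset
open scoped Classical

/-- a square complex: vertices `V i j`, horizontal edges `Eh j` (joining `V false j`, `V true j`),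
vertical edges `Ev i` (joining `V i false`, `V i true`), squares `S`. -/
structure SqC (V : Bool → Bool → Type*) (Eh Ev : Bool → Type*) (S : Type*)
    [∀ i j, Fintype (V i j)] [∀ j, Fintype (Eh j)] [∀ i, Fintype (Ev i)] [Fintype S]
    (n N : ℕ) where
  hv : ∀ i j, Eh j → V i j
  vv : ∀ i j, Ev i → V i j
  eh : ∀ j, S → Eh j
  ev : ∀ i, S → Ev i
  comp : ∀ i j σ, hv i j (eh j σ) = vv i j (ev i σ)
  uniq : ∀ i j (e : Eh j) (f : Ev i), hv i j e = vv i j f → ∃! σ, eh j σ = e ∧ ev i σ = f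
  regh : ∀ i j (v : V i j), (univ.filter fun e : Eh j => hv i j e = v).card = n
  regv : ∀ i j (v : V i j), (univ.filter fun f : Ev i => vv i j f = v).card = n
  cardV : ∀ i j, Fintype.card (V i j) = N

variable {V : Bool → Bool → Type*} {Eh Ev : Bool → Type*} {S : Type*}
    [∀ i j, Fintype (V i j)] [∀ j, Fintype (Eh j)] [∀ i, Fintype (Ev i)] [Fintype S]
    {n N : ℕ} (C : SqC V Eh Ev S n N) {K : Type*}

/-- the vertex of type `(i,j)` of a square -/
def SqC.vt (i j : Bool) (σ : S) : V i j := C.hv i j (C.eh j σ)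

theorem SqC.vt_eq (i j : Bool) (σ : S) : C.vt i j σ = C.vv i j (C.ev i σ) := C.comp i j σ

/-- local codes on the edges; only the values on the squares of the edge matter -/
structure Codes (K : Type*) where
  okh : ∀ j, Eh j → (S → K) → Prop
  okv : ∀ i, Ev i → (S → K) → Prop
  okh_congr : ∀ j e (x y : S → K), (∀ σ, C.eh j σ = e → x σ = y σ) → okh j e x → okh j e y
  okv_congr : ∀ i f (x y : S → K), (∀ σ, C.ev i σ = f → x σ = y σ) → okv i f x → okv i f y

variable {C}

/-- the vertex code -/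
def Codes.okV (A : Codes C K) (i j : Bool) (v : V i j) (x : S → K) : Prop :=
  (∀ e, C.hv i j e = v → A.okh j e x) ∧ (∀ f, C.vv i j f = v → A.okv i f x)

theorem Codes.okV_congr (A : Codes C K) (i j : Bool) (v : V i j) (x y : S → K)
    (h : ∀ σ, C.vt i j σ = v → x σ = y σ) (hx : A.okV i j v x) : A.okV i j v y := by
  refine ⟨fun e he => A.okh_congr j e x y (fun σ hσ => h σ ?_) (hx.1 e he),
    fun f hf => A.okv_congr i f x y (fun σ hσ => h σ ?_) (hx.2 f hf)⟩
  · rw [SqC.vt, hσ, he]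
  · rw [SqC.vt_eq, hσ, hf]

/-- agreement testability with constant `κ` at every vertex -/
def Codes.AT (A : Codes C K) (κ : ℕ) : Prop :=
  ∀ i j (v : V i j) (R : Eh j → S → K) (Q : Ev i → S → K),
    (∀ e, C.hv i j e = v → A.okh j e (R e)) → (∀ f, C.vv i j f = v → A.okv i f (Q f)) →
    ∃ t : S → K, A.okV i j v t ∧
      n * ((univ.filter fun e : Eh j => C.hv i j e = v ∧ ∃ σ, C.eh j σ = e ∧ t σ ≠ R e σ).card +
        (univ.filter fun f : Ev i => C.vv i j f = v ∧ ∃ σ, C.ev i σ = f ∧ t σ ≠ Q f σ).card) ≤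
      κ * (univ.filter fun σ : S => C.vt i j σ = v ∧
        R (C.eh j σ) σ ≠ Q (C.ev i σ) σ).card

/-- expansion of the vertical graphs: adjacency operator on sum-zero functions -/
def ExpV (C : SqC V Eh Ev S n N) (Λ : ℝ) : Prop :=
  ∀ i j (x : V i (!j) → ℝ), ∑ w, x w = 0 →
    ∑ v : V i j, (∑ f ∈ univ.filter (fun f : Ev i => C.vv i j f = v), x (C.vv i (!j) f)) ^ 2 ≤
      Λ * ∑ w, x w ^ 2

/-- expansion of the horizontal graphs -/
def ExpH (C : SqC V Eh Ev S n N) (Λ : ℝ) : Prop :=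
  ∀ i j (x : V (!i) j → ℝ), ∑ w, x w = 0 →
    ∑ v : V i j, (∑ e ∈ univ.filter (fun e : Eh j => C.hv i j e = v), x (C.hv (!i) j e)) ^ 2 ≤
      Λ * ∑ w, x w ^ 2

/-! ### assignments and disputed edges -/

/-- all vertices -/
abbrev W (V : Bool → Bool → Type*) := Σ p : Bool × Bool, V p.1 p.2

/-- the horizontal edge `e` is disputed -/
def Dh (C : SqC V Eh Ev S n N) (T : W V → S → K) (j : Bool) (e : Eh j) : Prop :=
  ∃ σ, C.eh j σ = e ∧ T ⟨(false, j), C.hv false j e⟩ σ ≠ T ⟨(true, j), C.hv true j e⟩ σ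

def Dv (C : SqC V Eh Ev S n N) (T : W V → S → K) (i : Bool) (f : Ev i) : Prop :=
  ∃ σ, C.ev i σ = f ∧ T ⟨(i, false), C.vv i false f⟩ σ ≠ T ⟨(i, true), C.vv i true f⟩ σ

theorem Dh_iff (T : W V → S → K) (i j : Bool) (e : Eh j) :
    Dh C T j e ↔ ∃ σ, C.eh j σ = e ∧
      T ⟨(i, j), C.hv i j e⟩ σ ≠ T ⟨(!i, j), C.hv (!i) j e⟩ σ := by
  cases i
  · exact Iff.rfl
  · constructor
    · rintro ⟨σ, h1, h2⟩; exact ⟨σ, h1, fun h => h2 h.symm⟩
    · rintro ⟨σ, h1, h2⟩; exact ⟨σ, h1, fun h => h2 h.symm⟩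

theorem Dv_iff (T : W V → S → K) (i j : Bool) (f : Ev i) :
    Dv C T i f ↔ ∃ σ, C.ev i σ = f ∧
      T ⟨(i, j), C.vv i j f⟩ σ ≠ T ⟨(i, !j), C.vv i (!j) f⟩ σ := by
  cases j
  · exact Iff.rfl
  · constructor
    · rintro ⟨σ, h1, h2⟩; exact ⟨σ, h1, fun h => h2 h.symm⟩
    · rintro ⟨σ, h1, h2⟩; exact ⟨σ, h1, fun h => h2 h.symm⟩

/-- disputed horizontal degree -/
noncomputable def dh (C : SqC V Eh Ev S n N) (T : W V → S → K) (i j : Bool) (v : V i j) : ℕ :=
  (univ.filter fun e : Eh j => C.hv i j e = v ∧ Dh C T j e).card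

noncomputable def dv (C : SqC V Eh Ev S n N) (T : W V → S → K) (i j : Bool) (v : V i j) : ℕ :=
  (univ.filter fun f : Ev i => C.vv i j f = v ∧ Dv C T i f).card

/-- number of disputed edges -/
noncomputable def DD (C : SqC V Eh Ev S n N) (T : W V → S → K) : ℕ :=
  (∑ j, (univ.filter fun e : Eh j => Dh C T j e).card) +
    ∑ i, (univ.filter fun f : Ev i => Dv C T i f).card

/-- validity -/
def Valid (A : Codes C K) (T : W V → S → K) : Prop := ∀ i j (v : V i j), A.okV i j v (T ⟨(i, j), v⟩)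

/-- number of changed vertices -/
noncomputable def chg (T0 T : W V → S → K) : ℕ := (univ.filter fun w : W V => T w ≠ T0 w).card

theorem update_same (T : W V → S → K) (i j : Bool) (v : V i j) (t : S → K) :
    Function.update T ⟨(i, j), v⟩ t ⟨(i, j), v⟩ = t := Function.update_self _ _ _

theorem update_fst (T : W V → S → K) {p q : Bool × Bool} (h : q ≠ p) (v : V p.1 p.2)
    (u : V q.1 q.2) (t : S → K) :
    Function.update T ⟨p, v⟩ t ⟨q, u⟩ = T ⟨q, u⟩ := by
  rw [Function.update_of_ne]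
  intro h'
  exact h (congrArg Sigma.fst h')

theorem update_snd (T : W V → S → K) {i j : Bool} {v u : V i j} (h : u ≠ v) (t : S → K) :
    Function.update T ⟨(i, j), v⟩ t ⟨(i, j), u⟩ = T ⟨(i, j), u⟩ := by
  rw [Function.update_of_ne]
  intro h'
  exact h (eq_of_heq (Sigma.mk.inj h').2)

theorem chg_update (T0 T : W V → S → K) (w : W V) (t : S → K) :
    chg T0 (Function.update T w t) ≤ chg T0 T + 1 := by
  unfold chg
  have : (univ.filter fun w' : W V => Function.update T w t w' ≠ T0 w') ⊆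
      insert w (univ.filter fun w' : W V => T w' ≠ T0 w') := by
    intro w' hw'
    rw [mem_filter] at hw'
    rw [mem_insert, mem_filter]
    by_cases h : w' = w
    · exact Or.inl h
    · right
      refine ⟨mem_univ _, ?_⟩
      have := hw'.2
      rwa [Function.update_of_ne h] at this
  exact (card_le_card this).trans (card_insert_le _ _)

/-- splitting a counted set along a vertex -/
theorem card_split {E : Type*} [Fintype E] (P Q : E → Prop) :
    (univ.filter fun e : E => P e).card =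
      (univ.filter fun e : E => Q e ∧ P e).card + (univ.filter fun e : E => ¬ Q e ∧ P e).card := by
  rw [← card_union_of_disjoint]
  · congr 1
    ext e
    simp only [mem_filter, mem_union, mem_univ, true_and]
    tauto
  · rw [disjoint_filter]
    intro e _ h1 h2
    exact h2.1 h1.1

/-- effect of an update on the horizontal edges -/
theorem Dh_update (T : W V → S → K) (i j : Bool) (v : V i j) (t : S → K) :
    (∑ j', (univ.filter fun e : Eh j' => Dh C (Function.update T ⟨(i, j), v⟩ t) j' e).card) +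
        dh C T i j v =
      (∑ j', (univ.filter fun e : Eh j' => Dh C T j' e).card) +
        (univ.filter fun e : Eh j => C.hv i j e = v ∧
          ∃ σ, C.eh j σ = e ∧ t σ ≠ T ⟨(!i, j), C.hv (!i) j e⟩ σ).card := by
  have hother : ∀ j', j' ≠ j → ∀ e : Eh j',
      (Dh C (Function.update T ⟨(i, j), v⟩ t) j' e ↔ Dh C T j' e) := by
    intro j' hj e
    unfold Dh
    rw [update_fst T (p := (i, j)) (q := (false, j')) (fun h => hj (congrArg Prod.snd h)),
      update_fst T (p := (i, j)) (q := (true, j')) (fun h => hj (congrArg Prod.snd h))]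
  have hnot : ∀ e : Eh j, ¬ C.hv i j e = v →
      (Dh C (Function.update T ⟨(i, j), v⟩ t) j e ↔ Dh C T j e) := by
    intro e he
    rw [Dh_iff _ i, Dh_iff _ i, update_snd T he,
      update_fst T (p := (i, j)) (q := (!i, j)) (fun h => by
        have := congrArg Prod.fst h; simp at this)]
  have hat : ∀ e : Eh j, C.hv i j e = v →
      (Dh C (Function.update T ⟨(i, j), v⟩ t) j e ↔
        ∃ σ, C.eh j σ = e ∧ t σ ≠ T ⟨(!i, j), C.hv (!i) j e⟩ σ) := by
    intro e he
    rw [Dh_iff _ i, he, update_same,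
      update_fst T (p := (i, j)) (q := (!i, j)) (fun h => by
        have := congrArg Prod.fst h; simp at this)]
  have key : (univ.filter fun e : Eh j => Dh C (Function.update T ⟨(i, j), v⟩ t) j e).card +
      dh C T i j v = (univ.filter fun e : Eh j => Dh C T j e).card +
        (univ.filter fun e : Eh j => C.hv i j e = v ∧
          ∃ σ, C.eh j σ = e ∧ t σ ≠ T ⟨(!i, j), C.hv (!i) j e⟩ σ).card := by
    rw [card_split (fun e : Eh j => Dh C (Function.update T ⟨(i, j), v⟩ t) j e)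
      (fun e => C.hv i j e = v), card_split (fun e : Eh j => Dh C T j e)
      (fun e => C.hv i j e = v)]
    have e1 : (univ.filter fun e : Eh j => C.hv i j e = v ∧
        Dh C (Function.update T ⟨(i, j), v⟩ t) j e) = (univ.filter fun e : Eh j =>
          C.hv i j e = v ∧ ∃ σ, C.eh j σ = e ∧ t σ ≠ T ⟨(!i, j), C.hv (!i) j e⟩ σ) := by
      apply filter_congr
      intro e _
      constructor
      · rintro ⟨h1, h2⟩; exact ⟨h1, (hat e h1).1 h2⟩
      · rintro ⟨h1, h2⟩; exact ⟨h1, (hat e h1).2 h2⟩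
    have e2 : (univ.filter fun e : Eh j => ¬ C.hv i j e = v ∧
        Dh C (Function.update T ⟨(i, j), v⟩ t) j e) = (univ.filter fun e : Eh j =>
          ¬ C.hv i j e = v ∧ Dh C T j e) := by
      apply filter_congr
      intro e _
      constructor
      · rintro ⟨h1, h2⟩; exact ⟨h1, (hnot e h1).1 h2⟩
      · rintro ⟨h1, h2⟩; exact ⟨h1, (hnot e h1).2 h2⟩
    rw [e1, e2]
    unfold dh
    ring
  have ho : (univ.filter fun e : Eh (!j) =>
      Dh C (Function.update T ⟨(i, j), v⟩ t) (!j) e).card =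
      (univ.filter fun e : Eh (!j) => Dh C T (!j) e).card := by
    congr 1
    apply filter_congr
    intro e _
    exact hother (!j) (by simp) e
  have hsum : ∀ F : Bool → ℕ, ∑ j', F j' = F j + F (!j) := by
    intro F
    rw [Fintype.sum_bool]
    cases j
    · simp [add_comm]
    · simp
  rw [hsum, hsum (fun j' => (univ.filter fun e : Eh j' => Dh C T j' e).card)]
  omega

/-- effect of an update on the vertical edges -/
theorem Dv_update (T : W V → S → K) (i j : Bool) (v : V i j) (t : S → K) :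
    (∑ i', (univ.filter fun f : Ev i' => Dv C (Function.update T ⟨(i, j), v⟩ t) i' f).card) +
        dv C T i j v =
      (∑ i', (univ.filter fun f : Ev i' => Dv C T i' f).card) +
        (univ.filter fun f : Ev i => C.vv i j f = v ∧
          ∃ σ, C.ev i σ = f ∧ t σ ≠ T ⟨(i, !j), C.vv i (!j) f⟩ σ).card := by
  have hother : ∀ i', i' ≠ i → ∀ f : Ev i',
      (Dv C (Function.update T ⟨(i, j), v⟩ t) i' f ↔ Dv C T i' f) := by
    intro i' hi f
    unfold Dv
    rw [update_fst T (p := (i, j)) (q := (i', false)) (fun h => hi (congrArg Prod.fst h)),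
      update_fst T (p := (i, j)) (q := (i', true)) (fun h => hi (congrArg Prod.fst h))]
  have hnot : ∀ f : Ev i, ¬ C.vv i j f = v →
      (Dv C (Function.update T ⟨(i, j), v⟩ t) i f ↔ Dv C T i f) := by
    intro f hf
    rw [Dv_iff _ i j, Dv_iff _ i j, update_snd T hf,
      update_fst T (p := (i, j)) (q := (i, !j)) (fun h => by
        have := congrArg Prod.snd h; simp at this)]
  have hat : ∀ f : Ev i, C.vv i j f = v →
      (Dv C (Function.update T ⟨(i, j), v⟩ t) i f ↔
        ∃ σ, C.ev i σ = f ∧ t σ ≠ T ⟨(i, !j), C.vv i (!j) f⟩ σ) := by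
    intro f hf
    rw [Dv_iff _ i j, hf, update_same,
      update_fst T (p := (i, j)) (q := (i, !j)) (fun h => by
        have := congrArg Prod.snd h; simp at this)]
  have key : (univ.filter fun f : Ev i => Dv C (Function.update T ⟨(i, j), v⟩ t) i f).card +
      dv C T i j v = (univ.filter fun f : Ev i => Dv C T i f).card +
        (univ.filter fun f : Ev i => C.vv i j f = v ∧
          ∃ σ, C.ev i σ = f ∧ t σ ≠ T ⟨(i, !j), C.vv i (!j) f⟩ σ).card := by
    rw [card_split (fun f : Ev i => Dv C (Function.update T ⟨(i, j), v⟩ t) i f)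
      (fun f => C.vv i j f = v), card_split (fun f : Ev i => Dv C T i f)
      (fun f => C.vv i j f = v)]
    have e1 : (univ.filter fun f : Ev i => C.vv i j f = v ∧
        Dv C (Function.update T ⟨(i, j), v⟩ t) i f) = (univ.filter fun f : Ev i =>
          C.vv i j f = v ∧ ∃ σ, C.ev i σ = f ∧ t σ ≠ T ⟨(i, !j), C.vv i (!j) f⟩ σ) := by
      apply filter_congr
      intro f _
      constructor
      · rintro ⟨h1, h2⟩; exact ⟨h1, (hat f h1).1 h2⟩
      · rintro ⟨h1, h2⟩; exact ⟨h1, (hat f h1).2 h2⟩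
    have e2 : (univ.filter fun f : Ev i => ¬ C.vv i j f = v ∧
        Dv C (Function.update T ⟨(i, j), v⟩ t) i f) = (univ.filter fun f : Ev i =>
          ¬ C.vv i j f = v ∧ Dv C T i f) := by
      apply filter_congr
      intro f _
      constructor
      · rintro ⟨h1, h2⟩; exact ⟨h1, (hnot f h1).1 h2⟩
      · rintro ⟨h1, h2⟩; exact ⟨h1, (hnot f h1).2 h2⟩
    rw [e1, e2]
    unfold dv
    ring
  have ho : (univ.filter fun f : Ev (!i) =>
      Dv C (Function.update T ⟨(i, j), v⟩ t) (!i) f).card =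
      (univ.filter fun f : Ev (!i) => Dv C T (!i) f).card := by
    congr 1
    apply filter_congr
    intro f _
    exact hother (!i) (by simp) f
  have hsum : ∀ F : Bool → ℕ, ∑ i', F i' = F i + F (!i) := by
    intro F
    rw [Fintype.sum_bool]
    cases i
    · simp [add_comm]
    · simp
  rw [hsum, hsum (fun i' => (univ.filter fun f : Ev i' => Dv C T i' f).card)]
  omega

/-! ### the local inequality -/

theorem valid_update (A : Codes C K) {T : W V → S → K} (hT : Valid A T) (i j : Bool) (v : V i j)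
    (t : S → K) (ht : A.okV i j v t) : Valid A (Function.update T ⟨(i, j), v⟩ t) := by
  intro i' j' v'
  by_cases h : (⟨(i', j'), v'⟩ : W V) = ⟨(i, j), v⟩
  · cases h
    rw [Function.update_self]
    exact ht
  · rw [Function.update_of_ne h]
    exact hT i' j' v'

theorem card_sq_h (T : W V → S → K) (i j : Bool) (v : V i j) :
    (univ.filter fun σ : S => C.vt i j σ = v ∧ Dh C T (!j) (C.eh (!j) σ)).card ≤
      ∑ f ∈ univ.filter (fun f : Ev i => C.vv i j f = v), dh C T i (!j) (C.vv i (!j) f) := by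
  rw [card_eq_sum_card_fiberwise (f := C.ev i)
    (t := univ.filter (fun f : Ev i => C.vv i j f = v))]
  · refine sum_le_sum fun f _ => ?_
    refine card_le_card_of_injOn (fun σ => C.eh (!j) σ) ?_ ?_
    · intro σ hσ
      have hσ' := (mem_filter.1 hσ)
      have h1 := (mem_filter.1 hσ'.1).2
      simp only [coe_filter, Set.mem_ofPred_eq, mem_univ, true_and]
      refine ⟨?_, h1.2⟩
      rw [C.comp i (!j) σ, hσ'.2]
    · intro σ hσ σ' hσ' h
      have h1 := (mem_filter.1 hσ).2
      have h1' := (mem_filter.1 hσ').2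
      have hu := C.uniq i (!j) (C.eh (!j) σ) f (by rw [C.comp i (!j) σ, h1])
      exact hu.unique ⟨rfl, h1⟩ ⟨h.symm, h1'⟩
  · intro σ hσ
    have h1 := (mem_filter.1 hσ).2
    simp only [coe_filter, Set.mem_ofPred_eq, mem_univ, true_and]
    rw [← C.vt_eq]
    exact h1.1

theorem card_sq_v (T : W V → S → K) (i j : Bool) (v : V i j) :
    (univ.filter fun σ : S => C.vt i j σ = v ∧ Dv C T (!i) (C.ev (!i) σ)).card ≤
      ∑ e ∈ univ.filter (fun e : Eh j => C.hv i j e = v), dv C T (!i) j (C.hv (!i) j e) := by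
  rw [card_eq_sum_card_fiberwise (f := C.eh j)
    (t := univ.filter (fun e : Eh j => C.hv i j e = v))]
  · refine sum_le_sum fun e _ => ?_
    refine card_le_card_of_injOn (fun σ => C.ev (!i) σ) ?_ ?_
    · intro σ hσ
      have hσ' := (mem_filter.1 hσ)
      have h1 := (mem_filter.1 hσ'.1).2
      simp only [coe_filter, Set.mem_ofPred_eq, mem_univ, true_and]
      refine ⟨?_, h1.2⟩
      rw [← C.comp (!i) j σ, hσ'.2]
    · intro σ hσ σ' hσ' h
      have h1 := (mem_filter.1 hσ).2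
      have h1' := (mem_filter.1 hσ').2
      have hu := C.uniq (!i) j e (C.ev (!i) σ) (by rw [← C.comp (!i) j σ, h1])
      exact hu.unique ⟨h1, rfl⟩ ⟨h1', h.symm⟩
  · intro σ hσ
    have h1 := (mem_filter.1 hσ).2
    simp only [coe_filter, Set.mem_ofPred_eq, mem_univ, true_and]
    exact h1.1

/-- **the local inequality** for a minimal assignment -/
theorem local_ineq (A : Codes C K) {κ : ℕ} (hAT : A.AT κ) (T0 T : W V → S → K)
    (hT : Valid A T)
    (hmin : ∀ T' : W V → S → K, Valid A T' → 2 * DD C T + chg T0 T ≤ 2 * DD C T' + chg T0 T')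
    (i j : Bool) (v : V i j) :
    n * (dh C T i j v + dv C T i j v) ≤
      κ * ((∑ f ∈ univ.filter (fun f : Ev i => C.vv i j f = v),
          dh C T i (!j) (C.vv i (!j) f)) +
        ∑ e ∈ univ.filter (fun e : Eh j => C.hv i j e = v),
          dv C T (!i) j (C.hv (!i) j e)) := by
  obtain ⟨t, ht, hle⟩ := hAT i j v (fun e => T ⟨(!i, j), C.hv (!i) j e⟩)
    (fun f => T ⟨(i, !j), C.vv i (!j) f⟩)
    (fun e _ => (hT (!i) j _).1 e rfl) (fun f _ => (hT i (!j) _).2 f rfl)
  have h1 := hmin _ (valid_update A hT i j v t ht)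
  have h2 := chg_update T0 T ⟨(i, j), v⟩ t
  have h3 := Dh_update (C := C) T i j v t
  have h4 := Dv_update (C := C) T i j v t
  unfold DD at h1
  have h5 : dh C T i j v + dv C T i j v ≤
      (univ.filter fun e : Eh j => C.hv i j e = v ∧
          ∃ σ, C.eh j σ = e ∧ t σ ≠ T ⟨(!i, j), C.hv (!i) j e⟩ σ).card +
      (univ.filter fun f : Ev i => C.vv i j f = v ∧
          ∃ σ, C.ev i σ = f ∧ t σ ≠ T ⟨(i, !j), C.vv i (!j) f⟩ σ).card := by omega
  refine (Nat.mul_le_mul_left n h5).trans (hle.trans (Nat.mul_le_mul_left κ ?_))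
  refine le_trans ?_ (Nat.add_le_add (card_sq_h T i j v) (card_sq_v T i j v))
  refine le_trans (card_le_card ?_) (card_union_le _ _)
  intro σ hσ
  have hσ' := (mem_filter.1 hσ).2
  rw [mem_union, mem_filter, mem_filter]
  by_contra hcon
  push Not at hcon
  have c1 : ¬ Dh C T (!j) (C.eh (!j) σ) := fun h => hcon.1 (mem_univ _) hσ'.1 h
  have c2 : ¬ Dv C T (!i) (C.ev (!i) σ) := fun h => hcon.2 (mem_univ _) hσ'.1 h
  rw [Dh_iff _ i] at c1
  rw [Dv_iff _ (!i) j] at c2
  push Not at c1 c2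
  have d1 := c1 σ rfl
  have d2 := c2 σ rfl
  apply hσ'.2
  have e1 : T ⟨(!i, j), C.hv (!i) j (C.eh j σ)⟩ σ =
      T ⟨(!i, j), C.vv (!i) j (C.ev (!i) σ)⟩ σ := by rw [C.comp (!i) j σ]
  have e2 : T ⟨(i, !j), C.vv i (!j) (C.ev i σ)⟩ σ =
      T ⟨(i, !j), C.hv i (!j) (C.eh (!j) σ)⟩ σ := by rw [C.comp i (!j) σ]
  have e3 : T ⟨(!i, !j), C.vv (!i) (!j) (C.ev (!i) σ)⟩ σ =
      T ⟨(!i, !j), C.hv (!i) (!j) (C.eh (!j) σ)⟩ σ := by rw [C.comp (!i) (!j) σ]
  change T ⟨(!i, j), C.hv (!i) j (C.eh j σ)⟩ σ = T ⟨(i, !j), C.vv i (!j) (C.ev i σ)⟩ σ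
  rw [e1, e2, d2, e3, d1]

/-! ### expander mixing -/

theorem mixV {Λ : ℝ} (hΛ : 0 ≤ Λ) (hE : ExpV C Λ) (hN : 0 < N) (i j : Bool)
    (x : V i (!j) → ℝ) :
    ∑ v : V i j, (∑ f ∈ univ.filter (fun f : Ev i => C.vv i j f = v),
      x (C.vv i (!j) f)) ^ 2 ≤ (n : ℝ) ^ 2 * (∑ w, x w) ^ 2 / N + Λ * ∑ w, x w ^ 2 := by
  have hN' : (N : ℝ) ≠ 0 := by exact_mod_cast hN.ne'
  set s : ℝ := ∑ w, x w with hs
  set μ : ℝ := s / N with hμ
  have hNμ : (N : ℝ) * μ = s := by rw [hμ]; field_simp
  have hc1 : (Fintype.card (V i (!j)) : ℝ) = N := by rw [C.cardV]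
  have hc2 : (Fintype.card (V i j) : ℝ) = N := by rw [C.cardV]
  have hy : ∑ w, (x w - μ) = 0 := by
    rw [sum_sub_distrib, sum_const, card_univ, nsmul_eq_mul, hc1, hNμ, ← hs, sub_self]
  have h := hE i j (fun w => x w - μ) hy
  set a : V i j → ℝ := fun v => ∑ f ∈ univ.filter (fun f : Ev i => C.vv i j f = v),
      x (C.vv i (!j) f) with ha
  have h1 : ∀ v : V i j, ∑ f ∈ univ.filter (fun f : Ev i => C.vv i j f = v),
      (x (C.vv i (!j) f) - μ) = a v - n * μ := by
    intro v
    rw [sum_sub_distrib, sum_const, C.regv, nsmul_eq_mul]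
  have hsa : ∑ v, a v = n * s := by
    rw [ha]
    rw [sum_fiberwise univ (fun f : Ev i => C.vv i j f) (fun f => x (C.vv i (!j) f))]
    rw [← sum_fiberwise univ (fun f : Ev i => C.vv i (!j) f) (fun f => x (C.vv i (!j) f))]
    have : ∀ w : V i (!j), ∑ f ∈ univ.filter (fun f : Ev i => C.vv i (!j) f = w),
        x (C.vv i (!j) f) = n * x w := by
      intro w
      rw [sum_congr rfl (g := fun _ => x w)]
      · rw [sum_const, C.regv, nsmul_eq_mul]
      · intro f hf
        rw [(mem_filter.1 hf).2]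
    rw [sum_congr rfl fun w _ => this w, ← mul_sum]
  have h2 : ∑ v : V i j, (a v - n * μ) ^ 2 = ∑ v, a v ^ 2 - n ^ 2 * s ^ 2 / N := by
    have : ∀ v, (a v - n * μ) ^ 2 = a v ^ 2 - 2 * (n * μ) * a v + (n * μ) ^ 2 := fun v => by ring
    rw [sum_congr rfl fun v _ => this v, sum_add_distrib, sum_sub_distrib, ← mul_sum, hsa,
      sum_const, card_univ, nsmul_eq_mul, hc2, hμ]
    field_simp
    ring
  have h3 : ∑ w, (x w - μ) ^ 2 = ∑ w, x w ^ 2 - s ^ 2 / N := by
    have : ∀ w, (x w - μ) ^ 2 = x w ^ 2 - 2 * μ * x w + μ ^ 2 := fun w => by ring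
    rw [sum_congr rfl fun w _ => this w, sum_add_distrib, sum_sub_distrib, ← mul_sum, ← hs,
      sum_const, card_univ, nsmul_eq_mul, hc1, hμ]
    field_simp
    ring
  rw [sum_congr rfl fun v _ => by rw [h1 v], h2, h3] at h
  have h4 : 0 ≤ s ^ 2 / N := by positivity
  have h5 : 0 ≤ Λ * (s ^ 2 / N) := mul_nonneg hΛ h4
  have h6 : Λ * (∑ w, x w ^ 2 - s ^ 2 / N) = Λ * ∑ w, x w ^ 2 - Λ * (s ^ 2 / N) := by ring
  rw [h6] at h
  linarith

theorem mixH {Λ : ℝ} (hΛ : 0 ≤ Λ) (hE : ExpH C Λ) (hN : 0 < N) (i j : Bool)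
    (x : V (!i) j → ℝ) :
    ∑ v : V i j, (∑ e ∈ univ.filter (fun e : Eh j => C.hv i j e = v),
      x (C.hv (!i) j e)) ^ 2 ≤ (n : ℝ) ^ 2 * (∑ w, x w) ^ 2 / N + Λ * ∑ w, x w ^ 2 := by
  have hN' : (N : ℝ) ≠ 0 := by exact_mod_cast hN.ne'
  set s : ℝ := ∑ w, x w with hs
  set μ : ℝ := s / N with hμ
  have hNμ : (N : ℝ) * μ = s := by rw [hμ]; field_simp
  have hc1 : (Fintype.card (V (!i) j) : ℝ) = N := by rw [C.cardV]
  have hc2 : (Fintype.card (V i j) : ℝ) = N := by rw [C.cardV]
  have hy : ∑ w, (x w - μ) = 0 := by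
    rw [sum_sub_distrib, sum_const, card_univ, nsmul_eq_mul, hc1, hNμ, ← hs, sub_self]
  have h := hE i j (fun w => x w - μ) hy
  set a : V i j → ℝ := fun v => ∑ e ∈ univ.filter (fun e : Eh j => C.hv i j e = v),
      x (C.hv (!i) j e) with ha
  have h1 : ∀ v : V i j, ∑ e ∈ univ.filter (fun e : Eh j => C.hv i j e = v),
      (x (C.hv (!i) j e) - μ) = a v - n * μ := by
    intro v
    rw [sum_sub_distrib, sum_const, C.regh, nsmul_eq_mul]
  have hsa : ∑ v, a v = n * s := by
    rw [ha]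
    rw [sum_fiberwise univ (fun e : Eh j => C.hv i j e) (fun e => x (C.hv (!i) j e))]
    rw [← sum_fiberwise univ (fun e : Eh j => C.hv (!i) j e) (fun e => x (C.hv (!i) j e))]
    have : ∀ w : V (!i) j, ∑ e ∈ univ.filter (fun e : Eh j => C.hv (!i) j e = w),
        x (C.hv (!i) j e) = n * x w := by
      intro w
      rw [sum_congr rfl (g := fun _ => x w)]
      · rw [sum_const, C.regh, nsmul_eq_mul]
      · intro e he
        rw [(mem_filter.1 he).2]
    rw [sum_congr rfl fun w _ => this w, ← mul_sum]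
  have h2 : ∑ v : V i j, (a v - n * μ) ^ 2 = ∑ v, a v ^ 2 - n ^ 2 * s ^ 2 / N := by
    have : ∀ v, (a v - n * μ) ^ 2 = a v ^ 2 - 2 * (n * μ) * a v + (n * μ) ^ 2 := fun v => by ring
    rw [sum_congr rfl fun v _ => this v, sum_add_distrib, sum_sub_distrib, ← mul_sum, hsa,
      sum_const, card_univ, nsmul_eq_mul, hc2, hμ]
    field_simp
    ring
  have h3 : ∑ w, (x w - μ) ^ 2 = ∑ w, x w ^ 2 - s ^ 2 / N := by
    have : ∀ w, (x w - μ) ^ 2 = x w ^ 2 - 2 * μ * x w + μ ^ 2 := fun w => by ring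
    rw [sum_congr rfl fun w _ => this w, sum_add_distrib, sum_sub_distrib, ← mul_sum, ← hs,
      sum_const, card_univ, nsmul_eq_mul, hc1, hμ]
    field_simp
    ring
  rw [sum_congr rfl fun v _ => by rw [h1 v], h2, h3] at h
  have h4 : 0 ≤ s ^ 2 / N := by positivity
  have h5 : 0 ≤ Λ * (s ^ 2 / N) := mul_nonneg hΛ h4
  have h6 : Λ * (∑ w, x w ^ 2 - s ^ 2 / N) = Λ * ∑ w, x w ^ 2 - Λ * (s ^ 2 / N) := by ring
  rw [h6] at h
  linarith

end Crest.Agent.R289.TwoPlace595
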