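import Mathlib
import Crest.Agent.R289.RobG_459
import Crest.Agent.R289.TwoPlace_595

/-!
Block B, TP2 (row 289): agreement testability `Codes.AT` (TwoPlace_595) of a square complex with
edge codes, from charts: at every vertex a bijection of its horizontal / vertical edges with the
points `Pt` (`= P¹(K)`), a bijection `τ σ` of the alphabet for every SQUARE (scalars), and two local
codes `R`, `L` with `Rob R L`.  Corollary for bundles of Reed-Solomon codes, constant `92`.
helper459.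
-/

set_option autoImplicit false
set_option linter.unusedSectionVars false

open Polynomial

namespace Crest.Agent.R289.PS459

open TwoPlace595

section rob_id

variable {K : Type*} [Field K] [Fintype K] {ι : Type*} [Fintype ι]

/-- local code with registers of degrees `d i` on the projective line itself. -/
def RSB (K : Type*) [Field K] {ι : Type*} (d : ι → ℕ) : Set (Option K → ι → K) :=
  {u | ∀ i, ∃ p : K[X], p.natDegree ≤ d i ∧ ∀ z, u z i = ev (d i) p z}

theorem rob_RSB (s : ℕ) (hn : 8 * s + 32 ≤ Fintype.card K) (d e : ι → ℕ) (hd : ∀ i, d i ≤ s)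
    (he : ∀ i, e i ≤ s) : Rob (RSB K d) (RSB K e) (Fintype.card K + 1) 92 := by
  have h := rob_RSC s hn (Equiv.refl (Option K)) (Equiv.refl (Option K)) d e hd he
    (fun _ _ => 1) (fun _ _ => 1) (fun _ _ => one_ne_zero) (fun _ _ => one_ne_zero)
  have h1 : ∀ d : ι → ℕ, {u : Option K → ι → K | ∀ i, (fun z => u z i) ∈
      RSC (d i) (Equiv.refl (Option K)) (fun _ => 1)} = RSB K d := by
    intro d
    ext u
    simp only [Set.mem_ofPred_eq, RSB, mem_RSC, one_mul, Equiv.refl_apply]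
  rwa [h1, h1] at h

end rob_id

variable {V : Bool → Bool → Type*} {Eh Ev : Bool → Type*} {S : Type*}
    [∀ i j, Fintype (V i j)] [∀ j, Fintype (Eh j)] [∀ i, Fintype (Ev i)] [Fintype S]
    {n N : ℕ} {C : SqC V Eh Ev S n N} {A : Type*} {Pt : Type*} [Fintype Pt]

/-- a chart at the vertex `v` for the edge codes `D`. -/
structure Chart (D : Codes C A) (i j : Bool) (v : V i j) (R L : Set (Pt → A)) where
  /-- coordinate of a horizontal edge -/
  hz : Eh j → Pt
  /-- coordinate of a vertical edge -/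
  vz : Ev i → Pt
  hz_bij : Set.BijOn hz {e | C.hv i j e = v} Set.univ
  vz_bij : Set.BijOn vz {f | C.vv i j f = v} Set.univ
  /-- the scalar of a square -/
  τ : S → A ≃ A
  okh : ∀ e, C.hv i j e = v → ∀ x : S → A, D.okh j e x ↔
    ∃ u ∈ R, ∀ σ, C.eh j σ = e → τ σ (x σ) = u (vz (C.ev i σ))
  okv : ∀ f, C.vv i j f = v → ∀ x : S → A, D.okv i f x ↔
    ∃ u ∈ L, ∀ σ, C.ev i σ = f → τ σ (x σ) = u (hz (C.eh j σ))

open Classical in
/-- **agreement testability from charts.** -/
theorem at_of_charts (D : Codes C A) (κ : ℕ)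
    (H : ∀ i j (v : V i j), ∃ R L : Set (Pt → A), Rob R L n κ ∧ Nonempty (Chart D i j v R L)) :
    D.AT κ := by
  intro i j v R' Q' hR' hQ'
  obtain ⟨R, L, hrob, ⟨c⟩⟩ := H i j v
  -- edges and squares of given coordinates
  have hE : ∀ a : Pt, ∃ e, C.hv i j e = v ∧ c.hz e = a := fun a => by
    obtain ⟨e, he, hea⟩ := c.hz_bij.surjOn (Set.mem_univ a)
    exact ⟨e, he, hea⟩
  have hF : ∀ b : Pt, ∃ f, C.vv i j f = v ∧ c.vz f = b := fun b => by
    obtain ⟨f, hf, hfb⟩ := c.vz_bij.surjOn (Set.mem_univ b)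
    exact ⟨f, hf, hfb⟩
  choose e he hea using hE
  choose f hf hfb using hF
  have hS : ∀ a b : Pt, ∃ σ, C.eh j σ = e a ∧ C.ev i σ = f b := fun a b =>
    (C.uniq i j (e a) (f b) ((he a).trans (hf b).symm)).exists
  choose sq hsqe hsqf using hS
  have hez : ∀ e', C.hv i j e' = v → e (c.hz e') = e' := fun e' he' =>
    c.hz_bij.injOn (he _) he' (hea _)
  have hfz : ∀ f', C.vv i j f' = v → f (c.vz f') = f' := fun f' hf' =>
    c.vz_bij.injOn (hf _) hf' (hfb _)
  -- rows and columns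
  have hrow : ∀ a : Pt, ∃ u ∈ R, ∀ σ, C.eh j σ = e a → c.τ σ (R' (e a) σ) = u (c.vz (C.ev i σ)) :=
    fun a => (c.okh (e a) (he a) (R' (e a))).mp (hR' _ (he a))
  have hcol : ∀ b : Pt, ∃ u ∈ L, ∀ σ, C.ev i σ = f b → c.τ σ (Q' (f b) σ) = u (c.hz (C.eh j σ)) :=
    fun b => (c.okv (f b) (hf b) (Q' (f b))).mp (hQ' _ (hf b))
  choose r hrR hr using hrow
  choose q hqL hq using hcol
  obtain ⟨w, hw1, hw2, hw3⟩ := hrob r hrR q hqL
  refine ⟨fun σ => (c.τ σ).symm (w (c.hz (C.eh j σ)) (c.vz (C.ev i σ))), ⟨?_, ?_⟩, ?_⟩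
  · intro e' he'
    rw [c.okh e' he']
    refine ⟨w (c.hz e'), hw1 _, fun σ hσ => ?_⟩
    rw [Equiv.apply_symm_apply, hσ]
  · intro f' hf'
    rw [c.okv f' hf']
    refine ⟨fun a => w a (c.vz f'), hw2 _, fun σ hσ => ?_⟩
    rw [Equiv.apply_symm_apply, hσ]
  · have h1 : (Finset.univ.filter fun e' : Eh j => C.hv i j e' = v ∧ ∃ σ, C.eh j σ = e' ∧
        (c.τ σ).symm (w (c.hz (C.eh j σ)) (c.vz (C.ev i σ))) ≠ R' e' σ).card ≤
        (Finset.univ.filter (fun a => w a ≠ r a)).card := by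
      apply Finset.card_le_card_of_injOn c.hz
      · intro e' h
        simp only [Finset.coe_filter, Finset.mem_univ, true_and, Set.mem_ofPred_eq] at h ⊢
        obtain ⟨h2, σ, h3, h4⟩ := h
        intro h5
        apply h4
        rw [Equiv.symm_apply_eq, h3, h5]
        have h6 := hr (c.hz e') σ (by rw [hez e' h2, h3])
        rw [hez e' h2] at h6
        rw [h6]
      · intro e1 h1 e2 h2 h12
        simp only [Finset.coe_filter, Finset.mem_univ, true_and, Set.mem_ofPred_eq] at h1 h2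
        exact c.hz_bij.injOn h1.1 h2.1 h12
    have h2 : (Finset.univ.filter fun f' : Ev i => C.vv i j f' = v ∧ ∃ σ, C.ev i σ = f' ∧
        (c.τ σ).symm (w (c.hz (C.eh j σ)) (c.vz (C.ev i σ))) ≠ Q' f' σ).card ≤
        (Finset.univ.filter (fun b => (fun a => w a b) ≠ q b)).card := by
      apply Finset.card_le_card_of_injOn c.vz
      · intro f' h
        simp only [Finset.coe_filter, Finset.mem_univ, true_and, Set.mem_ofPred_eq] at h ⊢
        obtain ⟨h2, σ, h3, h4⟩ := h
        intro h5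
        apply h4
        rw [Equiv.symm_apply_eq, h3]
        have h6 := hq (c.vz f') σ (by rw [hfz f' h2, h3])
        rw [hfz f' h2] at h6
        rw [h6, ← h5]
      · intro e1 h1 e2 h2 h12
        simp only [Finset.coe_filter, Finset.mem_univ, true_and, Set.mem_ofPred_eq] at h1 h2
        exact c.vz_bij.injOn h1.1 h2.1 h12
    have h3 : (Finset.univ.filter (fun p : Pt × Pt => r p.1 p.2 ≠ q p.2 p.1)).card ≤
        (Finset.univ.filter fun σ : S => C.vt i j σ = v ∧
          R' (C.eh j σ) σ ≠ Q' (C.ev i σ) σ).card := by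
      apply Finset.card_le_card_of_injOn (fun p => sq p.1 p.2)
      · rintro ⟨a, b⟩ h
        simp only [Finset.coe_filter, Finset.mem_univ, true_and, Set.mem_ofPred_eq] at h ⊢
        refine ⟨by rw [SqC.vt, hsqe, he], fun h5 => h ?_⟩
        rw [hsqe, hsqf] at h5
        have h6 := hr a (sq a b) (hsqe a b)
        have h7 := hq b (sq a b) (hsqf a b)
        rw [hsqf, hfb] at h6
        rw [hsqe, hea] at h7
        rw [← h6, ← h7, h5]
      · rintro ⟨a, b⟩ _ ⟨a', b'⟩ _ h
        change sq a b = sq a' b' at h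
        have h4 : a = a' := by
          rw [← hea a, ← hea a', ← hsqe a b, ← hsqe a' b', h]
        have h5 : b = b' := by
          rw [← hfb b, ← hfb b', ← hsqf a b, ← hsqf a' b', h]
        rw [h4, h5]
    have h4 : n * ((Finset.univ.filter fun e' : Eh j => C.hv i j e' = v ∧ ∃ σ, C.eh j σ = e' ∧
        (c.τ σ).symm (w (c.hz (C.eh j σ)) (c.vz (C.ev i σ))) ≠ R' e' σ).card +
        (Finset.univ.filter fun f' : Ev i => C.vv i j f' = v ∧ ∃ σ, C.ev i σ = f' ∧
        (c.τ σ).symm (w (c.hz (C.eh j σ)) (c.vz (C.ev i σ))) ≠ Q' f' σ).card) ≤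
        κ * (Finset.univ.filter fun σ : S => C.vt i j σ = v ∧
          R' (C.eh j σ) σ ≠ Q' (C.ev i σ) σ).card := by
      refine (Nat.mul_le_mul_left n (add_le_add h1 h2)).trans ?_
      rw [mul_add]
      exact hw3.trans (Nat.mul_le_mul_left κ h3)
    convert h4

/-- **TP2.** Edge codes which are, in charts and up to a scalar for every square and every
register, bundles of Reed-Solomon codes of degrees `d r` (horizontal edges, functions of the
vertical coordinate) and `e r` (vertical edges): agreement testable with constant `92`. -/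
theorem at_RS {K : Type*} [Field K] [Fintype K] {ι : Type*} [Fintype ι] (D : Codes C (ι → K))
    (hnK : n = Fintype.card K + 1) (s : ℕ) (hn : 8 * s + 32 ≤ Fintype.card K)
    (H : ∀ i j (v : V i j), ∃ (hz : Eh j → Option K) (vz : Ev i → Option K) (μ : S → ι → K)
      (d e : ι → ℕ), (∀ r, d r ≤ s) ∧ (∀ r, e r ≤ s) ∧ (∀ σ r, μ σ r ≠ 0) ∧
      Set.BijOn hz {e | C.hv i j e = v} Set.univ ∧ Set.BijOn vz {f | C.vv i j f = v} Set.univ ∧
      (∀ g, C.hv i j g = v → ∀ x : S → ι → K, D.okh j g x ↔ ∀ r, ∃ p : K[X], p.natDegree ≤ d r ∧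
        ∀ σ, C.eh j σ = g → μ σ r * x σ r = ev (d r) p (vz (C.ev i σ))) ∧
      (∀ g, C.vv i j g = v → ∀ x : S → ι → K, D.okv i g x ↔ ∀ r, ∃ p : K[X], p.natDegree ≤ e r ∧
        ∀ σ, C.ev i σ = g → μ σ r * x σ r = ev (e r) p (hz (C.eh j σ)))) :
    D.AT 92 := by
  apply at_of_charts (Pt := Option K) D 92
  intro i j v
  obtain ⟨hz, vz, μ, d, e, hd, he, hμ, b1, b2, ok1, ok2⟩ := H i j v
  refine ⟨RSB K d, RSB K e, ?_, ⟨⟨hz, vz, b1, b2, fun σ => Equiv.piCongrRight fun r =>
    Equiv.mulLeft₀ (μ σ r) (hμ σ r), ?_, ?_⟩⟩⟩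
  · rw [hnK]; exact rob_RSB s hn d e hd he
  · intro g hg x
    rw [ok1 g hg x]
    constructor
    · intro h
      choose p hp hpe using h
      refine ⟨fun z r => ev (d r) (p r) z, fun r => ⟨p r, hp r, fun z => rfl⟩, fun σ hσ => ?_⟩
      funext r
      exact hpe r σ hσ
    · rintro ⟨u, hu, hux⟩ r
      obtain ⟨p, hp, hpe⟩ := hu r
      refine ⟨p, hp, fun σ hσ => ?_⟩
      rw [← hpe, ← hux σ hσ]
      rfl
  · intro g hg x
    rw [ok2 g hg x]
    constructor
    · intro h
      choose p hp hpe using h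
      refine ⟨fun z r => ev (e r) (p r) z, fun r => ⟨p r, hp r, fun z => rfl⟩, fun σ hσ => ?_⟩
      funext r
      exact hpe r σ hσ
    · rintro ⟨u, hu, hux⟩ r
      obtain ⟨p, hp, hpe⟩ := hu r
      refine ⟨p, hp, fun σ hσ => ?_⟩
      rw [← hpe, ← hux σ hσ]
      rfl

end Crest.Agent.R289.PS459
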