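import Mathlib

/-!
Row 289, block B: one-sided Tanner codes on a labelled bipartite graph
(`pi z : U ≃ U'`, `z : I`; e.g. `u ↦ u * al z` on a finite group), over an arbitrary alphabet `B`:
distance (`sep`) and local correction (`corr_le`), both from vertex expansion.
-/

set_option autoImplicit false
set_option linter.unusedSectionVars false

namespace Crest.Agent.R289.Tan846

open Finset

open Classical in
/-- number of elements with property `p` -/
noncomputable def cnt {α : Type} [Fintype α] (p : α → Prop) : ℕ := (univ.filter p).card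

theorem cnt_le {α : Type} [Fintype α] {p q : α → Prop} (h : ∀ x, p x → q x) : cnt p ≤ cnt q := by
  classical
  exact Finset.card_le_card fun x hx => by
    simp only [Finset.mem_filter, Finset.mem_univ, true_and] at hx ⊢
    exact h x hx

theorem cnt_congr {α : Type} [Fintype α] {p q : α → Prop} (h : ∀ x, p x ↔ q x) : cnt p = cnt q :=
  le_antisymm (cnt_le fun x => (h x).1) (cnt_le fun x => (h x).2)

theorem cnt_or {α : Type} [Fintype α] (p q : α → Prop) : cnt (fun x => p x ∨ q x) ≤ cnt p + cnt q := by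
  classical
  refine le_trans (Finset.card_le_card ?_) (Finset.card_union_le _ _)
  intro x hx
  simpa using hx

theorem cnt_pos {α : Type} [Fintype α] {p : α → Prop} {x : α} (h : p x) : 0 < cnt p := by
  classical
  exact Finset.card_pos.2 ⟨x, by simpa using h⟩

open Classical in
theorem cnt_sum {α : Type} [Fintype α] (p : α → Prop) :
    ∑ x, (if p x then (1 : ℝ) else 0) = cnt p := by
  unfold cnt
  simp

open Classical in
theorem cnt_sum_nat {α : Type} [Fintype α] (p : α → Prop) :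
    ∑ x, (if p x then (1 : ℕ) else 0) = cnt p := by
  unfold cnt
  simp

open Classical in
theorem cnt_sum_sq {α : Type} [Fintype α] (p : α → Prop) :
    ∑ x, (if p x then (1 : ℝ) else 0) ^ 2 = cnt p := by
  rw [← cnt_sum]
  refine Finset.sum_congr rfl fun u _ => ?_
  split_ifs <;> norm_num

variable {U U' I B : Type} [Fintype U] [Fintype U'] [Fintype I]

/-- vertex expansion of the labelled bipartite graph `pi` in the form used by blocks B3, B5
(for functions on `U`; use `fun z => (pi z).symm` for functions on `U'`) -/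
def Ex (pi : I → U ≃ U') (N lam : ℝ) : Prop :=
  ∀ g : U → ℝ, (∀ u, 0 ≤ g u) →
    ∑ h : U', (∑ z, g ((pi z).symm h)) ^ 2 ≤
      (Fintype.card I : ℝ) ^ 2 * ((∑ u, g u) ^ 2 / N + lam ^ 2 * ∑ u, g u ^ 2)

/-- minimum distance of a local code -/
def Dist (R : Set (I → B)) (d : ℕ) : Prop :=
  ∀ c ∈ R, ∀ c' ∈ R, c ≠ c' → d ≤ cnt fun z => c z ≠ c' z

/-- the Tanner code: local code `R0` at the vertices of `U`, `R1` at the vertices of `U'` -/
def Tan (pi : I → U ≃ U') (R0 R1 : Set (I → B)) : Set (U → I → B) :=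
  {Y | (∀ u, Y u ∈ R0) ∧ ∀ h, (fun z => Y ((pi z).symm h) z) ∈ R1}

/-- `∑ (number of labelled neighbours in S)²` -/
theorem sum_sq_le {pi : I → U ≃ U'} {N lam : ℝ} (hE : Ex pi N lam) (S : U → Prop) :
    ∑ h : U', (cnt (fun z : I => S ((pi z).symm h)) : ℝ) ^ 2 ≤
      (Fintype.card I : ℝ) ^ 2 * ((cnt S : ℝ) ^ 2 / N + lam ^ 2 * (cnt S : ℝ)) := by
  classical
  have h := hE (fun u => if S u then 1 else 0) (fun u => by split_ifs <;> norm_num)
  rw [cnt_sum, cnt_sum_sq] at h
  refine le_trans (le_of_eq ?_) h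
  refine Finset.sum_congr rfl fun h _ => ?_
  rw [cnt_sum (fun z : I => S ((pi z).symm h))]

theorem few {pi : I → U ≃ U'} {N lam : ℝ} (hE : Ex pi N lam) (S : U → Prop) (t : ℕ) :
    (cnt (fun h : U' => t ≤ cnt (fun z : I => S ((pi z).symm h))) : ℝ) * (t : ℝ) ^ 2 ≤
      (Fintype.card I : ℝ) ^ 2 * ((cnt S : ℝ) ^ 2 / N + lam ^ 2 * (cnt S : ℝ)) := by
  classical
  refine le_trans ?_ (sum_sq_le hE S)
  set T : Finset U' := univ.filter fun h : U' => t ≤ cnt (fun z : I => S ((pi z).symm h)) with hT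
  have hc : cnt (fun h : U' => t ≤ cnt (fun z : I => S ((pi z).symm h))) = T.card := by
    unfold cnt
    rw [hT]
    congr
  rw [hc]
  calc (T.card : ℝ) * (t : ℝ) ^ 2
      = ∑ h ∈ T, (t : ℝ) ^ 2 := by
        rw [Finset.sum_const, nsmul_eq_mul]
    _ ≤ ∑ h ∈ T, (cnt (fun z : I => S ((pi z).symm h)) : ℝ) ^ 2 := by
        refine Finset.sum_le_sum fun h hh => ?_
        have : t ≤ cnt (fun z : I => S ((pi z).symm h)) := by
          simpa [hT] using hh
        have h' : (t : ℝ) ≤ (cnt (fun z : I => S ((pi z).symm h)) : ℝ) := by exact_mod_cast this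
        exact pow_le_pow_left₀ (by positivity) h' 2
    _ ≤ ∑ h : U', (cnt (fun z : I => S ((pi z).symm h)) : ℝ) ^ 2 :=
        Finset.sum_le_univ_sum_of_nonneg fun h => by positivity

/-- double counting of pairs (vertex, label) -/
theorem count_swap (pi : I → U ≃ U') (Q : U → I → Prop) :
    ∑ u : U, cnt (fun z => Q u z) = ∑ h : U', cnt (fun z => Q ((pi z).symm h) z) := by
  classical
  simp only [← cnt_sum_nat]
  rw [Finset.sum_comm]
  rw [Finset.sum_comm (s := (univ : Finset U'))]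
  refine Finset.sum_congr rfl fun z _ => ?_
  exact (Equiv.sum_comp (pi z).symm (fun u => if Q u z then 1 else 0)).symm

theorem mul_cnt_le {α : Type} [Fintype α] (p : α → Prop) (f : α → ℕ) (d : ℕ)
    (h : ∀ x, p x → d ≤ f x) : d * cnt p ≤ ∑ x, f x := by
  classical
  calc d * cnt p = ∑ x ∈ univ.filter p, d := by
        rw [Finset.sum_const, smul_eq_mul, mul_comm]
        unfold cnt
        congr
    _ ≤ ∑ x ∈ univ.filter p, f x := Finset.sum_le_sum fun x hx => h x (by simpa using hx)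
    _ ≤ ∑ x, f x := Finset.sum_le_univ_sum_of_nonneg fun u => Nat.zero_le _

/-- **distance** of the Tanner code (number of vertices of `U` where two words differ) -/
theorem sep {pi : I → U ≃ U'} {N lam : ℝ} (hN : 0 < N) (hE : Ex pi N lam)
    {R0 R1 : Set (I → B)} {d : ℕ} (h0 : Dist R0 d) (h1 : Dist R1 d)
    {Y Y' : U → I → B} (hY : Y ∈ Tan pi R0 R1) (hY' : Y' ∈ Tan pi R0 R1) (hne : Y ≠ Y') :
    (d : ℝ) ^ 2 * N ≤
      (Fintype.card I : ℝ) ^ 2 * ((cnt (fun u => Y u ≠ Y' u) : ℝ) + lam ^ 2 * N) := by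
  classical
  obtain ⟨n, hn⟩ : ∃ n : ℝ, n = (Fintype.card I : ℝ) := ⟨_, rfl⟩
  obtain ⟨s, hs⟩ : ∃ s : ℕ, s = cnt (fun u => Y u ≠ Y' u) := ⟨_, rfl⟩
  obtain ⟨T, hT⟩ : ∃ T : U' → Prop, T = fun h => ∃ z, Y ((pi z).symm h) z ≠ Y' ((pi z).symm h) z :=
    ⟨_, rfl⟩
  obtain ⟨E, hEdef⟩ : ∃ E : ℕ, E = ∑ u : U, cnt (fun z => Y u z ≠ Y' u z) := ⟨_, rfl⟩
  have hE' : E = ∑ h : U', cnt (fun z => Y ((pi z).symm h) z ≠ Y' ((pi z).symm h) z) := by
    rw [hEdef]
    exact count_swap pi (fun u z => Y u z ≠ Y' u z)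
  rw [← hn, ← hs]
  obtain ⟨u0, hu0⟩ : ∃ u, Y u ≠ Y' u := by
    by_contra hc
    push Not at hc
    exact hne (funext hc)
  obtain ⟨z0, hz0⟩ : ∃ z, Y u0 z ≠ Y' u0 z := by
    by_contra hc
    push Not at hc
    exact hu0 (funext hc)
  have hspos : 0 < s := by
    rw [hs]
    exact cnt_pos (x := u0) hu0
  have hTpos : 0 < cnt T := by
    refine cnt_pos (x := pi z0 u0) ?_
    rw [hT]
    exact ⟨z0, by simpa using hz0⟩
  have hE1 : d * s ≤ E := by
    rw [hs, hEdef]
    exact mul_cnt_le _ _ _ fun u hu => h0 _ (hY.1 u) _ (hY'.1 u) hu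
  have hE2 : d * cnt T ≤ E := by
    rw [hE']
    refine mul_cnt_le _ _ _ fun h hh => ?_
    rw [hT] at hh
    obtain ⟨z, hz⟩ := hh
    exact h1 _ (hY.2 h) _ (hY'.2 h) fun he => hz (congrFun he z)
  -- upper bound
  obtain ⟨a, ha⟩ : ∃ a : U' → ℝ, a = fun h =>
      (cnt (fun z : I => Y ((pi z).symm h) ≠ Y' ((pi z).symm h)) : ℝ) := ⟨_, rfl⟩
  obtain ⟨TT, hTT⟩ : ∃ TT : Finset U', TT = univ.filter T := ⟨_, rfl⟩
  have hTc : TT.card = cnt T := by
    rw [hTT]
    unfold cnt
    congr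
  have hE3 : (E : ℝ) ≤ ∑ h ∈ TT, a h := by
    rw [hE']
    push_cast
    rw [← Finset.sum_subset (Finset.subset_univ TT)]
    · refine Finset.sum_le_sum fun h _ => ?_
      rw [ha]
      have hle : cnt (fun z => Y ((pi z).symm h) z ≠ Y' ((pi z).symm h) z) ≤
          cnt (fun z : I => Y ((pi z).symm h) ≠ Y' ((pi z).symm h)) :=
        cnt_le fun z hz he => hz (congrFun he z)
      exact Nat.cast_le.2 hle
    · intro h _ hh
      have hh' : ¬ T h := by simpa [hTT] using hh
      rw [hT] at hh'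
      simp only [not_exists, not_not] at hh'
      have : cnt (fun z => Y ((pi z).symm h) z ≠ Y' ((pi z).symm h) z) = 0 := by
        rw [cnt_congr (q := fun _ => False) (fun z => by simp [hh' z])]
        unfold cnt
        simp
      simp [this]
  have hE4 : (∑ h ∈ TT, a h) ^ 2 ≤ TT.card * ∑ h ∈ TT, a h ^ 2 := sq_sum_le_card_mul_sum_sq
  have hE5 : ∑ h ∈ TT, a h ^ 2 ≤ ∑ h, a h ^ 2 :=
    Finset.sum_le_univ_sum_of_nonneg fun h => by positivity
  have hE6 : ∑ h, a h ^ 2 ≤ n ^ 2 * ((s : ℝ) ^ 2 / N + lam ^ 2 * s) := by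
    have h := sum_sq_le hE (fun u => Y u ≠ Y' u)
    rw [← hn, ← hs] at h
    rw [ha]
    exact h
  rw [hTc] at hE4
  have hEE : (0 : ℝ) ≤ E := by positivity
  have hE1' : (d : ℝ) * s ≤ E := by exact_mod_cast hE1
  have hE2' : (d : ℝ) * cnt T ≤ E := by exact_mod_cast hE2
  have key : (d : ℝ) ^ 2 * (s * cnt T) ≤
      cnt T * (n ^ 2 * ((s : ℝ) ^ 2 / N + lam ^ 2 * s)) := by
    calc (d : ℝ) ^ 2 * (s * cnt T) = (d * s) * (d * cnt T) := by ring
      _ ≤ E * E := mul_le_mul hE1' hE2' (by positivity) hEE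
      _ = (E : ℝ) ^ 2 := by ring
      _ ≤ (∑ h ∈ TT, a h) ^ 2 := pow_le_pow_left₀ hEE hE3 2
      _ ≤ cnt T * ∑ h ∈ TT, a h ^ 2 := hE4
      _ ≤ cnt T * (n ^ 2 * ((s : ℝ) ^ 2 / N + lam ^ 2 * s)) :=
          mul_le_mul_of_nonneg_left (hE5.trans hE6) (by positivity)
  have hs' : (0 : ℝ) < s := by exact_mod_cast hspos
  have hT' : (0 : ℝ) < cnt T := by exact_mod_cast hTpos
  have key2 : (cnt T * s : ℝ) * (d ^ 2 * N) ≤
      (cnt T * s : ℝ) * (n ^ 2 * (s + lam ^ 2 * N)) := by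
    have h3 := mul_le_mul_of_nonneg_right key hN.le
    have e3 : (cnt T : ℝ) * (n ^ 2 * ((s : ℝ) ^ 2 / N + lam ^ 2 * s)) * N =
        (cnt T * s : ℝ) * (n ^ 2 * (s + lam ^ 2 * N)) := by
      field_simp
    nlinarith [h3, e3]
  exact le_of_mul_le_mul_left key2 (by positivity)

/-! ### local correction -/

open Classical in
/-- unique decoding of a partial word -/
noncomputable def dec (R : Set (I → B)) (d : ℕ) (l : I → Option B) : Option (I → B) :=
  if h : ∃ c ∈ R, 2 * cnt (fun z => l z ≠ some (c z)) < d then some h.choose else none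

theorem dec_eq {R : Set (I → B)} {d : ℕ} (hR : Dist R d) {l : I → Option B} {c : I → B}
    (hc : c ∈ R) (h : 2 * cnt (fun z => l z ≠ some (c z)) < d) : dec R d l = some c := by
  have hex : ∃ c ∈ R, 2 * cnt (fun z => l z ≠ some (c z)) < d := ⟨c, hc, h⟩
  unfold dec
  rw [dif_pos hex]
  congr 1
  by_contra hne
  have h1 := hR _ hex.choose_spec.1 _ hc hne
  have h2 := hex.choose_spec.2
  have h3 : cnt (fun z => hex.choose z ≠ c z) ≤
      cnt (fun z => l z ≠ some (hex.choose z)) + cnt (fun z => l z ≠ some (c z)) := by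
    refine le_trans (cnt_le ?_) (cnt_or _ _)
    intro z hz
    by_contra hc'
    push Not at hc'
    rw [hc'.1] at hc'
    exact hz (Option.some_injective _ hc'.2)
  omega

/-- the rule of one unit: `nb z z'` = label of the unit `(pi z')⁻¹ (pi z u)` -/
noncomputable def rule (R0 R1 : Set (I → B)) (d : ℕ) (nb : I → I → Option (I → B)) :
    Option (I → B) :=
  dec R0 d fun z => (dec R1 d fun z' => (nb z z').map (fun g => g z')).map (fun c => c z)

/-- local correction -/
noncomputable def corr (pi : I → U ≃ U') (R0 R1 : Set (I → B)) (d : ℕ)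
    (X : U → Option (I → B)) (u : U) : Option (I → B) :=
  rule R0 R1 d fun z z' => X ((pi z').symm (pi z u))

/-- a unit is decoded correctly when fewer than `t` of its odd vertices see `≥ t` wrong units -/
theorem corr_eq {pi : I → U ≃ U'} {R0 R1 : Set (I → B)} {d t : ℕ} (ht : 2 * t ≤ d + 1)
    (h0 : Dist R0 d) (h1 : Dist R1 d) {Y : U → I → B} (hY : Y ∈ Tan pi R0 R1)
    (X : U → Option (I → B)) (u : U)
    (h : cnt (fun z : I => t ≤ cnt (fun z' : I =>
      X ((pi z').symm (pi z u)) ≠ some (Y ((pi z').symm (pi z u))))) < t) :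
    corr pi R0 R1 d X u = some (Y u) := by
  unfold corr rule
  refine dec_eq h0 (hY.1 u) ?_
  have hle : cnt (fun z => ((dec R1 d fun z' => (X ((pi z').symm (pi z u))).map
      (fun g => g z')).map (fun c => c z)) ≠ some (Y u z)) ≤
      cnt (fun z : I => t ≤ cnt (fun z' : I =>
      X ((pi z').symm (pi z u)) ≠ some (Y ((pi z').symm (pi z u))))) := by
    refine cnt_le fun z hz => ?_
    by_contra hb
    apply hz
    have e := dec_eq (l := fun z' => (X ((pi z').symm (pi z u))).map (fun g => g z')) h1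
      (hY.2 (pi z u)) (by
        have : cnt (fun z' : I => (X ((pi z').symm (pi z u))).map (fun g => g z') ≠
            some (Y ((pi z').symm (pi z u)) z')) ≤
            cnt (fun z' : I => X ((pi z').symm (pi z u)) ≠ some (Y ((pi z').symm (pi z u)))) := by
          refine cnt_le fun z' hz' he => ?_
          apply hz'
          rw [he]
          rfl
        omega)
    rw [e]
    simp
  have : 2 * cnt (fun z => ((dec R1 d fun z' => (X ((pi z').symm (pi z u))).map
      (fun g => g z')).map (fun c => c z)) ≠ some (Y u z)) < d := by omega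
  exact this

/-- **local correction**: one round divides the number of wrong (or unreadable) units by 4 -/
theorem corr_le {pi : I → U ≃ U'} {N lam r0 : ℝ} (hN : 0 < N) (hE : Ex pi N lam)
    (hE' : Ex (fun z => (pi z).symm) N lam)
    {R0 R1 : Set (I → B)} {d : ℕ} (hd : 0 < d) (h0 : Dist R0 d) (h1 : Dist R1 d)
    (hlam : 8 * (Fintype.card I : ℝ) ^ 2 * (r0 + lam ^ 2) ≤ (d : ℝ) ^ 2)
    {Y : U → I → B} (hY : Y ∈ Tan pi R0 R1) (X : U → Option (I → B))
    (hX : (cnt (fun u => X u ≠ some (Y u)) : ℝ) ≤ r0 * N) :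
    (cnt (fun u => corr pi R0 R1 d X u ≠ some (Y u)) : ℝ) ≤
      (cnt (fun u => X u ≠ some (Y u)) : ℝ) / 4 := by
  obtain ⟨n, hn⟩ : ∃ n : ℝ, n = (Fintype.card I : ℝ) := ⟨_, rfl⟩
  obtain ⟨t, ht⟩ : ∃ t : ℕ, t = (d + 1) / 2 := ⟨_, rfl⟩
  rw [← hn] at hlam
  have hdt : (d : ℝ) ≤ 2 * t := by
    have : d ≤ 2 * t := by omega
    exact_mod_cast this
  have hd' : (0 : ℝ) < (d : ℝ) ^ 2 := by positivity
  -- general estimate
  have est : ∀ (x y : ℕ), (x : ℝ) * (t : ℝ) ^ 2 ≤ n ^ 2 * ((y : ℝ) ^ 2 / N + lam ^ 2 * y) →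
      (y : ℝ) ≤ r0 * N → (x : ℝ) ≤ y / 2 := by
    intro x y hxy hy
    have h2 : (y : ℝ) ^ 2 / N ≤ r0 * y := by
      rw [div_le_iff₀ hN]
      nlinarith [(Nat.cast_nonneg y : (0 : ℝ) ≤ y)]
    have h3 : (x : ℝ) * d ^ 2 ≤ 4 * (x * t ^ 2) := by
      have h4 : (d : ℝ) ^ 2 ≤ 4 * t ^ 2 := by nlinarith [(Nat.cast_nonneg d : (0 : ℝ) ≤ d)]
      nlinarith [(Nat.cast_nonneg x : (0 : ℝ) ≤ x)]
    have h5 : (x : ℝ) * d ^ 2 ≤ (y / 2) * d ^ 2 := by
      calc (x : ℝ) * d ^ 2 ≤ 4 * (x * t ^ 2) := h3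
        _ ≤ 4 * (n ^ 2 * ((y : ℝ) ^ 2 / N + lam ^ 2 * y)) := by linarith
        _ ≤ 4 * (n ^ 2 * (r0 * y + lam ^ 2 * y)) := by
            have := mul_le_mul_of_nonneg_left h2 (by positivity : (0:ℝ) ≤ n ^ 2)
            nlinarith
        _ = (y / 2) * (8 * n ^ 2 * (r0 + lam ^ 2)) := by ring
        _ ≤ (y / 2) * d ^ 2 := mul_le_mul_of_nonneg_left hlam (by positivity)
    exact le_of_mul_le_mul_right h5 hd'
  have f1 := few hE (fun u => X u ≠ some (Y u)) t
  rw [← hn] at f1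
  have hH1 := est _ _ f1 hX
  have hW0 : (0 : ℝ) ≤ (cnt (fun u => X u ≠ some (Y u)) : ℝ) := by positivity
  have f2 := few hE' (fun h : U' => t ≤ cnt (fun z : I =>
    X ((pi z).symm h) ≠ some (Y ((pi z).symm h)))) t
  rw [← hn] at f2
  have hH2 := est _ _ f2 (by linarith)
  have hsub : cnt (fun u => corr pi R0 R1 d X u ≠ some (Y u)) ≤
      cnt (fun u : U => t ≤ cnt (fun z : I => t ≤ cnt (fun z' : I =>
        X ((pi z').symm (((pi z).symm).symm u)) ≠ some (Y ((pi z').symm (((pi z).symm).symm u)))))) := by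
    refine cnt_le fun u hu => ?_
    by_contra hc
    push Not at hc
    exact hu (corr_eq (t := t) (by omega) h0 h1 hY X u hc)
  have hsub' : (cnt (fun u => corr pi R0 R1 d X u ≠ some (Y u)) : ℝ) ≤
      (cnt (fun u : U => t ≤ cnt (fun z : I => t ≤ cnt (fun z' : I =>
        X ((pi z').symm (((pi z).symm).symm u)) ≠
          some (Y ((pi z').symm (((pi z).symm).symm u)))))) : ℝ) := by
    exact_mod_cast hsub
  linarith

end Crest.Agent.R289.Tan846
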