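import Mathlib
/-!
Row 289 (S0434), block B: interleaving and tensor products of locally testable codes.

A *test family* on `Ω` over a field `K` is a family of `K`-submodules `T j` of `Ω → K`; a word `f`
fails test `j` if `f ∉ T j`. Everything is stated with absolute counts:
`dcount f g` = number of points where `f` and `g` differ, `vcount T f` = number of failing tests,
`bcount T F` = number of tests failed by at least one component of the bundle `F : Ω → ι → K`.

* `interleave`: finite field, minimum distance `≥ d |Ω|`, `dist(f, C) ≤ κ · vcount` for all words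
  gives `dist(F, C^ι) ≤ max (2κ) (3κ/d) · bcount` for all bundles (any finite `ι`).
* `tensor_ltc`: Dinur–Sudan–Wigderson for a code with local tests (every point lies in at most `r`
  views) times an arbitrary locally testable code.
* `tensor_dist`: minimum distance of the tensor product.
-/

set_option autoImplicit false

namespace Crest.Agent.R289.Tensor560

open Finset

section defs

variable {Ω M : Type*} [Fintype Ω]

open Classical in
/-- number of points where two words differ -/
noncomputable def dcount (f g : Ω → M) : ℕ := (univ.filter fun ω => f ω ≠ g ω).card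

open Classical in
/-- number of non-zero values -/
noncomputable def wt [Zero M] (f : Ω → M) : ℕ := (univ.filter fun ω => f ω ≠ 0).card

lemma dcount_le (f g : Ω → M) : dcount f g ≤ Fintype.card Ω := by
  classical
  unfold dcount; exact le_trans (card_filter_le _ _) (le_of_eq card_univ)

lemma wt_le [Zero M] (f : Ω → M) : wt f ≤ Fintype.card Ω := by
  classical
  unfold wt; exact le_trans (card_filter_le _ _) (le_of_eq card_univ)

lemma dcount_self (f : Ω → M) : dcount f f = 0 := by simp [dcount]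

lemma dcount_comm (f g : Ω → M) : dcount f g = dcount g f := by
  unfold dcount; congr 1; ext ω; simp [ne_comm]

lemma dcount_triangle (f g h : Ω → M) : dcount f h ≤ dcount f g + dcount g h := by
  classical
  unfold dcount
  refine le_trans (card_le_card ?_) (card_union_le _ _)
  intro ω hω
  simp only [mem_filter, mem_univ, true_and, mem_union] at hω ⊢
  by_contra hcon
  push Not at hcon
  exact hω (hcon.1.trans hcon.2)

lemma dcount_zero [Zero M] (f : Ω → M) : dcount f 0 = wt f := rfl

lemma wt_sub [AddGroup M] (f g : Ω → M) : wt (f - g) = dcount f g := by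
  unfold wt dcount; congr 1; ext ω; simp [sub_eq_zero]

lemma wt_mono {N : Type*} [Zero M] [Zero N] (f : Ω → M) (g : Ω → N)
    (h : ∀ ω, f ω ≠ 0 → g ω ≠ 0) : wt f ≤ wt g := by
  classical
  unfold wt
  apply card_le_card
  intro ω hω
  simp only [mem_filter, mem_univ, true_and] at hω ⊢
  exact h ω hω

lemma wt_add_le [AddGroup M] (f g : Ω → M) : wt (f + g) ≤ wt f + wt g := by
  classical
  unfold wt
  refine le_trans (card_le_card ?_) (card_union_le _ _)
  intro ω hω
  simp only [mem_filter, mem_univ, true_and, mem_union, Pi.add_apply] at hω ⊢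
  by_contra hcon
  push Not at hcon
  exact hω (by rw [hcon.1, hcon.2, add_zero])

end defs

section tests

variable {K : Type*} [Field K] {Ω : Type*} [Fintype Ω] {J : Type*} [Fintype J]

open Classical in
/-- number of failing tests of a word -/
noncomputable def vcount (T : J → Submodule K (Ω → K)) (f : Ω → K) : ℕ :=
  (univ.filter fun j => f ∉ T j).card

open Classical in
/-- number of tests failed by at least one component of a bundle -/
noncomputable def bcount {ι : Type*} (T : J → Submodule K (Ω → K)) (F : Ω → ι → K) : ℕ :=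
  (univ.filter fun j => ∃ i, (fun ω => F ω i) ∉ T j).card

/-- a bundle all whose components are code words -/
def InBundle {ι : Type*} (C : Submodule K (Ω → K)) (F : Ω → ι → K) : Prop :=
  ∀ i, (fun ω => F ω i) ∈ C

/-- scalar local testability with absolute counts -/
def LTC (C : Submodule K (Ω → K)) (T : J → Submodule K (Ω → K)) (κ : ℝ) : Prop :=
  ∀ f : Ω → K, ∃ g ∈ C, (dcount f g : ℝ) ≤ κ * vcount T f

/-- bundle local testability with absolute counts -/
def BLTC (ι : Type*) (C : Submodule K (Ω → K)) (T : J → Submodule K (Ω → K)) (κ : ℝ) : Prop :=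
  ∀ F : Ω → ι → K, ∃ G : Ω → ι → K, InBundle C G ∧ (dcount F G : ℝ) ≤ κ * bcount T F

/-- minimum distance at least `d |Ω|` -/
def MinDist (C : Submodule K (Ω → K)) (d : ℝ) : Prop :=
  ∀ f ∈ C, f ≠ 0 → d * Fintype.card Ω ≤ wt f

omit [Fintype Ω] in
lemma vcount_le_bcount {ι : Type*} [Fintype ι] (T : J → Submodule K (Ω → K)) (F : Ω → ι → K)
    (u : ι → K) : vcount T (fun ω => ∑ i, u i * F ω i) ≤ bcount T F := by
  classical
  unfold vcount bcount
  apply card_le_card
  intro j hj
  simp only [mem_filter, mem_univ, true_and] at hj ⊢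
  by_contra hcon
  push Not at hcon
  apply hj
  have : (fun ω => ∑ i, u i * F ω i) = ∑ i, u i • (fun ω => F ω i) := by
    ext ω; simp [Finset.sum_apply]
  rw [this]
  exact Submodule.sum_mem _ fun i _ => Submodule.smul_mem _ _ (hcon i)

open Classical in
/-- half of the functionals do not vanish on a non-zero vector -/
lemma half_count {ι : Type*} [Fintype ι] [Fintype K] (e : ι → K) (he : e ≠ 0) :
    (Fintype.card (ι → K) : ℝ) ≤
      2 * ((univ.filter fun u : ι → K => ∑ i, u i * e i ≠ 0).card : ℝ) := by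
  obtain ⟨i0, hi0⟩ : ∃ i, e i ≠ 0 := by
    by_contra h; push Not at h; exact he (funext h)
  set w : ι → K := Pi.single i0 1 with hw
  have hwe : ∑ i, w i * e i = e i0 := by
    rw [Finset.sum_eq_single i0]
    · simp [hw]
    · intro b _ hb; simp [hw, Pi.single_eq_of_ne hb]
    · simp
  have h1 : (univ.filter fun u : ι → K => ¬ (∑ i, u i * e i ≠ 0)).card ≤
      (univ.filter fun u : ι → K => ∑ i, u i * e i ≠ 0).card := by
    apply card_le_card_of_injOn (fun u => u + w)
    · intro u hu
      simp only [coe_filter, mem_univ, true_and, Set.mem_ofPred_eq, not_not] at hu ⊢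
      have : ∑ i, (u + w) i * e i = ∑ i, u i * e i + ∑ i, w i * e i := by
        rw [← Finset.sum_add_distrib]; apply Finset.sum_congr rfl; intro i _
        simp [add_mul]
      rw [this, hu, hwe, zero_add]; exact hi0
    · intro u _ v _ huv
      exact add_right_cancel huv
  have h2 := Finset.card_filter_add_card_filter_not (s := (univ : Finset (ι → K)))
    (fun u => ∑ i, u i * e i ≠ 0)
  rw [card_univ] at h2
  have h3 : (Fintype.card (ι → K)) ≤
      2 * (univ.filter fun u : ι → K => ∑ i, u i * e i ≠ 0).card := by omega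
  exact_mod_cast h3

/-- **Interleaving**: scalar local testability gives local testability of bundles. -/
theorem interleave [Fintype K] {C : Submodule K (Ω → K)} {T : J → Submodule K (Ω → K)}
    {d κ : ℝ} (hd : 0 < d) (hκ : 0 ≤ κ) (hC : MinDist C d) (hT : LTC C T κ)
    (ι : Type*) [Fintype ι] : BLTC ι C T (max (2 * κ) (3 * κ / d)) := by
  classical
  intro F
  set v : ℝ := (bcount T F : ℝ) with hv
  have hv0 : 0 ≤ v := by rw [hv]; positivity
  by_cases hbig : d * Fintype.card Ω ≤ 3 * κ * v
  · refine ⟨fun _ _ => 0, fun i => C.zero_mem, ?_⟩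
    have h1 : (dcount F (fun _ _ => 0) : ℝ) ≤ Fintype.card Ω := by exact_mod_cast dcount_le _ _
    have h2 : (Fintype.card Ω : ℝ) ≤ 3 * κ / d * v := by
      rw [div_mul_eq_mul_div, le_div_iff₀ hd]; linarith
    calc _ ≤ _ := h1
      _ ≤ _ := h2
      _ ≤ _ := by gcongr; exact le_max_right _ _
  · push Not at hbig
    -- combination words
    let cmb : (ι → K) → (Ω → K) := fun u ω => ∑ i, u i * F ω i
    have hcmb_add : ∀ u w, cmb (u + w) = cmb u + cmb w := by
      intro u w; ext ω; simp [cmb, add_mul, Finset.sum_add_distrib]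
    have hcmb_smul : ∀ (a : K) u, cmb (a • u) = a • cmb u := by
      intro a u; ext ω; simp [cmb, Finset.mul_sum, mul_assoc]
    have hN : ∀ u, ∃ g ∈ C, (dcount (cmb u) g : ℝ) ≤ κ * v := by
      intro u
      obtain ⟨g, hg, hgd⟩ := hT (cmb u)
      refine ⟨g, hg, hgd.trans ?_⟩
      gcongr
      rw [hv]
      exact_mod_cast vcount_le_bcount T F u
    choose N hNC hNd using hN
    have huniq : ∀ (u : ι → K) (g : Ω → K), g ∈ C → (dcount (cmb u) g : ℝ) ≤ 2 * (κ * v) →
        g = N u := by
      intro u g hg hgd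
      by_contra hne
      have hsub : g - N u ∈ C := C.sub_mem hg (hNC u)
      have h1 := hC _ hsub (sub_ne_zero.mpr hne)
      rw [wt_sub] at h1
      have h2 : (dcount g (N u) : ℝ) ≤ dcount g (cmb u) + dcount (cmb u) (N u) := by
        exact_mod_cast dcount_triangle g (cmb u) (N u)
      rw [dcount_comm g (cmb u)] at h2
      have := hNd u
      linarith
    have hadd : ∀ u w, N (u + w) = N u + N w := by
      intro u w
      symm
      apply huniq _ _ (C.add_mem (hNC u) (hNC w))
      rw [hcmb_add, ← wt_sub]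
      have e1 : cmb u + cmb w - (N u + N w) = (cmb u - N u) + (cmb w - N w) := by abel
      rw [e1]
      have h2 : (wt ((cmb u - N u) + (cmb w - N w)) : ℝ) ≤ wt (cmb u - N u) + wt (cmb w - N w) := by
        exact_mod_cast wt_add_le _ _
      rw [wt_sub, wt_sub] at h2
      have := hNd u
      have := hNd w
      linarith
    have hsmul : ∀ (a : K) u, N (a • u) = a • N u := by
      intro a u
      symm
      apply huniq _ _ (C.smul_mem a (hNC u))
      rw [hcmb_smul, ← wt_sub]
      have e1 : a • cmb u - a • N u = a • (cmb u - N u) := by rw [smul_sub]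
      rw [e1]
      have h2 : (wt (a • (cmb u - N u)) : ℝ) ≤ wt (cmb u - N u) := by
        have : wt (a • (cmb u - N u)) ≤ wt (cmb u - N u) := by
          apply wt_mono
          intro ω h0 h1
          apply h0
          simp only [Pi.smul_apply, smul_eq_mul]
          rw [h1, mul_zero]
        exact_mod_cast this
      rw [wt_sub] at h2
      have h3 := hNd u
      have h4 : 0 ≤ κ * v := mul_nonneg hκ hv0
      linarith
    let L : (ι → K) →ₗ[K] (Ω → K) :=
      { toFun := N, map_add' := hadd, map_smul' := by intro a u; simpa using hsmul a u }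
    let G : Ω → ι → K := fun ω i => N (Pi.single i 1) ω
    have hL : ∀ u, N u = fun ω => ∑ i, u i * G ω i := by
      intro u
      have h1 : L u = ∑ i, u i • L (fun j => if i = j then 1 else 0) :=
        LinearMap.pi_apply_eq_sum_univ L u
      have h2 : L u = N u := rfl
      rw [← h2, h1]
      ext ω
      simp only [Finset.sum_apply, Pi.smul_apply, smul_eq_mul]
      apply Finset.sum_congr rfl
      intro i _
      congr 1
      show N _ ω = N _ ω
      congr 2
      ext j
      by_cases hij : i = j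
      · subst hij; simp
      · simp [hij]
    refine ⟨G, fun i => hNC _, ?_⟩
    -- averaging
    have hswap : ∑ u : ι → K, dcount (cmb u) (N u) =
        ∑ ω : Ω, (univ.filter fun u : ι → K => ∑ i, u i * (F ω i - G ω i) ≠ 0).card := by
      unfold dcount
      simp only [Finset.card_filter]
      rw [Finset.sum_comm]
      apply Finset.sum_congr rfl
      intro ω _
      apply Finset.sum_congr rfl
      intro u _
      have : (cmb u ω ≠ N u ω) ↔ (∑ i, u i * (F ω i - G ω i) ≠ 0) := by
        rw [hL u]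
        simp only [cmb, mul_sub, Finset.sum_sub_distrib, ne_eq, sub_eq_zero]
      simp only [this]
    have hlow : (Fintype.card (ι → K) : ℝ) * dcount F G ≤
        2 * ∑ ω : Ω, ((univ.filter fun u : ι → K => ∑ i, u i * (F ω i - G ω i) ≠ 0).card : ℝ) := by
      have : (Fintype.card (ι → K) : ℝ) * dcount F G =
          ∑ ω ∈ univ.filter (fun ω => F ω ≠ G ω), (Fintype.card (ι → K) : ℝ) := by
        unfold dcount
        rw [Finset.sum_const, nsmul_eq_mul, mul_comm]
        congr 2
        apply congrArg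
        ext ω; simp
      rw [this, Finset.mul_sum]
      calc ∑ ω ∈ univ.filter (fun ω => F ω ≠ G ω), (Fintype.card (ι → K) : ℝ)
          ≤ ∑ ω ∈ univ.filter (fun ω => F ω ≠ G ω),
            2 * ((univ.filter fun u : ι → K => ∑ i, u i * (F ω i - G ω i) ≠ 0).card : ℝ) := by
            apply Finset.sum_le_sum
            intro ω hω
            replace hω := (mem_filter.mp hω).2
            exact half_count (fun i => F ω i - G ω i)
              (fun h => hω (funext fun i => sub_eq_zero.mp (congrFun h i)))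
        _ ≤ _ := by
            apply Finset.sum_le_sum_of_subset_of_nonneg (filter_subset _ _)
            intro ω _ _
            exact mul_nonneg (by norm_num) (Nat.cast_nonneg _)
    have hup : ∑ ω : Ω, ((univ.filter fun u : ι → K =>
        ∑ i, u i * (F ω i - G ω i) ≠ 0).card : ℝ) ≤ Fintype.card (ι → K) * (κ * v) := by
      have h1 : ∑ ω : Ω, ((univ.filter fun u : ι → K =>
        ∑ i, u i * (F ω i - G ω i) ≠ 0).card : ℝ) = ∑ u : ι → K, (dcount (cmb u) (N u) : ℝ) := by
        exact_mod_cast hswap.symm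
      rw [h1]
      calc ∑ u : ι → K, (dcount (cmb u) (N u) : ℝ) ≤ ∑ _u : ι → K, κ * v :=
            Finset.sum_le_sum fun u _ => hNd u
        _ = (univ : Finset (ι → K)).card * (κ * v) := by rw [Finset.sum_const, nsmul_eq_mul]
        _ = _ := by rw [card_univ]
    have hcard : (0 : ℝ) < Fintype.card (ι → K) := by
      exact_mod_cast Fintype.card_pos
    have hfin : (dcount F G : ℝ) ≤ 2 * κ * v := by
      have : (Fintype.card (ι → K) : ℝ) * dcount F G ≤
          (Fintype.card (ι → K) : ℝ) * (2 * κ * v) := by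
        calc _ ≤ _ := hlow
          _ ≤ 2 * (Fintype.card (ι → K) * (κ * v)) := by gcongr
          _ = _ := by ring
      exact le_of_mul_le_mul_left this hcard
    calc (dcount F G : ℝ) ≤ 2 * κ * v := hfin
      _ ≤ _ := by gcongr; exact le_max_left _ _

end tests

section tensor

variable {K : Type*} [Field K] {Ω₁ Ω₂ : Type*} [Fintype Ω₁] [Fintype Ω₂]
  {J₁ J₂ : Type*} [Fintype J₁] [Fintype J₂]

/-- the tensor product code: all columns in `C₁`, all rows in `C₂` -/
def tens (C₁ : Submodule K (Ω₁ → K)) (C₂ : Submodule K (Ω₂ → K)) :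
    Submodule K (Ω₁ × Ω₂ → K) where
  carrier := {M | (∀ t, (fun ω => M (ω, t)) ∈ C₁) ∧ ∀ ω, (fun t => M (ω, t)) ∈ C₂}
  add_mem' := by
    intro a b ha hb
    exact ⟨fun t => C₁.add_mem (ha.1 t) (hb.1 t), fun ω => C₂.add_mem (ha.2 ω) (hb.2 ω)⟩
  zero_mem' := ⟨fun _ => C₁.zero_mem, fun _ => C₂.zero_mem⟩
  smul_mem' := by
    intro c a ha
    exact ⟨fun t => C₁.smul_mem c (ha.1 t), fun ω => C₂.smul_mem c (ha.2 ω)⟩

omit [Fintype Ω₁] [Fintype Ω₂] in
lemma mem_tens {C₁ : Submodule K (Ω₁ → K)} {C₂ : Submodule K (Ω₂ → K)} {M : Ω₁ × Ω₂ → K} :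
    M ∈ tens C₁ C₂ ↔ (∀ t, (fun ω => M (ω, t)) ∈ C₁) ∧ ∀ ω, (fun t => M (ω, t)) ∈ C₂ := Iff.rfl

/-- column `t` -/
def colMap (K : Type*) [Field K] (Ω₁ : Type*) {Ω₂ : Type*} (t : Ω₂) :
    (Ω₁ × Ω₂ → K) →ₗ[K] (Ω₁ → K) where
  toFun M ω := M (ω, t)
  map_add' _ _ := rfl
  map_smul' _ _ := rfl

/-- row `ω` -/
def rowMap (K : Type*) [Field K] {Ω₁ : Type*} (Ω₂ : Type*) (ω : Ω₁) :
    (Ω₁ × Ω₂ → K) →ₗ[K] (Ω₂ → K) where
  toFun M t := M (ω, t)
  map_add' _ _ := rfl
  map_smul' _ _ := rfl

/-- the tests of the tensor product: a `C₁`-test in one column or a `C₂`-test in one row -/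
def tensT (T₁ : J₁ → Submodule K (Ω₁ → K)) (T₂ : J₂ → Submodule K (Ω₂ → K)) :
    (J₁ × Ω₂) ⊕ (Ω₁ × J₂) → Submodule K (Ω₁ × Ω₂ → K) :=
  Sum.elim (fun p => (T₁ p.1).comap (colMap K Ω₁ p.2)) (fun p => (T₂ p.2).comap (rowMap K Ω₂ p.1))

lemma wt_prod (M : Ω₁ × Ω₂ → K) : wt M = ∑ ω, wt (fun t => M (ω, t)) := by
  classical
  unfold wt
  simp only [Finset.card_filter]
  rw [Fintype.sum_prod_type]

lemma wt_prod' (M : Ω₁ × Ω₂ → K) : wt M = ∑ t, wt (fun ω => M (ω, t)) := by
  classical
  unfold wt
  simp only [Finset.card_filter]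
  rw [Fintype.sum_prod_type, Finset.sum_comm]

lemma dcount_prod (M M' : Ω₁ × Ω₂ → K) :
    dcount M M' = ∑ ω, dcount (fun t => M (ω, t)) (fun t => M' (ω, t)) := by
  rw [← wt_sub, wt_prod]
  apply Finset.sum_congr rfl
  intro ω _
  rw [← wt_sub]; rfl

lemma dcount_prod' (M M' : Ω₁ × Ω₂ → K) :
    dcount M M' = ∑ t, dcount (fun ω => M (ω, t)) (fun ω => M' (ω, t)) := by
  rw [← wt_sub, wt_prod']
  apply Finset.sum_congr rfl
  intro ω _
  rw [← wt_sub]; rfl

lemma vcount_tensT (T₁ : J₁ → Submodule K (Ω₁ → K)) (T₂ : J₂ → Submodule K (Ω₂ → K))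
    (M : Ω₁ × Ω₂ → K) :
    vcount (tensT T₁ T₂) M =
      (∑ t, vcount T₁ (fun ω => M (ω, t))) + ∑ ω, vcount T₂ (fun t => M (ω, t)) := by
  classical
  unfold vcount
  simp only [Finset.card_filter]
  rw [Fintype.sum_sum_type, Fintype.sum_prod_type, Fintype.sum_prod_type, Finset.sum_comm]
  congr 1

/-- minimum distance of the tensor product -/
theorem tensor_dist {C₁ : Submodule K (Ω₁ → K)} {C₂ : Submodule K (Ω₂ → K)} {d₁ d₂ : ℝ}
    (hd₂ : 0 ≤ d₂) (h₁ : MinDist C₁ d₁) (h₂ : MinDist C₂ d₂) :
    MinDist (tens C₁ C₂) (d₁ * d₂) := by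
  classical
  intro M hM hne
  obtain ⟨⟨ω0, t0⟩, h0⟩ : ∃ p, M p ≠ 0 := by
    by_contra h; push Not at h; exact hne (funext h)
  have hcol : d₁ * Fintype.card Ω₁ ≤ wt (fun ω => M (ω, t0)) :=
    h₁ _ (hM.1 t0) (fun h => h0 (congrFun h ω0))
  have hrow : ∀ ω, M (ω, t0) ≠ 0 → d₂ * Fintype.card Ω₂ ≤ wt (fun t => M (ω, t)) :=
    fun ω hω => h₂ _ (hM.2 ω) (fun h => hω (congrFun h t0))
  rw [wt_prod, Fintype.card_prod]
  push_cast
  calc d₁ * d₂ * ((Fintype.card Ω₁ : ℝ) * Fintype.card Ω₂)
      = (d₁ * Fintype.card Ω₁) * (d₂ * Fintype.card Ω₂) := by ring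
    _ ≤ (wt (fun ω => M (ω, t0)) : ℝ) * (d₂ * Fintype.card Ω₂) := by
        gcongr
    _ = ∑ ω ∈ univ.filter (fun ω => M (ω, t0) ≠ 0), (d₂ * Fintype.card Ω₂) := by
        rw [Finset.sum_const, nsmul_eq_mul]
        congr 2
    _ ≤ ∑ ω ∈ univ.filter (fun ω => M (ω, t0) ≠ 0), (wt (fun t => M (ω, t)) : ℝ) := by
        apply Finset.sum_le_sum
        intro ω hω
        exact hrow ω (mem_filter.mp hω).2
    _ ≤ ∑ ω, (wt (fun t => M (ω, t)) : ℝ) := by
        apply Finset.sum_le_sum_of_subset_of_nonneg (filter_subset _ _)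
        intro ω _ _
        exact Nat.cast_nonneg _

open Classical in
/-- **Tensor products of locally testable codes** (Dinur–Sudan–Wigderson, local-test case).
`C₁` has local tests `T₁` with views `S`, every point in at most `r` views; `C₁` is testable as a
bundle over `Ω₂` with constant `κb`, `C₁` and `C₂` are testable with constants `κ₁`, `κ₂`. -/
theorem tensor_ltc {C₁ : Submodule K (Ω₁ → K)} {C₂ : Submodule K (Ω₂ → K)}
    {T₁ : J₁ → Submodule K (Ω₁ → K)} {T₂ : J₂ → Submodule K (Ω₂ → K)}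
    {d₁ d₂ κ₁ κ₂ κb : ℝ} (hd₁ : 0 < d₁) (hd₁' : d₁ ≤ 1) (hd₂ : 0 < d₂)
    (hκ₁ : 0 ≤ κ₁) (hκ₂ : 0 ≤ κ₂) (hκb : 0 ≤ κb)
    (h₁ : MinDist C₁ d₁) (h₂ : MinDist C₂ d₂)
    (hT₁ : LTC C₁ T₁ κ₁) (hT₂ : LTC C₂ T₂ κ₂) (hTb : BLTC Ω₂ C₁ T₁ κb)
    (S : J₁ → Finset Ω₁) (hloc : ∀ j (f : Ω₁ → K), (∀ ω ∈ S j, f ω = 0) → f ∈ T₁ j)
    (hle : ∀ j, C₁ ≤ T₁ j) (r : ℕ) (hr : ∀ ω, (univ.filter fun j => ω ∈ S j).card ≤ r) :
    LTC (tens C₁ C₂) (tensT T₁ T₂) (κ₂ + κb * r / (d₁ * d₂) * (κ₁ + κ₂)) := by
  intro M
  set V₁ : ℝ := ∑ t, (vcount T₁ (fun ω => M (ω, t)) : ℝ) with hV₁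
  set V₂ : ℝ := ∑ ω, (vcount T₂ (fun t => M (ω, t)) : ℝ) with hV₂
  have hV : (vcount (tensT T₁ T₂) M : ℝ) = V₁ + V₂ := by
    rw [vcount_tensT]; push_cast; rfl
  have hV₁0 : 0 ≤ V₁ := Finset.sum_nonneg fun _ _ => Nat.cast_nonneg _
  have hV₂0 : 0 ≤ V₂ := Finset.sum_nonneg fun _ _ => Nat.cast_nonneg _
  -- corrected rows and columns
  choose R hRC hRd using fun ω => hT₂ (fun t => M (ω, t))
  choose Q hQC hQd using fun t => hT₁ (fun ω => M (ω, t))
  let R' : Ω₁ × Ω₂ → K := fun p => R p.1 p.2
  let Q' : Ω₁ × Ω₂ → K := fun p => Q p.2 p.1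
  let E : Ω₁ × Ω₂ → K := R' - Q'
  have hMR : (dcount M R' : ℝ) ≤ κ₂ * V₂ := by
    rw [dcount_prod]; push_cast
    rw [hV₂, Finset.mul_sum]
    exact Finset.sum_le_sum fun ω _ => hRd ω
  have hMQ : (dcount M Q' : ℝ) ≤ κ₁ * V₁ := by
    rw [dcount_prod']; push_cast
    rw [hV₁, Finset.mul_sum]
    exact Finset.sum_le_sum fun t _ => hQd t
  have hE : (wt E : ℝ) ≤ κ₁ * V₁ + κ₂ * V₂ := by
    have h1 : wt E = dcount R' Q' := wt_sub R' Q'
    have h2 : (dcount R' Q' : ℝ) ≤ dcount R' M + dcount M Q' := by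
      exact_mod_cast dcount_triangle R' M Q'
    rw [dcount_comm R' M] at h2
    rw [h1]; linarith
  -- the bundle of corrected rows
  let F : Ω₁ → Ω₂ → K := fun ω t => R ω t
  -- a test whose view carries little error passes in every column
  have hpass : ∀ j, (∑ ω ∈ S j, (wt (fun t => E (ω, t)) : ℝ)) < d₂ * Fintype.card Ω₂ →
      ∀ t, (fun ω => F ω t) ∈ T₁ j := by
    intro j hj t
    by_contra hnot
    obtain ⟨φ, hφ0, hφ⟩ := Submodule.exists_le_ker_of_notMem hnot
    -- the word t ↦ φ (column t of R)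
    let c : Ω₁ → K := fun ω => φ (Pi.single ω 1)
    have hφs : ∀ f : Ω₁ → K, φ f = ∑ ω, f ω * c ω := by
      intro f
      have h1 := LinearMap.pi_apply_eq_sum_univ φ f
      rw [h1]
      apply Finset.sum_congr rfl
      intro ω _
      rw [smul_eq_mul]
      congr 2
      ext ω'
      by_cases h : ω = ω'
      · subst h; simp
      · simp [h]
    let g : Ω₂ → K := fun s => φ (fun ω => F ω s)
    have hgC : g ∈ C₂ := by
      have : g = ∑ ω, c ω • R ω := by
        ext s
        simp only [g, hφs, Finset.sum_apply, Pi.smul_apply, smul_eq_mul]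
        apply Finset.sum_congr rfl
        intro ω _
        rw [mul_comm]
      rw [this]
      exact Submodule.sum_mem _ fun ω _ => C₂.smul_mem _ (hRC ω)
    have hgne : g ≠ 0 := fun h => hφ0 (congrFun h t)
    have hg1 := h₂ g hgC hgne
    have hg2 : (wt g : ℝ) ≤ ∑ ω ∈ S j, (wt (fun s => E (ω, s)) : ℝ) := by
      have : wt g ≤ ∑ ω ∈ S j, wt (fun s => E (ω, s)) := by
        unfold wt
        refine le_trans (card_le_card ?_) (card_biUnion_le)
        intro s hs
        have hs' : g s ≠ 0 := (mem_filter.mp hs).2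
        rw [mem_biUnion]
        by_contra hcon
        push Not at hcon
        apply hs'
        have hz : ∀ ω ∈ S j, E (ω, s) = 0 := by
          intro ω hω
          by_contra hne
          exact hcon ω hω (mem_filter.mpr ⟨mem_univ _, hne⟩)
        have e1 : (fun ω => F ω s) = (fun ω => E (ω, s)) + Q s := by
          ext ω; simp [F, E, R', Q']
        show φ (fun ω => F ω s) = 0
        rw [e1, map_add]
        have z1 : φ (fun ω => E (ω, s)) = 0 := hφ (hloc j _ hz)
        have z2 : φ (Q s) = 0 := hφ (hle j (hQC s))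
        rw [z1, z2, add_zero]
      exact_mod_cast this
    linarith
  -- count of bad tests of the bundle
  have hbad : (bcount T₁ F : ℝ) * (d₂ * Fintype.card Ω₂) ≤ r * wt E := by
    have h1 : (bcount T₁ F : ℝ) * (d₂ * Fintype.card Ω₂) ≤
        ∑ j, ∑ ω ∈ S j, (wt (fun t => E (ω, t)) : ℝ) := by
      set B : Finset J₁ := univ.filter (fun j => ∃ i, (fun ω => F ω i) ∉ T₁ j) with hB
      have hbc : bcount T₁ F = B.card := by
        unfold bcount; rw [hB]; congr 1; ext j; simp
      have hstep : ∀ j ∈ B, d₂ * (Fintype.card Ω₂ : ℝ) ≤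
          ∑ ω ∈ S j, (wt (fun t => E (ω, t)) : ℝ) := by
        intro j hj
        obtain ⟨i, hi⟩ := (mem_filter.mp hj).2
        by_contra hlt
        push Not at hlt
        exact hi (hpass j hlt i)
      have hs1 : ∑ j ∈ B, d₂ * (Fintype.card Ω₂ : ℝ) ≤
          ∑ j ∈ B, ∑ ω ∈ S j, (wt (fun t => E (ω, t)) : ℝ) := Finset.sum_le_sum hstep
      have hs2 : ∑ j ∈ B, ∑ ω ∈ S j, (wt (fun t => E (ω, t)) : ℝ) ≤
          ∑ j, ∑ ω ∈ S j, (wt (fun t => E (ω, t)) : ℝ) := by
        apply Finset.sum_le_sum_of_subset_of_nonneg (filter_subset _ _)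
        intro j _ _
        exact Finset.sum_nonneg fun _ _ => Nat.cast_nonneg _
      rw [Finset.sum_const, nsmul_eq_mul] at hs1
      rw [hbc]
      exact hs1.trans hs2
    have h2 : ∑ j, ∑ ω ∈ S j, (wt (fun t => E (ω, t)) : ℝ) ≤ r * wt E := by
      have e1 : ∀ j, ∑ ω ∈ S j, (wt (fun t => E (ω, t)) : ℝ) =
          ∑ ω, if ω ∈ S j then (wt (fun t => E (ω, t)) : ℝ) else 0 := by
        intro j; rw [Finset.sum_ite_mem, Finset.univ_inter]
      simp only [e1]
      rw [Finset.sum_comm, wt_prod]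
      push_cast
      rw [Finset.mul_sum]
      apply Finset.sum_le_sum
      intro ω _
      rw [← Finset.sum_filter, Finset.sum_const, nsmul_eq_mul]
      gcongr
      exact hr ω
    exact h1.trans h2
  obtain ⟨G, hG, hGd⟩ := hTb F
  -- final estimates
  have hconst : 0 ≤ κb * r / (d₁ * d₂) := by positivity
  have hX : (wt E : ℝ) ≤ (κ₁ + κ₂) * (V₁ + V₂) := by
    have : 0 ≤ κ₁ * V₂ := mul_nonneg hκ₁ hV₂0
    have : 0 ≤ κ₂ * V₁ := mul_nonneg hκ₂ hV₁0
    nlinarith
  have hrow : (dcount F G : ℝ) * (d₂ * Fintype.card Ω₂) ≤ κb * r * wt E := by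
    have h3 : 0 ≤ d₂ * (Fintype.card Ω₂ : ℝ) := by positivity
    calc (dcount F G : ℝ) * (d₂ * Fintype.card Ω₂)
        ≤ (κb * bcount T₁ F) * (d₂ * Fintype.card Ω₂) := by gcongr
      _ = κb * (bcount T₁ F * (d₂ * Fintype.card Ω₂)) := by ring
      _ ≤ κb * (r * wt E) := by gcongr
      _ = _ := by ring
  by_cases hbig : d₁ * Fintype.card Ω₁ ≤ dcount F G
  · -- trivial bound
    refine ⟨0, (tens C₁ C₂).zero_mem, ?_⟩
    have h4 : (dcount M 0 : ℝ) ≤ Fintype.card (Ω₁ × Ω₂) := by exact_mod_cast dcount_le _ _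
    rw [Fintype.card_prod] at h4
    push_cast at h4
    have h5 : ((Fintype.card Ω₁ : ℝ) * Fintype.card Ω₂) ≤ κb * r / (d₁ * d₂) * wt E := by
      rw [div_mul_eq_mul_div, le_div_iff₀ (by positivity)]
      calc (Fintype.card Ω₁ : ℝ) * Fintype.card Ω₂ * (d₁ * d₂)
          = (d₁ * Fintype.card Ω₁) * (d₂ * Fintype.card Ω₂) := by ring
        _ ≤ (dcount F G : ℝ) * (d₂ * Fintype.card Ω₂) := by gcongr
        _ ≤ _ := hrow
    calc (dcount M 0 : ℝ) ≤ _ := h4
      _ ≤ _ := h5
      _ ≤ κb * r / (d₁ * d₂) * ((κ₁ + κ₂) * (V₁ + V₂)) := by gcongr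
      _ = κb * r / (d₁ * d₂) * (κ₁ + κ₂) * (V₁ + V₂) := by ring
      _ ≤ (κ₂ + κb * r / (d₁ * d₂) * (κ₁ + κ₂)) * (V₁ + V₂) := by
          gcongr
          linarith
      _ = _ := by rw [hV]
  · push Not at hbig
    -- `G` is a tensor word
    let G' : Ω₁ × Ω₂ → K := fun p => G p.1 p.2
    have hGt : G' ∈ tens C₁ C₂ := by
      refine ⟨fun t => hG t, fun ω => ?_⟩
      by_contra hnot
      obtain ⟨φ, hφ0, hφ⟩ := Submodule.exists_le_ker_of_notMem hnot
      let c : Ω₂ → K := fun t => φ (Pi.single t 1)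
      have hφs : ∀ f : Ω₂ → K, φ f = ∑ t, f t * c t := by
        intro f
        have h1 := LinearMap.pi_apply_eq_sum_univ φ f
        rw [h1]
        apply Finset.sum_congr rfl
        intro t _
        rw [smul_eq_mul]
        congr 2
        ext t'
        by_cases h : t = t'
        · subst h; simp
        · simp [h]
      let g : Ω₁ → K := fun ω' => φ (fun t => G' (ω', t))
      have hgC : g ∈ C₁ := by
        have : g = ∑ t, c t • (fun ω' => G ω' t) := by
          ext ω'
          simp only [g, hφs, Finset.sum_apply, Pi.smul_apply, smul_eq_mul]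
          apply Finset.sum_congr rfl
          intro t _
          rw [mul_comm]
        rw [this]
        exact Submodule.sum_mem _ fun t _ => C₁.smul_mem _ (hG t)
      have hgne : g ≠ 0 := fun h => hφ0 (congrFun h ω)
      have hg1 := h₁ g hgC hgne
      have hg2 : wt g ≤ dcount F G := by
        unfold wt dcount
        apply card_le_card
        intro ω' hω'
        have h1 : g ω' ≠ 0 := (mem_filter.mp hω').2
        simp only [mem_filter, mem_univ, true_and]
        intro h2
        apply h1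
        show φ (fun t => G' (ω', t)) = 0
        have : (fun t => G' (ω', t)) = R ω' := by
          ext t
          show G ω' t = R ω' t
          rw [← h2]
        rw [this]
        exact hφ (hRC ω')
      have hg3 : (wt g : ℝ) ≤ dcount F G := by exact_mod_cast hg2
      linarith
    refine ⟨G', hGt, ?_⟩
    have h6 : (dcount M G' : ℝ) ≤ dcount M R' + dcount R' G' := by
      exact_mod_cast dcount_triangle M R' G'
    have h7 : (dcount R' G' : ℝ) ≤ (dcount F G : ℝ) * Fintype.card Ω₂ := by
      have : dcount R' G' ≤ dcount F G * Fintype.card Ω₂ := by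
        rw [dcount_prod]
        calc ∑ ω, dcount (fun t => R' (ω, t)) (fun t => G' (ω, t))
            ≤ ∑ ω, (if F ω ≠ G ω then Fintype.card Ω₂ else 0) := by
              apply Finset.sum_le_sum
              intro ω _
              by_cases h : F ω = G ω
              · have : (fun t => R' (ω, t)) = (fun t => G' (ω, t)) := h
                rw [this, dcount_self]; exact Nat.zero_le _
              · rw [if_pos h]; exact dcount_le _ _
          _ = dcount F G * Fintype.card Ω₂ := by
              rw [← Finset.sum_filter, Finset.sum_const, smul_eq_mul]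
              congr 1
              unfold dcount
              congr 1
              ext ω; simp
      exact_mod_cast this
    have h8 : (dcount F G : ℝ) * Fintype.card Ω₂ ≤ κb * r / (d₁ * d₂) * wt E := by
      rw [div_mul_eq_mul_div, le_div_iff₀ (by positivity)]
      calc (dcount F G : ℝ) * Fintype.card Ω₂ * (d₁ * d₂)
          = d₁ * ((dcount F G : ℝ) * (d₂ * Fintype.card Ω₂)) := by ring
        _ ≤ 1 * ((dcount F G : ℝ) * (d₂ * Fintype.card Ω₂)) := by gcongr
        _ = (dcount F G : ℝ) * (d₂ * Fintype.card Ω₂) := one_mul _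
        _ ≤ _ := hrow
    calc (dcount M G' : ℝ) ≤ dcount M R' + dcount R' G' := h6
      _ ≤ κ₂ * V₂ + κb * r / (d₁ * d₂) * wt E := by linarith
      _ ≤ κ₂ * (V₁ + V₂) + κb * r / (d₁ * d₂) * ((κ₁ + κ₂) * (V₁ + V₂)) := by
          gcongr
          linarith
      _ = (κ₂ + κb * r / (d₁ * d₂) * (κ₁ + κ₂)) * (V₁ + V₂) := by ring
      _ = _ := by rw [hV]

end tensor

end Crest.Agent.R289.Tensor560
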