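import Crest.Agent.R289.TwoPlaceB_595
import Crest.Agent.R289.RobT_459
import Crest.Agent.R289.Tensor_560
import Crest.Agent.R289.Tan_846

/-!
Row 289, block B, TP9 (helper946): the abstract two-place left-invariant square complex over a
finite group `P` with label sets `I` (`= Option K`), its Reed-Solomon code of bidegree `(D, D)`,
local testability (`Tensor560.LTC`) and minimum distance (`Tensor560.MinDist`) with absolute
constants, from the expansion of the two one-graphs.
-/

set_option autoImplicit false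
set_option linter.unusedSectionVars false

open Finset Polynomial
open scoped Classical

namespace Crest.Agent.R289.TP9

open TwoPlace595 PS459

/-- abstract two-place data: `a` = x-steps, `b` = y-steps, `L l m` = x-label after the y-step `m`,
`M l m` = y-label after the x-step `l` -/
structure TPD (I P : Type) [Group P] where
  a : I → P
  b : I → P
  L : I → I → I
  M : I → I → I
  comm : ∀ l m, a l * b (M l m) = b m * a (L l m)
  hM : ∀ l, Function.Bijective (M l)
  hL : ∀ m, Function.Bijective (fun l => L l m)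
  hLM : Function.Bijective (fun x : I × I => (L x.1 x.2, M x.1 x.2))

section cx

variable {I P : Type} [Group P] [Fintype I] [Fintype P] (T : TPD I P)

/-- end points of an edge -/
def TPD.hv (i : Bool) (e : P × I) : P := if i then e.1 * T.a e.2 else e.1

def TPD.vv (j : Bool) (f : P × I) : P := if j then f.1 * T.b f.2 else f.1

/-- the two horizontal edges of a square -/
def TPD.eh (j : Bool) (s : P × I × I) : P × I :=
  if j then (s.1 * T.b s.2.2, T.L s.2.1 s.2.2) else (s.1, s.2.1)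

def TPD.ev (i : Bool) (s : P × I × I) : P × I :=
  if i then (s.1 * T.a s.2.1, T.M s.2.1 s.2.2) else (s.1, s.2.2)

theorem TPD.comp (i j : Bool) (s : P × I × I) : T.hv i (T.eh j s) = T.vv j (T.ev i s) := by
  cases i <;> cases j <;> simp [hv, vv, eh, ev]
  rw [mul_assoc, mul_assoc, T.comm]

theorem TPD.uniq (i j : Bool) (e f : P × I) (h : T.hv i e = T.vv j f) :
    ∃! s : P × I × I, T.eh j s = e ∧ T.ev i s = f := by
  obtain ⟨g, l⟩ := e
  obtain ⟨g', m⟩ := f
  cases i <;> cases j
  · have h0 : g = g' := by simpa [hv, vv] using h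
    subst h0
    refine ⟨(g, l, m), by simp [eh, ev], ?_⟩
    rintro ⟨x, y, z⟩ ⟨h1, h2⟩
    have h3 : x = g ∧ y = l := by simpa [eh] using h1
    have h4 : x = g ∧ z = m := by simpa [ev] using h2
    rw [h3.1, h3.2, h4.2]
  · have h0 : g = g' * T.b m := by simpa [hv, vv] using h
    subst h0
    obtain ⟨l', hl', hu⟩ := (T.hL m).existsUnique l
    refine ⟨(g', l', m), ⟨?_, ?_⟩, ?_⟩
    · simpa [eh] using hl'
    · simp [ev]
    · rintro ⟨x, y, z⟩ ⟨h1, h2⟩
      have h3 : x = g' ∧ z = m := by simpa [ev] using h2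
      obtain ⟨h3, h4⟩ := h3
      subst h3; subst h4
      have h5 : T.L y z = l := by simpa [eh] using h1
      rw [hu y h5]
  · have h0 : g * T.a l = g' := by simpa [hv, vv] using h
    subst h0
    obtain ⟨m', hm', hu⟩ := (T.hM l).existsUnique m
    refine ⟨(g, l, m'), ⟨?_, ?_⟩, ?_⟩
    · simp [eh]
    · simpa [ev] using hm'
    · rintro ⟨x, y, z⟩ ⟨h1, h2⟩
      have h3 : x = g ∧ y = l := by simpa [eh] using h1
      obtain ⟨h3, h4⟩ := h3
      subst h3; subst h4
      have h5 : T.M y z = m := by simpa [ev] using h2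
      rw [hu z h5]
  · have h0 : g * T.a l = g' * T.b m := by simpa [hv, vv] using h
    obtain ⟨⟨l', m'⟩, hlm, hu⟩ := T.hLM.existsUnique (l, m)
    simp only [Prod.mk.injEq] at hlm
    have hg : g * (T.b m')⁻¹ * T.a l' = g' := by
      have h3 : T.a l' * T.b m = T.b m' * T.a l := by
        have h2 := T.comm l' m'
        rw [hlm.1, hlm.2] at h2
        exact h2
      have h4 : g * (T.b m')⁻¹ * T.a l' * T.b m = g' * T.b m := by
        rw [mul_assoc (g * (T.b m')⁻¹), h3, ← h0]
        group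
      exact mul_right_cancel h4
    refine ⟨(g * (T.b m')⁻¹, l', m'), ⟨?_, ?_⟩, ?_⟩
    · simp [eh, hlm.1]
    · simp [ev, hg, hlm.2]
    · rintro ⟨x, y, z⟩ ⟨h1, h2⟩
      have h1' : x * T.b z = g ∧ T.L y z = l := by simpa [eh] using h1
      have h2' : x * T.a y = g' ∧ T.M y z = m := by simpa [ev] using h2
      have h5 := hu (y, z) (by simp [h1'.2, h2'.2])
      simp only [Prod.mk.injEq] at h5
      obtain ⟨h5, h6⟩ := h5
      subst h5; subst h6
      have : x = g * (T.b z)⁻¹ := by rw [← h1'.1]; group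
      rw [this]

theorem fib_inj (u : I → P) (i : Bool) (v : P) :
    Function.Injective (fun l : I => ((if i then v * (u l)⁻¹ else v, l) : P × I)) :=
  fun _ _ hxy => (Prod.mk.inj hxy).2

theorem fib_eq (u : I → P) (i : Bool) (v : P) :
    (univ.filter fun e : P × I => (if i then e.1 * u e.2 else e.1) = v) =
      univ.image (fun l : I => ((if i then v * (u l)⁻¹ else v, l) : P × I)) := by
  ext ⟨g, l⟩
  simp only [mem_filter, mem_univ, true_and, mem_image, Prod.mk.injEq]
  cases i
  · simp [eq_comm]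
  · simp only [if_true]
    constructor
    · rintro rfl
      exact ⟨l, by group, rfl⟩
    · rintro ⟨l', h1, h2⟩
      subst h2
      rw [← h1]
      group

theorem card_fib (u : I → P) (i : Bool) (v : P) :
    (univ.filter fun e : P × I => (if i then e.1 * u e.2 else e.1) = v).card = Fintype.card I := by
  rw [fib_eq, card_image_of_injective _ (fib_inj u i v), card_univ]

theorem sum_fib (u : I → P) (i : Bool) (v : P) (F : P × I → ℝ) :
    ∑ e ∈ univ.filter (fun e : P × I => (if i then e.1 * u e.2 else e.1) = v), F e =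
      ∑ l : I, F (if i then v * (u l)⁻¹ else v, l) := by
  rw [fib_eq, sum_image (fun x _ y _ h => fib_inj u i v h)]

/-- spectral gap of the labelled graph `v ~ v * u z` on sum-zero functions -/
def Gap (u : I → P) (Λ : ℝ) : Prop :=
  ∀ x : P → ℝ, ∑ g, x g = 0 → ∑ v, (∑ z, x (v * u z)) ^ 2 ≤ Λ * ∑ g, x g ^ 2

/-- the square complex -/
noncomputable def TPD.cx : SqC (fun _ _ => P) (fun _ => P × I) (fun _ => P × I) (P × I × I)
    (Fintype.card I) (Fintype.card P) where
  hv i _ e := T.hv i e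
  vv _ j f := T.vv j f
  eh := T.eh
  ev := T.ev
  comp := T.comp
  uniq := fun i j e f h => T.uniq i j e f h
  regh := fun i _ v => card_fib T.a i v
  regv := fun _ j v => card_fib T.b j v
  cardV := fun _ _ => rfl

theorem TPD.expV {Λ : ℝ} (h1 : Gap T.b Λ) (h2 : Gap (fun z => (T.b z)⁻¹) Λ) : ExpV T.cx Λ := by
  intro i j x hx
  have key : ∀ v : P, ∑ f ∈ univ.filter (fun f : P × I => T.cx.vv i j f = v),
      x (T.cx.vv i (!j) f) = ∑ z, x (v * (if j then (T.b z)⁻¹ else T.b z)) := by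
    intro v
    refine (sum_fib T.b j v (fun f => x (T.cx.vv i (!j) f))).trans ?_
    refine sum_congr rfl fun z _ => ?_
    cases j <;> rfl
  cases j
  · refine le_trans (le_of_eq ?_) (h1 x hx)
    exact sum_congr rfl fun v _ => by rw [key v]; rfl
  · refine le_trans (le_of_eq ?_) (h2 x hx)
    exact sum_congr rfl fun v _ => by rw [key v]; rfl

theorem TPD.expH {Λ : ℝ} (h1 : Gap T.a Λ) (h2 : Gap (fun z => (T.a z)⁻¹) Λ) : ExpH T.cx Λ := by
  intro i j x hx
  have key : ∀ v : P, ∑ f ∈ univ.filter (fun f : P × I => T.cx.hv i j f = v),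
      x (T.cx.hv (!i) j f) = ∑ z, x (v * (if i then (T.a z)⁻¹ else T.a z)) := by
    intro v
    refine (sum_fib T.a i v (fun f => x (T.cx.hv (!i) j f))).trans ?_
    refine sum_congr rfl fun z _ => ?_
    cases i <;> rfl
  cases i
  · refine le_trans (le_of_eq ?_) (h1 x hx)
    exact sum_congr rfl fun v _ => by rw [key v]; rfl
  · refine le_trans (le_of_eq ?_) (h2 x hx)
    exact sum_congr rfl fun v _ => by rw [key v]; rfl

end cx

section codes

variable {K P : Type} [Field K] [Fintype K] [Group P] [Fintype P]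

/-- functions whose values on the set `E`, multiplied by the scalars `μ`, are the values of a form
of degree `D` along the coordinate `c` -/
noncomputable def RSon {S : Type} (D : ℕ) (E : S → Prop) (μ : S → K) (c : S → Option K) :
    Submodule K (S → K) where
  carrier := {x | ∃ p : K[X], p.natDegree ≤ D ∧ ∀ σ, E σ → μ σ * x σ = ev D p (c σ)}
  add_mem' := by
    rintro x y ⟨p, hp, hpx⟩ ⟨r, hr, hry⟩
    refine ⟨p + r, natDegree_add_le_of_degree_le hp hr, fun σ hσ => ?_⟩
    rw [Pi.add_apply, mul_add, hpx σ hσ, hry σ hσ, ev_add]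
  zero_mem' := ⟨0, by simp, fun σ _ => by simp [ev_zero]⟩
  smul_mem' := by
    rintro a x ⟨p, hp, hpx⟩
    refine ⟨a • p, (natDegree_smul_le a p).trans hp, fun σ hσ => ?_⟩
    rw [ev_smul, ← hpx σ hσ, Pi.smul_apply, smul_eq_mul]
    ring

theorem mem_RSon {S : Type} {D : ℕ} {E : S → Prop} {μ : S → K} {c : S → Option K} {x : S → K} :
    x ∈ RSon D E μ c ↔ ∃ p : K[X], p.natDegree ≤ D ∧ ∀ σ, E σ → μ σ * x σ = ev D p (c σ) := Iff.rfl

theorem RSon_congr {S : Type} {D : ℕ} {E : S → Prop} {μ : S → K} {c : S → Option K} {x y : S → K}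
    (h : ∀ σ, E σ → x σ = y σ) (hx : x ∈ RSon D E μ c) : y ∈ RSon D E μ c := by
  obtain ⟨p, hp, hpx⟩ := hx
  exact ⟨p, hp, fun σ hσ => by rw [← h σ hσ, hpx σ hσ]⟩

/-- membership through a parametrisation of `E` -/
theorem mem_RSon_param {S J : Type} {D : ℕ} {E : S → Prop} {μ : S → K} {c : S → Option K}
    {x : S → K} (s : J → S) (hs : ∀ σ, E σ ↔ ∃ t, s t = σ) :
    x ∈ RSon D E μ c ↔ ∃ p : K[X], p.natDegree ≤ D ∧ ∀ t, μ (s t) * x (s t) = ev D p (c (s t)) := by
  rw [mem_RSon]
  constructor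
  · rintro ⟨p, hp, h⟩
    exact ⟨p, hp, fun t => h _ ((hs _).2 ⟨t, rfl⟩)⟩
  · rintro ⟨p, hp, h⟩
    refine ⟨p, hp, fun σ hσ => ?_⟩
    obtain ⟨t, rfl⟩ := (hs σ).1 hσ
    exact h t

/-- charts at the four kinds of corners: `ee (l, m)`, `oe (px l, M l m)`, `eo (L l m, py m)`,
`oo (px (L l m), py (M l m))`, scalars `so?` (a function times the `D`-th power of the scalar is a
form of degree `D` in the chart), for all degrees divisible by `w`; each kind of edge condition is
the same from both ends of the edge. -/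
structure Ch (T : TPD (Option K) P) (w : ℕ) where
  px : Option K → Option K
  py : Option K → Option K
  hpx : Function.Bijective px
  hpy : Function.Bijective py
  soe : Option K → Option K → K
  seo : Option K → Option K → K
  soo : Option K → Option K → K
  soe_ne : ∀ l m, soe l m ≠ 0
  seo_ne : ∀ l m, seo l m ≠ 0
  soo_ne : ∀ l m, soo l m ≠ 0
  h0 : ∀ D, w ∣ D → ∀ (l : Option K) (x : Option K → K),
    (∃ p : K[X], p.natDegree ≤ D ∧ ∀ m, x m = ev D p m) ↔
      ∃ p : K[X], p.natDegree ≤ D ∧ ∀ m, soe l m ^ D * x m = ev D p (T.M l m)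
  v0 : ∀ D, w ∣ D → ∀ (m : Option K) (x : Option K → K),
    (∃ p : K[X], p.natDegree ≤ D ∧ ∀ l, x l = ev D p l) ↔
      ∃ p : K[X], p.natDegree ≤ D ∧ ∀ l, seo l m ^ D * x l = ev D p (T.L l m)
  h1 : ∀ D, w ∣ D → ∀ (l' : Option K) (lam : Option K → Option K), (∀ m, T.L (lam m) m = l') →
    ∀ x : Option K → K, (∃ p : K[X], p.natDegree ≤ D ∧ ∀ m, seo (lam m) m ^ D * x m = ev D p (py m)) ↔
      ∃ p : K[X], p.natDegree ≤ D ∧ ∀ m, soo (lam m) m ^ D * x m = ev D p (py (T.M (lam m) m))
  v1 : ∀ D, w ∣ D → ∀ (m' : Option K) (mu : Option K → Option K), (∀ l, T.M l (mu l) = m') →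
    ∀ x : Option K → K, (∃ p : K[X], p.natDegree ≤ D ∧ ∀ l, soe l (mu l) ^ D * x l = ev D p (px l)) ↔
      ∃ p : K[X], p.natDegree ≤ D ∧ ∀ l, soo l (mu l) ^ D * x l = ev D p (px (T.L l (mu l)))

variable {T : TPD (Option K) P} {w : ℕ} (C : Ch T w)

/-- the square with given horizontal edge of kind `j` -/
noncomputable def TPD.sqH (T : TPD (Option K) P) (j : Bool) (e : P × Option K) (m : Option K) :
    P × Option K × Option K :=
  if j then (e.1 * (T.b m)⁻¹, (Equiv.ofBijective _ (T.hL m)).symm e.2, m) else (e.1, e.2, m)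

noncomputable def TPD.sqV (T : TPD (Option K) P) (i : Bool) (e : P × Option K) (l : Option K) :
    P × Option K × Option K :=
  if i then (e.1 * (T.a l)⁻¹, l, (Equiv.ofBijective _ (T.hM l)).symm e.2) else (e.1, l, e.2)

theorem TPD.L_inv (T : TPD (Option K) P) (m l' : Option K) :
    T.L ((Equiv.ofBijective _ (T.hL m)).symm l') m = l' :=
  (Equiv.ofBijective _ (T.hL m)).apply_symm_apply l'

theorem TPD.M_inv (T : TPD (Option K) P) (l m' : Option K) :
    T.M l ((Equiv.ofBijective _ (T.hM l)).symm m') = m' :=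
  (Equiv.ofBijective _ (T.hM l)).apply_symm_apply m'

theorem TPD.eh_iff (T : TPD (Option K) P) (j : Bool) (e : P × Option K)
    (σ : P × Option K × Option K) : T.eh j σ = e ↔ ∃ m, T.sqH j e m = σ := by
  obtain ⟨g, l⟩ := e
  obtain ⟨x, y, z⟩ := σ
  cases j
  · simp only [TPD.eh, TPD.sqH, Bool.false_eq_true, if_false, Prod.mk.injEq]
    constructor
    · rintro ⟨rfl, rfl⟩; exact ⟨z, rfl, rfl, rfl⟩
    · rintro ⟨m, rfl, rfl, rfl⟩; exact ⟨rfl, rfl⟩
  · simp only [TPD.eh, TPD.sqH, if_true, Prod.mk.injEq]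
    constructor
    · rintro ⟨h1, h2⟩
      refine ⟨z, by rw [← h1]; group, ?_, rfl⟩
      rw [Equiv.symm_apply_eq]
      exact h2.symm
    · rintro ⟨m, h1, h2, h3⟩
      subst h3
      refine ⟨by rw [← h1]; group, ?_⟩
      rw [← h2]
      exact T.L_inv _ _

theorem TPD.ev_iff (T : TPD (Option K) P) (i : Bool) (e : P × Option K)
    (σ : P × Option K × Option K) : T.ev i σ = e ↔ ∃ l, T.sqV i e l = σ := by
  obtain ⟨g, l⟩ := e
  obtain ⟨x, y, z⟩ := σ
  cases i
  · simp only [TPD.ev, TPD.sqV, Bool.false_eq_true, if_false, Prod.mk.injEq]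
    constructor
    · rintro ⟨rfl, rfl⟩; exact ⟨y, rfl, rfl, rfl⟩
    · rintro ⟨m, rfl, rfl, rfl⟩; exact ⟨rfl, rfl⟩
  · simp only [TPD.ev, TPD.sqV, if_true, Prod.mk.injEq]
    constructor
    · rintro ⟨h1, h2⟩
      refine ⟨y, by rw [← h1]; group, rfl, ?_⟩
      rw [Equiv.symm_apply_eq]
      exact h2.symm
    · rintro ⟨m, h1, h2, h3⟩
      subst h2
      refine ⟨by rw [← h1]; group, ?_⟩
      rw [← h3]
      exact T.M_inv _ _

/-- the horizontal edge codes -/
noncomputable def Ch.cH (D : ℕ) (j : Bool) (e : P × Option K) :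
    Submodule K (P × Option K × Option K → K) :=
  if j then RSon D (fun σ => T.eh true σ = e) (fun σ => C.seo σ.2.1 σ.2.2 ^ D) (fun σ => C.py σ.2.2)
  else RSon D (fun σ => T.eh false σ = e) (fun _ => 1) (fun σ => σ.2.2)

/-- the vertical edge codes -/
noncomputable def Ch.cV (D : ℕ) (i : Bool) (e : P × Option K) :
    Submodule K (P × Option K × Option K → K) :=
  if i then RSon D (fun σ => T.ev true σ = e) (fun σ => C.soe σ.2.1 σ.2.2 ^ D) (fun σ => C.px σ.2.1)
  else RSon D (fun σ => T.ev false σ = e) (fun _ => 1) (fun σ => σ.2.1)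

/-- the scalar at a corner -/
noncomputable def Ch.mu (i j : Bool) (l m : Option K) : K :=
  if i then (if j then C.soo l m else C.soe l m) else (if j then C.seo l m else 1)

/-- the `x`-coordinate of a horizontal edge at its `i`-end -/
def Ch.hz (i : Bool) (e : P × Option K) : Option K := if i then C.px e.2 else e.2

/-- the `y`-coordinate of a vertical edge at its `j`-end -/
def Ch.vz (j : Bool) (e : P × Option K) : Option K := if j then C.py e.2 else e.2

theorem Ch.mu_ne (i j : Bool) (l m : Option K) : C.mu i j l m ≠ 0 := by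
  unfold mu
  cases i <;> cases j <;> simp [C.soo_ne, C.soe_ne, C.seo_ne]

/-- the horizontal edge condition at either end -/
theorem Ch.cH_iff {D : ℕ} (hD : w ∣ D) (i j : Bool) (e : P × Option K)
    (x : P × Option K × Option K → K) :
    x ∈ C.cH D j e ↔ ∃ p : K[X], p.natDegree ≤ D ∧ ∀ σ, T.eh j σ = e →
      C.mu i j σ.2.1 σ.2.2 ^ D * x σ = ev D p (C.vz j (T.ev i σ)) := by
  have hp := T.eh_iff j e
  cases j
  · have h := mem_RSon_param (x := x) (D := D) (μ := fun _ => (1 : K))
      (c := fun σ : P × Option K × Option K => σ.2.2) (T.sqH false e) hp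
    have e1 : x ∈ C.cH D false e ↔ ∃ p : K[X], p.natDegree ≤ D ∧
        ∀ m, x (e.1, e.2, m) = ev D p m := by
      simpa [Ch.cH, TPD.sqH] using h
    rw [e1]
    cases i
    · constructor
      · rintro ⟨p, h1, h2⟩
        refine ⟨p, h1, fun σ hσ => ?_⟩
        obtain ⟨m, rfl⟩ := (hp σ).1 hσ
        simpa [Ch.mu, TPD.sqH, TPD.ev, Ch.vz] using h2 m
      · rintro ⟨p, h1, h2⟩
        refine ⟨p, h1, fun m => ?_⟩
        have := h2 _ ((hp _).2 ⟨m, rfl⟩)
        simpa [Ch.mu, TPD.sqH, TPD.ev, Ch.vz] using this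
    · rw [C.h0 D hD e.2 (fun m => x (e.1, e.2, m))]
      constructor
      · rintro ⟨p, h1, h2⟩
        refine ⟨p, h1, fun σ hσ => ?_⟩
        obtain ⟨m, rfl⟩ := (hp σ).1 hσ
        simpa [Ch.mu, TPD.sqH, TPD.ev, Ch.vz] using h2 m
      · rintro ⟨p, h1, h2⟩
        refine ⟨p, h1, fun m => ?_⟩
        have := h2 _ ((hp _).2 ⟨m, rfl⟩)
        simpa [Ch.mu, TPD.sqH, TPD.ev, Ch.vz] using this
  · have h := mem_RSon_param (x := x) (D := D)
      (μ := fun σ : P × Option K × Option K => C.seo σ.2.1 σ.2.2 ^ D)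
      (c := fun σ : P × Option K × Option K => C.py σ.2.2) (T.sqH true e) hp
    have e1 : x ∈ C.cH D true e ↔ ∃ p : K[X], p.natDegree ≤ D ∧
        ∀ m, C.seo ((Equiv.ofBijective _ (T.hL m)).symm e.2) m ^ D *
          x (T.sqH true e m) = ev D p (C.py m) := by
      simpa [Ch.cH, TPD.sqH] using h
    rw [e1]
    cases i
    · constructor
      · rintro ⟨p, h1, h2⟩
        refine ⟨p, h1, fun σ hσ => ?_⟩
        obtain ⟨m, rfl⟩ := (hp σ).1 hσ
        simpa [Ch.mu, TPD.sqH, TPD.ev, Ch.vz] using h2 m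
      · rintro ⟨p, h1, h2⟩
        refine ⟨p, h1, fun m => ?_⟩
        have := h2 _ ((hp _).2 ⟨m, rfl⟩)
        simpa [Ch.mu, TPD.sqH, TPD.ev, Ch.vz] using this
    · rw [C.h1 D hD e.2 (fun m => (Equiv.ofBijective _ (T.hL m)).symm e.2)
        (fun m => T.L_inv m e.2) (fun m => x (T.sqH true e m))]
      constructor
      · rintro ⟨p, h1, h2⟩
        refine ⟨p, h1, fun σ hσ => ?_⟩
        obtain ⟨m, rfl⟩ := (hp σ).1 hσ
        simpa [Ch.mu, TPD.sqH, TPD.ev, Ch.vz] using h2 m
      · rintro ⟨p, h1, h2⟩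
        refine ⟨p, h1, fun m => ?_⟩
        have := h2 _ ((hp _).2 ⟨m, rfl⟩)
        simpa [Ch.mu, TPD.sqH, TPD.ev, Ch.vz] using this

/-- the vertical edge condition at either end -/
theorem Ch.cV_iff {D : ℕ} (hD : w ∣ D) (i j : Bool) (e : P × Option K)
    (x : P × Option K × Option K → K) :
    x ∈ C.cV D i e ↔ ∃ p : K[X], p.natDegree ≤ D ∧ ∀ σ, T.ev i σ = e →
      C.mu i j σ.2.1 σ.2.2 ^ D * x σ = ev D p (C.hz i (T.eh j σ)) := by
  have hp := T.ev_iff i e
  cases i
  · have h := mem_RSon_param (x := x) (D := D) (μ := fun _ => (1 : K))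
      (c := fun σ : P × Option K × Option K => σ.2.1) (T.sqV false e) hp
    have e1 : x ∈ C.cV D false e ↔ ∃ p : K[X], p.natDegree ≤ D ∧
        ∀ l, x (e.1, l, e.2) = ev D p l := by
      simpa [Ch.cV, TPD.sqV] using h
    rw [e1]
    cases j
    · constructor
      · rintro ⟨p, h1, h2⟩
        refine ⟨p, h1, fun σ hσ => ?_⟩
        obtain ⟨m, rfl⟩ := (hp σ).1 hσ
        simpa [Ch.mu, TPD.sqV, TPD.eh, Ch.hz] using h2 m
      · rintro ⟨p, h1, h2⟩
        refine ⟨p, h1, fun m => ?_⟩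
        have := h2 _ ((hp _).2 ⟨m, rfl⟩)
        simpa [Ch.mu, TPD.sqV, TPD.eh, Ch.hz] using this
    · rw [C.v0 D hD e.2 (fun l => x (e.1, l, e.2))]
      constructor
      · rintro ⟨p, h1, h2⟩
        refine ⟨p, h1, fun σ hσ => ?_⟩
        obtain ⟨m, rfl⟩ := (hp σ).1 hσ
        simpa [Ch.mu, TPD.sqV, TPD.eh, Ch.hz] using h2 m
      · rintro ⟨p, h1, h2⟩
        refine ⟨p, h1, fun m => ?_⟩
        have := h2 _ ((hp _).2 ⟨m, rfl⟩)
        simpa [Ch.mu, TPD.sqV, TPD.eh, Ch.hz] using this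
  · have h := mem_RSon_param (x := x) (D := D)
      (μ := fun σ : P × Option K × Option K => C.soe σ.2.1 σ.2.2 ^ D)
      (c := fun σ : P × Option K × Option K => C.px σ.2.1) (T.sqV true e) hp
    have e1 : x ∈ C.cV D true e ↔ ∃ p : K[X], p.natDegree ≤ D ∧
        ∀ l, C.soe l ((Equiv.ofBijective _ (T.hM l)).symm e.2) ^ D *
          x (T.sqV true e l) = ev D p (C.px l) := by
      simpa [Ch.cV, TPD.sqV] using h
    rw [e1]
    cases j
    · constructor
      · rintro ⟨p, h1, h2⟩
        refine ⟨p, h1, fun σ hσ => ?_⟩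
        obtain ⟨m, rfl⟩ := (hp σ).1 hσ
        simpa [Ch.mu, TPD.sqV, TPD.eh, Ch.hz] using h2 m
      · rintro ⟨p, h1, h2⟩
        refine ⟨p, h1, fun m => ?_⟩
        have := h2 _ ((hp _).2 ⟨m, rfl⟩)
        simpa [Ch.mu, TPD.sqV, TPD.eh, Ch.hz] using this
    · rw [C.v1 D hD e.2 (fun l => (Equiv.ofBijective _ (T.hM l)).symm e.2)
        (fun l => T.M_inv l e.2) (fun l => x (T.sqV true e l))]
      constructor
      · rintro ⟨p, h1, h2⟩
        refine ⟨p, h1, fun σ hσ => ?_⟩
        obtain ⟨m, rfl⟩ := (hp σ).1 hσ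
        simpa [Ch.mu, TPD.sqV, TPD.eh, Ch.hz] using h2 m
      · rintro ⟨p, h1, h2⟩
        refine ⟨p, h1, fun m => ?_⟩
        have := h2 _ ((hp _).2 ⟨m, rfl⟩)
        simpa [Ch.mu, TPD.sqV, TPD.eh, Ch.hz] using this

theorem Ch.cH_congr (D : ℕ) (j : Bool) (e : P × Option K) (x y : P × Option K × Option K → K)
    (h : ∀ σ, T.eh j σ = e → x σ = y σ) (hx : x ∈ C.cH D j e) : y ∈ C.cH D j e := by
  cases j
  · exact RSon_congr (E := fun σ => T.eh false σ = e) h hx
  · exact RSon_congr (E := fun σ => T.eh true σ = e) h hx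

theorem Ch.cV_congr (D : ℕ) (i : Bool) (e : P × Option K) (x y : P × Option K × Option K → K)
    (h : ∀ σ, T.ev i σ = e → x σ = y σ) (hx : x ∈ C.cV D i e) : y ∈ C.cV D i e := by
  cases i
  · exact RSon_congr (E := fun σ => T.ev false σ = e) h hx
  · exact RSon_congr (E := fun σ => T.ev true σ = e) h hx

/-- the edge codes as `Codes` of the square complex (alphabet `Unit → K`) -/
noncomputable def Ch.codes (D : ℕ) : Codes T.cx (Unit → K) where
  okh j e x := (fun σ => x σ ()) ∈ C.cH D j e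
  okv i e x := (fun σ => x σ ()) ∈ C.cV D i e
  okh_congr j e x y h hx := C.cH_congr D j e _ _ (fun σ hσ => by rw [h σ hσ]) hx
  okv_congr i e x y h hx := C.cV_congr D i e _ _ (fun σ hσ => by rw [h σ hσ]) hx

theorem fib_bijOn (u : Option K → P) (i : Bool) (v : P) (c : Option K → Option K)
    (hc : Function.Bijective c) :
    Set.BijOn (fun e : P × Option K => c e.2)
      {e : P × Option K | (if i then e.1 * u e.2 else e.1) = v} Set.univ := by
  refine ⟨fun _ _ => Set.mem_univ _, ?_, ?_⟩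
  · rintro ⟨g, l⟩ h1 ⟨g', l'⟩ h2 h3
    have h4 : l = l' := hc.1 h3
    subst h4
    simp only [Set.mem_ofPred_eq] at h1 h2
    cases i
    · simp only [Bool.false_eq_true, if_false] at h1 h2
      rw [h1, h2]
    · simp only [if_true] at h1 h2
      have : g = g' := mul_right_cancel (h1.trans h2.symm)
      rw [this]
  · intro z _
    obtain ⟨l, hl⟩ := hc.2 z
    refine ⟨((if i then v * (u l)⁻¹ else v), l), ?_, hl⟩
    simp only [Set.mem_ofPred_eq]
    cases i <;> simp

/-- **agreement testability** of the local codes -/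
theorem Ch.codes_AT {D : ℕ} (hD : w ∣ D) (hK : 8 * D + 32 ≤ Fintype.card K) :
    (C.codes D).AT 92 := by
  refine at_RS (C.codes D) (by simp [Fintype.card_option]) D hK ?_
  intro i j v
  refine ⟨C.hz i, C.vz j, fun σ _ => C.mu i j σ.2.1 σ.2.2 ^ D, fun _ => D, fun _ => D,
    fun _ => le_rfl, fun _ => le_rfl, fun σ _ => pow_ne_zero _ (C.mu_ne i j _ _), ?_, ?_, ?_, ?_⟩
  · have h := fib_bijOn T.a i v (fun l => if i then C.px l else l) (by
      cases i
      · simpa using Function.bijective_id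
      · simpa using C.hpx)
    exact h
  · have h := fib_bijOn T.b j v (fun l => if j then C.py l else l) (by
      cases j
      · simpa using Function.bijective_id
      · simpa using C.hpy)
    exact h
  · intro g _ x
    have h := C.cH_iff hD i j g (fun σ => x σ ())
    constructor
    · intro hx r
      cases r
      exact h.1 hx
    · intro hx
      exact h.2 (hx ())
  · intro g _ x
    have h := C.cV_iff hD i j g (fun σ => x σ ())
    constructor
    · intro hx r
      cases r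
      exact h.1 hx
    · intro hx
      exact h.2 (hx ())

/-- (F0) the condition at the vertex `(i, j, v)` -/
noncomputable def Ch.tst (D : ℕ) (k : Bool × Bool × P) :
    Submodule K (P × Option K × Option K → K) where
  carrier := {x | (∀ e, T.hv k.1 e = k.2.2 → x ∈ C.cH D k.2.1 e) ∧
    ∀ e, T.vv k.2.1 e = k.2.2 → x ∈ C.cV D k.1 e}
  add_mem' := fun hx hy => ⟨fun e he => (C.cH D _ e).add_mem (hx.1 e he) (hy.1 e he),
    fun e he => (C.cV D _ e).add_mem (hx.2 e he) (hy.2 e he)⟩
  zero_mem' := ⟨fun e _ => (C.cH D _ e).zero_mem, fun e _ => (C.cV D _ e).zero_mem⟩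
  smul_mem' := fun c _ hx => ⟨fun e he => (C.cH D _ e).smul_mem c (hx.1 e he),
    fun e he => (C.cV D _ e).smul_mem c (hx.2 e he)⟩

/-- (F0) the two-place code of bidegree `(D, D)` -/
noncomputable def Ch.code (D : ℕ) : Submodule K (P × Option K × Option K → K) where
  carrier := {x | ∀ k, x ∈ C.tst D k}
  add_mem' := fun hx hy k => (C.tst D k).add_mem (hx k) (hy k)
  zero_mem' := fun k => (C.tst D k).zero_mem
  smul_mem' := fun c _ hx k => (C.tst D k).smul_mem c (hx k)

theorem Ch.mem_code {D : ℕ} {x : P × Option K × Option K → K} :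
    x ∈ C.code D ↔ ∀ k, x ∈ C.tst D k := Iff.rfl

theorem Ch.code_le (D : ℕ) (k : Bool × Bool × P) : C.code D ≤ C.tst D k := fun _ hx => hx k

theorem Ch.mem_code_iff {D : ℕ} {x : P × Option K × Option K → K} :
    x ∈ C.code D ↔ (∀ j e, x ∈ C.cH D j e) ∧ ∀ i e, x ∈ C.cV D i e := by
  constructor
  · intro h
    exact ⟨fun j e => (h (false, j, T.hv false e)).1 e rfl,
      fun i e => (h (i, false, T.vv false e)).2 e rfl⟩
  · rintro ⟨h1, h2⟩ k
    exact ⟨fun e _ => h1 _ e, fun e _ => h2 _ e⟩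

theorem Ch.okV_iff {D : ℕ} (i j : Bool) (v : P) (f : P × Option K × Option K → Unit → K) :
    (C.codes D).okV i j v f ↔ (fun σ => f σ ()) ∈ C.tst D (i, j, v) := Iff.rfl

/-- number of bad vertices = number of failing tests -/
theorem Ch.bad_eq {D : ℕ} (f : P × Option K × Option K → Unit → K) :
    bad (C.codes D) f = Tensor560.vcount (C.tst D) (fun σ => f σ ()) := by
  unfold bad Tensor560.vcount
  rw [card_filter, Fintype.sum_prod_type]
  refine sum_congr rfl fun i _ => ?_
  rw [Fintype.sum_prod_type]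
  refine sum_congr rfl fun j _ => ?_
  rw [card_filter]
  refine sum_congr rfl fun v _ => ?_
  rw [C.okV_iff]

/-- **(F1)** local testability of the two-place code -/
theorem Ch.ltc {D : ℕ} (hD : w ∣ D) (hK : 8 * D + 32 ≤ Fintype.card K) {Λ : ℝ} (hΛ : 0 ≤ Λ)
    (ha : Gap T.a Λ) (ha' : Gap (fun z => (T.a z)⁻¹) Λ) (hb : Gap T.b Λ)
    (hb' : Gap (fun z => (T.b z)⁻¹) Λ)
    (hnum : 4 * (92 : ℝ) ^ 2 * Λ ≤ ((Fintype.card K : ℝ) + 1) ^ 2) :
    Tensor560.LTC (C.code D) (C.tst D) (16 * 92 ^ 2 * ((Fintype.card K : ℝ) + 1) ^ 3) := by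
  intro f
  set n : ℕ := Fintype.card (Option K) with hn
  have hnK : (n : ℝ) = (Fintype.card K : ℝ) + 1 := by
    rw [hn, Fintype.card_option]; push_cast; ring
  have hn0 : 0 < n := Fintype.card_pos
  have hn1 : (1 : ℝ) ≤ (n : ℝ) := by exact_mod_cast hn0
  rw [← hnK] at hnum ⊢
  set B := Tensor560.vcount (C.tst D) f with hB
  by_cases hsmall : 16 * 92 ^ 2 * n * B < Fintype.card P
  · obtain ⟨c, hc, hd⟩ := two_place (C.codes D) (C.codes_AT hD hK) hΛ (T.expV hb hb')
      (T.expH ha ha') (by exact_mod_cast hnum) hn0 (fun _ _ => 0)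
      (fun i j v => (C.okV_iff i j v _).2 (C.tst D (i, j, v)).zero_mem) (fun σ _ => f σ)
      (by rw [C.bad_eq]; exact hsmall)
    refine ⟨fun σ => c σ (), fun k => (C.okV_iff k.1 k.2.1 k.2.2 c).1 (hc k.1 k.2.1 k.2.2), ?_⟩
    rw [C.bad_eq] at hd
    have h1 : Tensor560.dcount f (fun σ => c σ ()) ≤ n ^ 2 * ((4 * n + 1) * B) := by
      refine le_trans (card_le_card ?_) hd
      intro σ hσ
      simp only [mem_filter, mem_univ, true_and] at hσ ⊢
      intro h
      exact hσ (congrFun h ())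
    have h2 : (Tensor560.dcount f (fun σ => c σ ()) : ℝ) ≤ (n : ℝ) ^ 2 * ((4 * n + 1) * B) := by
      exact_mod_cast h1
    refine h2.trans ?_
    have hB0 : (0 : ℝ) ≤ B := Nat.cast_nonneg _
    have h3 : (4 * (n : ℝ) + 1) ≤ 16 * 92 ^ 2 * n := by nlinarith
    calc (n : ℝ) ^ 2 * ((4 * n + 1) * B) ≤ (n : ℝ) ^ 2 * ((16 * 92 ^ 2 * n) * B) := by gcongr
      _ = 16 * 92 ^ 2 * (n : ℝ) ^ 3 * B := by ring
  · refine ⟨0, (C.code D).zero_mem, ?_⟩
    push Not at hsmall
    have h1 : (Tensor560.dcount f 0 : ℝ) ≤ Fintype.card (P × Option K × Option K) := by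
      exact_mod_cast Tensor560.dcount_le f 0
    have h2 : (Fintype.card (P × Option K × Option K) : ℝ) = Fintype.card P * (n : ℝ) ^ 2 := by
      rw [Fintype.card_prod, Fintype.card_prod]; push_cast; ring
    have h3 : (Fintype.card P : ℝ) ≤ 16 * 92 ^ 2 * n * B := by exact_mod_cast hsmall
    calc (Tensor560.dcount f 0 : ℝ) ≤ Fintype.card P * (n : ℝ) ^ 2 := by rw [← h2]; exact h1
      _ ≤ (16 * 92 ^ 2 * n * B) * (n : ℝ) ^ 2 := by gcongr
      _ = 16 * 92 ^ 2 * (n : ℝ) ^ 3 * B := by ring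

end codes

end Crest.Agent.R289.TP9
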