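import Crest.Agent.R289.LTC_846
import Crest.Agent.R289.Tan_846

/-!
Row 289, block B (TP1 + TP3): the abstract TWO-PLACE left-invariant square complex at unit level.

`P` finite group, `I` labels, x-steps `a`, y-steps `b`, transports `L`, `M` with
`a l * b (M l m) = b m * a (L l m)`.  Squares `(g,l,m)`; corners `g`, `g * a l`, `g * b m`,
`g * a l * b (M l m)`.  Arrays are `X : P → I → I → A`, `A` an arbitrary alphabet.

Edge codes: `xc j z` = functions of `m` on the squares of an x-edge with label `z` (type `j`),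
`yc i w` = functions of `l` on the squares of a y-edge with label `w` (type `i`).

* `sound` : few violated units ⇒ near a code word (from `SqCx.ltc`),
* `compl`, `sep`, `corr_le` (from `Tan_846`), `trans_mem` (left invariance).
-/

set_option autoImplicit false
set_option linter.unusedSectionVars false

namespace Crest.Agent.R289.TP846

open Finset
open Crest.Agent.R289.LTC846 Crest.Agent.R289.Tan846

/-! ### counting -/

theorem cnt_le_of_inj {α β : Type} [Fintype α] [Fintype β] {p : α → Prop} {q : β → Prop}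
    (f : α → β) (h : ∀ x, p x → q (f x)) (hi : ∀ x y, p x → p y → f x = f y → x = y) :
    cnt p ≤ cnt q := by
  classical
  unfold cnt
  refine Finset.card_le_card_of_injOn f ?_ ?_
  · intro x hx
    exact Finset.mem_coe.2 (Finset.mem_filter.2
      ⟨Finset.mem_univ _, h x (Finset.mem_filter.1 (Finset.mem_coe.1 hx)).2⟩)
  · intro x hx y hy hxy
    exact hi x y (Finset.mem_filter.1 (Finset.mem_coe.1 hx)).2
      (Finset.mem_filter.1 (Finset.mem_coe.1 hy)).2 hxy

theorem card_eq_cnt {α : Type} [Fintype α] (p : α → Prop) [DecidablePred p] :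
    #{x | p x} = cnt p := by
  unfold cnt
  congr

/-- `p x` implies that one of the `T` many points `f t x`-related has `q`: union bound -/
theorem cnt_le_mul {α β τ : Type} [Fintype α] [Fintype β] [Fintype τ] {p : α → Prop}
    {q : β → Prop} (f : τ → β → α) (h : ∀ x, p x → ∃ t y, q y ∧ f t y = x) :
    cnt p ≤ Fintype.card τ * cnt q := by
  classical
  unfold cnt
  calc (univ.filter p).card
      ≤ ((univ : Finset τ).biUnion fun t => (univ.filter q).image (f t)).card := by
        refine Finset.card_le_card fun x hx => ?_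
        obtain ⟨t, y, hy, rfl⟩ := h x (Finset.mem_filter.1 hx).2
        simp only [Finset.mem_biUnion, Finset.mem_univ, true_and, Finset.mem_image,
          Finset.mem_filter]
        exact ⟨t, y, hy, rfl⟩
    _ ≤ ∑ t : τ, ((univ.filter q).image (f t)).card := Finset.card_biUnion_le
    _ ≤ ∑ _t : τ, (univ.filter q).card := Finset.sum_le_sum fun t _ => Finset.card_image_le
    _ = Fintype.card τ * (univ.filter q).card := by simp

/-! ### the complex -/

/-- two-place data -/
structure TP (P I : Type) [Group P] where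
  a : I → P
  b : I → P
  L : I → I → I
  M : I → I → I
  comm : ∀ l m, a l * b (M l m) = b m * a (L l m)
  M_bij : ∀ l, Function.Bijective (M l)
  L_bij : ∀ m, Function.Bijective fun l => L l m
  LM_inj : ∀ l m l' m', L l m = L l' m' → M l m = M l' m' → l = l' ∧ m = m'

variable {P I A : Type} [Group P] (D : TP P I)

namespace TP

/-- x-label of the square `(g,l,m)` on its x-edge of type `j` -/
def xl (j : Bool) (l m : I) : I := if j then D.L l m else l

/-- y-label of the square on its y-edge of type `i` -/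
def yl (i : Bool) (l m : I) : I := if i then D.M l m else m

/-- x-step of type `i` -/
def ai (i : Bool) (z : I) : P := if i then D.a z else 1

/-- y-step of type `j` -/
def bj (j : Bool) (w : I) : P := if j then D.b w else 1

/-- the `l` with `xl j l m = z` -/
noncomputable def li (j : Bool) (m z : I) : I :=
  if j then (Equiv.ofBijective _ (D.L_bij m)).symm z else z

/-- the `m` with `yl i l m = w` -/
noncomputable def mi (i : Bool) (l w : I) : I :=
  if i then (Equiv.ofBijective _ (D.M_bij l)).symm w else w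

theorem xl_li (j : Bool) (m z : I) : D.xl j (D.li j m z) m = z := by
  cases j
  · rfl
  · simp only [xl, li, if_true]
    exact (Equiv.ofBijective _ (D.L_bij m)).apply_symm_apply z

theorem li_xl (j : Bool) (l m : I) : D.li j m (D.xl j l m) = l := by
  cases j
  · rfl
  · simp only [xl, li, if_true]
    exact (Equiv.ofBijective _ (D.L_bij m)).symm_apply_apply l

theorem yl_mi (i : Bool) (l w : I) : D.yl i l (D.mi i l w) = w := by
  cases i
  · rfl
  · simp only [yl, mi, if_true]
    exact (Equiv.ofBijective _ (D.M_bij l)).apply_symm_apply w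

theorem mi_yl (i : Bool) (l m : I) : D.mi i l (D.yl i l m) = m := by
  cases i
  · rfl
  · simp only [yl, mi, if_true]
    exact (Equiv.ofBijective _ (D.M_bij l)).symm_apply_apply m

/-- total step from the even-even corner to the corner of type `(i,j)` -/
def st (i j : Bool) (l m : I) : P := D.ai i l * D.bj j (D.yl i l m)

theorem st_eq (i j : Bool) (l m : I) : D.st i j l m = D.bj j m * D.ai i (D.xl j l m) := by
  cases i <;> cases j <;> simp [st, ai, bj, xl, yl, D.comm]

/-- the square complex -/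
def cx : SqCx (fun _ _ => P) (fun _ => P × I) (fun _ => P × I) (P × I × I) where
  cor i j s := s.1 * D.st i j s.2.1 s.2.2
  xe j s := (s.1 * D.bj j s.2.2, D.xl j s.2.1 s.2.2)
  ye i s := (s.1 * D.ai i s.2.1, D.yl i s.2.1 s.2.2)
  xend i _ e := e.1 * D.ai i e.2
  yend _ j f := f.1 * D.bj j f.2
  hx i j s := by simp only [D.st_eq, mul_assoc]
  hy i j s := by simp only [st, mul_assoc]
  inj i j s s' h1 h2 := by
    obtain ⟨g, l, m⟩ := s
    obtain ⟨g', l', m'⟩ := s'
    simp only [Prod.mk.injEq] at h1 h2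
    obtain ⟨h1, h3⟩ := h1
    obtain ⟨h2, h4⟩ := h2
    have hlm : l = l' ∧ m = m' := by
      cases i <;> cases j <;> simp only [xl, yl, if_true, Bool.false_eq_true, if_false] at h3 h4
      · exact ⟨h3, h4⟩
      · subst h4
        exact ⟨(D.L_bij m).1 h3, rfl⟩
      · subst h3
        exact ⟨rfl, (D.M_bij l).1 h4⟩
      · exact D.LM_inj _ _ _ _ h3 h4
    obtain ⟨rfl, rfl⟩ := hlm
    rw [mul_right_cancel h1]

theorem cx_xend (i j : Bool) (e : P × I) : D.cx.xend i j e = e.1 * D.ai i e.2 := rfl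
theorem cx_yend (i j : Bool) (e : P × I) : D.cx.yend i j e = e.1 * D.bj j e.2 := rfl
theorem cx_xe (j : Bool) (s : P × I × I) :
    D.cx.xe j s = (s.1 * D.bj j s.2.2, D.xl j s.2.1 s.2.2) := rfl
theorem cx_ye (i : Bool) (s : P × I × I) :
    D.cx.ye i s = (s.1 * D.ai i s.2.1, D.yl i s.2.1 s.2.2) := rfl
theorem cx_cor (i j : Bool) (s : P × I × I) : D.cx.cor i j s = s.1 * D.st i j s.2.1 s.2.2 := rfl

/-- the square with y-label `m` on the x-edge `(h,z)` of type `j` -/
noncomputable def sqX (j : Bool) (h : P) (z m : I) : P × I × I :=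
  (h * (D.bj j m)⁻¹, D.li j m z, m)

/-- the square with x-label `l` on the y-edge `(h,w)` of type `i` -/
noncomputable def sqY (i : Bool) (h : P) (w l : I) : P × I × I :=
  (h * (D.ai i l)⁻¹, l, D.mi i l w)

theorem xe_sqX (j : Bool) (h : P) (z m : I) : D.cx.xe j (D.sqX j h z m) = (h, z) := by
  simp [cx_xe, sqX, xl_li]

theorem ye_sqY (i : Bool) (h : P) (w l : I) : D.cx.ye i (D.sqY i h w l) = (h, w) := by
  simp [cx_ye, sqY, yl_mi]

theorem sqX_xe (j : Bool) (s : P × I × I) :
    D.sqX j (D.cx.xe j s).1 (D.cx.xe j s).2 s.2.2 = s := by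
  simp [cx_xe, sqX, li_xl]

theorem sqY_ye (i : Bool) (s : P × I × I) :
    D.sqY i (D.cx.ye i s).1 (D.cx.ye i s).2 s.2.1 = s := by
  simp [cx_ye, sqY, mi_yl]

/-- local code at the vertex `v` of type `(i,j)` -/
def LC (xc : Bool → I → Set (I → A)) (yc : Bool → I → Set (I → A)) (i j : Bool) (v : P) :
    Set (P × I × I → A) :=
  {u | (∀ z, (fun m => u (D.sqX j (v * (D.ai i z)⁻¹) z m)) ∈ xc j z) ∧
    ∀ w, (fun l => u (D.sqY i (v * (D.bj j w)⁻¹) w l)) ∈ yc i w}

/-- local codes of the complex -/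
def C (xc : Bool → I → Set (I → A)) (yc : Bool → I → Set (I → A)) :
    Vt (fun _ _ => P : Bool → Bool → Type) → Set (P × I × I → A) :=
  fun x => D.LC xc yc x.1.1 x.1.2 x.2

/-- agreement testability at the vertices of type `(i,j)`: squares at a vertex = pairs `(l,m)`,
columns = x-edges `z = xl j l m` (functions of `m`), rows = y-edges `w = yl i l m`
(functions of `l`) -/
def Rob [Fintype I] (xc : Bool → I → Set (I → A)) (yc : Bool → I → Set (I → A)) (i j : Bool)
    (K : ℝ) : Prop :=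
  ∀ c r : I → I → A, (∀ z, c z ∈ xc j z) → (∀ w, r w ∈ yc i w) →
    ∃ Q : I → I → A, (∀ z, (fun m => Q (D.li j m z) m) ∈ xc j z) ∧
      (∀ w, (fun l => Q l (D.mi i l w)) ∈ yc i w) ∧
      (Fintype.card I : ℝ) * ((cnt fun z => (fun m => Q (D.li j m z) m) ≠ c z) +
          (cnt fun w => (fun l => Q l (D.mi i l w)) ≠ r w)) ≤
        K * (cnt fun p : I × I => c (D.xl j p.1 p.2) p.2 ≠ r (D.yl i p.1 p.2) p.1)

variable [Fintype P] [Fintype I]

open Classical in
theorem filt_xend {N : Type} [AddCommMonoid N] (i j : Bool) (v : P) (g : P × I → N) :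
    ∑ e ∈ ({e : P × I | D.cx.xend i j e = v} : Finset (P × I)), g e =
      ∑ z, g (v * (D.ai i z)⁻¹, z) := by
  symm
  refine Finset.sum_bij (fun z _ => (v * (D.ai i z)⁻¹, z)) ?_ ?_ ?_ ?_
  · intro z _
    refine Finset.mem_filter.2 ⟨Finset.mem_univ _, ?_⟩
    rw [cx_xend]
    simp
  · intro z _ z' _ h
    exact (Prod.mk.inj h).2
  · intro e he
    have h2 := (Finset.mem_filter.1 he).2
    rw [cx_xend] at h2
    refine ⟨e.2, Finset.mem_univ _, ?_⟩
    rw [← h2]
    simp
  · intro z _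
    rfl

open Classical in
theorem filt_yend {N : Type} [AddCommMonoid N] (i j : Bool) (v : P) (g : P × I → N) :
    ∑ e ∈ ({e : P × I | D.cx.yend i j e = v} : Finset (P × I)), g e =
      ∑ w, g (v * (D.bj j w)⁻¹, w) := by
  symm
  refine Finset.sum_bij (fun z _ => (v * (D.bj j z)⁻¹, z)) ?_ ?_ ?_ ?_
  · intro z _
    refine Finset.mem_filter.2 ⟨Finset.mem_univ _, ?_⟩
    rw [cx_yend]
    simp
  · intro z _ z' _ h
    exact (Prod.mk.inj h).2
  · intro e he
    have h2 := (Finset.mem_filter.1 he).2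
    rw [cx_yend] at h2
    refine ⟨e.2, Finset.mem_univ _, ?_⟩
    rw [← h2]
    simp
  · intro z _
    rfl

open Classical in
theorem card_xend (i j : Bool) (v : P) :
    #({e : P × I | D.cx.xend i j e = v} : Finset (P × I)) = Fintype.card I := by
  have := filt_xend D i j v (fun _ => 1)
  simpa using this

open Classical in
theorem card_yend (i j : Bool) (v : P) :
    #({e : P × I | D.cx.yend i j e = v} : Finset (P × I)) = Fintype.card I := by
  have := filt_yend D i j v (fun _ => 1)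
  simpa using this

end TP

/-- expansion of the graph `v ↦ v * s z` -/
def Exp [Fintype P] [Fintype I] (s : I → P) (lam : ℝ) : Prop :=
  ∀ g : P → ℝ, (∀ v, 0 ≤ g v) →
    ∑ v, (∑ z, g (v * s z)) ^ 2 ≤
      (Fintype.card I : ℝ) ^ 2 * ((∑ v, g v) ^ 2 / (Fintype.card P : ℝ) + lam ^ 2 * ∑ v, g v ^ 2)

namespace TP

variable [Fintype P] [Fintype I]

theorem expX {lam : ℝ} (h1 : Exp D.a lam) (h2 : Exp (fun z => (D.a z)⁻¹) lam) :
    D.cx.ExpX (Fintype.card I) (Fintype.card P) lam := by
  classical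
  intro i j g hg
  have e : ∀ v, ∑ e ∈ ({e : P × I | D.cx.xend i j e = v} : Finset (P × I)),
      g (D.cx.xend (!i) j e) = ∑ z, g (v * ((D.ai i z)⁻¹ * D.ai (!i) z)) := by
    intro v
    rw [filt_xend D i j v (fun e => g (D.cx.xend (!i) j e))]
    refine Finset.sum_congr rfl fun z _ => ?_
    rw [cx_xend, mul_assoc]
  have key : ∑ v : P, (∑ z, g (v * ((D.ai i z)⁻¹ * D.ai (!i) z))) ^ 2 ≤
      (Fintype.card I : ℝ) ^ 2 *
        ((∑ v, g v) ^ 2 / (Fintype.card P : ℝ) + lam ^ 2 * ∑ v, g v ^ 2) := by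
    cases i
    · simpa [ai] using h1 g hg
    · simpa [ai] using h2 g hg
  refine le_trans (le_of_eq ?_) key
  refine Finset.sum_congr rfl fun v _ => ?_
  rw [← e v]

theorem expY {lam : ℝ} (h1 : Exp D.b lam) (h2 : Exp (fun z => (D.b z)⁻¹) lam) :
    D.cx.ExpY (Fintype.card I) (Fintype.card P) lam := by
  classical
  intro i j g hg
  have e : ∀ v, ∑ e ∈ ({e : P × I | D.cx.yend i j e = v} : Finset (P × I)),
      g (D.cx.yend i (!j) e) = ∑ z, g (v * ((D.bj j z)⁻¹ * D.bj (!j) z)) := by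
    intro v
    rw [filt_yend D i j v (fun e => g (D.cx.yend i (!j) e))]
    refine Finset.sum_congr rfl fun z _ => ?_
    rw [cx_yend, mul_assoc]
  have key : ∑ v : P, (∑ z, g (v * ((D.bj j z)⁻¹ * D.bj (!j) z))) ^ 2 ≤
      (Fintype.card I : ℝ) ^ 2 *
        ((∑ v, g v) ^ 2 / (Fintype.card P : ℝ) + lam ^ 2 * ∑ v, g v ^ 2) := by
    cases j
    · simpa [bj] using h1 g hg
    · simpa [bj] using h2 g hg
  refine le_trans (le_of_eq ?_) key
  refine Finset.sum_congr rfl fun v _ => ?_
  rw [← e v]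

/-- the square `(l,m)` at the vertex `v` of type `(i,j)` -/
def at_ (i j : Bool) (v : P) (l m : I) : P × I × I := (v * (D.st i j l m)⁻¹, l, m)

theorem cor_at (i j : Bool) (v : P) (l m : I) : D.cx.cor i j (D.at_ i j v l m) = v := by
  simp [cx_cor, at_]

theorem xe_at (i j : Bool) (v : P) (l m : I) :
    D.cx.xe j (D.at_ i j v l m) = (v * (D.ai i (D.xl j l m))⁻¹, D.xl j l m) := by
  simp [cx_xe, at_, st_eq, mul_assoc]

theorem ye_at (i j : Bool) (v : P) (l m : I) :
    D.cx.ye i (D.at_ i j v l m) = (v * (D.bj j (D.yl i l m))⁻¹, D.yl i l m) := by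
  simp [cx_ye, at_, st, mul_assoc]

theorem sqX_eq_at (i j : Bool) (v : P) (z m : I) :
    D.sqX j (v * (D.ai i z)⁻¹) z m = D.at_ i j v (D.li j m z) m := by
  simp only [sqX, at_, Prod.mk.injEq, and_true]
  rw [st_eq, xl_li]
  simp [mul_assoc]

theorem sqY_eq_at (i j : Bool) (v : P) (w l : I) :
    D.sqY i (v * (D.bj j w)⁻¹) w l = D.at_ i j v l (D.mi i l w) := by
  simp only [sqY, at_, Prod.mk.injEq, and_true]
  rw [st, yl_mi]
  simp [mul_assoc]

theorem agr_col (i j : Bool) (v : P) (c : P × I → P × I × I → A) (Q : I → I → A) :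
    cnt (fun e : P × I => D.cx.xend i j e = v ∧ ∃ s, D.cx.xe j s = e ∧ Q s.2.1 s.2.2 ≠ c e s) ≤
      cnt (fun z => (fun m => Q (D.li j m z) m) ≠
        fun m => c (v * (D.ai i z)⁻¹, z) (D.sqX j (v * (D.ai i z)⁻¹) z m)) := by
  refine cnt_le_of_inj (fun e => e.2) ?_ ?_
  · rintro ⟨h, z⟩ ⟨h1, s, h2, h3⟩ hq
    apply h3
    rw [cx_xend] at h1
    simp only at h1 hq
    have e1 : h = v * (D.ai i z)⁻¹ := by rw [← h1]; simp
    have e2 : s = D.sqX j h z s.2.2 := by
      have := D.sqX_xe j s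
      rw [h2] at this
      exact this.symm
    have e3 : s.2.1 = D.li j s.2.2 z := by
      conv_lhs => rw [e2]
      rfl
    have := congrFun hq s.2.2
    rw [← e1, ← e2, ← e3] at this
    exact this
  · rintro ⟨h, z⟩ ⟨h', z'⟩ he he' hz
    have he1 := he.1
    have he2 := he'.1
    rw [cx_xend] at he1 he2
    simp only at he1 he2 hz
    subst hz
    have := he1.trans he2.symm
    rw [mul_right_cancel this]

theorem agr_row (i j : Bool) (v : P) (r : P × I → P × I × I → A) (Q : I → I → A) :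
    cnt (fun f : P × I => D.cx.yend i j f = v ∧ ∃ s, D.cx.ye i s = f ∧ Q s.2.1 s.2.2 ≠ r f s) ≤
      cnt (fun w => (fun l => Q l (D.mi i l w)) ≠
        fun l => r (v * (D.bj j w)⁻¹, w) (D.sqY i (v * (D.bj j w)⁻¹) w l)) := by
  refine cnt_le_of_inj (fun e => e.2) ?_ ?_
  · rintro ⟨h, z⟩ ⟨h1, s, h2, h3⟩ hq
    apply h3
    rw [cx_yend] at h1
    simp only at h1 hq
    have e1 : h = v * (D.bj j z)⁻¹ := by rw [← h1]; simp
    have e2 : s = D.sqY i h z s.2.1 := by
      have := D.sqY_ye i s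
      rw [h2] at this
      exact this.symm
    have e3 : s.2.2 = D.mi i s.2.1 z := by
      conv_lhs => rw [e2]
      rfl
    have := congrFun hq s.2.1
    rw [← e1, ← e2, ← e3] at this
    exact this
  · rintro ⟨h, z⟩ ⟨h', z'⟩ he he' hz
    have he1 := he.1
    have he2 := he'.1
    rw [cx_yend] at he1 he2
    simp only at he1 he2 hz
    subst hz
    have := he1.trans he2.symm
    rw [mul_right_cancel this]

theorem agr_pts (i j : Bool) (v : P) (c r : P × I → P × I × I → A) :
    cnt (fun p : I × I =>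
        (c (v * (D.ai i (D.xl j p.1 p.2))⁻¹, D.xl j p.1 p.2)
          (D.sqX j (v * (D.ai i (D.xl j p.1 p.2))⁻¹) (D.xl j p.1 p.2) p.2)) ≠
        r (v * (D.bj j (D.yl i p.1 p.2))⁻¹, D.yl i p.1 p.2)
          (D.sqY i (v * (D.bj j (D.yl i p.1 p.2))⁻¹) (D.yl i p.1 p.2) p.1)) ≤
      cnt (fun s : P × I × I => D.cx.cor i j s = v ∧ c (D.cx.xe j s) s ≠ r (D.cx.ye i s) s) := by
  refine cnt_le_of_inj (fun p => D.at_ i j v p.1 p.2) ?_ ?_
  · rintro ⟨l, m⟩ hp
    refine ⟨D.cor_at i j v l m, ?_⟩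
    simp only at hp ⊢
    rw [D.sqX_eq_at i j v, D.sqY_eq_at i j v, li_xl, mi_yl] at hp
    rw [xe_at, ye_at]
    exact hp
  · rintro ⟨l, m⟩ ⟨l', m'⟩ _ _ h
    simp only [at_, Prod.mk.injEq] at h
    exact Prod.ext h.2.1 h.2.2

theorem agr {xc : Bool → I → Set (I → A)} {yc : Bool → I → Set (I → A)} {K : ℝ} (hK : 0 ≤ K)
    (hR : ∀ i j, D.Rob xc yc i j K) : D.cx.Agr (D.C xc yc) (Fintype.card I) K := by
  classical
  intro i j v c r hc hr
  obtain ⟨Q, hQ1, hQ2, hQ3⟩ := hR i j
    (fun z m => c (v * (D.ai i z)⁻¹, z) (D.sqX j (v * (D.ai i z)⁻¹) z m))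
    (fun w l => r (v * (D.bj j w)⁻¹, w) (D.sqY i (v * (D.bj j w)⁻¹) w l))
    (fun z => by
      have h := hc (v * (D.ai i z)⁻¹, z) (by rw [cx_xend]; simp)
      have h2 := h.1 z
      simpa [cx_xend, mul_assoc] using h2)
    (fun w => by
      have h := hr (v * (D.bj j w)⁻¹, w) (by rw [cx_yend]; simp)
      have h2 := h.2 w
      simpa [cx_yend, mul_assoc] using h2)
  refine ⟨fun s => Q s.2.1 s.2.2, ⟨hQ1, hQ2⟩, ?_⟩
  have a1 := agr_col D i j v c Q
  have a2 := agr_row D i j v r Q
  have a3 := agr_pts D i j v c r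
  rw [card_eq_cnt, card_eq_cnt, card_eq_cnt]
  generalize cnt (fun e : P × I => D.cx.xend i j e = v ∧
    ∃ s, D.cx.xe j s = e ∧ Q s.2.1 s.2.2 ≠ c e s) = x1 at a1 ⊢
  generalize cnt (fun f : P × I => D.cx.yend i j f = v ∧
    ∃ s, D.cx.ye i s = f ∧ Q s.2.1 s.2.2 ≠ r f s) = x2 at a2 ⊢
  generalize cnt (fun s : P × I × I => D.cx.cor i j s = v ∧
    c (D.cx.xe j s) s ≠ r (D.cx.ye i s) s) = x3 at a3 ⊢
  have a1' : (x1 : ℝ) ≤ _ := Nat.cast_le.2 a1
  have a2' : (x2 : ℝ) ≤ _ := Nat.cast_le.2 a2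
  have a3' : _ ≤ (x3 : ℝ) := Nat.cast_le.2 a3
  exact le_trans (mul_le_mul_of_nonneg_left (add_le_add a1' a2') (by positivity))
    (le_trans hQ3 (mul_le_mul_of_nonneg_left a3' hK))

/-! ### unit arrays -/

/-- word on the squares -/
def sq (X : P → I → I → A) : P × I × I → A := fun s => X s.1 s.2.1 s.2.2

/-- the two-place code -/
def Code (xc : Bool → I → Set (I → A)) (yc : Bool → I → Set (I → A)) : Set (P → I → I → A) :=
  {X | (∀ j h z, (fun m => sq X (D.sqX j h z m)) ∈ xc j z) ∧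
    ∀ i h w, (fun l => sq X (D.sqY i h w l)) ∈ yc i w}

/-- unit `u` is violated: one of the four views at `u` is not in its local code -/
def viol (xc : Bool → I → Set (I → A)) (yc : Bool → I → Set (I → A)) (X : P → I → I → A)
    (u : P) : Prop :=
  ∃ i j, sq X ∉ D.LC xc yc i j u

theorem code_iff {xc : Bool → I → Set (I → A)} {yc : Bool → I → Set (I → A)}
    {X : P → I → I → A} : X ∈ D.Code xc yc ↔ ∀ i j v, sq X ∈ D.LC xc yc i j v := by
  constructor
  · intro h i j v
    exact ⟨fun z => h.1 j _ z, fun w => h.2 i _ w⟩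
  · intro h
    refine ⟨fun j g z => ?_, fun i g w => ?_⟩
    · have := (h false j (g * D.ai false z)).1 z
      simpa using this
    · have := (h i false (g * D.bj false w)).2 w
      simpa using this

theorem code_iff_viol {xc : Bool → I → Set (I → A)} {yc : Bool → I → Set (I → A)}
    {X : P → I → I → A} : X ∈ D.Code xc yc ↔ ∀ u, ¬ D.viol xc yc X u := by
  rw [code_iff]
  unfold viol
  push Not
  exact ⟨fun h u i j => h i j u, fun h i j v => h v i j⟩

theorem bad_le (xc : Bool → I → Set (I → A)) (yc : Bool → I → Set (I → A)) (X : P → I → I → A) :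
    SqCx.bad (D.C xc yc) (sq X) ≤ 4 * cnt (D.viol xc yc X) := by
  classical
  unfold SqCx.bad
  have h : #{x : Vt (fun _ _ => P : Bool → Bool → Type) | sq X ∉ D.C xc yc x} =
      cnt (fun x : Vt (fun _ _ => P : Bool → Bool → Type) => sq X ∉ D.C xc yc x) := by
    unfold cnt
    congr
  rw [h]
  have h4 : Fintype.card (Bool × Bool) = 4 := rfl
  rw [← h4]
  refine cnt_le_mul (τ := Bool × Bool) (β := P) (fun t y => ⟨t, y⟩) ?_
  rintro ⟨⟨i, j⟩, v⟩ hx
  exact ⟨(i, j), v, ⟨i, j, hx⟩, rfl⟩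

omit [Group P] in
theorem wrong_le (X Y : P → I → I → A) :
    cnt (fun u => X u ≠ Y u) ≤ cnt (fun s => sq Y s ≠ sq X s) := by
  have h := cnt_le_mul (τ := Unit) (p := fun u => X u ≠ Y u)
    (q := fun s : P × I × I => sq Y s ≠ sq X s) (fun _ s => s.1) ?_
  · simpa using h
  · intro u hu
    obtain ⟨l, hl⟩ := Function.ne_iff.1 hu
    obtain ⟨m, hm⟩ := Function.ne_iff.1 hl
    exact ⟨(), (u, l, m), fun h => hm h.symm, rfl⟩

/-- **soundness** of the local test at unit level -/
theorem sound {xc : Bool → I → Set (I → A)} {yc : Bool → I → Set (I → A)} {K lam : ℝ}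
    [Nonempty I] [Nonempty P] (hK : 0 ≤ K) (hl : 4 * K ^ 2 * lam ^ 2 ≤ 1)
    (hR : ∀ i j, D.Rob xc yc i j K)
    (ha : Exp D.a lam) (ha' : Exp (fun z => (D.a z)⁻¹) lam)
    (hb : Exp D.b lam) (hb' : Exp (fun z => (D.b z)⁻¹) lam)
    (hne : ∀ i j v, (D.LC xc yc i j v).Nonempty)
    (X : P → I → I → A)
    (hX : 32 * K ^ 2 * Fintype.card I * cnt (D.viol xc yc X) < Fintype.card P) :
    ∃ Y ∈ D.Code xc yc, cnt (fun u => X u ≠ Y u) ≤
      4 * (Fintype.card I) ^ 2 * (4 * Fintype.card I + 1) * cnt (D.viol xc yc X) := by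
  classical
  have hb4 : (SqCx.bad (D.C xc yc) (sq X) : ℝ) ≤ 4 * cnt (D.viol xc yc X) := by
    exact_mod_cast D.bad_le xc yc X
  obtain ⟨F', hF1, hF2⟩ := D.cx.ltc (C := D.C xc yc) (n := Fintype.card I) (Cc := K)
    (N := Fintype.card P) (lam := lam) Fintype.card_pos (by exact_mod_cast Fintype.card_pos)
    hK hl (D.agr hK hR) (D.expX ha ha') (D.expY hb hb')
    (by rintro ⟨⟨i, j⟩, v⟩; exact hne i j v)
    (by
      intro i j v u u' h hu
      have e1 : ∀ z m, u' (D.sqX j (v * (D.ai i z)⁻¹) z m) = u (D.sqX j (v * (D.ai i z)⁻¹) z m) := by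
        intro z m
        rw [D.sqX_eq_at i j v]
        exact (h _ (D.cor_at i j v _ _)).symm
      have e2 : ∀ w l, u' (D.sqY i (v * (D.bj j w)⁻¹) w l) = u (D.sqY i (v * (D.bj j w)⁻¹) w l) := by
        intro w l
        rw [D.sqY_eq_at i j v]
        exact (h _ (D.cor_at i j v _ _)).symm
      refine ⟨fun z => ?_, fun w => ?_⟩
      · have := hu.1 z
        simpa only [e1] using this
      · have := hu.2 w
        simpa only [e2] using this)
    (fun i j v => by rw [D.card_xend]) (fun i j v => by rw [D.card_yend]) (sq X)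
    (by
      have hn : (0 : ℝ) ≤ 8 * K ^ 2 * Fintype.card I := by positivity
      have := mul_le_mul_of_nonneg_left hb4 hn
      nlinarith)
  refine ⟨fun g l m => F' (g, l, m), ?_, ?_⟩
  · rw [code_iff]
    exact hF1
  · refine le_trans (wrong_le X fun g l m => F' (g, l, m)) ?_
    have h1 : cnt (fun s => sq (fun g l m => F' (g, l, m)) s ≠ sq X s) = #{s | F' s ≠ sq X s} := by
      unfold cnt
      congr
    rw [h1]
    refine le_trans hF2 ?_
    have h2 := D.bad_le xc yc X
    calc Fintype.card I ^ 2 * ((4 * Fintype.card I + 1) * SqCx.bad (D.C xc yc) (sq X))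
        ≤ Fintype.card I ^ 2 * ((4 * Fintype.card I + 1) * (4 * cnt (D.viol xc yc X))) := by
          gcongr
      _ = _ := by ring

/-- **completeness**: violated units ≤ 4 n² · wrong units -/
theorem compl {xc : Bool → I → Set (I → A)} {yc : Bool → I → Set (I → A)}
    {Y : P → I → I → A} (hY : Y ∈ D.Code xc yc) (X : P → I → I → A) :
    cnt (D.viol xc yc X) ≤ 4 * (Fintype.card I) ^ 2 * cnt (fun u => X u ≠ Y u) := by
  classical
  have hc : Fintype.card ((Bool × Bool) × (I × I)) = 4 * (Fintype.card I) ^ 2 := by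
    simp only [Fintype.card_prod, Fintype.card_bool]
    ring
  rw [← hc]
  refine cnt_le_mul (fun t y => y * D.st t.1.1 t.1.2 t.2.1 t.2.2) ?_
  rintro u ⟨i, j, hv⟩
  by_contra hcon
  push Not at hcon
  apply hv
  have hYv := (D.code_iff.1 hY) i j u
  have key : ∀ l m, sq X (D.at_ i j u l m) = sq Y (D.at_ i j u l m) := by
    intro l m
    by_contra hne
    have := hcon ((i, j), (l, m)) (u * (D.st i j l m)⁻¹) (fun he => hne (by
      unfold sq at_
      simp only
      rw [he]))
    simp at this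
  refine ⟨fun z => ?_, fun w => ?_⟩
  · have := hYv.1 z
    simp only [D.sqX_eq_at i j u] at this ⊢
    simpa only [key] using this
  · have := hYv.2 w
    simp only [D.sqY_eq_at i j u] at this ⊢
    simpa only [key] using this

/-! ### left invariance, bundles -/

/-- left translation -/
def tr (h : P) (X : P → I → I → A) : P → I → I → A := fun g => X (h⁻¹ * g)

theorem tr_mem {xc : Bool → I → Set (I → A)} {yc : Bool → I → Set (I → A)} (h : P)
    {X : P → I → I → A} (hX : X ∈ D.Code xc yc) : tr h X ∈ D.Code xc yc := by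
  refine ⟨fun j g z => ?_, fun i g w => ?_⟩
  · have := hX.1 j (h⁻¹ * g) z
    simpa [sq, tr, sqX, mul_assoc] using this
  · have := hX.2 i (h⁻¹ * g) w
    simpa [sq, tr, sqY, mul_assoc] using this

omit [Fintype P] [Fintype I] in
/-- pointwise operations: if `phi` maps the edge codes of the `κ` inputs into those of the output,
it maps code words to code words -/
theorem map_mem {κ A' : Type} {xc : κ → Bool → I → Set (I → A)} {yc : κ → Bool → I → Set (I → A)}
    {xc' : Bool → I → Set (I → A')} {yc' : Bool → I → Set (I → A')} (phi : (κ → A) → A')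
    (hx : ∀ j z (c : κ → I → A), (∀ k, c k ∈ xc k j z) → (fun m => phi fun k => c k m) ∈ xc' j z)
    (hy : ∀ i w (c : κ → I → A), (∀ k, c k ∈ yc k i w) → (fun m => phi fun k => c k m) ∈ yc' i w)
    {X : κ → P → I → I → A} (hX : ∀ k, X k ∈ D.Code (xc k) (yc k)) :
    (fun g l m => phi fun k => X k g l m) ∈ D.Code xc' yc' :=
  ⟨fun j g z => hx j z (fun k m => sq (X k) (D.sqX j g z m)) fun k => (hX k).1 j g z,
    fun i g w => hy i w (fun k l => sq (X k) (D.sqY i g w l)) fun k => (hX k).2 i g w⟩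

omit [Fintype P] [Fintype I] in
/-- bundles: a word with values in `∀ k, A k` is a code word of the bundled code iff all its
components are code words -/
theorem code_pi {κ : Type} {Ak : κ → Type} {xc : ∀ k, Bool → I → Set (I → Ak k)}
    {yc : ∀ k, Bool → I → Set (I → Ak k)} {X : P → I → I → ∀ k, Ak k} :
    X ∈ D.Code (fun j z => {c : I → ∀ k, Ak k | ∀ k, (fun m => c m k) ∈ xc k j z})
        (fun i w => {c : I → ∀ k, Ak k | ∀ k, (fun m => c m k) ∈ yc k i w}) ↔
      ∀ k, (fun g l m => X g l m k) ∈ D.Code (xc k) (yc k) := by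
  constructor
  · intro h k
    exact ⟨fun j g z => h.1 j g z k, fun i g w => h.2 i g w k⟩
  · intro h
    exact ⟨fun j g z k => (h k).1 j g z, fun i g w k => (h k).2 i g w⟩

/-! ### distance and local correction (x-lines) -/

/-- the labelled bipartite graph of the x-steps -/
def pi (l : I) : P ≃ P := Equiv.mulRight (D.a l)

theorem pi_apply (l : I) (g : P) : D.pi l g = g * D.a l := rfl
theorem pi_symm (l : I) (g : P) : (D.pi l).symm g = g * (D.a l)⁻¹ := rfl

/-- bundle code at the even-even vertices -/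
def R0 (yc : Bool → I → Set (I → A)) : Set (I → I → A) := {c | ∀ m, (fun l => c l m) ∈ yc false m}

/-- bundle code at the odd-even vertices -/
def R1 (yc : Bool → I → Set (I → A)) : Set (I → I → A) :=
  {c | ∀ w, (fun l => c l (D.mi true l w)) ∈ yc true w}

theorem mem_Tan {xc : Bool → I → Set (I → A)} {yc : Bool → I → Set (I → A)}
    {Y : P → I → I → A} (hY : Y ∈ D.Code xc yc) : Y ∈ Tan D.pi (R0 yc) (D.R1 yc) := by
  refine ⟨fun g m => ?_, fun h w => ?_⟩
  · have := hY.2 false g m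
    simpa [sq, sqY, ai, mi] using this
  · have := hY.2 true h w
    simpa [sq, sqY, ai, pi_symm] using this

theorem dist_R0 {yc : Bool → I → Set (I → A)} {d : ℕ} (hd : ∀ i w, Dist (yc i w) d) :
    Dist (R0 yc) d := by
  intro c hc c' hc' hne
  obtain ⟨l, hl⟩ := Function.ne_iff.1 hne
  obtain ⟨m, hm⟩ := Function.ne_iff.1 hl
  refine le_trans (hd false m _ (hc m) _ (hc' m) fun h => hm (congrFun h l)) ?_
  exact cnt_le fun z hz he => hz (congrFun he m)

theorem dist_R1 {yc : Bool → I → Set (I → A)} {d : ℕ} (hd : ∀ i w, Dist (yc i w) d) :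
    Dist (D.R1 yc) d := by
  intro c hc c' hc' hne
  obtain ⟨l, hl⟩ := Function.ne_iff.1 hne
  obtain ⟨m, hm⟩ := Function.ne_iff.1 hl
  refine le_trans (hd true (D.yl true l m) _ (hc _) _ (hc' _) fun h => hm ?_) ?_
  · have := congrFun h l
    simpa only [D.mi_yl] using this
  · exact cnt_le fun z hz he => hz (congrFun he _)

theorem ex {lam : ℝ} (ha' : Exp (fun z => (D.a z)⁻¹) lam) : Ex D.pi (Fintype.card P) lam := by
  intro g hg
  exact ha' g hg

theorem ex' {lam : ℝ} (ha : Exp D.a lam) : Ex (fun z => (D.pi z).symm) (Fintype.card P) lam := by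
  intro g hg
  exact ha g hg

/-- **distance** -/
theorem sep {xc : Bool → I → Set (I → A)} {yc : Bool → I → Set (I → A)} {lam : ℝ} {d : ℕ}
    [Nonempty P] (ha' : Exp (fun z => (D.a z)⁻¹) lam) (hd : ∀ i w, Dist (yc i w) d)
    {Y Y' : P → I → I → A} (hY : Y ∈ D.Code xc yc) (hY' : Y' ∈ D.Code xc yc) (hne : Y ≠ Y') :
    (d : ℝ) ^ 2 * Fintype.card P ≤ (Fintype.card I : ℝ) ^ 2 *
      ((cnt (fun u => Y u ≠ Y' u) : ℝ) + lam ^ 2 * Fintype.card P) :=
  Tan846.sep (by exact_mod_cast Fintype.card_pos) (D.ex ha') (dist_R0 hd) (D.dist_R1 hd)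
    (D.mem_Tan hY) (D.mem_Tan hY') hne

/-- local correction: unit `u` reads the units `u * a z * (a z')⁻¹` -/
noncomputable def corr (yc : Bool → I → Set (I → A)) (d : ℕ) (X : P → Option (I → I → A))
    (u : P) : Option (I → I → A) :=
  Tan846.rule (R0 yc) (D.R1 yc) d fun z z' => X (u * D.a z * (D.a z')⁻¹)

/-- **local correction**: one round divides the number of wrong or unreadable units by 4 -/
theorem corr_le {xc : Bool → I → Set (I → A)} {yc : Bool → I → Set (I → A)} {lam r0 : ℝ} {d : ℕ}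
    [Nonempty P] (ha : Exp D.a lam) (ha' : Exp (fun z => (D.a z)⁻¹) lam)
    (hd0 : 0 < d) (hd : ∀ i w, Dist (yc i w) d)
    (hlam : 8 * (Fintype.card I : ℝ) ^ 2 * (r0 + lam ^ 2) ≤ (d : ℝ) ^ 2)
    {Y : P → I → I → A} (hY : Y ∈ D.Code xc yc) (X : P → Option (I → I → A))
    (hX : (cnt (fun u => X u ≠ some (Y u)) : ℝ) ≤ r0 * Fintype.card P) :
    (cnt (fun u => D.corr yc d X u ≠ some (Y u)) : ℝ) ≤
      (cnt (fun u => X u ≠ some (Y u)) : ℝ) / 4 :=
  Tan846.corr_le (by exact_mod_cast Fintype.card_pos) (D.ex ha') (D.ex' ha) hd0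
    (dist_R0 hd) (D.dist_R1 hd) hlam (D.mem_Tan hY) X hX

/-- iterated correction: `r` rounds divide the number of wrong units by `4 ^ r` -/
theorem corr_iter {xc : Bool → I → Set (I → A)} {yc : Bool → I → Set (I → A)} {lam r0 : ℝ} {d : ℕ}
    [Nonempty P] (ha : Exp D.a lam) (ha' : Exp (fun z => (D.a z)⁻¹) lam)
    (hd0 : 0 < d) (hd : ∀ i w, Dist (yc i w) d)
    (hlam : 8 * (Fintype.card I : ℝ) ^ 2 * (r0 + lam ^ 2) ≤ (d : ℝ) ^ 2)
    {Y : P → I → I → A} (hY : Y ∈ D.Code xc yc) (X : P → Option (I → I → A))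
    (hX : (cnt (fun u => X u ≠ some (Y u)) : ℝ) ≤ r0 * Fintype.card P) (r : ℕ) :
    (cnt (fun u => (D.corr yc d)^[r] X u ≠ some (Y u)) : ℝ) * 4 ^ r ≤
      (cnt (fun u => X u ≠ some (Y u)) : ℝ) := by
  induction r with
  | zero => simp
  | succ r ih =>
    rw [Function.iterate_succ_apply']
    have h0 : (0 : ℝ) ≤ cnt (fun u => (D.corr yc d)^[r] X u ≠ some (Y u)) := by positivity
    have h1 : (1 : ℝ) ≤ 4 ^ r := one_le_pow₀ (by norm_num)
    have h2 := D.corr_le (xc := xc) ha ha' hd0 hd hlam hY ((D.corr yc d)^[r] X)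
      (by nlinarith)
    rw [pow_succ]
    nlinarith

end TP

end Crest.Agent.R289.TP846
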