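import Crest.Agent.R289.TPgrp_547

/-!
Row 289, block B, TP4b part B: the elements `al x l` of the norm-one group `U hσ k 1`
and the exchange law in the group, for every truncation level `k`.
-/

set_option autoImplicit false
set_option linter.unusedSectionVars false
set_option linter.unusedVariables false
set_option linter.unusedSimpArgs false

namespace Crest.Agent.R289.TPgrp547

open Finset Crest.Agent.R289.SkewGrp877

variable {K : Type*} [Field K] {σ : K →+* K}

section base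

variable {k : ℕ}

/-- coefficient function of a polynomial of degree `≤ 4` -/
def f4 (a0 a1 a2 a3 a4 : K) : ℕ → K
  | 0 => a0
  | 1 => a1
  | 2 => a2
  | 3 => a3
  | 4 => a4
  | _ => 0

/-- `1 + b τ + g τ²` in the truncated ring -/
def el (σ : K →+* K) (k : ℕ) (b g : K) : R σ k := mk (f4 1 b g 0 0)

/-- `1 + a₁ τ + .. + a₄ τ⁴` in the truncated ring -/
def el4 (σ : K →+* K) (k : ℕ) (a : K × K × K × K) : R σ k := mk (f4 1 a.1 a.2.1 a.2.2.1 a.2.2.2)

theorem conv2 (hσ : ∀ a, σ (σ a) = a) (F G : ℕ → K) (hF : ∀ i, F (i + 3) = 0) (m : ℕ) :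
    ∑ p ∈ antidiagonal (m + 2), F p.1 * (σ ^ p.1) (G p.2) =
      F 0 * G (m + 2) + F 1 * σ (G (m + 1)) + F 2 * G m := by
  rw [Finset.Nat.sum_antidiagonal_eq_sum_range_succ_mk, Nat.succ_eq_add_one,
    Finset.sum_range_succ', Finset.sum_range_succ', Finset.sum_range_succ']
  have h0 : ∑ i ∈ range m, F (i + 1 + 1 + 1) * (σ ^ (i + 1 + 1 + 1)) (G (m + 2 - (i + 1 + 1 + 1))) = 0 :=
    Finset.sum_eq_zero fun i _ => by rw [hF i, zero_mul]
  rw [h0]
  have e0 : (σ ^ 0) (G (m + 2 - 0)) = G (m + 2) := by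
    rw [spow_even hσ rfl, Nat.sub_zero]
  have e1 : (σ ^ (0 + 1)) (G (m + 2 - (0 + 1))) = σ (G (m + 1)) := by
    rw [spow_odd hσ rfl]; rfl
  have e2 : (σ ^ (0 + 1 + 1)) (G (m + 2 - (0 + 1 + 1))) = G m := by
    rw [spow_even hσ rfl]; rfl
  rw [e0, e1, e2]
  ring

theorem conv (hσ : ∀ a, σ (σ a) = a) (b g b' g' : K) (n : ℕ) :
    ∑ p ∈ antidiagonal n, f4 1 b g 0 0 p.1 * (σ ^ p.1) (f4 1 b' g' 0 0 p.2) =
      f4 1 (b + b') (g + g' + b * σ b') (b * σ g' + g * b') (g * g') n := by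
  match n with
  | 0 =>
    simp [f4]
  | 1 =>
    rw [Finset.Nat.antidiagonal_succ]
    simp [f4]
    ring
  | 2 =>
    rw [conv2 hσ _ _ (fun i => by match i with | 0 => rfl | 1 => rfl | (j+2) => rfl) 0]
    simp [f4]
    ring
  | 3 =>
    rw [conv2 hσ _ _ (fun i => by match i with | 0 => rfl | 1 => rfl | (j+2) => rfl) 1]
    simp [f4]
  | 4 =>
    rw [conv2 hσ _ _ (fun i => by match i with | 0 => rfl | 1 => rfl | (j+2) => rfl) 2]
    simp [f4]
  | (m+5) =>
    rw [conv2 hσ _ _ (fun i => by match i with | 0 => rfl | 1 => rfl | (j+2) => rfl) (m+3)]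
    have h1 : f4 1 b' g' 0 0 (m + 3 + 2) = 0 := rfl
    have h2 : f4 1 b' g' 0 0 (m + 3 + 1) = 0 := by
      match m with | 0 => rfl | (j+1) => rfl
    have h3 : f4 1 b' g' 0 0 (m + 3) = 0 := by
      match m with | 0 => rfl | 1 => rfl | (j+2) => rfl
    rw [h1, h2, h3]
    simp [f4]

theorem el_mul (hσ : ∀ a, σ (σ a) = a) (b g b' g' : K) :
    el σ k b g * el σ k b' g' = el4 σ k (m4 σ b g b' g') := by
  refine ext' fun n hn => ?_
  rw [c_mul _ _ hn]
  have h : ∑ p ∈ antidiagonal n, c (el σ k b g) p.1 * (σ ^ p.1) (c (el σ k b' g') p.2) =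
      ∑ p ∈ antidiagonal n, f4 1 b g 0 0 p.1 * (σ ^ p.1) (f4 1 b' g' 0 0 p.2) := by
    refine Finset.sum_congr rfl fun p hp => ?_
    rw [HasAntidiagonal.mem_antidiagonal] at hp
    unfold el
    rw [c_mk _ (by omega), c_mk _ (by omega)]
  rw [h, conv hσ]
  unfold el4 m4
  rw [c_mk _ hn]

theorem conj_el (hσ : ∀ a, σ (σ a) = a) (b g : K) :
    conj (el σ k b g) = el σ k (-b) (σ g) := by
  refine ext' fun n hn => ?_
  rw [c_conj _ hn]
  unfold el
  rw [c_mk _ hn, c_mk _ hn]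
  match n with
  | 0 => simp [f4]
  | 1 =>
    rw [spow_even hσ rfl]
    simp [f4]
  | 2 =>
    rw [spow_odd hσ rfl]
    simp [f4]
  | 3 => simp [f4]
  | 4 => simp [f4]
  | (m+5) => simp [f4]

/-! ### central elements with constant term one -/

/-- central elements with constant term one -/
def Cen (f : R σ k) : Prop := c f 0 = 1 ∧ ∀ n ≤ k, (n % 2 = 1 → c f n = 0) ∧ σ (c f n) = c f n

theorem Cen.c_mul (hσ : ∀ a, σ (σ a) = a) {f : R σ k} (hf : Cen f) (h : R σ k) {n : ℕ}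
    (hn : n ≤ k) : c (f * h) n = ∑ p ∈ antidiagonal n, c f p.1 * c h p.2 := by
  rw [SkewGrp877.c_mul _ _ hn]
  refine Finset.sum_congr rfl fun p hp => ?_
  rw [HasAntidiagonal.mem_antidiagonal] at hp
  rcases Nat.mod_two_eq_zero_or_one p.1 with h0 | h1
  · rw [spow_even hσ h0]
  · rw [(hf.2 p.1 (by omega)).1 h1, zero_mul, zero_mul]

theorem Cen.comm (hσ : ∀ a, σ (σ a) = a) {f : R σ k} (hf : Cen f) (h : R σ k) :
    f * h = h * f := by
  refine ext' fun n hn => ?_
  rw [hf.c_mul hσ h hn, SkewGrp877.c_mul _ _ hn, ← Finset.Nat.sum_antidiagonal_swap]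
  refine Finset.sum_congr rfl fun p hp => ?_
  rw [HasAntidiagonal.mem_antidiagonal] at hp
  simp only [Prod.fst_swap, Prod.snd_swap]
  have hfix : ∀ m : ℕ, (σ ^ m) (c f p.2) = c f p.2 := fun m => by
    induction m with
    | zero => rfl
    | succ m ih => rw [pow_succ, RingHom.mul_def, RingHom.comp_apply, (hf.2 p.2 (by omega)).2, ih]
  rw [hfix]
  ring

theorem Cen.mul (hσ : ∀ a, σ (σ a) = a) {f g : R σ k} (hf : Cen f) (hg : Cen g) :
    Cen (f * g) := by
  refine ⟨?_, fun n hn => ⟨fun h => ?_, ?_⟩⟩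
  · rw [hf.c_mul hσ g (Nat.zero_le k)]
    simp [hf.1, hg.1]
  · rw [hf.c_mul hσ g hn]
    refine Finset.sum_eq_zero fun p hp => ?_
    rw [HasAntidiagonal.mem_antidiagonal] at hp
    rcases Nat.mod_two_eq_zero_or_one p.1 with h0 | h1
    · rw [(hg.2 p.2 (by omega)).1 (by omega), mul_zero]
    · rw [(hf.2 p.1 (by omega)).1 h1, zero_mul]
  · rw [hf.c_mul hσ g hn, map_sum]
    refine Finset.sum_congr rfl fun p hp => ?_
    rw [HasAntidiagonal.mem_antidiagonal] at hp
    rw [map_mul, (hf.2 p.1 (by omega)).2, (hg.2 p.2 (by omega)).2]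

theorem Cen.one : Cen (1 : R σ k) := by
  refine ⟨by rw [c_one (Nat.zero_le k)]; rfl, fun n hn => ⟨fun h => ?_, ?_⟩⟩
  · rw [c_one hn, if_neg (by omega)]
  · rw [c_one hn]
    split_ifs
    · exact map_one σ
    · exact map_zero σ

theorem Cen.conj (hσ : ∀ a, σ (σ a) = a) {f : R σ k} (hf : Cen f) :
    SkewGrp877.conj f = f := by
  refine ext' fun n hn => ?_
  rw [c_conj _ hn]
  rcases Nat.mod_two_eq_zero_or_one n with h0 | h1
  · rw [spow_odd hσ (by omega), (hf.2 n hn).2, Even.neg_one_pow (Nat.even_iff.2 h0), one_mul]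
  · rw [(hf.2 n hn).1 h1, map_zero, mul_zero]

theorem cancel {f h : R σ k} (hf : c f 0 ≠ 0) (e : f * h = 0) : h = 0 := by
  have key : ∀ i, J i h := by
    intro i
    induction i with
    | zero => exact J_zero h
    | succ i ih =>
      intro n hn
      rcases Nat.lt_succ_iff_lt_or_eq.1 hn with h1 | h1
      · exact ih n h1
      · subst h1
        by_cases hk : n ≤ k
        · have := c_mul_lead (i := 0) (j := n) (J_zero f) ih (by omega)
          rw [Nat.zero_add, e, c_zero, pow_zero] at this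
          have h2 : c f 0 * c h n = 0 := this.symm
          exact (mul_eq_zero.1 h2).resolve_left hf
        · exact c_gt _ (by omega)
  exact (key (k + 1)).eq_zero (Nat.lt_succ_self k)

theorem exists_sqrt [Finite K] (hσ : ∀ a, σ (σ a) = a) (h2 : (2 : K) ≠ 0) {n : R σ k}
    (hn : Cen n) : ∃ s : R σ k, Cen s ∧ s * s * n = 1 := by
  let S := {f : R σ k // Cen f}
  have : Finite S := Subtype.finite
  -- multiplication by `n`
  let φ : S → S := fun f => ⟨n * f.1, hn.mul hσ f.2⟩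
  have hφ : Function.Injective φ := by
    intro f g e
    have e1 : n * f.1 = n * g.1 := congrArg Subtype.val e
    have e2 : n * (f.1 - g.1) = 0 := by rw [mul_sub, e1, sub_self]
    have e3 := cancel (by rw [hn.1]; exact one_ne_zero) e2
    exact Subtype.ext (sub_eq_zero.1 e3)
  obtain ⟨w, hw⟩ := (Finite.injective_iff_surjective.1 hφ) ⟨1, Cen.one⟩
  have hw' : n * w.1 = 1 := congrArg Subtype.val hw
  let ψ : S → S := fun f => ⟨f.1 * f.1, f.2.mul hσ f.2⟩
  have hψ : Function.Injective ψ := by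
    intro f g e
    have e1 : f.1 * f.1 = g.1 * g.1 := congrArg Subtype.val e
    have e2 : (f.1 + g.1) * (f.1 - g.1) = 0 := by
      rw [mul_sub, add_mul, add_mul, e1, f.2.comm hσ g.1]
      abel
    have e3 := cancel (by rw [c_add, f.2.1, g.2.1, one_add_one_eq_two]; exact h2) e2
    exact Subtype.ext (sub_eq_zero.1 e3)
  obtain ⟨s, hs⟩ := (Finite.injective_iff_surjective.1 hψ) w
  have hs' : s.1 * s.1 = w.1 := congrArg Subtype.val hs
  exact ⟨s.1, s.2, by rw [hs', ← hn.comm hσ, hw']⟩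

/-- the norm `X(t)/X(0)` -/
def nX (σ : K →+* K) (k : ℕ) (x : K) : R σ k :=
  el4 σ k (0, - (x + σ x) / (x * σ x), 0, 1 / (x * σ x))

theorem Cen_nX (hσ : ∀ a, σ (σ a) = a) (x : K) : Cen (nX σ k x) := by
  unfold nX el4
  refine ⟨by rw [c_mk _ (Nat.zero_le k)]; rfl, fun n hn => ?_⟩
  rw [c_mk _ hn]
  match n with
  | 0 => exact ⟨fun h => by simp at h, map_one σ⟩
  | 1 => exact ⟨fun _ => rfl, map_zero σ⟩
  | 2 =>
    refine ⟨fun h => by simp at h, ?_⟩
    change σ (- (x + σ x) / (x * σ x)) = - (x + σ x) / (x * σ x)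
    rw [map_div₀, map_neg, map_add, map_mul, hσ, add_comm (σ x) x, mul_comm (σ x) x]
  | 3 => exact ⟨fun _ => rfl, map_zero σ⟩
  | 4 =>
    refine ⟨fun h => by simp at h, ?_⟩
    change σ (1 / (x * σ x)) = 1 / (x * σ x)
    rw [map_div₀, map_one, map_mul, hσ, mul_comm (σ x) x]
  | (m+5) => exact ⟨fun _ => rfl, map_zero σ⟩

theorem el_conj_mul (hσ : ∀ a, σ (σ a) = a) {x : K} (hx : σ x ≠ x) {l : K × K} (hl : l ≠ 0) :
    el σ k (bet σ x l) (gam σ x l) * SkewGrp877.conj (el σ k (bet σ x l) (gam σ x l)) = nX σ k x ∧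
      SkewGrp877.conj (el σ k (bet σ x l) (gam σ x l)) * el σ k (bet σ x l) (gam σ x l) =
        nX σ k x := by
  obtain ⟨h1, h2⟩ := be_norm hσ hx hl
  rw [conj_el hσ, el_mul hσ, el_mul hσ]
  unfold nX
  rw [← h1, ← h2]
  constructor
  · congr 1
    unfold m4 nm
    simp only [map_neg, hσ]
    refine Prod.ext ?_ (Prod.ext ?_ (Prod.ext ?_ ?_))
    · change bet σ x l + -bet σ x l = 0
      ring
    · change gam σ x l + σ (gam σ x l) + bet σ x l * -σ (bet σ x l) = _
      ring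
    · change bet σ x l * gam σ x l + gam σ x l * -bet σ x l = 0
      ring
    · rfl
  · congr 1
    unfold m4 nm
    refine Prod.ext ?_ (Prod.ext ?_ (Prod.ext ?_ ?_))
    · change -bet σ x l + bet σ x l = 0
      ring
    · change σ (gam σ x l) + gam σ x l + -bet σ x l * σ (bet σ x l) = _
      ring
    · change -bet σ x l * σ (gam σ x l) + σ (gam σ x l) * bet σ x l = 0
      ring
    · change σ (gam σ x l) * gam σ x l = gam σ x l * σ (gam σ x l)
      ring

end base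

section group

variable [Finite K] (hσ : ∀ a, σ (σ a) = a) (h2 : (2 : K) ≠ 0) (k : ℕ)

/-- central square root of `X(0)/X(t)` -/
noncomputable def sX (x : K) : R σ k := (exists_sqrt hσ h2 (Cen_nX (k := k) hσ x)).choose

theorem Cen_sX (x : K) : Cen (sX hσ h2 k x) :=
  (exists_sqrt hσ h2 (Cen_nX (k := k) hσ x)).choose_spec.1

theorem sX_sq (x : K) : sX hσ h2 k x * sX hσ h2 k x * nX σ k x = 1 :=
  (exists_sqrt hσ h2 (Cen_nX (k := k) hσ x)).choose_spec.2

/-- the element `c_X · be^x_l` of norm one -/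
noncomputable def al {x : K} (hx : σ x ≠ x) (i : Option K) : (R σ k)ˣ where
  val := sX hσ h2 k x * el σ k (bet σ x (rp i)) (gam σ x (rp i))
  inv := SkewGrp877.conj (sX hσ h2 k x * el σ k (bet σ x (rp i)) (gam σ x (rp i)))
  val_inv := by
    rw [conj_mul hσ, (Cen_sX hσ h2 k x).conj hσ, mul_assoc, ← mul_assoc (el σ k _ _),
      (el_conj_mul hσ hx (rp_ne i)).1, ← (Cen_sX hσ h2 k x).comm hσ (nX σ k x), ← mul_assoc,
      sX_sq]
  inv_val := by
    rw [conj_mul hσ, (Cen_sX hσ h2 k x).conj hσ, mul_assoc,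
      ← mul_assoc (sX hσ h2 k x) (sX hσ h2 k x),
      ((Cen_sX hσ h2 k x).mul hσ (Cen_sX hσ h2 k x)).comm hσ, ← mul_assoc,
      (el_conj_mul hσ hx (rp_ne i)).2, ← mul_assoc,
      (Cen_nX hσ x).comm hσ (sX hσ h2 k x), mul_assoc, (Cen_nX hσ x).comm hσ, ← mul_assoc, sX_sq]

theorem al_val {x : K} (hx : σ x ≠ x) (i : Option K) :
    ((al hσ h2 k hx i : (R σ k)ˣ) : R σ k) =
      sX hσ h2 k x * el σ k (bet σ x (rp i)) (gam σ x (rp i)) := rfl

theorem c_el_zero (b g : K) : c (el σ k b g) 0 = 1 := by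
  unfold el; rw [c_mk _ (Nat.zero_le k)]; rfl

theorem al_mem {x : K} (hx : σ x ≠ x) (i : Option K) : al hσ h2 k hx i ∈ U hσ k 1 := by
  rw [mem_U, mem_SG]
  refine ⟨(al hσ h2 k hx i).val_inv, ?_⟩
  intro n hn
  have hn0 : n = 0 := by omega
  subst hn0
  rw [c_sub, al_val, (Cen_sX hσ h2 k x).c_mul hσ _ (Nat.zero_le k), c_one (Nat.zero_le k)]
  simp [(Cen_sX hσ h2 k x).1, c_el_zero]

/-- EXCHANGE LAW in the unit group -/
theorem al_exchange {x y : K} (h : Two σ x y) (l m : Option K) :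
    al hσ h2 k h.hx l * al hσ h2 k h.hy (lab σ y x m l) =
      al hσ h2 k h.hy m * al hσ h2 k h.hx (lab σ x y l m) := by
  apply Units.ext
  rw [Units.val_mul, Units.val_mul, al_val, al_val, al_val, al_val]
  have c1 := Cen_sX hσ h2 k x
  have c2 := Cen_sX hσ h2 k y
  have key : ∀ (u v : R σ k) (e f : R σ k), Cen u → Cen v → u * e * (v * f) = u * v * (e * f) := by
    intro u v e f hu hv
    rw [mul_assoc, ← mul_assoc e v f, ← hv.comm hσ e, mul_assoc v e f, ← mul_assoc]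
  rw [key _ _ _ _ c1 c2, key _ _ _ _ c2 c1, c1.comm hσ (sX hσ h2 k y), el_mul hσ, el_mul hσ,
    exchange_lab hσ h]

/-- the group `P_k` -/
abbrev Pk : Type _ := ↥(U hσ k 1)

/-- `al x l` as an element of `P_k` -/
noncomputable def alP {x : K} (hx : σ x ≠ x) (i : Option K) : Pk hσ k :=
  ⟨al hσ h2 k hx i, al_mem hσ h2 k hx i⟩

theorem alP_exchange {x y : K} (h : Two σ x y) (l m : Option K) :
    alP hσ h2 k h.hx l * alP hσ h2 k h.hy (lab σ y x m l) =
      alP hσ h2 k h.hy m * alP hσ h2 k h.hx (lab σ x y l m) :=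
  Subtype.ext (al_exchange hσ h2 k h l m)

end group

end Crest.Agent.R289.TPgrp547
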