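import Crest.Agent.R289.FacB_281
import Crest.Agent.R289.TPgrpB_547
import Crest.Agent.R289.TP_846
import Crest.Agent.R289.TP9_946

/-!
Row 289, block B: the inhabitants of `TP846.TP`, `TP9.TPD`, `TP9.Ch` for the norm-one group
`U hσ k 1` of the truncated skew power series, and the edge codes `X d j z`, `Y d i w` of
`AsmObj_12` (products, distance).
-/

set_option autoImplicit false

namespace Crest.Agent.R289.TPBr281

open Polynomial Crest.Agent.R289.Mob459 Crest.Agent.R289.FacB281 Crest.Agent.R289.PS459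

section bridge

variable {K : Type*} [Field K] {σ : K →+* K}

theorem rp_eq (i : Option K) : TPgrp547.rp i = sec i := by
  cases i <;> rfl

theorem pt_eq (v : K × K) : TPgrp547.pt v = proj v := by
  unfold TPgrp547.pt proj
  split_ifs <;> rfl

theorem Qx_eq (hσ : ∀ a, σ (σ a) = a) (x : K) (l : K × K) :
    TPgrp547.Qx σ (σ x) l = σ (Fac281.Q σ x l) := by
  rw [Fac281.Q_sigma hσ]; rfl

theorem bet_eq (hσ : ∀ a, σ (σ a) = a) (x : K) (l : K × K) :
    TPgrp547.bet σ x l = Fac281.bet σ x l := by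
  unfold TPgrp547.bet Fac281.bet
  rw [Qx_eq hσ]

theorem gam_eq (hσ : ∀ a, σ (σ a) = a) (x : K) (l : K × K) :
    TPgrp547.gam σ x l = Fac281.gam σ x l := by
  unfold TPgrp547.gam Fac281.gam
  rw [Qx_eq hσ]; rfl

theorem act_eq (hσ : ∀ a, σ (σ a) = a) (x y : K) (l m : K × K) :
    TPgrp547.act σ x (TPgrp547.bet σ y m) (TPgrp547.gam σ y m) l =
      Fac281.act x l (Fac281.be σ y m) := by
  rw [bet_eq hσ, gam_eq hσ]
  unfold TPgrp547.act Fac281.act Fac281.be
  ext
  · simp only [map_add, map_one, map_mul, Exp820.Sk.sg_C, Exp820.Sk.sg_X, eval_add, eval_one, eval_mul,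
      eval_C, eval_X]
    ring
  · simp only [Exp820.Sk.sg_C, eval_add, eval_one, eval_mul, eval_C, eval_X]
    ring

theorem lab_eq (hσ : ∀ a, σ (σ a) = a) (x y : K) (l m : Option K) :
    TPgrp547.lab σ x y l m = L σ x y l m := by
  unfold TPgrp547.lab L
  rw [act_eq hσ, rp_eq, rp_eq, pt_eq]

end bridge

section group

variable {K : Type} [Field K] [Finite K] {σ : K →+* K}
  (hσ : ∀ a, σ (σ a) = a) (h2 : (2 : K) ≠ 0) (k : ℕ) {x y : K} (h : TPgrp547.Two σ x y)

/-- the two-place complex of the norm-one group at level `k` -/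
noncomputable def tp : TP846.TP (TPgrp547.Pk hσ k) (Option K) where
  a := TPgrp547.alP hσ h2 k h.hx
  b := TPgrp547.alP hσ h2 k h.hy
  L := L σ x y
  M := M σ x y
  comm l m := by
    have e := TPgrp547.alP_exchange hσ h2 k h l m
    rw [lab_eq hσ, lab_eq hσ] at e
    exact e
  M_bij := M_bij hσ h.hx h.hxy.symm h.hxy'.symm
  L_bij := L_bij hσ h.hy h.hxy.symm h.hxy'.symm
  LM_inj l m l' m' h1 h2' := by
    have e := LM_inj hσ h.hx h.hy h.hxy.symm h.hxy'.symm (a₁ := (l, m)) (a₂ := (l', m'))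
      (Prod.ext h1 h2')
    exact Prod.mk.inj e

/-- helper946's form -/
noncomputable def tpd : TP9.TPD (Option K) (TPgrp547.Pk hσ k) where
  a := TPgrp547.alP hσ h2 k h.hx
  b := TPgrp547.alP hσ h2 k h.hy
  L := L σ x y
  M := M σ x y
  comm := (tp hσ h2 k h).comm
  hM := (tp hσ h2 k h).M_bij
  hL := (tp hσ h2 k h).L_bij
  hLM := LM_bij hσ h.hx h.hy h.hxy.symm h.hxy'.symm

end group

/-! ### scalars -/

section scalars

variable {K : Type} [Field K] {σ : K →+* K} {x y : K}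

/-- scalar at the `oe` corner -/
noncomputable def soe (σ : K →+* K) (x y : K) (l m : Option K) : K :=
  (scal (psi σ x (sec l)) * scal (Fac281.act y (sec m) (Fac281.be σ x (sec l))))⁻¹

/-- scalar at the `eo` corner -/
noncomputable def seo (σ : K →+* K) (x y : K) (l m : Option K) : K :=
  (scal (psi σ y (sec m)) * scal (Fac281.act x (sec l) (Fac281.be σ y (sec m))))⁻¹

/-- scalar at the `oo` corner -/
noncomputable def soo (σ : K →+* K) (x y : K) (l m : Option K) : K :=
  (scal (psi σ x (Fac281.act x (sec l) (Fac281.be σ y (sec m)))) *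
    scal (psi σ y (Fac281.act y (sec m) (Fac281.be σ x (sec l)))))⁻¹

theorem moe_eq (s : ℕ) (l m : Option K) : moe σ x y s l m = soe σ x y l m ^ s := by
  rw [moe, soe, inv_pow]

theorem meo_eq (s : ℕ) (l m : Option K) : meo σ x y s l m = seo σ x y l m ^ s := by
  rw [meo, seo, inv_pow]

theorem moo_eq (s : ℕ) (l m : Option K) : moo σ x y s l m = soo σ x y l m ^ s := by
  rw [moo, soo, inv_pow]

theorem soe_ne (hσ : ∀ a, σ (σ a) = a) (h : TPgrp547.Two σ x y) (l m : Option K) :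
    soe σ x y l m ≠ 0 := by
  have := moe_ne_zero hσ h.hx h.hxy.symm h.hxy'.symm 1 l m
  rwa [moe_eq, pow_one] at this

theorem seo_ne (hσ : ∀ a, σ (σ a) = a) (h : TPgrp547.Two σ x y) (l m : Option K) :
    seo σ x y l m ≠ 0 := by
  have := meo_ne_zero hσ h.hy h.hxy.symm h.hxy'.symm 1 l m
  rwa [meo_eq, pow_one] at this

theorem soo_ne (hσ : ∀ a, σ (σ a) = a) (h : TPgrp547.Two σ x y) (l m : Option K) :
    soo σ x y l m ≠ 0 := by
  have := moo_ne_zero hσ h.hx h.hy h.hxy.symm h.hxy'.symm 1 l m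
  rwa [moo_eq, pow_one] at this

theorem norm_pow_of_dvd {w D : ℕ} (hw : ∀ c : K, c ≠ 0 → (c * σ c) ^ w = 1) (hD : w ∣ D) :
    ∀ c : K, c ≠ 0 → (c * σ c) ^ D = 1 := by
  obtain ⟨e, rfl⟩ := hD
  intro c hc
  rw [pow_mul, hw c hc, one_pow]

end scalars

section chart

variable {K : Type} [Field K] [Fintype K] {σ : K →+* K}
  (hσ : ∀ a, σ (σ a) = a) (h2 : (2 : K) ≠ 0) (k : ℕ) {x y : K} (h : TPgrp547.Two σ x y)
  {w : ℕ} (hw : ∀ c : K, c ≠ 0 → (c * σ c) ^ w = 1)
  [Fintype (TPgrp547.Pk hσ k)]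

/-- helper946's charts, all degrees divisible by `w` -/
noncomputable def ch : TP9.Ch (tpd hσ h2 k h) w where
  px := px σ x
  py := px σ y
  hpx := px_bij hσ h.hx
  hpy := px_bij hσ h.hy
  soe := soe σ x y
  seo := seo σ x y
  soo := soo σ x y
  soe_ne := soe_ne hσ h
  seo_ne := seo_ne hσ h
  soo_ne := soo_ne hσ h
  h0 D _ l f := by
    simp only [← moe_eq]
    exact h0 hσ h.hx h.hxy.symm h.hxy'.symm D l f
  v0 D _ m f := by
    simp only [← meo_eq]
    exact v0 hσ h.hy h.hxy.symm h.hxy'.symm D m f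
  h1 D hD l' lam hlam f := by
    simp only [← meo_eq, ← moo_eq]
    exact h1 hσ h.hx h.hy h.hxy.symm h.hxy'.symm (norm_pow_of_dvd hw hD) l' lam hlam f
  v1 D hD m' mu hmu f := by
    simp only [← moe_eq, ← moo_eq]
    exact v1 hσ h.hx h.hy h.hxy.symm h.hxy'.symm (norm_pow_of_dvd hw hD) m' mu hmu f

end chart

end Crest.Agent.R289.TPBr281
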