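import Crest.Agent.R289.Nu_547
import Crest.Agent.R289.TPBr_281
import Crest.Agent.R289.ExpPhi_820

/-!
Row 289, block B: the steps of the two-place complex in the form needed by the expansion files.

* `st_eq_alP` : the normalised element `nu (be x (sec i))` is the element `alP` of `TPgrpB_547`.
* `cc`, `bb` : the elements `π_i = τ² + bb i τ + cc i` with `be x (sec i) = π_i (cc i)⁻¹`
  (`pmem`, `ccbb_inj`, `ccbb_sur`, `tr_be_eq`).
* `alP_val` : `alP i = z * π_i * (cc i)⁻¹` with one central `z`.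
-/

set_option autoImplicit false
set_option linter.unusedSectionVars false
set_option linter.unusedVariables false

namespace Crest.Agent.R289.NuExp547

open Polynomial Crest.Agent.R289.Exp820 Crest.Agent.R289.Exp820.Sk Crest.Agent.R289.SkewGrp877
  Crest.Agent.R289.PTab480 Crest.Agent.R289.Mob459 Crest.Agent.R289.Nu547

section alg

variable {K : Type} [Field K] {σ : K →+* K} {k : ℕ}

theorem c_tr_be (x : K) (l : K × K) {n : ℕ} (hn : n ≤ k) :
    c (Exp820.tr k (Fac281.be σ x l)) n =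
      TPgrp547.f4 1 (Fac281.bet σ x l) (Fac281.gam σ x l) 0 0 n := by
  rw [Exp820.c_tr _ hn]
  rcases Nat.even_or_odd' n with ⟨m, rfl | rfl⟩
  · rw [cf_even]
    match m with
    | 0 => simp [Fac281.be, TPgrp547.f4]
    | 1 => simp [Fac281.be, TPgrp547.f4, coeff_one]
    | 2 => simp [Fac281.be, TPgrp547.f4, coeff_one]
    | (j + 3) =>
      have h : (Fac281.be σ x l).re.coeff (j + 3) = 0 := by
        apply coeff_eq_zero_of_natDegree_lt
        have := Fac281.be_re_deg (σ := σ) x l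
        omega
      rw [h]
      rfl
  · rw [cf_odd]
    match m with
    | 0 => simp [Fac281.be, TPgrp547.f4]
    | 1 => simp [Fac281.be, TPgrp547.f4]
    | (j + 2) =>
      have h : (Fac281.be σ x l).im.coeff (j + 2) = 0 := by
        apply coeff_eq_zero_of_natDegree_lt
        have := Fac281.be_im_deg (σ := σ) x l
        omega
      rw [h]
      rfl

theorem tr_be_el (hσ : ∀ a, σ (σ a) = a) (x : K) (i : Option K) :
    TPgrp547.el σ k (TPgrp547.bet σ x (TPgrp547.rp i)) (TPgrp547.gam σ x (TPgrp547.rp i)) =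
      Exp820.tr k (Fac281.be σ x (sec i)) := by
  refine ext' fun n hn => ?_
  rw [c_tr_be x _ hn, TPgrp547.el, c_mk _ hn, TPBr281.bet_eq hσ, TPBr281.gam_eq hσ, TPBr281.rp_eq]

/-! ### the elements `π_i` -/

theorem gam_ne (hσ : ∀ a, σ (σ a) = a) {x : K} (hx : σ x ≠ x) {l : K × K} (hl : l ≠ 0) :
    Fac281.gam σ x l ≠ 0 := by
  have hx0 : x ≠ 0 := Fac281.x_ne_zero hx
  have hsx0 : σ x ≠ 0 := (map_ne_zero σ).2 hx0
  have hQ := Fac281.Q_ne_zero hσ hx hl
  have hQs : σ (Fac281.Q σ x l) ≠ 0 := (map_ne_zero σ).2 hQ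
  unfold Fac281.gam
  exact div_ne_zero (neg_ne_zero.2 (div_ne_zero hQs hQ)) hsx0

/-- constant term of `π_i` -/
noncomputable def cc (σ : K →+* K) (x : K) (i : Option K) : K := (Fac281.gam σ x (sec i))⁻¹

/-- coefficient of `τ` in `π_i` -/
noncomputable def bb (σ : K →+* K) (x : K) (i : Option K) : K :=
  Fac281.bet σ x (sec i) * σ (cc σ x i)

theorem cc_ne (hσ : ∀ a, σ (σ a) = a) {x : K} (hx : σ x ≠ x) (i : Option K) : cc σ x i ≠ 0 :=
  inv_ne_zero (gam_ne hσ hx (sec_ne_zero i))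

theorem pmem (hσ : ∀ a, σ (σ a) = a) {x : K} (hx : σ x ≠ x) :
    PMem σ x (cc σ x) (bb σ x) := by
  intro i
  have hx0 : x ≠ 0 := Fac281.x_ne_zero hx
  have hsx0 : σ x ≠ 0 := (map_ne_zero σ).2 hx0
  have hg := gam_ne hσ hx (sec_ne_zero i)
  have hgs : σ (Fac281.gam σ x (sec i)) ≠ 0 := (map_ne_zero σ).2 hg
  obtain ⟨h1, h2⟩ := TPgrp547.be_norm hσ hx (TPgrp547.rp_ne i)
  rw [TPBr281.gam_eq hσ, TPBr281.rp_eq] at h1 h2
  rw [TPBr281.bet_eq hσ] at h2
  unfold TPgrp547.nm at h1 h2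
  have h1' : Fac281.gam σ x (sec i) * σ (Fac281.gam σ x (sec i)) * (x * σ x) = 1 := by
    rw [h1]
    field_simp
  have h2' : (Fac281.bet σ x (sec i) * σ (Fac281.bet σ x (sec i))) * (x * σ x) =
      (Fac281.gam σ x (sec i) + σ (Fac281.gam σ x (sec i))) * (x * σ x) + (x + σ x) := by
    have h3 : (Fac281.gam σ x (sec i) + σ (Fac281.gam σ x (sec i)) -
        Fac281.bet σ x (sec i) * σ (Fac281.bet σ x (sec i))) * (x * σ x) = - (x + σ x) := by
      rw [h2]
      field_simp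
    linear_combination -h3
  have e1 : (Fac281.gam σ x (sec i))⁻¹ = σ (Fac281.gam σ x (sec i)) * (x * σ x) := by
    rw [inv_eq_iff_eq_inv, eq_comm, inv_eq_iff_eq_inv.2 ?_]
    rw [eq_comm, inv_eq_of_mul_eq_one_left]
    linear_combination h1'
  have e2 : σ ((Fac281.gam σ x (sec i))⁻¹) = Fac281.gam σ x (sec i) * (x * σ x) := by
    rw [e1, map_mul, map_mul, hσ, hσ]
    ring
  unfold bb cc
  constructor
  · rw [e2, e1]
    linear_combination (x * σ x) * h1'
  · rw [map_mul, hσ, e2, e1]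
    linear_combination (x * σ x * (Fac281.gam σ x (sec i) * σ (Fac281.gam σ x (sec i)))) * h2' +
      ((Fac281.gam σ x (sec i) + σ (Fac281.gam σ x (sec i))) * (x * σ x) + (x + σ x)) * h1'

theorem be_coeffs {x : K} {l l' : K × K} (h : Fac281.be σ x l = Fac281.be σ x l') :
    Fac281.gam σ x l = Fac281.gam σ x l' ∧ Fac281.bet σ x l = Fac281.bet σ x l' := by
  constructor
  · have := congrArg (fun r : Sk σ => r.re.coeff 1) h
    simpa [Fac281.be, coeff_one] using this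
  · have := congrArg (fun r : Sk σ => r.im.coeff 0) h
    simpa [Fac281.be] using this

theorem ccbb_inj (hσ : ∀ a, σ (σ a) = a) {x : K} (hx : σ x ≠ x) :
    Function.Injective fun i => (cc σ x i, bb σ x i) := by
  intro i j h
  have h1 : cc σ x i = cc σ x j := congrArg Prod.fst h
  have h2 : bb σ x i = bb σ x j := congrArg Prod.snd h
  have h3 : Fac281.gam σ x (sec i) = Fac281.gam σ x (sec j) := inv_injective h1
  have h4 : Fac281.bet σ x (sec i) = Fac281.bet σ x (sec j) := by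
    unfold bb at h2
    rw [h1] at h2
    exact mul_right_cancel₀ ((map_ne_zero σ).2 (cc_ne hσ hx j)) h2
  apply FacB281.be_sec_inj hσ hx
  unfold Fac281.be
  rw [h3, h4]

/-- every solution of the two equations is one of the `π_i` -/
theorem ccbb_sur (hσ : ∀ a, σ (σ a) = a) {x : K} (hx : σ x ≠ x) (c0 b0 : K)
    (h1 : c0 * σ c0 = x * σ x) (h2 : b0 * σ b0 = c0 + σ c0 + (x + σ x)) :
    ∃ i, cc σ x i = c0 ∧ bb σ x i = b0 := by
  have hx0 : x ≠ 0 := Fac281.x_ne_zero hx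
  have hsx0 : σ x ≠ 0 := (map_ne_zero σ).2 hx0
  have hc0 : c0 ≠ 0 := by
    intro h
    rw [h, zero_mul] at h1
    exact mul_ne_zero hx0 hsx0 h1.symm
  have hsc0 : σ c0 ≠ 0 := (map_ne_zero σ).2 hc0
  -- a vector killed by `π`
  obtain ⟨l, hl, e1, e2⟩ : ∃ l : K × K, l ≠ 0 ∧ (x + σ c0) * l.1 - x * b0 * l.2 = 0 ∧
      (x + c0) * l.2 - σ b0 * l.1 = 0 := by
    by_cases h : x + c0 = 0 ∧ σ b0 = 0
    · refine ⟨(0, 1), fun h => one_ne_zero (congrArg Prod.snd h), ?_, ?_⟩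
      · have : b0 = 0 := by rw [← hσ b0, h.2, map_zero]
        simp [this]
      · simp [h.1]
    · refine ⟨(x + c0, σ b0), fun h' => h ⟨congrArg Prod.fst h', congrArg Prod.snd h'⟩, ?_, ?_⟩
      · simp only
        linear_combination h1 - x * h2
      · simp only
        ring
  have hact : Fac281.act x l (⟨1 + C c0⁻¹ * X, C (b0 * (σ c0)⁻¹)⟩ : Sk σ) = 0 := by
    have hsg : sg σ (1 + C c0⁻¹ * X) = 1 + C (σ c0)⁻¹ * X := by
      simp only [map_add, map_one, map_mul, sg_C, sg_X, map_inv₀]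
    ext
    · simp only [Fac281.act, hsg, eval_add, eval_one, eval_mul, eval_C, eval_X, Prod.fst_zero]
      field_simp
      linear_combination e1
    · simp only [Fac281.act, sg_C, eval_add, eval_one, eval_mul, eval_C, eval_X, Prod.snd_zero,
        map_mul, map_inv₀, hσ]
      field_simp
      linear_combination e2
  obtain ⟨g1, g2⟩ := Fac281.be_unique hσ hx hl hact
  obtain ⟨g3, g4⟩ := be_coeffs (FacB281.be_sec_proj hσ hx hl)
  refine ⟨proj l, ?_, ?_⟩
  · unfold cc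
    rw [g3, ← g1, inv_inv]
  · unfold bb cc
    rw [g3, g4, ← g1, ← g2, inv_inv]
    field_simp

theorem tr_mono (a : K) : Exp820.tr k (⟨C a, 0⟩ : Sk σ) = mono 0 a := by
  refine ext' fun n hn => ?_
  rw [Exp820.c_tr _ hn, c_mono _ _ hn]
  rcases Nat.even_or_odd' n with ⟨m, rfl | rfl⟩
  · rw [cf_even]
    change (C a).coeff m = _
    rw [coeff_C]
    by_cases h : m = 0
    · simp [h]
    · rw [if_neg h, if_neg (by omega)]
  · rw [cf_odd]
    change (0 : K[X]).coeff m = _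
    rw [coeff_zero, if_neg (by omega)]

/-- `π_i = be_i * cc_i` in the exact ring -/
theorem pil_eq (hσ : ∀ a, σ (σ a) = a) {x : K} (hx : σ x ≠ x) (i : Option K) :
    pil σ (cc σ x) (bb σ x) i = Fac281.be σ x (sec i) * ⟨C (cc σ x i), 0⟩ := by
  have hg := gam_ne hσ hx (sec_ne_zero i)
  apply Sk.ext
  · simp only [pil, Fac281.be, mul_re, map_zero, mul_zero, add_zero]
    have : (C (Fac281.gam σ x (sec i)) : K[X]) * C (cc σ x i) = 1 := by
      rw [← C_mul, cc, mul_inv_cancel₀ hg, C_1]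
    linear_combination (-X) * this
  · simp only [pil, Fac281.be, mul_im, mul_zero, zero_add, sg_C, bb, C_mul]

theorem tr_pil_eq (hσ : ∀ a, σ (σ a) = a) {x : K} (hx : σ x ≠ x) (i : Option K) :
    Exp820.tr k (pil σ (cc σ x) (bb σ x) i) =
      Exp820.tr k (Fac281.be σ x (sec i)) * mono 0 (cc σ x i) := by
  rw [pil_eq hσ hx, Exp820.tr_mul hσ, tr_mono]

/-- constants as units -/
noncomputable def kap (k : ℕ) (a : K) (ha : a ≠ 0) : (R σ k)ˣ where
  val := mono 0 a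
  inv := mono 0 a⁻¹
  val_inv := by rw [mono_zero_mul, mul_inv_cancel₀ ha, mono_zero_one]
  inv_val := by rw [mono_zero_mul, inv_mul_cancel₀ ha, mono_zero_one]

end alg

section grp

variable {K : Type} [Field K] [Finite K] {σ : K →+* K} (p : ℕ) [Fact p.Prime] [CharP K p]
  (h2 : (2 : K) ≠ 0) (hp : p % 2 = 1) (hσ : ∀ x, σ (σ x) = x) (k : ℕ)

include hp in
theorem cen_eq_sX {x : K} (hx : σ x ≠ x) (i : Option K) :
    cen (eN p k) (Exp820.tr k (Fac281.be σ x (sec i))) = TPgrp547.sX hσ h2 k x := by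
  have hb : J 1 (Exp820.tr k (Fac281.be σ x (sec i)) - 1) := tr_J (Fac281.be_re_coeff _ _)
  have hN := (TPgrp547.el_conj_mul (k := k) hσ hx (TPgrp547.rp_ne i)).1
  rw [tr_be_el hσ] at hN
  have h3 := cen_sq h2 hσ hb (lt_pow_succ (Fact.out : p.Prime).one_lt k) (two_eN hp k)
  rw [hN] at h3
  exact Cen_unique h2 hσ (Cen_cen h2 hσ _ hb) (TPgrp547.Cen_sX hσ h2 k x)
    (TPgrp547.Cen_nX hσ x) h3 (TPgrp547.sX_sq hσ h2 k x)

/-- **the normalised element is the element of `TPgrpB_547`** -/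
theorem st_eq_alP {x : K} (hx : σ x ≠ x) (i : Option K) :
    st p h2 hp hσ k x i = TPgrp547.alP hσ h2 k hx i := by
  apply Subtype.ext
  apply Units.ext
  unfold st
  rw [nu_val (Fac281.be_re_coeff _ _), nrm_eq, cen_eq_sX p h2 hp hσ k hx i]
  change _ = ((TPgrp547.al hσ h2 k hx i : (R σ k)ˣ) : R σ k)
  rw [TPgrp547.al_val, tr_be_el hσ, (TPgrp547.Cen_sX hσ h2 k x).comm hσ]

theorem alP_val {x : K} (hx : σ x ≠ x) (i : Option K) :
    ((TPgrp547.alP hσ h2 k hx i : (R σ k)ˣ) : R σ k) =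
      TPgrp547.sX hσ h2 k x * Exp820.tr k (pil σ (cc σ x) (bb σ x) i) *
        mono 0 (cc σ x i)⁻¹ := by
  change ((TPgrp547.al hσ h2 k hx i : (R σ k)ˣ) : R σ k) = _
  rw [TPgrp547.al_val, tr_be_el hσ, tr_pil_eq hσ hx, mul_assoc, mul_assoc, mono_zero_mul,
    mul_inv_cancel₀ (cc_ne hσ hx i), mono_zero_one, mul_one]

/-- the central unit -/
noncomputable def zX (x : K) : (R σ k)ˣ where
  val := TPgrp547.sX hσ h2 k x
  inv := TPgrp547.sX hσ h2 k x * TPgrp547.nX σ k x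
  val_inv := by rw [← mul_assoc, TPgrp547.sX_sq]
  inv_val := by
    rw [mul_assoc, (TPgrp547.Cen_nX hσ x).comm hσ, ← mul_assoc, TPgrp547.sX_sq]

theorem zX_comm (x : K) (u : (R σ k)ˣ) : zX h2 hσ k x * u = u * zX h2 hσ k x :=
  Units.ext ((TPgrp547.Cen_sX hσ h2 k x).comm hσ _)

/-- **the steps in the units**: `alP i = z * π_i * κ_i⁻¹`, `z` central and independent of `i` -/
theorem alP_unit {x : K} (hx : σ x ≠ x) (i : Option K) :
    (TPgrp547.alP hσ h2 k hx i : (R σ k)ˣ) =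
      zX h2 hσ k x * pe σ (cc σ x) (bb σ x) k i * (kap k (cc σ x i) (cc_ne hσ hx i))⁻¹ := by
  apply Units.ext
  rw [alP_val h2 hσ k hx i, Units.val_mul, Units.val_mul,
    pe_val' (Fac281.x_ne_zero hx) (pmem hσ hx)]
  rfl

/-- quotients of steps: 291's `al` -/
theorem alP_quot {x : K} (hx : σ x ≠ x) (i i0 : Option K) :
    ((TPgrp547.alP hσ h2 k hx i * (TPgrp547.alP hσ h2 k hx i0)⁻¹ : U hσ k 1) : (R σ k)ˣ) =
      pe σ (cc σ x) (bb σ x) k i * (kap k (cc σ x i) (cc_ne hσ hx i))⁻¹ *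
        kap k (cc σ x i0) (cc_ne hσ hx i0) * (pe σ (cc σ x) (bb σ x) k i0)⁻¹ := by
  rw [Subgroup.coe_mul, Subgroup.coe_inv, alP_unit, alP_unit]
  have hz := zX_comm h2 hσ k x
  set z := zX h2 hσ k x
  set P := pe σ (cc σ x) (bb σ x) k i
  set P0 := pe σ (cc σ x) (bb σ x) k i0
  set κ := kap (σ := σ) k (cc σ x i) (cc_ne hσ hx i)
  set κ0 := kap (σ := σ) k (cc σ x i0) (cc_ne hσ hx i0)
  calc z * P * κ⁻¹ * (z * P0 * κ0⁻¹)⁻¹ = z * (P * κ⁻¹ * κ0 * P0⁻¹) * z⁻¹ := by group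
    _ = P * κ⁻¹ * κ0 * P0⁻¹ := by rw [hz, mul_inv_cancel_right]

end grp

end Crest.Agent.R289.NuExp547
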