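import Crest.Agent.R289.SkewGrp_877

/-!
# Row 289, leaf A.PG: the groups `U k i` (`i ≥ 1`) of the truncated skew series ring are `p`-groups

`isPGroup_U` (field `isP` of `Obj.OK`), `card_U_two` (`|U (2k) 1| = (|K| * |A 2|)^k`) and
`U_pow_eq_one` (a common exponent: `u ^ (p ^ k) = 1` for `u ∈ U k 1`).
-/

set_option autoImplicit false

namespace Crest.Agent.R289.PG608

open Crest.Agent.R289.SkewGrp877

variable {K : Type*} [Field K] {σ : K →+* K} {k : ℕ}

/-- coefficient as an additive map -/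
def cHom (σ : K →+* K) (k n : ℕ) : R σ k →+ K where
  toFun f := c f n
  map_zero' := c_zero n
  map_add' f g := c_add f g n

lemma natCast_eq_zero (p : ℕ) [CharP K p] : ((p : ℕ) : R σ k) = 0 := by
  refine ext' fun n _ => ?_
  have h : ((p : ℕ) : R σ k) = p • (1 : R σ k) := by rw [nsmul_eq_mul, mul_one]
  have h2 : c (p • (1 : R σ k)) n = p • c (1 : R σ k) n := map_nsmul (cHom σ k n) p 1
  rw [h, h2, c_zero, nsmul_eq_mul, CharP.cast_eq_zero, zero_mul]

lemma J_pow {x : R σ k} (hx : J 1 x) (m : ℕ) : J m (x ^ m) := by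
  induction m with
  | zero => exact J_zero _
  | succ m ih => rw [pow_succ]; exact ih.mul hx

lemma one_add_pow_eq_one {p : ℕ} (hp : p.Prime) [CharP K p] {x : R σ k} (hx : J 1 x) {n : ℕ}
    (hn : k < p ^ n) : (1 + x) ^ p ^ n = 1 := by
  obtain ⟨r, hr⟩ := (Commute.one_left x).exists_add_pow_prime_pow_eq hp n
  rw [hr, natCast_eq_zero p, zero_mul, zero_mul, zero_mul, add_zero, one_pow,
    (J_pow hx (p ^ n)).eq_zero hn, add_zero]

lemma U_pow_eq_one (hσ : ∀ x, σ (σ x) = x) {p : ℕ} (hp : p.Prime) [CharP K p] {i : ℕ}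
    (hi : 1 ≤ i) {u : (R σ k)ˣ} (hu : u ∈ U hσ k i) {n : ℕ} (hn : k < p ^ n) :
    u ^ p ^ n = 1 := by
  have hx : J 1 ((u : R σ k) - 1) := hu.2.mono hi
  refine Units.ext ?_
  rw [Units.val_pow_eq_pow_val, Units.val_one]
  have := one_add_pow_eq_one hp hx hn
  rwa [add_sub_cancel] at this

/-- **the group `U k i`, `i ≥ 1`, is a `p`-group.** -/
theorem isPGroup_U (hσ : ∀ x, σ (σ x) = x) {p : ℕ} (hp : p.Prime) [CharP K p] {i : ℕ}
    (hi : 1 ≤ i) : IsPGroup p (U hσ k i) := by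
  intro u
  refine ⟨k, ?_⟩
  have hk : k < p ^ k := Nat.lt_pow_self hp.one_lt
  exact Subtype.ext (by
    rw [Subgroup.coe_pow, Subgroup.coe_one]
    exact U_pow_eq_one hσ hp hi u.2 hk)

/-- order of `U (2 k) 1`. -/
lemma card_A_congr {i j : ℕ} (h : i % 2 = j % 2) : Nat.card (A σ i) = Nat.card (A σ j) := by
  have : A σ i = A σ j := by
    ext x; rw [mem_A, mem_A, h]
  rw [this]

lemma card_U_aux [Finite K] (hσ : ∀ x, σ (σ x) = x) (h2 : (2 : K) ≠ 0) (k : ℕ) :
    ∀ m, m ≤ k → Nat.card (U hσ (2 * k) (2 * (k - m) + 1)) =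
      (Nat.card K * Nat.card (A σ 2)) ^ m := by
  intro m
  induction m with
  | zero =>
    intro _
    rw [Nat.sub_zero, pow_zero, Nat.card_eq_one_iff_unique]
    refine ⟨⟨fun a b => Subtype.ext ?_⟩, ⟨1⟩⟩
    rw [U_top hσ a.2, U_top hσ b.2]
  | succ m ih =>
    intro hm
    have h1 := card_U hσ h2 (k := 2 * k) (i := 2 * (k - (m + 1)) + 1) (by omega) (by omega)
    have h3 := card_U hσ h2 (k := 2 * k) (i := 2 * (k - (m + 1)) + 2) (by omega) (by omega)
    have h4 : 2 * (k - (m + 1)) + 2 + 1 = 2 * (k - m) + 1 := by omega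
    rw [h4, ih (by omega), card_A_congr (σ := σ) (j := 2) (by omega)] at h3
    have h5 : Nat.card (A σ (2 * (k - (m + 1)) + 1)) = Nat.card K := by
      have : A σ (2 * (k - (m + 1)) + 1) = Set.univ := by
        ext x; rw [mem_A]; exact iff_of_true (Or.inl (by omega)) trivial
      rw [this]; exact Nat.card_univ
    rw [h1, h5, show 2 * (k - (m + 1)) + 1 + 1 = 2 * (k - (m + 1)) + 2 from rfl, h3, pow_succ]
    ring

/-- `|U (2 k) 1| = (|K| |{x | σ x = -x}|)^k` (`= q ^ (3 k)`). -/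
theorem card_U_two [Finite K] (hσ : ∀ x, σ (σ x) = x) (h2 : (2 : K) ≠ 0) (k : ℕ) :
    Nat.card (U hσ (2 * k) 1) = (Nat.card K * Nat.card (A σ 2)) ^ k := by
  have := card_U_aux hσ h2 k k le_rfl
  rwa [Nat.sub_self, Nat.mul_zero, Nat.zero_add] at this

/-- `|{x | σ x = -x}| = |{x | σ x = x}|` if `σ ≠ id`. -/
theorem card_A_two [Finite K] (hσ : ∀ x, σ (σ x) = x) (hne : ∃ x, σ x ≠ x) :
    Nat.card (A σ 2) = q σ := by
  obtain ⟨θ, hθ0, hθ⟩ := exists_theta hσ hne
  unfold q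
  refine Nat.card_congr ⟨fun x => ⟨x.1 / θ, ?_⟩, fun x => ⟨x.1 * θ, ?_⟩, fun x => ?_, fun x => ?_⟩
  · have hx : σ x.1 = -x.1 := by
      rcases mem_A.mp x.2 with h | h
      · exact absurd h (by norm_num)
      · exact h
    change σ (x.1 / θ) = x.1 / θ
    rw [map_div₀, hx, hθ, neg_div_neg_eq]
  · rw [mem_A]
    right
    have hx : σ x.1 = x.1 := x.2
    rw [map_mul, hx, hθ, mul_neg]
  · exact Subtype.ext (div_mul_cancel₀ _ hθ0)
  · exact Subtype.ext (mul_div_cancel_right₀ _ hθ0)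

end Crest.Agent.R289.PG608
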