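import Crest.Agent.R289.AsmObj_12
import Crest.Agent.R289.FacB_281
import Crest.Agent.R289.TPgrpB_547

/-!
# Row 289, assembly A + B: the concrete object (data only)

`Par` = parameters (`K` of `q ^ 2` elements, `σ a = a ^ q`, places `x`, `y`), `Par.P k` = norm-one
elements `1 + a_1 τ + .. + a_(2k) τ^(2k)` (`SkewGrp_877`), `Par.tp k` = two-place complex
(steps `alP` of `TPgrpB_547`, labels `L`, `M` of `FacB_281`), `Par.X`, `Par.Y` = edge codes of
degree `d * (2 * (q - 1))` (weights `meo`, `moe` of `FacB_281`), `Par.Tabs` = numbering and tables,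
`Par.obj` = the object.
-/

set_option autoImplicit false

namespace Crest.Agent.R289.ObjDef233

open Polynomial Crest.Agent.Lib.PT
open Crest.Agent.R289.TP846 Crest.Agent.R289.SkewGrp877 Crest.Agent.R289.PS459
open Crest.Agent.R289.Exp820 Crest.Agent.R289.Exp820.Sk

/-! ### the labels of `TPgrp_547` are the labels of `FacB_281` -/

section bridge

variable {K : Type*} [Field K] {σ : K →+* K}

theorem rp_eq_sec (i : Option K) : TPgrp547.rp i = Mob459.sec i := by
  cases i <;> rfl

theorem pt_eq_proj (v : K × K) : TPgrp547.pt v = Mob459.proj v := rfl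

theorem bet_eq (hσ : ∀ a, σ (σ a) = a) (x : K) (l : K × K) :
    TPgrp547.bet σ x l = Fac281.bet σ x l := by
  unfold TPgrp547.bet Fac281.bet
  rw [Fac281.Q_sigma hσ]
  rfl

theorem gam_eq (hσ : ∀ a, σ (σ a) = a) (x : K) (l : K × K) :
    TPgrp547.gam σ x l = Fac281.gam σ x l := by
  unfold TPgrp547.gam Fac281.gam
  rw [Fac281.Q_sigma hσ]
  rfl

theorem act_eq (x b g : K) (l : K × K) :
    TPgrp547.act σ x b g l = Fac281.act x l (⟨1 + C g * X, C b⟩ : Sk σ) := by
  ext
  · simp only [TPgrp547.act, Fac281.act, map_add, map_one, map_mul, sg_C, sg_X, eval_add, eval_one,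
      eval_mul, eval_C, eval_X]
    ring
  · simp only [TPgrp547.act, Fac281.act, sg_C, eval_add, eval_one, eval_mul, eval_C, eval_X]
    ring

theorem lab_eq (hσ : ∀ a, σ (σ a) = a) (x y : K) (l m : Option K) :
    TPgrp547.lab σ x y l m = FacB281.L σ x y l m := by
  unfold TPgrp547.lab FacB281.L
  rw [act_eq, bet_eq hσ, gam_eq hσ, rp_eq_sec, rp_eq_sec, pt_eq_proj]
  rfl

theorem lab_eq' (hσ : ∀ a, σ (σ a) = a) (x y : K) (l m : Option K) :
    TPgrp547.lab σ y x m l = FacB281.M σ x y l m := lab_eq hσ y x m l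

end bridge

/-! ### parameters -/

/-- parameters of the object -/
structure Par where
  /-- field -/
  K : Type
  [fK : Field K]
  [tK : Fintype K]
  [dK : DecidableEq K]
  [cK : PTCode K]
  /-- characteristic -/
  p : ℕ
  /-- order of the fixed field -/
  q : ℕ
  /-- involution -/
  σ : K →+* K
  /-- place -/
  x : K
  /-- place -/
  y : K
  prime : p.Prime
  odd : p ≠ 2
  charP : CharP K p
  two : (2 : K) ≠ 0
  card : Fintype.card K = q ^ 2
  frob : ∀ a, σ a = a ^ q
  hσ : ∀ a, σ (σ a) = a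
  hx : σ x ≠ x
  hy : σ y ≠ y
  hxy : x ≠ y
  hxy' : σ x ≠ y
  hx2 : x + σ x ≠ 0
  hy2 : y + σ y ≠ 0

attribute [instance] Par.fK Par.tK Par.dK Par.cK

namespace Par

variable (D : Par)

theorem Two : TPgrp547.Two D.σ D.x D.y := ⟨D.hx, D.hy, D.hxy.symm, D.hxy'.symm⟩

/-- group of level `k` -/
abbrev P (k : ℕ) : Type := ↥(U D.hσ (2 * k) 1)

noncomputable instance (k : ℕ) : Fintype (D.P k) := Fintype.ofFinite _

noncomputable instance (k : ℕ) : DecidableEq (D.P k) := Classical.decEq _

/-- x-steps -/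
noncomputable def a (k : ℕ) (z : Option D.K) : D.P k := TPgrp547.alP D.hσ D.two (2 * k) D.hx z

/-- y-steps -/
noncomputable def b (k : ℕ) (w : Option D.K) : D.P k := TPgrp547.alP D.hσ D.two (2 * k) D.hy w

/-- new x-labels -/
noncomputable def L (l m : Option D.K) : Option D.K := FacB281.L D.σ D.x D.y l m

/-- new y-labels -/
noncomputable def M (l m : Option D.K) : Option D.K := FacB281.M D.σ D.x D.y l m

/-- **the two-place complex of level `k`** -/
noncomputable def tp (k : ℕ) : TP (D.P k) (Option D.K) where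
  a := D.a k
  b := D.b k
  L := D.L
  M := D.M
  comm l m := by
    have h := TPgrp547.alP_exchange D.hσ D.two (2 * k) D.Two l m
    rw [lab_eq' D.hσ, lab_eq D.hσ] at h
    exact h
  M_bij l := FacB281.M_bij D.hσ D.hx D.hxy D.hxy' l
  L_bij m := FacB281.L_bij D.hσ D.hy D.hxy D.hxy' m
  LM_inj l m l' m' h1 h2 := by
    have h := FacB281.LM_inj D.hσ D.hx D.hy D.hxy D.hxy' (a₁ := (l, m)) (a₂ := (l', m'))
      (Prod.ext h1 h2)
    exact ⟨congrArg Prod.fst h, congrArg Prod.snd h⟩

theorem tp_a (k : ℕ) : (D.tp k).a = D.a k := rfl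
theorem tp_b (k : ℕ) : (D.tp k).b = D.b k := rfl
theorem tp_L (k : ℕ) : (D.tp k).L = D.L := rfl
theorem tp_M (k : ℕ) : (D.tp k).M = D.M := rfl

/-! ### edge codes -/

/-- degree `d` in units of `s = 2 (q - 1)` -/
def dg (d : ℕ) : ℕ := d * (2 * (D.q - 1))

/-- **x-edge codes** -/
def X (d : ℕ) (j : Bool) (z : Option D.K) : Submodule D.K (Option D.K → D.K) where
  carrier := {u | ∃ p : D.K[X], p.natDegree ≤ D.dg d ∧
    if j then ∀ l m, D.L l m = z →
      FacB281.meo D.σ D.x D.y (D.dg d) l m * u m = ev (D.dg d) p (FacB281.px D.σ D.y m)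
    else ∀ m, u m = ev (D.dg d) p m}
  zero_mem' := by
    refine ⟨0, by simp, ?_⟩
    cases j <;> simp [ev_zero]
  add_mem' := by
    rintro u v ⟨p, hp, h⟩ ⟨r, hr, h'⟩
    refine ⟨p + r, (natDegree_add_le p r).trans (max_le hp hr), ?_⟩
    cases j
    · simp only [Bool.false_eq_true, if_false] at h h' ⊢
      intro m
      rw [Pi.add_apply, ev_add, h, h']
    · simp only [if_true] at h h' ⊢
      intro l m hm
      rw [Pi.add_apply, ev_add, mul_add, h l m hm, h' l m hm]
  smul_mem' := by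
    rintro c u ⟨p, hp, h⟩
    refine ⟨c • p, (natDegree_smul_le c p).trans hp, ?_⟩
    cases j
    · simp only [Bool.false_eq_true, if_false] at h ⊢
      intro m
      rw [Pi.smul_apply, ev_smul, h, smul_eq_mul]
    · simp only [if_true] at h ⊢
      intro l m hm
      rw [Pi.smul_apply, ev_smul, smul_eq_mul, ← h l m hm]
      ring

/-- **y-edge codes** -/
def Y (d : ℕ) (i : Bool) (w : Option D.K) : Submodule D.K (Option D.K → D.K) where
  carrier := {u | ∃ p : D.K[X], p.natDegree ≤ D.dg d ∧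
    if i then ∀ l m, D.M l m = w →
      FacB281.moe D.σ D.x D.y (D.dg d) l m * u l = ev (D.dg d) p (FacB281.px D.σ D.x l)
    else ∀ l, u l = ev (D.dg d) p l}
  zero_mem' := by
    refine ⟨0, by simp, ?_⟩
    cases i <;> simp [ev_zero]
  add_mem' := by
    rintro u v ⟨p, hp, h⟩ ⟨r, hr, h'⟩
    refine ⟨p + r, (natDegree_add_le p r).trans (max_le hp hr), ?_⟩
    cases i
    · simp only [Bool.false_eq_true, if_false] at h h' ⊢
      intro m
      rw [Pi.add_apply, ev_add, h, h']
    · simp only [if_true] at h h' ⊢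
      intro l m hm
      rw [Pi.add_apply, ev_add, mul_add, h l m hm, h' l m hm]
  smul_mem' := by
    rintro c u ⟨p, hp, h⟩
    refine ⟨c • p, (natDegree_smul_le c p).trans hp, ?_⟩
    cases i
    · simp only [Bool.false_eq_true, if_false] at h ⊢
      intro m
      rw [Pi.smul_apply, ev_smul, h, smul_eq_mul]
    · simp only [if_true] at h ⊢
      intro l m hm
      rw [Pi.smul_apply, ev_smul, smul_eq_mul, ← h l m hm]
      ring

theorem mem_X_false {d : ℕ} {z : Option D.K} {u : Option D.K → D.K} :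
    u ∈ D.X d false z ↔ ∃ p : D.K[X], p.natDegree ≤ D.dg d ∧ ∀ m, u m = ev (D.dg d) p m := by
  change (∃ p : D.K[X], p.natDegree ≤ D.dg d ∧ if false then _ else _) ↔ _
  simp only [Bool.false_eq_true, if_false]

theorem mem_X_true {d : ℕ} {z : Option D.K} {u : Option D.K → D.K} :
    u ∈ D.X d true z ↔ ∃ p : D.K[X], p.natDegree ≤ D.dg d ∧ ∀ l m, D.L l m = z →
      FacB281.meo D.σ D.x D.y (D.dg d) l m * u m = ev (D.dg d) p (FacB281.px D.σ D.y m) := by
  change (∃ p : D.K[X], p.natDegree ≤ D.dg d ∧ if true then _ else _) ↔ _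
  simp only [if_true]

theorem mem_Y_false {d : ℕ} {w : Option D.K} {u : Option D.K → D.K} :
    u ∈ D.Y d false w ↔ ∃ p : D.K[X], p.natDegree ≤ D.dg d ∧ ∀ l, u l = ev (D.dg d) p l := by
  change (∃ p : D.K[X], p.natDegree ≤ D.dg d ∧ if false then _ else _) ↔ _
  simp only [Bool.false_eq_true, if_false]

theorem mem_Y_true {d : ℕ} {w : Option D.K} {u : Option D.K → D.K} :
    u ∈ D.Y d true w ↔ ∃ p : D.K[X], p.natDegree ≤ D.dg d ∧ ∀ l m, D.M l m = w →
      FacB281.moe D.σ D.x D.y (D.dg d) l m * u l = ev (D.dg d) p (FacB281.px D.σ D.x l) := by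
  change (∃ p : D.K[X], p.natDegree ≤ D.dg d ∧ if true then _ else _) ↔ _
  simp only [if_true]

/-- the same with the inverse label `li` of `TP_846` -/
theorem mem_X_true' (k : ℕ) {d : ℕ} {z : Option D.K} {u : Option D.K → D.K} :
    u ∈ D.X d true z ↔ ∃ p : D.K[X], p.natDegree ≤ D.dg d ∧ ∀ m,
      FacB281.meo D.σ D.x D.y (D.dg d) ((D.tp k).li true m z) m * u m =
        ev (D.dg d) p (FacB281.px D.σ D.y m) := by
  rw [mem_X_true]
  refine exists_congr fun p => and_congr_right fun _ => ?_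
  constructor
  · intro h m
    exact h _ m ((D.tp k).xl_li true m z)
  · intro h l m hm
    have e : (D.tp k).li true m z = l := by
      rw [← hm]
      exact (D.tp k).li_xl true l m
    rw [← e]
    exact h m

/-- the same with the inverse label `mi` of `TP_846` -/
theorem mem_Y_true' (k : ℕ) {d : ℕ} {w : Option D.K} {u : Option D.K → D.K} :
    u ∈ D.Y d true w ↔ ∃ p : D.K[X], p.natDegree ≤ D.dg d ∧ ∀ l,
      FacB281.moe D.σ D.x D.y (D.dg d) l ((D.tp k).mi true l w) * u l =
        ev (D.dg d) p (FacB281.px D.σ D.x l) := by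
  rw [mem_Y_true]
  refine exists_congr fun p => and_congr_right fun _ => ?_
  constructor
  · intro h l
    exact h l _ ((D.tp k).yl_mi true l w)
  · intro h l m hm
    have e : (D.tp k).mi true l w = m := by
      rw [← hm]
      exact (D.tp k).mi_yl true l m
    rw [← e]
    exact h l

/-! ### numbering, tables, the object -/

/-- numbering of the groups and tables (types of `AsmObj_12`) -/
structure Tabs where
  ix : ∀ k, D.P k ≃ Fin ((D.q ^ 3) ^ k)
  aN : Option D.K → Un → ℕ
  bN : Option D.K → Un → ℕ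
  mulN : Un × ℕ × ℕ → ℕ
  invN : Un × ℕ → ℕ

/-- **the object** -/
noncomputable def obj (T : D.Tabs) : Asm12.Obj where
  K := D.K
  p := D.p
  Q := D.q ^ 3
  L := D.L
  M := D.M
  X := D.X
  Y := D.Y
  z0 := some 1
  w0 := some 0
  P := D.P
  tp := D.tp
  ix := T.ix
  aN := T.aN
  bN := T.bN
  mulN := T.mulN
  invN := T.invN

end Par

end Crest.Agent.R289.ObjDef233
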