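import Crest.Agent.R289.TPhomC_964
import Crest.Agent.R289.ObjDef_233

/-!
Row 289, passage A <-> B for the official object `ObjDef233.Par`: the code of degree `d` is the
intersection of the four corner codes.
-/

set_option autoImplicit false

open Polynomial

namespace Crest.Agent.R289.TPhom964

open HeckeTwo622 Exp820 Fac281
open Crest.Agent.R289.TP846 (TP)
open Crest.Agent.R289.ObjDef233

variable (D : Par)

theorem places : Places D.σ D.x D.y := ⟨D.hσ, D.hx, D.hy, D.hxy, D.hxy'⟩

theorem q_pos : 0 < D.q := by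
  rcases Nat.eq_zero_or_pos D.q with h | h
  · have h1 := D.card
    rw [h] at h1
    have h2 := Fintype.card_pos (α := D.K)
    omega
  · exact h

theorem one_lt_q : 1 < D.q := by
  have h := q_pos D
  rcases Nat.lt_or_ge 1 D.q with h1 | h1
  · exact h1
  · exfalso
    have h2 : D.q = 1 := by omega
    have h3 := D.card
    rw [h2] at h3
    have h4 := Fintype.one_lt_card (α := D.K)
    omega

/-- `(c * σ c) ^ (d * (2 * (q - 1))) = 1` -/
theorem norm_pow (d : ℕ) (c : D.K) (hc : c ≠ 0) : (c * D.σ c) ^ D.dg d = 1 := by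
  have h1 : c * D.σ c = c ^ (D.q + 1) := by rw [D.frob]; ring
  have h2 : (D.q + 1) * D.dg d = (Fintype.card D.K - 1) * (2 * d) := by
    have h3 : Fintype.card D.K - 1 = (D.q + 1) * (D.q - 1) := by
      rw [D.card]
      have := q_pos D
      obtain ⟨m, hm⟩ : ∃ m, D.q = m + 1 := ⟨D.q - 1, by omega⟩
      rw [hm]
      simp only [Nat.add_sub_cancel]
      have : (m + 1) ^ 2 = (m + 1 + 1) * m + 1 := by ring
      omega
    rw [h3]
    unfold Par.dg
    ring
  rw [h1, ← pow_mul, h2, pow_mul, FiniteField.pow_card_sub_one_eq_one c hc, one_pow]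

theorem dg_one_lt : D.dg 1 < Fintype.card D.K := by
  rw [D.card]
  unfold Par.dg
  have := one_lt_q D
  obtain ⟨m, hm⟩ : ∃ m, D.q = m + 1 := ⟨D.q - 1, by omega⟩
  rw [hm]
  simp only [Nat.add_sub_cancel]
  nlinarith

theorem X_eq (d : ℕ) (j : Bool) (z : Option D.K) :
    (D.X d j z : Set (Option D.K → D.K)) = xcD D.σ D.x D.y (D.dg d) j z := by
  ext u
  cases j
  · exact D.mem_X_false
  · exact D.mem_X_true

theorem Y_eq (d : ℕ) (i : Bool) (w : Option D.K) :
    (D.Y d i w : Set (Option D.K → D.K)) = ycD D.σ D.x D.y (D.dg d) i w := by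
  ext u
  cases i
  · exact D.mem_Y_false
  · exact D.mem_Y_true

/-- **the bridge over `Par`**, steps given by homogeneous functions `A`, `B` -/
theorem mem_C_iff (k d : ℕ) (hd : D.dg d < Fintype.card D.K) {A B : D.K × D.K → D.P k}
    (hA : Hom0 A) (hB : Hom0 B) (ha : ∀ i, D.a k i = A (rp i)) (hb : ∀ i, D.b k i = B (rp i))
    (w : D.P k → Option D.K → Option D.K → D.K) :
    w ∈ (D.tp k).Code (fun j z => (D.X d j z : Set _)) (fun i w => (D.Y d i w : Set _)) ↔
      ∀ i j : Bool, w ∈ Corner (D.dg d) (D.dg d) (tcC D.σ D.x D.y A B i j)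
        (C1 D.σ D.x D.y i j) (C2 D.σ D.x D.y i j) := by
  have e1 : (fun j z => (D.X d j z : Set (Option D.K → D.K))) = xcD D.σ D.x D.y (D.dg d) := by
    funext j z
    exact X_eq D d j z
  have e2 : (fun i w => (D.Y d i w : Set (Option D.K → D.K))) = ycD D.σ D.x D.y (D.dg d) := by
    funext i w
    exact Y_eq D d i w
  rw [e1, e2]
  exact mem_Code_iff_T (places D) hA hB (D.tp k) rfl rfl ha hb hd (norm_pow D d) w

/-- the corner data are homogeneous (hypothesis `hh` of `A1Two_14.content_corner`) -/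
theorem homog_C (k d : ℕ) {A B : D.K × D.K → D.P k} (hA : Hom0 A) (hB : Hom0 B) (i j : Bool) :
    Homog (D.dg d) (D.dg d) (tcC D.σ D.x D.y A B i j) (C1 D.σ D.x D.y i j)
      (C2 D.σ D.x D.y i j) :=
  homog (places D) hA hB (norm_pow D d) i j

end Crest.Agent.R289.TPhom964
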