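import Crest.Agent.R289.W0B_540
import Crest.Agent.R289.TPhomD_964
import Crest.Agent.R289.HeckeFin_548
import Crest.Agent.R289.NuExp_547
import Crest.Agent.R289.PG_608

/-!
Row 289, block A, A.ASM, end (helper14): the field `content` of `Asm12.Obj.OK` for the official
object `ObjDef233.Par`, from the three facts on the base operator and the base code.
-/

set_option autoImplicit false

namespace Crest.Agent.R289.A1End14

open Polynomial Finset
open Crest.Agent.R289.HeckeTwo622 Crest.Agent.R289.TPhom964 Crest.Agent.R289.TP846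
open Crest.Agent.R289.Exp820 Crest.Agent.R289.Exp820.Sk Crest.Agent.R289.Fac281
open Crest.Agent.R289.CornerHecke223 Crest.Agent.R289.A1Two14 Crest.Agent.R289.ObjDef233

variable (D : Par)

/-- weight of the Hecke sum, a function of the norm polynomial -/
noncomputable def W (n : D.K[X]) : D.K := ((n.eval D.x * n.eval D.y)⁻¹) ^ (D.q - 1)

/-- the base operator -/
noncomputable def T : (Option D.K → Option D.K → D.K) → Option D.K → Option D.K → D.K :=
  T0 (D.dg 1) (D.dg 1) (fun a : Fin 4 → D.K => actL D.x (HeckePlug548.el D.σ a))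
    (fun a => actL D.y (HeckePlug548.el D.σ a)) (fun a => W D (N (HeckePlug548.el D.σ a)))

/-- the base word -/
def w0 : Option D.K → Option D.K → D.K := W0540.w0t (D.q - 1) D.x D.y

theorem dg_one : D.dg 1 = 2 * (D.q - 1) := by
  unfold Par.dg
  rw [one_mul]

theorem W_zero (n : D.K[X]) (h : n.eval D.x = 0 ∨ n.eval D.y = 0) : W D n = 0 := by
  have hq := one_lt_q D
  unfold W
  have h0 : n.eval D.x * n.eval D.y = 0 := by
    rcases h with h | h
    · rw [h, zero_mul]
    · rw [h, mul_zero]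
  rw [h0, inv_zero, zero_pow (by omega)]

theorem nm_pow (c : D.K) (hc : c ≠ 0) : nm D.σ c ^ (D.q - 1) = 1 := by
  have h1 : nm D.σ c = c ^ (D.q + 1) := by
    unfold nm
    rw [D.frob]
    ring
  have h3 : (D.q + 1) * (D.q - 1) = Fintype.card D.K - 1 := by
    rw [D.card]
    have := q_pos D
    obtain ⟨m, hm⟩ : ∃ m, D.q = m + 1 := ⟨D.q - 1, by omega⟩
    rw [hm]
    simp only [Nat.add_sub_cancel]
    have : (m + 1) ^ 2 = (m + 1 + 1) * m + 1 := by ring
    omega
  rw [h1, ← pow_mul, h3, FiniteField.pow_card_sub_one_eq_one c hc]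

theorem p_odd : D.p % 2 = 1 := D.prime.eq_two_or_odd.resolve_left D.odd

/-- **A1 for the official object**, from the base facts -/
theorem content_of
    (hrk : ∀ φ, ∃ κ : D.K, T D φ = κ • w0 D)
    (hw : T D (w0 D) = w0 D)
    (huniq : ∀ v : Option D.K → Option D.K → D.K,
      (∀ i j : Bool, v ∈ BC (D.dg 1) (D.dg 1) (C1 D.σ D.x D.y i j) (C2 D.σ D.x D.y i j)) →
      ∃ κ : D.K, v = κ • w0 D)
    (k : ℕ) (c : D.P k → D.K) :
    ∃! f, f ∈ (D.tp k).Code (fun j z => (D.X 1 j z : Set (Option D.K → D.K)))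
        (fun i w => (D.Y 1 i w : Set (Option D.K → D.K))) ∧
      ∀ g, f g (some 1) (some 0) = c g := by
  have hp : Fact D.p.Prime := ⟨D.prime⟩
  have hch : CharP D.K D.p := D.charP
  let nu : Sk D.σ → D.P k := Nu547.nu D.p D.two (p_odd D) D.hσ (2 * k)
  have hnu : MulOne nu := fun r s hr hs => Nu547.nu_mul hr hs
  have ha : ∀ i, D.a k i = nu (be D.σ D.x (rp i)) := by
    intro i
    rw [TPhom964.rp_eq_sec]
    exact (NuExp547.st_eq_alP D.p D.two (p_odd D) D.hσ (2 * k) D.hx i).symm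
  have hb : ∀ i, D.b k i = nu (be D.σ D.y (rp i)) := by
    intro i
    rw [TPhom964.rp_eq_sec]
    exact (NuExp547.st_eq_alP D.p D.two (p_odd D) D.hσ (2 * k) D.hy i).symm
  have hA : Hom0 fun l : D.K × D.K => nu (be D.σ D.x l) := hom0_nu D.hσ D.hx nu
  have hB : Hom0 fun m : D.K × D.K => nu (be D.σ D.y m) := hom0_nu D.hσ D.hy nu
  have hbr := mem_C_iff D k 1 (dg_one_lt D) hA hB ha hb
  have hP : IsPGroup D.p (D.P k) := PG608.isPGroup_U D.hσ D.prime le_rfl
  have hlow := content_corner (p := D.p) (P := D.P k) (K := D.K) (ι := Bool × Bool) hP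
    (s := D.dg 1) (t := D.dg 1)
    (fun ij => tcC D.σ D.x D.y (fun l => nu (be D.σ D.x l)) (fun m => nu (be D.σ D.y m))
      ij.1 ij.2)
    (fun ij => C1 D.σ D.x D.y ij.1 ij.2) (fun ij => C2 D.σ D.x D.y ij.1 ij.2)
    (fun ij => homog_C D k 1 hA hB ij.1 ij.2)
    (fun a : Fin 4 → D.K => nu (HeckePlug548.el D.σ a))
    (fun a => actL D.x (HeckePlug548.el D.σ a))
    (fun a => actL D.y (HeckePlug548.el D.σ a)) (fun a => W D (N (HeckePlug548.el D.σ a)))
    (fun ij w hwm => HeckeFin548.HF_stable (places D) (D.dg 1) (D.dg 1) hnu (W_zero D)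
      ij.1 ij.2 hwm)
    (w0 D) 1 one_ne_zero
    (by rw [one_smul]; exact hw)
    (by
      intro φ
      obtain ⟨κ, hκ⟩ := hrk φ
      exact ⟨1, κ, hκ⟩)
    (by
      intro ij
      rw [dg_one D]
      exact W0540.w0t_BC (places D) (nm_pow D) ij.1 ij.2)
    (some 1) (some 0) (W0540.w0t_ne_zero (places D) _)
    (by
      intro v hv hv0
      obtain ⟨κ, hκ⟩ := huniq v (fun i j => hv (i, j))
      have h1 : κ * w0 D (some 1) (some 0) = 0 := by
        rw [hκ] at hv0
        exact hv0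
      have h2 : κ = 0 := (mul_eq_zero.1 h1).resolve_right (W0540.w0t_ne_zero (places D) _)
      rw [hκ, h2, zero_smul])
    c
  obtain ⟨f, ⟨hf, hfc⟩, hu⟩ := hlow
  refine ⟨f, ⟨(hbr f).2 fun i j => hf (i, j), hfc⟩, ?_⟩
  rintro f' ⟨hf', hc'⟩
  exact hu f' ⟨fun ij => (hbr f').1 hf' ij.1 ij.2, hc'⟩

end Crest.Agent.R289.A1End14
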