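import Mathlib

/-!
Row 289: choice of the absolute constants.

`KK p e = GaloisField p (2 * e)` (field with `q ^ 2` elements, `q = p ^ e`), `sg` = the involution
`a ↦ a ^ q`.  Sizes of the fixed field, of the norm fibres and of the skew elements, existence of
two places `x, y` in general position, and `exists_params`: all this for every `q = p ^ e` beyond
any bound.
-/

set_option autoImplicit false

open Finset

namespace Crest.Agent.R289.Params233

section general

variable {K : Type*} [Field K] [Fintype K] [DecidableEq K] {q : ℕ}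

/-- the norm map on units -/
def nu (K : Type*) [Field K] (q : ℕ) : Kˣ →* Kˣ := powMonoidHom (q + 1)

theorem card_units' (hK : Fintype.card K = q ^ 2) : Fintype.card Kˣ = (q + 1) * (q - 1) := by
  rw [Fintype.card_units, hK]
  cases q with
  | zero => simp
  | succ n =>
    simp only [Nat.add_sub_cancel]
    have : (n + 1) ^ 2 = (n + 1 + 1) * n + 1 := by ring
    rw [this]; simp

theorem card_filter_pow_eq_one_le (n : ℕ) (hn : 0 < n) :
    (univ.filter fun a : Kˣ => a ^ n = 1).card ≤ n :=
  IsCyclic.card_pow_eq_one_le hn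

theorem card_ker (hq : 0 < q) : Nat.card (nu K q).ker ≤ q + 1 := by
  classical
  have h := card_filter_pow_eq_one_le (K := K) (q + 1) (by omega)
  have e : Nat.card (nu K q).ker = (univ.filter fun a : Kˣ => a ^ (q + 1) = 1).card := by
    rw [← Nat.card_eq_finsetCard]
    refine Nat.card_congr (Equiv.subtypeEquivRight ?_)
    intro a
    simp [MonoidHom.mem_ker, nu]
  omega

theorem card_range (hK : Fintype.card K = q ^ 2) (hq : 1 < q) :
    Nat.card (nu K q).range ≤ q - 1 := by
  classical
  have h := card_filter_pow_eq_one_le (K := K) (q - 1) (by omega)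
  have hmem : ∀ a ∈ (nu K q).range, a ∈ (univ.filter fun a : Kˣ => a ^ (q - 1) = 1) := by
    rintro a ⟨b, rfl⟩
    simp only [mem_filter, mem_univ, true_and]
    show (b ^ (q + 1)) ^ (q - 1) = 1
    rw [← pow_mul, ← card_units' hK]
    exact pow_card_eq_one
  have e : Nat.card (nu K q).range ≤ (univ.filter fun a : Kˣ => a ^ (q - 1) = 1).card := by
    rw [← Nat.card_eq_finsetCard]
    exact Nat.card_le_card_of_injective
      (fun a : (nu K q).range => (⟨a.1, hmem a.1 a.2⟩ :
        {x // x ∈ (univ.filter fun a : Kˣ => a ^ (q - 1) = 1)}))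
      (fun a b hab => Subtype.ext (congrArg (fun t => t.1) hab))
  omega

theorem card_ker_range (hK : Fintype.card K = q ^ 2) (hq : 1 < q) :
    Nat.card (nu K q).ker = q + 1 ∧ Nat.card (nu K q).range = q - 1 := by
  have h1 := card_ker (K := K) (q := q) (by omega)
  have h2 := card_range hK hq
  have h3 : Nat.card (nu K q).ker * Nat.card (nu K q).range = (q + 1) * (q - 1) := by
    rw [← card_units' hK, ← Nat.card_eq_fintype_card]
    have := Subgroup.card_mul_index (nu K q).ker
    rw [Subgroup.index_ker] at this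
    exact this
  have p1 : 0 < Nat.card (nu K q).ker := Nat.card_pos
  have p2 : 0 < Nat.card (nu K q).range := Nat.card_pos
  constructor
  · by_contra hne
    have : Nat.card (nu K q).ker < q + 1 := by omega
    have : Nat.card (nu K q).ker * Nat.card (nu K q).range < (q + 1) * (q - 1) := by
      calc _ ≤ Nat.card (nu K q).ker * (q - 1) := Nat.mul_le_mul_left _ h2
        _ < _ := Nat.mul_lt_mul_of_pos_right this (by omega)
    omega
  · by_contra hne
    have : Nat.card (nu K q).range < q - 1 := by omega
    have : Nat.card (nu K q).ker * Nat.card (nu K q).range < (q + 1) * (q - 1) := by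
      calc _ ≤ (q + 1) * Nat.card (nu K q).range := Nat.mul_le_mul_right _ h1
        _ < _ := Nat.mul_lt_mul_of_pos_left this (by omega)
    omega

/-- the range of the norm = the units of the fixed field -/
theorem mem_range_iff (hK : Fintype.card K = q ^ 2) (hq : 1 < q) (a : Kˣ) :
    a ∈ (nu K q).range ↔ a ^ (q - 1) = 1 := by
  classical
  have hmem : ∀ a ∈ (nu K q).range, a ∈ (univ.filter fun a : Kˣ => a ^ (q - 1) = 1) := by
    rintro a ⟨b, rfl⟩
    simp only [mem_filter, mem_univ, true_and]
    show (b ^ (q + 1)) ^ (q - 1) = 1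
    rw [← pow_mul, ← card_units' hK]
    exact pow_card_eq_one
  have h := card_filter_pow_eq_one_le (K := K) (q - 1) (by omega)
  have hr := (card_ker_range hK hq).2
  have hE : (univ.filter fun a : Kˣ => a ∈ (nu K q).range) =
      (univ.filter fun a : Kˣ => a ^ (q - 1) = 1) := by
    refine Finset.eq_of_subset_of_card_le ?_ ?_
    · intro a ha
      exact hmem a (by simpa using ha)
    · have : (univ.filter fun a : Kˣ => a ∈ (nu K q).range).card = Nat.card (nu K q).range := by
        rw [← Nat.card_eq_finsetCard]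
        exact Nat.card_congr (Equiv.subtypeEquivRight fun a => by simp)
      omega
  have := Finset.ext_iff.mp hE a
  simpa using this

omit [Fintype K] [DecidableEq K] in
theorem unit_pow_sub_one (hq : 0 < q) (a : Kˣ) : a ^ (q - 1) = 1 ↔ (a : K) ^ q = a := by
  obtain ⟨n, rfl⟩ : ∃ n, q = n + 1 := ⟨q - 1, by omega⟩
  simp only [Nat.add_sub_cancel]
  constructor
  · intro h
    have : ((a ^ n : Kˣ) : K) = 1 := by rw [h]; simp
    rw [pow_succ]
    push_cast at this
    rw [this, one_mul]
  · intro h
    ext
    push_cast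
    have h0 : (a : K) ≠ 0 := a.ne_zero
    rw [pow_succ] at h
    exact mul_right_cancel₀ h0 (by rw [h, one_mul])

/-- the fixed field has `q` elements -/
theorem card_fixed (hK : Fintype.card K = q ^ 2) (hq : 1 < q) :
    (univ.filter fun a : K => a ^ q = a).card = q := by
  classical
  have hr := (card_ker_range hK hq).2
  have e1 : (univ.filter fun a : Kˣ => (a : K) ^ q = a).card = q - 1 := by
    rw [← hr, ← Nat.card_eq_finsetCard]
    refine Nat.card_congr (Equiv.subtypeEquivRight fun a => ?_)
    rw [mem_range_iff hK hq, unit_pow_sub_one (by omega)]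
    simp
  have e2 : (univ.filter fun a : K => a ^ q = a) =
      insert 0 ((univ.filter fun a : Kˣ => (a : K) ^ q = a).map ⟨Units.val, Units.val_injective⟩) := by
    ext a
    simp only [mem_filter, mem_univ, true_and, mem_insert, mem_map, Function.Embedding.coeFn_mk]
    constructor
    · intro h
      by_cases h0 : a = 0
      · exact Or.inl h0
      · exact Or.inr ⟨Units.mk0 a h0, by simpa using h, by simp⟩
    · rintro (rfl | ⟨u, hu, rfl⟩)
      · simp; omega
      · exact hu
  rw [e2, card_insert_of_notMem, card_map, e1]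
  · omega
  · simp

/-- the norm fibres have `q + 1` elements -/
theorem card_norm (hK : Fintype.card K = q ^ 2) (hq : 1 < q) (u : K) (hu : u ≠ 0)
    (hfix : u ^ q = u) : (univ.filter fun a : K => a * a ^ q = u).card = q + 1 := by
  classical
  have hk := (card_ker_range hK hq).1
  have hmem : (Units.mk0 u hu) ∈ (nu K q).range := by
    rw [mem_range_iff hK hq, unit_pow_sub_one (by omega)]
    simpa using hfix
  obtain ⟨b, hb⟩ := hmem
  have hb' : (b : K) ^ (q + 1) = u := by
    have := congrArg (fun t : Kˣ => (t : K)) hb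
    simpa [nu] using this
  rw [← hk, ← Nat.card_eq_finsetCard]
  refine (Nat.card_congr (Equiv.ofBijective
    (fun c : (nu K q).ker => (⟨((c.1 * b : Kˣ) : K), ?_⟩ :
      {x // x ∈ (univ.filter fun a : K => a * a ^ q = u)})) ?_)).symm
  · simp only [mem_filter, mem_univ, true_and]
    have hc : ((c.1 : Kˣ) : K) ^ (q + 1) = 1 := by
      have := congrArg (fun t : Kˣ => (t : K)) (MonoidHom.mem_ker.mp c.2)
      simpa [nu] using this
    rw [← pow_succ', Units.val_mul, mul_pow, hc, one_mul, hb']
  · constructor
    · intro c d hcd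
      have : ((c.1 * b : Kˣ) : K) = ((d.1 * b : Kˣ) : K) := congrArg (fun t => t.1) hcd
      have := Units.val_injective this
      exact Subtype.ext (mul_right_cancel this)
    · rintro ⟨a, ha⟩
      simp only [mem_filter, mem_univ, true_and] at ha
      have ha0 : a ≠ 0 := by
        rintro rfl
        simp at ha
        exact hu ha.symm
      refine ⟨⟨Units.mk0 a ha0 * b⁻¹, ?_⟩, ?_⟩
      · rw [MonoidHom.mem_ker, map_mul, map_inv, hb]
        ext
        simp only [Units.val_mul, Units.val_inv_eq_inv_val, Units.val_one, Units.val_mk0]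
        show ((Units.mk0 a ha0 ^ (q + 1) : Kˣ) : K) * u⁻¹ = 1
        rw [Units.val_pow_eq_pow_val, Units.val_mk0, pow_succ', ha, mul_inv_cancel₀ hu]
      · apply Subtype.ext
        simp

/-- the skew elements: `q` many, one of them non-zero (`q` = power of the odd characteristic) -/
theorem card_skew (hK : Fintype.card K = q ^ 2) (hq : 1 < q) (σ : K →+* K)
    (hσ : ∀ a, σ a = a ^ q) :
    (∃ d : K, d ≠ 0 ∧ σ d = -d) ∧ (univ.filter fun a : K => σ a = -a).card = q := by
  classical
  have hss : ∀ a, σ (σ a) = a := by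
    intro a
    rw [hσ, hσ, ← pow_mul, ← sq, ← hK, FiniteField.pow_card]
  have hex : ∃ d : K, d ≠ 0 ∧ σ d = -d := by
    by_contra hcon
    push Not at hcon
    have hall : ∀ a : K, a ^ q = a := by
      intro a
      by_contra hne
      have h1 : a - σ a ≠ 0 := by
        rw [hσ]
        exact fun h => hne (sub_eq_zero.mp h).symm
      apply hcon _ h1
      rw [map_sub, hss]
      ring
    have h3 := card_fixed hK hq
    rw [Finset.filter_true_of_mem (fun a _ => hall a), Finset.card_univ, hK] at h3
    nlinarith
  refine ⟨hex, ?_⟩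
  obtain ⟨d, hd, hds⟩ := hex
  rw [← card_fixed hK hq]
  refine Finset.card_bij (fun a _ => a / d) ?_ ?_ ?_
  · intro a ha
    simp only [mem_filter, mem_univ, true_and] at ha ⊢
    rw [← hσ, map_div₀, ha, hds, neg_div_neg_eq]
  · intro a _ b _ h
    exact (div_left_inj' hd).mp h
  · intro b hb
    simp only [mem_filter, mem_univ, true_and] at hb
    refine ⟨b * d, ?_, ?_⟩
    · simp only [mem_filter, mem_univ, true_and]
      rw [map_mul, hσ b, hb, hds]
      ring
    · rw [mul_div_assoc, div_self hd, mul_one]

/-- two places in general position -/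
theorem exists_places (hK : Fintype.card K = q ^ 2) (hq : 3 ≤ q) (σ : K →+* K)
    (hσ : ∀ a, σ a = a ^ q) :
    ∃ x y : K, σ x ≠ x ∧ σ x ≠ -x ∧ σ y ≠ y ∧ σ y ≠ -y ∧ y ≠ x ∧ y ≠ σ x := by
  classical
  have hf : (univ.filter fun a : K => σ a = a).card = q := by
    rw [← card_fixed hK (by omega)]
    congr 1
    ext a
    simp [hσ]
  have hs := (card_skew hK (by omega) σ hσ).2
  set A := (univ.filter fun a : K => σ a = a) ∪ (univ.filter fun a : K => σ a = -a) with hA
  have hAc : A.card ≤ 2 * q := by
    refine (card_union_le _ _).trans ?_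
    omega
  have hx : ∃ x, x ∉ A := by
    by_contra hcon
    push Not at hcon
    have : A = univ := Finset.eq_univ_of_forall hcon
    rw [this, Finset.card_univ, hK] at hAc
    nlinarith
  obtain ⟨x, hx⟩ := hx
  have hy : ∃ y, y ∉ A ∪ {x, σ x} := by
    by_contra hcon
    push Not at hcon
    have h1 : A ∪ {x, σ x} = univ := Finset.eq_univ_of_forall hcon
    have h3 : (A ∪ {x, σ x}).card ≤ 2 * q + 2 := by
      refine (card_union_le _ _).trans ?_
      have : ({x, σ x} : Finset K).card ≤ 2 := Finset.card_le_two
      omega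
    rw [h1, Finset.card_univ, hK] at h3
    nlinarith
  obtain ⟨y, hy⟩ := hy
  simp only [hA, mem_union, mem_filter, mem_univ, true_and, mem_insert, mem_singleton,
    not_or] at hx hy
  exact ⟨x, y, hx.1, hx.2, hy.1.1, hy.1.2, hy.2.1, hy.2.2⟩

omit [Fintype K] [DecidableEq K] in
/-- consequences of general position -/
theorem place_facts {σ : K →+* K} {x : K} (h1 : σ x ≠ x) (h2 : σ x ≠ -x) :
    x ≠ 0 ∧ x ^ 2 ≠ σ x ^ 2 ∧ x + σ x ≠ 0 ∧ x - σ x ≠ 0 := by
  refine ⟨?_, ?_, ?_, ?_⟩
  · rintro rfl
    exact h1 (map_zero σ)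
  · intro h
    rcases sq_eq_sq_iff_eq_or_eq_neg.mp h with h | h
    · exact h1 h.symm
    · exact h2 (by linear_combination h)
  · intro h
    exact h2 (by linear_combination h)
  · intro h
    exact h1 (by linear_combination -h)

end general

/-! ### the concrete fields -/

section concrete

variable (p : ℕ) [hp : Fact p.Prime] (e : ℕ)

/-- the field with `p ^ (2 e)` elements -/
abbrev KK : Type := GaloisField p (2 * e)

noncomputable instance : Fintype (KK p e) := Fintype.ofFinite _

noncomputable instance : DecidableEq (KK p e) := Classical.decEq _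

/-- the involution `a ↦ a ^ (p ^ e)` -/
noncomputable def sg : KK p e →+* KK p e := iterateFrobenius (KK p e) p e

theorem sg_apply (a : KK p e) : sg p e a = a ^ (p ^ e) := iterateFrobenius_def _ _ _

theorem card_KK (he : 0 < e) : Fintype.card (KK p e) = (p ^ e) ^ 2 := by
  rw [← Nat.card_eq_fintype_card, GaloisField.card p (2 * e) (by omega), ← pow_mul, mul_comm]

theorem sg_sg (he : 0 < e) (a : KK p e) : sg p e (sg p e a) = a := by
  rw [sg_apply, sg_apply, ← pow_mul, ← sq, ← card_KK p e he, FiniteField.pow_card]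

theorem two_ne (h : p ≠ 2) : (2 : KK p e) ≠ 0 := by
  intro h0
  have h1 : ((2 : ℕ) : KK p e) = 0 := by exact_mod_cast h0
  rw [CharP.cast_eq_zero_iff (KK p e) p] at h1
  have := (Nat.prime_dvd_prime_iff_eq hp.out Nat.prime_two).mp h1
  exact h this

end concrete

/-- **choice of the constants**: `q = p ^ e` as large as one wants (`P` is any property which is
true for all large `q`), the field with `q ^ 2` elements, the involution, two places. -/
theorem exists_params (p : ℕ) [hp : Fact p.Prime] (h2 : p ≠ 2) (P : ℕ → Prop)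
    (hP : ∀ᶠ q in Filter.atTop, P q) :
    ∃ (e : ℕ) (x y : KK p e), 0 < e ∧ P (p ^ e) ∧ 3 ≤ p ^ e ∧
      Fintype.card (KK p e) = (p ^ e) ^ 2 ∧ (2 : KK p e) ≠ 0 ∧
      sg p e x ≠ x ∧ sg p e x ≠ -x ∧ sg p e y ≠ y ∧ sg p e y ≠ -y ∧ y ≠ x ∧ y ≠ sg p e x := by
  obtain ⟨B, hB⟩ := Filter.eventually_atTop.mp hP
  have hp2 : 2 < p := lt_of_le_of_ne hp.out.two_le (Ne.symm h2)
  have hlt : ∀ n, n < p ^ n := fun n => Nat.lt_pow_self hp.out.one_lt
  set e := B + 3 with he
  have h3 : 3 ≤ p ^ e := by
    have := hlt e
    omega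
  have hB' : B ≤ p ^ e := by
    have := hlt e
    omega
  obtain ⟨x, y, hh⟩ := exists_places (K := KK p e) (q := p ^ e) (card_KK p e (by omega)) h3
    (sg p e) (sg_apply p e)
  exact ⟨e, x, y, by omega, hB _ hB', h3, card_KK p e (by omega), two_ne p e h2, hh⟩

/-- a convenient package of `eventually` facts about `q`: expansion constant small, local codes
long enough -/
theorem eventually_small (C a eps : ℝ) (ha : 0 < a) (heps : 0 < eps) :
    ∀ᶠ q : ℕ in Filter.atTop, C * (q : ℝ) ^ (-a) ≤ eps := by
  have h1 : Filter.Tendsto (fun q : ℕ => C * (q : ℝ) ^ (-a)) Filter.atTop (nhds (C * 0)) :=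
    ((tendsto_rpow_neg_atTop ha).comp tendsto_natCast_atTop_atTop).const_mul C
  rw [mul_zero] at h1
  exact (h1.eventually (gt_mem_nhds heps)).mono fun q hq => le_of_lt hq

theorem eventually_len (D E : ℕ) : ∀ᶠ q : ℕ in Filter.atTop, D * q + E ≤ q ^ 2 := by
  filter_upwards [Filter.eventually_ge_atTop (D + E + 1)] with q hq
  nlinarith [Nat.zero_le D, Nat.zero_le E]

/-- a finite field has as many distinct units as one wants -/
theorem exists_inj (K : Type*) [Field K] [Fintype K] (m : ℕ) (h : m < Fintype.card K) :
    ∃ f : Fin m → K, Function.Injective f ∧ ∀ i, f i ≠ 0 := by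
  classical
  have h1 : Fintype.card (Fin m) ≤ Fintype.card Kˣ := by
    rw [Fintype.card_fin, Fintype.card_units]
    omega
  obtain ⟨g⟩ := Function.Embedding.nonempty_of_card_le h1
  exact ⟨fun i => (g i : K), fun i j hij => g.injective (Units.val_injective hij),
    fun i => (g i).ne_zero⟩

end Crest.Agent.R289.Params233
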