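import Crest.Agent.R289.ObjDef_233
import Crest.Agent.R289.Params_233
import Crest.Agent.Lib.PT.OfTM

/-!
# Row 289, assembly A + B: `Obj289` from the leaves

`exists_par` : parameters with `q = 3 ^ e` as large as one wants.
`obj289_of` : `Obj289` from the leaves (each leaf = one hypothesis, stated over `Par`).
-/

set_option autoImplicit false

namespace Crest.Agent.R289.Obj289233

open Filter Crest.Agent.Lib.PT
open Crest.Agent.R289.TP846 Crest.Agent.R289.Tan846 Crest.Agent.R289.SkewGrp877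
open Crest.Agent.R289.ObjDef233

/-! ### parameters -/

/-- the parameters over `KK 3 e` -/
noncomputable def par (e : ℕ) (he : 0 < e) (x y : Params233.KK 3 e)
    (hx : Params233.sg 3 e x ≠ x) (hx2 : Params233.sg 3 e x ≠ -x)
    (hy : Params233.sg 3 e y ≠ y) (hy2 : Params233.sg 3 e y ≠ -y)
    (hxy : y ≠ x) (hxy' : y ≠ Params233.sg 3 e x) : Par where
  K := Params233.KK 3 e
  dK := Classical.decEq _
  cK := OfTM.codeOfFinite _
  p := 3
  q := 3 ^ e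
  σ := Params233.sg 3 e
  x := x
  y := y
  prime := Nat.prime_three
  odd := by norm_num
  charP := inferInstance
  two := Params233.two_ne 3 e (by norm_num)
  card := Params233.card_KK 3 e he
  frob := Params233.sg_apply 3 e
  hσ := Params233.sg_sg 3 e he
  hx := hx
  hy := hy
  hxy := hxy.symm
  hxy' := hxy'.symm
  hx2 := fun h => hx2 (by linear_combination h)
  hy2 := fun h => hy2 (by linear_combination h)

/-- **parameters with `q` large** -/
theorem exists_par (P : ℕ → Prop) (hP : ∀ᶠ q in atTop, P q) : ∃ D : Par, D.p = 3 ∧ P D.q := by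
  obtain ⟨e, x, y, he, hq, -, -, -, h1, h2, h3, h4, h5, h6⟩ :=
    Params233.exists_params 3 (by norm_num) P hP
  exact ⟨par e he x y h1 h2 h3 h4 h5 h6, rfl, hq⟩

/-! ### the leaves -/

/-- the four equations and the four `PTF`s of the tables -/
structure TabsOK (D : Par) (T : D.Tabs) : Prop where
  ptf_a : ∀ {α : Type} [PTCode α] (z : Option D.K) (k : α → ℕ), PTU k →
    PTU (fun x => (D.q ^ 3) ^ k x) → PTF (fun x => T.aN z (Un.mk (k x)))
  ptf_b : ∀ {α : Type} [PTCode α] (z : Option D.K) (k : α → ℕ), PTU k →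
    PTU (fun x => (D.q ^ 3) ^ k x) → PTF (fun x => T.bN z (Un.mk (k x)))
  ptf_mul : ∀ {α : Type} [PTCode α] (k u v : α → ℕ), PTU k →
    PTU (fun x => (D.q ^ 3) ^ k x) → PTF u → PTF v →
    PTF (fun x => T.mulN (Un.mk (k x), u x, v x))
  ptf_inv : ∀ {α : Type} [PTCode α] (k u : α → ℕ), PTU k →
    PTU (fun x => (D.q ^ 3) ^ k x) → PTF u → PTF (fun x => T.invN (Un.mk (k x), u x))
  aN_eq : ∀ z k, T.aN z (Un.mk k) = T.ix k (D.a k z)
  bN_eq : ∀ z k, T.bN z (Un.mk k) = T.ix k (D.b k z)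
  mul_eq : ∀ k (u v : D.P k), T.mulN (Un.mk k, T.ix k u, T.ix k v) = T.ix k (u * v)
  inv_eq : ∀ k (u : D.P k), T.invN (Un.mk k, T.ix k u) = T.ix k u⁻¹

/-- leaf (1), x-half -/
def MulX (D : Par) : Prop :=
  ∀ d d' j z f g, f ∈ D.X d j z → g ∈ D.X d' j z → f * g ∈ D.X (d + d') j z

/-- leaf (1), y-half -/
def MulY (D : Par) : Prop :=
  ∀ d d' i w f g, f ∈ D.Y d i w → g ∈ D.Y d' i w → f * g ∈ D.Y (d + d') i w

/-- leaf (2) -/
def DistOK (D : Par) (M0 : ℕ) : Prop :=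
  ∃ n : ℕ, 3 * Fintype.card (Option D.K) ≤ 4 * n ∧
    (∀ d ≤ M0, ∀ j z, Dist (D.X d j z : Set (Option D.K → D.K)) n) ∧
    ∀ d ≤ M0, ∀ i w, Dist (D.Y d i w : Set (Option D.K → D.K)) n

/-- leaf (3) -/
def RobOK (D : Par) (M0 : ℕ) (Kr : ℝ) : Prop :=
  ∀ (κ : Type) [Fintype κ] (deg : κ → ℕ), (∀ ρ, deg ρ ≤ M0) → ∀ k i j,
    (D.tp k).Rob (fun j z => {c : Option D.K → κ → D.K | ∀ ρ, (fun m => c m ρ) ∈ D.X (deg ρ) j z})
      (fun i w => {c : Option D.K → κ → D.K | ∀ ρ, (fun l => c l ρ) ∈ D.Y (deg ρ) i w}) i j Kr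

/-- leaf (4) -/
def ExpOK (D : Par) (lam : ℝ) : Prop :=
  ∀ k, Exp (D.a k) lam ∧ Exp (fun z => (D.a k z)⁻¹) lam ∧
    Exp (D.b k) lam ∧ Exp (fun z => (D.b k z)⁻¹) lam

/-- leaf (5) -/
def ContOK (D : Par) : Prop :=
  ∀ k (c : D.P k → D.K), ∃! f, f ∈ (D.tp k).Code (fun j z => (D.X 1 j z : Set _))
    (fun i w => (D.Y 1 i w : Set _)) ∧ ∀ g, f g (some 1) (some 0) = c g

/-- **assembly** -/
theorem obj289_of
    (hmulX : ∀ D : Par, MulX D) (hmulY : ∀ D : Par, MulY D)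
    (hisP : ∀ D : Par, ∀ k, IsPGroup D.p (D.P k))
    (htab : ∀ D : Par, ∃ T : D.Tabs, TabsOK D T)
    (hdist : ∀ M0 : ℕ, ∀ᶠ q : ℕ in atTop, ∀ D : Par, D.q = q → DistOK D M0)
    (Kr : ℝ) (hKr : 0 ≤ Kr)
    (hrob : ∀ M0 : ℕ, ∀ᶠ q : ℕ in atTop, ∀ D : Par, D.q = q → RobOK D M0 Kr)
    (hexp : ∀ eps : ℝ, 0 < eps → ∀ᶠ q : ℕ in atTop, ∀ D : Par, D.q = q →
      ∃ lam : ℝ, 0 ≤ lam ∧ lam ≤ eps ∧ ExpOK D lam)
    (hcont : ∀ᶠ q : ℕ in atTop, ∀ D : Par, D.q = q → ContOK D) :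
    Asm12.Obj289 := by
  refine ⟨Kr, hKr, fun M0 lam0 hl0 => ?_⟩
  have heps : 0 < min lam0 (1 / (2 * (Kr + 1))) := lt_min hl0 (by positivity)
  obtain ⟨D, hp, hd, hr, he, hc, hq⟩ := exists_par
    (fun q => (∀ D : Par, D.q = q → DistOK D M0) ∧ (∀ D : Par, D.q = q → RobOK D M0 Kr) ∧
      (∀ D : Par, D.q = q → ∃ lam : ℝ, 0 ≤ lam ∧ lam ≤ min lam0 (1 / (2 * (Kr + 1))) ∧
        ExpOK D lam) ∧ (∀ D : Par, D.q = q → ContOK D) ∧ 2 ≤ q)
    ((hdist M0).and ((hrob M0).and ((hexp _ heps).and (hcont.and (eventually_ge_atTop 2)))))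
  obtain ⟨T, hT⟩ := htab D
  obtain ⟨lam, hlam0, hlam, hE⟩ := he D rfl
  have hlam1 : lam ≤ lam0 := hlam.trans (min_le_left _ _)
  have hlam2 : lam ≤ 1 / (2 * (Kr + 1)) := hlam.trans (min_le_right _ _)
  refine ⟨D.obj T, hp, ?_⟩
  refine
    { prime := D.prime
      odd := D.odd
      charP := D.charP
      isP := hisP D
      two_le := ?_
      L_eq := fun _ => rfl
      M_eq := fun _ => rfl
      mulX := hmulX D
      mulY := hmulY D
      dist := hd D rfl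
      rob := hr D rfl
      exp := ⟨lam, hlam0, hlam1, ?_, hE⟩
      content := hc D rfl
      ptf_a := hT.ptf_a
      ptf_b := hT.ptf_b
      ptf_mul := hT.ptf_mul
      ptf_inv := hT.ptf_inv
      aN_eq := hT.aN_eq
      bN_eq := hT.bN_eq
      mul_eq := hT.mul_eq
      inv_eq := hT.inv_eq }
  · change 2 ≤ D.q ^ 3
    calc 2 ≤ D.q := hq
      _ ≤ D.q ^ 3 := Nat.le_self_pow (by norm_num) _
  · have h1 : 2 * Kr * lam ≤ 1 := by
      have h2 : lam * (2 * (Kr + 1)) ≤ 1 := by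
        rw [le_div_iff₀ (by positivity)] at hlam2
        exact hlam2
      nlinarith
    have h3 : 0 ≤ 2 * Kr * lam := by positivity
    have : 4 * Kr ^ 2 * lam ^ 2 = (2 * Kr * lam) ^ 2 := by ring
    rw [this]
    nlinarith

end Crest.Agent.R289.Obj289233
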