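import Crest.Agent.R289.Hecke_622

/-!
Row 289, block A: two-place slice form of the Hecke operators (posts 5789 (T6), 5706 (1), 5600).

Words are functions `w : P → Option K → Option K → K`; `extw` is the homogeneous extension of
degree `(s, t)` to pairs of nonzero vectors.  `BP s t` = bihomogeneous polynomial functions.
`CornerCode` = the condition at one of the four types of vertices.  `corner_stable`: a Hecke sum
preserves the corner code as soon as the commutation rule (T4) holds at this corner.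
-/

set_option autoImplicit false

namespace Crest.Agent.R289.HeckeTwo622

open Finset Crest.Agent.R289.Hecke622

section poly

variable {K : Type*} [Field K]

/-- monomial of degree `s` -/
def mono (s j : ℕ) : K × K → K := fun l => l.1 ^ j * l.2 ^ (s - j)

variable (K) in
/-- homogeneous polynomial functions of degree `s` on `K²` -/
def HP (s : ℕ) : Submodule K (K × K → K) :=
  Submodule.span K {F | ∃ j, j ≤ s ∧ F = mono s j}

theorem mono_mem {s j : ℕ} (h : j ≤ s) : (mono s j : K × K → K) ∈ HP K s :=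
  Submodule.subset_span ⟨j, h, rfl⟩

theorem mono_mul {s t i j : ℕ} (hi : i ≤ s) (hj : j ≤ t) :
    (fun l : K × K => mono s i l * mono t j l) = mono (s + t) (i + j) := by
  funext l
  unfold mono
  rw [show s + t - (i + j) = (s - i) + (t - j) by omega, pow_add, pow_add]
  ring

theorem HP_mul {s t : ℕ} {F G : K × K → K} (hF : F ∈ HP K s) (hG : G ∈ HP K t) :
    (fun l => F l * G l) ∈ HP K (s + t) := by
  have key : ∀ i, i ≤ s → (fun l => mono s i l * G l) ∈ HP K (s + t) := by
    intro i hi
    unfold HP at hG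
    induction hG using Submodule.span_induction with
    | mem G hG =>
      obtain ⟨j, hj, rfl⟩ := hG
      rw [mono_mul hi hj]
      exact mono_mem (by omega)
    | zero =>
      have : (fun l : K × K => mono s i l * (0 : K × K → K) l) = 0 := by
        funext l; simp
      rw [this]
      exact Submodule.zero_mem _
    | add G1 G2 _ _ h1 h2 =>
      have : (fun l : K × K => mono s i l * (G1 + G2) l)
          = (fun l => mono s i l * G1 l) + (fun l => mono s i l * G2 l) := by
        funext l; simp [mul_add]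
      rw [this]
      exact Submodule.add_mem _ h1 h2
    | smul c G1 _ h1 =>
      have : (fun l : K × K => mono s i l * (c • G1) l)
          = c • (fun l => mono s i l * G1 l) := by
        funext l; simp; ring
      rw [this]
      exact Submodule.smul_mem _ _ h1
  unfold HP at hF
  induction hF using Submodule.span_induction with
  | mem F hF =>
    obtain ⟨i, hi, rfl⟩ := hF
    exact key i hi
  | zero =>
    have : (fun l : K × K => (0 : K × K → K) l * G l) = 0 := by
      funext l; simp
    rw [this]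
    exact Submodule.zero_mem _
  | add F1 F2 _ _ h1 h2 =>
    have : (fun l : K × K => (F1 + F2) l * G l)
        = (fun l => F1 l * G l) + (fun l => F2 l * G l) := by
      funext l; simp [add_mul]
    rw [this]
    exact Submodule.add_mem _ h1 h2
  | smul c F1 _ h1 =>
    have : (fun l : K × K => (c • F1) l * G l) = c • (fun l => F1 l * G l) := by
      funext l; simp; ring
    rw [this]
    exact Submodule.smul_mem _ _ h1

theorem HP_one : (fun _ : K × K => (1 : K)) ∈ HP K 0 := by
  have : (fun _ : K × K => (1 : K)) = mono 0 0 := by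
    funext l; simp [mono]
  rw [this]
  exact mono_mem le_rfl

theorem HP_pow {s : ℕ} {F : K × K → K} (hF : F ∈ HP K s) (n : ℕ) :
    (fun l => F l ^ n) ∈ HP K (n * s) := by
  induction n with
  | zero => simpa using HP_one
  | succ n ih =>
    have := HP_mul ih hF
    rw [show (n + 1) * s = n * s + s by ring]
    simpa only [pow_succ] using this

theorem HP_fst : (fun l : K × K => l.1) ∈ HP K 1 := by
  have : (fun l : K × K => l.1) = mono 1 1 := by
    funext l; simp [mono]
  rw [this]
  exact mono_mem le_rfl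

theorem HP_snd : (fun l : K × K => l.2) ∈ HP K 1 := by
  have : (fun l : K × K => l.2) = mono 1 0 := by
    funext l; simp [mono]
  rw [this]
  exact mono_mem (Nat.zero_le _)

theorem HP_form (φ : (K × K) →ₗ[K] K) : (fun l : K × K => φ l) ∈ HP K 1 := by
  have : (fun l : K × K => φ l)
      = φ (1, 0) • (fun l : K × K => l.1) + φ (0, 1) • (fun l : K × K => l.2) := by
    funext l
    have h : l = l.1 • ((1, 0) : K × K) + l.2 • ((0, 1) : K × K) := by
      ext <;> simp
    conv_lhs => rw [h, map_add, map_smul, map_smul]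
    simp only [Pi.add_apply, Pi.smul_apply, smul_eq_mul]
    ring
  rw [this]
  exact Submodule.add_mem _ (Submodule.smul_mem _ _ HP_fst) (Submodule.smul_mem _ _ HP_snd)

/-- linear substitution -/
theorem HP_comp {s : ℕ} {F : K × K → K} (hF : F ∈ HP K s) (L : (K × K) →ₗ[K] (K × K)) :
    (fun l => F (L l)) ∈ HP K s := by
  unfold HP at hF
  induction hF using Submodule.span_induction with
  | mem F hF =>
    obtain ⟨j, hj, rfl⟩ := hF
    have h := HP_mul (HP_pow (HP_form ((LinearMap.fst K K K).comp L)) j)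
      (HP_pow (HP_form ((LinearMap.snd K K K).comp L)) (s - j))
    rw [show j * 1 + (s - j) * 1 = s by omega] at h
    exact h
  | zero => exact Submodule.zero_mem _
  | add F1 F2 _ _ h1 h2 => exact Submodule.add_mem _ h1 h2
  | smul c F1 _ h1 => exact Submodule.smul_mem _ c h1

theorem HP_homog {s : ℕ} {F : K × K → K} (hF : F ∈ HP K s) (c : K) (l : K × K) :
    F (c • l) = c ^ s * F l := by
  unfold HP at hF
  induction hF using Submodule.span_induction with
  | mem F hF =>
    obtain ⟨j, hj, rfl⟩ := hF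
    unfold mono
    simp only [Prod.smul_fst, Prod.smul_snd, smul_eq_mul, mul_pow]
    calc c ^ j * l.1 ^ j * (c ^ (s - j) * l.2 ^ (s - j))
        = (c ^ j * c ^ (s - j)) * (l.1 ^ j * l.2 ^ (s - j)) := by ring
      _ = c ^ s * (l.1 ^ j * l.2 ^ (s - j)) := by
        rw [← pow_add, Nat.add_sub_cancel' hj]
  | zero => simp
  | add F1 F2 _ _ h1 h2 =>
    simp only [Pi.add_apply, h1, h2]
    ring
  | smul a F1 _ h1 =>
    simp only [Pi.smul_apply, smul_eq_mul, h1]
    ring

/-- coefficient form -/
theorem mem_HP {s : ℕ} {F : K × K → K} :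
    F ∈ HP K s ↔ ∃ c : ℕ → K, ∀ l, F l = ∑ j ∈ range (s + 1), c j * (l.1 ^ j * l.2 ^ (s - j)) := by
  constructor
  · intro hF
    unfold HP at hF
    induction hF using Submodule.span_induction with
    | mem F hF =>
      obtain ⟨j, hj, rfl⟩ := hF
      refine ⟨fun i => if i = j then 1 else 0, fun l => ?_⟩
      rw [Finset.sum_eq_single j]
      · simp [mono]
      · intro i _ hi
        simp [hi]
      · intro h
        exact absurd (Finset.mem_range.2 (by omega)) h
    | zero => exact ⟨fun _ => 0, fun l => by simp⟩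
    | add F1 F2 _ _ h1 h2 =>
      obtain ⟨c, hc⟩ := h1
      obtain ⟨d, hd⟩ := h2
      refine ⟨fun j => c j + d j, fun l => ?_⟩
      rw [Pi.add_apply, hc, hd, ← Finset.sum_add_distrib]
      exact Finset.sum_congr rfl fun j _ => by ring
    | smul a F1 _ h1 =>
      obtain ⟨c, hc⟩ := h1
      refine ⟨fun j => a * c j, fun l => ?_⟩
      rw [Pi.smul_apply, smul_eq_mul, hc, Finset.mul_sum]
      exact Finset.sum_congr rfl fun j _ => by ring
  · rintro ⟨c, hc⟩
    have : F = ∑ j ∈ range (s + 1), c j • mono s j := by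
      funext l
      rw [hc, Finset.sum_apply]
      rfl
    rw [this]
    exact Submodule.sum_mem _ fun j hj =>
      Submodule.smul_mem _ _ (mono_mem (Nat.lt_succ_iff.1 (Finset.mem_range.1 hj)))

variable (K) in
/-- bihomogeneous polynomial functions of bidegree `(s, t)` -/
def BP (s t : ℕ) : Submodule K (K × K → K × K → K) :=
  Submodule.span K {B | ∃ F ∈ HP K s, ∃ G ∈ HP K t, B = fun l m => F l * G m}

theorem BP_of {s t : ℕ} {F G : K × K → K} (hF : F ∈ HP K s) (hG : G ∈ HP K t) :
    (fun l m => F l * G m) ∈ BP K s t :=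
  Submodule.subset_span ⟨F, hF, G, hG, rfl⟩

/-- linear substitution in both variables -/
theorem BP_comp {s t : ℕ} {B : K × K → K × K → K} (hB : B ∈ BP K s t)
    (L M : (K × K) →ₗ[K] (K × K)) : (fun l m => B (L l) (M m)) ∈ BP K s t := by
  unfold BP at hB
  induction hB using Submodule.span_induction with
  | mem B hB =>
    obtain ⟨F, hF, G, hG, rfl⟩ := hB
    exact BP_of (HP_comp hF L) (HP_comp hG M)
  | zero => exact Submodule.zero_mem _
  | add B1 B2 _ _ h1 h2 => exact Submodule.add_mem _ h1 h2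
  | smul c B1 _ h1 => exact Submodule.smul_mem _ c h1

/-- swapping the variables -/
theorem BP_swap {s t : ℕ} {B : K × K → K × K → K} (hB : B ∈ BP K s t) :
    (fun l m => B m l) ∈ BP K t s := by
  unfold BP at hB
  induction hB using Submodule.span_induction with
  | mem B hB =>
    obtain ⟨F, hF, G, hG, rfl⟩ := hB
    have := BP_of hG hF
    simpa only [mul_comm] using this
  | zero => exact Submodule.zero_mem _
  | add B1 B2 _ _ h1 h2 => exact Submodule.add_mem _ h1 h2
  | smul c B1 _ h1 => exact Submodule.smul_mem _ c h1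

theorem BP_fix_left {s t : ℕ} {B : K × K → K × K → K} (hB : B ∈ BP K s t) (l : K × K) :
    B l ∈ HP K t := by
  unfold BP at hB
  induction hB using Submodule.span_induction with
  | mem B hB =>
    obtain ⟨F, hF, G, hG, rfl⟩ := hB
    exact Submodule.smul_mem _ (F l) hG
  | zero => exact Submodule.zero_mem _
  | add B1 B2 _ _ h1 h2 => exact Submodule.add_mem _ h1 h2
  | smul c B1 _ h1 => exact Submodule.smul_mem _ c h1

theorem BP_fix_right {s t : ℕ} {B : K × K → K × K → K} (hB : B ∈ BP K s t) (m : K × K) :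
    (fun l => B l m) ∈ HP K s :=
  BP_fix_left (BP_swap hB) m

theorem BP_homog {s t : ℕ} {B : K × K → K × K → K} (hB : B ∈ BP K s t) (c d : K)
    (l m : K × K) : B (c • l) (d • m) = c ^ s * d ^ t * B l m := by
  rw [HP_homog (BP_fix_left hB (c • l)) d m]
  have h : B (c • l) m = c ^ s * B l m := HP_homog (BP_fix_right hB m) c l
  rw [h]
  ring

/-- products: bidegrees add -/
theorem BP_mul {s t s' t' : ℕ} {A B : K × K → K × K → K} (hA : A ∈ BP K s t)
    (hB : B ∈ BP K s' t') : (fun l m => A l m * B l m) ∈ BP K (s + s') (t + t') := by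
  have key : ∀ F ∈ HP K s, ∀ G ∈ HP K t,
      (fun l m => F l * G m * B l m) ∈ BP K (s + s') (t + t') := by
    intro F hF G hG
    unfold BP at hB
    induction hB using Submodule.span_induction with
    | mem B hB =>
      obtain ⟨F', hF', G', hG', rfl⟩ := hB
      have := BP_of (HP_mul hF hF') (HP_mul hG hG')
      have e : (fun l m => F l * G m * (F' l * G' m))
          = fun l m => F l * F' l * (G m * G' m) := by
        funext l m; ring
      rw [e]
      exact this
    | zero =>
      have : (fun l m : K × K => F l * G m * (0 : K × K → K × K → K) l m) = 0 := by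
        funext l m; simp
      rw [this]
      exact Submodule.zero_mem _
    | add B1 B2 _ _ h1 h2 =>
      have : (fun l m : K × K => F l * G m * (B1 + B2) l m)
          = (fun l m => F l * G m * B1 l m) + (fun l m => F l * G m * B2 l m) := by
        funext l m; simp [mul_add]
      rw [this]
      exact Submodule.add_mem _ h1 h2
    | smul c B1 _ h1 =>
      have : (fun l m : K × K => F l * G m * (c • B1) l m)
          = c • (fun l m => F l * G m * B1 l m) := by
        funext l m; simp; ring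
      rw [this]
      exact Submodule.smul_mem _ _ h1
  unfold BP at hA
  induction hA using Submodule.span_induction with
  | mem A hA =>
    obtain ⟨F, hF, G, hG, rfl⟩ := hA
    exact key F hF G hG
  | zero =>
    have : (fun l m : K × K => (0 : K × K → K × K → K) l m * B l m) = 0 := by
      funext l m; simp
    rw [this]
    exact Submodule.zero_mem _
  | add A1 A2 _ _ h1 h2 =>
    have : (fun l m : K × K => (A1 + A2) l m * B l m)
        = (fun l m => A1 l m * B l m) + (fun l m => A2 l m * B l m) := by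
      funext l m; simp [add_mul]
    rw [this]
    exact Submodule.add_mem _ h1 h2
  | smul c A1 _ h1 =>
    have : (fun l m : K × K => (c • A1) l m * B l m)
        = c • (fun l m => A1 l m * B l m) := by
      funext l m; simp; ring
    rw [this]
    exact Submodule.smul_mem _ _ h1

end poly

section words

variable {K : Type*} [Field K] {P : Type*}

/-- representative vector of a point -/
def rp (i : Option K) : K × K := (rp0 i, rp1 i)

theorem rp_ne_zero (i : Option K) : rp i ≠ 0 := by
  intro h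
  exact rp_ne i ⟨congrArg Prod.fst h, congrArg Prod.snd h⟩

/-- point of a vector -/
noncomputable def ptv (l : K × K) : Option K := pt l.1 l.2
/-- scalar of a vector -/
noncomputable def scv (l : K × K) : K := sc l.1 l.2

theorem scv_smul_rp (l : K × K) : scv l • rp (ptv l) = l := by
  ext
  · exact sc_mul_rp0 l.1 l.2
  · exact sc_mul_rp1 l.1 l.2

theorem scv_ne {l : K × K} (hl : l ≠ 0) : scv l ≠ 0 :=
  sc_ne fun h => hl (Prod.ext h.1 h.2)

theorem scv_smul {c : K} (hc : c ≠ 0) (l : K × K) : scv (c • l) = c * scv l := by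
  unfold scv sc
  by_cases h : l.2 = 0
  · have h' : (c • l).2 = 0 := by
      rw [Prod.smul_snd, smul_eq_mul, h, mul_zero]
    rw [if_pos h, if_pos h', Prod.smul_fst, smul_eq_mul]
  · have h' : (c • l).2 ≠ 0 := by
      rw [Prod.smul_snd, smul_eq_mul]
      exact mul_ne_zero hc h
    rw [if_neg h, if_neg h', Prod.smul_snd, smul_eq_mul]

theorem ptv_smul {c : K} (hc : c ≠ 0) (l : K × K) : ptv (c • l) = ptv l := by
  unfold ptv pt
  by_cases h : l.2 = 0
  · have h' : (c • l).2 = 0 := by
      rw [Prod.smul_snd, smul_eq_mul, h, mul_zero]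
    rw [if_pos h, if_pos h']
  · have h' : (c • l).2 ≠ 0 := by
      rw [Prod.smul_snd, smul_eq_mul]
      exact mul_ne_zero hc h
    rw [if_neg h, if_neg h', Prod.smul_fst, Prod.smul_snd, smul_eq_mul, smul_eq_mul,
      mul_div_mul_left _ _ hc]

theorem ptv_rp (i : Option K) : ptv (rp i) = i := by
  unfold ptv rp pt
  cases i with
  | none => simp [rp1]
  | some z => simp [rp0, rp1]

theorem scv_rp (i : Option K) : scv (rp i) = 1 := by
  unfold scv rp sc
  cases i with
  | none => simp [rp0, rp1]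
  | some z => simp [rp1]

/-- homogeneous extension of bidegree `(s, t)` of a table on `P¹ × P¹` -/
noncomputable def ext2 (s t : ℕ) (φ : Option K → Option K → K) (l m : K × K) : K :=
  scv l ^ s * scv m ^ t * φ (ptv l) (ptv m)

theorem ext2_rp (s t : ℕ) (φ : Option K → Option K → K) (i j : Option K) :
    ext2 s t φ (rp i) (rp j) = φ i j := by
  unfold ext2
  rw [scv_rp, scv_rp, ptv_rp, ptv_rp]
  simp

theorem ext2_add (s t : ℕ) (φ ψ : Option K → Option K → K) (l m : K × K) :
    ext2 s t (φ + ψ) l m = ext2 s t φ l m + ext2 s t ψ l m := by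
  unfold ext2
  simp only [Pi.add_apply]
  ring

theorem ext2_smul (s t : ℕ) (c : K) (φ : Option K → Option K → K) (l m : K × K) :
    ext2 s t (c • φ) l m = c * ext2 s t φ l m := by
  unfold ext2
  simp only [Pi.smul_apply, smul_eq_mul]
  ring

theorem ext2_zero (s t : ℕ) (l m : K × K) :
    ext2 s t (0 : Option K → Option K → K) l m = 0 := by
  unfold ext2
  simp

theorem ext2_homog (s t : ℕ) (φ : Option K → Option K → K) {c d : K} (hc : c ≠ 0)
    (hd : d ≠ 0) (l m : K × K) :
    ext2 s t φ (c • l) (d • m) = c ^ s * d ^ t * ext2 s t φ l m := by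
  unfold ext2
  rw [scv_smul hc, scv_smul hd, ptv_smul hc, ptv_smul hd]
  ring

variable [Group P]

/-- one corner condition: `tc` = group element of the corner, `c1 c2` = corner coordinates -/
def Corner (s t : ℕ) (tc : K × K → K × K → P) (c1 c2 : K × K → K × K → K × K) :
    Submodule K (P → Option K → Option K → K) where
  carrier := {w | ∀ h, ∃ G ∈ BP K s t, ∀ l m, l ≠ 0 → m ≠ 0 →
    ext2 s t (w (h * (tc l m)⁻¹)) l m = G (c1 l m) (c2 l m)}
  add_mem' := by
    intro w v hw hv h
    obtain ⟨G, hG, hG'⟩ := hw h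
    obtain ⟨H, hH, hH'⟩ := hv h
    refine ⟨G + H, Submodule.add_mem _ hG hH, fun l m hl hm => ?_⟩
    rw [Pi.add_apply, ext2_add, hG' l m hl hm, hH' l m hl hm]
    rfl
  zero_mem' := fun h => ⟨0, Submodule.zero_mem _, fun l m _ _ => by
    rw [Pi.zero_apply, ext2_zero]; rfl⟩
  smul_mem' := by
    intro c w hw h
    obtain ⟨G, hG, hG'⟩ := hw h
    refine ⟨c • G, Submodule.smul_mem _ _ hG, fun l m hl hm => ?_⟩
    rw [Pi.smul_apply, ext2_smul, hG' l m hl hm]
    rfl

/-- corner codes are left invariant -/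
theorem Corner_left {s t : ℕ} {tc : K × K → K × K → P} {c1 c2 : K × K → K × K → K × K}
    {w : P → Option K → Option K → K} (hw : w ∈ Corner s t tc c1 c2) (g : P) :
    (fun p => w (g * p)) ∈ Corner s t tc c1 c2 := by
  intro h
  obtain ⟨G, hG, hG'⟩ := hw (g * h)
  refine ⟨G, hG, fun l m hl hm => ?_⟩
  rw [← hG' l m hl hm, mul_assoc]

/-- products: degrees add -/
theorem Corner_mul {s t s' t' : ℕ} {tc : K × K → K × K → P}
    {c1 c2 : K × K → K × K → K × K} {v w : P → Option K → Option K → K}
    (hv : v ∈ Corner s t tc c1 c2) (hw : w ∈ Corner s' t' tc c1 c2) :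
    (fun p i j => v p i j * w p i j) ∈ Corner (s + s') (t + t') tc c1 c2 := by
  intro h
  obtain ⟨G, hG, hG'⟩ := hv h
  obtain ⟨H, hH, hH'⟩ := hw h
  refine ⟨fun l m => G l m * H l m, BP_mul hG hH, fun l m hl hm => ?_⟩
  show _ = G (c1 l m) (c2 l m) * H (c1 l m) (c2 l m)
  rw [← hG' l m hl hm, ← hH' l m hl hm]
  unfold ext2
  rw [pow_add, pow_add]
  ring

variable {Λ : Type*} [Fintype Λ]

/-- the Hecke sum `S w (p; i, j) = ∑_ϖ wt ϖ · w(p ν(ϖ); l.ϖ, m.ϖ)` -/
noncomputable def S (s t : ℕ) (ν : Λ → P) (X Y : Λ → (K × K) →ₗ[K] (K × K)) (wt : Λ → K) :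
    (P → Option K → Option K → K) →ₗ[K] (P → Option K → Option K → K) where
  toFun w p i j := ∑ ϖ, wt ϖ * ext2 s t (w (p * ν ϖ)) (X ϖ (rp i)) (Y ϖ (rp j))
  map_add' v w := by
    funext p i j
    simp only [Pi.add_apply, ext2_add, mul_add, Finset.sum_add_distrib]
  map_smul' c w := by
    funext p i j
    simp only [Pi.smul_apply, ext2_smul, smul_eq_mul, RingHom.id_apply, Finset.mul_sum]
    exact Finset.sum_congr rfl fun ϖ _ => by ring

/-- `S` commutes with left translations -/
theorem S_left (s t : ℕ) (ν : Λ → P) (X Y : Λ → (K × K) →ₗ[K] (K × K)) (wt : Λ → K)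
    (w : P → Option K → Option K → K) (g : P) :
    S s t ν X Y wt (fun p => w (g * p)) = fun p => S s t ν X Y wt w (g * p) := by
  funext p i j
  show ∑ ϖ, _ = ∑ ϖ, _
  exact Finset.sum_congr rfl fun ϖ _ => by rw [mul_assoc]

/-- base operator -/
noncomputable def T0 (s t : ℕ) (X Y : Λ → (K × K) →ₗ[K] (K × K)) (wt : Λ → K)
    (φ : Option K → Option K → K) : Option K → Option K → K :=
  fun i j => ∑ ϖ, wt ϖ * ext2 s t φ (X ϖ (rp i)) (Y ϖ (rp j))

theorem S_const (s t : ℕ) (ν : Λ → P) (X Y : Λ → (K × K) →ₗ[K] (K × K)) (wt : Λ → K)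
    (φ : Option K → Option K → K) :
    S s t ν X Y wt (fun _ => φ) = fun _ => T0 s t X Y wt φ := rfl

/-- homogeneous extension of `S w` -/
theorem ext2_S (s t : ℕ) (ν : Λ → P) (X Y : Λ → (K × K) →ₗ[K] (K × K)) (wt : Λ → K)
    (w : P → Option K → Option K → K) (p : P) (l m : K × K) (hl : l ≠ 0) (hm : m ≠ 0) :
    ext2 s t (S s t ν X Y wt w p) l m
      = ∑ ϖ, wt ϖ * ext2 s t (w (p * ν ϖ)) (X ϖ l) (Y ϖ m) := by
  show scv l ^ s * scv m ^ t * (∑ ϖ, _) = _
  rw [Finset.mul_sum]
  apply Finset.sum_congr rfl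
  intro ϖ _
  conv_rhs => rw [← scv_smul_rp l, ← scv_smul_rp m, map_smul, map_smul,
    ext2_homog _ _ _ (scv_ne hl) (scv_ne hm)]
  ring

/-- **Hecke sums preserve a corner code** as soon as (T4) holds at this corner:
`ϖ ↦ pr l m ϖ` is a bijection of the index set, preserving the weight, with
`ν ϖ · tc(l.ϖ, m.ϖ) = tc(l, m) · ν'(ϖ')` and coordinates carried by linear maps depending on
`ϖ'` only. -/
theorem corner_stable {s t : ℕ} (ν : Λ → P) (X Y : Λ → (K × K) →ₗ[K] (K × K)) (wt : Λ → K)
    (hX : ∀ ϖ l, l ≠ 0 → X ϖ l ≠ 0) (hY : ∀ ϖ l, l ≠ 0 → Y ϖ l ≠ 0)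
    (tc : K × K → K × K → P) (c1 c2 : K × K → K × K → K × K)
    (ν' : Λ → P) (L1 L2 : Λ → (K × K) →ₗ[K] (K × K)) (wt' : Λ → K)
    (pr : K × K → K × K → Λ → Λ)
    (hbij : ∀ l m, l ≠ 0 → m ≠ 0 → Function.Bijective (pr l m))
    (hwt : ∀ l m, l ≠ 0 → m ≠ 0 → ∀ ϖ, wt ϖ = wt' (pr l m ϖ))
    (hcomm : ∀ l m, l ≠ 0 → m ≠ 0 → ∀ ϖ,
      ν ϖ * tc (X ϖ l) (Y ϖ m) = tc l m * ν' (pr l m ϖ))
    (hc1 : ∀ l m, l ≠ 0 → m ≠ 0 → ∀ ϖ, c1 (X ϖ l) (Y ϖ m) = L1 (pr l m ϖ) (c1 l m))
    (hc2 : ∀ l m, l ≠ 0 → m ≠ 0 → ∀ ϖ, c2 (X ϖ l) (Y ϖ m) = L2 (pr l m ϖ) (c2 l m))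
    {w : P → Option K → Option K → K} (hw : w ∈ Corner s t tc c1 c2) :
    S s t ν X Y wt w ∈ Corner s t tc c1 c2 := by
  classical
  intro h
  choose G hG hG' using hw
  refine ⟨∑ ϖ, wt' ϖ • (fun a b => G (h * ν' ϖ) (L1 ϖ a) (L2 ϖ b)),
    Submodule.sum_mem _ fun ϖ _ => Submodule.smul_mem _ _ (BP_comp (hG _) _ _), ?_⟩
  intro l m hl hm
  rw [ext2_S s t ν X Y wt w _ l m hl hm]
  have step : ∀ ϖ, wt ϖ * ext2 s t (w (h * (tc l m)⁻¹ * ν ϖ)) (X ϖ l) (Y ϖ m)
      = wt' (pr l m ϖ) * G (h * ν' (pr l m ϖ)) (L1 (pr l m ϖ) (c1 l m))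
          (L2 (pr l m ϖ) (c2 l m)) := by
    intro ϖ
    have e : h * (tc l m)⁻¹ * ν ϖ = h * ν' (pr l m ϖ) * (tc (X ϖ l) (Y ϖ m))⁻¹ := by
      rw [eq_mul_inv_iff_mul_eq, mul_assoc, hcomm l m hl hm, mul_assoc, inv_mul_cancel_left]
    rw [e, hG' _ _ _ (hX ϖ l hl) (hY ϖ m hm), hwt l m hl hm, hc1 l m hl hm,
      hc2 l m hl hm]
  rw [Finset.sum_congr rfl fun ϖ _ => step ϖ]
  rw [Function.Bijective.sum_comp (hbij l m hl hm)
    (fun ϖ => wt' ϖ * G (h * ν' ϖ) (L1 ϖ (c1 l m)) (L2 ϖ (c2 l m)))]
  simp only [Finset.sum_apply, Pi.smul_apply, smul_eq_mul]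

end words

end Crest.Agent.R289.HeckeTwo622
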