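import Crest.Agent.R289.FacB_281
import Crest.Agent.R289.HeckeTwo_622

/-!
Row 289, block A, leaf A.W0 (posts 5789 (T7), 5969, helper740): the base word
`w₀ (l, m) = (det (l, m) · det (l.τ, m.τ)) ^ (q - 1)` satisfies the polynomial condition at the four
types of corners.

The two bilinear forms `d1 = l₀ m₁ - l₁ m₀` and `d2 = x l₁ m₀ - y l₀ m₁` are carried to scalar
multiples of the corresponding forms when an edge is crossed (`diag1`, `diag2`).
-/

set_option autoImplicit false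

namespace Crest.Agent.R289.W0740

open Polynomial Crest.Agent.R289.Exp820 Crest.Agent.R289.Exp820.Sk Crest.Agent.R289.Fac281
open Crest.Agent.R289.HeckeTwo622
open Crest.Agent.R289.FacB281 (cj psi psi_eq psi_transport act_add)

variable {K : Type*} [Field K] {σ : K →+* K}

/-- `det (l, m)` -/
def d1 (l m : K × K) : K := l.1 * m.2 - l.2 * m.1

/-- `det (l.τ, m.τ)` -/
def d2 (x y : K) (l m : K × K) : K := x * l.2 * m.1 - y * l.1 * m.2

/-- the base word -/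
def w0 (q : ℕ) (x y : K) (l m : K × K) : K := (d1 l m * d2 x y l m) ^ (q - 1)

/-- the odd vector as a vector of the conjugate place -/
def hat (σ : K →+* K) (x : K) (p : K × K) : K × K := (σ x * p.2, p.1)

theorem d1_swap (l m : K × K) : d1 m l = - d1 l m := by simp only [d1]; ring

theorem d2_swap (x y : K) (l m : K × K) : d2 y x m l = - d2 x y l m := by simp only [d2]; ring

theorem d1_smul_left (c : K) (l m : K × K) : d1 (c • l) m = c * d1 l m := by
  simp only [d1, Prod.smul_fst, Prod.smul_snd, smul_eq_mul]; ring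

theorem d2_smul_left (x y c : K) (l m : K × K) : d2 x y (c • l) m = c * d2 x y l m := by
  simp only [d2, Prod.smul_fst, Prod.smul_snd, smul_eq_mul]; ring

theorem d1_smul_right (c : K) (l m : K × K) : d1 l (c • m) = c * d1 l m := by
  simp only [d1, Prod.smul_fst, Prod.smul_snd, smul_eq_mul]; ring

theorem d2_smul_right (x y c : K) (l m : K × K) : d2 x y l (c • m) = c * d2 x y l m := by
  simp only [d2, Prod.smul_fst, Prod.smul_snd, smul_eq_mul]; ring

theorem hat_smul (x c : K) (p : K × K) : hat σ x (c • p) = c • hat σ x p := by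
  ext <;> simp only [hat, Prod.smul_fst, Prod.smul_snd, smul_eq_mul]
  ring

/-- the constant of the edge crossing -/
noncomputable def cc (σ : K →+* K) (x y : K) : K := (x - σ x) * (σ x - y) / x

theorem cc_ne_zero {x y : K} (hx : σ x ≠ x) (hxy' : σ x ≠ y) : cc σ x y ≠ 0 :=
  div_ne_zero (mul_ne_zero (sub_ne_zero.2 hx.symm) (sub_ne_zero.2 hxy')) (x_ne_zero hx)

/-- coordinates of `act y m (be x l)` -/
theorem act_be_coord (hσ : ∀ a, σ (σ a) = a) {x : K} (hx : σ x ≠ x) {l : K × K} (hl : l ≠ 0)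
    (y : K) (m : K × K) :
    act y m (be σ x l) =
      (((x * σ (Q σ x l) - y * Q σ x l) * m.1 - y * (x - σ x) * (l.1 * σ l.2) * m.2) /
          (x * σ (Q σ x l)),
        ((σ x * Q σ x l - y * σ (Q σ x l)) * m.2 + (x - σ x) * (σ l.1 * l.2) * m.1) /
          (σ x * Q σ x l)) := by
  have hx0 : x ≠ 0 := x_ne_zero hx
  have hsx0 : σ x ≠ 0 := (map_ne_zero σ).2 hx0
  have hQ := Q_ne_zero hσ hx hl
  have hQs : σ (Q σ x l) ≠ 0 := (map_ne_zero σ).2 hQ
  have hsg : sg σ (1 + C (gam σ x l) * X) = 1 + C (σ (gam σ x l)) * X := by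
    simp only [map_add, map_one, map_mul, sg_C, sg_X]
  have hgs : σ (gam σ x l) = -(Q σ x l / σ (Q σ x l)) / x := by
    simp only [gam, map_div₀, map_neg, hσ]
  have hbs : σ (bet σ x l) = (σ x - x) / σ x * (σ l.1 * l.2 / Q σ x l) := by
    simp only [bet, map_div₀, map_mul, map_sub, hσ]
  ext
  · simp only [act, be, hsg, eval_add, eval_one, eval_mul, eval_C, eval_X, hgs, bet]
    field_simp
    ring
  · simp only [act, be, sg_C, eval_add, eval_one, eval_mul, eval_C, eval_X, hbs, gam]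
    field_simp
    ring

/-- crossing an `x`-edge, first form -/
theorem diag1 (hσ : ∀ a, σ (σ a) = a) {x y : K} (hx : σ x ≠ x) {l : K × K} (hl : l ≠ 0)
    (m : K × K) :
    d1 (hat σ x (psi σ x l)) (act y m (be σ x l)) = cc σ x y / σ (Q σ x l) * d1 l m := by
  have hx0 : x ≠ 0 := x_ne_zero hx
  have hsx0 : σ x ≠ 0 := (map_ne_zero σ).2 hx0
  have hQ := Q_ne_zero hσ hx hl
  have hQs : σ (Q σ x l) ≠ 0 := (map_ne_zero σ).2 hQ
  have e1 : σ (Q σ x l) = nm σ l.1 - σ x * nm σ l.2 := Q_sigma hσ x l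
  have e2 : Q σ x l = nm σ l.1 - x * nm σ l.2 := rfl
  rw [act_be_coord hσ hx hl, psi_eq hσ]
  simp only [hat, d1, cc]
  field_simp
  rw [e1, e2]
  simp only [nm]
  ring

/-- crossing an `x`-edge, second form -/
theorem diag2 (hσ : ∀ a, σ (σ a) = a) {x y : K} (hx : σ x ≠ x) {l : K × K} (hl : l ≠ 0)
    (m : K × K) :
    d2 (σ x) y (hat σ x (psi σ x l)) (act y m (be σ x l)) = cc σ x y / Q σ x l * d2 x y l m := by
  have hx0 : x ≠ 0 := x_ne_zero hx
  have hsx0 : σ x ≠ 0 := (map_ne_zero σ).2 hx0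
  have hQ := Q_ne_zero hσ hx hl
  have hQs : σ (Q σ x l) ≠ 0 := (map_ne_zero σ).2 hQ
  have e1 : σ (Q σ x l) = nm σ l.1 - σ x * nm σ l.2 := Q_sigma hσ x l
  have e2 : Q σ x l = nm σ l.1 - x * nm σ l.2 := rfl
  rw [act_be_coord hσ hx hl, psi_eq hσ]
  simp only [hat, d2, cc]
  field_simp
  rw [e1, e2]
  simp only [nm]
  ring

/-- crossing a `y`-edge, first form -/
theorem diag1' (hσ : ∀ a, σ (σ a) = a) {x y : K} (hy : σ y ≠ y) {m : K × K} (hm : m ≠ 0)
    (l : K × K) :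
    d1 (act x l (be σ y m)) (hat σ y (psi σ y m)) = cc σ y x / σ (Q σ y m) * d1 l m := by
  rw [d1_swap, diag1 hσ hy hm, d1_swap l m]
  ring

/-- crossing a `y`-edge, second form -/
theorem diag2' (hσ : ∀ a, σ (σ a) = a) {x y : K} (hy : σ y ≠ y) {m : K × K} (hm : m ≠ 0)
    (l : K × K) :
    d2 x (σ y) (act x l (be σ y m)) (hat σ y (psi σ y m)) = cc σ y x / Q σ y m * d2 x y l m := by
  rw [d2_swap, diag2 hσ hy hm, d2_swap x y l m]
  ring

/-- `hat` intertwines the conjugated action with the action at the conjugate place -/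
theorem hat_act (hσ : ∀ a, σ (σ a) = a) (x : K) (p : K × K) (r : Sk σ) :
    act (σ x) (hat σ x p) r = hat σ x (cj σ (act x (cj σ p) r)) := by
  have h1 : ∀ f : K[X], σ (f.eval x) = (sg σ f).eval (σ x) := fun f => (eval_sg f x).symm
  have h2 : ∀ f : K[X], σ ((sg σ f).eval x) = f.eval (σ x) := fun f => by
    rw [h1, sg_sg hσ]
  ext
  · simp only [act, hat, cj, map_sub, map_mul, h1, h2, sg_sg hσ, hσ]
    ring
  · simp only [act, hat, cj, map_sub, map_mul, h1, h2, sg_sg hσ, hσ]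
    ring

theorem hat_transport (hσ : ∀ a, σ (σ a) = a) {x y : K} (hx : σ x ≠ x) (hy : σ y ≠ y)
    (hxy : x ≠ y) (hxy' : σ x ≠ y) {l m : K × K} (hl : l ≠ 0) (hm : m ≠ 0) :
    act (σ x) (hat σ x (psi σ x l)) (be σ y (act y m (be σ x l))) =
      σ ((N (be σ y m)).eval x) • hat σ x (psi σ x (act x l (be σ y m))) := by
  rw [hat_act hσ, psi_transport hσ hx hy hxy hxy' hl hm, hat_smul]

/-! ### bihomogeneous polynomials -/

theorem BP_d1 : (fun l m : K × K => d1 l m) ∈ BP K 1 1 := by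
  have : (fun l m : K × K => d1 l m) =
      (fun l m : K × K => l.1 * m.2) - (fun l m : K × K => l.2 * m.1) := rfl
  rw [this]
  exact Submodule.sub_mem _ (BP_of HP_fst HP_snd) (BP_of HP_snd HP_fst)

theorem BP_d2 (x y : K) : (fun l m : K × K => d2 x y l m) ∈ BP K 1 1 := by
  have : (fun l m : K × K => d2 x y l m) =
      x • (fun l m : K × K => l.2 * m.1) - y • (fun l m : K × K => l.1 * m.2) := by
    funext l m
    simp only [d2, Pi.sub_apply, Pi.smul_apply, smul_eq_mul]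
    ring
  rw [this]
  exact Submodule.sub_mem _ (Submodule.smul_mem _ _ (BP_of HP_snd HP_fst))
    (Submodule.smul_mem _ _ (BP_of HP_fst HP_snd))

theorem BP_one : (fun _ _ : K × K => (1 : K)) ∈ BP K 0 0 := by
  have := BP_of (HP_one (K := K)) (HP_one (K := K))
  simpa using this

theorem BP_pow {s t : ℕ} {B : K × K → K × K → K} (hB : B ∈ BP K s t) (n : ℕ) :
    (fun l m => B l m ^ n) ∈ BP K (n * s) (n * t) := by
  induction n with
  | zero => simpa using BP_one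
  | succ n ih =>
    have := BP_mul ih hB
    rw [show (n + 1) * s = n * s + s by ring, show (n + 1) * t = n * t + t by ring]
    simpa only [pow_succ] using this

/-- `w₀` is a bihomogeneous polynomial -/
theorem w0_mem (q : ℕ) (x y : K) : (w0 q x y) ∈ BP K (2 * (q - 1)) (2 * (q - 1)) := by
  have h := BP_pow (BP_mul (BP_d1 (K := K)) (BP_d2 x y)) (q - 1)
  rw [show (q - 1) * (1 + 1) = 2 * (q - 1) by ring] at h
  exact h

/-- `hat` as a linear map -/
def hatL (σ : K →+* K) (x : K) : (K × K) →ₗ[K] (K × K) where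
  toFun := hat σ x
  map_add' a b := by ext <;> simp [hat, mul_add]
  map_smul' c a := hat_smul x c a

@[simp] theorem hatL_apply (x : K) (p : K × K) : hatL σ x p = hat σ x p := rfl

theorem w0_homog (q : ℕ) (x y c d : K) (l m : K × K) :
    w0 q x y (c • l) (d • m) = c ^ (2 * (q - 1)) * d ^ (2 * (q - 1)) * w0 q x y l m :=
  BP_homog (w0_mem q x y) c d l m

/-- `(q-1)`-th power of a non-zero fixed element -/
theorem fix_pow {q : ℕ} (hq : 1 ≤ q) (hfr : ∀ a, σ a = a ^ q) {a : K} (ha : a ≠ 0)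
    (h : σ a = a) : a ^ (q - 1) = 1 := by
  have h1 : a * a ^ (q - 1) = a * 1 := by
    rw [← pow_succ', Nat.sub_add_cancel hq, mul_one, ← hfr, h]
  exact mul_left_cancel₀ ha h1

theorem nmQ_pow {q : ℕ} (hq : 1 ≤ q) (hfr : ∀ a, σ a = a ^ q) (hσ : ∀ a, σ (σ a) = a) {x : K}
    (hx : σ x ≠ x) {l : K × K} (hl : l ≠ 0) : (Q σ x l * σ (Q σ x l)) ^ (q - 1) = 1 := by
  have hQ := Q_ne_zero hσ hx hl
  refine fix_pow hq hfr (mul_ne_zero hQ ((map_ne_zero σ).2 hQ)) ?_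
  rw [map_mul, hσ, mul_comm]

/-- crossing an `x`-edge -/
theorem w0_cross {q : ℕ} (hq : 1 ≤ q) (hfr : ∀ a, σ a = a ^ q) (hσ : ∀ a, σ (σ a) = a) {x y : K}
    (hx : σ x ≠ x) (hxy' : σ x ≠ y) {l : K × K} (hl : l ≠ 0) (m : K × K) :
    w0 q x y l m = ((cc σ x y * cc σ x y) ^ (q - 1))⁻¹ *
      w0 q (σ x) y (hat σ x (psi σ x l)) (act y m (be σ x l)) := by
  have hQ := Q_ne_zero hσ hx hl
  have hQs : σ (Q σ x l) ≠ 0 := (map_ne_zero σ).2 hQ
  have hc : cc σ x y ≠ 0 := cc_ne_zero hx hxy'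
  have e : cc σ x y / σ (Q σ x l) * d1 l m * (cc σ x y / Q σ x l * d2 x y l m) =
      (cc σ x y * cc σ x y) * (Q σ x l * σ (Q σ x l))⁻¹ * (d1 l m * d2 x y l m) := by
    field_simp
  have h2 : ((cc σ x y * cc σ x y) * (Q σ x l * σ (Q σ x l))⁻¹ * (d1 l m * d2 x y l m)) ^ (q - 1) =
      (cc σ x y * cc σ x y) ^ (q - 1) * (d1 l m * d2 x y l m) ^ (q - 1) := by
    rw [mul_pow _ (d1 l m * d2 x y l m), mul_pow _ (Q σ x l * σ (Q σ x l))⁻¹, inv_pow,
      nmQ_pow hq hfr hσ hx hl, inv_one, mul_one]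
  rw [w0, w0, diag1 hσ hx hl, diag2 hσ hx hl, e, h2, ← mul_assoc,
    inv_mul_cancel₀ (pow_ne_zero _ (mul_ne_zero hc hc)), one_mul]

/-- crossing a `y`-edge -/
theorem w0_cross' {q : ℕ} (hq : 1 ≤ q) (hfr : ∀ a, σ a = a ^ q) (hσ : ∀ a, σ (σ a) = a) {x y : K}
    (hy : σ y ≠ y) (hxy' : σ y ≠ x) {m : K × K} (hm : m ≠ 0) (l : K × K) :
    w0 q x y l m = ((cc σ y x * cc σ y x) ^ (q - 1))⁻¹ *
      w0 q x (σ y) (act x l (be σ y m)) (hat σ y (psi σ y m)) := by
  have hQ := Q_ne_zero hσ hy hm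
  have hQs : σ (Q σ y m) ≠ 0 := (map_ne_zero σ).2 hQ
  have hc : cc σ y x ≠ 0 := cc_ne_zero hy hxy'
  have e : cc σ y x / σ (Q σ y m) * d1 l m * (cc σ y x / Q σ y m * d2 x y l m) =
      (cc σ y x * cc σ y x) * (Q σ y m * σ (Q σ y m))⁻¹ * (d1 l m * d2 x y l m) := by
    field_simp
  have h2 : ((cc σ y x * cc σ y x) * (Q σ y m * σ (Q σ y m))⁻¹ * (d1 l m * d2 x y l m)) ^ (q - 1) =
      (cc σ y x * cc σ y x) ^ (q - 1) * (d1 l m * d2 x y l m) ^ (q - 1) := by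
    rw [mul_pow _ (d1 l m * d2 x y l m), mul_pow _ (Q σ y m * σ (Q σ y m))⁻¹, inv_pow,
      nmQ_pow hq hfr hσ hy hm, inv_one, mul_one]
  rw [w0, w0, diag1' hσ hy hm, diag2' hσ hy hm, e, h2, ← mul_assoc,
    inv_mul_cancel₀ (pow_ne_zero _ (mul_ne_zero hc hc)), one_mul]

/-- corner `ee` -/
theorem w0_ee (q : ℕ) (x y : K) :
    ∃ G ∈ BP K (2 * (q - 1)) (2 * (q - 1)), ∀ l m : K × K, w0 q x y l m = G l m :=
  ⟨_, w0_mem q x y, fun _ _ => rfl⟩

/-- corner `oe` -/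
theorem w0_oe {q : ℕ} (hq : 1 ≤ q) (hfr : ∀ a, σ a = a ^ q) (hσ : ∀ a, σ (σ a) = a) {x y : K}
    (hx : σ x ≠ x) (hxy' : σ x ≠ y) :
    ∃ G ∈ BP K (2 * (q - 1)) (2 * (q - 1)), ∀ l m : K × K, l ≠ 0 → m ≠ 0 →
      w0 q x y l m = G (psi σ x l) (act y m (be σ x l)) := by
  have h := Submodule.smul_mem _ ((cc σ x y * cc σ x y) ^ (q - 1))⁻¹
    (BP_comp (w0_mem q (σ x) y) (hatL σ x) LinearMap.id)
  refine ⟨_, h, fun l m hl _ => ?_⟩
  simp only [Pi.smul_apply, smul_eq_mul, hatL_apply, LinearMap.id_apply]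
  exact w0_cross hq hfr hσ hx hxy' hl m

/-- corner `eo` -/
theorem w0_eo {q : ℕ} (hq : 1 ≤ q) (hfr : ∀ a, σ a = a ^ q) (hσ : ∀ a, σ (σ a) = a) {x y : K}
    (hy : σ y ≠ y) (hyx' : σ y ≠ x) :
    ∃ G ∈ BP K (2 * (q - 1)) (2 * (q - 1)), ∀ l m : K × K, l ≠ 0 → m ≠ 0 →
      w0 q x y l m = G (act x l (be σ y m)) (psi σ y m) := by
  have h := Submodule.smul_mem _ ((cc σ y x * cc σ y x) ^ (q - 1))⁻¹
    (BP_comp (w0_mem q x (σ y)) LinearMap.id (hatL σ y))
  refine ⟨_, h, fun l m _ hm => ?_⟩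
  simp only [Pi.smul_apply, smul_eq_mul, hatL_apply, LinearMap.id_apply]
  exact w0_cross' hq hfr hσ hy hyx' hm l

/-- corner `oo` -/
theorem w0_oo {q : ℕ} (hq : 1 ≤ q) (hfr : ∀ a, σ a = a ^ q) (hσ : ∀ a, σ (σ a) = a) {x y : K}
    (hx : σ x ≠ x) (hy : σ y ≠ y) (hxy : x ≠ y) (hxy' : σ x ≠ y) :
    ∃ G ∈ BP K (2 * (q - 1)) (2 * (q - 1)), ∀ l m : K × K, l ≠ 0 → m ≠ 0 →
      w0 q x y l m = G (psi σ x (act x l (be σ y m))) (psi σ y (act y m (be σ x l))) := by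
  have hyx : σ y ≠ σ x := fun h => hxy (σ.injective h).symm
  have h := Submodule.smul_mem _ (((cc σ x y * cc σ x y) ^ (q - 1))⁻¹ *
      ((cc σ y (σ x) * cc σ y (σ x)) ^ (q - 1))⁻¹ *
      σ ((y * σ y)⁻¹ * ((x - y) * (x - σ y))) ^ (2 * (q - 1)))
    (BP_comp (w0_mem q (σ x) (σ y)) (hatL σ x) (hatL σ y))
  refine ⟨_, h, fun l m hl hm => ?_⟩
  simp only [Pi.smul_apply, smul_eq_mul, hatL_apply]
  have hm' : act y m (be σ x l) ≠ 0 := act_ne_zero hσ hm (N_be_eval_ne hσ hx hl hxy hxy')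
  rw [w0_cross hq hfr hσ hx hxy' hl m, w0_cross' hq hfr hσ hy hyx hm' (hat σ x (psi σ x l)),
    hat_transport hσ hx hy hxy hxy' hl hm, N_be_eval hσ hy hm]
  have := w0_homog q (σ x) (σ y) (σ ((y * σ y)⁻¹ * ((x - y) * (x - σ y)))) 1
    (hat σ x (psi σ x (act x l (be σ y m)))) (hat σ y (psi σ y (act y m (be σ x l))))
  rw [one_smul, one_pow, mul_one] at this
  rw [this]
  ring

/-- the content point `((1,1), (0,1))` -/
theorem w0_h0 (q : ℕ) {x y : K} (hy : y ≠ 0) : w0 q x y (1, 1) (0, 1) ≠ 0 := by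
  refine pow_ne_zero _ ?_
  simp [d1, d2, hy]

end Crest.Agent.R289.W0740
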