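import Crest.Agent.R289.A1Two_14
import Crest.Agent.R289.HeckeFin_548
import Crest.Agent.R289.TPhomD_964
import Crest.Agent.R289.Obj289_233
import Crest.Agent.R289.NuExp_547
import Crest.Agent.R289.PG_608
import Crest.Agent.R289.W0_740

/-!
Row 289, block A, A1End (insurance, helper740): the field `content` (`Obj289233.ContOK`) from the
three base facts: `T0 w0 = w0`, rank one of `T0`, base uniqueness.
-/

set_option autoImplicit false

namespace Crest.Agent.R289.A1End740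

open Polynomial Crest.Agent.R289.Exp820 Crest.Agent.R289.Exp820.Sk Crest.Agent.R289.Fac281
open Crest.Agent.R289.HeckeTwo622 Crest.Agent.R289.CornerHecke223 Crest.Agent.R289.TPhom964
open Crest.Agent.R289.ObjDef233 Crest.Agent.R289.A1Two14 Crest.Agent.R289.HeckeFin548
open Crest.Agent.R289.W0740 (w0)

variable (D : Par)

/-- the table of the base word -/
def w0t (i j : Option D.K) : D.K := w0 D.q D.x D.y (rp i) (rp j)

/-- the weight -/
noncomputable def Wt (n : D.K[X]) : D.K := ((n.eval D.x * n.eval D.y)⁻¹) ^ (D.q - 1)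

/-- the base operator (literal form of 605) -/
noncomputable def Tb : (Option D.K → Option D.K → D.K) → Option D.K → Option D.K → D.K :=
  T0 (2 * (D.q - 1)) (2 * (D.q - 1))
    (fun a : Fin 4 → D.K => actL D.x (HeckePlug548.el D.σ a))
    (fun a => actL D.y (HeckePlug548.el D.σ a)) (fun a => Wt D (N (HeckePlug548.el D.σ a)))

/-- base uniqueness -/
def Uniq : Prop := ∀ v : Option D.K → Option D.K → D.K,
  (∀ i j : Bool, v ∈ BC (2 * (D.q - 1)) (2 * (D.q - 1)) (C1 D.σ D.x D.y i j)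
    (C2 D.σ D.x D.y i j)) → ∃ κ : D.K, v = κ • w0t D

theorem dg_one : D.dg 1 = 2 * (D.q - 1) := by
  unfold Par.dg
  rw [one_mul]

theorem x_ne : D.x ≠ 0 := x_ne_zero D.hx
theorem y_ne : D.y ≠ 0 := x_ne_zero D.hy

theorem w0t_mem (i j : Bool) : w0t D ∈ BC (2 * (D.q - 1)) (2 * (D.q - 1))
    (C1 D.σ D.x D.y i j) (C2 D.σ D.x D.y i j) := by
  have hq : 1 ≤ D.q := (one_lt_q D).le
  cases i <;> cases j
  · exact ⟨_, W0740.w0_mem D.q D.x D.y, fun i j => rfl⟩
  · obtain ⟨G, hG, h⟩ := W0740.w0_eo hq D.frob D.hσ (x := D.x) (y := D.y) D.hy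
      (places D).swap.hxy'
    exact ⟨G, hG, fun i j => h _ _ (rp_ne_zero i) (rp_ne_zero j)⟩
  · obtain ⟨G, hG, h⟩ := W0740.w0_oe hq D.frob D.hσ (x := D.x) (y := D.y) D.hx D.hxy'
    exact ⟨G, hG, fun i j => h _ _ (rp_ne_zero i) (rp_ne_zero j)⟩
  · obtain ⟨G, hG, h⟩ := W0740.w0_oo hq D.frob D.hσ (x := D.x) (y := D.y) D.hx D.hy D.hxy D.hxy'
    exact ⟨G, hG, fun i j => h _ _ (rp_ne_zero i) (rp_ne_zero j)⟩

theorem w0t_ne : w0t D (some 1) (some 0) ≠ 0 := W0740.w0_h0 D.q (y_ne D)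

theorem Wt_zero (n : D.K[X]) (h : n.eval D.x = 0 ∨ n.eval D.y = 0) : Wt D n = 0 := by
  have hq := one_lt_q D
  unfold Wt
  have : n.eval D.x * n.eval D.y = 0 := by
    rcases h with h | h <;> rw [h] <;> ring
  rw [this, inv_zero, zero_pow (by omega)]

/-- **the field `content`** -/
theorem contOK_of (hw : Tb D (w0t D) = w0t D)
    (hrk : ∀ φ, ∃ κ : D.K, Tb D φ = κ • w0t D) (hu : Uniq D) : Obj289233.ContOK D := by
  have : Fact D.p.Prime := ⟨D.prime⟩
  have := D.charP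
  have hp : D.p % 2 = 1 := D.prime.eq_two_or_odd.resolve_left D.odd
  intro k content
  set nuf : Sk D.σ → D.P k := Nu547.nu D.p D.two hp D.hσ (2 * k) with hnuf
  have hA : Hom0 fun l : D.K × D.K => nuf (be D.σ D.x l) := hom0_nu D.hσ D.hx nuf
  have hB : Hom0 fun l : D.K × D.K => nuf (be D.σ D.y l) := hom0_nu D.hσ D.hy nuf
  have ha : ∀ i, D.a k i = nuf (be D.σ D.x (rp i)) := fun i => by
    rw [TPhom964.rp_eq_sec]
    exact (NuExp547.st_eq_alP D.p D.two hp D.hσ (2 * k) D.hx i).symm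
  have hb : ∀ i, D.b k i = nuf (be D.σ D.y (rp i)) := fun i => by
    rw [TPhom964.rp_eq_sec]
    exact (NuExp547.st_eq_alP D.p D.two hp D.hσ (2 * k) D.hy i).symm
  have hnu : MulOne nuf := fun r s hr hs => Nu547.nu_mul hr hs
  have key := content_corner (p := D.p) (PG608.isPGroup_U D.hσ D.prime le_rfl)
    (s := 2 * (D.q - 1)) (t := 2 * (D.q - 1)) (ι := Bool × Bool)
    (fun c => tcC D.σ D.x D.y (fun l => nuf (be D.σ D.x l)) (fun m => nuf (be D.σ D.y m)) c.1 c.2)
    (fun c => C1 D.σ D.x D.y c.1 c.2) (fun c => C2 D.σ D.x D.y c.1 c.2)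
    (fun c => by
      have h := homog_C D k 1 hA hB c.1 c.2
      rw [dg_one] at h
      exact h)
    (fun a : Fin 4 → D.K => nuf (HeckePlug548.el D.σ a))
    (fun a => actL D.x (HeckePlug548.el D.σ a)) (fun a => actL D.y (HeckePlug548.el D.σ a))
    (fun a => Wt D (N (HeckePlug548.el D.σ a)))
    (fun c w hw => HF_stable (places D) _ _ hnu (Wt_zero D) c.1 c.2 hw)
    (w0t D) 1 one_ne_zero (by rw [one_smul]; exact hw)
    (fun φ => by
      obtain ⟨κ, h⟩ := hrk φ
      exact ⟨1, κ, h⟩)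
    (fun c => w0t_mem D c.1 c.2)
    (some 1) (some 0) (w0t_ne D)
    (by
      intro v hv hv0
      obtain ⟨κ, rfl⟩ := hu v fun i j => hv (i, j)
      have : κ = 0 := by
        rcases mul_eq_zero.1 hv0 with h | h
        · exact h
        · exact absurd h (w0t_ne D)
      rw [this, zero_smul])
    content
  obtain ⟨f, ⟨hf, hc⟩, huq⟩ := key
  have hiff := fun w => mem_C_iff D k 1 (dg_one_lt D) hA hB ha hb w
  rw [dg_one] at hiff
  refine ⟨f, ⟨(hiff f).2 fun i j => hf (i, j), hc⟩, ?_⟩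
  rintro f' ⟨hf', hc'⟩
  exact huq f' ⟨fun c => (hiff f').1 hf' c.1 c.2, hc'⟩

end Crest.Agent.R289.A1End740
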