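import Crest.Agent.R289.HeckeTwo_622
import Crest.Agent.R289.Mob_459
import Crest.Agent.R289.TP_846

/-!
Row 289, passage A <-> B (post 5821 of 388, 6038 (5) of 740): the four corner codes of block A
(`HeckeTwo622.Corner`, homogeneous functions) versus the edge codes / charts of block B
(`ev`, `RSC`, tables `P → Option K → Option K → K`).
-/

set_option autoImplicit false

open Polynomial

namespace Crest.Agent.R289.TPhom964

open HeckeTwo622

variable {K : Type*} [Field K]

/-! ### 622's vocabulary = 459's vocabulary -/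

theorem rp_eq_sec (a : Option K) : rp a = Mob459.sec a := by
  cases a <;> rfl

theorem ptv_eq_proj (v : K × K) : ptv v = Mob459.proj v := by
  unfold ptv Hecke622.pt Mob459.proj
  by_cases h : v.2 = 0
  · simp only [if_pos h]
  · simp only [if_neg h]

theorem scv_eq_scal (v : K × K) : scv v = Mob459.scal v := by
  unfold scv Hecke622.sc Mob459.scal
  by_cases h : v.2 = 0
  · simp only [if_pos h]
  · simp only [if_neg h]

theorem HP_eq (s : ℕ) : HP K s = Mob459.HP K s := by
  ext F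
  rw [mem_HP, Mob459.mem_HP]
  constructor
  · rintro ⟨c, hc⟩
    have hdeg : (∑ j ∈ Finset.range (s + 1), C (c j) * X ^ j : K[X]).natDegree ≤ s := by
      refine natDegree_sum_le_of_forall_le _ _ fun j hj => ?_
      refine (natDegree_C_mul_X_pow_le _ _).trans ?_
      rw [Finset.mem_range] at hj
      omega
    have hco : ∀ j ∈ Finset.range (s + 1),
        (∑ j ∈ Finset.range (s + 1), C (c j) * X ^ j : K[X]).coeff j = c j := by
      intro j hj
      simp only [finsetSum_coeff, coeff_C_mul_X_pow]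
      rw [Finset.sum_ite_eq (Finset.range (s + 1)) j (fun k => c k)]
      rw [if_pos hj]
    refine ⟨∑ j ∈ Finset.range (s + 1), C (c j) * X ^ j, hdeg, fun v => ?_⟩
    rw [Mob459.hom_eq_sum s _ hdeg, hc]
    refine Finset.sum_congr rfl fun j hj => ?_
    rw [hco j hj]
    ring
  · rintro ⟨p, hp, hF⟩
    refine ⟨fun j => p.coeff j, fun l => ?_⟩
    rw [hF, Mob459.hom_eq_sum s p hp]
    exact Finset.sum_congr rfl fun j _ => by ring

/-- restriction of a form to the sections = `ev` -/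
theorem exists_ev {s : ℕ} {F : K × K → K} (hF : F ∈ HP K s) :
    ∃ p : K[X], p.natDegree ≤ s ∧ ∀ v, F v = scv v ^ s * PS459.ev s p (ptv v) := by
  rw [HP_eq, Mob459.mem_HP] at hF
  obtain ⟨p, hp, h⟩ := hF
  refine ⟨p, hp, fun v => ?_⟩
  rw [h, Mob459.hom, scv_eq_scal, ptv_eq_proj]

theorem exists_HP {s : ℕ} {p : K[X]} (hp : p.natDegree ≤ s) :
    ∃ F ∈ HP K s, ∀ v, F v = scv v ^ s * PS459.ev s p (ptv v) := by
  refine ⟨Mob459.hom s p, ?_, fun v => ?_⟩
  · rw [HP_eq, Mob459.mem_HP]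
    exact ⟨p, hp, fun _ => rfl⟩
  · rw [Mob459.hom, scv_eq_scal, ptv_eq_proj]

/-! ### interpolation: rows and columns ⇒ bihomogeneous -/

/-- Lagrange forms for the points `(e j, 1)` -/
noncomputable def lag {n : ℕ} (e : Fin n → K) (i : Fin n) (l : K × K) : K :=
  ∏ j ∈ Finset.univ.erase i, ((e i - e j)⁻¹ * (l.1 - e j * l.2))

theorem prod_mem {ι : Type*} (S : Finset ι) (c d : ι → K) :
    (fun l : K × K => ∏ j ∈ S, (c j * (l.1 - d j * l.2))) ∈ HP K S.card := by
  classical
  induction S using Finset.induction_on with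
  | empty => simpa using HP_one
  | insert a S ha ih =>
    have h1 : (fun l : K × K => c a * (l.1 - d a * l.2)) ∈ HP K 1 := by
      have : (fun l : K × K => c a * (l.1 - d a * l.2))
          = c a • ((fun l : K × K => l.1) - d a • fun l : K × K => l.2) := by
        funext l; simp
      rw [this]
      exact Submodule.smul_mem _ _ (Submodule.sub_mem _ HP_fst (Submodule.smul_mem _ _ HP_snd))
    have h2 := HP_mul h1 ih
    rw [Finset.card_insert_of_notMem ha, add_comm]
    simpa only [Finset.prod_insert ha] using h2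

theorem lag_mem {s : ℕ} (e : Fin (s + 1) → K) (i : Fin (s + 1)) : lag e i ∈ HP K s := by
  have h := prod_mem (K := K) (Finset.univ.erase i) (fun j => (e i - e j)⁻¹) e
  rw [Finset.card_erase_of_mem (Finset.mem_univ i), Finset.card_univ, Fintype.card_fin,
    Nat.add_sub_cancel] at h
  exact h

theorem lag_self {n : ℕ} {e : Fin n → K} (he : Function.Injective e) (i : Fin n) :
    lag e i (e i, 1) = 1 := by
  unfold lag
  refine Finset.prod_eq_one fun j hj => ?_
  have : e i - e j ≠ 0 := sub_ne_zero.2 fun h => (Finset.mem_erase.1 hj).1 (he h).symm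
  simp only [mul_one]
  exact inv_mul_cancel₀ this

theorem lag_ne {n : ℕ} {e : Fin n → K} {i j : Fin n} (h : i ≠ j) :
    lag e i (e j, 1) = 0 := by
  unfold lag
  refine Finset.prod_eq_zero (Finset.mem_erase.2 ⟨h.symm, Finset.mem_univ j⟩) ?_
  simp

theorem HP_eq_zero {s : ℕ} {e : Fin (s + 1) → K} (he : Function.Injective e)
    {F : K × K → K} (hF : F ∈ HP K s) (h0 : ∀ i, F (e i, 1) = 0) (l : K × K) : F l = 0 := by
  obtain ⟨p, hp, h⟩ := exists_ev hF
  have hz : p = 0 := by
    refine eq_zero_of_natDegree_lt_card_of_eval_eq_zero p he (fun i => ?_) ?_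
    · have h1 := h (e i, 1)
      have h2 : ((e i, 1) : K × K) = rp (some (e i)) := rfl
      rw [h0 i, h2, scv_rp, ptv_rp, one_pow, one_mul] at h1
      exact h1.symm
    · rw [Fintype.card_fin]; omega
  rw [h, hz, PS459.ev_zero, mul_zero]

theorem HP_expand {s : ℕ} {e : Fin (s + 1) → K} (he : Function.Injective e)
    {F : K × K → K} (hF : F ∈ HP K s) (l : K × K) :
    F l = ∑ i, F (e i, 1) * lag e i l := by
  have h1 : F - (∑ i, F (e i, 1) • lag e i) ∈ HP K s :=
    Submodule.sub_mem _ hF (Submodule.sum_mem _ fun i _ => Submodule.smul_mem _ _ (lag_mem e i))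
  have h2 := HP_eq_zero he h1 (fun i => by
    simp only [Pi.sub_apply, Finset.sum_apply, Pi.smul_apply, smul_eq_mul]
    rw [Finset.sum_eq_single i]
    · rw [lag_self he, mul_one, sub_self]
    · intro j _ hj
      rw [lag_ne hj, mul_zero]
    · intro h; exact absurd (Finset.mem_univ i) h) l
  simp only [Pi.sub_apply, Finset.sum_apply, Pi.smul_apply, smul_eq_mul] at h2
  exact sub_eq_zero.1 h2

/-- **joint**: rows and columns RS ⇔ bihomogeneous. -/
theorem joint [Fintype K] {s t : ℕ} (hs : s < Fintype.card K) (T : Option K → Option K → K) :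
    (∃ G ∈ BP K s t, ∀ a b, T a b = G (rp a) (rp b)) ↔
      (∀ b, ∃ F ∈ HP K s, ∀ a, T a b = F (rp a)) ∧ ∀ a, ∃ F ∈ HP K t, ∀ b, T a b = F (rp b) := by
  constructor
  · rintro ⟨G, hG, h⟩
    exact ⟨fun b => ⟨fun l => G l (rp b), BP_fix_right hG _, fun a => h a b⟩,
      fun a => ⟨G (rp a), BP_fix_left hG _, fun b => h a b⟩⟩
  · rintro ⟨h1, h2⟩
    obtain ⟨e, he⟩ : ∃ e : Fin (s + 1) → K, Function.Injective e := by
      obtain ⟨f⟩ := Function.Embedding.nonempty_of_card_le (α := Fin (s + 1)) (β := K)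
        (by rw [Fintype.card_fin]; omega)
      exact ⟨f, f.injective⟩
    choose F hF hF' using h1
    choose G hG hG' using h2
    refine ⟨∑ i, fun l m => lag e i l * G (some (e i)) m,
      Submodule.sum_mem _ fun i _ => BP_of (lag_mem e i) (hG _), fun a b => ?_⟩
    simp only [Finset.sum_apply]
    rw [hF', HP_expand he (hF b)]
    refine Finset.sum_congr rfl fun i _ => ?_
    rw [← hG', mul_comm]
    congr 1
    exact (hF' b (some (e i))).symm

/-! ### one corner -/

variable {P : Type*} [Group P]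

theorem HP_scv {s : ℕ} {F : K × K → K} (hF : F ∈ HP K s) (v : K × K) :
    F v = scv v ^ s * F (rp (ptv v)) := by
  conv_lhs => rw [← scv_smul_rp v, HP_homog hF]

theorem BP_scv {s t : ℕ} {G : K × K → K × K → K} (hG : G ∈ BP K s t) (v u : K × K) :
    G v u = scv v ^ s * scv u ^ t * G (rp (ptv v)) (rp (ptv u)) := by
  conv_lhs => rw [← scv_smul_rp v, ← scv_smul_rp u, BP_homog hG]

/-- homogeneity of corner data: with it the corner condition is a condition on sections only -/
def Homog (s t : ℕ) (tc : K × K → K × K → P) (C1 C2 : K × K → K × K → K × K) : Prop :=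
  ∀ c d : K, c ≠ 0 → d ≠ 0 → ∀ l m : K × K, l ≠ 0 → m ≠ 0 →
    tc (c • l) (d • m) = tc l m ∧ ∃ α β : K, C1 (c • l) (d • m) = α • C1 l m ∧
      C2 (c • l) (d • m) = β • C2 l m ∧ α ^ s * β ^ t = c ^ s * d ^ t

theorem mem_Corner_sec {s t : ℕ} {tc : K × K → K × K → P} {C1 C2 : K × K → K × K → K × K}
    (hh : Homog s t tc C1 C2) (w : P → Option K → Option K → K) :
    w ∈ Corner s t tc C1 C2 ↔ ∀ h, ∃ G ∈ BP K s t, ∀ i j,
      w (h * (tc (rp i) (rp j))⁻¹) i j = G (C1 (rp i) (rp j)) (C2 (rp i) (rp j)) := by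
  constructor
  · intro hw h
    obtain ⟨G, hG, hG'⟩ := hw h
    refine ⟨G, hG, fun i j => ?_⟩
    rw [← hG' _ _ (rp_ne_zero i) (rp_ne_zero j), ext2_rp]
  · intro hw h
    obtain ⟨G, hG, hG'⟩ := hw h
    refine ⟨G, hG, fun l m hl hm => ?_⟩
    obtain ⟨h1, α, β, h2, h3, h4⟩ := hh (scv l) (scv m) (scv_ne hl) (scv_ne hm)
      (rp (ptv l)) (rp (ptv m)) (rp_ne_zero _) (rp_ne_zero _)
    rw [scv_smul_rp, scv_smul_rp] at h1 h2 h3
    rw [h1, h2, h3, BP_homog hG, h4, ← hG']
    rfl

/-- chart data of one corner in section coordinates -/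
structure Chart (C1 C2 : K × K → K × K → K × K) (X Y : Option K → Option K → Option K) :
    Prop where
  ne1 : ∀ i j, C1 (rp i) (rp j) ≠ 0
  ne2 : ∀ i j, C2 (rp i) (rp j) ≠ 0
  pt1 : ∀ i j, ptv (C1 (rp i) (rp j)) = X i j
  pt2 : ∀ i j, ptv (C2 (rp i) (rp j)) = Y i j
  bij : Function.Bijective fun p : Option K × Option K => (X p.1 p.2, Y p.1 p.2)

/-- **the corner code in edge form (vector form)** -/
theorem mem_Corner_iff [Fintype K] {s t : ℕ} (hs : s < Fintype.card K)
    {tc : K × K → K × K → P} {C1 C2 : K × K → K × K → K × K} (hh : Homog s t tc C1 C2)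
    {X Y : Option K → Option K → Option K} (hc : Chart C1 C2 X Y)
    (w : P → Option K → Option K → K) :
    w ∈ Corner s t tc C1 C2 ↔ ∀ h,
      (∀ b, ∃ F ∈ HP K s, ∀ i j, Y i j = b →
        w (h * (tc (rp i) (rp j))⁻¹) i j
          = scv (C2 (rp i) (rp j)) ^ t * F (C1 (rp i) (rp j))) ∧
      ∀ a, ∃ F ∈ HP K t, ∀ i j, X i j = a →
        w (h * (tc (rp i) (rp j))⁻¹) i j
          = scv (C1 (rp i) (rp j)) ^ s * F (C2 (rp i) (rp j)) := by
  rw [mem_Corner_sec hh]
  refine forall_congr' fun h => ?_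
  constructor
  · rintro ⟨G, hG, hG'⟩
    refine ⟨fun b => ⟨fun l => G l (rp b), BP_fix_right hG _, fun i j hij => ?_⟩,
      fun a => ⟨G (rp a), BP_fix_left hG _, fun i j hij => ?_⟩⟩
    · rw [hG' i j]
      have h1 : G (C1 (rp i) (rp j)) (C2 (rp i) (rp j))
          = G (C1 (rp i) (rp j)) (scv (C2 (rp i) (rp j)) • rp b) := by
        rw [← hij, ← hc.pt2 i j, scv_smul_rp]
      rw [h1, HP_homog (BP_fix_left hG _)]
    · rw [hG' i j]
      have h1 : G (C1 (rp i) (rp j)) (C2 (rp i) (rp j))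
          = G (scv (C1 (rp i) (rp j)) • rp a) (C2 (rp i) (rp j)) := by
        rw [← hij, ← hc.pt1 i j, scv_smul_rp]
      rw [h1]
      exact HP_homog (BP_fix_right hG _) _ _
  · rintro ⟨h1, h2⟩
    let Φ := Equiv.ofBijective _ hc.bij
    let T : Option K → Option K → K := fun a b =>
      (scv (C1 (rp (Φ.symm (a, b)).1) (rp (Φ.symm (a, b)).2)) ^ s *
        scv (C2 (rp (Φ.symm (a, b)).1) (rp (Φ.symm (a, b)).2)) ^ t)⁻¹ *
        w (h * (tc (rp (Φ.symm (a, b)).1) (rp (Φ.symm (a, b)).2))⁻¹)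
          (Φ.symm (a, b)).1 (Φ.symm (a, b)).2
    have hΦ : ∀ a b, X (Φ.symm (a, b)).1 (Φ.symm (a, b)).2 = a ∧
        Y (Φ.symm (a, b)).1 (Φ.symm (a, b)).2 = b := by
      intro a b
      have := Φ.apply_symm_apply (a, b)
      exact ⟨congrArg Prod.fst this, congrArg Prod.snd this⟩
    have hΦ' : ∀ i j, Φ.symm (X i j, Y i j) = (i, j) := fun i j => Φ.symm_apply_apply (i, j)
    have hne1 : ∀ i j, scv (C1 (rp i) (rp j)) ^ s ≠ 0 := fun i j =>
      pow_ne_zero _ (scv_ne (hc.ne1 i j))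
    have hne2 : ∀ i j, scv (C2 (rp i) (rp j)) ^ t ≠ 0 := fun i j =>
      pow_ne_zero _ (scv_ne (hc.ne2 i j))
    obtain ⟨G, hG, hG'⟩ := (joint hs T).2 ⟨fun b => by
        obtain ⟨F, hF, hF'⟩ := h1 b
        refine ⟨F, hF, fun a => ?_⟩
        obtain ⟨e1, e2⟩ := hΦ a b
        have e3 := hF' _ _ e2
        have e4 := HP_scv hF (C1 (rp (Φ.symm (a, b)).1) (rp (Φ.symm (a, b)).2))
        rw [hc.pt1, e1] at e4
        show (_)⁻¹ * _ = _
        rw [e3, e4]
        have n1 := hne1 (Φ.symm (a, b)).1 (Φ.symm (a, b)).2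
        have n2 := hne2 (Φ.symm (a, b)).1 (Φ.symm (a, b)).2
        field_simp, fun a => by
        obtain ⟨F, hF, hF'⟩ := h2 a
        refine ⟨F, hF, fun b => ?_⟩
        obtain ⟨e1, e2⟩ := hΦ a b
        have e3 := hF' _ _ e1
        have e4 := HP_scv hF (C2 (rp (Φ.symm (a, b)).1) (rp (Φ.symm (a, b)).2))
        rw [hc.pt2, e2] at e4
        show (_)⁻¹ * _ = _
        rw [e3, e4]
        have n1 := hne1 (Φ.symm (a, b)).1 (Φ.symm (a, b)).2
        have n2 := hne2 (Φ.symm (a, b)).1 (Φ.symm (a, b)).2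
        field_simp⟩
    refine ⟨G, hG, fun i j => ?_⟩
    have e1 := hG' (X i j) (Y i j)
    simp only [T, hΦ'] at e1
    rw [BP_scv hG, hc.pt1, hc.pt2, ← e1]
    have n1 := hne1 i j
    have n2 := hne2 i j
    field_simp

/-- **the corner code in chart form** (`ev`, scalar `μ = (scv C1 ^ s * scv C2 ^ t)⁻¹`), rows and
columns in the chart points `X`, `Y` -/
theorem mem_Corner_ev [Fintype K] {s t : ℕ} (hs : s < Fintype.card K)
    {tc : K × K → K × K → P} {C1 C2 : K × K → K × K → K × K} (hh : Homog s t tc C1 C2)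
    {X Y : Option K → Option K → Option K} (hc : Chart C1 C2 X Y)
    {μ : Option K → Option K → K}
    (hμ : ∀ i j, μ i j = (scv (C1 (rp i) (rp j)) ^ s * scv (C2 (rp i) (rp j)) ^ t)⁻¹)
    (w : P → Option K → Option K → K) :
    w ∈ Corner s t tc C1 C2 ↔ ∀ h,
      (∀ b, ∃ p : K[X], p.natDegree ≤ s ∧ ∀ i j, Y i j = b →
        μ i j * w (h * (tc (rp i) (rp j))⁻¹) i j = PS459.ev s p (X i j)) ∧
      ∀ a, ∃ p : K[X], p.natDegree ≤ t ∧ ∀ i j, X i j = a →
        μ i j * w (h * (tc (rp i) (rp j))⁻¹) i j = PS459.ev t p (Y i j) := by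
  rw [mem_Corner_iff hs hh hc]
  have n1 : ∀ i j, scv (C1 (rp i) (rp j)) ^ s ≠ 0 := fun i j =>
    pow_ne_zero _ (scv_ne (hc.ne1 i j))
  have n2 : ∀ i j, scv (C2 (rp i) (rp j)) ^ t ≠ 0 := fun i j =>
    pow_ne_zero _ (scv_ne (hc.ne2 i j))
  refine forall_congr' fun h => and_congr (forall_congr' fun b => ?_) (forall_congr' fun a => ?_)
  · constructor
    · rintro ⟨F, hF, hF'⟩
      obtain ⟨p, hp, h1⟩ := exists_ev hF
      refine ⟨p, hp, fun i j hij => ?_⟩
      rw [hF' i j hij, h1, hμ, hc.pt1]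
      have m1 := n1 i j
      have m2 := n2 i j
      field_simp
    · rintro ⟨p, hp, hF'⟩
      obtain ⟨F, hF, h1⟩ := exists_HP hp
      refine ⟨F, hF, fun i j hij => ?_⟩
      rw [h1, hc.pt1, ← hF' i j hij, hμ]
      have m1 := n1 i j
      have m2 := n2 i j
      field_simp
  · constructor
    · rintro ⟨F, hF, hF'⟩
      obtain ⟨p, hp, h1⟩ := exists_ev hF
      refine ⟨p, hp, fun i j hij => ?_⟩
      rw [hF' i j hij, h1, hμ, hc.pt2]
      have m1 := n1 i j
      have m2 := n2 i j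
      field_simp
    · rintro ⟨p, hp, hF'⟩
      obtain ⟨F, hF, h1⟩ := exists_HP hp
      refine ⟨F, hF, fun i j hij => ?_⟩
      rw [h1, hc.pt2, ← hF' i j hij, hμ]
      have m1 := n1 i j
      have m2 := n2 i j
      field_simp

end Crest.Agent.R289.TPhom964
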