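import Crest.Agent.R289.Lift2_878
import Crest.Agent.R289.TPhom_964

/-!
Row 289, block A, A.ASM (helper14): theorem A1 of the two-place code, assembled from its leaves.

* `content_corner`: the corner codes of 622 (any finite family of vertex types), the Hecke
  operator `S` of 622 preserving them, rank one of the base operator, the base word, base
  uniqueness ⟹ every content at one position extends to exactly one word.
* `content_code`: the same for `TP846.TP.Code` (edge codes), given the bridge.
-/

set_option autoImplicit false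

namespace Crest.Agent.R289.A1Two14

open Finset
open Crest.Agent.R289.HeckeTwo622 Crest.Agent.R289.TPhom964 Crest.Agent.R289.TP846

variable {K : Type*} [Field K] {P : Type*} [Group P]

/-- base corner code (view of a word at one vertex, tables on `P¹ × P¹`) -/
def BC (s t : ℕ) (c1 c2 : K × K → K × K → K × K) : Submodule K (Option K → Option K → K) where
  carrier := {u | ∃ G ∈ BP K s t, ∀ i j, u i j = G (c1 (rp i) (rp j)) (c2 (rp i) (rp j))}
  add_mem' := by
    rintro u v ⟨G, hG, h⟩ ⟨H, hH, h'⟩
    exact ⟨G + H, Submodule.add_mem _ hG hH, fun i j => by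
      rw [Pi.add_apply, Pi.add_apply, h, h']; rfl⟩
  zero_mem' := ⟨0, Submodule.zero_mem _, fun i j => rfl⟩
  smul_mem' := by
    rintro c u ⟨G, hG, h⟩
    exact ⟨c • G, Submodule.smul_mem _ _ hG, fun i j => by
      rw [Pi.smul_apply, Pi.smul_apply, h]; rfl⟩

theorem mem_BC {s t : ℕ} {c1 c2 : K × K → K × K → K × K} {u : Option K → Option K → K} :
    u ∈ BC s t c1 c2 ↔ ∃ G ∈ BP K s t, ∀ i j, u i j = G (c1 (rp i) (rp j)) (c2 (rp i) (rp j)) :=
  Iff.rfl

/-- a corner code = its views are in the base corner code -/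
theorem mem_Corner_BC {s t : ℕ} {tc : K × K → K × K → P} {c1 c2 : K × K → K × K → K × K}
    (hh : Homog s t tc c1 c2) {w : P → Option K → Option K → K} :
    w ∈ Corner s t tc c1 c2 ↔
      ∀ h, (fun i j => w (h * (tc (rp i) (rp j))⁻¹) i j) ∈ BC s t c1 c2 :=
  mem_Corner_sec hh w

theorem const_mem_Corner {s t : ℕ} {tc : K × K → K × K → P} {c1 c2 : K × K → K × K → K × K}
    (hh : Homog s t tc c1 c2) {φ : Option K → Option K → K} :
    (fun _ : P => φ) ∈ Corner s t tc c1 c2 ↔ φ ∈ BC s t c1 c2 := by
  rw [mem_Corner_BC hh]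
  exact ⟨fun h => h 1, fun h _ => h⟩

/-- currying of tables -/
def cur : (Option K × Option K → K) ≃ₗ[K] (Option K → Option K → K) where
  toFun u := fun i j => u (i, j)
  invFun u := fun x => u x.1 x.2
  map_add' _ _ := rfl
  map_smul' _ _ := rfl
  left_inv _ := rfl
  right_inv _ := rfl

/-- currying of words -/
def curP : (P → Option K × Option K → K) ≃ₗ[K] (P → Option K → Option K → K) where
  toFun u := fun g i j => u g (i, j)
  invFun u := fun g x => u g x.1 x.2
  map_add' _ _ := rfl
  map_smul' _ _ := rfl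
  left_inv _ := rfl
  right_inv _ := rfl

variable {Λ ι : Type*} [Fintype Λ]

/-- **THEOREM A1 (two places), abstract.** -/
theorem content_corner {p : ℕ} [Fact p.Prime] [Finite P] [Finite K] [CharP K p]
    (hP : IsPGroup p P) {s t : ℕ}
    -- the vertex types
    (tc : ι → K × K → K × K → P) (c1 c2 : ι → K × K → K × K → K × K)
    (hh : ∀ c, Homog s t (tc c) (c1 c) (c2 c))
    -- the Hecke operator
    (ν : Λ → P) (X Y : Λ → (K × K) →ₗ[K] (K × K)) (wt : Λ → K)
    (hst : ∀ c, ∀ w ∈ Corner s t (tc c) (c1 c) (c2 c),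
      S s t ν X Y wt w ∈ Corner s t (tc c) (c1 c) (c2 c))
    -- the base operator
    (w0 : Option K → Option K → K) (lam : K) (hlam : lam ≠ 0)
    (hw : T0 s t X Y wt w0 = lam • w0)
    (hrk : ∀ φ, ∃ m : ℕ, ∃ κ : K, (T0 s t X Y wt)^[m] φ = κ • w0)
    (hwC : ∀ c, w0 ∈ BC s t (c1 c) (c2 c))
    -- content position, uniqueness at the base
    (i0 j0 : Option K) (hw0 : w0 i0 j0 ≠ 0)
    (hV0 : ∀ v : Option K → Option K → K, (∀ c, v ∈ BC s t (c1 c) (c2 c)) → v i0 j0 = 0 → v = 0)
    (content : P → K) :
    ∃! f : P → Option K → Option K → K, (∀ c, f ∈ Corner s t (tc c) (c1 c) (c2 c)) ∧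
      ∀ g, f g i0 j0 = content g := by
  classical
  have := Fintype.ofFinite K
  have := Fintype.ofFinite P
  let S' : (P → Option K × Option K → K) →ₗ[K] (P → Option K × Option K → K) :=
    curP.symm.toLinearMap ∘ₗ S s t ν X Y wt ∘ₗ curP.toLinearMap
  have eS' : ∀ u g x, S' u g x = S s t ν X Y wt (curP u) g x.1 x.2 := fun _ _ _ => rfl
  -- powers of `S'` on constants
  have hpow : ∀ m (φ : Option K → Option K → K),
      (S' ^ m) (fun _ x => φ x.1 x.2) = fun _ x => (T0 s t X Y wt)^[m] φ x.1 x.2 := by
    intro m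
    induction m with
    | zero => intro φ; rfl
    | succ m ih =>
      intro φ
      rw [pow_succ, Module.End.mul_apply]
      have h1 : S' (fun _ x => φ x.1 x.2) = fun _ x => T0 s t X Y wt φ x.1 x.2 := by
        funext g x
        rw [eS']
        have : (curP (fun _ x => φ x.1 x.2) : P → Option K → Option K → K) = fun _ => φ := rfl
        rw [this, S_const]
      rw [h1, ih, Function.iterate_succ_apply]
  have hlow := Lift2_878.a1_family (p := p) (P := P) (K := K) (X := Option K × Option K) (ι := ι)
    hP (fun c x => tc c (rp x.1) (rp x.2))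
    (fun c => (BC s t (c1 c) (c2 c)).comap cur.toLinearMap) (i0, j0) S'
    (by
      intro g f
      funext h x
      rw [eS']
      have h1 := congrFun (congrFun (congrFun (S_left s t ν X Y wt (curP f) g) h) x.1) x.2
      rw [LR645.LT_apply, eS']
      exact h1)
    (by
      intro c f hf
      have h1 : curP f ∈ Corner s t (tc c) (c1 c) (c2 c) := (mem_Corner_BC (hh c)).2 hf
      exact (mem_Corner_BC (hh c)).1 (hst c _ h1))
    (by
      intro φ
      obtain ⟨m, κ, hm⟩ := hrk (fun i j => φ (i, j))
      refine ⟨m, fun c => ?_⟩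
      have h1 := hpow m (fun i j => φ (i, j))
      have h2 : (S' ^ m) (fun _ => φ) 1 = fun x => (κ • w0) x.1 x.2 := by
        have h3 := congrFun h1 1
        rw [hm] at h3
        exact h3
      rw [h2]
      exact Submodule.smul_mem _ κ (hwC c))
    (fun x => w0 x.1 x.2) lam hlam
    (by
      have h1 := hpow 1 w0
      rw [pow_one, Function.iterate_one, hw] at h1
      exact h1)
    hw0
    (by
      intro v hv hv0
      have h1 := hV0 (fun i j => v (i, j)) hv hv0
      funext x
      exact congrFun (congrFun h1 x.1) x.2)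
    content
  obtain ⟨f, ⟨hf, hfc⟩, hu⟩ := hlow
  refine ⟨fun g i j => f g (i, j), ⟨fun c => (mem_Corner_BC (hh c)).2 (hf c), hfc⟩, ?_⟩
  rintro f' ⟨hf', hc'⟩
  have h1 := hu (fun g x => f' g x.1 x.2) ⟨fun c => (mem_Corner_BC (hh c)).1 (hf' c), hc'⟩
  funext g i j
  exact congrFun (congrFun h1 g) (i, j)

end Crest.Agent.R289.A1Two14
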