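import Crest.Agent.R289.Sampler_56

/-!
Row 289, base gadget (second of helper72's F_BASE, post 5611):
(S) the Gabber-Galil walk on `X × X` for any finite `X`,
(C) the two-step vote operator `S W S` is close to the mean; consequence for majority votes.
-/

set_option autoImplicit false
set_option linter.unusedSectionVars false

namespace Crest.Agent.R289.LCodeS152

open Finset

/-! ### the walk on `X × X` -/

section walk

variable {X : Type} [Fintype X] {N : ℕ} [NeZero N]

/-- the `j`-th word of length `t` on the torus is a bijection -/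
def sigP (N : ℕ) : ℕ → ℕ → Equiv.Perm (ZMod N × ZMod N)
  | 0, _ => 1
  | t + 1, j => sigP N t (j / 16) * Sampler56.tau N (j % 16)

omit [NeZero N] in
lemma sigP_apply (t j : ℕ) (x : ZMod N × ZMod N) : sigP N t j x = Sampler56.sig N t j x := by
  induction t generalizing j x with
  | zero => rfl
  | succ t ih => exact ih _ _

/-- the walk on `X × X`, `X` numbered by `ZMod N` -/
def sigX (e : X ≃ ZMod N) (t j : ℕ) : Equiv.Perm (X × X) :=
  ((Equiv.prodCongr e e).trans (sigP N t j)).trans (Equiv.prodCongr e e).symm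

omit [NeZero N] in
lemma sigX_apply (e : X ≃ ZMod N) (t j : ℕ) (x : X × X) :
    sigX e t j x = (Equiv.prodCongr e e).symm (Sampler56.sig N t j (Equiv.prodCongr e e x)) := by
  rw [← sigP_apply]; rfl

/-- spectral statement for the walk on `X × X` -/
theorem walkX (e : X ≃ ZMod N) (t : ℕ) (F : X × X → ℝ) :
    ∑ x, ((∑ j : Fin (16 ^ t), F (sigX e t j x)) / (16 ^ t : ℝ) -
      (∑ x, F x) / (Fintype.card (X × X) : ℝ)) ^ 2 ≤ ((0.96 : ℝ) ^ 2) ^ t * ∑ x, F x ^ 2 := by
  have h := Sampler56.walk_var N t (fun z => F ((Equiv.prodCongr e e).symm z))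
  have hc : (Fintype.card (X × X) : ℝ) = (N : ℝ) ^ 2 := by
    rw [Fintype.card_prod, Fintype.card_congr e, ZMod.card]
    push_cast; ring
  have e1 : ∀ G : X × X → ℝ, ∑ z, G ((Equiv.prodCongr e e).symm z) = ∑ x, G x := fun G =>
    Equiv.sum_comp (Equiv.prodCongr e e).symm G
  rw [e1 F, e1 (fun x => F x ^ 2)] at h
  rw [hc]
  refine le_trans (le_of_eq ?_) h
  rw [← Equiv.sum_comp (Equiv.prodCongr e e)]
  refine Finset.sum_congr rfl fun x _ => ?_
  congr 2
  rw [Finset.sum_range (fun j => F ((Equiv.prodCongr e e).symm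
    (Sampler56.sig N t j (Equiv.prodCongr e e x))))]
  simp only [sigX_apply]
  rw [div_eq_inv_mul, one_div]

end walk

/-! ### the vote lemma -/

section vote

variable {X R J : Type} [Fintype X] [Fintype R] [Fintype J]

/-- average over the walk in the fibre -/
noncomputable def fav (σ : J → Equiv.Perm R) (f : X × R → ℝ) (u : X × R) : ℝ :=
  (∑ j, f (u.1, σ j u.2)) / (Fintype.card J : ℝ)

/-- fibre mean -/
noncomputable def fmn (f : X × R → ℝ) (u : X × R) : ℝ :=
  (∑ r, f (u.1, r)) / (Fintype.card R : ℝ)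

/-- the end of the two-step walk -/
def step2 (σ : J → Equiv.Perm R) (W : Equiv.Perm (X × R)) (p : J × J) (u : X × R) : X × R :=
  ((W (u.1, σ p.1 u.2)).1, σ p.2 (W (u.1, σ p.1 u.2)).2)

lemma fav_contr [Nonempty J] (σ : J → Equiv.Perm R) (f : X × R → ℝ) :
    ∑ u, fav σ f u ^ 2 ≤ ∑ u, f u ^ 2 := by
  have hJ : (0 : ℝ) < Fintype.card J := by exact_mod_cast Fintype.card_pos
  have h1 : ∀ u : X × R, fav σ f u ^ 2 ≤ (∑ j, f (u.1, σ j u.2) ^ 2) / (Fintype.card J : ℝ) := by
    intro u
    unfold fav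
    rw [div_pow, sq (Fintype.card J : ℝ), ← div_div]
    refine div_le_div_of_nonneg_right ?_ hJ.le
    rw [div_le_iff₀ hJ]
    have h := sq_sum_le_card_mul_sum_sq (s := (univ : Finset J)) (f := fun j => f (u.1, σ j u.2))
    rw [card_univ] at h
    linarith [h, mul_comm (Fintype.card J : ℝ) (∑ j, f (u.1, σ j u.2) ^ 2)]
  refine (Finset.sum_le_sum fun u _ => h1 u).trans ?_
  rw [← Finset.sum_div, Finset.sum_comm]
  have h2 : ∀ j : J, ∑ u : X × R, f (u.1, σ j u.2) ^ 2 = ∑ u, f u ^ 2 := fun j =>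
    Equiv.sum_comp (Equiv.prodCongr (Equiv.refl X) (σ j)) (fun u => f u ^ 2)
  simp only [h2, Finset.sum_const, card_univ, nsmul_eq_mul]
  rw [mul_comm, mul_div_assoc, div_self hJ.ne', mul_one]

lemma fmn_contr [Nonempty R] (f : X × R → ℝ) : ∑ u, fmn f u ^ 2 ≤ ∑ u, f u ^ 2 := by
  have hR : (0 : ℝ) < Fintype.card R := by exact_mod_cast Fintype.card_pos
  rw [Fintype.sum_prod_type, Fintype.sum_prod_type]
  refine Finset.sum_le_sum fun x _ => ?_
  simp only [fmn, Finset.sum_const, card_univ, nsmul_eq_mul]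
  rw [div_pow, mul_div_assoc', div_le_iff₀ (by positivity)]
  have h := sq_sum_le_card_mul_sum_sq (s := (univ : Finset R)) (f := fun r => f (x, r))
  rw [card_univ] at h
  nlinarith [mul_le_mul_of_nonneg_left h hR.le]

/-- the walk mixes in the fibre -/
def Mixes (σ : J → Equiv.Perm R) (lam : ℝ) : Prop :=
  ∀ F : R → ℝ, ∑ r, ((∑ j, F (σ j r)) / (Fintype.card J : ℝ) -
    (∑ r, F r) / (Fintype.card R : ℝ)) ^ 2 ≤ lam * ∑ r, F r ^ 2

/-- `W` mixes the fibres -/
def MixesX (W : Equiv.Perm (X × R)) : Prop :=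
  ∀ (f : X → ℝ) (x : X), (∑ r : R, f (W (x, r)).1) / (Fintype.card R : ℝ) =
    (∑ x, f x) / (Fintype.card X : ℝ)

lemma fav_sub_fmn {σ : J → Equiv.Perm R} {lam : ℝ} (h : Mixes σ lam) (f : X × R → ℝ) :
    ∑ u, (fav σ f u - fmn f u) ^ 2 ≤ lam * ∑ u, f u ^ 2 := by
  rw [Fintype.sum_prod_type, Fintype.sum_prod_type, Finset.mul_sum]
  refine Finset.sum_le_sum fun x _ => ?_
  exact h fun r => f (x, r)

lemma sum_step2 (σ : J → Equiv.Perm R) (W : Equiv.Perm (X × R)) (f : X × R → ℝ) (u : X × R) :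
    (∑ p : J × J, f (step2 σ W p u)) / (Fintype.card J : ℝ) ^ 2 =
      fav σ (fun v => fav σ f (W v)) u := by
  unfold fav step2
  rw [Fintype.sum_prod_type, ← Finset.sum_div, div_div, sq]

theorem step2_near [Nonempty R] [Nonempty J] {σ : J → Equiv.Perm R} {lam : ℝ}
    (h : Mixes σ lam) (hl : 0 ≤ lam) {W : Equiv.Perm (X × R)} (hW : MixesX W) (f : X × R → ℝ) :
    ∑ u, ((∑ p : J × J, f (step2 σ W p u)) / (Fintype.card J : ℝ) ^ 2 -
      (∑ u, f u) / (Fintype.card (X × R) : ℝ)) ^ 2 ≤ 4 * lam * ∑ u, f u ^ 2 := by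
  have hR : (0 : ℝ) < Fintype.card R := by exact_mod_cast Fintype.card_pos
  have hmean : ∀ u : X × R, (∑ u, f u) / (Fintype.card (X × R) : ℝ) =
      fmn (fun v => fmn f (W v)) u := by
    intro u
    have h1 := hW (fun x => (∑ r, f (x, r)) / (Fintype.card R : ℝ)) u.1
    have h2 : fmn (fun v => fmn f (W v)) u =
      (∑ r : R, (fun x => (∑ r, f (x, r)) / (Fintype.card R : ℝ)) (W (u.1, r)).1) /
        (Fintype.card R : ℝ) := rfl
    rw [h2, h1, Fintype.card_prod, Fintype.sum_prod_type, ← Finset.sum_div, div_div]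
    push_cast
    rw [mul_comm (Fintype.card X : ℝ)]
  have hsplit : ∀ u : X × R, (∑ p : J × J, f (step2 σ W p u)) / (Fintype.card J : ℝ) ^ 2 -
      (∑ u, f u) / (Fintype.card (X × R) : ℝ) =
      fav σ (fun v => fav σ f (W v) - fmn f (W v)) u +
      (fav σ (fun v => fmn f (W v)) u - fmn (fun v => fmn f (W v)) u) := by
    intro u
    rw [hmean u, sum_step2]
    have : fav σ (fun v => fav σ f (W v) - fmn f (W v)) u =
        fav σ (fun v => fav σ f (W v)) u - fav σ (fun v => fmn f (W v)) u := by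
      unfold fav
      rw [← sub_div, ← Finset.sum_sub_distrib]
    rw [this]; ring
  have hA : ∑ u, fav σ (fun v => fav σ f (W v) - fmn f (W v)) u ^ 2 ≤ lam * ∑ u, f u ^ 2 := by
    refine (fav_contr σ _).trans ?_
    rw [Equiv.sum_comp W (fun v => (fav σ f v - fmn f v) ^ 2)]
    exact fav_sub_fmn h f
  have hB : ∑ u, (fav σ (fun v => fmn f (W v)) u - fmn (fun v => fmn f (W v)) u) ^ 2 ≤
      lam * ∑ u, f u ^ 2 := by
    refine (fav_sub_fmn h _).trans ?_
    rw [Equiv.sum_comp W (fun v => fmn f v ^ 2)]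
    exact mul_le_mul_of_nonneg_left (fmn_contr f) hl
  calc _ = ∑ u, (fav σ (fun v => fav σ f (W v) - fmn f (W v)) u +
      (fav σ (fun v => fmn f (W v)) u - fmn (fun v => fmn f (W v)) u)) ^ 2 :=
        Finset.sum_congr rfl fun u _ => by rw [hsplit u]
    _ ≤ ∑ u, (2 * fav σ (fun v => fav σ f (W v) - fmn f (W v)) u ^ 2 +
      2 * (fav σ (fun v => fmn f (W v)) u - fmn (fun v => fmn f (W v)) u) ^ 2) := by
        refine Finset.sum_le_sum fun u _ => ?_
        nlinarith [sq_nonneg (fav σ (fun v => fav σ f (W v) - fmn f (W v)) u -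
          (fav σ (fun v => fmn f (W v)) u - fmn (fun v => fmn f (W v)) u))]
    _ ≤ _ := by
        rw [Finset.sum_add_distrib, ← Finset.mul_sum, ← Finset.mul_sum]
        linarith

open Classical in
/-- few units see many elements of a small set after two steps -/
theorem step2_hit [Nonempty X] [Nonempty R] [Nonempty J] {σ : J → Equiv.Perm R} {lam : ℝ}
    (h : Mixes σ lam) (hl : 0 ≤ lam) {W : Equiv.Perm (X × R)} (hW : MixesX W)
    (E : Finset (X × R)) (hE : 8 * E.card ≤ Fintype.card (X × R)) :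
    ((univ.filter fun u => Fintype.card J ^ 2 ≤
      4 * (univ.filter fun p : J × J => step2 σ W p u ∈ E).card).card : ℝ) ≤
      256 * lam * E.card := by
  have hJ : (0 : ℝ) < Fintype.card J := by exact_mod_cast Fintype.card_pos
  have hU : (0 : ℝ) < Fintype.card (X × R) := by exact_mod_cast Fintype.card_pos
  set f : X × R → ℝ := fun u => if u ∈ E then 1 else 0 with hf
  have hn := step2_near h hl hW f
  have hsum : ∑ u, f u = (E.card : ℝ) := by simp [hf]
  have hsq : ∑ u, f u ^ 2 = (E.card : ℝ) := by simp [hf]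
  rw [hsum, hsq] at hn
  have hb : (E.card : ℝ) / (Fintype.card (X × R) : ℝ) ≤ 1 / 8 := by
    rw [div_le_iff₀ hU]
    have : (8 : ℝ) * E.card ≤ Fintype.card (X × R) := by exact_mod_cast hE
    linarith
  have hlow : ∀ u ∈ univ.filter (fun u => Fintype.card J ^ 2 ≤
      4 * (univ.filter fun p : J × J => step2 σ W p u ∈ E).card), (1 / 64 : ℝ) ≤
      ((∑ p : J × J, f (step2 σ W p u)) / (Fintype.card J : ℝ) ^ 2 -
      (E.card : ℝ) / (Fintype.card (X × R) : ℝ)) ^ 2 := by
    intro u hu
    rw [Finset.mem_filter] at hu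
    have h1 : ∑ p : J × J, f (step2 σ W p u) =
        ((univ.filter fun p : J × J => step2 σ W p u ∈ E).card : ℝ) := by
      simp [hf]
    have h2 : (1 / 4 : ℝ) ≤ (∑ p : J × J, f (step2 σ W p u)) / (Fintype.card J : ℝ) ^ 2 := by
      rw [h1, le_div_iff₀ (by positivity)]
      have : ((Fintype.card J ^ 2 : ℕ) : ℝ) ≤
        ((4 * (univ.filter fun p : J × J => step2 σ W p u ∈ E).card : ℕ) : ℝ) := by
        exact_mod_cast hu.2
      push_cast at this
      linarith
    nlinarith
  have h3 := Finset.sum_le_sum hlow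
  rw [Finset.sum_const, nsmul_eq_mul] at h3
  have h4 := Finset.sum_le_sum_of_subset_of_nonneg (Finset.filter_subset (fun u =>
      Fintype.card J ^ 2 ≤ 4 * (univ.filter fun p : J × J => step2 σ W p u ∈ E).card) univ)
    (f := fun u => ((∑ p : J × J, f (step2 σ W p u)) / (Fintype.card J : ℝ) ^ 2 -
      (E.card : ℝ) / (Fintype.card (X × R) : ℝ)) ^ 2) (fun u _ _ => sq_nonneg _)
  linarith

open Classical in
/-- VOTE LEMMA: if each of two reads is made after a two-step walk, then at all but a quarter of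
`|E|` units the strict majority of the walks has both reads outside `E` -/
theorem vote_contract [Nonempty X] [Nonempty R] [Nonempty J] {σ : J → Equiv.Perm R} {lam : ℝ}
    (h : Mixes σ lam) (hl : 0 ≤ lam) (hl2 : lam ≤ 1 / 2048) {W₁ W₂ : Equiv.Perm (X × R)}
    (hW₁ : MixesX W₁) (hW₂ : MixesX W₂) (E : Finset (X × R))
    (hE : 8 * E.card ≤ Fintype.card (X × R)) :
    4 * (univ.filter fun u => Fintype.card J ^ 2 ≤
      2 * (univ.filter fun p : J × J => step2 σ W₁ p u ∈ E ∨ step2 σ W₂ p u ∈ E).card).card ≤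
      E.card := by
  have h1 := step2_hit h hl hW₁ E hE
  have h2 := step2_hit h hl hW₂ E hE
  have hsub : (univ.filter fun u => Fintype.card J ^ 2 ≤
      2 * (univ.filter fun p : J × J => step2 σ W₁ p u ∈ E ∨ step2 σ W₂ p u ∈ E).card) ⊆
      (univ.filter fun u => Fintype.card J ^ 2 ≤
        4 * (univ.filter fun p : J × J => step2 σ W₁ p u ∈ E).card) ∪
      (univ.filter fun u => Fintype.card J ^ 2 ≤
        4 * (univ.filter fun p : J × J => step2 σ W₂ p u ∈ E).card) := by
    intro u hu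
    simp only [Finset.mem_union, Finset.mem_filter, Finset.mem_univ, true_and] at hu ⊢
    have h3 : (univ.filter fun p : J × J => step2 σ W₁ p u ∈ E ∨ step2 σ W₂ p u ∈ E).card ≤
        (univ.filter fun p : J × J => step2 σ W₁ p u ∈ E).card +
        (univ.filter fun p : J × J => step2 σ W₂ p u ∈ E).card := by
      rw [Finset.filter_or]
      exact Finset.card_union_le _ _
    omega
  have h4 := (Finset.card_le_card hsub).trans (Finset.card_union_le _ _)
  have h5 : ((univ.filter fun u => Fintype.card J ^ 2 ≤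
      2 * (univ.filter fun p : J × J => step2 σ W₁ p u ∈ E ∨ step2 σ W₂ p u ∈ E).card).card : ℝ) ≤
      256 * lam * E.card + 256 * lam * E.card := by
    refine le_trans ?_ (add_le_add h1 h2)
    exact_mod_cast h4
  have h6 : (0 : ℝ) ≤ E.card := by positivity
  have h7 : (4 * ((univ.filter fun u => Fintype.card J ^ 2 ≤
      2 * (univ.filter fun p : J × J =>
        step2 σ W₁ p u ∈ E ∨ step2 σ W₂ p u ∈ E).card).card : ℝ)) ≤ E.card := by
    nlinarith
  exact_mod_cast h7

end vote
end Crest.Agent.R289.LCodeS152
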