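import Crest.Agent.R289.LCa_72
import Crest.Agent.R289.LCodeS_152

/-!
Row 289 (helper46): soundness of the Hadamard factor over a testable code.
Units `U × (G × R)`, `R = G × G`; exact words `Z (u, (y, s)) = g y u` with `g : G → C` additive.
-/

set_option autoImplicit false

namespace Crest.Agent.R289.Array46

open Finset
open Crest.Agent.R289.DefD (frac)
open Crest.Agent.R289.LCa72
open Crest.Agent.R289.LCodeS152 (Mixes)

/-! ### means -/

section Mean

variable {U V : Type} [Fintype U] [Fintype V]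

noncomputable def mean (f : U → ℝ) : ℝ := (∑ u, f u) / (Fintype.card U : ℝ)

lemma mean_mono {f g : U → ℝ} (h : ∀ u, f u ≤ g u) : mean f ≤ mean g :=
  div_le_div_of_nonneg_right (Finset.sum_le_sum fun u _ => h u) (Nat.cast_nonneg _)

lemma mean_add (f g : U → ℝ) : mean (fun u => f u + g u) = mean f + mean g := by
  unfold mean; rw [Finset.sum_add_distrib, add_div]

lemma mean_mul (c : ℝ) (f : U → ℝ) : mean (fun u => c * f u) = c * mean f := by
  unfold mean; rw [← Finset.mul_sum, mul_div_assoc]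

lemma mean_const [Nonempty U] (c : ℝ) : mean (fun _ : U => c) = c := by
  unfold mean
  have : (Fintype.card U : ℝ) ≠ 0 := by exact_mod_cast Fintype.card_ne_zero
  rw [Finset.sum_const, Finset.card_univ, nsmul_eq_mul, mul_div_cancel_left₀ _ this]

lemma mean_nn {f : U → ℝ} (h : ∀ u, 0 ≤ f u) : 0 ≤ mean f :=
  div_nonneg (Finset.sum_nonneg fun u _ => h u) (Nat.cast_nonneg _)

lemma mean_prod (f : U × V → ℝ) : mean f = mean (fun x => mean fun y => f (x, y)) := by
  unfold mean
  rw [Fintype.sum_prod_type, Fintype.card_prod, ← Finset.sum_div]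
  push_cast
  rw [div_div, mul_comm]

lemma mean_equiv (e : U ≃ V) (f : V → ℝ) : mean (fun u => f (e u)) = mean f := by
  unfold mean
  rw [Equiv.sum_comp e f, Fintype.card_congr e]

lemma mean_comm (f : U → V → ℝ) :
    mean (fun x => mean fun y => f x y) = mean (fun y => mean fun x => f x y) := by
  unfold mean
  rw [← Finset.sum_div, ← Finset.sum_div, Finset.sum_comm, div_div, div_div, mul_comm]

open Classical in
lemma frac_mean (p : U → Prop) : frac p = mean (fun u => if p u then (1 : ℝ) else 0) :=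
  frac_eq_sum p

lemma frac_prod' (p : U × V → Prop) : frac p = mean (fun x => frac fun y => p (x, y)) := by
  classical
  rw [frac_mean, mean_prod]
  congr 1; funext x; rw [frac_mean]

lemma frac_swap (p : U × V → Prop) : frac p = mean (fun y => frac fun x => p (x, y)) := by
  classical
  rw [frac_mean, mean_prod, mean_comm]
  congr 1; funext x; rw [frac_mean]

/-- some value is at most the mean -/
lemma exists_le_mean [Nonempty U] (f : U → ℝ) : ∃ u, f u ≤ mean f := by
  by_contra hc
  push Not at hc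
  have h1 : ∑ _u : U, mean f < ∑ u : U, f u :=
    Finset.sum_lt_sum_of_nonempty univ_nonempty fun u _ => hc u
  have : (0 : ℝ) < Fintype.card U := by exact_mod_cast Fintype.card_pos
  rw [Finset.sum_const, Finset.card_univ, nsmul_eq_mul] at h1
  unfold mean at h1
  rw [mul_div_cancel₀ _ this.ne'] at h1
  exact lt_irrefl _ h1

end Mean

/-! ### constancy on an expanding fibre -/

section Copy

variable {R J A : Type} [Fintype R] [Fintype J]

open Classical in
/-- edge expansion of a set with at most half of the points -/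
lemma boundary [Nonempty J] (σ : J → Equiv.Perm R) {lam : ℝ} (hl : lam ≤ 1 / 16)
    (h : Mixes σ lam) (S : Finset R) (hS : 2 * (S.card : ℝ) ≤ Fintype.card R) :
    (Fintype.card J : ℝ) * S.card ≤
      4 * ((univ.filter fun z : R × J => z.1 ∈ S ∧ σ z.2 z.1 ∉ S).card : ℝ) := by
  have hJ : (0 : ℝ) < Fintype.card J := by exact_mod_cast Fintype.card_pos
  set F : R → ℝ := fun r => if r ∈ S then 1 else 0 with hF
  have hFS : ∑ r, F r = S.card := by
    rw [hF, Finset.sum_boole]; simp
  have hF2 : ∀ r, F r ^ 2 = F r := by intro r; by_cases hr : r ∈ S <;> simp [hF, hr]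
  have hFS2 : ∑ r, F r ^ 2 = S.card := by simp only [hF2]; exact hFS
  set c : R → ℝ := fun r => (∑ j, F (σ j r)) / (Fintype.card J : ℝ) with hc
  set μ : ℝ := (∑ r, F r) / (Fintype.card R : ℝ) with hμ
  have hm : ∑ r, (c r - μ) ^ 2 ≤ lam * ∑ r, F r ^ 2 := h F
  rw [hFS2] at hm
  have hμ2 : μ * S.card ≤ 1 / 2 * S.card := by
    refine mul_le_mul_of_nonneg_right ?_ (Nat.cast_nonneg _)
    rw [hμ, hFS]
    by_cases hR : (Fintype.card R : ℝ) = 0
    · rw [hR]; simp
    · have hR' : (0 : ℝ) < Fintype.card R := lt_of_le_of_ne (Nat.cast_nonneg _) (Ne.symm hR)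
      rw [div_le_iff₀ hR']; linarith
  have hb : ((univ.filter fun z : R × J => z.1 ∈ S ∧ σ z.2 z.1 ∉ S).card : ℝ) =
      (Fintype.card J : ℝ) * S.card - (Fintype.card J : ℝ) * ∑ r, F r * c r := by
    have e1 : ((univ.filter fun z : R × J => z.1 ∈ S ∧ σ z.2 z.1 ∉ S).card : ℝ) =
        ∑ z : R × J, F z.1 * (1 - F (σ z.2 z.1)) := by
      rw [← Finset.sum_boole]
      refine Finset.sum_congr rfl fun z _ => ?_
      by_cases h1 : z.1 ∈ S <;> by_cases h2 : σ z.2 z.1 ∈ S <;> simp [hF, h1, h2]
    rw [e1, Fintype.sum_prod_type, ← hFS, Finset.mul_sum, Finset.mul_sum,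
      ← Finset.sum_sub_distrib]
    refine Finset.sum_congr rfl fun r _ => ?_
    have : (Fintype.card J : ℝ) * c r = ∑ j, F (σ j r) := by
      rw [hc]; field_simp
    calc ∑ j, F r * (1 - F (σ j r)) = F r * ∑ j, (1 - F (σ j r)) := by rw [Finset.mul_sum]
      _ = F r * ((Fintype.card J : ℝ) - ∑ j, F (σ j r)) := by
        rw [Finset.sum_sub_distrib]; simp
      _ = _ := by rw [← this]; ring
  have hk : ∑ r, F r * c r ≤ 3 / 4 * S.card := by
    have h1 : ∑ r, F r * c r ≤ ∑ r, (μ * F r + (1 / 8 * F r ^ 2 + 2 * (c r - μ) ^ 2)) := by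
      refine Finset.sum_le_sum fun r _ => ?_
      nlinarith [sq_nonneg (1 / 2 * F r - 2 * (c r - μ))]
    rw [Finset.sum_add_distrib, Finset.sum_add_distrib, ← Finset.mul_sum, ← Finset.mul_sum,
      ← Finset.mul_sum, hFS, hFS2] at h1
    have h3 : lam * (S.card : ℝ) ≤ 1 / 16 * S.card :=
      mul_le_mul_of_nonneg_right hl (Nat.cast_nonneg _)
    linarith
  rw [hb]
  nlinarith [mul_le_mul_of_nonneg_left hk hJ.le]

/-- almost constant along an expander ⇒ almost constant -/
theorem copy [Nonempty R] [Nonempty J] (σ : J → Equiv.Perm R) {lam : ℝ} (hl : lam ≤ 1 / 16)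
    (h : Mixes σ lam) (X : R → A) :
    ∃ a : A, frac (fun r => X r ≠ a) ≤ 4 * frac (fun z : R × J => X z.1 ≠ X (σ z.2 z.1)) := by
  classical
  have hJ : (0 : ℝ) < Fintype.card J := by exact_mod_cast Fintype.card_pos
  have hR : (0 : ℝ) < Fintype.card R := by exact_mod_cast Fintype.card_pos
  set T := univ.filter fun z : R × J => X z.1 ≠ X (σ z.2 z.1) with hT
  have hfr : frac (fun z : R × J => X z.1 ≠ X (σ z.2 z.1)) =
      (T.card : ℝ) / ((Fintype.card R : ℝ) * Fintype.card J) := by
    rw [frac_def, hT, Fintype.card_prod]; push_cast; congr!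
  by_cases hall : ∀ a, 2 * ((univ.filter fun r => X r = a).card : ℝ) ≤ Fintype.card R
  · -- all classes small: many failures
    obtain ⟨r0⟩ := (inferInstance : Nonempty R)
    refine ⟨X r0, (frac_le_one _).trans ?_⟩
    have hsum : (Fintype.card J : ℝ) * Fintype.card R ≤ 4 * (T.card : ℝ) := by
      have e1 : (Fintype.card R : ℝ) =
          ∑ a ∈ univ.image X, ((univ.filter fun r => X r = a).card : ℝ) := by
        have := Finset.card_eq_sum_card_image X (univ : Finset R)
        rw [Finset.card_univ] at this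
        exact_mod_cast this
      have e2 : (T.card : ℝ) =
          ∑ a ∈ univ.image X, ((T.filter fun z => X z.1 = a).card : ℝ) := by
        have := Finset.card_eq_sum_card_fiberwise (s := T) (t := univ.image X)
          (f := fun z : R × J => X z.1) (by intro z _; simp)
        exact_mod_cast this
      rw [e1, e2, Finset.mul_sum, Finset.mul_sum]
      refine Finset.sum_le_sum fun a _ => ?_
      have := boundary σ hl h (univ.filter fun r => X r = a) (hall a)
      refine this.trans (mul_le_mul_of_nonneg_left ?_ (by norm_num))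
      exact_mod_cast Finset.card_le_card fun z hz => by
        simp only [mem_filter, mem_univ, true_and, hT] at hz ⊢
        exact ⟨fun hh => hz.2 (by rw [← hh]; exact hz.1), hz.1⟩
    rw [hfr, ← mul_div_assoc, le_div_iff₀ (by positivity)]
    linarith
  · push Not at hall
    obtain ⟨a, ha⟩ := hall
    refine ⟨a, ?_⟩
    have hcomp : ((univ.filter fun r => X r ≠ a).card : ℝ) +
        ((univ.filter fun r => X r = a).card : ℝ) = Fintype.card R := by
      have := Finset.card_filter_add_card_filter_not (s := (univ : Finset R)) (fun r => X r = a)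
      rw [Finset.card_univ] at this
      have h2 : ((univ.filter fun r => X r = a).card : ℝ) +
        ((univ.filter fun r => ¬ X r = a).card : ℝ) = Fintype.card R := by exact_mod_cast this
      rw [add_comm]; exact h2
    have hb := boundary σ hl h (univ.filter fun r => X r ≠ a) (by linarith)
    have h4 : (Fintype.card J : ℝ) * ((univ.filter fun r => X r ≠ a).card : ℝ) ≤ 4 * T.card := by
      refine hb.trans (mul_le_mul_of_nonneg_left ?_ (by norm_num))
      exact_mod_cast Finset.card_le_card fun z hz => by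
        simp only [mem_filter, mem_univ, true_and, hT, not_not] at hz ⊢
        intro hh
        exact hz.1 (by rw [hh]; exact hz.2)
    have h5 : frac (fun r => X r ≠ a) =
        ((univ.filter fun r => X r ≠ a).card : ℝ) / (Fintype.card R : ℝ) := by
      rw [frac_def]; congr!
    rw [hfr, h5, ← mul_div_assoc, div_le_div_iff₀ hR (by positivity)]
    nlinarith [mul_le_mul_of_nonneg_right h4 hR.le]

end Copy

/-! ### soundness of arrays -/

section Sound

variable {U G J V : Type} [Fintype U] [AddCommGroup G] [Fintype G] [Fintype J] [AddCommGroup V]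

/-- position of the second summand -/
def pos2 (v : G × (G × G)) : G × (G × G) := (v.2.1, (v.1, v.2.2))

/-- position of the sum -/
def pos3 (v : G × (G × G)) : G × (G × G) := (v.1 + v.2.1, (v.1, v.2.2))

/-- position of the random shift -/
def posR (v : G × (G × G)) : G × (G × G) := (v.2.2, (v.1, v.2.1))

omit [Fintype G] [AddCommGroup G] in
lemma pos2_bij : Function.Bijective (pos2 : G × (G × G) → _) := by
  constructor
  · rintro ⟨a, b, c⟩ ⟨a', b', c'⟩ h
    simp only [pos2, Prod.mk.injEq] at h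
    simp [h.1, h.2.1, h.2.2]
  · rintro ⟨a, b, c⟩
    exact ⟨(b, (a, c)), rfl⟩

omit [Fintype G] in
lemma pos3_bij : Function.Bijective (pos3 : G × (G × G) → _) := by
  constructor
  · rintro ⟨a, b, c⟩ ⟨a', b', c'⟩ h
    simp only [pos3, Prod.mk.injEq] at h
    obtain ⟨h1, h2, h3⟩ := h
    subst h2; subst h3
    simp only [add_right_inj] at h1
    simp [h1]
  · rintro ⟨a, b, c⟩
    exact ⟨(b, (a - b, c)), by simp [pos3]⟩

omit [Fintype G] [AddCommGroup G] in
lemma posR_bij : Function.Bijective (posR : G × (G × G) → _) := by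
  constructor
  · rintro ⟨a, b, c⟩ ⟨a', b', c'⟩ h
    simp only [posR, Prod.mk.injEq] at h
    simp [h.1, h.2.1, h.2.2]
  · rintro ⟨a, b, c⟩
    exact ⟨(b, (c, a)), rfl⟩

lemma bij_snd {X Y Z : Type} {f : Y → Z} (hf : Function.Bijective f) :
    Function.Bijective (fun x : X × Y => ((x.1, f x.2) : X × Z)) := by
  constructor
  · rintro ⟨a, b⟩ ⟨a', b'⟩ h
    simp only [Prod.mk.injEq] at h
    rw [h.1, hf.1 h.2]
  · rintro ⟨a, b⟩
    obtain ⟨c, hc⟩ := hf.2 b
    exact ⟨(a, c), by simp [hc]⟩

/-- **Soundness of the Hadamard factor over a separated class `C`.** -/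
theorem array_sound [Nonempty U] [Nonempty J] (σ : J → Equiv.Perm (G × G)) {lam : ℝ}
    (hl : lam ≤ 1 / 16) (hσ : Mixes σ lam) (C : AddSubgroup (U → V)) {d : ℝ} (hd : 0 < d)
    (hC : ∀ c ∈ C, c ≠ 0 → d ≤ frac (fun u => c u ≠ 0))
    (A : U × (G × (G × G)) → V) {e1 e2 e3 : ℝ}
    (h1 : frac (fun z : (U × (G × (G × G))) × J =>
      A z.1 ≠ A (z.1.1, (z.1.2.1, σ z.2 z.1.2.2))) ≤ e1)
    (E : G × (G × G) → ℝ) (hE : ∀ v, ∃ c ∈ C, frac (fun u => A (u, v) ≠ c u) ≤ E v)
    (h2 : mean E ≤ e2)
    (h3 : frac (fun x : U × (G × (G × G)) =>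
      A (x.1, pos3 x.2) ≠ A x + A (x.1, pos2 x.2)) ≤ e3)
    (hs : 6 * (24 * e1 + 3 * e2 + e3) < d) :
    ∃ g : G → U → V, (∀ y, g y ∈ C) ∧ (∀ x y, g (x + y) = g x + g y) ∧
      frac (fun x : U × (G × (G × G)) => A x ≠ g x.2.1 x.1) ≤
        8 * e1 + e2 + 2 * ((24 * e1 + 3 * e2 + e3) / d) := by
  classical
  have : Nonempty G := ⟨0⟩
  -- the majority on the fibres
  have hB : ∀ u : U, ∀ y : G, ∃ b : V, frac (fun s : G × G => A (u, (y, s)) ≠ b) ≤
      4 * frac (fun z : (G × G) × J => A (u, (y, z.1)) ≠ A (u, (y, σ z.2 z.1))) := fun u y =>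
    copy σ hl hσ (fun s => A (u, (y, s)))
  choose B hB using hB
  have hAB : frac (fun x : U × (G × (G × G)) => A x ≠ B x.1 x.2.1) ≤ 4 * e1 := by
    refine le_trans ?_ (mul_le_mul_of_nonneg_left h1 (by norm_num))
    rw [frac_prod', frac_prod', mean_prod, ← mean_mul]
    refine mean_mono fun u => ?_
    rw [frac_prod', mean_prod, ← mean_mul]
    refine mean_mono fun y => ?_
    refine (hB u y).trans (mul_le_mul_of_nonneg_left ?_ (by norm_num))
    rw [frac_prod']
  have hAB0 : 0 ≤ frac (fun x : U × (G × (G × G)) => A x ≠ B x.1 x.2.1) := frac_nn _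
  -- rounding of every slice
  have hD : ∀ y : G, ∃ c ∈ C, frac (fun u => B u y ≠ c u) ≤
      mean (fun s : G × G => frac (fun u => A (u, (y, s)) ≠ B u y) + E (y, s)) := by
    intro y
    obtain ⟨s, hs⟩ := exists_le_mean
      (fun s : G × G => frac (fun u => A (u, (y, s)) ≠ B u y) + E (y, s))
    obtain ⟨c, hc, hc'⟩ := hE (y, s)
    refine ⟨c, hc, le_trans ?_ hs⟩
    have := frac_or_le (r := fun u => B u y ≠ c u) (p := fun u => A (u, (y, s)) ≠ B u y)
      (q := fun u => A (u, (y, s)) ≠ c u) (by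
        intro u hu
        by_contra hcon
        push Not at hcon
        exact hu (by rw [← hcon.1, hcon.2]))
    linarith
  choose c hc hcD using hD
  set D : G → ℝ := fun y =>
    mean (fun s : G × G => frac (fun u => A (u, (y, s)) ≠ B u y) + E (y, s)) with hDdef
  have hDm : mean D ≤ 4 * e1 + e2 := by
    have e : mean D = mean (fun v : G × (G × G) =>
        frac (fun u => A (u, v) ≠ B u v.1) + E v) := by
      rw [mean_prod]
    rw [e, mean_add]
    have : mean (fun v : G × (G × G) => frac (fun u => A (u, v) ≠ B u v.1)) =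
        frac (fun x : U × (G × (G × G)) => A x ≠ B x.1 x.2.1) := by
      rw [frac_swap]
    linarith
  have hBc : frac (fun x : G × U => B x.2 x.1 ≠ c x.1 x.2) ≤ 4 * e1 + e2 := by
    rw [frac_prod']
    exact (mean_mono fun y => hcD y).trans hDm
  -- additivity of the majority
  have hBadd : frac (fun x : (G × G) × U => B x.2 (x.1.1 + x.1.2) ≠ B x.2 x.1.1 + B x.2 x.1.2) ≤
      12 * e1 + e3 := by
    have e : frac (fun x : (G × G) × U => B x.2 (x.1.1 + x.1.2) ≠ B x.2 x.1.1 + B x.2 x.1.2) =
        frac (fun x : U × (G × (G × G)) =>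
          B x.1 (x.2.1 + x.2.2.1) ≠ B x.1 x.2.1 + B x.1 x.2.2.1) := by
      have b : Function.Bijective (fun x : U × (G × (G × G)) =>
          ((((x.2.1, x.2.2.1), x.1), x.2.2.2) : ((G × G) × U) × G)) := by
        constructor
        · rintro ⟨u, a, b, c⟩ ⟨u', a', b', c'⟩ h
          simp only [Prod.mk.injEq] at h
          simp [h.1.1.1, h.1.1.2, h.1.2, h.2]
        · rintro ⟨⟨⟨a, b⟩, u⟩, c⟩
          exact ⟨(u, (a, (b, c))), rfl⟩
      rw [← frac_fst (V := G), ← frac_bij b]
    rw [e]
    have k1 := frac_bij (bij_snd (X := U) (pos2_bij (G := G)))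
      (fun x : U × (G × (G × G)) => A x ≠ B x.1 x.2.1)
    have k2 := frac_bij (bij_snd (X := U) (pos3_bij (G := G)))
      (fun x : U × (G × (G × G)) => A x ≠ B x.1 x.2.1)
    have k3 := frac_or_le
      (r := fun x : U × (G × (G × G)) =>
        B x.1 (x.2.1 + x.2.2.1) ≠ B x.1 x.2.1 + B x.1 x.2.2.1)
      (p := fun x => A x ≠ B x.1 x.2.1 ∨ A (x.1, pos2 x.2) ≠ B x.1 (pos2 x.2).1)
      (q := fun x => A (x.1, pos3 x.2) ≠ B x.1 (pos3 x.2).1 ∨
        A (x.1, pos3 x.2) ≠ A x + A (x.1, pos2 x.2)) (by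
        intro x hx
        by_contra hcon
        push Not at hcon
        obtain ⟨⟨g1, g2⟩, g3, g4⟩ := hcon
        apply hx
        simp only [pos2, pos3] at g1 g2 g3 g4
        rw [← g1, ← g2, ← g3, g4])
    have k4 := frac_or (fun x : U × (G × (G × G)) => A x ≠ B x.1 x.2.1)
      (fun x => A (x.1, pos2 x.2) ≠ B x.1 (pos2 x.2).1)
    have k5 := frac_or (fun x : U × (G × (G × G)) => A (x.1, pos3 x.2) ≠ B x.1 (pos3 x.2).1)
      (fun x => A (x.1, pos3 x.2) ≠ A x + A (x.1, pos2 x.2))
    simp only at k1 k2 k4 k5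
    linarith
  -- the group-valued function
  set F : G → C := fun y => ⟨c y, hc y⟩ with hF
  have hbad : d * frac (fun z : G × G => F (z.1 + z.2) ≠ F z.1 + F z.2) ≤
      24 * e1 + 3 * e2 + e3 := by
    set β : G × G → ℝ := fun z =>
      frac (fun u => B u (z.1 + z.2) ≠ B u z.1 + B u z.2) with hβ
    have hβm : mean β ≤ 12 * e1 + e3 := by
      have := hBadd
      rw [frac_prod'] at this
      exact this
    have hpt : ∀ z : G × G, d * (if F (z.1 + z.2) ≠ F z.1 + F z.2 then (1 : ℝ) else 0) ≤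
        (D (z.1 + z.2) + D z.1 + D z.2) + β z := by
      intro z
      have hDnn : ∀ y, 0 ≤ D y := fun y => (frac_nn _).trans (hcD y)
      have hβnn : 0 ≤ β z := frac_nn _
      by_cases hz : F (z.1 + z.2) ≠ F z.1 + F z.2
      · simp only [hz, if_true, mul_one, ne_eq, not_false_eq_true]
        have hmem : c (z.1 + z.2) - (c z.1 + c z.2) ∈ C :=
          C.sub_mem (hc _) (C.add_mem (hc _) (hc _))
        have hne : c (z.1 + z.2) - (c z.1 + c z.2) ≠ 0 := by
          intro h0
          apply hz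
          rw [sub_eq_zero] at h0
          exact Subtype.ext (by simpa [hF] using h0)
        have q1 := hC _ hmem hne
        have q2 := frac_or_le
          (r := fun u => (c (z.1 + z.2) - (c z.1 + c z.2)) u ≠ 0)
          (p := fun u => B u (z.1 + z.2) ≠ c (z.1 + z.2) u ∨ B u z.1 ≠ c z.1 u)
          (q := fun u => B u z.2 ≠ c z.2 u ∨ B u (z.1 + z.2) ≠ B u z.1 + B u z.2) (by
            intro u hu
            by_contra hcon
            push Not at hcon
            obtain ⟨⟨g1, g2⟩, g3, g4⟩ := hcon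
            apply hu
            simp only [Pi.sub_apply, Pi.add_apply]
            rw [← g1, ← g2, ← g3, g4, sub_self])
        have q3 := frac_or (fun u => B u (z.1 + z.2) ≠ c (z.1 + z.2) u)
          (fun u => B u z.1 ≠ c z.1 u)
        have q4 := frac_or (fun u => B u z.2 ≠ c z.2 u)
          (fun u => B u (z.1 + z.2) ≠ B u z.1 + B u z.2)
        have q5 := hcD (z.1 + z.2)
        have q6 := hcD z.1
        have q7 := hcD z.2
        simp only [hDdef, hβ]
        linarith
      · simp only [hz, if_false, mul_zero]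
        have := hDnn (z.1 + z.2)
        have := hDnn z.1
        have := hDnn z.2
        linarith
    have hmm := mean_mono hpt
    have hfm : frac (fun z : G × G => F (z.1 + z.2) ≠ F z.1 + F z.2) =
        mean (fun z : G × G => if F (z.1 + z.2) ≠ F z.1 + F z.2 then (1 : ℝ) else 0) := by
      rw [frac_mean]; congr!
    rw [mean_mul, ← hfm, mean_add, mean_add, mean_add] at hmm
    have m1 : mean (fun z : G × G => D (z.1 + z.2)) = mean D := by
      rw [mean_prod]
      have : ∀ x : G, mean (fun y => D (x + y)) = mean D := fun x =>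
        mean_equiv (Equiv.addLeft x) D
      simp only [this]
      exact mean_const (U := G) (mean D)
    have m2 : mean (fun z : G × G => D z.1) = mean D := by
      rw [mean_prod]
      congr 1; funext x; exact mean_const (U := G) (D x)
    have m3 : mean (fun z : G × G => D z.2) = mean D := by
      rw [mean_prod]; exact mean_const (U := G) (mean D)
    rw [m1, m2, m3] at hmm
    linarith
  have hbad' : frac (fun z : G × G => F (z.1 + z.2) ≠ F z.1 + F z.2) ≤
      (24 * e1 + 3 * e2 + e3) / d := by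
    rw [le_div_iff₀ hd]; linarith
  obtain ⟨l, hl1, hl2⟩ := blr F (ε := (24 * e1 + 3 * e2 + e3) / d) (by
    rw [← mul_div_assoc, div_lt_one hd]; exact hs) hbad'
  refine ⟨fun y => l y, fun y => (l y).2, ?_, ?_⟩
  · intro x y
    show ((l (x + y) : C) : U → V) = (l x : U → V) + (l y : U → V)
    rw [hl1]; rfl
  · have r1 : frac (fun x : U × (G × (G × G)) => B x.1 x.2.1 ≠ c x.2.1 x.1) ≤ 4 * e1 + e2 := by
      have b : Function.Bijective (fun x : U × (G × (G × G)) =>
          (((x.2.1, x.1), x.2.2) : (G × U) × (G × G))) := by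
        constructor
        · rintro ⟨u, a, b⟩ ⟨u', a', b'⟩ h
          simp only [Prod.mk.injEq] at h
          simp [h.1.1, h.1.2, h.2]
        · rintro ⟨⟨a, u⟩, c⟩
          exact ⟨(u, (a, c)), rfl⟩
      have e : frac (fun x : U × (G × (G × G)) => B x.1 x.2.1 ≠ c x.2.1 x.1) =
          frac (fun x : G × U => B x.2 x.1 ≠ c x.1 x.2) := by
        rw [← frac_fst (V := G × G) (fun x : G × U => B x.2 x.1 ≠ c x.1 x.2), ← frac_bij b]
      rw [e]; exact hBc
    have r2 : frac (fun x : U × (G × (G × G)) => F x.2.1 ≠ l x.2.1) ≤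
        2 * ((24 * e1 + 3 * e2 + e3) / d) := by
      have b : Function.Bijective (fun x : U × (G × (G × G)) =>
          ((x.2.1, (x.1, x.2.2)) : G × (U × (G × G)))) := by
        constructor
        · rintro ⟨u, a, b⟩ ⟨u', a', b'⟩ h
          simp only [Prod.mk.injEq] at h
          simp [h.1, h.2.1, h.2.2]
        · rintro ⟨a, u, c⟩
          exact ⟨(u, (a, c)), rfl⟩
      have e : frac (fun x : U × (G × (G × G)) => F x.2.1 ≠ l x.2.1) =
          frac (fun x : G => F x ≠ l x) := by
        rw [← frac_fst (V := U × (G × G)) (fun x : G => F x ≠ l x), ← frac_bij b]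
      rw [e]; exact hl2
    have r3 := frac_or_le (r := fun x : U × (G × (G × G)) => A x ≠ (l x.2.1 : U → V) x.1)
      (p := fun x => A x ≠ B x.1 x.2.1 ∨ B x.1 x.2.1 ≠ c x.2.1 x.1)
      (q := fun x => F x.2.1 ≠ l x.2.1) (by
        intro x hx
        by_contra hcon
        push Not at hcon
        obtain ⟨⟨g1, g2⟩, g3⟩ := hcon
        apply hx
        rw [g1, g2, ← g3])
    have r4 := frac_or (fun x : U × (G × (G × G)) => A x ≠ B x.1 x.2.1)
      (fun x => B x.1 x.2.1 ≠ c x.2.1 x.1)
    linarith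

end Sound

/-! ### gaps of relations between exact words -/

section Gap

variable {U G V S : Type} [Fintype U] [AddCommGroup G] [Fintype G] [AddCommGroup V] [Fintype S]

/-- an additive relation between exact words fails nowhere or on `d / 2` of the units -/
theorem gap_hom [Nonempty U] [Nonempty S] (D : G → U → V) (hD : ∀ x y, D (x + y) = D x + D y)
    {d : ℝ} (hd0 : 0 ≤ d) (hd : ∀ y, D y ≠ 0 → d ≤ frac (fun u => D y u ≠ 0))
    (hne : ∃ y, D y ≠ 0) :
    d / 2 ≤ frac (fun x : U × (G × S) => D x.2.1 x.1 ≠ 0) := by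
  have : Nonempty G := ⟨0⟩
  obtain ⟨y0, hy0⟩ := hne
  have h1 := half (V := U → V) D hD y0 hy0
  have h2 := mul_le_frac_prod (U := G) (V := U × S) (p := fun x => D x.1 x.2.1 ≠ 0)
    (q := fun y => D y ≠ 0) (c := d) (by
      intro y hy
      have := frac_fst (V := S) (fun u : U => D y u ≠ 0)
      simp only at this ⊢
      rw [this]
      exact hd y hy)
  have b : Function.Bijective (fun x : U × (G × S) => ((x.2.1, (x.1, x.2.2)) : G × (U × S))) := by
    constructor
    · rintro ⟨u, a, b⟩ ⟨u', a', b'⟩ h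
      simp only [Prod.mk.injEq] at h
      simp [h.1, h.2.1, h.2.2]
    · rintro ⟨a, u, c⟩
      exact ⟨(u, (a, c)), rfl⟩
  have h3 := frac_bij b (fun x : G × (U × S) => D x.1 x.2.1 ≠ 0)
  simp only at h3
  rw [h3]
  nlinarith

/-- a nonzero biadditive map is nonzero on a quarter of the pairs -/
theorem gap_bi (b : G → G → V) (hl : ∀ x x' y, b (x + x') y = b x y + b x' y)
    (hr : ∀ x y y', b x (y + y') = b x y + b x y') (hne : ∃ x y, b x y ≠ 0) :
    1 / 4 ≤ frac (fun z : G × G => b z.1 z.2 ≠ 0) := by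
  have : Nonempty G := ⟨0⟩
  obtain ⟨x0, y0, h0⟩ := hne
  have h1 := half (V := G → V) b (fun x y => by funext z; exact hl x y z) x0
    (fun h => h0 (congrFun h y0))
  have h2 := mul_le_frac_prod (U := G) (V := G) (p := fun z => b z.1 z.2 ≠ 0)
    (q := fun x => b x ≠ 0) (c := 1 / 2) (by
      intro x hx
      obtain ⟨y, hy⟩ : ∃ y, b x y ≠ 0 := by
        by_contra hc
        push Not at hc
        exact hx (funext hc)
      exact half (b x) (hr x) y hy)
  linarith

end Gap

section Mul

variable {U G K : Type} [Fintype U] [CommRing G] [Fintype G] [CommRing K]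

/-- position of a shifted product -/
def posM (v : G × (G × G)) : G × (G × G) := (v.1 * v.2.1 + v.2.2, (v.1, v.2.1))

omit [Fintype G] in
lemma posM_bij : Function.Bijective (posM : G × (G × G) → _) := by
  constructor
  · rintro ⟨a, b, c⟩ ⟨a', b', c'⟩ h
    simp only [posM, Prod.mk.injEq] at h
    obtain ⟨h1, h2, h3⟩ := h
    subst h2; subst h3
    simp only [add_right_inj] at h1
    simp [h1]
  · rintro ⟨a, b, c⟩
    exact ⟨(b, (c, a - b * c)), by simp [posM]⟩

/-- multiplicativity of an exact marker: the self corrected test fails nowhere or on a quarter of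
the units -/
theorem gap_mul [Nonempty U] (m : G → K) (hm : ∀ x y, m (x + y) = m x + m y)
    (hne : ¬ ∀ x y, m (x * y) = m x * m y) :
    1 / 4 ≤ frac (fun x : U × (G × (G × G)) =>
      m (posM x.2).1 - m (posR x.2).1 ≠ m x.2.1 * m (pos2 x.2).1) := by
  push Not at hne
  obtain ⟨x0, y0, h0⟩ := hne
  have : Nonempty G := ⟨0⟩
  have h1 := gap_bi (fun x y => m (x * y) - m x * m y)
    (by intro x x' y; simp only [add_mul, hm]; ring)
    (by intro x y y'; simp only [mul_add, hm]; ring) ⟨x0, y0, sub_ne_zero.2 h0⟩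
  have b : Function.Bijective (fun x : U × (G × (G × G)) =>
      (((x.2.1, x.2.2.1), (x.1, x.2.2.2)) : (G × G) × (U × G))) := by
    constructor
    · rintro ⟨u, a, b, c⟩ ⟨u', a', b', c'⟩ h
      simp only [Prod.mk.injEq] at h
      simp [h.1.1, h.1.2, h.2.1, h.2.2]
    · rintro ⟨⟨a, b⟩, u, c⟩
      exact ⟨(u, (a, (b, c))), rfl⟩
  have h2 := frac_fst (V := U × G) (fun z : G × G => m (z.1 * z.2) - m z.1 * m z.2 ≠ 0)
  have h3 := frac_bij b (fun z : (G × G) × (U × G) =>
    m (z.1.1 * z.1.2) - m z.1.1 * m z.1.2 ≠ 0)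
  simp only at h2 h3
  rw [← h2, ← h3] at h1
  refine h1.trans (frac_mono fun x hx => ?_)
  simp only [posM, posR, pos2, hm]
  intro hc
  apply hx
  rw [← hc]; ring

end Mul

/-! ### the linear version -/

section Lin

variable {U ι J K V : Type} [Fintype U] [Fintype ι] [Field K] [Fintype K] [Fintype J]
  [AddCommGroup V] [Module K V]

/-- **Soundness of the Hadamard factor, linear form**: `Z (u, (y, s)) = Σ y_i x_i u`, `x_i ∈ C` -/
theorem array_linear [DecidableEq ι] [Nonempty U] [Nonempty J]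
    (σ : J → Equiv.Perm ((ι → K) × (ι → K))) {lam : ℝ}
    (hl : lam ≤ 1 / 16) (hσ : Mixes σ lam) (C : Submodule K (U → V)) {d : ℝ} (hd : 0 < d)
    (hC : ∀ c ∈ C, c ≠ 0 → d ≤ frac (fun u => c u ≠ 0))
    (A : U × ((ι → K) × ((ι → K) × (ι → K))) → V) {e1 e2 e3 e4 : ℝ}
    (h1 : frac (fun z : (U × ((ι → K) × ((ι → K) × (ι → K)))) × J =>
      A z.1 ≠ A (z.1.1, (z.1.2.1, σ z.2 z.1.2.2))) ≤ e1)
    (E : (ι → K) × ((ι → K) × (ι → K)) → ℝ)
    (hE : ∀ v, ∃ c ∈ C, frac (fun u => A (u, v) ≠ c u) ≤ E v)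
    (h2 : mean E ≤ e2)
    (h3 : frac (fun x : U × ((ι → K) × ((ι → K) × (ι → K))) =>
      A (x.1, pos3 x.2) ≠ A x + A (x.1, pos2 x.2)) ≤ e3)
    (a : K) (ha : a ≠ 0) (hgen : ∀ b : K, b ≠ 0 → ∃ n : ℕ, b = a ^ n)
    (h4 : frac (fun x : U × ((ι → K) × ((ι → K) × (ι → K))) =>
      A (x.1, (a • x.2.1, x.2.2)) ≠ a • A x) ≤ e4)
    (hs : 6 * (24 * e1 + 3 * e2 + e3) < d)
    (hs2 : 2 * (8 * e1 + e2 + 2 * ((24 * e1 + 3 * e2 + e3) / d)) + e4 < d / 2) :
    ∃ x : ι → U → V, (∀ i, x i ∈ C) ∧
      frac (fun z : U × ((ι → K) × ((ι → K) × (ι → K))) => A z ≠ ∑ i, z.2.1 i • x i z.1) ≤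
        8 * e1 + e2 + 2 * ((24 * e1 + 3 * e2 + e3) / d) := by
  classical
  obtain ⟨g, hg1, hg2, hg3⟩ := array_sound σ hl hσ C.toAddSubgroup hd
    (fun c hc => hC c (by simpa using hc)) A h1 E
    (fun v => by obtain ⟨c, hc, hc'⟩ := hE v; exact ⟨c, by simpa using hc, hc'⟩) h2 h3 hs
  have hg1' : ∀ y, g y ∈ C := fun y => by simpa using hg1 y
  -- homogeneity for the generator
  have hga : ∀ y, g (a • y) = a • g y := by
    by_contra hcon
    push Not at hcon
    obtain ⟨y0, hy0⟩ := hcon
    have k1 := gap_hom (U := U) (S := (ι → K) × (ι → K)) (fun y => g (a • y) - a • g y)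
      (by intro x y; simp only [smul_add, hg2]; abel) hd.le
      (fun y hy => hC _ (C.sub_mem (hg1' _) (C.smul_mem _ (hg1' _))) hy)
      ⟨y0, sub_ne_zero.2 hy0⟩
    have b : Function.Bijective (fun x : U × ((ι → K) × ((ι → K) × (ι → K))) =>
        ((x.1, (a • x.2.1, x.2.2)) : U × ((ι → K) × ((ι → K) × (ι → K))))) := by
      constructor
      · rintro ⟨u, y, s⟩ ⟨u', y', s'⟩ h
        simp only [Prod.mk.injEq] at h
        have := smul_right_injective (ι → K) ha h.2.1
        rw [h.1, this, h.2.2]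
      · rintro ⟨u, y, s⟩
        exact ⟨(u, (a⁻¹ • y, s)), by simp [smul_smul, ha]⟩
    have k2 := frac_bij b (fun x : U × ((ι → K) × ((ι → K) × (ι → K))) => A x ≠ g x.2.1 x.1)
    have k3 := frac_or_le
      (r := fun x : U × ((ι → K) × ((ι → K) × (ι → K))) =>
        (g (a • x.2.1) - a • g x.2.1) x.1 ≠ 0)
      (p := fun x => A x ≠ g x.2.1 x.1 ∨ A (x.1, (a • x.2.1, x.2.2)) ≠ g (a • x.2.1) x.1)
      (q := fun x => A (x.1, (a • x.2.1, x.2.2)) ≠ a • A x) (by
        intro x hx
        by_contra hc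
        push Not at hc
        obtain ⟨⟨g1, g2⟩, g3⟩ := hc
        apply hx
        simp only [Pi.sub_apply, Pi.smul_apply]
        rw [← g1, ← g2, g3, sub_self])
    have k4 := frac_or (fun x : U × ((ι → K) × ((ι → K) × (ι → K))) => A x ≠ g x.2.1 x.1)
      (fun x => A (x.1, (a • x.2.1, x.2.2)) ≠ g (a • x.2.1) x.1)
    simp only at k2 k4
    linarith
  have hpow : ∀ n : ℕ, ∀ y, g (a ^ n • y) = a ^ n • g y := by
    intro n
    induction n with
    | zero => intro y; simp
    | succ n ih =>
      intro y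
      rw [pow_succ, mul_smul, mul_smul, ih, hga]
  have h0 : g 0 = 0 := by
    have := hg2 0 0
    rw [add_zero] at this
    exact left_eq_add.1 this
  have hsm : ∀ b : K, ∀ y, g (b • y) = b • g y := by
    intro b y
    by_cases hb : b = 0
    · subst hb; simp [h0]
    · obtain ⟨n, rfl⟩ := hgen b hb
      exact hpow n y
  have hsum : ∀ (t : Finset ι) (f : ι → (ι → K)), g (∑ i ∈ t, f i) = ∑ i ∈ t, g (f i) := by
    intro t f
    induction t using Finset.induction_on with
    | empty => simp [h0]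
    | insert i t hi ih => rw [Finset.sum_insert hi, Finset.sum_insert hi, hg2, ih]
  have hrep : ∀ y : ι → K, g y = ∑ i, y i • g (Pi.single i 1) := by
    intro y
    have : y = ∑ i, y i • (Pi.single i 1 : ι → K) := by
      funext j
      simp [Finset.sum_apply, Pi.single_apply]
    conv_lhs => rw [this]
    rw [hsum]
    exact Finset.sum_congr rfl fun i _ => hsm _ _
  refine ⟨fun i => g (Pi.single i 1), fun i => hg1' _, ?_⟩
  refine (frac_mono fun z hz => ?_).trans hg3
  rw [hrep z.2.1]
  simpa [Finset.sum_apply] using hz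

end Lin

end Crest.Agent.R289.Array46
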