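import Crest.Agent.R289.DefE_217

/-!
# Row 289, block E, leaf E7 (second half): Boolean and Kleene functions as `PExp`

Reading of a value `v ∈ [0,1]`: `rd v = some false` for `v ≤ 1/4`, `some true` for `3/4 ≤ v`, else
`none`.  For every Kleene-monotone `f : (ι → Option Bool) → Option Bool` the expression
`kleeneE f v` has value exactly `1` (`0`) whenever `f` of the readings is `some true`
(`some false`); always a value in `[0,1]`.  Special cases: `boolE` (total Boolean functions),
`indef` (`1` on `[1/4,3/4]`, `0` outside `(1/8,7/8)`), `sat` (`1` if some input is in `[1/4,3/4]`,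
the Boolean value if all inputs are outside `(1/8,7/8)`).
-/

set_option autoImplicit false

namespace Crest.Agent.R289.PBool940

open Crest.Agent.R289

/-- value in `[0,1]` -/
def In01 (x : ℕ → ℕ → ℚ) (e : PExp) : Prop := 0 ≤ e.eval x ∧ e.eval x ≤ 1

/-! ### elementary expressions -/

/-- `1 - a` -/
def notX (a : PExp) : PExp := .sub (.const 1) a
/-- minimum -/
def minX (a b : PExp) : PExp := .sub a (.sub a b)
/-- maximum -/
def maxX (a b : PExp) : PExp := .add b (.sub a b)
/-- `0` for `a ≤ t`, slope `2` -/
def dbl (a : PExp) : PExp := .add a a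
/-- `0` for `a ≤ 1/4`, `1` for `3/4 ≤ a` -/
def rampX (a : PExp) : PExp := dbl (.sub a (.const (1 / 4)))

variable {x : ℕ → ℕ → ℚ} {a b : PExp}

theorem eval_notX (ha : In01 x a) : (notX a).eval x = 1 - a.eval x := by
  simp only [notX, PExp.eval]
  exact max_eq_left (by linarith [ha.2])

theorem eval_minX (ha : In01 x a) (hb : In01 x b) :
    (minX a b).eval x = min (a.eval x) (b.eval x) := by
  simp only [minX, PExp.eval]
  rcases le_total (a.eval x) (b.eval x) with h | h
  · rw [min_eq_left h, max_eq_right (a := a.eval x - b.eval x) (by linarith), sub_zero,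
      max_eq_left ha.1]
  · rw [min_eq_right h, max_eq_left (a := a.eval x - b.eval x) (by linarith), sub_sub_cancel,
      max_eq_left hb.1]

theorem eval_maxX (ha : In01 x a) (hb : In01 x b) :
    (maxX a b).eval x = max (a.eval x) (b.eval x) := by
  simp only [maxX, PExp.eval]
  rcases le_total (a.eval x) (b.eval x) with h | h
  · rw [max_eq_right h, max_eq_right (a := a.eval x - b.eval x) (by linarith), add_zero,
      min_eq_left hb.2]
  · rw [max_eq_left h, max_eq_left (a := a.eval x - b.eval x) (by linarith), add_sub_cancel,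
      min_eq_left ha.2]

theorem eval_dbl : (dbl a).eval x = min (2 * a.eval x) 1 := by
  simp only [dbl, PExp.eval, two_mul]

theorem eval_rampX : (rampX a).eval x = min (2 * max (a.eval x - 1 / 4) 0) 1 := by
  rw [rampX, eval_dbl]
  rfl

theorem in01_const {q : ℚ} (h0 : 0 ≤ q) (h1 : q ≤ 1) : In01 x (.const q) := ⟨h0, h1⟩

theorem In01.notX (ha : In01 x a) : In01 x (notX a) := by
  unfold In01
  rw [eval_notX ha]
  exact ⟨by linarith [ha.2], by linarith [ha.1]⟩

theorem In01.minX (ha : In01 x a) (hb : In01 x b) : In01 x (minX a b) := by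
  unfold In01
  rw [eval_minX ha hb]
  exact ⟨le_min ha.1 hb.1, (min_le_left _ _).trans ha.2⟩

theorem In01.maxX (ha : In01 x a) (hb : In01 x b) : In01 x (maxX a b) := by
  unfold In01
  rw [eval_maxX ha hb]
  exact ⟨ha.1.trans (le_max_left _ _), max_le ha.2 hb.2⟩

theorem In01.dbl (ha : 0 ≤ a.eval x) : In01 x (dbl a) := by
  unfold In01
  rw [eval_dbl]
  exact ⟨le_min (by linarith) zero_le_one, min_le_right _ _⟩

theorem In01.sub (ha : In01 x a) (hb : 0 ≤ b.eval x) : In01 x (.sub a b) := by
  refine ⟨le_max_right _ _, ?_⟩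
  simp only [PExp.eval]
  exact max_le (by linarith [ha.2]) zero_le_one

theorem In01.rampX (ha : In01 x a) : In01 x (rampX a) := by
  refine In01.dbl (In01.sub ha ?_).1
  simp only [PExp.eval]
  norm_num

/-- reading of a value -/
def rd (v : ℚ) : Option Bool := if v ≤ 1 / 4 then some false else if 3 / 4 ≤ v then some true else none

theorem rd_true {v : ℚ} (h : rd v = some true) : 3 / 4 ≤ v := by
  by_contra h2
  unfold rd at h
  rw [if_neg h2] at h
  split_ifs at h <;> simp at h

theorem rd_false {v : ℚ} (h : rd v = some false) : v ≤ 1 / 4 := by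
  by_contra h2
  unfold rd at h
  rw [if_neg h2] at h
  split_ifs at h <;> simp at h

theorem rd_of_le {v : ℚ} (h : v ≤ 1 / 4) : rd v = some false := by
  unfold rd
  rw [if_pos h]

theorem rd_of_ge {v : ℚ} (h : 3 / 4 ≤ v) : rd v = some true := by
  unfold rd
  rw [if_neg (by linarith), if_pos h]

theorem rd_none {v : ℚ} (h : rd v = none) : 1 / 4 < v ∧ v < 3 / 4 := by
  constructor
  · by_contra h2
    unfold rd at h
    rw [if_pos (not_lt.1 h2)] at h
    simp at h
  · by_contra h2
    unfold rd at h
    rw [if_pos (not_lt.1 h2)] at h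
    split_ifs at h <;> simp at h

theorem ramp_one (h : rd (a.eval x) = some true) : (rampX a).eval x = 1 := by
  have h1 := rd_true h
  rw [eval_rampX, max_eq_left (by linarith)]
  exact min_eq_right (by linarith)

theorem ramp_zero (h : rd (a.eval x) = some false) : (rampX a).eval x = 0 := by
  have h1 := rd_false h
  rw [eval_rampX, max_eq_right (by linarith)]
  simp

/-! ### literals, minima and maxima of lists -/

/-- literal: `1` if the input reads `b`, `0` if it reads `!b` -/
def lit : Option Bool → PExp → PExp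
  | none, _ => .const 1
  | some true, v => rampX v
  | some false, v => notX (rampX v)

theorem In01.lit (c : Option Bool) (ha : In01 x a) : In01 x (lit c a) := by
  rcases c with _ | _ | _
  · exact in01_const zero_le_one le_rfl
  · exact ha.rampX.notX
  · exact ha.rampX

theorem lit_one {c : Option Bool} (ha : In01 x a) (h : c = none ∨ rd (a.eval x) = c) :
    (lit c a).eval x = 1 := by
  rcases c with _ | _ | _
  · rfl
  · have h1 := h.resolve_left (by simp)
    change (notX (rampX a)).eval x = 1
    rw [eval_notX ha.rampX, ramp_zero h1]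
    norm_num
  · exact ramp_one (h.resolve_left (by simp))

theorem lit_zero {c : Bool} (ha : In01 x a) (h : rd (a.eval x) = some (!c)) :
    (lit (some c) a).eval x = 0 := by
  rcases c with _ | _
  · change (notX (rampX a)).eval x = 0
    rw [eval_notX ha.rampX, ramp_one h]
    norm_num
  · exact ramp_zero h

/-- minimum of a list (empty: `1`) -/
def minL : List PExp → PExp
  | [] => .const 1
  | a :: l => minX a (minL l)

/-- maximum of a list (empty: `0`) -/
def maxL : List PExp → PExp
  | [] => .const 0
  | a :: l => maxX a (maxL l)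

theorem In01.minL {l : List PExp} (h : ∀ a ∈ l, In01 x a) : In01 x (minL l) := by
  induction l with
  | nil => exact in01_const zero_le_one le_rfl
  | cons a l ih =>
    exact (h a List.mem_cons_self).minX (ih fun b hb => h b (List.mem_cons_of_mem _ hb))

theorem In01.maxL {l : List PExp} (h : ∀ a ∈ l, In01 x a) : In01 x (maxL l) := by
  induction l with
  | nil => exact in01_const le_rfl zero_le_one
  | cons a l ih =>
    exact (h a List.mem_cons_self).maxX (ih fun b hb => h b (List.mem_cons_of_mem _ hb))

theorem minL_le {l : List PExp} (h : ∀ a ∈ l, In01 x a) {a : PExp} (ha : a ∈ l) :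
    (minL l).eval x ≤ a.eval x := by
  induction l with
  | nil => simp at ha
  | cons b l ih =>
    have hb := h b List.mem_cons_self
    have hl : ∀ c ∈ l, In01 x c := fun c hc => h c (List.mem_cons_of_mem _ hc)
    change (minX b (minL l)).eval x ≤ _
    rw [eval_minX hb (In01.minL hl)]
    rcases List.mem_cons.1 ha with rfl | ha
    · exact min_le_left _ _
    · exact (min_le_right _ _).trans (ih hl ha)

theorem le_minL {l : List PExp} (h : ∀ a ∈ l, In01 x a) {q : ℚ} (hq : q ≤ 1)
    (hl : ∀ a ∈ l, q ≤ a.eval x) : q ≤ (minL l).eval x := by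
  induction l with
  | nil => exact hq
  | cons b l ih =>
    have hb := h b List.mem_cons_self
    have hl' : ∀ c ∈ l, In01 x c := fun c hc => h c (List.mem_cons_of_mem _ hc)
    change _ ≤ (minX b (minL l)).eval x
    rw [eval_minX hb (In01.minL hl')]
    exact le_min (hl b List.mem_cons_self) (ih hl' fun c hc => hl c (List.mem_cons_of_mem _ hc))

theorem le_maxL {l : List PExp} (h : ∀ a ∈ l, In01 x a) {a : PExp} (ha : a ∈ l) :
    a.eval x ≤ (maxL l).eval x := by
  induction l with
  | nil => simp at ha
  | cons b l ih =>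
    have hb := h b List.mem_cons_self
    have hl : ∀ c ∈ l, In01 x c := fun c hc => h c (List.mem_cons_of_mem _ hc)
    change _ ≤ (maxX b (maxL l)).eval x
    rw [eval_maxX hb (In01.maxL hl)]
    rcases List.mem_cons.1 ha with rfl | ha
    · exact le_max_left _ _
    · exact (ih hl ha).trans (le_max_right _ _)

theorem maxL_le {l : List PExp} (h : ∀ a ∈ l, In01 x a) {q : ℚ} (hq : 0 ≤ q)
    (hl : ∀ a ∈ l, a.eval x ≤ q) : (maxL l).eval x ≤ q := by
  induction l with
  | nil => exact hq
  | cons b l ih =>
    have hb := h b List.mem_cons_self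
    have hl' : ∀ c ∈ l, In01 x c := fun c hc => h c (List.mem_cons_of_mem _ hc)
    change (maxX b (maxL l)).eval x ≤ _
    rw [eval_maxX hb (In01.maxL hl')]
    exact max_le (hl b List.mem_cons_self) (ih hl' fun c hc => hl c (List.mem_cons_of_mem _ hc))

/-! ### Kleene functions -/

section kleene

variable {ι : Type}

/-- a partial assignment `q` refines `p` -/
def Ref (p q : ι → Option Bool) : Prop := ∀ i, p i ≠ none → q i = p i

theorem Ref.refl (p : ι → Option Bool) : Ref p p := fun _ _ => rfl

theorem Ref.trans {p q r : ι → Option Bool} (h1 : Ref p q) (h2 : Ref q r) : Ref p r :=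
  fun i hi => by rw [h2 i (by rw [h1 i hi]; exact hi), h1 i hi]

/-- Kleene monotone: a decided value is not changed by a refinement of the inputs -/
def KMono {β : Type} (f : (ι → Option Bool) → Option β) : Prop :=
  ∀ p q, Ref p q → f p ≠ none → f q = f p

/-- two patterns on which a monotone function takes different values are in conflict -/
theorem KMono.conflict {β : Type} {f : (ι → Option Bool) → Option β} (hf : KMono f)
    {p q : ι → Option Bool} {b c : β} (hp : f p = some b) (hq : f q = some c) (hbc : b ≠ c) :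
    ∃ i d, p i = some d ∧ q i = some (!d) := by
  classical
  by_contra hcon
  push Not at hcon
  let r : ι → Option Bool := fun i => if p i = none then q i else p i
  have h1 : Ref p r := fun i hi => by simp only [r]; rw [if_neg hi]
  have h2 : Ref q r := fun i hi => by
    simp only [r]
    by_cases hpi : p i = none
    · rw [if_pos hpi]
    · rw [if_neg hpi]
      obtain ⟨d, hd⟩ := Option.ne_none_iff_exists'.1 hpi
      obtain ⟨e, he⟩ := Option.ne_none_iff_exists'.1 hi
      have := hcon i d hd
      rw [he] at this ⊢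
      rw [hd]
      congr 1
      rcases d with _ | _ <;> rcases e with _ | _ <;> simp_all
  have h3 := hf p r h1 (by rw [hp]; simp)
  have h4 := hf q r h2 (by rw [hq]; simp)
  rw [hp] at h3
  rw [hq, h3] at h4
  exact hbc (Option.some.inj h4)

variable [Fintype ι]

/-- conjunction of the literals of a pattern -/
noncomputable def patX (v : ι → PExp) (p : ι → Option Bool) : PExp :=
  minL ((Finset.univ : Finset ι).toList.map fun i => lit (p i) (v i))

open Classical in
/-- **the expression of a Kleene function** -/
noncomputable def kleeneE (f : (ι → Option Bool) → Option Bool) (v : ι → PExp) : PExp :=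
  maxL (((Finset.univ : Finset (ι → Option Bool)).filter fun p => f p = some true).toList.map
    (patX v))

/-- readings of the inputs -/
def rds (x : ℕ → ℕ → ℚ) (v : ι → PExp) : ι → Option Bool := fun i => rd ((v i).eval x)

variable {v : ι → PExp}

theorem in01_lits (hv : ∀ i, In01 x (v i)) (p : ι → Option Bool) :
    ∀ a ∈ (Finset.univ : Finset ι).toList.map fun i => lit (p i) (v i), In01 x a := by
  intro a ha
  obtain ⟨i, -, rfl⟩ := List.mem_map.1 ha
  exact (hv i).lit _

theorem In01.patX (hv : ∀ i, In01 x (v i)) (p : ι → Option Bool) : In01 x (patX v p) :=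
  In01.minL (in01_lits hv p)

open Classical in
theorem in01_pats (hv : ∀ i, In01 x (v i)) (f : (ι → Option Bool) → Option Bool) :
    ∀ a ∈ ((Finset.univ : Finset (ι → Option Bool)).filter fun p => f p = some true).toList.map
      (PBool940.patX v), In01 x a := by
  intro a ha
  obtain ⟨p, -, rfl⟩ := List.mem_map.1 ha
  exact In01.patX hv p

theorem In01.kleeneE (hv : ∀ i, In01 x (v i)) (f : (ι → Option Bool) → Option Bool) :
    In01 x (kleeneE f v) :=
  In01.maxL (in01_pats hv f)

/-- value `1` where the Kleene function is true -/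
theorem kleeneE_true (hv : ∀ i, In01 x (v i)) {f : (ι → Option Bool) → Option Bool}
    (h : f (rds x v) = some true) : (kleeneE f v).eval x = 1 := by
  classical
  refine le_antisymm (In01.kleeneE hv f).2 ?_
  have hmem : PBool940.patX v (rds x v) ∈ ((Finset.univ : Finset (ι → Option Bool)).filter
      fun p => f p = some true).toList.map (PBool940.patX v) := by
    refine List.mem_map.2 ⟨rds x v, ?_, rfl⟩
    rw [Finset.mem_toList, Finset.mem_filter]
    exact ⟨Finset.mem_univ _, h⟩
  have h1 : (1 : ℚ) ≤ (PBool940.patX v (rds x v)).eval x := by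
    refine le_minL (in01_lits hv _) le_rfl ?_
    intro a ha
    obtain ⟨i, -, rfl⟩ := List.mem_map.1 ha
    exact (lit_one (hv i) (Or.inr rfl)).ge
  exact h1.trans (le_maxL (in01_pats hv f) hmem)

/-- value `0` where the Kleene function is false -/
theorem kleeneE_false (hv : ∀ i, In01 x (v i)) {f : (ι → Option Bool) → Option Bool}
    (hf : KMono f) (h : f (rds x v) = some false) : (kleeneE f v).eval x = 0 := by
  classical
  refine le_antisymm ?_ (In01.kleeneE hv f).1
  refine maxL_le (in01_pats hv f) le_rfl ?_
  intro a ha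
  obtain ⟨p, hp, rfl⟩ := List.mem_map.1 ha
  rw [Finset.mem_toList, Finset.mem_filter] at hp
  obtain ⟨i, d, hi, hr⟩ := hf.conflict hp.2 h (by simp)
  have h2 : (lit (p i) (v i)).eval x = 0 := by
    rw [hi]
    exact lit_zero (hv i) hr
  rw [← h2]
  exact minL_le (in01_lits hv p) (List.mem_map.2 ⟨i, Finset.mem_toList.2 (Finset.mem_univ _), rfl⟩)

/-- both cases at once -/
theorem kleeneE_some (hv : ∀ i, In01 x (v i)) {f : (ι → Option Bool) → Option Bool}
    (hf : KMono f) {b : Bool} (h : f (rds x v) = some b) :
    (kleeneE f v).eval x = if b then 1 else 0 := by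
  rcases b with _ | _
  · simpa using kleeneE_false hv hf h
  · simpa using kleeneE_true hv h

/-! ### well-formedness -/

variable {K L : ℕ}

theorem WF_notX (ha : a.WF K L) : (notX a).WF K L := ⟨⟨zero_le_one, le_rfl⟩, ha⟩
theorem WF_minX (ha : a.WF K L) (hb : b.WF K L) : (minX a b).WF K L := ⟨ha, ha, hb⟩
theorem WF_maxX (ha : a.WF K L) (hb : b.WF K L) : (maxX a b).WF K L := ⟨hb, ha, hb⟩
theorem WF_rampX (ha : a.WF K L) : (rampX a).WF K L :=
  ⟨⟨ha, by norm_num, by norm_num⟩, ha, by norm_num, by norm_num⟩
theorem WF_lit (c : Option Bool) (ha : a.WF K L) : (lit c a).WF K L := by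
  rcases c with _ | _ | _
  · exact ⟨zero_le_one, le_rfl⟩
  · exact WF_notX (WF_rampX ha)
  · exact WF_rampX ha

theorem WF_minL {l : List PExp} (h : ∀ a ∈ l, a.WF K L) : (minL l).WF K L := by
  induction l with
  | nil => exact ⟨zero_le_one, le_rfl⟩
  | cons a l ih =>
    exact WF_minX (h a List.mem_cons_self) (ih fun b hb => h b (List.mem_cons_of_mem _ hb))

theorem WF_maxL {l : List PExp} (h : ∀ a ∈ l, a.WF K L) : (maxL l).WF K L := by
  induction l with
  | nil => exact ⟨le_rfl, zero_le_one⟩
  | cons a l ih =>
    exact WF_maxX (h a List.mem_cons_self) (ih fun b hb => h b (List.mem_cons_of_mem _ hb))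

theorem WF_patX (hv : ∀ i, (v i).WF K L) (p : ι → Option Bool) : (patX v p).WF K L := by
  refine WF_minL fun a ha => ?_
  obtain ⟨i, -, rfl⟩ := List.mem_map.1 ha
  exact WF_lit _ (hv i)

theorem WF_kleeneE (hv : ∀ i, (v i).WF K L) (f : (ι → Option Bool) → Option Bool) :
    (kleeneE f v).WF K L := by
  classical
  refine WF_maxL fun a ha => ?_
  obtain ⟨p, -, rfl⟩ := List.mem_map.1 ha
  exact WF_patX hv p

end kleene

/-! ### total Boolean functions -/

section bool

variable {ι : Type}

open Classical in
/-- Kleene extension of a total Boolean function: decided iff all completions agree -/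
noncomputable def kext {β : Type} (f : (ι → Bool) → β) (p : ι → Option Bool) : Option β :=
  if h : ∃ b, ∀ c : ι → Bool, Ref p (fun i => some (c i)) → f c = b then some h.choose else none

/-- a completion of a partial assignment -/
def compl0 (p : ι → Option Bool) : ι → Bool := fun i => (p i).getD false

theorem ref_compl0 (p : ι → Option Bool) : Ref p (fun i => some (compl0 p i)) := by
  intro i hi
  obtain ⟨d, hd⟩ := Option.ne_none_iff_exists'.1 hi
  simp [compl0, hd]

theorem kext_eq {β : Type} (f : (ι → Bool) → β) {p : ι → Option Bool} {b : β} :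
    kext f p = some b ↔ ∀ c : ι → Bool, Ref p (fun i => some (c i)) → f c = b := by
  classical
  unfold kext
  constructor
  · intro h
    split_ifs at h with h1
    intro c hc
    rw [h1.choose_spec c hc]
    exact Option.some.inj h
  · intro h
    have h1 : ∃ b, ∀ c : ι → Bool, Ref p (fun i => some (c i)) → f c = b := ⟨b, h⟩
    rw [dif_pos h1]
    congr 1
    rw [← h1.choose_spec _ (ref_compl0 p)]
    exact h _ (ref_compl0 p)

theorem kext_mono {β : Type} (f : (ι → Bool) → β) : KMono (kext f) := by
  intro p q hpq hp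
  obtain ⟨b, hb⟩ := Option.ne_none_iff_exists'.1 hp
  rw [hb, kext_eq]
  intro c hc
  exact (kext_eq f).1 hb c (hpq.trans hc)

theorem kext_total {β : Type} (f : (ι → Bool) → β) (c : ι → Bool) :
    kext f (fun i => some (c i)) = some (f c) := by
  rw [kext_eq]
  intro d hd
  congr 1
  funext i
  have := hd i (by simp)
  simpa using this

variable [Fintype ι]

/-- expression of a Boolean function: exact on inputs `≤ 1/4` or `≥ 3/4` -/
noncomputable def boolE (f : (ι → Bool) → Bool) (v : ι → PExp) : PExp := kleeneE (kext f) v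

variable {v : ι → PExp}

theorem In01.boolE (hv : ∀ i, In01 x (v i)) (f : (ι → Bool) → Bool) : In01 x (boolE f v) :=
  In01.kleeneE hv _

theorem eval_boolE (hv : ∀ i, In01 x (v i)) (f : (ι → Bool) → Bool) (c : ι → Bool)
    (h : ∀ i, rd ((v i).eval x) = some (c i)) :
    (boolE f v).eval x = if f c then 1 else 0 := by
  refine kleeneE_some hv (kext_mono f) ?_
  have : rds x v = fun i => some (c i) := funext h
  rw [this, kext_total]

theorem WF_boolE {K L : ℕ} (hv : ∀ i, (v i).WF K L) (f : (ι → Bool) → Bool) :
    (boolE f v).WF K L := WF_kleeneE hv _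

end bool

/-! ### indefinite inputs, saturated functions -/

/-- `0` for `a ≤ 1/8`, `1` for `1/4 ≤ a` -/
def ramp8 (a : PExp) : PExp := dbl (dbl (dbl (.sub a (.const (1 / 8)))))

theorem In01.ramp8 (ha : In01 x a) : In01 x (ramp8 a) := by
  have h1 : In01 x (.sub a (.const (1 / 8))) := by
    refine In01.sub ha ?_
    simp only [PExp.eval]
    norm_num
  exact (In01.dbl (In01.dbl (In01.dbl h1.1).1).1)

theorem ramp8_zero (h : a.eval x ≤ 1 / 8) : (ramp8 a).eval x = 0 := by
  have h1 : (PExp.sub a (.const (1 / 8))).eval x = 0 := by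
    simp only [PExp.eval]
    exact max_eq_right (by linarith)
  simp only [ramp8, eval_dbl, h1]
  norm_num

theorem ramp8_one (h : 1 / 4 ≤ a.eval x) : (ramp8 a).eval x = 1 := by
  have h1 : 1 / 8 ≤ (PExp.sub a (.const (1 / 8))).eval x := by
    simp only [PExp.eval]
    exact (by linarith : (1 : ℚ) / 8 ≤ a.eval x - 1 / 8).trans (le_max_left _ _)
  simp only [ramp8, eval_dbl]
  have h2 : 1 / 4 ≤ min (2 * (PExp.sub a (.const (1 / 8))).eval x) 1 := le_min (by linarith) (by norm_num)
  have h3 : 1 / 2 ≤ min (2 * min (2 * (PExp.sub a (.const (1 / 8))).eval x) 1) 1 :=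
    le_min (by linarith) (by norm_num)
  exact min_eq_right (by linarith)

/-- `1` on `[1/4, 3/4]`, `0` outside `(1/8, 7/8)` -/
def indef (a : PExp) : PExp := minX (ramp8 a) (ramp8 (notX a))

theorem In01.indef (ha : In01 x a) : In01 x (indef a) := ha.ramp8.minX ha.notX.ramp8

theorem indef_one (ha : In01 x a) (h1 : 1 / 4 ≤ a.eval x) (h2 : a.eval x ≤ 3 / 4) :
    (indef a).eval x = 1 := by
  rw [indef, eval_minX ha.ramp8 ha.notX.ramp8, ramp8_one h1,
    ramp8_one (by rw [eval_notX ha]; linarith), min_self]

theorem indef_zero (ha : In01 x a) (h : a.eval x ≤ 1 / 8 ∨ 7 / 8 ≤ a.eval x) :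
    (indef a).eval x = 0 := by
  rw [indef, eval_minX ha.ramp8 ha.notX.ramp8]
  rcases h with h | h
  · rw [ramp8_zero h]
    exact min_eq_left ha.notX.ramp8.1
  · rw [ramp8_zero (a := notX a) (by rw [eval_notX ha]; linarith)]
    exact min_eq_right ha.ramp8.1

theorem WF_dbl {K L : ℕ} (ha : a.WF K L) : (dbl a).WF K L := ⟨ha, ha⟩

theorem WF_ramp8 {K L : ℕ} (ha : a.WF K L) : (ramp8 a).WF K L :=
  WF_dbl (WF_dbl (WF_dbl ⟨ha, by norm_num, by norm_num⟩))

theorem WF_indef {K L : ℕ} (ha : a.WF K L) : (indef a).WF K L :=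
  ⟨WF_ramp8 ha, WF_ramp8 ha, WF_ramp8 ⟨⟨zero_le_one, le_rfl⟩, ha⟩⟩

section sat

variable {ι : Type} [Fintype ι] {v : ι → PExp}

/-- `1` if some input is in `[1/4,3/4]`; the Kleene value if all inputs are outside `(1/8,7/8)` -/
noncomputable def satK (f : (ι → Option Bool) → Option Bool) (v : ι → PExp) : PExp :=
  maxX (kleeneE f v) (maxL ((Finset.univ : Finset ι).toList.map fun i => indef (v i)))

/-- saturated Boolean function -/
noncomputable def sat (f : (ι → Bool) → Bool) (v : ι → PExp) : PExp := satK (kext f) v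

theorem in01_indefs (hv : ∀ i, In01 x (v i)) :
    ∀ a ∈ (Finset.univ : Finset ι).toList.map fun i => indef (v i), In01 x a := by
  intro a ha
  obtain ⟨i, -, rfl⟩ := List.mem_map.1 ha
  exact (hv i).indef

theorem In01.satK (hv : ∀ i, In01 x (v i)) (f : (ι → Option Bool) → Option Bool) :
    In01 x (satK f v) :=
  (In01.kleeneE hv f).maxX (In01.maxL (in01_indefs hv))

theorem In01.sat (hv : ∀ i, In01 x (v i)) (f : (ι → Bool) → Bool) : In01 x (sat f v) :=
  In01.satK hv _

theorem satK_eq (hv : ∀ i, In01 x (v i)) (f : (ι → Option Bool) → Option Bool) :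
    (satK f v).eval x = max ((kleeneE f v).eval x)
      ((maxL ((Finset.univ : Finset ι).toList.map fun i => indef (v i))).eval x) :=
  eval_maxX (In01.kleeneE hv f) (In01.maxL (in01_indefs hv))

/-- some input unreadable: value `1` -/
theorem satK_indef (hv : ∀ i, In01 x (v i)) (f : (ι → Option Bool) → Option Bool) (i : ι)
    (h1 : 1 / 4 ≤ (v i).eval x) (h2 : (v i).eval x ≤ 3 / 4) : (satK f v).eval x = 1 := by
  refine le_antisymm (In01.satK hv f).2 ?_
  rw [satK_eq hv, ← indef_one (hv i) h1 h2]
  exact (le_maxL (in01_indefs hv)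
    (List.mem_map.2 ⟨i, Finset.mem_toList.2 (Finset.mem_univ _), rfl⟩)).trans (le_max_right _ _)

/-- Kleene value true: value `1` -/
theorem satK_true (hv : ∀ i, In01 x (v i)) {f : (ι → Option Bool) → Option Bool}
    (h : f (rds x v) = some true) : (satK f v).eval x = 1 := by
  refine le_antisymm (In01.satK hv f).2 ?_
  rw [satK_eq hv, ← kleeneE_true hv h]
  exact le_max_left _ _

/-- all inputs outside `(1/8,7/8)` and Kleene value false: value `0` -/
theorem satK_false (hv : ∀ i, In01 x (v i)) {f : (ι → Option Bool) → Option Bool} (hf : KMono f)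
    (hd : ∀ i, (v i).eval x ≤ 1 / 8 ∨ 7 / 8 ≤ (v i).eval x) (h : f (rds x v) = some false) :
    (satK f v).eval x = 0 := by
  refine le_antisymm ?_ (In01.satK hv f).1
  rw [satK_eq hv]
  refine max_le (kleeneE_false hv hf h).le (maxL_le (in01_indefs hv) le_rfl ?_)
  intro a ha
  obtain ⟨i, -, rfl⟩ := List.mem_map.1 ha
  exact (indef_zero (hv i) (hd i)).le

/-- unreadable input (`rd = none`) or Boolean value true: value `1` -/
theorem sat_one (hv : ∀ i, In01 x (v i)) (f : (ι → Bool) → Bool)
    (h : (∃ i, rd ((v i).eval x) = none) ∨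
      ∃ c : ι → Bool, (∀ i, rd ((v i).eval x) = some (c i)) ∧ f c = true) :
    (sat f v).eval x = 1 := by
  rcases h with ⟨i, hi⟩ | ⟨c, hc, hfc⟩
  · obtain ⟨h1, h2⟩ := rd_none hi
    exact satK_indef hv _ i h1.le h2.le
  · refine satK_true hv ?_
    have : rds x v = fun i => some (c i) := funext hc
    rw [this, kext_total, hfc]

/-- all inputs outside `(1/8,7/8)` with readings `c`, `f c = false`: value `0` -/
theorem sat_zero (hv : ∀ i, In01 x (v i)) (f : (ι → Bool) → Bool) (c : ι → Bool)
    (hd : ∀ i, (v i).eval x ≤ 1 / 8 ∨ 7 / 8 ≤ (v i).eval x)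
    (hc : ∀ i, rd ((v i).eval x) = some (c i)) (hfc : f c = false) : (sat f v).eval x = 0 := by
  refine satK_false hv (kext_mono f) hd ?_
  have : rds x v = fun i => some (c i) := funext hc
  rw [this, kext_total, hfc]

theorem WF_satK {K L : ℕ} (hv : ∀ i, (v i).WF K L) (f : (ι → Option Bool) → Option Bool) :
    (satK f v).WF K L := by
  refine WF_maxX (WF_kleeneE hv f) (WF_maxL fun a ha => ?_)
  obtain ⟨i, -, rfl⟩ := List.mem_map.1 ha
  exact WF_indef (hv i)

theorem WF_sat {K L : ℕ} (hv : ∀ i, (v i).WF K L) (f : (ι → Bool) → Bool) :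
    (sat f v).WF K L := WF_satK hv _

end sat

end Crest.Agent.R289.PBool940
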