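import Crest.Agent.R289.Force_180
import Crest.Agent.R289.PExpBool_940

/-!
# Row 289, block D, leaf D2: from `LRules` to an `LSys`, and `Rest → MRest` (helper180, second of D2)

Variables of a unit: `0..l-1` = bits of `A`, `l..2l-1` = bits of `B`,
`2l..2l+6` = flags `vA vB dAB dN dM a0 b0`, `2l+7` = `s`, `2l+8` = `ψ`.
Neighbours: `0` = the unit, `1..k` = neighbours of the local rules, `k+1..k+d` = samples.
Type: bits `0..r-1` public, bits `r..r+l-1` = label of the start word.
-/

set_option autoImplicit false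
set_option linter.unusedSimpArgs false
set_option linter.unusedVariables false

namespace Crest.Agent.R289.D2180

open Crest.Agent.R289 Crest.Agent.R289.DefD Crest.Agent.R289.Soft180 Crest.Agent.R289.PBool940

/-! ### labels -/

/-- sharp value -/
def Sharp (v : ℚ) : Prop := v ≤ 1 / 8 ∨ 7 / 8 ≤ v

theorem rd_decide {v : ℚ} {b : Bool} (h : rd v = some b) : b = decide (1 / 2 ≤ v) := by
  rcases b with _ | _
  · have := rd_false h
    symm
    rw [decide_eq_false_iff_not]
    linarith
  · have := rd_true h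
    symm
    rw [decide_eq_true_eq]
    linarith

theorem rd_unique {v : ℚ} {b c : Bool} (h : rd v = some b) (h' : rd v = some c) : b = c := by
  rw [h] at h'
  exact Option.some.inj h'

theorem Sharp.rd {v : ℚ} (h : Sharp v) : ∃ b, PBool940.rd v = some b := by
  rcases h with h | h
  · exact ⟨false, rd_of_le (by linarith)⟩
  · exact ⟨true, rd_of_ge (by linarith)⟩

/-- a value near a Boolean value is sharp -/
theorem near_sharp {v : ℚ} {b : Bool} (h : |v - (if b then 1 else 0)| ≤ 1 / 64) :
    Sharp v ∧ rd v = some b := by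
  rw [abs_le] at h
  rcases b with _ | _
  · simp only [Bool.false_eq_true, if_false] at h
    exact ⟨Or.inl (by linarith [h.2]), rd_of_le (by linarith [h.2])⟩
  · simp only [if_true] at h
    exact ⟨Or.inr (by linarith [h.1]), rd_of_ge (by linarith [h.1])⟩

section labels
variable {l n : ℕ} (x : ℕ → ℕ → ℚ) (off : ℕ)

open Classical in
/-- readable label -/
noncomputable def rdL (u : Fin n) : Option (Fin l → Bool) :=
  if ∃ g : Fin l → Bool, ∀ j : Fin l, rd (x u (off + j)) = some (g j) then
    some (fun j => decide (1 / 2 ≤ x u (off + j))) else none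

open Classical in
/-- sharp label -/
noncomputable def shL (u : Fin n) : Option (Fin l → Bool) :=
  if ∀ j : Fin l, Sharp (x u (off + j)) then
    some (fun j => decide (1 / 2 ≤ x u (off + j))) else none

theorem rdL_eq {u : Fin n} {g : Fin l → Bool} :
    rdL x off u = some g ↔ ∀ j : Fin l, rd (x u (off + j)) = some (g j) := by
  classical
  unfold rdL
  constructor
  · intro h
    split_ifs at h with h1
    obtain ⟨g', hg'⟩ := h1
    intro j
    have h2 := congrFun (Option.some.inj h) j
    rw [hg' j, ← h2, rd_decide (hg' j)]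
  · intro h
    rw [if_pos ⟨g, h⟩]
    congr 1
    funext j
    rw [rd_decide (h j)]

theorem shL_eq {u : Fin n} {g : Fin l → Bool} :
    shL x off u = some g ↔ ∀ j : Fin l, Sharp (x u (off + j)) ∧ rd (x u (off + j)) = some (g j) := by
  classical
  unfold shL
  constructor
  · intro h
    split_ifs at h with h1
    intro j
    have h2 := congrFun (Option.some.inj h) j
    obtain ⟨b, hb⟩ := (h1 j).rd
    refine ⟨h1 j, ?_⟩
    rw [hb, ← h2, rd_decide hb]
  · intro h
    rw [if_pos fun j => (h j).1]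
    congr 1
    funext j
    rw [rd_decide (h j).2]

theorem rdL_of_shL {u : Fin n} {g : Fin l → Bool} (h : shL x off u = some g) :
    rdL x off u = some g := by
  rw [rdL_eq]
  rw [shL_eq] at h
  exact fun j => (h j).2

end labels

/-! ### unit functions -/

section lift
variable {U : Type} {k l r : ℕ} {β : Type} {nb : Fin k → U → U} {pub : U → Fin r → Bool}
  {X : U → Option (Fin l → Bool)} {u : U}

theorem klift_spec {f : (Fin k → Fin l → Bool) → (Fin r → Bool) → β} {g : β}
    (h : klift f nb pub X u = some g) (y : Fin k → Fin l → Bool)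
    (hy : ∀ i g', X (nb i u) = some g' → y i = g') : f y (pub u) = g := by
  classical
  unfold klift at h
  split_ifs at h with h1
  rw [← Option.some.inj h]
  exact h1.choose_spec y hy

theorem viol_false_iff {f : (Fin k → Fin l → Bool) → (Fin r → Bool) → Bool} :
    (lift f nb pub X u).getD true = false ↔
      ∃ y : Fin k → Fin l → Bool, (∀ i, X (nb i u) = some (y i)) ∧ f y (pub u) = false := by
  classical
  unfold lift
  constructor
  · intro h
    split_ifs at h with h1
    · exact ⟨h1.choose, h1.choose_spec, by simpa using h⟩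
    · simp at h
  · rintro ⟨y, hy, hf⟩
    have h1 : ∃ x : Fin k → Fin l → Bool, ∀ i, X (nb i u) = some (x i) := ⟨y, hy⟩
    rw [dif_pos h1]
    have : h1.choose = y := by
      funext i
      have := h1.choose_spec i
      rw [hy i] at this
      exact (Option.some.inj this).symm
    rw [this]
    simpa using hf

end lift

/-! ### expressions -/

/-- label of a pair index -/
def cur {k l : ℕ} (c : Fin k × Fin l → Bool) : Fin k → Fin l → Bool := fun i j => c (i, j)

/-- label variables of the neighbours (`off = 0`: `A`, `off = l`: `B`) -/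
def nV (k l off : ℕ) (p : Fin k × Fin l) : PExp := .var (p.1 + 1) (off + p.2)

/-- bit `j` of a unit function -/
noncomputable def fE {k l r : ℕ} (f : (Fin k → Fin l → Bool) → (Fin r → Bool) → Fin l → Bool)
    (pub : Fin r → Bool) (off : ℕ) (j : Fin l) : PExp :=
  boolE (fun c => f (cur c) pub j) (nV k l off)

/-- the test of the local rules -/
noncomputable def vE {k l r : ℕ} (f : (Fin k → Fin l → Bool) → (Fin r → Bool) → Bool)
    (pub : Fin r → Bool) (off : ℕ) : PExp :=
  sat (fun c => f (cur c) pub) (nV k l off)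

/-- own label bit -/
def own (off j : ℕ) : PExp := .var 0 (off + j)

/-- absolute difference -/
def neqX (a b : PExp) : PExp := .add (.sub a b) (.sub b a)

/-- mismatch of candidate bits and a label -/
def mism {l : ℕ} (a b : Fin l → PExp) : PExp :=
  maxL (List.ofFn fun j => maxX (indef (b j)) (neqX (a j) (rampX (b j))))

/-- mismatch of two labels of the unit -/
noncomputable def dE (l : ℕ) : PExp :=
  sat (fun c : Fin l ⊕ Fin l → Bool => !decide (∀ j, c (Sum.inl j) = c (Sum.inr j)))
    (Sum.elim (fun j => own 0 j) (fun j => own l j))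

/-- constant bit -/
def cst (b : Bool) : PExp := .const (if b then 1 else 0)

section evals
variable {x : ℕ → ℕ → ℚ}

theorem in01_var (hx : ∀ k l, 0 ≤ x k l ∧ x k l ≤ 1) (k l : ℕ) : In01 x (.var k l) := hx k l

theorem in01_cst (b : Bool) : In01 x (cst b) := by
  unfold cst In01
  rcases b with _ | _ <;> simp [PExp.eval]

theorem eval_cst (b : Bool) : (cst b).eval x = if b then 1 else 0 := rfl

theorem eval_neqX {a b : PExp} (ha : In01 x a) (hb : In01 x b) :
    (neqX a b).eval x = |a.eval x - b.eval x| := by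
  obtain ⟨h1, h2⟩ := ha
  obtain ⟨h3, h4⟩ := hb
  simp only [neqX, PExp.eval]
  rcases le_total (a.eval x) (b.eval x) with h | h
  · rw [max_eq_right (by linarith), max_eq_left (by linarith), abs_of_nonpos (by linarith),
      min_eq_left (by linarith)]
    ring
  · rw [max_eq_left (by linarith), max_eq_right (by linarith), abs_of_nonneg (by linarith),
      min_eq_left (by linarith)]
    ring

theorem in01_neqX {a b : PExp} (ha : In01 x a) (hb : In01 x b) : In01 x (neqX a b) := by
  unfold In01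
  rw [eval_neqX ha hb]
  refine ⟨abs_nonneg _, abs_le.2 ⟨?_, ?_⟩⟩
  · linarith [ha.1, hb.2]
  · linarith [ha.2, hb.1]

theorem rampX_bit {a : PExp} {b : Bool} (h : rd (a.eval x) = some b) :
    (rampX a).eval x = if b then 1 else 0 := by
  rcases b with _ | _
  · simpa using ramp_zero h
  · simpa using ramp_one h

variable {l : ℕ} {a b : Fin l → PExp} {g : Fin l → Bool}

theorem in01_mism_terms (ha : ∀ j, In01 x (a j)) (hb : ∀ j, In01 x (b j)) :
    ∀ c ∈ List.ofFn fun j => maxX (indef (b j)) (neqX (a j) (rampX (b j))), In01 x c := by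
  intro c hc
  rw [List.mem_ofFn] at hc
  obtain ⟨j, rfl⟩ := hc
  exact (hb j).indef.maxX (in01_neqX (ha j) (hb j).rampX)

theorem in01_mism (ha : ∀ j, In01 x (a j)) (hb : ∀ j, In01 x (b j)) : In01 x (mism a b) :=
  In01.maxL (in01_mism_terms ha hb)

theorem mism_one (ha : ∀ j, In01 x (a j)) (hb : ∀ j, In01 x (b j))
    (hg : ∀ j, (a j).eval x = if g j then 1 else 0) (h : ∃ j, rd ((b j).eval x) ≠ some (g j)) :
    (mism a b).eval x = 1 := by
  obtain ⟨j, hj⟩ := h
  refine le_antisymm (in01_mism ha hb).2 ?_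
  refine le_trans ?_ (le_maxL (in01_mism_terms ha hb) (List.mem_ofFn.2 ⟨j, rfl⟩))
  rw [eval_maxX (hb j).indef (in01_neqX (ha j) (hb j).rampX)]
  rcases hr : rd ((b j).eval x) with _ | c
  · obtain ⟨h1, h2⟩ := rd_none hr
    rw [indef_one (hb j) h1.le h2.le]
    exact le_max_left _ _
  · refine le_trans ?_ (le_max_right _ _)
    rw [eval_neqX (ha j) (hb j).rampX, hg j, rampX_bit hr]
    have hne : c ≠ g j := fun h => hj (by rw [hr, h])
    revert hne
    rcases c with _ | _ <;> rcases g j with _ | _ <;> simp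

theorem mism_zero (ha : ∀ j, In01 x (a j)) (hb : ∀ j, In01 x (b j))
    (hg : ∀ j, (a j).eval x = if g j then 1 else 0)
    (h : ∀ j, Sharp ((b j).eval x) ∧ rd ((b j).eval x) = some (g j)) :
    (mism a b).eval x = 0 := by
  refine le_antisymm ?_ (in01_mism ha hb).1
  refine maxL_le (in01_mism_terms ha hb) le_rfl ?_
  intro c hc
  rw [List.mem_ofFn] at hc
  obtain ⟨j, rfl⟩ := hc
  rw [eval_maxX (hb j).indef (in01_neqX (ha j) (hb j).rampX), eval_neqX (ha j) (hb j).rampX, hg j,
    rampX_bit (h j).2, indef_zero (hb j) (h j).1]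
  simp

end evals

section wf
variable {K L : ℕ}

theorem WF_cst (b : Bool) : (cst b).WF K L := by
  rcases b with _ | _ <;> simp [cst, PExp.WF]

theorem WF_neqX {a b : PExp} (ha : a.WF K L) (hb : b.WF K L) : (neqX a b).WF K L :=
  ⟨⟨ha, hb⟩, ⟨hb, ha⟩⟩

theorem WF_mism {l : ℕ} {a b : Fin l → PExp} (ha : ∀ j, (a j).WF K L) (hb : ∀ j, (b j).WF K L) :
    (mism a b).WF K L := by
  refine WF_maxL fun c hc => ?_
  rw [List.mem_ofFn] at hc
  obtain ⟨j, rfl⟩ := hc
  exact WF_maxX (WF_indef (hb j)) (WF_neqX (ha j) (WF_rampX (hb j)))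

end wf

/-! ### the system -/

section sys
variable {k l r : ℕ} (R : LRules k l r) (d nG : ℕ) (t z : ℚ)

/-- sampled mean of variable `i` -/
def av (k d i : ℕ) : PExp := avgP (1 / (d : ℚ)) (List.ofFn fun j : Fin d => strP (.var (k + 1 + j) i))

/-- the nine estimates -/
def est (k l d : ℕ) : Est where
  S := av k d (2 * l + 7)
  Ψ := av k d (2 * l + 8)
  vA := av k d (2 * l)
  vB := av k d (2 * l + 1)
  dAB := av k d (2 * l + 2)
  dN := av k d (2 * l + 3)
  dM := av k d (2 * l + 4)
  a0 := av k d (2 * l + 5)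
  b0 := av k d (2 * l + 6)

/-- public bits of a type -/
def pubT (r : ℕ) (ty : ℕ) : Fin r → Bool := fun i => ty.testBit i
/-- start label of a type -/
def w0T (r l : ℕ) (ty : ℕ) : Fin l → Bool := fun j => ty.testBit (r + j)

/-- rule of bit `j` of `A` -/
noncomputable def rA (ty : ℕ) (j : Fin l) : PExp :=
  muxP (ltP (3 / 4) nG (est k l d).Ψ)
    (muxP (ltP (3 / 20) nG (est k l d).S)
      (muxP (ltP (1 / 4) nG (est k l d).Ψ) (rampX (own l j)) (fE R.Mu (pubT r ty) l j))
      (fE R.corr (pubT r ty) 0 j))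
    (cst (w0T r l ty j))

/-- rule of bit `j` of `B` -/
noncomputable def rB (ty : ℕ) (j : Fin l) : PExp :=
  muxP (ltP (3 / 4) nG (est k l d).Ψ)
    (muxP (ltP (17 / 20) nG (est k l d).S)
      (fE R.corr (pubT r ty) l j)
      (muxP (ltP (1 / 4) nG (est k l d).Ψ) (fE R.Nu (pubT r ty) 0 j) (rampX (own 0 j))))
    (cst (w0T r l ty j))

/-- rule of the flags and scalars -/
noncomputable def rF (ty : ℕ) : ℕ → PExp
  | 0 => vE R.viol (pubT r ty) 0
  | 1 => vE R.viol (pubT r ty) l
  | 2 => dE l
  | 3 => mism (fun j => fE R.Nu (pubT r ty) 0 j) (fun j : Fin l => own l j)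
  | 4 => mism (fun j => fE R.Mu (pubT r ty) l j) (fun j : Fin l => own 0 j)
  | 5 => mism (fun j => cst (w0T r l ty j)) (fun j : Fin l => own 0 j)
  | 6 => mism (fun j => cst (w0T r l ty j)) (fun j : Fin l => own l j)
  | 7 => scalP (est k l d).S (forceS nG t (est k l d))
  | _ => scalP (est k l d).Ψ (forceΨ nG t z (est k l d))

/-- the table of unit types -/
noncomputable def sys : LSys where
  T := 2 ^ (r + l)
  K := k + d + 1
  L := 2 * l + 9
  rule := fun ty i =>
    if h : i < l then rA R d nG ty ⟨i, h⟩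
    else if h : i - l < l then rB R d nG ty ⟨i - l, h⟩
    else rF R d nG t z ty (i - 2 * l)

theorem rule_A (ty : ℕ) (j : Fin l) : (sys R d nG t z).rule ty j = rA R d nG ty j := by
  simp [sys]

theorem rule_B (ty : ℕ) (j : Fin l) : (sys R d nG t z).rule ty (l + j) = rB R d nG ty j := by
  have h1 : ¬ l + (j : ℕ) < l := by omega
  have h2 : l + (j : ℕ) - l < l := by omega
  simp only [sys]
  rw [dif_neg h1, dif_pos h2]
  congr 1
  apply Fin.ext
  simp

theorem rule_F (ty i : ℕ) : (sys R d nG t z).rule ty (2 * l + i) = rF R d nG t z ty i := by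
  have h1 : ¬ 2 * l + i < l := by omega
  have h2 : ¬ 2 * l + i - l < l := by omega
  simp only [sys]
  rw [dif_neg h1, dif_neg h2]
  congr 1
  omega

/-! #### well-formedness -/

theorem WF_own {K L off j : ℕ} (hK : 0 < K) (hj : off + j < L) : (own off j).WF K L := ⟨hK, hj⟩

theorem WF_av {K L i : ℕ} (hK : k + d < K) (hi : i < L) : (av k d i).WF K L := by
  refine WF_avg_ofFn fun j => WF_strP ⟨?_, hi⟩
  have := j.2
  omega

theorem WF_est : (est k l d).WF (k + d + 1) (2 * l + 9) := by
  constructor <;> exact WF_av d (by omega) (by omega)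

theorem WF_nV {off : ℕ} (hoff : off + l ≤ 2 * l + 9) (p : Fin k × Fin l) :
    (nV k l off p).WF (k + d + 1) (2 * l + 9) := by
  have h1 := p.1.2
  have h2 := p.2.2
  exact ⟨by omega, by omega⟩

theorem WF_fE {off : ℕ} (hoff : off + l ≤ 2 * l + 9)
    (f : (Fin k → Fin l → Bool) → (Fin r → Bool) → Fin l → Bool) (pub : Fin r → Bool) (j : Fin l) :
    (fE f pub off j).WF (k + d + 1) (2 * l + 9) := WF_boolE (WF_nV d hoff) _

theorem WF_sys (ht : 0 ≤ t ∧ t ≤ 1) (hz : 0 ≤ z ∧ z ≤ 1) : (sys R d nG t z).WF := by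
  refine ⟨Nat.succ_pos _, fun ty _ i hi => ?_⟩
  change i < 2 * l + 9 at hi
  change ((sys R d nG t z).rule ty i).WF (k + d + 1) (2 * l + 9)
  by_cases h : i < l
  · have := rule_A R d nG t z ty ⟨i, h⟩
    simp only at this
    rw [this]
    exact WF_muxP (WF_ltP (by norm_num) nG (WF_est d).Ψ)
      (WF_muxP (WF_ltP (by norm_num) nG (WF_est d).S)
        (WF_muxP (WF_ltP (by norm_num) nG (WF_est d).Ψ)
          (WF_rampX (WF_own (by omega) (by simp only; omega))) (WF_fE d (by omega) _ _ _))
        (WF_fE d (by omega) _ _ _))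
      (WF_cst _)
  · by_cases h' : i < 2 * l
    · obtain ⟨j, rfl⟩ : ∃ j, i = l + j := ⟨i - l, by omega⟩
      have := rule_B R d nG t z ty ⟨j, by omega⟩
      simp only at this
      rw [this]
      exact WF_muxP (WF_ltP (by norm_num) nG (WF_est d).Ψ)
        (WF_muxP (WF_ltP (by norm_num) nG (WF_est d).S)
          (WF_fE d (by omega) _ _ _)
          (WF_muxP (WF_ltP (by norm_num) nG (WF_est d).Ψ)
            (WF_fE d (by omega) _ _ _) (WF_rampX (WF_own (by omega) (by simp only; omega)))))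
        (WF_cst _)
    · obtain ⟨j, rfl⟩ : ∃ j, i = 2 * l + j := ⟨i - 2 * l, by omega⟩
      rw [rule_F]
      have hown : ∀ (off : ℕ) (hoff : off + l ≤ 2 * l + 9) (j : Fin l),
          (own off j).WF (k + d + 1) (2 * l + 9) := fun off hoff j =>
        WF_own (by omega) (by have := j.2; omega)
      match j, hi with
      | 0, _ => exact WF_sat (WF_nV d (by omega)) _
      | 1, _ => exact WF_sat (WF_nV d (by omega)) _
      | 2, _ =>
        refine WF_sat (fun c => ?_) _
        rcases c with c | c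
        · exact hown 0 (by omega) c
        · exact hown l (by omega) c
      | 3, _ => exact WF_mism (fun j => WF_fE d (by omega) _ _ _) (hown l (by omega))
      | 4, _ => exact WF_mism (fun j => WF_fE d (by omega) _ _ _) (hown 0 (by omega))
      | 5, _ => exact WF_mism (fun j => WF_cst _) (hown 0 (by omega))
      | 6, _ => exact WF_mism (fun j => WF_cst _) (hown l (by omega))
      | 7, _ => exact WF_scalP (WF_est d).S (WF_forceS (WF_est d) nG ht)
      | (j + 8), _ => exact WF_scalP (WF_est d).Ψ (WF_forceΨ (WF_est d) nG ht hz)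

end sys

/-! ### semantics -/

/-- a numeric neighbour table as a map of `Fin n` -/
def toF (n : ℕ) (g : ℕ → ℕ) (u : Fin n) : Fin n := if h : g u < n then ⟨g u, h⟩ else u

theorem toF_val {n : ℕ} {g : ℕ → ℕ} {u : Fin n} (h : g u < n) : ((toF n g u : Fin n) : ℕ) = g u := by
  unfold toF
  rw [dif_pos h]

theorem nbr_lt {S : LSys} {V : Units} (hV : V.WF S) {u i : ℕ} (hu : u < V.length) (hi : i < S.K) :
    V.nbr u i < V.length := by
  obtain ⟨h1, h2, h3⟩ := hV.2 _ (List.getElem_mem hu)
  unfold Units.nbr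
  rw [List.getD_eq_getElem _ _ hu]
  rw [List.getD_eq_getElem _ _ (by omega)]
  exact h3 _ (List.getElem_mem _)

section sem
variable {k l r : ℕ} {R : LRules k l r} {d nG : ℕ} {t z : ℚ}
variable {n : ℕ} {V : Units} {x : ℕ → ℕ → ℚ}

/-- the values seen by a unit -/
def see (V : Units) (x : ℕ → ℕ → ℚ) (u : ℕ) : ℕ → ℕ → ℚ := fun k' l' => x (V.nbr u k') l'

/-- field of variable `i` -/
noncomputable def fld (x : ℕ → ℕ → ℚ) (i : ℕ) (u : Fin n) : ℝ := ((stretch (x u i) : ℚ) : ℝ)

/-- mean of variable `i` -/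
noncomputable def mn (n : ℕ) (x : ℕ → ℕ → ℚ) (i : ℕ) : ℝ := (∑ u : Fin n, fld x i u) / (n : ℝ)

/-- the nine means -/
noncomputable def mns (n l : ℕ) (x : ℕ → ℕ → ℚ) : Means where
  S := mn n x (2 * l + 7)
  Ψ := mn n x (2 * l + 8)
  vA := mn n x (2 * l)
  vB := mn n x (2 * l + 1)
  dAB := mn n x (2 * l + 2)
  dN := mn n x (2 * l + 3)
  dM := mn n x (2 * l + 4)
  a0 := mn n x (2 * l + 5)
  b0 := mn n x (2 * l + 6)

/-- neighbours of the local rules -/
def nbF (k n : ℕ) (V : Units) (i : Fin k) : Fin n → Fin n := toF n fun u => V.nbr u (i + 1)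

/-- sample maps -/
def smF (k d n : ℕ) (V : Units) (j : Fin d) : Fin n → Fin n := toF n fun u => V.nbr u (k + 1 + j)

/-- public bits -/
def pubF (r n : ℕ) (V : Units) (u : Fin n) : Fin r → Bool := fun i => (V.ty u).testBit i

/-- start word -/
def w0F (r l n : ℕ) (V : Units) (u : Fin n) : Fin l → Bool := fun j => (V.ty u).testBit (r + j)

/-- hypotheses on the instance -/
structure Inst (R : LRules k l r) (d nG : ℕ) (t z : ℚ) (n : ℕ) (V : Units) (x : ℕ → ℕ → ℚ) :
    Prop where
  wf : V.WF (sys R d nG t z)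
  len : V.length = n
  self : ∀ u < n, V.nbr u 0 = u
  mem : ∀ u i, 0 ≤ x u i ∧ x u i ≤ 1

theorem fld_mem (i : ℕ) (u : Fin n) : 0 ≤ fld x i u ∧ fld x i u ≤ 1 := by
  obtain ⟨h1, h2⟩ := stretch_mem (x u i)
  unfold fld
  exact ⟨by exact_mod_cast h1, by exact_mod_cast h2⟩

variable (hI : Inst R d nG t z n V x)
include hI

theorem nbF_val (i : Fin k) (u : Fin n) : ((nbF k n V i u : Fin n) : ℕ) = V.nbr u (i + 1) := by
  refine toF_val ?_
  have h1 := nbr_lt hI.wf (u := u) (i := i + 1) (by rw [hI.len]; exact u.2)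
    (by change (i : ℕ) + 1 < k + d + 1; have := i.2; omega)
  rwa [hI.len] at h1

theorem smF_val (j : Fin d) (u : Fin n) : ((smF k d n V j u : Fin n) : ℕ) = V.nbr u (k + 1 + j) := by
  refine toF_val ?_
  have h1 := nbr_lt hI.wf (u := u) (i := k + 1 + j) (by rw [hI.len]; exact u.2)
    (by change k + 1 + (j : ℕ) < k + d + 1; have := j.2; omega)
  rwa [hI.len] at h1

omit hI in
theorem see_in01 (hx : ∀ u i, 0 ≤ x u i ∧ x u i ≤ 1) (u k' l' : ℕ) :
    In01 (see V x u) (.var k' l') := hx _ _

theorem own_eval (off j : ℕ) (u : Fin n) : (own off j).eval (see V x u) = x u (off + j) := by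
  simp only [own, PExp.eval, see]
  rw [hI.self u u.2]

theorem nV_eval (off : ℕ) (p : Fin k × Fin l) (u : Fin n) :
    (nV k l off p).eval (see V x u) = x (nbF k n V p.1 u) (off + p.2) := by
  simp only [nV, PExp.eval, see]
  rw [nbF_val hI]

theorem nV_in (off : ℕ) (u : Fin n) (p : Fin k × Fin l) : In01 (see V x u) (nV k l off p) :=
  see_in01 hI.mem _ _ _

theorem own_in (off j : ℕ) (u : Fin n) : In01 (see V x u) (own off j) := see_in01 hI.mem _ _ _

theorem fE_in (off : ℕ) (u : Fin n) (f : (Fin k → Fin l → Bool) → (Fin r → Bool) → Fin l → Bool)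
    (pub : Fin r → Bool) (j : Fin l) : In01 (see V x u) (fE f pub off j) :=
  In01.boolE (nV_in hI off u) _

/-- exact value of a unit function where it is forced -/
theorem fE_eval (off : ℕ) (u : Fin n)
    (f : (Fin k → Fin l → Bool) → (Fin r → Bool) → Fin l → Bool) {g : Fin l → Bool}
    (h : klift f (nbF k n V) (pubF r n V) (rdL x off) u = some g) (j : Fin l) :
    (fE f (pubT r (V.ty u)) off j).eval (see V x u) = if g j then 1 else 0 := by
  refine kleeneE_some (nV_in hI off u) (kext_mono _) ?_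
  rw [kext_eq]
  intro c hc
  have := klift_spec h (cur c) ?_
  · exact congrFun this j
  · intro i g' hg'
    rw [rdL_eq] at hg'
    funext j'
    have h1 := hc (i, j')
    have h2 : rds (see V x u) (nV k l off) (i, j') = some (g' j') := by
      unfold rds
      rw [nV_eval hI]
      exact hg' j'
    rw [h2] at h1
    have h3 := h1 (by simp)
    exact Option.some.inj h3

/-- the test fires if some label is unreadable or the test is violated -/
theorem vE_one (off : ℕ) (u : Fin n)
    (h : (lift R.viol (nbF k n V) (pubF r n V) (rdL x off) u).getD true = true) :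
    (vE R.viol (pubT r (V.ty u)) off).eval (see V x u) = 1 := by
  refine sat_one (nV_in hI off u) _ ?_
  by_cases h1 : ∃ i, rd ((nV k l off i).eval (see V x u)) = none
  · exact Or.inl h1
  · right
    push Not at h1
    choose c hc using fun i => Option.ne_none_iff_exists'.1 (h1 i)
    refine ⟨c, hc, ?_⟩
    by_contra hf
    rw [Bool.not_eq_true] at hf
    have : (lift R.viol (nbF k n V) (pubF r n V) (rdL x off) u).getD true = false := by
      rw [viol_false_iff]
      refine ⟨cur c, fun i => ?_, hf⟩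
      rw [rdL_eq]
      intro j
      rw [← nV_eval hI off (i, j) u]
      exact hc (i, j)
    rw [this] at h
    exact absurd h (by simp)

/-- the test is silent if all labels are sharp and it is not violated -/
theorem vE_zero (off : ℕ) (u : Fin n)
    (h : ¬ (lift R.viol (nbF k n V) (pubF r n V) (shL x off) u).getD true = true) :
    (vE R.viol (pubT r (V.ty u)) off).eval (see V x u) = 0 := by
  rw [Bool.not_eq_true, viol_false_iff] at h
  obtain ⟨y, hy, hf⟩ := h
  refine sat_zero (nV_in hI off u) _ (fun p => y p.1 p.2) (fun p => ?_) (fun p => ?_) hf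
  · have := hy p.1
    rw [shL_eq] at this
    rw [nV_eval hI]
    exact (this p.2).1
  · have := hy p.1
    rw [shL_eq] at this
    rw [nV_eval hI]
    exact (this p.2).2

omit hI in
theorem elim_own (hx : ∀ u i, 0 ≤ x u i ∧ x u i ≤ 1) (u : ℕ) (c : Fin l ⊕ Fin l) :
    In01 (see V x u) (Sum.elim (fun j : Fin l => own 0 j) (fun j : Fin l => own l j) c) := by
  rcases c with c | c <;> exact see_in01 hx _ _ _

theorem dE_one (u : Fin n) (h : ¬ ∃ g : Fin l → Bool, rdL x 0 u = some g ∧ rdL x l u = some g) :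
    (dE l).eval (see V x u) = 1 := by
  refine sat_one (elim_own hI.mem u) _ ?_
  by_cases h1 : ∃ i, rd ((Sum.elim (fun j : Fin l => own 0 j) (fun j : Fin l => own l j) i).eval
      (see V x u)) = none
  · exact Or.inl h1
  · right
    push Not at h1
    choose c hc using fun i => Option.ne_none_iff_exists'.1 (h1 i)
    refine ⟨c, hc, ?_⟩
    simp only [Bool.not_eq_true', decide_eq_false_iff_not]
    intro hall
    refine h ⟨fun j => c (Sum.inl j), ?_, ?_⟩
    · rw [rdL_eq]
      intro j
      rw [← own_eval hI 0 j u]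
      exact hc (Sum.inl j)
    · rw [rdL_eq]
      intro j
      rw [← own_eval hI l j u, hall j]
      exact hc (Sum.inr j)

theorem dE_zero (u : Fin n) (h : ∃ g : Fin l → Bool, shL x 0 u = some g ∧ shL x l u = some g) :
    (dE l).eval (see V x u) = 0 := by
  obtain ⟨g, h1, h2⟩ := h
  rw [shL_eq] at h1 h2
  refine sat_zero (elim_own hI.mem u) _ (Sum.elim g g) (fun c => ?_) (fun c => ?_) (by simp)
  · rcases c with c | c
    · simp only [Sum.elim_inl]
      rw [own_eval hI]
      exact (h1 c).1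
    · simp only [Sum.elim_inr]
      rw [own_eval hI]
      exact (h2 c).1
  · rcases c with c | c
    · simp only [Sum.elim_inl]
      rw [own_eval hI]
      exact (h1 c).2
    · simp only [Sum.elim_inr]
      rw [own_eval hI]
      exact (h2 c).2

/-- mismatch flag -/
theorem mism_own_one (off : ℕ) (u : Fin n) {a : Fin l → PExp} {g : Fin l → Bool}
    (ha : ∀ j, In01 (see V x u) (a j)) (hg : ∀ j, (a j).eval (see V x u) = if g j then 1 else 0)
    (h : rdL x off u ≠ some g) : (mism a fun j : Fin l => own off j).eval (see V x u) = 1 := by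
  refine mism_one ha (fun j => own_in hI _ _ _) hg ?_
  by_contra hc
  push Not at hc
  refine h ?_
  rw [rdL_eq]
  intro j
  rw [← own_eval hI off j u]
  exact hc j

theorem mism_own_zero (off : ℕ) (u : Fin n) {a : Fin l → PExp} {g : Fin l → Bool}
    (ha : ∀ j, In01 (see V x u) (a j)) (hg : ∀ j, (a j).eval (see V x u) = if g j then 1 else 0)
    (h : shL x off u = some g) : (mism a fun j : Fin l => own off j).eval (see V x u) = 0 := by
  refine mism_zero ha (fun j => own_in hI _ _ _) hg fun j => ?_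
  rw [shL_eq] at h
  rw [own_eval hI off j u]
  exact h j

theorem av_eval (hd : 0 < d) (i : ℕ) (u : Fin n) :
    (((av k d i).eval (see V x u) : ℚ) : ℝ) = (∑ j, fld x i (smF k d n V j u)) / (d : ℝ) := by
  refine avg_samples (y := fld x i) (nb := smF k d n V) hd (fun j => ?_) fun j => ?_
  · unfold In
    rw [eval_strP]
    exact stretch_mem _
  · rw [eval_strP]
    unfold fld
    rw [smF_val hI]
    rfl

omit hI in
theorem strP_In (y : ℕ → ℕ → ℚ) (a : PExp) : In y (strP a) := by
  unfold In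
  rw [eval_strP]
  exact stretch_mem _

omit hI in
theorem sumP_In {y : ℕ → ℕ → ℚ} {l : List PExp} (hl : ∀ a ∈ l, 0 ≤ a.eval y) : In y (sumP l) := by
  unfold In
  rw [eval_sumP l hl]
  refine ⟨le_min (List.sum_nonneg ?_) zero_le_one, min_le_right _ _⟩
  intro q hq
  rw [List.mem_map] at hq
  obtain ⟨a, ha, rfl⟩ := hq
  exact hl a ha

omit hI in
theorem av_In (y : ℕ → ℕ → ℚ) (i : ℕ) : In y (av k d i) := by
  refine sumP_In fun a ha => ?_
  rw [List.mem_map] at ha
  obtain ⟨b, hb, rfl⟩ := ha
  rw [List.mem_ofFn] at hb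
  obtain ⟨j, rfl⟩ := hb
  have := (strP_In y (.var (k + 1 + j) i)).1
  simp only [PExp.eval] at this ⊢
  positivity

omit hI in
theorem stretch_near {q : ℚ} {b : Bool} (h : |q - (if b then 1 else 0)| ≤ 1 / 64) :
    stretch q = if b then 1 else 0 := by
  rw [abs_le] at h
  unfold stretch
  rcases b with _ | _
  · simp only [Bool.false_eq_true, if_false] at h ⊢
    rw [max_eq_right (by linarith [h.2])]
    norm_num
  · simp only [if_true] at h ⊢
    apply min_eq_right
    have := le_max_left (q - 1 / 16) 0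
    linarith [h.1]

/-- the unit obeys its rules -/
def OK (R : LRules k l r) (d nG : ℕ) (t z : ℚ) (V : Units) (x : ℕ → ℕ → ℚ) (u : ℕ) : Prop :=
  UnitOK (sys R d nG t z) V (1 / 64) x u

/-- the unit obeys its rules and all its samples are accurate -/
def Good (R : LRules k l r) (d nG : ℕ) (t z : ℚ) (V : Units) (x : ℕ → ℕ → ℚ) (e1 : ℝ)
    (u : Fin n) : Prop :=
  OK R d nG t z V x u ∧ ∀ i : Fin 9,
    |(∑ j, fld x (2 * l + i) (smF k d n V j u)) / (d : ℝ) - mn n x (2 * l + i)| ≤ e1

omit hI in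
theorem OK.A {u : ℕ} (h : OK R d nG t z V x u) (j : Fin l) :
    |x u j - (rA R d nG (V.ty u) j).eval (see V x u)| ≤ 1 / 64 := by
  have h1 := h j (by change (j : ℕ) < 2 * l + 9; have := j.2; omega)
  rwa [rule_A] at h1

omit hI in
theorem OK.B {u : ℕ} (h : OK R d nG t z V x u) (j : Fin l) :
    |x u (l + j) - (rB R d nG (V.ty u) j).eval (see V x u)| ≤ 1 / 64 := by
  have h1 := h (l + j) (by change l + (j : ℕ) < 2 * l + 9; have := j.2; omega)
  rwa [rule_B] at h1

omit hI in
theorem OK.F {u : ℕ} (h : OK R d nG t z V x u) {i : ℕ} (hi : i < 9) :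
    |x u (2 * l + i) - (rF R d nG t z (V.ty u) i).eval (see V x u)| ≤ 1 / 64 := by
  have h1 := h (2 * l + i) (by change 2 * l + i < 2 * l + 9; omega)
  rwa [rule_F] at h1

omit hI in
theorem flag_ge [Nonempty (Fin n)] {β e : ℝ} (hβ : frac (fun u : Fin n => ¬ OK R d nG t z V x u) ≤ β)
    (hβe : β ≤ e) {i : ℕ} (hi : i < 9) (p : Fin n → Prop)
    (h : ∀ u : Fin n, p u → (rF R d nG t z (V.ty u) i).eval (see V x u) = 1) :
    frac p - e ≤ mn n x (2 * l + i) := by
  have h1 := mean_ge (U := Fin n) (y := fld x (2 * l + i)) (p := p)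
    (bad := fun u => ¬ OK R d nG t z V x u) (η := 0) le_rfl (fun u => (fld_mem _ u).1) ?_
  · rw [Fintype.card_fin] at h1
    unfold mn
    linarith
  · intro u hu hp
    rw [not_not] at hu
    have h2 := hu.F hi
    rw [h u hp] at h2
    have h3 : stretch (x u (2 * l + i)) = 1 := by
      simpa using stretch_near (b := true) (by simpa using h2)
    unfold fld
    rw [h3]
    norm_num

omit hI in
theorem flag_le [Nonempty (Fin n)] {β e : ℝ} (hβ : frac (fun u : Fin n => ¬ OK R d nG t z V x u) ≤ β)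
    (hβe : β ≤ e) {i : ℕ} (hi : i < 9) (p : Fin n → Prop)
    (h : ∀ u : Fin n, ¬ p u → (rF R d nG t z (V.ty u) i).eval (see V x u) = 0) :
    mn n x (2 * l + i) ≤ frac p + e := by
  have h1 := mean_le (U := Fin n) (y := fld x (2 * l + i)) (p := p)
    (bad := fun u => ¬ OK R d nG t z V x u) (η := 0) le_rfl (fun u => (fld_mem _ u).2) ?_
  · rw [Fintype.card_fin] at h1
    unfold mn
    linarith
  · intro u hu hp
    rw [not_not] at hu
    have h2 := hu.F hi
    rw [h u hp] at h2
    have h3 : stretch (x u (2 * l + i)) = 0 := by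
      simpa using stretch_near (b := false) (by simpa using h2)
    unfold fld
    rw [h3]
    norm_num

theorem good_acc (hd : 0 < d) {e : ℝ} {u : Fin n} (h : Good R d nG t z V x (e / 2) u) :
    Acc (see V x u) e (est k l d) (mns n l x) := by
  have key : ∀ i : ℕ, i < 9 →
      |(((av k d (2 * l + i)).eval (see V x u) : ℚ) : ℝ) - mn n x (2 * l + i)| ≤ e / 2 := by
    intro i hi
    rw [av_eval hI hd]
    exact h.2 ⟨i, hi⟩
  exact ⟨key 7 (by norm_num), key 8 (by norm_num), key 0 (by norm_num), key 1 (by norm_num),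
    key 2 (by norm_num), key 3 (by norm_num), key 4 (by norm_num), key 5 (by norm_num),
    key 6 (by norm_num)⟩

/-- rule of `A` -/
theorem rA_eval (hd : 0 < d) {e : ℝ} (he : 0 < e) (hn : 2 / e ≤ nG) {u : Fin n}
    (h : Good R d nG t z V x (e / 2) u) (g : Fin l → Bool)
    (h1 : cmp e (mn n x (2 * l + 8)) (3 / 4) ≠ some false →
      (cmp e (mn n x (2 * l + 7)) (3 / 20) ≠ some false →
        (cmp e (mn n x (2 * l + 8)) (1 / 4) ≠ some false → rdL x l u = some g) ∧
        (cmp e (mn n x (2 * l + 8)) (1 / 4) ≠ some true →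
          klift R.Mu (nbF k n V) (pubF r n V) (rdL x l) u = some g)) ∧
      (cmp e (mn n x (2 * l + 7)) (3 / 20) ≠ some true →
        klift R.corr (nbF k n V) (pubF r n V) (rdL x 0) u = some g))
    (h2 : cmp e (mn n x (2 * l + 8)) (3 / 4) ≠ some true → w0F r l n V u = g) (j : Fin l) :
    (rA R d nG (V.ty u) j).eval (see V x u) = if g j then 1 else 0 := by
  have hA := good_acc hI hd h
  have e1 : ∀ {q : ℚ} {q' : ℝ}, (q : ℝ) = q' →
      Rep ((ltP q nG (est k l d).Ψ).eval (see V x u)) (cmp e (mn n x (2 * l + 8)) q') :=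
    fun hq => Rep.lt' he hn hA.Ψ hq
  have e2 : ∀ {q : ℚ} {q' : ℝ}, (q : ℝ) = q' →
      Rep ((ltP q nG (est k l d).S).eval (see V x u)) (cmp e (mn n x (2 * l + 7)) q') :=
    fun hq => Rep.lt' he hn hA.S hq
  have i1 : In01 (see V x u) (rampX (own l j)) := (own_in hI _ _ _).rampX
  have i2 := fE_in hI l u R.Mu (pubT r (V.ty u)) j
  have i3 := fE_in hI 0 u R.corr (pubT r (V.ty u)) j
  have m1 : In (see V x u) (muxP (ltP (1 / 4) nG (est k l d).Ψ) (rampX (own l j))
      (fE R.Mu (pubT r (V.ty u)) l j)) :=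
    (Rep.mux (k1 := none) (k2 := none) (e1 (q' := 1 / 4) (by norm_num)) ⟨by simp, by simp, i1⟩
      ⟨by simp, by simp, i2⟩).in
  have m2 : In (see V x u) (muxP (ltP (3 / 20) nG (est k l d).S)
      (muxP (ltP (1 / 4) nG (est k l d).Ψ) (rampX (own l j)) (fE R.Mu (pubT r (V.ty u)) l j))
      (fE R.corr (pubT r (V.ty u)) 0 j)) :=
    (Rep.mux (k1 := none) (k2 := none) (e2 (q' := 3 / 20) (by norm_num)) ⟨by simp, by simp, m1⟩
      ⟨by simp, by simp, i3⟩).in
  refine mux_bool (e1 (q' := 3 / 4) (by norm_num)) (g j) (fun hk => ?_) (fun hk => ?_) m2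
    (in01_cst _)
  · obtain ⟨h3, h4⟩ := h1 hk
    refine mux_bool (e2 (q' := 3 / 20) (by norm_num)) (g j) (fun hk => ?_) (fun hk => ?_) m1 i3
    · obtain ⟨h5, h6⟩ := h3 hk
      refine mux_bool (e1 (q' := 1 / 4) (by norm_num)) (g j) (fun hk => ?_) (fun hk => ?_) i1 i2
      · have := h5 hk
        rw [rdL_eq] at this
        refine rampX_bit ?_
        rw [own_eval hI]
        exact this j
      · exact fE_eval hI l u R.Mu (h6 hk) j
    · exact fE_eval hI 0 u R.corr (h4 hk) j
  · rw [eval_cst]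
    have := congrFun (h2 hk) j
    unfold w0T
    unfold w0F at this
    rw [this]

/-- rule of `B` -/
theorem rB_eval (hd : 0 < d) {e : ℝ} (he : 0 < e) (hn : 2 / e ≤ nG) {u : Fin n}
    (h : Good R d nG t z V x (e / 2) u) (g : Fin l → Bool)
    (h1 : cmp e (mn n x (2 * l + 8)) (3 / 4) ≠ some false →
      (cmp e (mn n x (2 * l + 7)) (17 / 20) ≠ some false →
        klift R.corr (nbF k n V) (pubF r n V) (rdL x l) u = some g) ∧
      (cmp e (mn n x (2 * l + 7)) (17 / 20) ≠ some true →
        (cmp e (mn n x (2 * l + 8)) (1 / 4) ≠ some false →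
          klift R.Nu (nbF k n V) (pubF r n V) (rdL x 0) u = some g) ∧
        (cmp e (mn n x (2 * l + 8)) (1 / 4) ≠ some true → rdL x 0 u = some g)))
    (h2 : cmp e (mn n x (2 * l + 8)) (3 / 4) ≠ some true → w0F r l n V u = g) (j : Fin l) :
    (rB R d nG (V.ty u) j).eval (see V x u) = if g j then 1 else 0 := by
  have hA := good_acc hI hd h
  have e1 : ∀ {q : ℚ} {q' : ℝ}, (q : ℝ) = q' →
      Rep ((ltP q nG (est k l d).Ψ).eval (see V x u)) (cmp e (mn n x (2 * l + 8)) q') :=
    fun hq => Rep.lt' he hn hA.Ψ hq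
  have e2 : ∀ {q : ℚ} {q' : ℝ}, (q : ℝ) = q' →
      Rep ((ltP q nG (est k l d).S).eval (see V x u)) (cmp e (mn n x (2 * l + 7)) q') :=
    fun hq => Rep.lt' he hn hA.S hq
  have i1 : In01 (see V x u) (rampX (own 0 j)) := (own_in hI _ _ _).rampX
  have i2 := fE_in hI 0 u R.Nu (pubT r (V.ty u)) j
  have i3 := fE_in hI l u R.corr (pubT r (V.ty u)) j
  have m1 : In (see V x u) (muxP (ltP (1 / 4) nG (est k l d).Ψ)
      (fE R.Nu (pubT r (V.ty u)) 0 j) (rampX (own 0 j))) :=
    (Rep.mux (k1 := none) (k2 := none) (e1 (q' := 1 / 4) (by norm_num)) ⟨by simp, by simp, i2⟩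
      ⟨by simp, by simp, i1⟩).in
  have m2 : In (see V x u) (muxP (ltP (17 / 20) nG (est k l d).S)
      (fE R.corr (pubT r (V.ty u)) l j)
      (muxP (ltP (1 / 4) nG (est k l d).Ψ) (fE R.Nu (pubT r (V.ty u)) 0 j) (rampX (own 0 j)))) :=
    (Rep.mux (k1 := none) (k2 := none) (e2 (q' := 17 / 20) (by norm_num)) ⟨by simp, by simp, i3⟩
      ⟨by simp, by simp, m1⟩).in
  refine mux_bool (e1 (q' := 3 / 4) (by norm_num)) (g j) (fun hk => ?_) (fun hk => ?_) m2
    (in01_cst _)
  · obtain ⟨h3, h4⟩ := h1 hk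
    refine mux_bool (e2 (q' := 17 / 20) (by norm_num)) (g j) (fun hk => ?_) (fun hk => ?_) i3 m1
    · exact fE_eval hI l u R.corr (h3 hk) j
    · obtain ⟨h5, h6⟩ := h4 hk
      refine mux_bool (e1 (q' := 1 / 4) (by norm_num)) (g j) (fun hk => ?_) (fun hk => ?_) i2 i1
      · exact fE_eval hI 0 u R.Nu (h5 hk) j
      · have := h6 hk
        rw [rdL_eq] at this
        refine rampX_bit ?_
        rw [own_eval hI]
        exact this j
  · rw [eval_cst]
    have := congrFun (h2 hk) j
    unfold w0T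
    unfold w0F at this
    rw [this]

omit hI in
theorem sh_of_rules_A {u : Fin n} (h : OK R d nG t z V x u) {g : Fin l → Bool}
    (hg : ∀ j, (rA R d nG (V.ty u) j).eval (see V x u) = if g j then 1 else 0) :
    shL x 0 u = some g := by
  rw [shL_eq]
  intro j
  have h1 := h.A j
  rw [hg j] at h1
  rw [zero_add]
  exact near_sharp h1

omit hI in
theorem sh_of_rules_B {u : Fin n} (h : OK R d nG t z V x u) {g : Fin l → Bool}
    (hg : ∀ j, (rB R d nG (V.ty u) j).eval (see V x u) = if g j then 1 else 0) :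
    shL x l u = some g := by
  rw [shL_eq]
  intro j
  have h1 := h.B j
  rw [hg j] at h1
  exact near_sharp h1

end sem

/-! ### the theorem -/

/-- **D2**: few bad units ⇒ `MRest`; form agreed with the glue (194, post 5752) -/
theorem d2 {k l r : ℕ} (R : LRules k l r) (t z e dl kap : ℚ) (ht0 : 0 < t) (ht1 : t ≤ 1)
    (hz0 : 0 < z) (hz1 : z ≤ 1) (he0 : 0 < e) (he1 : e ≤ 1 / 100) (hdl0 : 0 < dl) (hdl : dl ≤ e)
    (hk0 : 0 < kap) (hk1 : kap ≤ 1 / 10) :
    ∃ e1 g1 : ℝ, 0 < e1 ∧ 0 < g1 ∧ ∀ d : ℕ, 0 < d → ∃ (S : LSys) (η β : ℚ), S.WF ∧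
      S.T = 2 ^ (r + l) ∧ S.K = k + d + 1 ∧ 2 * l ≤ S.L ∧ 0 < η ∧ 0 < β ∧
      ∀ (n : ℕ) (V : Units), V.WF S → V.length = n → (∀ u < n, V.nbr u 0 = u) →
        Sampler d (fun j : Fin d => toF n fun u => V.nbr u (k + 1 + j)) e1 g1 →
        ∀ (W : Set (Fin n → Fin l → Bool)) (N M : (Fin n → Fin l → Bool) → (Fin n → Fin l → Bool))
          (x : ℕ → ℕ → ℚ), Rest S V η β x →
          ∃ Rst : MRest (R.data (fun i : Fin k => toF n fun u => V.nbr u (i + 1))
              (fun u i => (V.ty u).testBit i) W (fun u j => (V.ty u).testBit (r + j)) N M)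
              ⟨t, z, e, dl, kap⟩,
            (∀ u g, Rst.As u = some g → ∀ j : Fin l, g j = decide (1 / 2 ≤ x u j)) ∧
            (∀ u g, Rst.Bs u = some g → ∀ j : Fin l, g j = decide (1 / 2 ≤ x u (l + j))) := by
  have he0' : (0 : ℝ) < (e : ℝ) := by exact_mod_cast he0
  have he1' : (e : ℝ) ≤ 1 / 100 := by
    have : ((e : ℚ) : ℝ) ≤ ((1 / 100 : ℚ) : ℝ) := by exact_mod_cast he1
    simpa using this
  have hdl0' : (0 : ℝ) < (dl : ℝ) := by exact_mod_cast hdl0
  have hdl' : (dl : ℝ) ≤ (e : ℝ) := by exact_mod_cast hdl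
  have hk1' : (kap : ℝ) ≤ 1 / 10 := by
    have : ((kap : ℚ) : ℝ) ≤ ((1 / 10 : ℚ) : ℝ) := by exact_mod_cast hk1
    simpa using this
  refine ⟨(e : ℝ) / 2, (dl : ℝ) / 18, by positivity, by positivity, fun d hd => ?_⟩
  obtain ⟨nG, hnG⟩ := exists_nat_ge (2 / (e : ℝ))
  refine ⟨sys R d nG t z, 1 / 64, dl / 2, WF_sys R d nG t z ⟨ht0.le, ht1⟩ ⟨hz0.le, hz1⟩, rfl, rfl,
    ?_, by norm_num, by positivity, ?_⟩
  · change 2 * l ≤ 2 * l + 9
    omega
  intro n V hV hlen hself hS W N M x hRest
  have hn0 : 0 < n := by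
    rw [← hlen]
    exact List.length_pos_iff.2 hV.1
  have : Nonempty (Fin n) := ⟨⟨0, hn0⟩⟩
  have hI : Inst R d nG t z n V x := ⟨hV, hlen, hself, hRest.1⟩
  have hβ : frac (fun u : Fin n => ¬ OK R d nG t z V x u) ≤ (dl : ℝ) / 2 := by
    have := frac_notOK hRest hlen hn0
    push_cast at this
    exact this
  have hβe : (dl : ℝ) / 2 ≤ (e : ℝ) := by linarith
  have hsm := frac_badSample (m := 9) hS (fun i => fld x (2 * l + i)) (fun i u => fld_mem _ u)
  have hgood : frac (fun u : Fin n => ¬ Good R d nG t z V x ((e : ℝ) / 2) u) ≤ (dl : ℝ) := by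
    have h1 := frac_or_le hβ hsm
    refine le_trans (frac_mono fun u hu => ?_) (le_trans h1 ?_)
    · unfold Good at hu
      rw [not_and_or] at hu
      rcases hu with hu | hu
      · exact Or.inl hu
      · right
        push Not at hu
        obtain ⟨i, hi⟩ := hu
        exact ⟨i, not_le.2 hi⟩
    · push_cast
      linarith
  refine ⟨{
    As := shL x 0
    Ar := rdL x 0
    Bs := shL x l
    Br := rdL x l
    hA := fun u g h => rdL_of_shL x 0 h
    hB := fun u g h => rdL_of_shL x l h
    s := fld x (2 * l + 7)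
    ψ := fld x (2 * l + 8)
    s_mem := fun u => fld_mem _ u
    ψ_mem := fun u => fld_mem _ u
    good := Good R d nG t z V x ((e : ℝ) / 2)
    good_frac := hgood
    S := mn n x (2 * l + 7)
    Ψ := mn n x (2 * l + 8)
    S_eq := ?_
    Ψ_eq := ?_
    vA := mn n x (2 * l)
    vB := mn n x (2 * l + 1)
    dAB := mn n x (2 * l + 2)
    dN := mn n x (2 * l + 3)
    dM := mn n x (2 * l + 4)
    a0 := mn n x (2 * l + 5)
    b0 := mn n x (2 * l + 6)
    vA_ge := flag_ge hβ hβe (i := 0) (by norm_num) _ fun u hu => vE_one hI 0 u hu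
    vA_le := flag_le hβ hβe (i := 0) (by norm_num) _ fun u hu => vE_zero hI 0 u hu
    vB_ge := flag_ge hβ hβe (i := 1) (by norm_num) _ fun u hu => vE_one hI l u hu
    vB_le := flag_le hβ hβe (i := 1) (by norm_num) _ fun u hu => vE_zero hI l u hu
    dAB_ge := flag_ge hβ hβe (i := 2) (by norm_num) _ fun u hu => dE_one hI u hu
    dAB_le := flag_le hβ hβe (i := 2) (by norm_num) _ fun u hu => dE_zero hI u (not_not.1 hu)
    dN_ge := flag_ge hβ hβe (i := 3) (by norm_num) _ fun u hu => ?_
    dN_le := flag_le hβ hβe (i := 3) (by norm_num) _ fun u hu => ?_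
    dM_ge := flag_ge hβ hβe (i := 4) (by norm_num) _ fun u hu => ?_
    dM_le := flag_le hβ hβe (i := 4) (by norm_num) _ fun u hu => ?_
    a0_ge := flag_ge hβ hβe (i := 5) (by norm_num) _ fun u hu => ?_
    a0_le := flag_le hβ hβe (i := 5) (by norm_num) _ fun u hu => ?_
    b0_ge := flag_ge hβ hβe (i := 6) (by norm_num) _ fun u hu => ?_
    b0_le := flag_le hβ hβe (i := 6) (by norm_num) _ fun u hu => ?_
    ruleA := fun u hu g h1 h2 => sh_of_rules_A hu.1 (rA_eval hI hd he0' hnG hu g h1 h2)
    ruleB := fun u hu g h1 h2 => sh_of_rules_B hu.1 (rB_eval hI hd he0' hnG hu g h1 h2)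
    ruleS_up := fun u hu hk => ?_
    ruleS_dn := fun u hu hk => ?_
    ruleΨ_up := fun u hu hk => ?_
    ruleΨ_dn := fun u hu hk => ?_ }, ?_, ?_⟩
  · unfold mn
    rw [Fintype.card_fin, div_mul_cancel₀ _ (by positivity)]
  · unfold mn
    rw [Fintype.card_fin, div_mul_cancel₀ _ (by positivity)]
  · obtain ⟨g, h1, h2⟩ := hu
    exact mism_own_one hI l u (fun j => fE_in hI 0 u R.Nu _ j) (fun j => fE_eval hI 0 u R.Nu h1 j) h2
  · obtain ⟨g, h1, h2⟩ := not_not.1 hu
    exact mism_own_zero hI l u (fun j => fE_in hI 0 u R.Nu _ j) (fun j => fE_eval hI 0 u R.Nu h1 j) h2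
  · obtain ⟨g, h1, h2⟩ := hu
    exact mism_own_one hI 0 u (fun j => fE_in hI l u R.Mu _ j) (fun j => fE_eval hI l u R.Mu h1 j) h2
  · obtain ⟨g, h1, h2⟩ := not_not.1 hu
    exact mism_own_zero hI 0 u (fun j => fE_in hI l u R.Mu _ j) (fun j => fE_eval hI l u R.Mu h1 j) h2
  · exact mism_own_one hI 0 u (g := w0F r l n V u) (fun j => in01_cst _) (fun j => eval_cst _) hu
  · exact mism_own_zero hI 0 u (g := w0F r l n V u) (fun j => in01_cst _) (fun j => eval_cst _)
      (not_not.1 hu)
  · exact mism_own_one hI l u (g := w0F r l n V u) (fun j => in01_cst _) (fun j => eval_cst _) hu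
  · exact mism_own_zero hI l u (g := w0F r l n V u) (fun j => in01_cst _) (fun j => eval_cst _)
      (not_not.1 hu)
  · have hA := good_acc hI hd hu
    exact scal_up (rep_forceS he0' hnG hA t) hk (av_In _ _)
      (hA.S.trans (by linarith)) hk1' (hu.1.F (i := 7) (by norm_num)) rfl
  · have hA := good_acc hI hd hu
    exact scal_dn (rep_forceS he0' hnG hA t) hk (av_In _ _)
      (hA.S.trans (by linarith)) hk1' (hu.1.F (i := 7) (by norm_num)) rfl
  · have hA := good_acc hI hd hu
    exact scal_up (rep_forceΨ he0' hnG hA t z) hk (av_In _ _)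
      (hA.Ψ.trans (by linarith)) hk1' (hu.1.F (i := 8) (by norm_num)) rfl
  · have hA := good_acc hI hd hu
    exact scal_dn (rep_forceΨ he0' hnG hA t z) hk (av_In _ _)
      (hA.Ψ.trans (by linarith)) hk1' (hu.1.F (i := 8) (by norm_num)) rfl
  · intro u g hg j
    rw [shL_eq] at hg
    have := rd_decide (hg j).2
    rwa [zero_add] at this
  · intro u g hg j
    rw [shL_eq] at hg
    exact rd_decide (hg j).2

end Crest.Agent.R289.D2180
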