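import Crest.Agent.R289.IOparse_901

/-!
# R289 / IOasg (helper901), block E3: reading an assignment

* `ratsOf : List Bool → List (ℕ × ℕ)`: numerators and denominators; `ratsOf_bits`, `ptf_ratsOf`.
* `halfs : List Bool → List Bool`: entry `v` = `1/2 ≤ x v`; `halfs_bits`, `ptf_halfs`.
-/

set_option autoImplicit false

namespace Crest.Agent.R289

open Crest.Agent.Lib.PT Crest.PPADPCP

/-- numerators and denominators of the presented assignment -/
def ratsOf (w : List Bool) : List (ℕ × ℕ) :=
  (List.range (min ((decN w).getD 0 0) (decN w).length)).map fun i =>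
    ((decN w).getD (2 * i + 1) 0, (decN w).getD (2 * i + 2) 0)

/-- the bits `1/2 ≤ x v` -/
def halfs (w : List Bool) : List Bool :=
  (ratsOf w).map fun p => decide (p.2 ≤ 2 * p.1)

theorem getD_flatMap_ratNats (x : List ℚ) : ∀ i, i < x.length →
    (x.flatMap ratNats).getD (2 * i) 0 = (x.getD i 0).num.natAbs ∧
      (x.flatMap ratNats).getD (2 * i + 1) 0 = (x.getD i 0).den := by
  induction x with
  | nil => intro i hi; simp at hi
  | cons q x ih =>
    intro i hi
    rcases i with _ | i
    · simp [ratNats]
    · have h := ih i (by simpa using hi)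
      have e : (q :: x).flatMap ratNats = q.num.natAbs :: q.den :: x.flatMap ratNats := by
        simp [ratNats]
      rw [e, show 2 * (i + 1) = (2 * i + 1) + 1 by ring, show (2 * i + 1) + 1 + 1 = (2 * i + 1) + 1 + 1 by rfl]
      simp only [List.getD_cons_succ]
      exact h

theorem ratsOf_bits (x : List ℚ) :
    ratsOf (assignmentBits x) = x.map fun q => (q.num.natAbs, q.den) := by
  unfold ratsOf assignmentBits
  rw [decN_enc]
  have hlen : (x.flatMap ratNats).length = 2 * x.length := by
    induction x with
    | nil => rfl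
    | cons q x ih =>
      simp only [List.flatMap_cons, List.length_append, List.length_cons, ih, ratNats,
        List.length_nil]
      ring
  have h1 : min ((x.length :: x.flatMap ratNats).getD 0 0) (x.length :: x.flatMap ratNats).length =
      x.length := by
    simp only [List.getD_cons_zero, List.length_cons, hlen]
    omega
  rw [h1]
  apply List.ext_getElem
  · simp
  · intro i hi hi'
    simp only [List.length_map, List.length_range] at hi
    have h := getD_flatMap_ratNats x i hi
    simp only [List.getElem_map, List.getElem_range, List.getD_cons_succ]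
    rw [h.1, h.2, List.getD_eq_getElem _ _ hi]

theorem half_le_iff (q : ℚ) (hq : 0 ≤ q) : 1 / 2 ≤ q ↔ q.den ≤ 2 * q.num.natAbs := by
  have h0 : (0 : ℤ) ≤ q.num := Rat.num_nonneg.2 hq
  have h1 : ((q.num.natAbs : ℕ) : ℚ) = (q.num : ℚ) := by
    have : ((q.num.natAbs : ℕ) : ℤ) = q.num := Int.natAbs_of_nonneg h0
    calc ((q.num.natAbs : ℕ) : ℚ) = (((q.num.natAbs : ℕ) : ℤ) : ℚ) := (Int.cast_natCast _).symm
      _ = (q.num : ℚ) := by rw [this]
  have hd : (0 : ℚ) < q.den := by exact_mod_cast q.den_pos
  have h2 : q = (q.num.natAbs : ℚ) / q.den := by rw [h1]; exact (Rat.num_div_den q).symm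
  constructor
  · intro h
    rw [h2, div_le_div_iff₀ (by norm_num) hd] at h
    have : ((q.den : ℕ) : ℚ) ≤ ((2 * q.num.natAbs : ℕ) : ℚ) := by push_cast; linarith
    exact_mod_cast this
  · intro h
    have h' : ((q.den : ℕ) : ℚ) ≤ ((2 * q.num.natAbs : ℕ) : ℚ) := by exact_mod_cast h
    rw [h2, div_le_div_iff₀ (by norm_num) hd]
    push_cast at h'
    linarith

theorem halfs_bits (x : List ℚ) (hx : ∀ q ∈ x, 0 ≤ q) :
    halfs (assignmentBits x) = x.map fun q => decide (1 / 2 ≤ q) := by
  unfold halfs
  rw [ratsOf_bits, List.map_map]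
  apply List.map_congr_left
  intro q hq
  simp only [Function.comp_apply, decide_eq_decide]
  exact (half_le_iff q (hx q hq)).symm

/-- the same, read off a function -/
theorem halfs_range {x : List ℚ} {m : ℕ} (hm : x.length = m) (hx : ∀ q ∈ x, 0 ≤ q) :
    halfs (assignmentBits x) = (List.range m).map fun v => decide (1 / 2 ≤ x.getD v 0) := by
  rw [halfs_bits x hx]
  apply List.ext_getElem
  · simp [hm]
  · intro i hi hi'
    have hi2 : i < x.length := by simpa using hi
    simp only [List.getElem_map, List.getElem_range]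
    rw [List.getD_eq_getElem _ _ hi2]

section
variable {α : Type} [PTCode α]

theorem ptf_ratsOf {f : α → List Bool} (hf : PTF f) : PTF (fun a => ratsOf (f a)) := by
  have h0 := ptf_decN hf
  have hn : PTU (fun a => min ((decN (f a)).getD 0 0) (decN (f a)).length) :=
    PTF.natMinUn (PTF.getD (PTU.const 0) h0 (PTF.const _)) (PTU.length h0)
  have h1 : PTF (fun p : α × ℕ => decN (f p.1)) :=
    PTF.comp (g := fun a => decN (f a)) h0 PTF.fst
  have hb : PTU (fun p : α × ℕ => min p.2 (decN (f p.1)).length) :=
    PTF.natMinUn PTF.snd (PTU.length h1)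
  have hg1 : PTF (fun p : α × ℕ => (decN (f p.1)).getD (2 * (min p.2 (decN (f p.1)).length) + 1) 0) :=
    PTF.getD (((PTU.const 2).mul hb).add (PTU.const 1)) h1 (PTF.const _)
  have hg2 : PTF (fun p : α × ℕ => (decN (f p.1)).getD (2 * (min p.2 (decN (f p.1)).length) + 2) 0) :=
    PTF.getD (((PTU.const 2).mul hb).add (PTU.const 2)) h1 (PTF.const _)
  have hg : PTF₂ (fun (a : α) (i : ℕ) =>
      ((decN (f a)).getD (2 * (min i (decN (f a)).length) + 1) 0,
        (decN (f a)).getD (2 * (min i (decN (f a)).length) + 2) 0)) := hg1.prodMk hg2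
  refine PTF.of_eq (PTF.map (PTF.range hn) hg) (fun a => ?_)
  unfold ratsOf
  apply List.map_congr_left
  intro i hi
  have hi' : i < min ((decN (f a)).getD 0 0) (decN (f a)).length := by simpa using hi
  have : min i (decN (f a)).length = i := by omega
  simp only [this]

theorem ptf_halfs {f : α → List Bool} (hf : PTF f) : PTF (fun a => halfs (f a)) := by
  have h : PTF₂ (fun (_ : α) (p : ℕ × ℕ) => decide (p.2 ≤ 2 * p.1)) := by
    have h1 : PTPred (fun p : α × (ℕ × ℕ) => p.2.2 ≤ 2 * p.2.1) :=
      PTPred.natLe (PTF.comp PTF.snd PTF.snd)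
        (PTF.natMul (PTF.const 2) (PTF.comp PTF.fst PTF.snd))
    exact h1.toPTF
  exact PTF.map (ptf_ratsOf hf) h

end

end Crest.Agent.R289
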