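import Crest.Agent.R289.Fin_217
import Crest.Agent.R289.IOasg_901

/-!
# R289 / FinE (helper901), block E: `Machine289` implies S0434
-/

set_option autoImplicit false

namespace Crest.Agent.R289

open Crest.Agent.Lib.PT Crest.PPADPCP

/-- **block E complete**: the machine gives the literal statement S0434 -/
theorem S0434_of_machine (h : Machine289) :
    ∃ ε δ : ℚ, 0 < ε ∧ ε < 1 / 10 ∧ 0 < δ ∧ δ < 1 ∧
    ∃ A b : ℕ, 0 < A ∧ ∃ p : Polynomial ℕ,
    ∃ (R : List Bool → List Bool) (D : List Bool × List Bool → List Bool),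
      Crest.Complexity.PolyTime R ∧
      Crest.Complexity.PolyTimeComputable Crest.Complexity.pairEnc
        (Computability.encodingList Bool).encode D ∧
      (∀ G : Crest.PPADPCP.GCircuit, G.WF → ∃ x : List ℚ, Crest.PPADPCP.Acceptable ε δ p G x) ∧
      ∀ I : Crest.PPADPCP.EOL, I.WF → ∃ G : Crest.PPADPCP.GCircuit, G.WF ∧ R I.encode = G.encode ∧
        G.encode.length ≤ A * I.encode.length * (Nat.clog 2 (I.encode.length + 2)) ^ b ∧
        ∀ x : List ℚ, Crest.PPADPCP.Acceptable ε δ p G x →
          ∃ v : Fin I.n → Bool, I.IsSolution v ∧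
            D (I.encode, Crest.PPADPCP.assignmentBits x) = Crest.PPADPCP.solutionBits v :=
  Crest.Agent.R289.Fin217.machine_to_statement (ptf_eolOf PTF.id) eolOf_encode (ptf_halfs PTF.id) halfs_bits h

end Crest.Agent.R289
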