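import Crest.Agent.R289.DefD_721
import Crest.Agent.R289.FinE_901

/-!
# Row 289, assembly: literal interface C → D

`Fam289`: what blocks A-C deliver to block D (glue `Fam289 → Machine289` = 194): absolute local
rules `R : LRules k l r`, absolute constants `kc : MConst`, and for every `n0` a polynomial-time
family of unit machines (`n ≥ n0` units, `n ≤ A N clog^b`) with polynomial-time tables `nb`
(neighbours), `pb` (public bits), `wb` (start labels) and decoders `cA`, `cB` (lists of candidates
from the table of labels of an exact legal word).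
-/

set_option autoImplicit false

namespace Crest.Agent.R289.Asm12

open Crest.PPADPCP Crest.Agent.Lib.PT Crest.Agent.R289 Crest.Agent.R289.DefD

/-! ### the family -/

/-- a map on `Fin n` from a map on `ℕ` -/
def toF (n : ℕ) (g : ℕ → ℕ) (u : Fin n) : Fin n := if h : g u < n then ⟨g u, h⟩ else u

/-- label table of a word -/
def tabOf {n l : ℕ} (w : Fin n → Fin l → Bool) : List (List Bool) :=
  List.ofFn fun u => List.ofFn (w u)

/-- the unit machine of one instance, on `Fin n`, from the tables -/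
noncomputable def famData {k l r : ℕ} (R : LRules k l r) (n : ℕ) (nb : ℕ → ℕ → ℕ)
    (pb : ℕ → ℕ → Bool) (wb : ℕ → ℕ → Bool) (W : Set (Fin n → Fin l → Bool))
    (N M : (Fin n → Fin l → Bool) → (Fin n → Fin l → Bool)) : MData (Fin n) (Fin l → Bool) :=
  R.data (fun i => toF n (nb i)) (fun u j => pb u j) W (fun u j => wb u j) N M

/-- **what blocks A-C deliver** -/
def Fam289 : Prop :=
  ∃ (k l r : ℕ) (R : LRules k l r) (kc : MConst),
    5 * kc.γ < kc.r0 ∧ 5 * kc.γ < kc.d0 ∧
    ∀ n0 : ℕ, ∃ (A b : ℕ) (n : EI → ℕ) (nb : EI × ℕ × ℕ → ℕ) (pb wb : EI × ℕ × ℕ → Bool)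
      (cA cB : EI × List (List Bool) → List (List Bool)),
      PTF n ∧ PTF nb ∧ PTF pb ∧ PTF wb ∧ PTF cA ∧ PTF cB ∧
      ∀ I : EOL, I.WF → n0 ≤ n (raw I) ∧ 0 < n (raw I) ∧
        n (raw I) ≤ A * I.encode.length * (Nat.clog 2 (I.encode.length + 2)) ^ b ∧
        (∀ i < k, ∀ u < n (raw I), nb (raw I, i, u) < n (raw I)) ∧
        ∃ (W : Set (Fin (n (raw I)) → Fin l → Bool))
          (N M : (Fin (n (raw I)) → Fin l → Bool) → (Fin (n (raw I)) → Fin l → Bool)),
          (famData R (n (raw I)) (fun i u => nb (raw I, i, u)) (fun u j => pb (raw I, u, j))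
            (fun u j => wb (raw I, u, j)) W N M).Ax kc ∧
          (∀ w ∈ W, N w = w → ∃ v : Fin I.n → Bool, I.IsSolution v ∧
            List.ofFn v ∈ cA (raw I, tabOf w)) ∧
          (∀ w ∈ W, M w = w →
            w ≠ (fun (u : Fin (n (raw I))) (j : Fin l) => wb (raw I, (u : ℕ), (j : ℕ))) →
            ∃ v : Fin I.n → Bool, I.IsSolution v ∧ List.ofFn v ∈ cB (raw I, tabOf w))

end Crest.Agent.R289.Asm12
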