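import Mathlib

/-!
# Row 289, block D (macro embedding): definitions only

Abstract layer (no gates, no real-valued labels): an array of labels is `U → Option Γ`
(`none` = indefinite / unreadable).  `MData` = the unit-level machine delivered by block C,
`MData.Ax` = its axioms (UL1), (UL2) of post 5421 with the additive error `γ`.
`MRest` = what a state of the real system with few bad units satisfies.
Theorem D1 (owner 250): `MRest` implies a blocked legal word near `A` or near `B`.
-/

set_option autoImplicit false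

namespace Crest.Agent.R289.DefD

open Finset

/-! ### Kleene values -/

/-- Kleene truth values: `none` = unknown -/
abbrev K3 := Option Bool

def k3not : K3 → K3
  | some b => some (!b)
  | none => none

def k3and : K3 → K3 → K3
  | some false, _ => some false
  | some true, y => y
  | none, some false => some false
  | none, _ => none

def k3or : K3 → K3 → K3
  | some true, _ => some true
  | some false, y => y
  | none, some true => some true
  | none, _ => none

/-- `k3mux s x y`: `x` if `s` is true, `y` if `s` is false, the common value if `s` is unknown -/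
def k3mux : K3 → K3 → K3 → K3
  | some true, x, _ => x
  | some false, _, y => y
  | none, some true, some true => some true
  | none, some false, some false => some false
  | none, _, _ => none

/-- comparison `m < t` with uncertainty `e` -/
noncomputable def cmp (e m t : ℝ) : K3 :=
  if m ≤ t - e then some true else if t + e ≤ m then some false else none

/-! ### arrays of labels -/

section arrays
variable {U Γ : Type} [Fintype U]

open Classical in
/-- fraction of the units with property `p` -/
noncomputable def frac (p : U → Prop) : ℝ := ((univ.filter p).card : ℝ) / (Fintype.card U : ℝ)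

/-- fraction of the units where the array `X` is not the word `w` -/
noncomputable def dist (X : U → Option Γ) (w : U → Γ) : ℝ := frac fun u => X u ≠ some (w u)

/-- fraction of the units where the words differ -/
noncomputable def distW (v w : U → Γ) : ℝ := frac fun u => v u ≠ w u

end arrays

/-- unit-level machine: legal words, start word, successor and predecessor, local correction,
local step maps, local test (`true` = violated or not readable) -/
structure MData (U Γ : Type) where
  W : Set (U → Γ)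
  w0 : U → Γ
  N : (U → Γ) → (U → Γ)
  M : (U → Γ) → (U → Γ)
  corr : (U → Option Γ) → (U → Option Γ)
  Nu : (U → Option Γ) → (U → Option Γ)
  Mu : (U → Option Γ) → (U → Option Γ)
  viol : (U → Option Γ) → (U → Bool)

/-- constants of the machine (from blocks A-C) -/
structure MConst where
  zs : ℝ      -- soundness range of the tests
  r0 : ℝ      -- range of local correction
  d0 : ℝ      -- distance of legal words
  c : ℝ       -- Lipschitz / soundness constant
  γ : ℝ       -- additive error of the sampled step maps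
  zs_pos : 0 < zs
  r0_pos : 0 < r0
  d0_pos : 0 < d0
  c_ge : 1 ≤ c
  γ_nn : 0 ≤ γ

/-- axioms of the unit-level machine -/
structure MData.Ax {U Γ : Type} [Fintype U] (D : MData U Γ) (k : MConst) : Prop where
  w0_mem : D.w0 ∈ D.W
  N_mem : ∀ w ∈ D.W, D.N w ∈ D.W
  M_mem : ∀ w ∈ D.W, D.M w ∈ D.W
  MN : ∀ w ∈ D.W, D.N w ≠ w → D.M (D.N w) = w
  NM : ∀ w ∈ D.W, D.M w ≠ w → D.N (D.M w) = w
  M_w0 : D.M D.w0 = D.w0
  N_w0 : D.N D.w0 ≠ D.w0
  sep : ∀ v ∈ D.W, ∀ w ∈ D.W, v ≠ w → k.d0 ≤ distW v w
  sound : ∀ X, frac (fun u => D.viol X u = true) ≤ k.zs →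
    ∃ w ∈ D.W, dist X w ≤ k.c * frac (fun u => D.viol X u = true)
  compl : ∀ w ∈ D.W, ∀ X, frac (fun u => D.viol X u = true) ≤ k.c * dist X w
  corr_le : ∀ w ∈ D.W, ∀ X, dist X w ≤ k.r0 → dist (D.corr X) w ≤ dist X w / 4
  Nu_le : ∀ w ∈ D.W, ∀ X, dist X w ≤ k.r0 → dist (D.Nu X) (D.N w) ≤ k.c * dist X w + k.γ
  Mu_le : ∀ w ∈ D.W, ∀ X, dist X w ≤ k.r0 → dist (D.Mu X) (D.M w) ≤ k.c * dist X w + k.γ

/-- constants of the embedding -/
structure MPar where
  t : ℝ       -- threshold of the comparison measures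
  z : ℝ       -- threshold of the violation measures
  e : ℝ       -- total uncertainty of every comparison
  δ : ℝ       -- fraction of units that are not good
  κ : ℝ       -- strength of the forces

/-- admissible constants -/
structure MPar.OK (p : MPar) (k : MConst) : Prop where
  e_pos : 0 < p.e
  e_le : p.e ≤ 1 / 100
  δ_nn : 0 ≤ p.δ
  δ_le : p.δ ≤ p.e
  κ_gt : p.δ < p.κ
  t_pos : 0 < p.t
  t_r0 : p.t + 4 * p.e + 2 * k.γ + 4 * (k.c + 1) * p.δ ≤ k.r0
  t_d0 : p.t + 4 * p.e + 2 * k.γ + 4 * (k.c + 1) * p.δ ≤ k.d0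
  t_ge : 3 * k.γ + 8 * (k.c + 1) * p.δ + 3 * p.e ≤ p.t
  z_zs : p.z + 2 * p.e ≤ k.zs
  z_r0 : k.c * (p.z + 2 * p.e) ≤ k.r0
  z_ge : 2 * k.c * p.δ + 2 * p.e ≤ p.z

/-- A state with few bad units.  `As`, `Bs` = sharp labels (all bits within the strict tolerance of
a Boolean value), `Ar`, `Br` = readable labels (loose tolerance).  `S`, `Ψ` = true means of the two
scalars, `vA .. b0` = true means of the measured flags.  `good` = units all of whose gates are
satisfied and all of whose sampled estimates are accurate. -/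
structure MRest {U Γ : Type} [Fintype U] (D : MData U Γ) (p : MPar) where
  As : U → Option Γ
  Ar : U → Option Γ
  Bs : U → Option Γ
  Br : U → Option Γ
  hA : ∀ u g, As u = some g → Ar u = some g
  hB : ∀ u g, Bs u = some g → Br u = some g
  s : U → ℝ
  ψ : U → ℝ
  s_mem : ∀ u, 0 ≤ s u ∧ s u ≤ 1
  ψ_mem : ∀ u, 0 ≤ ψ u ∧ ψ u ≤ 1
  good : U → Prop
  good_frac : frac (fun u => ¬ good u) ≤ p.δ
  S : ℝ
  Ψ : ℝ
  S_eq : S * (Fintype.card U : ℝ) = ∑ u, s u
  Ψ_eq : Ψ * (Fintype.card U : ℝ) = ∑ u, ψ u
  vA : ℝ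
  vB : ℝ
  dAB : ℝ
  dN : ℝ
  dM : ℝ
  a0 : ℝ
  b0 : ℝ
  vA_ge : frac (fun u => D.viol Ar u = true) - p.e ≤ vA
  vA_le : vA ≤ frac (fun u => D.viol As u = true) + p.e
  vB_ge : frac (fun u => D.viol Br u = true) - p.e ≤ vB
  vB_le : vB ≤ frac (fun u => D.viol Bs u = true) + p.e
  dAB_ge : frac (fun u => ¬ ∃ g, Ar u = some g ∧ Br u = some g) - p.e ≤ dAB
  dAB_le : dAB ≤ frac (fun u => ¬ ∃ g, As u = some g ∧ Bs u = some g) + p.e
  dN_ge : frac (fun u => ∃ g, D.Nu Ar u = some g ∧ Br u ≠ some g) - p.e ≤ dN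
  dN_le : dN ≤ frac (fun u => ¬ ∃ g, D.Nu Ar u = some g ∧ Bs u = some g) + p.e
  dM_ge : frac (fun u => ∃ g, D.Mu Br u = some g ∧ Ar u ≠ some g) - p.e ≤ dM
  dM_le : dM ≤ frac (fun u => ¬ ∃ g, D.Mu Br u = some g ∧ As u = some g) + p.e
  a0_ge : dist Ar D.w0 - p.e ≤ a0
  a0_le : a0 ≤ dist As D.w0 + p.e
  b0_ge : dist Br D.w0 - p.e ≤ b0
  b0_le : b0 ≤ dist Bs D.w0 + p.e
  /-- rule of `A`: every candidate that is possible agrees ⇒ the label is that value -/
  ruleA : ∀ u, good u → ∀ g : Γ,
    (cmp p.e Ψ (3 / 4) ≠ some false →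
      (cmp p.e S (3 / 20) ≠ some false →
        (cmp p.e Ψ (1 / 4) ≠ some false → Br u = some g) ∧
        (cmp p.e Ψ (1 / 4) ≠ some true → D.Mu Br u = some g)) ∧
      (cmp p.e S (3 / 20) ≠ some true → D.corr Ar u = some g)) →
    (cmp p.e Ψ (3 / 4) ≠ some true → D.w0 u = g) →
    As u = some g
  /-- rule of `B` -/
  ruleB : ∀ u, good u → ∀ g : Γ,
    (cmp p.e Ψ (3 / 4) ≠ some false →
      (cmp p.e S (17 / 20) ≠ some false → D.corr Br u = some g) ∧
      (cmp p.e S (17 / 20) ≠ some true →
        (cmp p.e Ψ (1 / 4) ≠ some false → D.Nu Ar u = some g) ∧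
        (cmp p.e Ψ (1 / 4) ≠ some true → Ar u = some g))) →
    (cmp p.e Ψ (3 / 4) ≠ some true → D.w0 u = g) →
    Bs u = some g
  /-- rule of `s` (force `F` = Kleene value of the formula below) -/
  ruleS_up : ∀ u, good u →
    k3mux (cmp p.e Ψ (1 / 4))
      (k3mux (cmp p.e S (1 / 2)) (cmp p.e dAB p.t)
        (k3not (k3and (cmp p.e dN p.t) (k3not (cmp p.e dAB p.t)))))
      (k3mux (cmp p.e S (1 / 2)) (k3and (cmp p.e dM p.t) (k3not (cmp p.e dAB p.t)))
        (k3not (cmp p.e dAB p.t))) = some true → min 1 (S + p.κ) ≤ s u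
  ruleS_dn : ∀ u, good u →
    k3mux (cmp p.e Ψ (1 / 4))
      (k3mux (cmp p.e S (1 / 2)) (cmp p.e dAB p.t)
        (k3not (k3and (cmp p.e dN p.t) (k3not (cmp p.e dAB p.t)))))
      (k3mux (cmp p.e S (1 / 2)) (k3and (cmp p.e dM p.t) (k3not (cmp p.e dAB p.t)))
        (k3not (cmp p.e dAB p.t))) = some false → s u ≤ max 0 (S - p.κ)
  /-- rule of `ψ`: up iff not near START and (invalid or `Ψ > 1/2`) -/
  ruleΨ_up : ∀ u, good u →
    k3and (k3not (k3and (cmp p.e a0 p.t) (cmp p.e b0 p.t)))
      (k3or
        (k3or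
          (k3or (k3and (cmp p.e S (7 / 10)) (k3not (cmp p.e vB p.z)))
            (k3and (k3not (cmp p.e S (3 / 10))) (k3not (cmp p.e vA p.z))))
          (k3and (k3and (k3not (cmp p.e S (7 / 20))) (cmp p.e S (13 / 20)))
            (k3and (k3not (cmp p.e dAB p.t)) (k3not (cmp p.e dN p.t)))))
        (k3not (cmp p.e Ψ (1 / 2)))) = some true → min 1 (Ψ + p.κ) ≤ ψ u
  ruleΨ_dn : ∀ u, good u →
    k3and (k3not (k3and (cmp p.e a0 p.t) (cmp p.e b0 p.t)))
      (k3or
        (k3or
          (k3or (k3and (cmp p.e S (7 / 10)) (k3not (cmp p.e vB p.z)))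
            (k3and (k3not (cmp p.e S (3 / 10))) (k3not (cmp p.e vA p.z))))
          (k3and (k3and (k3not (cmp p.e S (7 / 20))) (cmp p.e S (13 / 20)))
            (k3and (k3not (cmp p.e dAB p.t)) (k3not (cmp p.e dN p.t)))))
        (k3not (cmp p.e Ψ (1 / 2)))) = some false → ψ u ≤ max 0 (Ψ - p.κ)

/-- THEOREM D1 (statement): a state with few bad units holds a blocked legal word:
either `Ψ ≤ 1/8` and `A` is near a legal word without successor, or `3/8 ≤ Ψ` and `B` is near a
legal word `≠ w0` without predecessor. -/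
def D1 : Prop :=
  ∀ (U Γ : Type) [Fintype U] [Nonempty U] (D : MData U Γ) (k : MConst) (p : MPar),
    D.Ax k → p.OK k → ∀ R : MRest D p,
      (R.Ψ ≤ 1 / 8 ∧ ∃ w ∈ D.W, D.N w = w ∧ dist R.As w ≤ 2 * p.δ) ∨
      (3 / 8 ≤ R.Ψ ∧ ∃ w ∈ D.W, w ≠ D.w0 ∧ D.M w = w ∧ dist R.Bs w ≤ 2 * p.δ)

/-! ### sampler -/

/-- `d` sampling maps on `U`: for every field `y : U → [0,1]` all but a `γ` fraction of the units see
the mean up to `e` -/
def Sampler {U : Type} [Fintype U] (d : ℕ) (nb : Fin d → U → U) (e γ : ℝ) : Prop :=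
  ∀ y : U → ℝ, (∀ u, 0 ≤ y u ∧ y u ≤ 1) →
    frac (fun u => ¬ |(∑ i, y (nb i u)) / (d : ℝ) - (∑ v, y v) / (Fintype.card U : ℝ)| ≤ e) ≤ γ

/-! ### local rules (O(1) neighbours, labels = `l` bits, `r` public bits per unit) -/

/-- Boolean unit functions of the labels of `k` neighbours and `r` public bits -/
structure LRules (k l r : ℕ) where
  corr : (Fin k → Fin l → Bool) → (Fin r → Bool) → Fin l → Bool
  Nu : (Fin k → Fin l → Bool) → (Fin r → Bool) → Fin l → Bool
  Mu : (Fin k → Fin l → Bool) → (Fin r → Bool) → Fin l → Bool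
  viol : (Fin k → Fin l → Bool) → (Fin r → Bool) → Bool

open Classical in
/-- extension of a unit function to partial arrays: defined iff all `k` neighbours are readable -/
noncomputable def lift {U : Type} {k l r : ℕ} {β : Type}
    (f : (Fin k → Fin l → Bool) → (Fin r → Bool) → β) (nb : Fin k → U → U)
    (pub : U → Fin r → Bool) (X : U → Option (Fin l → Bool)) (u : U) : Option β :=
  if h : ∃ x : Fin k → Fin l → Bool, ∀ i, X (nb i u) = some (x i)
  then some (f h.choose (pub u)) else none

open Classical in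
/-- Kleene (forced value) extension: defined iff the readable neighbours force the value -/
noncomputable def klift {U : Type} {k l r : ℕ} {β : Type}
    (f : (Fin k → Fin l → Bool) → (Fin r → Bool) → β) (nb : Fin k → U → U)
    (pub : U → Fin r → Bool) (X : U → Option (Fin l → Bool)) (u : U) : Option β :=
  if h : ∃ g : β, ∀ x : Fin k → Fin l → Bool,
      (∀ i y, X (nb i u) = some y → x i = y) → f x (pub u) = g
  then some h.choose else none

/-- the machine defined by local rules (`corr`, `Nu`, `Mu`: forced values; `viol`: unreadable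
neighbour = violated) -/
noncomputable def LRules.data {U : Type} {k l r : ℕ} (R : LRules k l r) (nb : Fin k → U → U)
    (pub : U → Fin r → Bool) (W : Set (U → Fin l → Bool)) (w0 : U → Fin l → Bool)
    (N M : (U → Fin l → Bool) → (U → Fin l → Bool)) : MData U (Fin l → Bool) where
  W := W
  w0 := w0
  N := N
  M := M
  corr := klift R.corr nb pub
  Nu := klift R.Nu nb pub
  Mu := klift R.Mu nb pub
  viol := fun X u => (lift R.viol nb pub X u).getD true

end Crest.Agent.R289.DefD
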