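import Crest.Agent.Lib.PT.ListFns2
import Crest.Agent.Lib.PT.ArithMore
import Crest.Agent.Lib.PT.OfTM

/-!
# R289 / Sync (helper901), leaf E15: synchronous local networks on tables are poly-time

* `ptf_rule`: a rule `G : τ → (Fin J → σ) → β` on finite coded types, read off a list, is poly-time.
* `sync F d nb x`: one synchronous step; entry `u` of the result is
  `F (nb u).1 [x (nbr 0 u), x (nbr 1 u), ...]`.
* `syncN F d nb L x`: `L` steps; `syncL` = the list of the layers `0..L`. `ptf_sync`, `ptf_syncN`,
  `ptf_syncL`.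
* `syncT F d nb pub x`: one step per entry of `pub : List (List π)` (time dependent public data).
* `tabU e X` (`e : U ≃ Fin n`): the table of `X : U → σ`; `sync_tabU`, `syncN_tabU`, `syncT_tabU`.
-/

set_option autoImplicit false
set_option linter.dupNamespace false

namespace Crest.Agent.R289.Sync901

open Crest.Agent.Lib.PT

section rule

variable {σ β : Type} [PTCode σ] [PTCode β] [Finite σ]

/-- a rule on finite types, read off a list, is poly-time -/
theorem ptf_rule (d : σ) : ∀ (J : ℕ) {τ : Type} [PTCode τ] [Finite τ] (G : τ → (Fin J → σ) → β),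
    PTF (fun p : τ × List σ => G p.1 (fun j => p.2.getD j d))
  | 0, τ, _, _, G => by
    refine PTF.of_eq (f := fun p : τ × List σ => (fun t => G t Fin.elim0) p.1)
      (PTF.comp (g := fun t => G t Fin.elim0) (PTF.of_finite _) PTF.fst) (fun p => ?_)
    show G p.1 Fin.elim0 = G p.1 _
    congr 1
    funext j
    exact j.elim0
  | J + 1, τ, _, _, G => by
    have ih := ptf_rule d J (τ := τ × σ) (fun t f => G t.1 (Fin.cons t.2 f))
    have h1 : PTF (fun p : τ × List σ => p.2.getD 0 d) :=
      PTF.getD (PTU.const 0) PTF.snd (PTF.const _)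
    have h2 : PTF (fun p : τ × List σ => p.2.drop 1) := PTF.drop (PTU.const 1) PTF.snd
    refine PTF.of_eq (PTF.comp ih ((PTF.fst.prodMk h1).prodMk h2)) (fun p => ?_)
    simp only
    congr 1
    funext j
    refine Fin.cases ?_ (fun i => ?_) j
    · simp
    · simp [List.getD_eq_getElem?_getD]

omit [PTCode β] [PTCode σ] [Finite σ] in
theorem exists_sz_le' (σ : Type) [Finite σ] [PTCode σ] : ∃ M : ℕ, ∀ x : σ, sz x ≤ M := by
  classical
  let _ := Fintype.ofFinite σ
  exact ⟨(Finset.univ : Finset σ).sup (fun x => sz x),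
    fun x => Finset.le_sup (f := fun x : σ => sz x) (Finset.mem_univ x)⟩

end rule

/-! ### one step -/

section defs

variable {σ τ π : Type}

/-- one synchronous step -/
def sync (F : τ → List σ → σ) (d : σ) (nb : List (τ × List ℕ)) (x : List σ) : List σ :=
  nb.map fun w => F w.1 (w.2.map fun v => x.getD v d)

/-- `L` synchronous steps -/
def syncN (F : τ → List σ → σ) (d : σ) (nb : List (τ × List ℕ)) (L : ℕ) (x : List σ) : List σ :=
  (sync F d nb)^[L] x

/-- the layers `0, .., L` -/
def syncL (F : τ → List σ → σ) (d : σ) (nb : List (τ × List ℕ)) (L : ℕ) (x : List σ) :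
    List (List σ) :=
  (List.range (L + 1)).map fun t => syncN F d nb (min t L) x

/-- unit descriptions with additional public data -/
def merge (nb : List (τ × List ℕ)) (pub : List π) : List ((τ × π) × List ℕ) :=
  List.zipWith (fun w q => ((w.1, q), w.2)) nb pub

/-- one step for every entry of `pub` -/
def syncT (F : τ × π → List σ → σ) (d : σ) (nb : List (τ × List ℕ)) (pub : List (List π))
    (x : List σ) : List σ :=
  pub.foldl (fun y q => sync F d (merge nb q) y) x

@[simp] theorem length_sync (F : τ → List σ → σ) (d : σ) (nb : List (τ × List ℕ)) (x : List σ) :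
    (sync F d nb x).length = nb.length := by simp [sync]

theorem syncN_succ (F : τ → List σ → σ) (d : σ) (nb : List (τ × List ℕ)) (L : ℕ) (x : List σ) :
    syncN F d nb (L + 1) x = sync F d nb (syncN F d nb L x) :=
  Function.iterate_succ_apply' _ _ _

end defs

/-! ### polynomial time -/

section ptf

variable {α σ τ π : Type} [PTCode α] [PTCode σ] [PTCode τ] [PTCode π]

theorem getD_min_length {α : Type} (l : List α) (n : ℕ) (d : α) :
    l.getD (min n l.length) d = l.getD n d := by
  rcases Nat.lt_or_ge n l.length with h | h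
  · rw [Nat.min_eq_left h.le]
  · rw [Nat.min_eq_right h, List.getD_eq_default _ _ le_rfl, List.getD_eq_default _ _ h]

theorem ptf_sync {F : τ → List σ → σ} (hF : PTF (fun p : τ × List σ => F p.1 p.2)) (d : σ)
    {nb : α → List (τ × List ℕ)} {x : α → List σ} (hnb : PTF nb) (hx : PTF x) :
    PTF (fun a => sync F d (nb a) (x a)) := by
  have h1 : PTF (fun q : (α × (τ × List ℕ)) × ℕ => x q.1.1) :=
    PTF.comp (g := x) hx (PTF.comp PTF.fst PTF.fst)
  have h2 : PTF₂ (fun (q : α × (τ × List ℕ)) (v : ℕ) => (x q.1).getD (min v (x q.1).length) d) :=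
    PTF.getD (PTF.natMinUn PTF.snd (PTU.length h1)) h1 (PTF.const _)
  have h3 : PTF (fun q : α × (τ × List ℕ) =>
      q.2.2.map fun v => (x q.1).getD (min v (x q.1).length) d) :=
    PTF.map (PTF.comp PTF.snd PTF.snd) h2
  have h4 : PTF₂ (fun (a : α) (w : τ × List ℕ) =>
      F w.1 (w.2.map fun v => (x a).getD (min v (x a).length) d)) :=
    PTF.comp hF ((PTF.comp PTF.fst PTF.snd).prodMk h3)
  refine PTF.of_eq (PTF.map hnb h4) (fun a => ?_)
  simp only [sync, getD_min_length]

theorem sz_sync_le {M : ℕ} (hM : ∀ s : σ, sz s ≤ M) (F : τ → List σ → σ) (d : σ)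
    (nb : List (τ × List ℕ)) (x : List σ) :
    sz (sync F d nb x) ≤ sz nb * (2 * M + 1) := by
  have h1 : sz (sync F d nb x) ≤ (sync F d nb x).length * (2 * M + 1) :=
    sz_list_le (fun a _ => hM a)
  rw [length_sync] at h1
  exact h1.trans (Nat.mul_le_mul_right _ (length_le_sz nb))

theorem ptf_syncN [Finite σ] {F : τ → List σ → σ} (hF : PTF (fun p : τ × List σ => F p.1 p.2))
    (d : σ) {nb : α → List (τ × List ℕ)} {L : α → ℕ} {x : α → List σ} (hnb : PTF nb)
    (hL : PTU L) (hx : PTF x) : PTF (fun a => syncN F d (nb a) (L a) (x a)) := by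
  obtain ⟨M, hM⟩ := exists_sz_le' σ
  have hstep : PTF₂ (fun (a : α) (y : List σ) => sync F d (nb a) y) :=
    ptf_sync hF d (PTF.comp (g := nb) hnb PTF.fst) PTF.snd
  refine PTF.iterate' (B := fun a => sz (x a) + sz (nb a) * (2 * M + 1)) hL hstep hx ?_ ?_
  · have h1 := hx.sz
    have h2 := hnb.sz
    exact h1.add (h2.mul (PB.const _))
  · intro a i _
    rcases i with _ | i
    · simp
    · rw [Function.iterate_succ_apply']
      have := sz_sync_le hM F d (nb a) ((sync F d (nb a))^[i] (x a))
      omega

theorem ptf_syncL [Finite σ] {F : τ → List σ → σ} (hF : PTF (fun p : τ × List σ => F p.1 p.2))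
    (d : σ) {nb : α → List (τ × List ℕ)} {L : α → ℕ} {x : α → List σ} (hnb : PTF nb)
    (hL : PTU L) (hx : PTF x) : PTF (fun a => syncL F d (nb a) (L a) (x a)) := by
  refine PTF.map (PTF.range (PTU.succ hL)) ?_
  have hL' : PTU (fun q : α × ℕ => min q.2 (L q.1)) := PTF.natMinUn PTF.snd (hL.comp PTF.fst)
  exact ptf_syncN hF d (PTF.comp (g := nb) hnb PTF.fst) hL' (PTF.comp (g := x) hx PTF.fst)

theorem ptf_merge {nb : α → List (τ × List ℕ)} {q : α → List π} (hnb : PTF nb) (hq : PTF q) :
    PTF (fun a => merge (nb a) (q a)) := by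
  have h : PTF (fun r : α × ((τ × List ℕ) × π) => ((r.2.1.1, r.2.2), r.2.1.2)) := by fun_prop
  have h1 := PTF.map (f := fun _ (r : (τ × List ℕ) × π) => ((r.1.1, r.2), r.1.2))
    (PTF.zip hnb hq) h
  refine PTF.of_eq h1 (fun a => ?_)
  rw [merge, List.zip, List.map_zipWith]

theorem ptf_syncT [Finite σ] {F : τ × π → List σ → σ}
    (hF : PTF (fun p : (τ × π) × List σ => F p.1 p.2))
    (d : σ) {nb : α → List (τ × List ℕ)} {pub : α → List (List π)} {x : α → List σ}
    (hnb : PTF nb) (hpub : PTF pub) (hx : PTF x) :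
    PTF (fun a => syncT F d (nb a) (pub a) (x a)) := by
  obtain ⟨M, hM⟩ := exists_sz_le' σ
  have hstep : PTF (fun p : α × List σ × List π => sync F d (merge (nb p.1) p.2.2) p.2.1) :=
    ptf_sync hF d (ptf_merge (PTF.comp (g := nb) hnb PTF.fst) (PTF.comp PTF.snd PTF.snd))
      (PTF.comp PTF.fst PTF.snd)
  refine PTF.foldl (f := fun a y q => sync F d (merge (nb a) q) y) hpub hstep hx
    (B := fun a => sz (x a) + sz (nb a) * (2 * M + 1)) ?_ ?_
  · have h1 := hx.sz
    have h2 := hnb.sz
    exact h1.add (h2.mul (PB.const _))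
  · intro a i _
    have key : ∀ (l : List (List π)) (y : List σ),
        sz (l.foldl (fun y q => sync F d (merge (nb a) q) y) y) ≤
          max (sz y) (sz (nb a) * (2 * M + 1)) := by
      intro l
      induction l with
      | nil => intro y; simp
      | cons q l ih =>
        intro y
        rw [List.foldl_cons]
        refine (ih _).trans ?_
        have h1 : sz (sync F d (merge (nb a) q) y) ≤
            (sync F d (merge (nb a) q) y).length * (2 * M + 1) := sz_list_le (fun a _ => hM a)
        rw [length_sync] at h1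
        have h2 : (merge (nb a) q).length ≤ sz (nb a) := by
          have := length_le_sz (nb a)
          simp only [merge, List.length_zipWith]
          omega
        have h3 := h1.trans (Nat.mul_le_mul_right _ h2)
        omega
    have := key ((pub a).take i) (x a)
    omega

end ptf

/-! ### semantics on tables -/

section tables

variable {σ τ π U : Type} {n J : ℕ}

/-- the table of a function on the units -/
def tabU (e : U ≃ Fin n) (X : U → σ) : List σ := List.ofFn fun i => X (e.symm i)

@[simp] theorem length_tabU (e : U ≃ Fin n) (X : U → σ) : (tabU e X).length = n := by simp [tabU]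

@[simp] theorem getD_tabU (e : U ≃ Fin n) (X : U → σ) (d : σ) (u : U) :
    (tabU e X).getD (e u) d = X u := by
  have h : ((e u : Fin n) : ℕ) < (tabU e X).length := by simp
  rw [List.getD_eq_getElem _ _ h]
  simp [tabU]

/-- the table of the unit descriptions -/
def nbU (e : U ≃ Fin n) (ty : U → τ) (nbr : Fin J → U → U) : List (τ × List ℕ) :=
  tabU e fun u => (ty u, (List.finRange J).map fun j => ((e (nbr j u) : Fin n) : ℕ))

theorem sync_tabU (F : τ → List σ → σ) (d : σ) (e : U ≃ Fin n) (ty : U → τ)
    (nbr : Fin J → U → U) (X : U → σ) :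
    sync F d (nbU e ty nbr) (tabU e X) =
      tabU e fun u => F (ty u) ((List.finRange J).map fun j => X (nbr j u)) := by
  have h : ∀ w : τ × List ℕ, ∀ u : U,
      w = (ty u, (List.finRange J).map fun j => ((e (nbr j u) : Fin n) : ℕ)) →
      F w.1 (w.2.map fun v => (tabU e X).getD v d) =
        F (ty u) ((List.finRange J).map fun j => X (nbr j u)) := by
    rintro w u rfl
    simp only [List.map_map]
    congr 1
    apply List.map_congr_left
    intro j _
    exact getD_tabU e X d _
  rw [sync, nbU]
  apply List.ext_getElem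
  · simp
  · intro i h1 h2
    rw [List.getElem_map]
    have h3 : i < n := by simpa using h2
    have e1 : (tabU e fun u => F (ty u) ((List.finRange J).map fun j => X (nbr j u)))[i] =
        F (ty (e.symm ⟨i, h3⟩)) ((List.finRange J).map fun j => X (nbr j (e.symm ⟨i, h3⟩))) := by
      simp [tabU]
    rw [e1]
    refine h _ _ ?_
    simp [tabU]

/-- the `L`-fold update -/
def upd (F : τ → List σ → σ) (ty : U → τ) (nbr : Fin J → U → U) (X : U → σ) : U → σ :=
  fun u => F (ty u) ((List.finRange J).map fun j => X (nbr j u))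

theorem syncN_tabU (F : τ → List σ → σ) (d : σ) (e : U ≃ Fin n) (ty : U → τ)
    (nbr : Fin J → U → U) (L : ℕ) (X : U → σ) :
    syncN F d (nbU e ty nbr) L (tabU e X) = tabU e ((upd F ty nbr)^[L] X) := by
  induction L with
  | zero => rfl
  | succ L ih =>
    rw [syncN_succ, ih, sync_tabU, Function.iterate_succ_apply']
    rfl

theorem merge_tabU (e : U ≃ Fin n) (ty : U → τ) (nbr : Fin J → U → U) (q : U → π) :
    merge (nbU e ty nbr) (tabU e q) = nbU e (fun u => (ty u, q u)) nbr := by
  rw [merge, nbU, nbU, tabU, tabU, tabU]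
  apply List.ext_getElem
  · simp
  · intro i h1 h2
    simp

theorem syncT_tabU (F : τ × π → List σ → σ) (d : σ) (e : U ≃ Fin n) (ty : U → τ)
    (nbr : Fin J → U → U) (pub : List (U → π)) (X : U → σ) :
    syncT F d (nbU e ty nbr) (pub.map (tabU e)) (tabU e X) =
      tabU e (pub.foldl (fun Y q => upd F (fun u => (ty u, q u)) nbr Y) X) := by
  induction pub generalizing X with
  | nil => rfl
  | cons q pub ih =>
    rw [syncT, List.map_cons, List.foldl_cons, merge_tabU, sync_tabU, List.foldl_cons]
    exact ih _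

/-- a rule with a fixed number of arguments -/
def ofRule (G : τ → (Fin J → σ) → σ) (d : σ) : τ → List σ → σ := fun t l => G t fun j => l.getD j d

theorem ptf_ofRule [PTCode σ] [PTCode τ] [Finite σ] [Finite τ] (G : τ → (Fin J → σ) → σ) (d : σ) :
    PTF (fun p : τ × List σ => ofRule G d p.1 p.2) := ptf_rule d J G

theorem upd_ofRule (G : τ → (Fin J → σ) → σ) (d : σ) (ty : U → τ) (nbr : Fin J → U → U)
    (X : U → σ) (u : U) : upd (ofRule G d) ty nbr X u = G (ty u) fun j => X (nbr j u) := by
  simp only [upd, ofRule]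
  congr 1
  funext j
  rw [List.getD_eq_getElem?_getD]
  simp

end tables

end Crest.Agent.R289.Sync901
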