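import Crest.Agent.R289.Dec_589
import Crest.Agent.R289.DefD_721
import Crest.Agent.R289.Sync_901

/-!
# Row 289, block D, leaf D4b (helper950): the decoder of a state near a legal word

* `ptf_boolFn`: a function of finitely many poly-time bits is poly-time.
* `klift_some`: on total arrays the forced-value extension is the unit function itself.
* `decRule R`: the local correction of `LRules.data` as a row rule of `Dec589.round`; `ptf_decRule`.
* `round_eq`: one round on a table = one step of `stepC`.
* `iter_exact` / `decode_exact`: if the array is within `r0` of a legal word `w`, then `T` rounds,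
  `n < 4 ^ T`, turn the table of rounded bits into exactly the table of `w`.
-/

set_option autoImplicit false
set_option linter.dupNamespace false

namespace Crest.Agent.R289.DecD950

open Crest.Agent.Lib.PT Crest.Agent.R289 Crest.Agent.R289.DefD Crest.Agent.R289.Dec589

section ptf

variable {γ β : Type} [PTCode γ] [PTCode β]

/-- a function of finitely many poly-time bits is poly-time -/
theorem ptf_boolFn : ∀ (m : ℕ) (F : (Fin m → Bool) → β) (b : Fin m → γ → Bool),
    (∀ i, PTF (b i)) → PTF (fun c => F (fun i => b i c))
  | 0, F, b, _ => by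
    refine (PTF.const (F Fin.elim0)).of_eq fun c => ?_
    congr 1
    funext i
    exact i.elim0
  | m + 1, F, b, hb => by
    have h1 := ptf_boolFn m (fun g => F (Fin.cons true g)) (fun i => b i.succ) fun i => hb _
    have h0 := ptf_boolFn m (fun g => F (Fin.cons false g)) (fun i => b i.succ) fun i => hb _
    refine (PTF.cond (hb 0) h1 h0).of_eq fun c => ?_
    have key : (fun i => b i c) = Fin.cons (b 0 c) (fun i : Fin m => b i.succ c) := by
      funext i
      refine Fin.cases ?_ (fun i => ?_) i <;> simp
    rw [key]
    cases b 0 c <;> rfl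

end ptf

section rule

variable {k l r n : ℕ}

/-- the table of a word of labels -/
def tabW (X : Fin n → Fin l → Bool) : List (List Bool) := List.ofFn fun u => List.ofFn (X u)

/-- the array read off a table -/
def arr (n l : ℕ) (A : List (List Bool)) : Fin n → Fin l → Bool :=
  fun u j => (A.getD u []).getD j false

@[simp] theorem length_tabW (X : Fin n → Fin l → Bool) : (tabW X).length = n := by simp [tabW]

theorem tabW_getD (X : Fin n → Fin l → Bool) (u : Fin n) : (tabW X).getD u [] = List.ofFn (X u) := by
  simp [tabW, List.getD_eq_getElem?_getD]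

@[simp] theorem arr_tabW (X : Fin n → Fin l → Bool) : arr n l (tabW X) = X := by
  funext u j
  rw [arr, tabW_getD]
  simp [List.getD_eq_getElem?_getD]

/-- bits of the code of the public bits -/
def pubOf (r t : ℕ) : Fin r → Bool := fun i => t.testBit i

/-- the local correction as a row rule: type `t` codes the public bits -/
def decRule (R : LRules k l r) (t : ℕ) (rows : List (List Bool)) : List Bool :=
  List.ofFn (R.corr (fun i j => (rows.getD i []).getD j false) (pubOf r t))

theorem ptf_decRule {γ : Type} [PTCode γ] (R : LRules k l r) {t : γ → ℕ}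
    {rows : γ → List (List Bool)} (ht : PTF t) (hr : PTF rows) :
    PTF (fun c => decRule R (t c) (rows c)) := by
  have key := ptf_boolFn (γ := γ) (k * l + r)
    (fun b => List.ofFn (R.corr
      (fun i j => b (Fin.castAdd r (finProdFinEquiv (i, j)))) (fun i => b (Fin.natAdd (k * l) i))))
    (fun m c => Fin.addCases (motive := fun _ => Bool)
      (fun ij => ((rows c).getD (finProdFinEquiv.symm ij).1 []).getD
        ((finProdFinEquiv.symm ij).2 : Fin l) false)
      (fun i => (t c).testBit i) m) ?_
  · refine key.of_eq fun c => ?_
    unfold decRule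
    congr 1
    congr 1
    · funext i j
      simp only [Fin.addCases_left, Equiv.symm_apply_apply]
    · funext i
      simp only [Fin.addCases_right, pubOf]
  · intro m
    refine Fin.addCases (fun ij => ?_) (fun i => ?_) m
    · simp only [Fin.addCases_left]
      exact getDN (PTF.const _) (getDN (PTF.const _) hr (PTF.const _)) (PTF.const _)
    · simp only [Fin.addCases_right]
      exact PTF.natTestBit ht (PTF.const _)

/-- on total arrays the forced-value extension is the unit function -/
theorem klift_some {U β : Type} (f : (Fin k → Fin l → Bool) → (Fin r → Bool) → β)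
    (nb : Fin k → U → U) (pub : U → Fin r → Bool) (X : U → Fin l → Bool) (u : U) :
    klift f nb pub (fun v => some (X v)) u = some (f (fun i => X (nb i u)) (pub u)) := by
  unfold klift
  have hx : ∀ x : Fin k → Fin l → Bool,
      (∀ i y, (some (X (nb i u)) : Option (Fin l → Bool)) = some y → x i = y) →
        f x (pub u) = f (fun i => X (nb i u)) (pub u) := by
    intro x hx
    congr 1
    funext i
    exact hx i _ rfl
  have h : ∃ g : β, ∀ x : Fin k → Fin l → Bool,
      (∀ i y, (some (X (nb i u)) : Option (Fin l → Bool)) = some y → x i = y) →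
        f x (pub u) = g := ⟨_, hx⟩
  rw [dif_pos h]
  congr 1
  have := h.choose_spec (fun i => X (nb i u)) (fun i y hy => Option.some.inj hy)
  exact this.symm

/-- one synchronous step of the local correction on total arrays -/
def stepC (R : LRules k l r) (nb : Fin k → Fin n → Fin n) (pub : Fin n → Fin r → Bool)
    (X : Fin n → Fin l → Bool) : Fin n → Fin l → Bool :=
  fun u => R.corr (fun i => X (nb i u)) (pub u)

/-- the unit list describes neighbours and public bits -/
structure Describes (G : Units) (nb : Fin k → Fin n → Fin n) (pub : Fin n → Fin r → Bool) :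
    Prop where
  len : G.length = n
  ty : ∀ (u : Fin n) (i : Fin r), (G.ty u).testBit i = pub u i
  nblen : ∀ u : Fin n, k ≤ (G.getD u (0, [])).2.length
  nbr : ∀ (u : Fin n) (i : Fin k), G.nbr u i = nb i u

theorem round_eq (R : LRules k l r) {G : Units} {nb : Fin k → Fin n → Fin n}
    {pub : Fin n → Fin r → Bool} (hG : Describes G nb pub) (A : List (List Bool)) :
    round (decRule R) l G A = tabW (stepC R nb pub (arr n l A)) := by
  apply List.ext_getElem
  · rw [round_length, length_tabW, hG.len]
  · intro u h1 h2
    rw [length_tabW] at h2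
    have hu : u < G.length := hG.len ▸ h2
    have e1 : (round (decRule R) l G A)[u] = (round (decRule R) l G A).getD u [] := by
      rw [List.getD_eq_getElem _ _ h1]
    have e2 : (tabW (stepC R nb pub (arr n l A)))[u]'(by rw [length_tabW]; exact h2) =
        (tabW (stepC R nb pub (arr n l A))).getD u [] := by
      rw [List.getD_eq_getElem _ _ (by rw [length_tabW]; exact h2)]
    rw [e1, e2, round_getD _ _ _ _ hu]
    have e3 := tabW_getD (stepC R nb pub (arr n l A)) ⟨u, h2⟩
    simp only at e3
    rw [e3]
    have e4 : (decRule R (G.ty u) ((G.getD u (0, [])).2.map fun v => A.getD v [])).take l =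
        decRule R (G.ty u) ((G.getD u (0, [])).2.map fun v => A.getD v []) := by
      apply List.take_of_length_le
      simp [decRule]
    rw [e4, decRule, stepC]
    congr 1
    congr 1
    · funext i j
      have hl := hG.nblen ⟨u, h2⟩
      have hi : (i : ℕ) < (G.getD u (0, [])).2.length := lt_of_lt_of_le i.2 hl
      have hnb := hG.nbr ⟨u, h2⟩ i
      rw [Units.nbr, List.getD_eq_getElem _ _ hi] at hnb
      have e5 : ((G.getD u (0, [])).2.map fun v => A.getD v []).getD i [] =
          A.getD (nb i ⟨u, h2⟩) [] := by
        rw [List.getD_eq_getElem _ _ (by simpa using hi), List.getElem_map]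
        exact congrArg (fun v => A.getD v []) hnb
      rw [e5, arr]
    · funext i
      exact hG.ty ⟨u, h2⟩ i

end rule

section exact

variable {k l r n : ℕ}

theorem frac_nonneg {U : Type} [Fintype U] (p : U → Prop) : 0 ≤ frac p := by
  unfold frac
  positivity

theorem frac_le_one {U : Type} [Fintype U] (p : U → Prop) : frac p ≤ 1 := by
  classical
  unfold frac
  apply div_le_one_of_le₀
  · exact_mod_cast Finset.card_le_univ _
  · positivity

theorem frac_mono {U : Type} [Fintype U] {p q : U → Prop} (h : ∀ u, p u → q u) :
    frac p ≤ frac q := by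
  classical
  unfold frac
  apply div_le_div_of_nonneg_right _ (by positivity)
  exact_mod_cast Finset.card_le_card (Finset.monotone_filter_right _ fun u _ hu => h u hu)

/-- a fraction below `1 / #U` is zero -/
theorem not_of_frac_lt {U : Type} [Fintype U] {p : U → Prop}
    (h : frac p * (Fintype.card U : ℝ) < 1) (u : U) : ¬ p u := by
  classical
  intro hu
  have hc : (0 : ℝ) < Fintype.card U := by
    have : 0 < Fintype.card U := Fintype.card_pos_iff.2 ⟨u⟩
    exact_mod_cast this
  unfold frac at h
  rw [div_mul_cancel₀ _ hc.ne'] at h
  have h1 : (Finset.univ.filter p).card < 1 := by exact_mod_cast h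
  have h2 : u ∈ Finset.univ.filter p := by simp [hu]
  have := Finset.card_pos.2 ⟨u, h2⟩
  omega

/-- iterated local correction reaches the legal word exactly -/
theorem iter_exact {R : LRules k l r} {nb : Fin k → Fin n → Fin n} {pub : Fin n → Fin r → Bool}
    {W : Set (Fin n → Fin l → Bool)} {w0 : Fin n → Fin l → Bool}
    {N M : (Fin n → Fin l → Bool) → (Fin n → Fin l → Bool)} {kc : MConst}
    (hAx : (R.data nb pub W w0 N M).Ax kc) {w : Fin n → Fin l → Bool} (hw : w ∈ W)
    (X : Fin n → Fin l → Bool) (hX : dist (fun u => some (X u)) w ≤ kc.r0) (T : ℕ)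
    (hT : n < 4 ^ T) : (stepC R nb pub)^[T] X = w := by
  have key : ∀ T, dist (fun u => some ((stepC R nb pub)^[T] X u)) w ≤ 1 / 4 ^ T ∧
      dist (fun u => some ((stepC R nb pub)^[T] X u)) w ≤ kc.r0 := by
    intro T
    induction T with
    | zero =>
      refine ⟨?_, hX⟩
      rw [pow_zero, div_one]
      exact frac_le_one _
    | succ T ih =>
      have h1 := hAx.corr_le w hw (fun u => some ((stepC R nb pub)^[T] X u)) ih.2
      have h2 : (R.data nb pub W w0 N M).corr (fun u => some ((stepC R nb pub)^[T] X u)) =
          fun u => some ((stepC R nb pub)^[T + 1] X u) := by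
        funext u
        rw [Function.iterate_succ_apply']
        exact klift_some R.corr nb pub _ u
      rw [h2] at h1
      have h0 : 0 ≤ dist (fun u => some ((stepC R nb pub)^[T] X u)) w := frac_nonneg _
      refine ⟨?_, by linarith [ih.2]⟩
      have h3 : (1 : ℝ) / 4 ^ (T + 1) = 1 / 4 ^ T / 4 := by rw [pow_succ]; ring
      rw [h3]
      linarith [ih.1]
  funext u
  have h1 := (key T).1
  have hn : (n : ℝ) < 4 ^ T := by exact_mod_cast hT
  have h2 : frac (fun u => (some ((stepC R nb pub)^[T] X u) : Option (Fin l → Bool)) ≠
      some (w u)) * (Fintype.card (Fin n) : ℝ) < 1 := by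
    rw [Fintype.card_fin]
    have hn0 : (0 : ℝ) < n := by exact_mod_cast u.pos
    have h4 : (0 : ℝ) < 4 ^ T := by positivity
    calc _ ≤ 1 / 4 ^ T * (n : ℝ) := mul_le_mul_of_nonneg_right h1 hn0.le
      _ < 1 / 4 ^ T * 4 ^ T := mul_lt_mul_of_pos_left hn (by positivity)
      _ = 1 := by rw [one_div, inv_mul_cancel₀ h4.ne']
  have h3 := not_of_frac_lt h2 u
  exact Option.some.inj (not_not.1 h3)

/-- **the decoder**: the array `As` of sharp labels is within `r0` of the legal word `w`, and the
table `A` agrees with `As` wherever the label is sharp; then `T ≥ 1` rounds of the row rule, `n < 4 ^ T`,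
give exactly the table of `w` -/
theorem decode_exact {R : LRules k l r} {nb : Fin k → Fin n → Fin n} {pub : Fin n → Fin r → Bool}
    {W : Set (Fin n → Fin l → Bool)} {w0 : Fin n → Fin l → Bool}
    {N M : (Fin n → Fin l → Bool) → (Fin n → Fin l → Bool)} {kc : MConst}
    (hAx : (R.data nb pub W w0 N M).Ax kc) {w : Fin n → Fin l → Bool} (hw : w ∈ W)
    {G : Units} (hG : Describes G nb pub) (hn : 0 < n)
    (As : Fin n → Option (Fin l → Bool)) (A : List (List Bool))
    (hA : ∀ u g, As u = some g → ∀ j : Fin l, (A.getD u []).getD j false = g j)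
    (hd : dist As w ≤ kc.r0) (T : ℕ) (hT : n < 4 ^ T) :
    (round (decRule R) l G)^[T] A = tabW w := by
  have h1 : dist (fun u => some (arr n l A u)) w ≤ kc.r0 := by
    refine le_trans (frac_mono fun u hu => ?_) hd
    intro he
    apply hu
    show some (arr n l A u) = some (w u)
    congr 1
    funext j
    exact hA u _ he j
  have h2 : ∀ T, (round (decRule R) l G)^[T + 1] A = tabW ((stepC R nb pub)^[T + 1] (arr n l A)) := by
    intro T
    induction T with
    | zero => exact round_eq R hG A
    | succ T ih =>
      rw [Function.iterate_succ_apply', ih, round_eq R hG, arr_tabW,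
        Function.iterate_succ_apply' (stepC R nb pub) (T + 1)]
  cases T with
  | zero => simp at hT; omega
  | succ T => rw [h2, iter_exact hAx hw _ h1 _ hT]

/-- columns `a .. a + l - 1` of a table -/
def cut (a l : ℕ) (A : List (List Bool)) : List (List Bool) := A.map fun row => (row.drop a).take l

theorem cut_getD (a l : ℕ) (A : List (List Bool)) (u j : ℕ) (hj : j < l) :
    ((cut a l A).getD u []).getD j false = (A.getD u []).getD (a + j) false := by
  unfold cut
  by_cases hu : u < A.length
  · simp [List.getD_eq_getElem?_getD, hj, List.getElem?_drop, hu]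
  · simp [List.getD_eq_getElem?_getD, not_lt.1 hu]

theorem ptf_cut {γ : Type} [PTCode γ] (a l : ℕ) {A : γ → List (List Bool)} (hA : PTF A) :
    PTF (fun c => cut a l (A c)) := by
  unfold cut
  refine PTF.map (f := fun (_ : γ) (row : List Bool) => (row.drop a).take l) hA ?_
  exact PTF.take (PTU.const l) (PTF.drop (PTU.const a) PTF.snd)

/-- the corrected table is poly-time (number of rounds in unary) -/
theorem ptf_decode {γ : Type} [PTCode γ] (R : LRules k l r) {T : γ → ℕ} {G : γ → Units}
    {A : γ → List (List Bool)} (hT : PTU T) (hG : PTF G) (hA : PTF A) :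
    PTF (fun c => (round (decRule R) l (G c))^[T c] (A c)) :=
  ptf_relax (f := fun _ => decRule R) (L := fun _ => l)
    (ptf_decRule R (γ := γ × ℕ × List (List Bool)) (by fun_prop) (by fun_prop))
    (PTU.const l) hT hG hA

end exact

end Crest.Agent.R289.DecD950
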