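import Mathlib
import Crest.Prelude.Def_GenCircuit

/-!
# Unit circuits

A *unit description* is a list `U` of pairs `(type, neighbours)`; unit `u` is the `u`-th entry, it
owns the nodes `u * S + s`, `s < S`.  A template is a list of gates whose node names `r` are read
as follows at unit `u`: `r < S` is slot `r` of the unit itself, and `r = (j + 1) * S + s` is slot
`s` of the `j`-th neighbour.
-/

set_option autoImplicit false

namespace Crest.Agent.R289.Units726

open Crest.PPADPCP

/-- rename all nodes of a gate -/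
def ren (f : ℕ → ℕ) : GGate → GGate
  | GGate.const α z => GGate.const α (f z)
  | GGate.scale α a z => GGate.scale α (f a) (f z)
  | GGate.copy a z => GGate.copy (f a) (f z)
  | GGate.add a b z => GGate.add (f a) (f b) (f z)
  | GGate.sub a b z => GGate.sub (f a) (f b) (f z)
  | GGate.less a b z => GGate.less (f a) (f b) (f z)
  | GGate.or a b z => GGate.or (f a) (f b) (f z)
  | GGate.and a b z => GGate.and (f a) (f b) (f z)
  | GGate.not a z => GGate.not (f a) (f z)

@[simp] theorem ren_out (f : ℕ → ℕ) (g : GGate) : (ren f g).out = f g.out := by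
  cases g <;> rfl

theorem gateOK_ren (ε : ℚ) (x : ℕ → ℚ) (f : ℕ → ℕ) (g : GGate) :
    gateOK ε x (ren f g) = gateOK ε (fun r => x (f r)) g := by
  cases g <;> rfl

theorem ren_WF {m M : ℕ} (f : ℕ → ℕ) (hf : ∀ r, r < M → f r < m) (g : GGate) (hg : g.WF M) :
    (ren f g).WF m := by
  cases g <;> simp only [ren, GGate.WF] at hg ⊢ <;> grind

/-- the node named `r` at unit `u` with neighbour list `nb` -/
def node (S u : ℕ) (nb : List ℕ) (r : ℕ) : ℕ :=
  if r < S then u * S + r else nb.getD (r / S - 1) 0 * S + r % S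

/-- the gates of unit `u` -/
def unitGates (S : ℕ) (tm : ℕ → List GGate) (u : ℕ) (d : ℕ × List ℕ) : List GGate :=
  (tm d.1).map (ren (node S u d.2))

/-- all gates, starting with unit number `u` -/
def gatesFrom (S : ℕ) (tm : ℕ → List GGate) : ℕ → List (ℕ × List ℕ) → List GGate
  | _, [] => []
  | u, d :: U => unitGates S tm u d ++ gatesFrom S tm (u + 1) U

/-- the generalized circuit of a unit description -/
def asm (S : ℕ) (tm : ℕ → List GGate) (U : List (ℕ × List ℕ)) : GCircuit where
  m := U.length * S
  gates := gatesFrom S tm 0 U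

/-- a template with `S` slots and `J` neighbours is well formed -/
structure TWF (S J : ℕ) (t : List GGate) : Prop where
  wf : ∀ g ∈ t, g.WF ((J + 1) * S)
  out : ∀ g ∈ t, g.out < S
  nodup : (t.map GGate.out).Nodup

/-- a unit description is well formed -/
structure UWF (T J : ℕ) (U : List (ℕ × List ℕ)) : Prop where
  ne : U ≠ []
  ty : ∀ d ∈ U, d.1 < T
  len : ∀ d ∈ U, d.2.length = J
  nb : ∀ d ∈ U, ∀ v ∈ d.2, v < U.length

theorem node_lt {S J n u : ℕ} (hS : 0 < S) {nb : List ℕ} (hu : u < n) (hlen : nb.length = J)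
    (hnb : ∀ v ∈ nb, v < n) {r : ℕ} (hr : r < (J + 1) * S) : node S u nb r < n * S := by
  unfold node
  split_ifs with h
  · calc u * S + r < u * S + S := by omega
      _ = (u + 1) * S := by ring
      _ ≤ n * S := Nat.mul_le_mul_right _ hu
  · have h1 : r / S - 1 < nb.length := by
      have : r / S < J + 1 := Nat.div_lt_of_lt_mul (by rw [Nat.mul_comm]; exact hr)
      have h2 : 1 ≤ r / S := (Nat.one_le_div_iff hS).2 (by omega)
      omega
    have h2 : nb.getD (r / S - 1) 0 < n := by
      rw [List.getD_eq_getElem _ _ h1]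
      exact hnb _ (List.getElem_mem h1)
    have h3 : r % S < S := Nat.mod_lt _ hS
    calc nb.getD (r / S - 1) 0 * S + r % S < nb.getD (r / S - 1) 0 * S + S := by omega
      _ = (nb.getD (r / S - 1) 0 + 1) * S := by ring
      _ ≤ n * S := Nat.mul_le_mul_right _ h2

theorem mem_gatesFrom {S : ℕ} {tm : ℕ → List GGate} {g : GGate} :
    ∀ {U : List (ℕ × List ℕ)} {u : ℕ}, g ∈ gatesFrom S tm u U ↔
      ∃ i, ∃ h : i < U.length, g ∈ unitGates S tm (u + i) U[i]
  | [], u => by simp [gatesFrom]
  | d :: U, u => by
    rw [gatesFrom, List.mem_append, mem_gatesFrom]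
    constructor
    · rintro (h | ⟨i, hi, h⟩)
      · exact ⟨0, by simp, by simpa using h⟩
      · refine ⟨i + 1, by simpa using hi, ?_⟩
        have : u + 1 + i = u + (i + 1) := by ring
        simpa [this] using h
    · rintro ⟨i, hi, h⟩
      rcases i with _ | i
      · exact Or.inl (by simpa using h)
      · refine Or.inr ⟨i, by simpa using hi, ?_⟩
        have : u + 1 + i = u + (i + 1) := by ring
        simpa [this] using h

theorem unit_out {S J : ℕ} {tm : ℕ → List GGate} {u : ℕ} {d : ℕ × List ℕ}
    (ht : TWF S J (tm d.1)) {g : GGate} (hg : g ∈ unitGates S tm u d) :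
    u * S ≤ g.out ∧ g.out < (u + 1) * S := by
  simp only [unitGates, List.mem_map] at hg
  obtain ⟨g', hg', rfl⟩ := hg
  have := ht.out g' hg'
  rw [ren_out, node, if_pos this]
  constructor
  · omega
  · calc u * S + g'.out < u * S + S := by omega
      _ = (u + 1) * S := by ring

theorem unit_nodup {S J : ℕ} {tm : ℕ → List GGate} {u : ℕ} {d : ℕ × List ℕ}
    (ht : TWF S J (tm d.1)) : ((unitGates S tm u d).map GGate.out).Nodup := by
  have h1 : (unitGates S tm u d).map GGate.out = ((tm d.1).map GGate.out).map (node S u d.2) := by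
    simp [unitGates, List.map_map, Function.comp_def]
  rw [h1]
  refine (List.nodup_map_iff_inj_on ht.nodup).2 ?_
  intro a ha b hb hab
  simp only [List.mem_map] at ha hb
  obtain ⟨ga, hga, rfl⟩ := ha
  obtain ⟨gb, hgb, rfl⟩ := hb
  have h1 := ht.out ga hga
  have h2 := ht.out gb hgb
  simp only [node, if_pos h1, if_pos h2] at hab
  omega

theorem gatesFrom_out {S J : ℕ} {tm : ℕ → List GGate} :
    ∀ {U : List (ℕ × List ℕ)} {u : ℕ}, (∀ d ∈ U, TWF S J (tm d.1)) →
      ∀ g ∈ gatesFrom S tm u U, u * S ≤ g.out := by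
  intro U u hU g hg
  rw [mem_gatesFrom] at hg
  obtain ⟨i, hi, hg⟩ := hg
  have := (unit_out (hU _ (List.getElem_mem hi)) hg).1
  calc u * S ≤ (u + i) * S := Nat.mul_le_mul_right _ (by omega)
    _ ≤ g.out := this

theorem gatesFrom_nodup {S J : ℕ} {tm : ℕ → List GGate} :
    ∀ {U : List (ℕ × List ℕ)} {u : ℕ}, (∀ d ∈ U, TWF S J (tm d.1)) →
      ((gatesFrom S tm u U).map GGate.out).Nodup
  | [], u, _ => by simp [gatesFrom]
  | d :: U, u, hU => by
    rw [gatesFrom, List.map_append, List.nodup_append]
    refine ⟨unit_nodup (hU d (by simp)), gatesFrom_nodup fun d' hd' => hU d' (by simp [hd']), ?_⟩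
    intro a ha b hb hab
    simp only [List.mem_map] at ha hb
    obtain ⟨ga, hga, rfl⟩ := ha
    obtain ⟨gb, hgb, rfl⟩ := hb
    have h1 := (unit_out (hU d (by simp)) hga).2
    have h2 := gatesFrom_out (fun d' hd' => hU d' (by simp [hd'])) gb hgb
    omega

theorem asm_WF {S J T : ℕ} (hS : 0 < S) {tm : ℕ → List GGate} (htm : ∀ t < T, TWF S J (tm t))
    (hne : ∀ t < T, tm t ≠ []) {U : List (ℕ × List ℕ)} (hU : UWF T J U) : (asm S tm U).WF := by
  refine ⟨?_, ?_, ?_⟩
  · obtain ⟨d, U', hU'⟩ := List.exists_cons_of_ne_nil hU.ne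
    have h1 : tm d.1 ≠ [] := hne _ (hU.ty d (by simp [hU']))
    simp only [asm, hU', gatesFrom, unitGates]
    intro h
    simp only [List.append_eq_nil_iff, List.map_eq_nil_iff] at h
    exact h1 h.1
  · intro g hg
    simp only [asm, mem_gatesFrom] at hg
    obtain ⟨i, hi, hg⟩ := hg
    simp only [unitGates, List.mem_map] at hg
    obtain ⟨g', hg', rfl⟩ := hg
    have hd : U[i] ∈ U := List.getElem_mem hi
    refine ren_WF (M := (J + 1) * S) _ (fun r hr => ?_) _ ((htm _ (hU.ty _ hd)).wf _ hg')
    rw [Nat.zero_add]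
    exact node_lt hS hi (hU.len _ hd) (hU.nb _ hd) hr
  · exact gatesFrom_nodup fun d hd => htm _ (hU.ty d hd)

/-- the local view of an assignment at unit `u` -/
def view (S : ℕ) (U : List (ℕ × List ℕ)) (x : ℕ → ℚ) (u : ℕ) (r : ℕ) : ℚ :=
  x (node S u (U.getD u (0, [])).2 r)

/-- unit `u` is good: all its gates are satisfied -/
def unitOK (ε : ℚ) (S : ℕ) (tm : ℕ → List GGate) (U : List (ℕ × List ℕ)) (x : ℕ → ℚ) (u : ℕ) :
    Bool :=
  (tm (U.getD u (0, [])).1).all fun g => gateOK ε (view S U x u) g

theorem unitOK_iff {ε : ℚ} {S : ℕ} {tm : ℕ → List GGate} {U : List (ℕ × List ℕ)} {x : ℕ → ℚ}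
    {u : ℕ} : unitOK ε S tm U x u = true ↔
      ∀ g ∈ tm (U.getD u (0, [])).1, gateOK ε (view S U x u) g = true := by
  simp [unitOK, List.all_eq_true]

theorem unitOK_eq {ε : ℚ} {S : ℕ} {tm : ℕ → List GGate} {U : List (ℕ × List ℕ)} {x : ℕ → ℚ}
    {u : ℕ} (hu : u < U.length) : unitOK ε S tm U x u =
      (unitGates S tm u U[u]).all (fun g => gateOK ε x g) := by
  have h1 : U.getD u (0, []) = U[u] := List.getD_eq_getElem _ _ hu
  have h2 : view S U x u = fun r => x (node S u U[u].2 r) := by
    funext r
    rw [view, h1]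
  rw [unitOK, unitGates, List.all_map, h1, h2]
  congr 1
  funext g
  rw [Function.comp_apply, gateOK_ren]

theorem countP_gatesFrom {S : ℕ} {tm : ℕ → List GGate} {ε : ℚ} {x : ℕ → ℚ} :
    ∀ (U : List (ℕ × List ℕ)) (u : ℕ), ((List.range U.length).filter fun i =>
        !((unitGates S tm (u + i) (U.getD i (0, []))).all fun g => gateOK ε x g)).length ≤
      (gatesFrom S tm u U).countP fun g => !gateOK ε x g
  | [], u => by simp
  | d :: U, u => by
    rw [gatesFrom, List.countP_append, List.length_cons, List.range_succ_eq_map,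
      List.filter_cons]
    have ih := countP_gatesFrom (S := S) (tm := tm) (ε := ε) (x := x) U (u + 1)
    have h2 : ((List.map Nat.succ (List.range U.length)).filter fun i =>
        !((unitGates S tm (u + i) ((d :: U).getD i (0, []))).all fun g => gateOK ε x g)).length =
        ((List.range U.length).filter fun i =>
        !((unitGates S tm (u + 1 + i) (U.getD i (0, []))).all fun g => gateOK ε x g)).length := by
      rw [List.filter_map, List.length_map]
      congr 1
      apply List.filter_congr
      intro i _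
      simp only [Function.comp_apply, Nat.succ_eq_add_one, List.getD_cons_succ]
      rw [show u + (i + 1) = u + 1 + i by ring]
    have h3 : (unitGates S tm u d).all (fun g => gateOK ε x g) = false →
        1 ≤ (unitGates S tm u d).countP fun g => !gateOK ε x g := by
      intro h
      rw [Nat.one_le_iff_ne_zero, ← Nat.pos_iff_ne_zero, List.countP_pos_iff]
      rw [List.all_eq_false] at h
      obtain ⟨g, hg, hg'⟩ := h
      exact ⟨g, hg, by simpa using hg'⟩
    by_cases h : (unitGates S tm u d).all (fun g => gateOK ε x g) = true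
    · rw [if_neg (by simpa using h), h2]
      omega
    · have h' : (unitGates S tm u d).all (fun g => gateOK ε x g) = false := by simpa using h
      rw [if_pos (by simpa using h'), List.length_cons, h2]
      have := h3 h'
      omega

/-- the number of bad units is at most the number of bad gates -/
theorem bad_units_le {S : ℕ} {tm : ℕ → List GGate} {ε : ℚ} (x : ℕ → ℚ)
    (U : List (ℕ × List ℕ)) :
    ((Finset.range U.length).filter fun u => unitOK ε S tm U x u = false).card ≤
      (asm S tm U).gates.countP fun g => !gateOK ε x g := by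
  refine le_trans (le_of_eq ?_) (countP_gatesFrom (S := S) (tm := tm) (ε := ε) (x := x) U 0)
  have h1 : (Finset.range U.length).filter (fun u => unitOK ε S tm U x u = false) =
      ((List.range U.length).filter fun i =>
        !((unitGates S tm (0 + i) (U.getD i (0, []))).all fun g => gateOK ε x g)).toFinset := by
    ext u
    simp only [Finset.mem_filter, Finset.mem_range, List.mem_toFinset, List.mem_filter,
      List.mem_range, Nat.zero_add, Bool.not_eq_true']
    constructor
    · rintro ⟨hu, h⟩
      refine ⟨hu, ?_⟩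
      rw [unitOK_eq hu] at h
      rw [List.getD_eq_getElem _ _ hu]
      exact h
    · rintro ⟨hu, h⟩
      refine ⟨hu, ?_⟩
      rw [unitOK_eq hu]
      rw [List.getD_eq_getElem _ _ hu] at h
      exact h
  rw [h1, List.toFinset_card_of_nodup (List.nodup_range.filter _)]

theorem gatesFrom_length_le {S B : ℕ} {tm : ℕ → List GGate} :
    ∀ {U : List (ℕ × List ℕ)} {u : ℕ}, (∀ d ∈ U, (tm d.1).length ≤ B) →
      (gatesFrom S tm u U).length ≤ B * U.length
  | [], u, _ => by simp [gatesFrom]
  | d :: U, u, hU => by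
    rw [gatesFrom, List.length_append, List.length_cons]
    have h1 := gatesFrom_length_le (S := S) (u := u + 1) fun d' hd' => hU d' (List.mem_cons_of_mem _ hd')
    have h2 : (unitGates S tm u d).length ≤ B := by
      simpa [unitGates] using hU d (by simp)
    calc (unitGates S tm u d).length + (gatesFrom S tm (u + 1) U).length
        ≤ B + B * U.length := add_le_add h2 h1
      _ = B * (U.length + 1) := by ring

theorem asm_gates_length_le {S B : ℕ} {tm : ℕ → List GGate} {U : List (ℕ × List ℕ)}
    (hU : ∀ d ∈ U, (tm d.1).length ≤ B) : (asm S tm U).gates.length ≤ B * U.length :=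
  gatesFrom_length_le hU

/-- if at most a `δ` fraction of the gates is bad, at most `δ * B * n` units are bad -/
theorem bad_units_frac {S B : ℕ} {tm : ℕ → List GGate} {ε δ : ℚ} (hδ : 0 ≤ δ) (x : ℕ → ℚ)
    {U : List (ℕ × List ℕ)} (hU : ∀ d ∈ U, (tm d.1).length ≤ B)
    (h : (((asm S tm U).gates.countP fun g => !gateOK ε x g : ℕ) : ℚ) ≤
      δ * (asm S tm U).gates.length) :
    ((((Finset.range U.length).filter fun u => unitOK ε S tm U x u = false).card : ℕ) : ℚ) ≤
      δ * B * U.length := by
  have h1 : ((((Finset.range U.length).filter fun u => unitOK ε S tm U x u = false).card : ℕ) : ℚ)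
      ≤ (((asm S tm U).gates.countP fun g => !gateOK ε x g : ℕ) : ℚ) := by
    exact_mod_cast bad_units_le x U
  have h2 : (((asm S tm U).gates.length : ℕ) : ℚ) ≤ ((B * U.length : ℕ) : ℚ) := by
    exact_mod_cast asm_gates_length_le hU
  calc _ ≤ _ := h1
    _ ≤ δ * (asm S tm U).gates.length := h
    _ ≤ δ * ((B * U.length : ℕ) : ℚ) := mul_le_mul_of_nonneg_left h2 hδ
    _ = δ * B * U.length := by push_cast; ring

end Crest.Agent.R289.Units726
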