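import Mathlib
import Crest.Agent.Lib.PT.ListFns2
import Crest.Agent.Lib.PT.ArithMore
import Crest.Agent.Lib.PT.OfTM
import Crest.Agent.R289.Units_726

/-!
# The assembly of a unit description is a poly-time map
-/

set_option autoImplicit false
set_option linter.dupNamespace false

namespace Crest.Agent.R289.Units726

open Crest.PPADPCP Crest.Agent.Lib.PT

/-- symbolic presentation of a template gate: `(true, r)` is the node named `r` -/
def items : GGate → List (Bool × ℕ)
  | GGate.const α z => [(false, 0), (false, α.num.natAbs), (false, α.den), (true, z)]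
  | GGate.scale α a z =>
      [(false, 1), (false, α.num.natAbs), (false, α.den), (true, a), (true, z)]
  | GGate.copy a z => [(false, 2), (true, a), (true, z)]
  | GGate.add a b z => [(false, 3), (true, a), (true, b), (true, z)]
  | GGate.sub a b z => [(false, 4), (true, a), (true, b), (true, z)]
  | GGate.less a b z => [(false, 5), (true, a), (true, b), (true, z)]
  | GGate.or a b z => [(false, 6), (true, a), (true, b), (true, z)]
  | GGate.and a b z => [(false, 7), (true, a), (true, b), (true, z)]
  | GGate.not a z => [(false, 8), (true, a), (true, z)]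

/-- value of a symbolic number -/
def iv (f : ℕ → ℕ) (it : Bool × ℕ) : ℕ := bif it.1 then f it.2 else it.2

theorem toNats_ren (f : ℕ → ℕ) (g : GGate) : (ren f g).toNats = (items g).map (iv f) := by
  cases g <;> rfl

/-- the list of numbers of the assembled circuit -/
def asmNats (S : ℕ) (tab : List (List GGate)) (U : List (ℕ × List ℕ)) : List ℕ :=
  U.length * S :: (U.map fun d => (tab.map List.length).getD (min d.1 tab.length) 0).sum ::
    (List.range (U.length * S) ++ ((List.range U.length).zip U).flatMap fun p =>
      ((tab.map fun t => t.flatMap items).getD (min p.2.1 tab.length) []).map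
        (iv fun r => if r < S then p.1 * S + r
          else p.2.2.getD (min (r / S - 1) p.2.2.length) 0 * S + r % S))

theorem getD_min {α : Type} (l : List α) (n m : ℕ) (hm : l.length ≤ m) (d : α) :
    l.getD (min n m) d = l.getD n d := by
  rcases le_total n m with h | h
  · rw [min_eq_left h]
  · rw [min_eq_right h, List.getD_eq_default _ _ hm, List.getD_eq_default _ _ (hm.trans h)]

theorem getD_map' {α β : Type} (f : α → β) (l : List α) (n : ℕ) (d : α) :
    (l.map f).getD n (f d) = f (l.getD n d) := by
  rw [List.getD_eq_getElem?_getD, List.getD_eq_getElem?_getD, List.getElem?_map]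
  cases l[n]? <;> rfl

theorem gatesFrom_flatMap (S : ℕ) (tab : List (List GGate)) :
    ∀ (U : List (ℕ × List ℕ)) (u : ℕ),
      (gatesFrom S (fun t => tab.getD t []) u U).flatMap GGate.toNats =
        ((List.range' u U.length).zip U).flatMap fun p =>
          ((tab.map fun t => t.flatMap items).getD (min p.2.1 tab.length) []).map
            (iv fun r => if r < S then p.1 * S + r
              else p.2.2.getD (min (r / S - 1) p.2.2.length) 0 * S + r % S)
  | [], u => by simp [gatesFrom]
  | d :: U, u => by
    rw [gatesFrom, List.flatMap_append, gatesFrom_flatMap S tab U (u + 1), List.length_cons,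
      List.range'_succ, List.zip_cons_cons, List.flatMap_cons]
    congr 1
    have h1 : (tab.map fun t => t.flatMap items).getD (min d.1 tab.length) [] =
        (tab.getD d.1 []).flatMap items := by
      rw [getD_min _ _ _ (by simp)]
      exact getD_map' (fun t : List GGate => t.flatMap items) tab d.1 []
    rw [h1]
    have h2 : (fun r => if r < S then u * S + r
        else d.2.getD (min (r / S - 1) d.2.length) 0 * S + r % S) = node S u d.2 := by
      funext r
      rw [node, getD_min _ _ _ le_rfl]
    show _ = List.map (iv fun r => if r < S then u * S + r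
        else d.2.getD (min (r / S - 1) d.2.length) 0 * S + r % S) _
    rw [h2, unitGates]
    induction tab.getD d.1 [] with
    | nil => rfl
    | cons g l ih =>
      rw [List.map_cons, List.flatMap_cons, List.flatMap_cons, List.map_append, ih, toNats_ren]

theorem gatesFrom_length (S : ℕ) (tab : List (List GGate)) :
    ∀ (U : List (ℕ × List ℕ)) (u : ℕ),
      (gatesFrom S (fun t => tab.getD t []) u U).length =
        (U.map fun d => (tab.map List.length).getD (min d.1 tab.length) 0).sum
  | [], u => by simp [gatesFrom]
  | d :: U, u => by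
    rw [gatesFrom, List.length_append, gatesFrom_length S tab U (u + 1), List.map_cons,
      List.sum_cons]
    congr 1
    rw [getD_min _ _ _ (by simp)]
    have := getD_map' (List.length (α := GGate)) tab d.1 []
    simp only [List.length_nil] at this
    rw [this]
    simp [unitGates]

theorem asm_encode (S : ℕ) (tab : List (List GGate)) (U : List (ℕ × List ℕ)) :
    (asm S (fun t => tab.getD t []) U).encode = (asmNats S tab U).flatMap natBits := by
  rw [GCircuit.encode, asmNats]
  simp only [asm]
  rw [gatesFrom_flatMap S tab U 0, gatesFrom_length S tab U 0, ← List.range_eq_range']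

section ptf

protected theorem ptf_natBits {α : Type} [PTCode α] {f : α → ℕ} (hf : PTF f) :
    PTF (fun a => natBits (f a)) := by
  unfold natBits
  refine PTF.append ?_ (PTF.const _)
  exact PTF.flatMap (PTF.natBits hf) (by pt_prop)

theorem ptf_asmNats (S : ℕ) (tab : List (List GGate)) : PTF (asmNats S tab) := by
  unfold asmNats
  refine PTF.listCons ?_ (PTF.listCons ?_ (PTF.append ?_ ?_))
  · exact PTF.natMul (PTU.toPTF (PTU.length PTF.id)) (PTF.const _)
  · refine PTF.natSum (PTF.map PTF.id ?_)
    refine PTF.getD (PTF.natMinUn (by pt_prop) (PTU.const _)) (PTF.const _) (PTF.const _)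
  · exact PTF.range (PTU.mul (PTU.length PTF.id) (PTU.const _))
  · refine PTF.flatMap (PTF.zip (PTF.range (PTU.length PTF.id)) PTF.id) ?_
    refine PTF.map (PTF.getD (PTF.natMinUn (by pt_prop) (PTU.const _)) (PTF.const _)
      (PTF.const _)) ?_
    unfold iv
    refine PTF.cond (by pt_prop) (PTF.ite (PTPred.natLt (by pt_prop) (PTF.const _)) ?_ ?_)
      (by pt_prop)
    · exact PTF.natAdd (PTF.natMul (by pt_prop) (PTF.const _)) (by pt_prop)
    · refine PTF.natAdd (PTF.natMul (PTF.getD ?_ (by pt_prop) (PTF.const _)) (PTF.const _))
        (PTF.natMod (by pt_prop) (PTF.const _))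
      refine PTF.natMinUn (PTF.natSub (PTF.natDiv (by pt_prop) (PTF.const _)) (PTF.const _)) ?_
      exact PTU.length (by pt_prop)

/-- the assembly map is poly-time -/
theorem ptf_asm_encode (S : ℕ) (tab : List (List GGate)) :
    PTF (fun U : List (ℕ × List ℕ) => (asm S (fun t => tab.getD t []) U).encode) := by
  refine PTF.of_eq (f := fun U => (asmNats S tab U).flatMap natBits) ?_
    (fun U => (asm_encode S tab U).symm)
  exact PTF.flatMap (ptf_asmNats S tab) (Units726.ptf_natBits PTF.snd)

end ptf

section size

theorem natBits_length (k : ℕ) : (natBits k).length = 2 * k.size + 2 := by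
  rw [natBits, List.length_append, List.length_flatMap]
  have : (k.bits.map fun d => [true, d].length) = List.replicate k.bits.length 2 := by
    rw [List.eq_replicate_iff]
    simp
  rw [this, List.sum_replicate, ← Nat.size_eq_bits_len]
  simp [Nat.mul_comm]

theorem flatMap_natBits_length_le {B : ℕ} {l : List ℕ} (h : ∀ k ∈ l, k ≤ B) :
    (l.flatMap natBits).length ≤ l.length * (2 * B.size + 2) := by
  induction l with
  | nil => simp
  | cons k l ih =>
    rw [List.flatMap_cons, List.length_append, natBits_length, List.length_cons]
    have h1 := ih fun k hk => h k (by simp [hk])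
    have h2 : k.size ≤ B.size := Nat.size_le_size (h k (by simp))
    calc 2 * k.size + 2 + (l.flatMap natBits).length
        ≤ (2 * B.size + 2) + l.length * (2 * B.size + 2) := by omega
      _ = (l.length + 1) * (2 * B.size + 2) := by ring

/-- all numbers of a presentation of a gate are bounded -/
theorem toNats_le {g : GGate} {m c : ℕ} (hg : g.WF m) (hc : ∀ k ∈ items g, k.1 = false → k.2 ≤ c) :
    ∀ k ∈ g.toNats, k ≤ m + c := by
  cases g <;> simp [GGate.toNats, ratNats, items, GGate.WF] at hg hc ⊢ <;> omega

theorem toNats_length_le (g : GGate) : g.toNats.length ≤ 5 := by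
  cases g <;> simp [GGate.toNats, ratNats]

theorem size_mul_le (a b : ℕ) : (a * b).size ≤ a.size + b.size := by
  rw [Nat.size_le, pow_add]
  exact Nat.mul_lt_mul'' (Nat.lt_size_self a) (Nat.lt_size_self b)

theorem size_le_clog (n : ℕ) : n.size ≤ Nat.clog 2 (n + 2) := by
  rw [Nat.size_le]
  have := Nat.le_pow_clog (b := 2) (by norm_num) (n + 2)
  omega

theorem one_le_clog (n : ℕ) : 1 ≤ Nat.clog 2 (n + 2) := by
  have h := Nat.le_pow_clog (b := 2) (by norm_num) (n + 2)
  rcases Nat.eq_zero_or_pos (Nat.clog 2 (n + 2)) with h0 | h0
  · rw [h0] at h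
    omega
  · exact h0

/-- the encoding length of an assembled circuit is `O(n log n)` -/
theorem asm_encode_length_le {S J T B c : ℕ} {tab : List (List GGate)} (hS : 0 < S)
    (htm : ∀ t < T, TWF S J (tab.getD t [])) (hB : ∀ t < T, (tab.getD t []).length ≤ B)
    (hc : ∀ t < T, ∀ g ∈ tab.getD t [], ∀ k ∈ items g, k.1 = false → k.2 ≤ c)
    {U : List (ℕ × List ℕ)} (hU : UWF T J U) :
    (asm S (fun t => tab.getD t []) U).encode.length ≤
      ((2 + S + 5 * B) * (2 * (S + B + c).size + 4)) * (U.length * Nat.clog 2 (U.length + 2)) := by
  set n := U.length with hn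
  have hn1 : 1 ≤ n := List.length_pos_iff.2 hU.ne
  set G := asm S (fun t => tab.getD t []) U with hG
  have hGm : G.m = n * S := rfl
  have hgl : G.gates.length ≤ B * n := asm_gates_length_le fun d hd => hB _ (hU.ty d hd)
  have hgate : ∀ g ∈ G.gates, g.WF G.m ∧ ∀ k ∈ items g, k.1 = false → k.2 ≤ c := by
    intro g hg
    rw [hG] at hg
    simp only [asm, mem_gatesFrom] at hg
    obtain ⟨i, hi, hg⟩ := hg
    simp only [unitGates, List.mem_map] at hg
    obtain ⟨g', hg', rfl⟩ := hg
    have hd : U[i] ∈ U := List.getElem_mem hi
    refine ⟨ren_WF (M := (J + 1) * S) _ (fun r hr => ?_) _ ((htm _ (hU.ty _ hd)).wf _ hg'), ?_⟩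
    · rw [Nat.zero_add]
      exact node_lt hS hi (hU.len _ hd) (hU.nb _ hd) hr
    · intro k hk hk1
      have h3 := hc _ (hU.ty _ hd) g' hg'
      have h4 : ∀ (f : ℕ → ℕ) (g : GGate), (∀ k ∈ items g, k.1 = false → k.2 ≤ c) →
          ∀ k ∈ items (ren f g), k.1 = false → k.2 ≤ c := by
        intro f g
        cases g <;> simp [ren, items]
      exact h4 _ _ h3 k hk hk1
  have hC : n * S + B * n + c ≤ (S + B + c) * n := by nlinarith
  have hle : ∀ k ∈ (G.m :: G.gates.length :: (List.range G.m ++ G.gates.flatMap GGate.toNats)),
      k ≤ (S + B + c) * n := by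
    intro k hk
    simp only [List.mem_cons, List.mem_append, List.mem_range, List.mem_flatMap] at hk
    rcases hk with rfl | rfl | hk | ⟨g, hg, hk⟩
    · rw [hGm]; omega
    · omega
    · rw [hGm] at hk; omega
    · have := toNats_le (hgate g hg).1 (hgate g hg).2 k hk
      rw [hGm] at this
      omega
  have hlen : (G.m :: G.gates.length :: (List.range G.m ++
      G.gates.flatMap GGate.toNats)).length ≤ (2 + S + 5 * B) * n := by
    simp only [List.length_cons, List.length_append, List.length_range]
    have h5 : ∀ l : List GGate, (l.flatMap GGate.toNats).length ≤ 5 * l.length := by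
      intro l
      induction l with
      | nil => simp
      | cons g l ih =>
        rw [List.flatMap_cons, List.length_append, List.length_cons]
        have := toNats_length_le g
        omega
    have h6 := h5 G.gates
    rw [hGm]
    nlinarith
  have h1 := flatMap_natBits_length_le hle
  have h2 : ((S + B + c) * n).size ≤ (S + B + c).size + Nat.clog 2 (n + 2) :=
    (size_mul_le _ _).trans (Nat.add_le_add_left (size_le_clog n) _)
  have h3 := one_le_clog n
  set q := Nat.clog 2 (n + 2) with hq
  set z := (S + B + c).size with hz
  have h4 : 2 * ((S + B + c) * n).size + 2 ≤ (2 * z + 4) * q := by nlinarith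
  calc G.encode.length ≤ _ := h1
    _ ≤ ((2 + S + 5 * B) * n) * ((2 * z + 4) * q) := Nat.mul_le_mul hlen h4
    _ = ((2 + S + 5 * B) * (2 * z + 4)) * (n * q) := by ring

end size

end Crest.Agent.R289.Units726
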