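import Crest.Agent.R289.GlueD_194
import Crest.Agent.R289.DecD_950
import Crest.Agent.R289.UnitsPT_726
import Crest.Agent.R289.Asm_12

/-!
# Row 289, block D, leaf D4, part 2: families with exact-word decoders (`Fam289`, post 5950)
-/

set_option autoImplicit false

namespace Crest.Agent.R289.GlueD194

open Crest.PPADPCP Crest.Agent.Lib.PT Crest.Agent.R289 Crest.Agent.R289.DefD
open Crest.Agent.R289.Tab858 Crest.Agent.R289.Dec589 Crest.Agent.R289.Sampler56
open Crest.Agent.R289.DecD950

/-- the machine of local rules -/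
noncomputable def mkR {k l r : ℕ} (R : LRules k l r) : Mk k l r :=
  fun _ nb pub W w0 N M => R.data nb pub W w0 N M

/-! ### the code of an instance as a poly-time function of `raw` -/

/-- numbers of a coded gate -/
def gN (g : ℕ × ℕ × ℕ) : List ℕ := if g.1 = 1 ∨ g.1 = 2 then [g.1, g.2.1, g.2.2] else [g.1, g.2.1]

/-- numbers of a coded circuit -/
def cN (C : RawCirc) : List ℕ := C.1.length :: (C.1.flatMap gN) ++ C.2.length :: C.2

/-- bits of a coded instance -/
def eN (a : EI) : List Bool := (a.1 :: (cN a.2.1 ++ cN a.2.2)).flatMap natBits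

theorem gN_raw (g : BGate) : gN (rawBGate g) = g.toNats := by
  cases g <;> simp [gN, rawBGate, BGate.toNats]

theorem cN_raw {n : ℕ} (C : BCircuit n) : cN (rawC C) = C.toNats := by
  simp [cN, rawC, BCircuit.toNats, List.flatMap_map, gN_raw]

theorem eN_raw (I : EOL) : eN (raw I) = I.encode := by
  simp only [eN, raw, cN_raw, EOL.encode]

theorem ptf_gN : PTF gN := by
  unfold gN
  refine PTF.ite (PTPred.or (PTPred.natEq PTF.fst (PTF.const 1)) (PTPred.natEq PTF.fst (PTF.const 2)))
    ?_ ?_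
  · exact PTF.listCons PTF.fst (PTF.listCons (PTF.comp PTF.fst PTF.snd)
      (PTF.listCons (PTF.comp PTF.snd PTF.snd) (PTF.const [])))
  · exact PTF.listCons PTF.fst (PTF.listCons (PTF.comp PTF.fst PTF.snd) (PTF.const []))

theorem ptf_cN : PTF cN := by
  unfold cN
  refine PTF.append (PTF.listCons (PTU.toPTF (PTU.length PTF.fst)) ?_)
    (PTF.listCons (PTU.toPTF (PTU.length PTF.snd)) PTF.snd)
  exact PTF.flatMap (f := fun (_ : RawCirc) g => gN g) PTF.fst (PTF.comp ptf_gN PTF.snd)

theorem ptf_eN : PTF eN := by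
  unfold eN
  refine PTF.flatMap (f := fun (_ : EI) n => natBits n) (PTF.listCons PTF.fst (PTF.append ?_ ?_))
    (Units726.ptf_natBits PTF.snd)
  · exact PTF.comp ptf_cN (PTF.comp PTF.fst PTF.snd)
  · exact PTF.comp ptf_cN (PTF.comp PTF.snd PTF.snd)

/-- unary bound for the number of units -/
def bnd (A b : ℕ) (a : EI) : ℕ := A * (eN a).length * ((eN a).length + 2) ^ b

theorem ptu_bnd (A b : ℕ) : PTU (bnd A b) :=
  PTU.mul (PTU.mul (PTU.const A) (PTU.length ptf_eN))
    (PTU.pow (PTU.add (PTU.length ptf_eN) (PTU.const 2)) b)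

theorem le_bnd {A b n : ℕ} (I : EOL)
    (h : n ≤ A * I.encode.length * (Nat.clog 2 (I.encode.length + 2)) ^ b) : n ≤ bnd A b (raw I) := by
  rw [bnd, eN_raw]
  refine le_trans h (Nat.mul_le_mul_left _ (Nat.pow_le_pow_left ?_ _))
  exact Nat.clog_le_of_le_pow (Nat.lt_two_pow_self).le

/-! ### exact-word decoders -/

/-- type number of a unit for the decoder (public bits only) -/
def tyG (r : ℕ) (pb : ℕ → Bool) : ℕ := encN r pb

/-- the unit list of the decoder -/
def unitsG (k r n : ℕ) (nb : ℕ → ℕ → ℕ) (pb : ℕ → ℕ → Bool) : Units :=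
  mkU n k (fun u => tyG r (pb u)) nb

theorem describes_unitsG {k r n : ℕ} (nb : ℕ → ℕ → ℕ) (pb : ℕ → ℕ → Bool)
    (hnb : ∀ u < n, ∀ i < k, nb u i < n) :
    Describes (unitsG k r n nb pb) (fun i : Fin k => toF n fun u => nb u i)
      (fun (u : Fin n) (i : Fin r) => pb u i) := by
  constructor
  · exact mkU_length _ _ _ _
  · intro u i
    rw [unitsG, mkU_ty _ _ u.2, tyG, testBit_encN _ i.2]
  · intro u
    rw [unitsG, mkU_getD _ _ u.2]
    simp
  · intro u i
    rw [unitsG, mkU_nbr _ _ u.2 i.2]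
    simp [toF, hnb u u.2 i i.2]

theorem size_lt_pow (n : ℕ) : n < 4 ^ n.size := by
  refine lt_of_lt_of_le (Nat.lt_size_self n) ?_
  exact Nat.pow_le_pow_left (by norm_num) _

/-- the decoder of a family with an exact-word decoder `c` -/
def decX {k l r : ℕ} (R : LRules k l r) (G : EI → Units) (T : EI → ℕ)
    (c : EI × List (List Bool) → List (List Bool)) (p : EI × List (List Bool)) : List (List Bool) :=
  c (p.1, (round (decRule R) l (G p.1))^[T p.1] p.2)

theorem ptf_decX {k l r : ℕ} (R : LRules k l r) {G : EI → Units} {T : EI → ℕ}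
    {c : EI × List (List Bool) → List (List Bool)} (hG : PTF G) (hT : PTU T) (hc : PTF c) :
    PTF (decX R G T c) := by
  unfold decX
  exact PTF.comp hc (PTF.prodMk PTF.fst
    (ptf_decode R (PTU.comp hT PTF.fst) (PTF.comp hG PTF.fst) PTF.snd))

/-- constants with `d0` cut to `1` -/
noncomputable def cutC (kc : MConst) : MConst :=
  { kc with d0 := min kc.d0 1, d0_pos := lt_min kc.d0_pos one_pos }

theorem ax_cutC {U Γ : Type} [Fintype U] {D : MData U Γ} {kc : MConst} (h : D.Ax kc) :
    D.Ax (cutC kc) :=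
  { w0_mem := h.w0_mem
    N_mem := h.N_mem
    M_mem := h.M_mem
    MN := h.MN
    NM := h.NM
    M_w0 := h.M_w0
    N_w0 := h.N_w0
    sep := fun v hv w hw hvw => le_trans (min_le_left _ _) (h.sep v hv w hw hvw)
    sound := h.sound
    compl := h.compl
    corr_le := h.corr_le
    Nu_le := h.Nu_le
    Mu_le := h.Mu_le }

/-- what C delivers for the rules `R`, constants `kc` and the bound `n0` (post 5950 of helper12) -/
def FamAt {k l r : ℕ} (R : LRules k l r) (kc : MConst) (n0 : ℕ) : Prop :=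
  ∃ (A b : ℕ) (n : EI → ℕ) (nb : EI × ℕ × ℕ → ℕ) (pb wb : EI × ℕ × ℕ → Bool)
    (cA cB : EI × List (List Bool) → List (List Bool)),
    PTF n ∧ PTF nb ∧ PTF pb ∧ PTF wb ∧ PTF cA ∧ PTF cB ∧
    ∀ I : EOL, I.WF → n0 ≤ n (raw I) ∧ 0 < n (raw I) ∧
      n (raw I) ≤ A * I.encode.length * (Nat.clog 2 (I.encode.length + 2)) ^ b ∧
      (∀ i < k, ∀ u < n (raw I), nb (raw I, i, u) < n (raw I)) ∧
      ∃ (W : Set (Fin (n (raw I)) → Fin l → Bool))
        (N M : (Fin (n (raw I)) → Fin l → Bool) → (Fin (n (raw I)) → Fin l → Bool)),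
        (R.data (fun i => toF (n (raw I)) fun u => nb (raw I, i, u)) (fun u j => pb (raw I, u, j)) W
          (fun u j => wb (raw I, u, j)) N M).Ax kc ∧
        (∀ w ∈ W, N w = w → ∃ v, I.IsSolution v ∧ List.ofFn v ∈ cA (raw I, tabW w)) ∧
        (∀ w ∈ W, M w = w → w ≠ (fun (u : Fin (n (raw I))) (j : Fin l) => wb (raw I, u, j)) →
          ∃ v, I.IsSolution v ∧ List.ofFn v ∈ cB (raw I, tabW w))

theorem fam_of_famAt {k l r : ℕ} (R : LRules k l r) (kc : MConst) (n0 : ℕ) (h : FamAt R kc n0) :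
    Nonempty (Fam k l r (mkR R) (cutC kc) n0) := by
  obtain ⟨A, b, n, nb, pb, wb, cA, cB, hn, hnb, hpb, hwb, hcA, hcB, hI⟩ := h
  -- the number of units in unary
  let n' : EI → ℕ := fun a => min (n a) (bnd A b a)
  have hn' : PTU n' := PTF.natMinUn hn (ptu_bnd A b)
  have hG : PTF fun a : EI => unitsG k r (n' a) (fun u i => nb (a, i, u)) (fun u j => pb (a, u, j)) := by
    unfold unitsG
    refine ptf_mkU' (α := EI) k (ty := fun a u => tyG r fun j => pb (a, u, j))
      (nb := fun a u i => nb (a, i, u)) hn' ?_ fun i _ => ?_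
    · exact ptf_encN r (f := fun (p : EI × ℕ) j => pb (p.1, p.2, j)) fun j _ =>
        PTF.comp hpb (PTF.prodMk PTF.fst (PTF.prodMk PTF.snd (PTF.const j)))
    · exact PTF.comp hnb (PTF.prodMk PTF.fst (PTF.prodMk (PTF.const i) PTF.snd))
  have hT : PTU fun a : EI => (n' a).size := PTF.natSizeUn (PTU.toPTF hn')
  have hbits : ∀ (m : ℕ) (g : EI × ℕ × ℕ → Bool), PTF g →
      PTF (fun p : EI × ℕ => (List.range m).map fun j => g (p.1, p.2, j)) := by
    intro m g hg
    refine PTF.map (l := fun _ : EI × ℕ => List.range m) (f := fun p j => g (p.1, p.2, j))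
      (PTF.const _) ?_
    exact PTF.comp hg (PTF.prodMk (PTF.comp PTF.fst PTF.fst)
      (PTF.prodMk (PTF.comp PTF.snd PTF.fst) PTF.snd))
  refine ⟨{
    A := A
    b := b
    n := n'
    nb := fun a u i => nb (a, i, u)
    pb := fun a u => (List.range r).map fun j => pb (a, u, j)
    wb := fun a u => (List.range l).map fun j => wb (a, u, j)
    cA := decX R (fun a => unitsG k r (n' a) (fun u i => nb (a, i, u)) (fun u j => pb (a, u, j)))
      (fun a => (n' a).size) cA
    cB := decX R (fun a => unitsG k r (n' a) (fun u i => nb (a, i, u)) (fun u j => pb (a, u, j)))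
      (fun a => (n' a).size) cB
    ptu_n := hn'
    ptf_nb := fun i _ => PTF.comp hnb (PTF.prodMk PTF.fst (PTF.prodMk (PTF.const i) PTF.snd))
    ptf_pb := hbits r pb hpb
    ptf_wb := hbits l wb hwb
    ptf_cA := ptf_decX R hG hT hcA
    ptf_cB := ptf_decX R hG hT hcB
    n_ge := ?_
    nb_lt := ?_
    n_le := ?_
    mach := ?_ }⟩
  · intro I hW
    obtain ⟨h1, h2, h3, _⟩ := hI I hW
    have : n' (raw I) = n (raw I) := min_eq_left (le_bnd I h3)
    rw [this]
    exact ⟨h1, h2⟩
  · intro I hW u hu i hi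
    obtain ⟨h1, h2, h3, h4, _⟩ := hI I hW
    have : n' (raw I) = n (raw I) := min_eq_left (le_bnd I h3)
    rw [this] at hu ⊢
    exact h4 i hi u hu
  · intro I hW
    obtain ⟨h1, h2, h3, _⟩ := hI I hW
    exact le_trans (min_le_left _ _) h3
  · intro I hW
    obtain ⟨h1, h2, h3, h4, W, N, M, hAx, hdA, hdB⟩ := hI I hW
    have hnn : n' (raw I) = n (raw I) := min_eq_left (le_bnd I h3)
    rw [hnn]
    have ep : (fun (u : Fin (n (raw I))) (i : Fin r) =>
        ((List.range r).map fun j => pb (raw I, u, j)).getD i false) =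
        fun (u : Fin (n (raw I))) (i : Fin r) => pb (raw I, u, i) := by
      funext u i
      simp [List.getD_eq_getElem?_getD]
    have ew : (fun (u : Fin (n (raw I))) (j : Fin l) =>
        ((List.range l).map fun j => wb (raw I, u, j)).getD j false) =
        fun (u : Fin (n (raw I))) (j : Fin l) => wb (raw I, u, j) := by
      funext u i
      simp [List.getD_eq_getElem?_getD]
    have hdec : ∀ w ∈ W, ∀ X : Fin (n (raw I)) → Fin l → Bool, distW X w ≤ kc.r0 →
        (round (decRule R) l (unitsG k r (n (raw I)) (fun u i => nb (raw I, i, u))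
          (fun u j => pb (raw I, u, j))))^[(n (raw I)).size] (tabOf X) = tabW w := by
      intro w hw X hX
      refine decode_exact hAx hw (describes_unitsG _ _ fun u hu i hi => h4 i hi u hu) h2
        (fun u => some (X u)) (tabOf X) ?_ ?_ _ (size_lt_pow _)
      · intro u g hg j
        have : (tabOf X).getD u [] = List.ofFn (X u) := tabW_getD X u
        rw [this]
        cases hg
        simp [List.getD_eq_getElem?_getD]
      · refine le_trans (le_of_eq ?_) hX
        unfold DefD.dist distW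
        congr 1
        funext u
        simp
    refine ⟨W, N, M, R.data (fun i => toF (n (raw I)) fun u => nb (raw I, i, u))
      (fun u j => pb (raw I, u, j)) W (fun u j => wb (raw I, u, j)) N M, ?_, ax_cutC hAx, ?_, ?_⟩
    · rw [ep, ew]
      rfl
    · intro w hw hNw X hX
      obtain ⟨v, hv, hm⟩ := hdA w hw hNw
      refine ⟨v, hv, ?_⟩
      rw [decX, hnn, hdec w hw X hX]
      exact hm
    · intro w hw hw0 hMw X hX
      obtain ⟨v, hv, hm⟩ := hdB w hw hMw hw0
      refine ⟨v, hv, ?_⟩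
      rw [decX, hnn, hdec w hw X hX]
      exact hm

/-- a well formed instance -/
def iEx : EOL where
  n := 1
  S := ⟨[BGate.var 0, BGate.not 0], [1]⟩
  P := ⟨[BGate.var 0, BGate.not 0, BGate.and 0 1], [2]⟩

theorem iEx_wf : iEx.WF := by
  refine ⟨le_refl _, ⟨rfl, ?_, ?_⟩, ⟨rfl, ?_, ?_⟩, ?_, ?_, ?_⟩
  · intro o ho
    simp only [iEx, List.mem_singleton] at ho
    subst ho
    simp [iEx]
  · intro t
    fin_cases t <;> simp [iEx, BGate.WF]
  · intro o ho
    simp only [iEx, List.mem_singleton] at ho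
    subst ho
    simp [iEx]
  · intro t
    fin_cases t <;> simp [iEx, BGate.WF]
  · funext j
    have hj : (j : ℕ) = 0 := by
      have := j.2
      simp only [iEx] at this
      omega
    simp [iEx, BCircuit.apply, BCircuit.values, BGate.eval, hj]
  · intro h
    have := congrFun h ⟨0, by simp [iEx]⟩
    simp [iEx, BCircuit.apply, BCircuit.values, BGate.eval] at this
  · funext j
    have hj : (j : ℕ) = 0 := by
      have := j.2
      simp only [iEx] at this
      omega
    simp [iEx, BCircuit.apply, BCircuit.values, BGate.eval, hj]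

theorem d0_le_one {k l r : ℕ} {R : LRules k l r} {kc : MConst} {n0 : ℕ} (h : FamAt R kc n0) :
    kc.d0 ≤ 1 := by
  obtain ⟨A, b, n, nb, pb, wb, cA, cB, hn, hnb, hpb, hwb, hcA, hcB, hI⟩ := h
  obtain ⟨h1, h2, h3, h4, W, N, M, hAx, hdA, hdB⟩ := hI iEx iEx_wf
  refine le_trans (hAx.sep _ (hAx.N_mem _ hAx.w0_mem) _ hAx.w0_mem hAx.N_w0) ?_
  exact frac_le_one _

/-- **families with exact-word decoders give `Machine289`** -/
theorem machine289_of_famAt {k l r : ℕ} (R : LRules k l r) (kc : MConst)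
    (h1 : 5 * kc.γ < kc.r0) (h2 : 5 * kc.γ < kc.d0) (hD2 : D2Stm k l r (mkR R))
    (H : ∀ n0 : ℕ, FamAt R kc n0) : Machine289 := by
  have hγ := kc.γ_nn
  have h5 : kc.d0 ≤ 1 := d0_le_one (H 0)
  refine machine289_of (mk := mkR R) (cutC kc) ?_ ?_ ?_ hD2
    fun n0 => fam_of_famAt R kc n0 (H n0)
  · show 5 * kc.γ < kc.r0
    linarith
  · show 5 * kc.γ < min kc.d0 1
    refine lt_min ?_ ?_ <;> linarith
  · show min kc.d0 1 ≤ 1
    exact min_le_right _ _

/-- **block D, last arrow**: `D2` and the family of block C (literal `Asm12.Fam289`) give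
`Machine289` -/
theorem machine289_of_fam289 (hD2 : ∀ (k l r : ℕ) (R : LRules k l r), D2Stm k l r (mkR R))
    (H : Asm12.Fam289) : Machine289 := by
  obtain ⟨k, l, r, R, kc, h1, h2, h⟩ := H
  exact machine289_of_famAt R kc h1 h2 (hD2 k l r R) fun n0 => h n0

end Crest.Agent.R289.GlueD194
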