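import Crest.Agent.R289.Asm_331
import Crest.Agent.R289.GlueD2_194
import Crest.Agent.R289.D2_180

/-!
# Row 289, assembly (helper331): blocks D and E are closed

`S0434_of_fam289`: the literal statement S0434 from `Fam289` alone (D2 = 180, glue = 194, E = 901/217).
-/

set_option autoImplicit false

namespace Crest.Agent.R289.Asm331

open Crest.Agent.Lib.PT Crest.PPADPCP Crest.Agent.R289 Crest.Agent.R289.Asm12

/-- block D -/
theorem machine289_of_fam (H : Fam289) : Machine289 :=
  GlueD194.machine289_of_fam289 (fun _ _ _ R t z e δ κ h1 h2 h3 h4 h5 h6 h7 h8 h9 h10 =>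
    D2180.d2 R t z e δ κ h1 h2 h3 h4 h5 h6 h7 h8 h9 h10) H

/-- **S0434 from `Fam289`** -/
theorem S0434_of_fam289 (H : Fam289) : S0434Stm :=
  S0434_of_machine (machine289_of_fam H)

end Crest.Agent.R289.Asm331
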