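import Crest.Agent.R289.OrbitDim_962

/-!
# B1e: levels, cosets and the real form of expansion (row 289, block B)
-/

set_option linter.unusedSectionVars false

namespace Crest.Agent.R289.Tower962

open Crest.Agent.R289.TraceM962 Crest.Agent.R289.OrbitDim962
open scoped Matrix BigOperators

variable {ι : Type*} [Fintype ι]

section sums

variable {N N' : Type*} [Group N] [Fintype N] [DecidableEq N] [Group N'] [Fintype N']
  [DecidableEq N']

/-- size of the fibres of a homomorphism -/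
def fib (φ : N →* N') : ℕ := (Finset.univ.filter (fun x => φ x = 1)).card

lemma fib_pos (φ : N →* N') : 0 < fib φ :=
  Finset.card_pos.mpr ⟨1, by simp⟩

lemma card_fibre (φ : N →* N') (hφ : Function.Surjective φ) (y : N') :
    (Finset.univ.filter (fun x => φ x = y)).card = fib φ :=
  MonoidHom.card_fiber_eq_of_mem_range φ (hφ y) (hφ 1)

lemma sum_comp_hom {M : Type*} [AddCommMonoid M] (φ : N →* N') (hφ : Function.Surjective φ)
    (u : N' → M) : ∑ x, u (φ x) = fib φ • ∑ y, u y := by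
  rw [← Finset.sum_fiberwise Finset.univ (fun x => φ x), Finset.smul_sum]
  refine Finset.sum_congr rfl fun y _ => ?_
  rw [Finset.sum_congr rfl (g := fun _ => u y), Finset.sum_const, card_fibre φ hφ]
  intro x hx
  rw [(Finset.mem_filter.mp hx).2]

lemma card_eq_fib_mul (φ : N →* N') (hφ : Function.Surjective φ) :
    Fintype.card N = fib φ * Fintype.card N' := by
  have := sum_comp_hom φ hφ (fun _ => (1 : ℕ))
  simpa using this

/-- average over the fibres -/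
noncomputable def fbar (φ : N →* N') (f : N → ℂ) : N' → ℂ :=
  fun y => (fib φ : ℂ)⁻¹ * ∑ x ∈ Finset.univ.filter (fun x => φ x = y), f x

lemma sum_fbar (φ : N →* N') (f : N → ℂ) (w : N' → ℂ) :
    ∑ y, w y * fbar φ f y = (fib φ : ℂ)⁻¹ * ∑ x, w (φ x) * f x := by
  rw [← Finset.sum_fiberwise Finset.univ (fun x => φ x) (fun x => w (φ x) * f x), Finset.mul_sum]
  refine Finset.sum_congr rfl fun y _ => ?_
  have : ∑ x ∈ Finset.univ.filter (fun x => φ x = y), w (φ x) * f x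
      = w y * ∑ x ∈ Finset.univ.filter (fun x => φ x = y), f x := by
    rw [Finset.mul_sum]
    refine Finset.sum_congr rfl fun x hx => ?_
    rw [(Finset.mem_filter.mp hx).2]
  rw [this, fbar]
  ring

/-- `f` is orthogonal to the functions pulled back by `β` -/
def Orth {B : Type*} (β : N → B) (f : N → ℂ) : Prop := ∀ w : B → ℂ, ∑ x, w (β x) * f x = 0

lemma orth_new (φ : N →* N') (hφ : Function.Surjective φ) (f : N → ℂ) :
    Orth φ (fun x => f x - fbar φ f (φ x)) := by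
  intro w
  have h1 : ∑ x, w (φ x) * (f x - fbar φ f (φ x))
      = ∑ x, w (φ x) * f x - ∑ x, (fun y => w y * fbar φ f y) (φ x) := by
    rw [← Finset.sum_sub_distrib]
    refine Finset.sum_congr rfl fun x _ => ?_
    ring
  rw [h1, sum_comp_hom φ hφ (fun y => w y * fbar φ f y), nsmul_eq_mul, sum_fbar]
  have hc : (fib φ : ℂ) ≠ 0 := Nat.cast_ne_zero.mpr (fib_pos φ).ne'
  field_simp
  ring

lemma pyth (a b : N → ℂ) (h : ∑ x, (starRingEnd ℂ) (a x) * b x = 0) :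
    ∑ x, ‖a x + b x‖ ^ 2 = ∑ x, ‖a x‖ ^ 2 + ∑ x, ‖b x‖ ^ 2 := by
  have h1 : ∀ x, ‖a x + b x‖ ^ 2 = ‖a x‖ ^ 2 + ‖b x‖ ^ 2 + 2 * ((starRingEnd ℂ) (a x) * b x).re := by
    intro x
    rw [← Complex.normSq_eq_norm_sq, ← Complex.normSq_eq_norm_sq, ← Complex.normSq_eq_norm_sq,
      Complex.normSq_add]
    congr 2
    simp [Complex.mul_re, Complex.conj_re, Complex.conj_im]
  rw [Finset.sum_congr rfl fun x _ => h1 x, Finset.sum_add_distrib, Finset.sum_add_distrib,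
    ← Finset.mul_sum, ← Complex.re_sum, h]
  simp

lemma adj_add (t : ι → N) (f g : N → ℂ) : adj t (fun x => f x + g x) = fun x => adj t f x + adj t g x := by
  funext x
  simp [adj, Finset.sum_add_distrib]

lemma adj_comp (φ : N →* N') (t : ι → N) (w : N' → ℂ) :
    adj t (fun x => w (φ x)) = fun x => adj (fun i => φ (t i)) w (φ x) := by
  funext x
  simp [adj]

lemma orth_adj (φ : N →* N') (t : ι → N) (f : N → ℂ) (hf : Orth φ f) : Orth φ (adj t f) := by
  intro w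
  simp only [adj, Finset.mul_sum]
  rw [Finset.sum_comm]
  refine Finset.sum_eq_zero fun i _ => ?_
  rw [← Equiv.sum_comp (Equiv.mulRight (t i)⁻¹)]
  simp only [Equiv.coe_mulRight, inv_mul_cancel_right, map_mul]
  exact hf (fun y => w (y * φ (t i)⁻¹))

end sums

section gap

variable {N N' : Type*} [Group N] [Fintype N] [DecidableEq N] [Group N'] [Fintype N']
  [DecidableEq N']

/-- spectral gap on the functions orthogonal to the pull-backs by `β`. -/
def RelGap {B : Type*} (β : N → B) (t : ι → N) (μ : ℝ) : Prop :=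
  ∀ f : N → ℂ, Orth β f → ∑ x, ‖adj t f x‖ ^ 2 ≤ μ * ∑ x, ‖f x‖ ^ 2

/-- splitting in old and new part -/
lemma split (φ : N →* N') (hφ : Function.Surjective φ) (t : ι → N) {μ : ℝ}
    (h1 : RelGap (φ : N → N') t μ) (f : N → ℂ) :
    ∑ x, ‖adj t f x‖ ^ 2 - μ * ∑ x, ‖f x‖ ^ 2 ≤
      fib φ * (∑ y, ‖adj (fun i => φ (t i)) (fbar φ f) y‖ ^ 2 - μ * ∑ y, ‖fbar φ f y‖ ^ 2) := by
  set fo : N → ℂ := fun x => fbar φ f (φ x) with hfo
  set fn : N → ℂ := fun x => f x - fbar φ f (φ x) with hfn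
  have hn : Orth φ fn := orth_new φ hφ f
  have hf : f = fun x => fo x + fn x := by
    funext x; simp [hfo, hfn]
  have hadj : adj t f = fun x => adj t fo x + adj t fn x := by
    conv_lhs => rw [hf]
    exact adj_add t fo fn
  have ho : adj t fo = fun x => adj (fun i => φ (t i)) (fbar φ f) (φ x) := adj_comp φ t _
  have p1 : ∑ x, ‖f x‖ ^ 2 = ∑ x, ‖fo x‖ ^ 2 + ∑ x, ‖fn x‖ ^ 2 := by
    conv_lhs => rw [hf]
    exact pyth fo fn (hn (fun y => (starRingEnd ℂ) (fbar φ f y)))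
  have p2 : ∑ x, ‖adj t f x‖ ^ 2 = ∑ x, ‖adj t fo x‖ ^ 2 + ∑ x, ‖adj t fn x‖ ^ 2 := by
    rw [hadj]
    refine pyth _ _ ?_
    rw [ho]
    exact orth_adj φ t fn hn (fun y => (starRingEnd ℂ) (adj (fun i => φ (t i)) (fbar φ f) y))
  have q1 : ∑ x, ‖fo x‖ ^ 2 = fib φ * ∑ y, ‖fbar φ f y‖ ^ 2 := by
    rw [← nsmul_eq_mul, ← sum_comp_hom φ hφ (fun y => ‖fbar φ f y‖ ^ 2)]
  have q2 : ∑ x, ‖adj t fo x‖ ^ 2
      = fib φ * ∑ y, ‖adj (fun i => φ (t i)) (fbar φ f) y‖ ^ 2 := by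
    rw [ho, ← nsmul_eq_mul,
      ← sum_comp_hom φ hφ (fun y => ‖adj (fun i => φ (t i)) (fbar φ f) y‖ ^ 2)]
  have q3 := h1 fn hn
  rw [p1, p2, q1, q2]
  nlinarith [q3]

/-- **one more level.** -/
theorem RelGap.step {B : Type*} (φ : N →* N') (hφ : Function.Surjective φ) (β' : N' → B)
    (t : ι → N) {μ : ℝ} (h1 : RelGap (φ : N → N') t μ)
    (h2 : RelGap β' (fun i => φ (t i)) μ) : RelGap (fun x => β' (φ x)) t μ := by
  intro f hf
  have hbar : Orth β' (fbar φ f) := by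
    intro w
    have := sum_fbar φ f (fun y => w (β' y))
    rw [this, hf w, mul_zero]
  have h3 := split φ hφ t h1 f
  have h4 := h2 _ hbar
  have h5 : (0 : ℝ) ≤ fib φ := Nat.cast_nonneg _
  nlinarith [mul_nonneg h5 (sub_nonneg.mpr h4)]

/-- the space of new functions -/
def newW {B : Type*} (φ : N → B) : Submodule ℂ (N → ℂ) where
  carrier := {f | Orth φ f}
  zero_mem' := by intro w; simp
  add_mem' := by
    intro a b ha hb w
    have ha' := ha w
    have hb' := hb w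
    simp only [Pi.add_apply, mul_add, Finset.sum_add_distrib, ha', hb', add_zero]
  smul_mem' := by
    intro c a ha w
    have ha' := ha w
    simp only [Pi.smul_apply, smul_eq_mul, mul_left_comm _ c, ← Finset.mul_sum, ha', mul_zero]

lemma mem_newW {B : Type*} {φ : N → B} {f : N → ℂ} : f ∈ newW φ ↔ Orth φ f := Iff.rfl

lemma newW_lstable (φ : N →* N') : LStable (newW (φ : N → N')) := by
  intro g f hf w
  rw [← Equiv.sum_comp (Equiv.mulLeft g⁻¹)]
  simp only [Equiv.coe_mulLeft, mul_inv_cancel_left, map_mul]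
  exact hf (fun y => w (φ g⁻¹ * y))

lemma newW_gram (φ : N →* N') (t : ι → N) (f : N → ℂ) (hf : f ∈ newW (φ : N → N')) :
    gram t *ᵥ f ∈ newW (φ : N → N') := by
  rw [gram_mulVec]
  intro w
  simp only [Finset.mul_sum]
  rw [Finset.sum_comm]
  refine Finset.sum_eq_zero fun i _ => ?_
  rw [Finset.sum_comm]
  refine Finset.sum_eq_zero fun k _ => ?_
  rw [← Equiv.sum_comp (Equiv.mulRight ((t i)⁻¹ * t k)⁻¹)]
  have : ∀ x : N, (Equiv.mulRight ((t i)⁻¹ * t k)⁻¹) x * (t i)⁻¹ * t k = x := by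
    intro x
    simp only [Equiv.coe_mulRight]
    group
  simp only [this]
  simp only [Equiv.coe_mulRight, map_mul]
  exact hf (fun y => w (y * φ ((t i)⁻¹ * t k)⁻¹))

lemma newW_fix (φ : N →* N') (f : N → ℂ) (hf : f ∈ newW (φ : N → N'))
    (hfix : ∀ z, φ z = 1 → ∀ x, f (z * x) = f x) : f = 0 := by
  have h1 : ∀ x y, φ x = φ y → f x = f y := by
    intro x y hxy
    have : φ (x * y⁻¹) = 1 := by rw [map_mul, map_inv, hxy, mul_inv_cancel]
    have h2 := hfix _ this y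
    rw [inv_mul_cancel_right] at h2
    exact h2
  classical
  set w : N' → ℂ := fun y => if h : ∃ x, φ x = y then (starRingEnd ℂ) (f h.choose) else 0 with hw
  have hwx : ∀ x, w (φ x) = (starRingEnd ℂ) (f x) := by
    intro x
    have hex : ∃ x', φ x' = φ x := ⟨x, rfl⟩
    simp only [hw]
    rw [dif_pos hex, h1 _ x hex.choose_spec]
  have h2 := hf w
  simp only [hwx] at h2
  have h3 : ∑ x, ‖f x‖ ^ 2 = 0 := by
    have : ∀ x, (starRingEnd ℂ) (f x) * f x = ((‖f x‖ ^ 2 : ℝ) : ℂ) := by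
      intro x
      rw [mul_comm, Complex.mul_conj, Complex.normSq_eq_norm_sq]
    simp only [this, ← Complex.ofReal_sum] at h2
    exact_mod_cast h2
  funext x
  have h4 := (Finset.sum_eq_zero_iff_of_nonneg (fun x _ => sq_nonneg ‖f x‖)).mp h3 x
    (Finset.mem_univ x)
  simpa using h4

/-- gap for the new functions of a level, from the closed word count and any dimension bound. -/
theorem relGap_of_mult (φ : N →* N') (t : ι → N) {D μ : ℝ} (hD : 0 < D) (hμ : 0 ≤ μ)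
    {l : ℕ} (hl : l ≠ 0)
    (hmult : ∀ V : Submodule ℂ (N → ℂ), V ≠ ⊥ → LStable V →
      (∀ f ∈ V, (∀ z, φ z = 1 → ∀ x, f (z * x) = f x) → f = 0) →
      D ≤ (Module.finrank ℂ V : ℝ))
    (hcount : (Fintype.card N : ℝ) * (closedWords t l : ℝ) ≤ D * μ ^ l) :
    RelGap (φ : N → N') t μ := by
  intro f hf
  refine trace_method_words t (newW (φ : N → N')) (newW_lstable φ) (newW_gram φ t) hD hμ hl
    ?_ hcount f hf
  intro V hVW hV0 hVl
  exact hmult V hV0 hVl (fun f hf hfix => newW_fix φ f (hVW hf) hfix)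

/-- gap for the new functions of a level, from the closed word count and the stabiliser bound. -/
theorem relGap_of_stab (φ : N →* N') (t : ι → N) {A : Type*} [AddCommGroup A] [Finite A]
    (j : A → N) (hj : ∀ a b, j (a + b) = j a * j b) (hj0 : j 0 = 1)
    (hinj : Function.Injective j) (U : Set A) (hU : ∀ z, φ z = 1 → ∃ u ∈ U, j u = z)
    (H : Subgroup N) (c : N → A → A) (hc : ∀ h ∈ H, ∀ b, h * j b = j (c h b) * h) (D : ℕ)
    (hD : 0 < D)
    (hstab : ∀ ψ : AddChar A ℂ, (∃ u ∈ U, ψ u ≠ 1) →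
      D * Nat.card {h : N // h ∈ H ∧ ∀ b, ψ (c h b) = ψ b} ≤ Nat.card H)
    {μ : ℝ} (hμ : 0 ≤ μ) {l : ℕ} (hl : l ≠ 0)
    (hcount : (Fintype.card N : ℝ) * (closedWords t l : ℝ) ≤ D * μ ^ l) :
    RelGap (φ : N → N') t μ := by
  refine relGap_of_mult φ t (D := D) (Nat.cast_pos.mpr hD) hμ hl ?_ hcount
  intro V hV0 hVl hVfix
  have := orbit_dim_stab j hj hj0 hinj V hVl hV0 U (by
    intro f hf hfix
    apply hVfix f hf
    intro z hz x
    obtain ⟨u, hu, rfl⟩ := hU z hz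
    exact hfix u hu x) H c hc D hstab
  exact_mod_cast this

end gap

section real

variable {N B : Type*} [Group N] [Fintype N] [DecidableEq N] [Group B] [Fintype B]
  [DecidableEq B]

lemma adj_norm_le (t : ι → N) (f : N → ℂ) :
    ∑ x, ‖adj t f x‖ ^ 2 ≤ (Fintype.card ι : ℝ) ^ 2 * ∑ x, ‖f x‖ ^ 2 := by
  have h1 : ∀ x, ‖adj t f x‖ ^ 2 ≤ (Fintype.card ι : ℝ) * ∑ i, ‖f (x * t i)‖ ^ 2 := by
    intro x
    have h2 : ‖adj t f x‖ ≤ ∑ i, ‖f (x * t i)‖ := norm_sum_le _ _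
    calc ‖adj t f x‖ ^ 2 ≤ (∑ i, ‖f (x * t i)‖) ^ 2 :=
          pow_le_pow_left₀ (norm_nonneg _) h2 2
      _ ≤ (Fintype.card ι : ℝ) * ∑ i, ‖f (x * t i)‖ ^ 2 := by
          have := sq_sum_le_card_mul_sum_sq (s := (Finset.univ : Finset ι))
            (f := fun i => ‖f (x * t i)‖)
          simpa using this
  calc ∑ x, ‖adj t f x‖ ^ 2 ≤ ∑ x, (Fintype.card ι : ℝ) * ∑ i, ‖f (x * t i)‖ ^ 2 :=
        Finset.sum_le_sum fun x _ => h1 x
    _ = (Fintype.card ι : ℝ) * ∑ i : ι, ∑ x, ‖f (x * t i)‖ ^ 2 := by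
        rw [← Finset.mul_sum, Finset.sum_comm]
    _ = (Fintype.card ι : ℝ) ^ 2 * ∑ x, ‖f x‖ ^ 2 := by
        have : ∀ i : ι, ∑ x, ‖f (x * t i)‖ ^ 2 = ∑ x, ‖f x‖ ^ 2 := fun i =>
          Equiv.sum_comp (Equiv.mulRight (t i)) (fun x => ‖f x‖ ^ 2)
        rw [Finset.sum_congr rfl fun i _ => this i, Finset.sum_const, Finset.card_univ,
          nsmul_eq_mul]
        ring

/-- **real form**: `h ≥ 0`. -/
theorem RelGap.real (β : N →* B) (hβ : Function.Surjective β) (t : ι → N) {μ : ℝ} (hμ : 0 ≤ μ)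
    (hg : RelGap (β : N → B) t μ) (h : N → ℝ) (h0 : ∀ x, 0 ≤ h x) :
    ∑ x, (∑ i, h (x * t i)) ^ 2 ≤
      (Fintype.card ι : ℝ) ^ 2 * (Fintype.card B / Fintype.card N) * (∑ x, h x) ^ 2
        + μ * ∑ x, h x ^ 2 := by
  set f : N → ℂ := fun x => (h x : ℂ) with hf
  have h1 : ∀ x, ‖adj t f x‖ ^ 2 = (∑ i, h (x * t i)) ^ 2 := by
    intro x
    have : adj t f x = ((∑ i, h (x * t i) : ℝ) : ℂ) := by simp [adj, hf]
    rw [this, Complex.norm_real, Real.norm_eq_abs, sq_abs]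
  have h2 : ∀ x, ‖f x‖ ^ 2 = h x ^ 2 := by
    intro x
    rw [hf, Complex.norm_real, Real.norm_eq_abs, sq_abs]
  have h3 := split β hβ t hg f
  have h4 := adj_norm_le (fun i => β (t i)) (fbar β f)
  have hfp : (0 : ℝ) < fib β := Nat.cast_pos.mpr (fib_pos β)
  have hsum : ∀ y, ‖fbar β f y‖ ^ 2
      = ((fib β : ℝ)⁻¹) ^ 2 * (∑ x ∈ Finset.univ.filter (fun x => β x = y), h x) ^ 2 := by
    intro y
    have : fbar β f y
        = (((fib β : ℝ)⁻¹ * ∑ x ∈ Finset.univ.filter (fun x => β x = y), h x : ℝ) : ℂ) := by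
      simp [fbar, hf]
    rw [this, Complex.norm_real, Real.norm_eq_abs, sq_abs, mul_pow]
  have hS0 : ∀ y, 0 ≤ ∑ x ∈ Finset.univ.filter (fun x => β x = y), h x := fun y =>
    Finset.sum_nonneg fun x _ => h0 x
  have htot : ∑ y, ∑ x ∈ Finset.univ.filter (fun x => β x = y), h x = ∑ x, h x :=
    Finset.sum_fiberwise Finset.univ (fun x => β x) h
  have h5 : ∑ y, (∑ x ∈ Finset.univ.filter (fun x => β x = y), h x) ^ 2 ≤ (∑ x, h x) ^ 2 := by
    rw [← htot]
    exact Finset.sum_sq_le_sq_sum_of_nonneg fun y _ => hS0 y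
  have h6 : ∑ y, ‖fbar β f y‖ ^ 2 ≤ ((fib β : ℝ)⁻¹) ^ 2 * (∑ x, h x) ^ 2 := by
    rw [Finset.sum_congr rfl fun y _ => hsum y, ← Finset.mul_sum]
    exact mul_le_mul_of_nonneg_left h5 (by positivity)
  have h7 : (Fintype.card B / Fintype.card N : ℝ) = (fib β : ℝ)⁻¹ := by
    rw [card_eq_fib_mul β hβ]
    have : (Fintype.card B : ℝ) ≠ 0 := Nat.cast_ne_zero.mpr Fintype.card_ne_zero
    push_cast
    field_simp
  rw [Finset.sum_congr rfl fun x _ => h1 x, Finset.sum_congr rfl fun x _ => h2 x] at h3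
  have h8 : (0 : ℝ) ≤ ∑ y, ‖fbar β f y‖ ^ 2 := Finset.sum_nonneg fun y _ => by positivity
  have h9 : (fib β : ℝ) * ∑ y, ‖adj (fun i => β (t i)) (fbar β f) y‖ ^ 2 ≤
      (Fintype.card ι : ℝ) ^ 2 * (Fintype.card B / Fintype.card N) * (∑ x, h x) ^ 2 := by
    rw [h7]
    calc (fib β : ℝ) * ∑ y, ‖adj (fun i => β (t i)) (fbar β f) y‖ ^ 2
        ≤ fib β * ((Fintype.card ι : ℝ) ^ 2 * (((fib β : ℝ)⁻¹) ^ 2 * (∑ x, h x) ^ 2)) := by
          refine mul_le_mul_of_nonneg_left (h4.trans ?_) hfp.le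
          exact mul_le_mul_of_nonneg_left h6 (by positivity)
      _ = _ := by field_simp
  have h10 : (0 : ℝ) ≤ fib β * (μ * ∑ y, ‖fbar β f y‖ ^ 2) := by positivity
  nlinarith [h3, h9, h10]

end real

section coset

variable {G : Type*} [Group G] [Fintype G] [DecidableEq G]

/-- **coset form**: `N ≤ G` normal, all `s_i⁻¹ s_j ∈ N`, `t_i = s_{i₀}⁻¹ s_i`. -/
theorem coset_real (N : Subgroup G) [N.Normal] [Fintype N] (s : ι → G) (i₀ : ι)
    (t : ι → N) (ht : ∀ i, (t i : G) = (s i₀)⁻¹ * s i) {C μ : ℝ} (hC : 0 ≤ C)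
    (hgap : ∀ h : N → ℝ, (∀ x, 0 ≤ h x) →
      ∑ x, (∑ i, h (x * t i)) ^ 2 ≤ C * (∑ x, h x) ^ 2 + μ * ∑ x, h x ^ 2)
    (h : G → ℝ) (h0 : ∀ x, 0 ≤ h x) :
    ∑ g, (∑ i, h (g * s i)) ^ 2 ≤ C * (∑ g, h g) ^ 2 + μ * ∑ g, h g ^ 2 := by
  have hN : (0 : ℝ) < Fintype.card N := Nat.cast_pos.mpr Fintype.card_pos
  -- averaging over N
  have avg : ∀ F : G → ℝ, (Fintype.card N : ℝ) * ∑ g, F g = ∑ g, ∑ n : N, F (g * n) := by
    intro F
    rw [Finset.sum_comm]
    have : ∀ n : N, ∑ g, F (g * n) = ∑ g, F g := fun n =>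
      Equiv.sum_comp (Equiv.mulRight (n : G)) F
    rw [Finset.sum_congr rfl fun n _ => this n, Finset.sum_const, Finset.card_univ, nsmul_eq_mul]
  -- conjugation by s i₀
  let e : N ≃ N :=
    { toFun := fun n => ⟨(s i₀)⁻¹ * n * s i₀, by
        simpa using (inferInstance : N.Normal).conj_mem n n.2 (s i₀)⁻¹⟩
      invFun := fun n => ⟨s i₀ * n * (s i₀)⁻¹, (inferInstance : N.Normal).conj_mem n n.2 (s i₀)⟩
      left_inv := fun n => by ext; simp [mul_assoc]
      right_inv := fun n => by ext; simp [mul_assoc] }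
  have hb : ∀ g : G, ∑ n : N, (∑ i, h (g * n * s i)) ^ 2 ≤
      C * (∑ n : N, h (g * s i₀ * n)) ^ 2 + μ * ∑ n : N, h (g * s i₀ * n) ^ 2 := by
    intro g
    have h1 := hgap (fun n => h (g * s i₀ * n)) (fun n => h0 _)
    refine le_trans (le_of_eq ?_) h1
    rw [← e.sum_comp (fun n : N => (∑ i, h (g * s i₀ * ((n * t i : N) : G))) ^ 2)]
    refine Finset.sum_congr rfl fun n _ => ?_
    congr 1
    refine Finset.sum_congr rfl fun i _ => ?_
    congr 1
    rw [Subgroup.coe_mul, ht]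
    change g * n * s i = g * s i₀ * ((s i₀)⁻¹ * n * s i₀ * ((s i₀)⁻¹ * s i))
    group
  have hS : ∑ g, (∑ n : N, h (g * n)) ^ 2 ≤ (Fintype.card N : ℝ) * (∑ g, h g) ^ 2 := by
    have h1 : ∀ g, ∑ n : N, h (g * n) ≤ ∑ x, h x := by
      intro g
      have : ∑ n : N, h (g * n) = ∑ x ∈ (Finset.univ.image (fun n : N => g * (n : G))), h x := by
        rw [Finset.sum_image]
        intro a _ b _ hab
        exact Subtype.ext (mul_left_cancel hab)
      rw [this]
      exact Finset.sum_le_sum_of_subset_of_nonneg (Finset.subset_univ _) fun x _ _ => h0 x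
    have h2 : ∀ g, 0 ≤ ∑ n : N, h (g * n) := fun g => Finset.sum_nonneg fun n _ => h0 _
    calc ∑ g, (∑ n : N, h (g * n)) ^ 2 ≤ ∑ g, (∑ n : N, h (g * n)) * (∑ x, h x) := by
          refine Finset.sum_le_sum fun g _ => ?_
          rw [sq]
          exact mul_le_mul_of_nonneg_left (h1 g) (h2 g)
      _ = (Fintype.card N : ℝ) * (∑ g, h g) ^ 2 := by
          rw [← Finset.sum_mul, ← avg h]
          ring
  have key : (Fintype.card N : ℝ) * ∑ g, (∑ i, h (g * s i)) ^ 2 ≤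
      (Fintype.card N : ℝ) * (C * (∑ g, h g) ^ 2 + μ * ∑ g, h g ^ 2) := by
    rw [avg (fun g => (∑ i, h (g * s i)) ^ 2)]
    calc ∑ g, ∑ n : N, (∑ i, h (g * n * s i)) ^ 2
        ≤ ∑ g, (C * (∑ n : N, h (g * s i₀ * n)) ^ 2 + μ * ∑ n : N, h (g * s i₀ * n) ^ 2) :=
          Finset.sum_le_sum fun g _ => hb g
      _ = C * ∑ g, (∑ n : N, h (g * n)) ^ 2 + μ * ∑ g, ∑ n : N, h (g * n) ^ 2 := by
          have e1 : ∑ g, (∑ n : N, h (g * s i₀ * n)) ^ 2 = ∑ g, (∑ n : N, h (g * n)) ^ 2 :=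
            Equiv.sum_comp (Equiv.mulRight (s i₀)) (fun g => (∑ n : N, h (g * n)) ^ 2)
          have e2 : ∑ g, ∑ n : N, h (g * s i₀ * n) ^ 2 = ∑ g, ∑ n : N, h (g * n) ^ 2 :=
            Equiv.sum_comp (Equiv.mulRight (s i₀)) (fun g => ∑ n : N, h (g * n) ^ 2)
          rw [Finset.sum_add_distrib, ← Finset.mul_sum, ← Finset.mul_sum, e1, e2]
      _ ≤ C * ((Fintype.card N : ℝ) * (∑ g, h g) ^ 2) + μ * ∑ g, ∑ n : N, h (g * n) ^ 2 := by
          have := mul_le_mul_of_nonneg_left hS hC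
          linarith
      _ = _ := by
          rw [← avg (fun g => h g ^ 2)]
          ring
  exact le_of_mul_le_mul_left key hN

/-- **quotient form**: `p : G → V` with constant fibres, neighbours of `p g` are the `p (g s_i)`. -/
theorem quotient_real {V : Type*} [Fintype V] [DecidableEq V] (p : G → V) (m : ℕ) (hm : 0 < m)
    (hp : ∀ v, (Finset.univ.filter (fun g => p g = v)).card = m)
    (s : ι → G) (nb : V → ι → V) (hnb : ∀ g, ∃ e : ι ≃ ι, ∀ i, nb (p g) (e i) = p (g * s i))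
    {C μ : ℝ}
    (hgap : ∀ h : G → ℝ, (∀ x, 0 ≤ h x) →
      ∑ x, (∑ i, h (x * s i)) ^ 2 ≤ C * (∑ x, h x) ^ 2 + μ * ∑ x, h x ^ 2)
    (h : V → ℝ) (h0 : ∀ x, 0 ≤ h x) :
    ∑ v, (∑ i, h (nb v i)) ^ 2 ≤ C * m * (∑ v, h v) ^ 2 + μ * ∑ v, h v ^ 2 := by
  have hs : ∀ u : V → ℝ, ∑ g, u (p g) = m * ∑ v, u v := by
    intro u
    rw [← Finset.sum_fiberwise Finset.univ (fun g => p g) (fun g => u (p g)), Finset.mul_sum]
    refine Finset.sum_congr rfl fun v _ => ?_
    rw [Finset.sum_congr rfl (g := fun _ => u v), Finset.sum_const, hp, nsmul_eq_mul]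
    intro x hx
    rw [(Finset.mem_filter.mp hx).2]
  have h1 := hgap (fun g => h (p g)) (fun g => h0 _)
  have h2 : ∀ g, ∑ i, h (p (g * s i)) = ∑ i, h (nb (p g) i) := by
    intro g
    obtain ⟨e, he⟩ := hnb g
    rw [← e.sum_comp (fun i => h (nb (p g) i))]
    exact Finset.sum_congr rfl fun i _ => by rw [he]
  simp only [h2] at h1
  rw [hs (fun v => (∑ i, h (nb v i)) ^ 2), hs h, hs (fun v => h v ^ 2)] at h1
  have hm' : (0 : ℝ) < m := Nat.cast_pos.mpr hm
  refine le_of_mul_le_mul_left ?_ hm'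
  calc _ ≤ _ := h1
    _ = _ := by ring

end coset

end Crest.Agent.R289.Tower962
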