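import Mathlib
import Crest.Agent.R289.Tower_962

/-!
Row 289, block B1 (expansion), level one (helper291).

`fourier_gap` : convolution-type operators on `K × C` with a bound for the exponential sums.
`level_one` : the gap on the functions with zero sums over the cosets of `j(K)` in a group
`G = j(K) ⋊ C`, for `s_i = j (b i) * m (κ i)`, `N (b i) = n (κ i)`, `n` at most two-to-one.
-/

set_option autoImplicit false
set_option linter.unusedSectionVars false

namespace Crest.Agent.R289.Exp291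

open Finset ComplexConjugate

section fourier

variable {K : Type*} [AddCommGroup K] [Fintype K]

/-- Parseval's identity -/
theorem parseval (f : K → ℂ) :
    ∑ ψ : AddChar K ℂ, ‖∑ a, ψ a * f a‖ ^ 2 = Fintype.card K * ∑ a, ‖f a‖ ^ 2 := by
  classical
  have key : ∀ ψ : AddChar K ℂ, ((‖∑ a, ψ a * f a‖ ^ 2 : ℝ) : ℂ) =
      ∑ a, ∑ b, (f a * conj (f b)) * ψ (a - b) := by
    intro ψ
    rw [← Complex.normSq_eq_norm_sq, ← Complex.mul_conj, map_sum, Finset.sum_mul_sum]
    refine Finset.sum_congr rfl fun a _ => Finset.sum_congr rfl fun b _ => ?_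
    rw [map_mul, sub_eq_add_neg, AddChar.map_add_eq_mul, AddChar.map_neg_eq_conj]
    ring
  have h : ((∑ ψ : AddChar K ℂ, ‖∑ a, ψ a * f a‖ ^ 2 : ℝ) : ℂ) =
      ((Fintype.card K * ∑ a, ‖f a‖ ^ 2 : ℝ) : ℂ) := by
    rw [Complex.ofReal_sum, Finset.sum_congr rfl fun ψ _ => key ψ, Finset.sum_comm]
    have : ∀ a, ∑ ψ : AddChar K ℂ, ∑ b, (f a * conj (f b)) * ψ (a - b) =
        Fintype.card K * ((‖f a‖ ^ 2 : ℝ) : ℂ) := by
      intro a
      rw [Finset.sum_comm]
      simp_rw [← Finset.mul_sum, AddChar.sum_apply_eq_ite, sub_eq_zero]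
      rw [Finset.sum_eq_single a]
      · rw [if_pos rfl, ← Complex.normSq_eq_norm_sq, ← Complex.mul_conj]
        ring
      · intro b _ hb
        rw [if_neg (Ne.symm hb), mul_zero]
      · intro h
        exact absurd (Finset.mem_univ a) h
    rw [Finset.sum_congr rfl fun a _ => this a, ← Finset.mul_sum]
    push_cast
    ring
  exact_mod_cast h

variable {C : Type*} [Group C] [Fintype C] [DecidableEq C] {ι : Type*} [Fintype ι]

/-- Fourier analysis in the first variable -/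
theorem fourier_gap (B : ℝ) (be : ι → C → K) (κ : ι → C)
    (hB : ∀ ψ : AddChar K ℂ, ψ ≠ 1 → ∀ c : C,
      ∑ u : C, ‖∑ i with κ i = u, ψ (- be i c)‖ ^ 2 ≤ B)
    (F : K → C → ℂ) (hF : ∀ c, ∑ a, F a c = 0) :
    ∑ a, ∑ c, ‖∑ i, F (a + be i c) (c * κ i)‖ ^ 2 ≤
      Fintype.card C * B * ∑ a, ∑ c, ‖F a c‖ ^ 2 := by
  classical
  set Fh : AddChar K ℂ → C → ℂ := fun ψ c => ∑ a, ψ a * F a c with hFh
  set G : K → C → ℂ := fun a c => ∑ i, F (a + be i c) (c * κ i) with hG
  have h1 : ∀ ψ : AddChar K ℂ, ∀ c, ∑ a, ψ a * G a c =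
      ∑ u : C, (∑ i with κ i = u, ψ (- be i c)) * Fh ψ (c * u) := by
    intro ψ c
    have e1 : ∑ a, ψ a * G a c = ∑ i, ψ (- be i c) * Fh ψ (c * κ i) := by
      simp only [hG, hFh, Finset.mul_sum]
      rw [Finset.sum_comm]
      refine Finset.sum_congr rfl fun i _ => ?_
      rw [← Equiv.sum_comp (Equiv.addRight (be i c))
        (fun a => ψ (-be i c) * (ψ a * F a (c * κ i)))]
      refine Finset.sum_congr rfl fun a _ => ?_
      rw [Equiv.coe_addRight, ← mul_assoc, ← AddChar.map_add_eq_mul,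
        show -be i c + (a + be i c) = a by abel]
    rw [e1]
    rw [← Finset.sum_fiberwise Finset.univ κ]
    refine Finset.sum_congr rfl fun u _ => ?_
    rw [Finset.sum_mul]
    refine Finset.sum_congr rfl fun i hi => ?_
    rw [(Finset.mem_filter.1 hi).2]
  have h2 : ∀ ψ : AddChar K ℂ, ∀ c, ‖∑ a, ψ a * G a c‖ ^ 2 ≤ B * ∑ u : C, ‖Fh ψ u‖ ^ 2 := by
    intro ψ c
    by_cases hψ : ψ = 1
    · have h0 : ∀ u, Fh ψ u = 0 := by
        intro u
        simp only [hFh, hψ, AddChar.one_apply, one_mul]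
        exact hF u
      rw [h1]
      simp [h0]
    · rw [h1]
      have e2 : ∑ u : C, ‖Fh ψ (c * u)‖ ^ 2 = ∑ u : C, ‖Fh ψ u‖ ^ 2 :=
        Equiv.sum_comp (Equiv.mulLeft c) (fun u => ‖Fh ψ u‖ ^ 2)
      calc ‖∑ u : C, (∑ i with κ i = u, ψ (- be i c)) * Fh ψ (c * u)‖ ^ 2
          ≤ (∑ u : C, ‖∑ i with κ i = u, ψ (- be i c)‖ * ‖Fh ψ (c * u)‖) ^ 2 := by
            refine pow_le_pow_left₀ (norm_nonneg _) ?_ 2
            refine (norm_sum_le _ _).trans (le_of_eq ?_)
            exact Finset.sum_congr rfl fun u _ => norm_mul _ _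
        _ ≤ (∑ u : C, ‖∑ i with κ i = u, ψ (- be i c)‖ ^ 2) *
              ∑ u : C, ‖Fh ψ (c * u)‖ ^ 2 := Finset.sum_mul_sq_le_sq_mul_sq _ _ _
        _ ≤ B * ∑ u : C, ‖Fh ψ (c * u)‖ ^ 2 :=
            mul_le_mul_of_nonneg_right (hB ψ hψ c) (Finset.sum_nonneg fun _ _ => sq_nonneg _)
        _ = B * ∑ u : C, ‖Fh ψ u‖ ^ 2 := by rw [e2]
  have hK : (0 : ℝ) < Fintype.card K := by
    exact_mod_cast Fintype.card_pos
  have h3 : Fintype.card K * ∑ a, ∑ c, ‖G a c‖ ^ 2 =
      ∑ c, ∑ ψ : AddChar K ℂ, ‖∑ a, ψ a * G a c‖ ^ 2 := by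
    rw [Finset.sum_comm, Finset.mul_sum]
    exact Finset.sum_congr rfl fun c _ => (parseval fun a => G a c).symm
  have h4 : Fintype.card K * ∑ a, ∑ c, ‖F a c‖ ^ 2 =
      ∑ ψ : AddChar K ℂ, ∑ u : C, ‖Fh ψ u‖ ^ 2 := by
    rw [Finset.sum_comm, Finset.mul_sum]
    rw [Finset.sum_comm (f := fun ψ u => ‖Fh ψ u‖ ^ 2)]
    exact Finset.sum_congr rfl fun c _ => (parseval fun a => F a c).symm
  have h5 : Fintype.card K * ∑ a, ∑ c, ‖G a c‖ ^ 2 ≤
      Fintype.card K * (Fintype.card C * B * ∑ a, ∑ c, ‖F a c‖ ^ 2) := by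
    rw [h3]
    calc ∑ c, ∑ ψ : AddChar K ℂ, ‖∑ a, ψ a * G a c‖ ^ 2
        ≤ ∑ _c : C, ∑ ψ : AddChar K ℂ, B * ∑ u : C, ‖Fh ψ u‖ ^ 2 :=
          Finset.sum_le_sum fun c _ => Finset.sum_le_sum fun ψ _ => h2 ψ c
      _ = Fintype.card C * B * ∑ ψ : AddChar K ℂ, ∑ u : C, ‖Fh ψ u‖ ^ 2 := by
          rw [Finset.sum_const, Finset.card_univ, nsmul_eq_mul, ← Finset.mul_sum, mul_assoc]
      _ = Fintype.card K * (Fintype.card C * B * ∑ a, ∑ c, ‖F a c‖ ^ 2) := by
          rw [← h4]; ring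
  exact le_of_mul_le_mul_left h5 hK

end fourier

section sums

variable {K : Type*} [Field K] [Fintype K] [DecidableEq K]

/-- the second moment of the sums over the norm spheres -/
theorem sphere_sum (σ : K →+* K) {q : ℕ}
    (hq : (univ.filter fun v : K => v * σ v = 1).card = q + 1)
    (ψ : AddChar K ℂ) (hψ : ψ ≠ 1) :
    ∑ n : K, ‖∑ b with b * σ b = n, ψ b‖ ^ 2 ≤ Fintype.card K := by
  classical
  have hσ0 : ∀ b : K, b ≠ 0 → σ b ≠ 0 := fun b hb => (map_ne_zero σ).2 hb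
  -- double sum
  have e1 : ∀ n : K, ((‖∑ b with b * σ b = n, ψ b‖ ^ 2 : ℝ) : ℂ) =
      ∑ b' with b' * σ b' = n, ∑ b with b * σ b = n, ψ (b - b') := by
    intro n
    rw [← Complex.normSq_eq_norm_sq, ← Complex.mul_conj, map_sum, Finset.sum_mul_sum,
      Finset.sum_comm]
    refine Finset.sum_congr rfl fun a _ => Finset.sum_congr rfl fun b _ => ?_
    rw [sub_eq_add_neg, AddChar.map_add_eq_mul, AddChar.map_neg_eq_conj]
  have e2 : ((∑ n : K, ‖∑ b with b * σ b = n, ψ b‖ ^ 2 : ℝ) : ℂ) =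
      ∑ b' : K, ∑ b with b * σ b = b' * σ b', ψ (b - b') := by
    rw [Complex.ofReal_sum, Finset.sum_congr rfl fun n _ => e1 n]
    rw [← Finset.sum_fiberwise Finset.univ (fun b' : K => b' * σ b')
      (fun b' => ∑ b with b * σ b = b' * σ b', ψ (b - b'))]
    refine Finset.sum_congr rfl fun n _ => Finset.sum_congr rfl fun b' hb' => ?_
    rw [(Finset.mem_filter.1 hb').2]
  -- the inner sums
  have e3 : ∀ b' : K, b' ≠ 0 → ∑ b with b * σ b = b' * σ b', ψ (b - b') =
      ∑ v with v * σ v = 1, ψ ((v - 1) * b') := by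
    intro b' hb'
    refine Finset.sum_bij' (fun b _ => b / b') (fun v _ => v * b') ?_ ?_ ?_ ?_ ?_
    · intro b hb
      rw [Finset.mem_filter] at hb ⊢
      refine ⟨Finset.mem_univ _, ?_⟩
      have := hσ0 b' hb'
      rw [map_div₀, div_mul_div_comm, hb.2, div_self (mul_ne_zero hb' this)]
    · intro v hv
      rw [Finset.mem_filter] at hv ⊢
      refine ⟨Finset.mem_univ _, ?_⟩
      rw [map_mul]
      calc v * b' * (σ v * σ b') = (v * σ v) * (b' * σ b') := by ring
        _ = b' * σ b' := by rw [hv.2, one_mul]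
    · intro b _
      exact div_mul_cancel₀ b hb'
    · intro v _
      exact mul_div_cancel_right₀ v hb'
    · intro b _
      congr 1
      rw [sub_mul, one_mul, div_mul_cancel₀ b hb']
  have e4 : ∑ b with b * σ b = (0 : K) * σ 0, ψ (b - 0) = 1 := by
    have : (univ.filter fun b : K => b * σ b = (0 : K) * σ 0) = {0} := by
      ext b
      simp only [Finset.mem_filter, Finset.mem_univ, true_and, map_zero, mul_zero,
        Finset.mem_singleton, mul_eq_zero, map_eq_zero, or_self]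
    rw [this, Finset.sum_singleton, sub_zero, AddChar.map_zero_eq_one]
  have hsum0 : ∑ b : K, ψ b = 0 := AddChar.sum_eq_zero_of_ne_one hψ
  have e5 : ∀ v : K, ∑ b' ∈ univ.erase (0 : K), ψ ((v - 1) * b') =
      (if v = 1 then (Fintype.card K : ℂ) else 0) - 1 := by
    intro v
    have h1 : ∑ b' : K, ψ ((v - 1) * b') = if v = 1 then (Fintype.card K : ℂ) else 0 := by
      by_cases hv : v = 1
      · rw [if_pos hv, hv]
        simp
      · rw [if_neg hv, ← hsum0]
        have hv' : v - 1 ≠ 0 := sub_ne_zero.2 hv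
        exact Equiv.sum_comp (Equiv.mulLeft₀ (v - 1) hv') (fun b => ψ b)
    rw [← h1, ← Finset.sum_erase_add _ _ (Finset.mem_univ (0 : K))]
    simp
  have e6 : ((∑ n : K, ‖∑ b with b * σ b = n, ψ b‖ ^ 2 : ℝ) : ℂ) =
      ((Fintype.card K - q : ℝ) : ℂ) := by
    rw [e2, ← Finset.sum_erase_add _ _ (Finset.mem_univ (0 : K)), e4]
    rw [Finset.sum_congr rfl fun b' hb' => e3 b' (Finset.ne_of_mem_erase hb')]
    rw [Finset.sum_comm, Finset.sum_congr rfl fun v _ => e5 v, Finset.sum_sub_distrib,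
      Finset.sum_const, hq]
    rw [Finset.sum_ite_eq' (univ.filter fun v : K => v * σ v = 1) (1 : K)
      (fun _ => (Fintype.card K : ℂ))]
    rw [if_pos (by simp)]
    push_cast
    simp only [nsmul_eq_mul]
    push_cast
    ring
  have e7 : ∑ n : K, ‖∑ b with b * σ b = n, ψ b‖ ^ 2 = (Fintype.card K - q : ℝ) := by
    exact_mod_cast e6
  rw [e7]
  have : (0 : ℝ) ≤ q := Nat.cast_nonneg q
  linarith

/-- `n` at most two-to-one, the `i` with `κ i = u` parametrise the sphere `N = n u` -/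
theorem sphere_hyp (σ : K →+* K) {q : ℕ}
    (hq : (univ.filter fun v : K => v * σ v = 1).card = q + 1)
    {C : Type*} [Fintype C] [DecidableEq C] {ι : Type*} [Fintype ι] (b : ι → K) (κ : ι → C)
    (n : C → K) (hn : ∀ y : K, (univ.filter fun u => n u = y).card ≤ 2)
    (hinj : ∀ i j, κ i = κ j → b i = b j → i = j)
    (hb : ∀ i, b i * σ (b i) = n (κ i))
    (hsurj : ∀ u (y : K), y * σ y = n u → ∃ i, κ i = u ∧ b i = y)
    (r : K) (hr : r ≠ 0) (ψ : AddChar K ℂ) (hψ : ψ ≠ 1) :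
    ∑ u : C, ‖∑ i with κ i = u, ψ (-(r * b i))‖ ^ 2 ≤ 2 * Fintype.card K := by
  classical
  -- the character `ψ (- r .)`
  set ψ' : AddChar K ℂ := AddChar.mulShift ψ (-r) with hψ'
  have hne : ψ' ≠ 1 := by
    intro h
    apply hψ
    have hu : IsUnit (-r) := (neg_ne_zero.2 hr).isUnit
    exact (AddChar.mulShift_unit_eq_one_iff ψ hu).1 h
  have h1 : ∀ i, ψ (-(r * b i)) = ψ' (b i) := by
    intro i
    rw [hψ', AddChar.mulShift_apply, neg_mul]
  have h2 : ∀ u, ∑ i with κ i = u, ψ (-(r * b i)) = ∑ y with y * σ y = n u, ψ' y := by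
    intro u
    refine Finset.sum_bij (fun i _ => b i) ?_ ?_ ?_ ?_
    · intro i hi
      rw [Finset.mem_filter] at hi ⊢
      exact ⟨Finset.mem_univ _, by rw [hb i, hi.2]⟩
    · intro i hi j hj hij
      rw [Finset.mem_filter] at hi hj
      exact hinj i j (hi.2.trans hj.2.symm) hij
    · intro y hy
      rw [Finset.mem_filter] at hy
      obtain ⟨i, hi, hiy⟩ := hsurj u y hy.2
      exact ⟨i, Finset.mem_filter.2 ⟨Finset.mem_univ _, hi⟩, hiy⟩
    · intro i _
      exact h1 i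
  have h3 : ∑ u : C, ‖∑ y with y * σ y = n u, ψ' y‖ ^ 2 ≤
      2 * ∑ m : K, ‖∑ y with y * σ y = m, ψ' y‖ ^ 2 := by
    rw [← Finset.sum_fiberwise Finset.univ n, Finset.mul_sum]
    refine Finset.sum_le_sum fun m _ => ?_
    calc ∑ u with n u = m, ‖∑ y with y * σ y = n u, ψ' y‖ ^ 2
        = ∑ u with n u = m, ‖∑ y with y * σ y = m, ψ' y‖ ^ 2 := by
          refine Finset.sum_congr rfl fun u hu => ?_
          rw [(Finset.mem_filter.1 hu).2]
      _ = ((univ.filter fun u => n u = m).card : ℝ) * ‖∑ y with y * σ y = m, ψ' y‖ ^ 2 := by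
          rw [Finset.sum_const, nsmul_eq_mul]
      _ ≤ 2 * ‖∑ y with y * σ y = m, ψ' y‖ ^ 2 := by
          refine mul_le_mul_of_nonneg_right ?_ (sq_nonneg _)
          exact_mod_cast hn m
  rw [Finset.sum_congr rfl fun u _ => by rw [h2 u]]
  refine h3.trans ?_
  exact mul_le_mul_of_nonneg_left (sphere_sum σ hq ψ' hne) (by norm_num)

end sums

section group

open TraceM962 Tower962

variable {K : Type*} [Field K] [Fintype K] [DecidableEq K]
variable {G : Type*} [Group G] [Fintype G] [DecidableEq G] {C : Type*} [Group C] [Fintype C]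
  [DecidableEq C] {ι : Type*} [Fintype ι]

/-- **level one**.  `G = j(K) ⋊ m(C)`, `s i = j (b i) * m (κ i)`. -/
theorem level_one (σ : K →+* K) {q : ℕ}
    (hq : (univ.filter fun v : K => v * σ v = 1).card = q + 1)
    (j : K → G) (m : C →* G) (χ : C → K) (β : G →* C)
    (hj : ∀ a b, j (a + b) = j a * j b) (hconj : ∀ c b, m c * j b = j (χ c * b) * m c)
    (hbij : Function.Bijective fun p : K × C => j p.1 * m p.2)
    (hχ : ∀ c, χ c ≠ 0) (hβj : ∀ a, β (j a) = 1) (hβm : ∀ c, β (m c) = c)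
    (s : ι → G) (b : ι → K) (κ : ι → C) (hs : ∀ i, s i = j (b i) * m (κ i))
    (n : C → K) (hn : ∀ y : K, (univ.filter fun u => n u = y).card ≤ 2)
    (hinj : ∀ i j, κ i = κ j → b i = b j → i = j)
    (hb : ∀ i, b i * σ (b i) = n (κ i))
    (hsurj : ∀ u (y : K), y * σ y = n u → ∃ i, κ i = u ∧ b i = y) :
    RelGap (β : G → C) s (Fintype.card C * (2 * Fintype.card K)) := by
  classical
  intro f hf
  set e : K × C ≃ G := Equiv.ofBijective _ hbij with he
  have hep : ∀ p : K × C, e p = j p.1 * m p.2 := fun p => rfl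
  set F : K → C → ℂ := fun a c => f (j a * m c) with hF
  have hF0 : ∀ c, ∑ a, F a c = 0 := by
    intro c
    have h1 := hf (fun c' => if c' = c then 1 else 0)
    rw [← Equiv.sum_comp e, Fintype.sum_prod_type] at h1
    rw [← h1]
    refine Finset.sum_congr rfl fun a _ => ?_
    rw [Finset.sum_eq_single c]
    · rw [hep, map_mul, hβj, hβm, one_mul, if_pos rfl, one_mul]
    · intro c' _ hc'
      rw [hep, map_mul, hβj, hβm, one_mul, if_neg hc', zero_mul]
    · intro h
      exact absurd (Finset.mem_univ c) h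
  have key := fourier_gap (2 * Fintype.card K : ℝ) (fun i c => χ c * b i) κ
    (fun ψ hψ c => sphere_hyp σ hq b κ n hn hinj hb hsurj (χ c) (hχ c) ψ hψ) F hF0
  have e1 : ∑ x, ‖adj s f x‖ ^ 2 = ∑ a, ∑ c, ‖∑ i, F (a + χ c * b i) (c * κ i)‖ ^ 2 := by
    rw [← Equiv.sum_comp e, Fintype.sum_prod_type]
    refine Finset.sum_congr rfl fun a _ => Finset.sum_congr rfl fun c _ => ?_
    congr 2
    refine Finset.sum_congr rfl fun i _ => ?_
    simp only [hep, hF]
    congr 1
    rw [hs i, hj, map_mul]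
    calc j a * m c * (j (b i) * m (κ i)) = j a * (m c * j (b i)) * m (κ i) := by group
      _ = j a * j (χ c * b i) * (m c * m (κ i)) := by rw [hconj]; group
  have e2 : ∑ x, ‖f x‖ ^ 2 = ∑ a, ∑ c, ‖F a c‖ ^ 2 := by
    rw [← Equiv.sum_comp e, Fintype.sum_prod_type]
    refine Finset.sum_congr rfl fun a _ => Finset.sum_congr rfl fun c _ => ?_
    rw [hep]
  rw [e1, e2]
  exact key

/-- translating the generators does not change the gap -/
theorem relGap_mul_left {B : Type*} (β : G → B) (s t : ι → G) (a : G) (ht : ∀ i, t i = a * s i)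
    {μ : ℝ} (h : RelGap β s μ) : RelGap β t μ := by
  intro f hf
  have h1 := h f hf
  have h2 : ∑ x, ‖adj t f x‖ ^ 2 = ∑ x, ‖adj s f x‖ ^ 2 := by
    rw [← Equiv.sum_comp (Equiv.mulRight a) (fun x => ‖adj s f x‖ ^ 2)]
    refine Finset.sum_congr rfl fun x _ => ?_
    congr 2
    refine Finset.sum_congr rfl fun i _ => ?_
    rw [ht i, Equiv.coe_mulRight, mul_assoc]
  rw [h2]
  exact h1

end group

end Crest.Agent.R289.Exp291
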