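import Crest.Agent.R289.SkewGap_877
import Crest.Agent.R289.ExpOne_291

/-!
# Level one of the expansion, concrete (row 289, block B)
-/

namespace Crest.Agent.R289.SkewGrp877

open Crest.Agent.R289.TraceM962 Crest.Agent.R289.Tower962 Crest.Agent.R289.Exp820 Crest.Agent.R289.Exp291

variable {K : Type*} [Field K] {σ : K →+* K} {x : K} {ι : Type*} {cc bb : ι → K}

/-- `1 + a τ` in level one -/
def jL (hσ : ∀ a, σ (σ a) = a) (a : K) : SG hσ 1 :=
  ⟨ex le_rfl a, (ex_mem hσ le_rfl (Or.inl rfl)).1⟩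

lemma jL_add (hσ : ∀ a, σ (σ a) = a) (a b : K) : jL hσ (a + b) = jL hσ a * jL hσ b :=
  Subtype.ext (ex_add le_rfl a b)

/-- constants -/
def mL (hσ : ∀ a, σ (σ a) = a) (k : ℕ) : SG hσ 0 →* SG hσ k where
  toFun u := ⟨tor k (c ((u : (R σ 0)ˣ) : R σ 0) 0) (const_SG hσ u.2), tor_mem hσ _ _⟩
  map_one' := by
    refine Subtype.ext (Units.ext ?_)
    change (mono 0 (c ((1 : (R σ 0)ˣ) : R σ 0) 0) : R σ k) = 1
    rw [Units.val_one, c_one (Nat.zero_le 0), if_pos rfl, mono_zero_one]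
  map_mul' u v := by
    refine Subtype.ext (Units.ext ?_)
    change (mono 0 (c (((u * v : SG hσ 0) : (R σ 0)ˣ) : R σ 0) 0) : R σ k) =
      mono 0 (c ((u : (R σ 0)ˣ) : R σ 0) 0) * mono 0 (c ((v : (R σ 0)ˣ) : R σ 0) 0)
    rw [mono_zero_mul]
    congr 1
    exact c_mul_zero _ _

/-- the constant term of an element of `SG 0`. -/
def cL {hσ : ∀ a, σ (σ a) = a} (u : SG hσ 0) : K := c ((u : (R σ 0)ˣ) : R σ 0) 0

lemma cL_norm {hσ : ∀ a, σ (σ a) = a} (u : SG hσ 0) : cL u * σ (cL u) = 1 := const_SG hσ u.2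

lemma cL_inj {hσ : ∀ a, σ (σ a) = a} {u v : SG hσ 0} (h : cL u = cL v) : u = v := by
  refine Subtype.ext (Units.ext (ext' fun n hn => ?_))
  have : n = 0 := by omega
  subst this
  exact h

/-- elements of `SG 0` from norm-one elements -/
def tL (hσ : ∀ a, σ (σ a) = a) (u : K) (hu : u * σ u = 1) : SG hσ 0 :=
  ⟨tor 0 u hu, tor_mem hσ u hu⟩

lemma cL_tL (hσ : ∀ a, σ (σ a) = a) (u : K) (hu : u * σ u = 1) : cL (tL hσ u hu) = u := by
  change c (mono 0 u : R σ 0) 0 = u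
  rw [c_mono _ _ (Nat.zero_le _), if_pos rfl]

lemma val_jL (hσ : ∀ a, σ (σ a) = a) (a : K) :
    (((jL hσ a : SG hσ 1) : (R σ 1)ˣ) : R σ 1) = 1 + mono 1 a := rfl

lemma val_mL (hσ : ∀ a, σ (σ a) = a) (k : ℕ) (u : SG hσ 0) :
    (((mL hσ k u : SG hσ k) : (R σ k)ˣ) : R σ k) = mono 0 (cL u) := rfl

lemma c0_jm (hσ : ∀ a, σ (σ a) = a) (a : K) (u : SG hσ 0) :
    c (((jL hσ a * mL hσ 1 u : SG hσ 1) : (R σ 1)ˣ) : R σ 1) 0 = cL u := by
  have h : (((jL hσ a * mL hσ 1 u : SG hσ 1) : (R σ 1)ˣ) : R σ 1) =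
    (1 + mono 1 a) * mono 0 (cL u) := rfl
  rw [h, c_mul_zero, c_add, c_one (Nat.zero_le _), c_mono _ _ (Nat.zero_le _),
    c_mono _ _ (Nat.zero_le _)]
  simp

lemma c1_jm (hσ : ∀ a, σ (σ a) = a) (a : K) (u : SG hσ 0) :
    c (((jL hσ a * mL hσ 1 u : SG hσ 1) : (R σ 1)ˣ) : R σ 1) 1 = a * σ (cL u) := by
  have h : (((jL hσ a * mL hσ 1 u : SG hσ 1) : (R σ 1)ˣ) : R σ 1) =
    (1 + mono 1 a) * mono 0 (cL u) := rfl
  rw [h, add_mul, one_mul, c_add]
  have h1 := c_mul_lead (σ := σ) (k := 1) (J_mono 1 a) (J_zero (mono 0 (cL u) : R σ 1)) (by omega)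
  rw [Nat.add_zero] at h1
  rw [h1, c_mono _ _ le_rfl, c_mono _ _ le_rfl, c_mono _ _ (Nat.zero_le _), pow_one]
  simp

lemma ext1 {f g : R σ 1} (h0 : c f 0 = c g 0) (h1 : c f 1 = c g 1) : f = g := by
  refine ext' fun n hn => ?_
  rcases Nat.eq_zero_or_pos n with rfl | hn0
  · exact h0
  · have : n = 1 := by omega
    subst this
    exact h1

lemma cmul1 (f g : R σ 1) : c (f * g) 1 = c f 0 * c g 1 + c f 1 * σ (c g 0) := by
  rw [c_mul _ _ le_rfl, Finset.Nat.antidiagonal_succ]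
  simp

/-- **level one, concrete.** -/
theorem relGap_one [Fintype K] [Fintype ι] (hσ : ∀ a, σ (σ a) = a) {Q : ℕ}
    (hc : Fintype.card K = Q ^ 2) (h2 : (2 : K) ≠ 0)
    (hx : σ x ≠ x) (hx0 : x ≠ 0) (hm : PMem σ x cc bb)
    (hinj : Function.Injective fun i => (cc i, bb i))
    (hsur : ∀ a b, a * σ a = x * σ x → b * σ b = a + σ a + (x + σ x) → ∃ i, cc i = a ∧ bb i = b)
    (i₀ : ι) [DecidableEq ↥(SG hσ 1)] [DecidableEq ↥(SG hσ 0)] :
    RelGap (tr1 hσ 1 : SG hσ 1 → SG hσ 0) (tk hσ hx0 hm i₀ 1)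
      (((Q : ℝ) + 1) * (2 * (Q : ℝ) ^ 2)) := by
  classical
  have hq : q σ = Q := q_eq hσ h2 ⟨x, hx⟩ (by rw [Nat.card_eq_fintype_card, hc])
  have hsx0 : σ x ≠ 0 := fun h => hx0 ((map_eq_zero σ).mp h)
  have hcard : Fintype.card (SG hσ 0) = Q + 1 := by
    rw [card_SG' hσ h2 ⟨x, hx⟩, hq]; simp
  -- norm-one scalars
  have hu : ∀ i, (x⁻¹ * cc i) * σ (x⁻¹ * cc i) = 1 := by
    intro i
    rw [map_mul, map_inv₀]
    have := (hm i).1
    field_simp
    linear_combination this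
  set κ : ι → SG hσ 0 := fun i => tL hσ (x⁻¹ * cc i) (hu i) with hκ
  have hκc : ∀ i, cL (κ i) = x⁻¹ * cc i := fun i => cL_tL hσ _ _
  set b : ι → K := fun i => x⁻¹ * bb i * (x⁻¹ * cc i) with hb
  set n : SG hσ 0 → K := fun u => (x * cL u + σ (x * cL u) + (x + σ x)) / (x * σ x) with hn
  set s : ι → SG hσ 1 := fun i => jL hσ (b i) * mL hσ 1 (κ i) with hs
  have hw : (Finset.univ.filter fun v : K => v * σ v = 1).card = Q + 1 := by
    have h := w_eq hσ h2 ⟨x, hx⟩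
    unfold w at h
    rw [hq, Nat.card_eq_fintype_card, Fintype.card_subtype] at h
    exact h
  have main := level_one (ι := ι) σ hw (jL hσ) (mL hσ 1) (fun u => cL u * cL u) (tr1 hσ 1)
    (jL_add hσ) ?_ ?_ ?_ ?_ ?_ s b κ (fun i => rfl) n ?_ ?_ ?_ ?_
  · rw [hcard] at main
    have e : ((Q + 1 : ℕ) : ℝ) * (2 * (Fintype.card K : ℝ)) = ((Q : ℝ) + 1) * (2 * (Q : ℝ) ^ 2) := by
      rw [hc]; push_cast; ring
    rw [e] at main
    refine relGap_mul_left _ s _ (s i₀)⁻¹ ?_ main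
    intro i
    -- t i = (s i0)⁻¹ * s i
    have hpe : ∀ i, (pe σ cc bb 1 i : (R σ 1)ˣ) =
        (Units.mk (mono 0 x) (mono 0 x⁻¹) (by rw [mono_zero_mul, mul_inv_cancel₀ hx0, mono_zero_one])
          (by rw [mono_zero_mul, inv_mul_cancel₀ hx0, mono_zero_one]) : (R σ 1)ˣ) *
          ((s i : SG hσ 1) : (R σ 1)ˣ) := by
      intro i
      refine Units.ext ?_
      rw [pe_val hx0 hm, Units.val_mul]
      change pev σ cc bb 1 i = (mono 0 x : R σ 1) * (((s i : SG hσ 1) : (R σ 1)ˣ) : R σ 1)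
      refine ext1 ?_ ?_
      · rw [c_mul_zero, hs]
        simp only
        rw [c0_jm, hκc, pev, c_mk _ (Nat.zero_le _), c_mono _ _ (Nat.zero_le _), if_pos rfl,
          if_pos rfl]
        field_simp
      · rw [cmul1, hs]
        simp only
        rw [c1_jm, c0_jm, hκc, pev, c_mk _ le_rfl, c_mono _ _ (Nat.zero_le _), c_mono _ _ le_rfl,
          if_neg one_ne_zero, if_pos rfl, if_pos rfl, if_neg one_ne_zero, zero_mul, add_zero, hb]
        simp only
        have := hu i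
        linear_combination (-(bb i) * x * x⁻¹) * this - (bb i) * (mul_inv_cancel₀ hx0)
    refine Subtype.ext ?_
    rw [tk_val, hpe i, hpe i₀]
    change _ = (((s i₀ : SG hσ 1) : (R σ 1)ˣ))⁻¹ * ((s i : SG hσ 1) : (R σ 1)ˣ)
    group
  · -- conjugation
    intro u a
    refine Subtype.ext (Units.ext (ext1 ?_ ?_))
    · change c ((mono 0 (cL u) : R σ 1) * (1 + mono 1 a)) 0 = _
      rw [c0_jm, c_mul_zero, c_mono _ _ (Nat.zero_le _), c_add, c_one (Nat.zero_le _),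
        c_mono _ _ (Nat.zero_le _)]
      simp
    · change c ((mono 0 (cL u) : R σ 1) * (1 + mono 1 a)) 1 = _
      rw [c1_jm, cmul1, c_mono _ _ (Nat.zero_le _), c_add, c_one le_rfl, c_mono _ _ le_rfl,
        c_mono _ _ le_rfl]
      have := cL_norm u
      simp only [if_pos, if_neg, one_ne_zero, zero_mul, add_zero, if_true, if_false, zero_add]
      linear_combination (-(cL u * a)) * this
  · -- bijective
    constructor
    · rintro ⟨a, u⟩ ⟨a', u'⟩ h
      simp only at h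
      have e0 : cL u = cL u' := by rw [← c0_jm hσ a u, h, c0_jm]
      have e1 : a * σ (cL u) = a' * σ (cL u') := by rw [← c1_jm hσ a u, h, c1_jm]
      have hne : σ (cL u) ≠ 0 := fun h0 => by
        have := cL_norm u; rw [h0, mul_zero] at this; exact zero_ne_one this
      rw [← e0] at e1
      rw [mul_right_cancel₀ hne e1, cL_inj e0]
    · intro g
      have hg := const_SG hσ g.2
      set u0 := c ((g : (R σ 1)ˣ) : R σ 1) 0 with hu0
      refine ⟨⟨c ((g : (R σ 1)ˣ) : R σ 1) 1 * u0, tL hσ u0 hg⟩, ?_⟩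
      refine Subtype.ext (Units.ext (ext1 ?_ ?_))
      · rw [c0_jm, cL_tL]
      · rw [c1_jm, cL_tL]
        linear_combination (c ((g : (R σ 1)ˣ) : R σ 1) 1) * hg
  · intro u h
    have := cL_norm u
    rw [mul_self_eq_zero.mp h, zero_mul] at this
    exact zero_ne_one this
  · intro a
    rw [trSG_eq_one_iff]
    exact ex_mem hσ le_rfl (Or.inl rfl)
  · intro u
    apply cL_inj
    change c (SkewGrp877.tr σ (Nat.sub_le 1 1) (mono 0 (cL u) : R σ 1)) 0 = _
    rw [SkewGrp877.c_tr _ _ le_rfl, c_mono _ _ (Nat.zero_le _), if_pos rfl]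
  · -- at most two-to-one
    intro y
    have hsub : ((Finset.univ.filter fun u => n u = y).image (fun u => cL u)).card ≤ 2 := by
      set y' := y * (x * σ x) - (x + σ x) with hy'
      have hroot : ∀ u, n u = y → x * (cL u * cL u) - y' * cL u + σ x = 0 := by
        intro u h
        have h1 := cL_norm u
        rw [hn] at h
        simp only at h
        rw [div_eq_iff (mul_ne_zero hx0 hsx0), map_mul] at h
        rw [hy']
        linear_combination (cL u) * h - (σ x) * h1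
      by_contra hcon
      push Not at hcon
      obtain ⟨a1, h1, a2, h2', a3, h3, h12, h13, h23⟩ := Finset.two_lt_card.mp hcon
      simp only [Finset.mem_image, Finset.mem_filter, Finset.mem_univ, true_and] at h1 h2' h3
      obtain ⟨u1, hu1, rfl⟩ := h1
      obtain ⟨u2, hu2, rfl⟩ := h2'
      obtain ⟨u3, hu3, rfl⟩ := h3
      have r1 := hroot u1 hu1
      have r2 := hroot u2 hu2
      have r3 := hroot u3 hu3
      have d12 : x * (cL u1 + cL u2) = y' := by
        apply mul_left_cancel₀ (sub_ne_zero.mpr h12)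
        linear_combination r1 - r2
      have d13 : x * (cL u1 + cL u3) = y' := by
        apply mul_left_cancel₀ (sub_ne_zero.mpr h13)
        linear_combination r1 - r3
      apply h23
      apply mul_left_cancel₀ hx0
      linear_combination d12 - d13
    rwa [Finset.card_image_of_injective _ (fun u v h => cL_inj h)] at hsub
  · -- injective
    intro i i' h1 h3
    apply hinj
    have e1 : x⁻¹ * cc i = x⁻¹ * cc i' := by rw [← hκc, ← hκc, h1]
    have e2 : cc i = cc i' := mul_left_cancel₀ (inv_ne_zero hx0) e1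
    have hne : x⁻¹ * cc i' ≠ 0 := fun h0 => by
      have := hu i'; rw [h0, zero_mul] at this; exact zero_ne_one this
    have e3 : bb i = bb i' := by
      rw [hb] at h3
      simp only at h3
      rw [e1] at h3
      exact mul_left_cancel₀ (inv_ne_zero hx0) (mul_right_cancel₀ hne h3)
    simp only [e2, e3]
  · -- norm
    intro i
    rw [hb, hn]
    simp only
    have h1 := hu i
    have h3 := (hm i).2
    rw [map_mul, map_inv₀] at h1
    rw [hκc, mul_inv_cancel_left₀ hx0, eq_div_iff (mul_ne_zero hx0 hsx0), ← h3, map_mul, map_mul,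
      map_mul, map_inv₀]
    calc x⁻¹ * bb i * (x⁻¹ * cc i) * ((σ x)⁻¹ * σ (bb i) * ((σ x)⁻¹ * σ (cc i))) * (x * σ x)
        = (x⁻¹ * x) * ((σ x)⁻¹ * σ x) * (bb i * σ (bb i)) *
          (x⁻¹ * cc i * ((σ x)⁻¹ * σ (cc i))) := by ring
      _ = bb i * σ (bb i) := by
          rw [h1, inv_mul_cancel₀ hx0, inv_mul_cancel₀ hsx0]; ring
  · -- surjective
    intro u y hy
    have h1 := cL_norm u
    rw [hn] at hy
    simp only at hy
    rw [eq_div_iff (mul_ne_zero hx0 hsx0)] at hy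
    obtain ⟨i, hi1, hi2⟩ := hsur (x * cL u) (x * y * σ (cL u)) (by
        rw [map_mul]; linear_combination (x * σ x) * h1) (by
        rw [← hy, map_mul, map_mul, hσ]
        linear_combination (x * y * σ x * σ y) * h1)
    refine ⟨i, cL_inj ?_, ?_⟩
    · rw [hκc, hi1, inv_mul_cancel_left₀ hx0]
    · rw [hb]
      simp only
      rw [hi1, hi2, inv_mul_cancel_left₀ hx0]
      linear_combination (y * cL u * σ (cL u)) * (inv_mul_cancel₀ hx0) + y * h1


lemma RelGap.mono' {N B : Type*} [Group N] [Fintype N] [DecidableEq N] [Fintype ι] {β : N → B}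
    {t : ι → N} {μ μ' : ℝ} (h : RelGap β t μ) (hμ : μ ≤ μ') : RelGap β t μ' := by
  intro f hf
  refine (h f hf).trans (mul_le_mul_of_nonneg_right hμ ?_)
  positivity

lemma num_one {Q : ℕ} (hQ : 2 ≤ Q) {r : ℝ} (hr : 0 < r) (hrq : r ^ 3 ≤ Q) :
    ((Q : ℝ) + 1) * (2 * (Q : ℝ) ^ 2) ≤ (314 / r) * ((Q : ℝ) ^ 2 + 1) ^ 2 := by
  have hQ' : (2 : ℝ) ≤ Q := by exact_mod_cast hQ
  have hrQ : r ≤ Q := by
    by_contra hcon
    push Not at hcon
    have h1 : 1 ≤ r := by linarith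
    nlinarith [mul_pos hr hr, mul_nonneg (sub_nonneg.mpr h1) (sub_nonneg.mpr h1), sq_nonneg r]
  rw [div_mul_eq_mul_div, le_div_iff₀ hr]
  have h3 : ((Q : ℝ) + 1) * (2 * (Q : ℝ) ^ 2) * r ≤ ((Q : ℝ) + 1) * (2 * (Q : ℝ) ^ 2) * Q :=
    mul_le_mul_of_nonneg_left hrQ (by positivity)
  nlinarith [sq_nonneg ((Q : ℝ) ^ 2), mul_nonneg (sub_nonneg.mpr hQ') (sq_nonneg (Q : ℝ)),
    mul_nonneg (mul_nonneg (sub_nonneg.mpr hQ') (by positivity : (0 : ℝ) ≤ Q)) (sq_nonneg (Q : ℝ))]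

/-- **relative gap over the constants at every level `k + 1`.** -/
theorem relGap_all [Fintype K] [Fintype ι] (hσ : ∀ a, σ (σ a) = a) {Q : ℕ}
    (hc : Fintype.card K = Q ^ 2) (hσq : ∀ a, σ a = a ^ Q) (hQ2 : 2 ≤ Q) (h2 : (2 : K) ≠ 0)
    (hx : σ x ≠ x) (hx0 : x ≠ 0) (hm : PMem σ x cc bb)
    (hinj : Function.Injective fun i => (cc i, bb i))
    (hsur : ∀ a b, a * σ a = x * σ x → b * σ b = a + σ a + (x + σ x) → ∃ i, cc i = a ∧ bb i = b)
    (i₀ : ι) [∀ k, DecidableEq ↥(SG hσ k)] {r : ℝ} (hr : 0 < r) (hrq : r ^ 3 ≤ Q) (k : ℕ) :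
    RelGap (trSG hσ (Nat.zero_le (k + 1)) : SG hσ (k + 1) → SG hσ 0)
      (tk hσ hx0 hm i₀ (k + 1)) ((314 / r) * ((Q : ℝ) ^ 2 + 1) ^ 2) :=
  relGap_tk hσ hc hσq hQ2 h2 hx hx0 hm hinj i₀ hr hrq
    (RelGap.mono' (relGap_one hσ hc h2 hx hx0 hm hinj hsur i₀) (num_one hQ2 hr hrq)) k

end Crest.Agent.R289.SkewGrp877
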