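import Crest.Agent.R289.ExpMZ_820
import Crest.Agent.R289.SkewL1_877
import Crest.Agent.R289.NuExp_547
import Crest.Agent.R289.Obj289_233

/-!
Row 289, block B: leaf (4) of `Obj289_233`: expansion of the steps of the object at all levels.
-/

set_option autoImplicit false

namespace Crest.Agent.R289.Exp820

open Filter TraceM962 SkewGrp877 Tower962 Exp291 ObjDef233 Obj289233

section level

variable {K : Type} [Field K] [Fintype K] {σ : K →+* K} {x : K}

/-- mean-zero gap of the steps at level `n + 1` -/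
theorem mz_alP (hσ : ∀ a, σ (σ a) = a) {Q : ℕ} (hc : Fintype.card K = Q ^ 2)
    (hσq : ∀ a, σ a = a ^ Q) (hQ2 : 2 ≤ Q) (h2 : (2 : K) ≠ 0) (hx : σ x ≠ x) {r : ℝ} (hr : 0 < r)
    (hrq : r ^ 3 ≤ Q) (n : ℕ) [Fintype (U hσ (n + 1) 1)] :
    MZ (fun i : Option K => TPgrp547.alP hσ h2 (n + 1) hx i)
      ((314 / r) * ((Q : ℝ) ^ 2 + 1) ^ 2) := by
  classical
  have hx0 : x ≠ 0 := Fac281.x_ne_zero hx
  have hgap := relGap_all hσ hc hσq hQ2 h2 hx hx0 (NuExp547.pmem hσ hx)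
    (NuExp547.ccbb_inj hσ hx) (fun a b h1 h3 => NuExp547.ccbb_sur hσ hx a b h1 h3)
    (none : Option K) hr hrq n
  refine mz_a hσ hx0 (NuExp547.pmem hσ hx) (NuExp547.ccbb_inj hσ hx)
    (fun a b h => NuExp547.ccbb_sur hσ hx a b h.1 h.2) (none : Option K) hgap _
    (NuExp547.zX h2 hσ (n + 1) x) (NuExp547.zX_comm h2 hσ (n + 1) x) fun i => ?_
  rw [NuExp547.alP_unit h2 hσ (n + 1) hx i, mul_assoc]
  have : cu σ (n + 1) (NuExp547.cc σ x i) =
      NuExp547.kap (n + 1) (NuExp547.cc σ x i) (NuExp547.cc_ne hσ hx i) :=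
    Units.ext (cu_val (NuExp547.cc_ne hσ hx i))
  rw [this]

/-- **expansion of the steps at every level** -/
theorem exp_alP (hσ : ∀ a, σ (σ a) = a) {Q : ℕ} (hc : Fintype.card K = Q ^ 2)
    (hσq : ∀ a, σ a = a ^ Q) (hQ2 : 2 ≤ Q) (h2 : (2 : K) ≠ 0) (hx : σ x ≠ x) {eps : ℝ}
    (heps : 0 < eps) (hrq : (314 / eps ^ 2) ^ 3 ≤ (Q : ℝ)) (n : ℕ) [Fintype (U hσ n 1)] :
    TP846.Exp (fun i : Option K => TPgrp547.alP hσ h2 n hx i) eps ∧
      TP846.Exp (fun i : Option K => (TPgrp547.alP hσ h2 n hx i)⁻¹) eps := by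
  cases n with
  | zero =>
    have hsub : ∀ u v : U hσ 0 1, u = v := by
      intro u v
      have hu := U_top hσ u.2
      have hv := U_top hσ v.2
      exact Subtype.ext (hu.trans hv.symm)
    have key : ∀ s : Option K → U hσ 0 1, TP846.Exp s eps := by
      intro s g _
      have h1 : ∀ F : U hσ 0 1 → ℝ, ∑ v, F v = F 1 := fun F =>
        Fintype.sum_eq_single _ fun v hv => absurd (hsub v 1) hv
      have h3 : ∀ v, g v = g 1 := fun v => by rw [hsub v 1]
      have hcard : (Fintype.card (U hσ 0 1) : ℝ) = 1 := by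
        have : Fintype.card (U hσ 0 1) = 1 :=
          Fintype.card_eq_one_iff.2 ⟨1, fun v => hsub v 1⟩
        rw [this, Nat.cast_one]
      rw [h1, h1, h1, hcard, div_one]
      have h4 : ∑ z : Option K, g (1 * s z) = (Fintype.card (Option K) : ℝ) * g 1 := by
        rw [Finset.sum_congr rfl fun z _ => h3 _, Finset.sum_const, Finset.card_univ, nsmul_eq_mul]
      rw [h4, mul_pow]
      refine mul_le_mul_of_nonneg_left ?_ (sq_nonneg _)
      have : 0 ≤ eps ^ 2 * g 1 ^ 2 := by positivity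
      linarith
    exact ⟨key _, key _⟩
  | succ n =>
    have hr : 0 < 314 / eps ^ 2 := by positivity
    have hcard : (Fintype.card (Option K) : ℝ) = (Q : ℝ) ^ 2 + 1 := by
      rw [Fintype.card_option, hc]
      push_cast
      ring
    have hμ : (314 / (314 / eps ^ 2)) * ((Q : ℝ) ^ 2 + 1) ^ 2 =
        (Fintype.card (Option K) : ℝ) ^ 2 * eps ^ 2 := by
      rw [hcard]
      have : (314 : ℝ) / (314 / eps ^ 2) = eps ^ 2 := by
        field_simp
      rw [this]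
      ring
    have h1 := mz_alP hσ hc hσq hQ2 h2 hx hr hrq n
    have h3 := h1.inv (by positivity)
    rw [hμ] at h1 h3
    exact ⟨fun g _ => h1.exp g, fun g _ => h3.exp g⟩

end level

/-- **leaf (4) of `obj289_of`** -/
theorem hexp : ∀ eps : ℝ, 0 < eps → ∀ᶠ q : ℕ in atTop, ∀ D : Par, D.q = q →
    ∃ lam : ℝ, 0 ≤ lam ∧ lam ≤ eps ∧ ExpOK D lam := by
  intro eps heps
  have h1 : ∀ᶠ q : ℕ in atTop, (314 / eps ^ 2) ^ 3 ≤ (q : ℝ) :=
    tendsto_natCast_atTop_atTop.eventually_ge_atTop _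
  filter_upwards [h1, eventually_ge_atTop 2] with q hq1 hq2 D hD
  subst hD
  refine ⟨eps, heps.le, le_rfl, fun k => ?_⟩
  obtain ⟨ha, ha'⟩ := exp_alP D.hσ D.card D.frob hq2 D.two D.hx heps hq1 (2 * k)
  obtain ⟨hb, hb'⟩ := exp_alP D.hσ D.card D.frob hq2 D.two D.hy heps hq1 (2 * k)
  exact ⟨ha, ha', hb, hb'⟩

end Crest.Agent.R289.Exp820
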