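import Crest.Agent.R289.ObjB_367
import Crest.Agent.R289.FacB_281

/-!
Row 289, block B (helper367).  The inhabitant of `ObjB367.ChL` for the concrete two-place object
(charts and weights of `FacB_281`), hence the fields `mulX`, `mulY`, `dist`, `rob` for the concrete
edge codes.
-/

set_option autoImplicit false
set_option linter.unusedSectionVars false

namespace Crest.Agent.R289.ObjB367

open Polynomial
open Crest.Agent.R289.PS459 Crest.Agent.R289.FacB281

section weights

variable {K : Type*} [Field K] {σ : K →+* K} {x y : K}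

theorem moe_pow (s : ℕ) (l m : Option K) : moe σ x y s l m = moe σ x y 1 l m ^ s := by
  simp only [moe, pow_one, inv_pow]

theorem meo_pow (s : ℕ) (l m : Option K) : meo σ x y s l m = meo σ x y 1 l m ^ s := by
  simp only [meo, pow_one, inv_pow]

theorem moo_pow (s : ℕ) (l m : Option K) : moo σ x y s l m = moo σ x y 1 l m ^ s := by
  simp only [moo, pow_one, inv_pow]

end weights

variable {K : Type} [Field K] [Finite K] {σ : K →+* K} {x y : K}

/-- the charts of the concrete object; `w` = `q - 1` -/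
noncomputable def chl (hσ : ∀ a, σ (σ a) = a) (hx : σ x ≠ x) (hy : σ y ≠ y) (hxy : x ≠ y)
    (hxy' : σ x ≠ y) (w : ℕ) (hw : ∀ c : K, c ≠ 0 → (c * σ c) ^ w = 1) :
    ChL K (L σ x y) (M σ x y) w where
  hM := M_bij hσ hx hxy hxy'
  hL := L_bij hσ hy hxy hxy'
  px := FacB281.px σ x
  py := FacB281.px σ y
  hpx := px_bij hσ hx
  hpy := px_bij hσ hy
  soe := moe σ x y 1
  seo := meo σ x y 1
  soo := moo σ x y 1
  soe_ne := moe_ne_zero hσ hx hxy hxy' 1
  seo_ne := meo_ne_zero hσ hy hxy hxy' 1
  soo_ne := moo_ne_zero hσ hx hy hxy hxy' 1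
  h0 := fun D _ l f => by
    simp only [← moe_pow]
    exact FacB281.h0 hσ hx hxy hxy' D l f
  v0 := fun D _ m f => by
    simp only [← meo_pow]
    exact FacB281.v0 hσ hy hxy hxy' D m f
  h1 := fun D hD l' lam hlam f => by
    simp only [← meo_pow, ← moo_pow]
    obtain ⟨e, rfl⟩ := hD
    exact FacB281.h1 hσ hx hy hxy hxy' (fun c hc => by rw [pow_mul, hw c hc, one_pow]) l' lam hlam f
  v1 := fun D hD m' mu hmu f => by
    simp only [← moe_pow, ← moo_pow]
    obtain ⟨e, rfl⟩ := hD
    exact FacB281.v1 hσ hx hy hxy hxy' (fun c hc => by rw [pow_mul, hw c hc, one_pow]) m' mu hmu f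

variable (hσ : ∀ a, σ (σ a) = a) (hx : σ x ≠ x) (hy : σ y ≠ y) (hxy : x ≠ y) (hxy' : σ x ≠ y)
  (w : ℕ) (hw : ∀ c : K, c ≠ 0 → (c * σ c) ^ w = 1)

/-- the x-edge code at a `y`-odd edge, in the form of `TPDef` -/
theorem mem_chl_X_true {D : ℕ} {z : Option K} {u : Option K → K} :
    u ∈ (chl hσ hx hy hxy hxy' w hw).X D true z ↔ ∃ p : K[X], p.natDegree ≤ D ∧
      ∀ l m, L σ x y l m = z → meo σ x y D l m * u m = ev D p (FacB281.px σ y m) := by
  rw [ChL.mem_X_true]
  refine exists_congr fun p => and_congr_right fun _ => ?_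
  constructor
  · intro h l m hl
    have h1 := h m
    have h2 : (chl hσ hx hy hxy hxy' w hw).li m z = l := by
      rw [← hl]
      exact (Equiv.ofBijective _ ((chl hσ hx hy hxy hxy' w hw).hL m)).symm_apply_apply l
    rw [h2] at h1
    rw [meo_pow]
    exact h1
  · intro h m
    have h1 := h _ m ((chl hσ hx hy hxy hxy' w hw).L_li m z)
    rw [meo_pow] at h1
    exact h1

/-- the y-edge code at an `x`-odd edge, in the form of `TPDef` -/
theorem mem_chl_Y_true {D : ℕ} {v : Option K} {u : Option K → K} :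
    u ∈ (chl hσ hx hy hxy hxy' w hw).Y D true v ↔ ∃ p : K[X], p.natDegree ≤ D ∧
      ∀ l m, M σ x y l m = v → moe σ x y D l m * u l = ev D p (FacB281.px σ x l) := by
  rw [ChL.mem_Y_true]
  refine exists_congr fun p => and_congr_right fun _ => ?_
  constructor
  · intro h l m hm
    have h1 := h l
    have h2 : (chl hσ hx hy hxy hxy' w hw).mi l v = m := by
      rw [← hm]
      exact (Equiv.ofBijective _ ((chl hσ hx hy hxy hxy' w hw).hM l)).symm_apply_apply m
    rw [h2] at h1
    rw [moe_pow]
    exact h1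
  · intro h l
    have h1 := h l _ ((chl hσ hx hy hxy hxy' w hw).M_mi l v)
    rw [moe_pow] at h1
    exact h1

end Crest.Agent.R289.ObjB367
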