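import Crest.Agent.R289.ObjTab_940
import Crest.Agent.R289.TPgrpB_547

/-!
# R289: the table fields of `Obj.OK`, final relative form (helper940)

`P k = U hσ (2 * k) 1`, `Q = q σ ^ 3`, `ix = ObjTab940.ix`.

* `mulQ, invQ` with `mulQ_eq, invQ_eq, ptf_mulQ, ptf_invQ`;
* `stepQ σ b g : Un → ℕ` = number of the unique `u ∈ U hσ (2 k) 1` with
  `conj (1 + b τ + g τ²) * u` central: `stepQ_eq` for every `u = s * el b g`, `s` central;
  `aQ σ x i` = the number of `TPgrp547.alP hσ h2 (2 k) hx i`: `aQ_eq`, `ptf_aQ`.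
-/

set_option autoImplicit false
set_option linter.dupNamespace false
set_option linter.unusedSectionVars false

namespace Crest.Agent.R289.ObjTab940

open Crest.Agent.Lib.PT Crest.Agent.Lib.PT.Arith Crest.Agent.R288.PtDp115
open Crest.Agent.R289.Gauss115 Crest.Agent.R289.GkIdx594 Crest.Agent.R289.SkewGrp877
open Crest.Agent.R289.Size954 Crest.Agent.R289.GkMul940 Crest.Agent.R289.Level940
open Crest.Agent.R289.TPgrp547 (Cen el f4 bet gam rp nX Cen_nX el_conj_mul cancel sX Cen_sX al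
  al_val alP rp_ne)

/-! ### multiplication and inverse -/

section basic

variable {K : Type} [Field K] [Finite K] [Inhabited K] {σ : K →+* K}
variable (hσ : ∀ x, σ (σ x) = x) (h2 : (2 : K) ≠ 0) (hne : ∃ x, σ x ≠ x)

/-- table of the multiplication -/
noncomputable def mulQ (σ : K →+* K) (x : Un × ℕ × ℕ) : ℕ :=
  mulN σ (2 * x.1.val) 1 x.2.1 x.2.2

/-- table of the inverses -/
noncomputable def invQ (σ : K →+* K) (x : Un × ℕ) : ℕ := invN σ (2 * x.1.val) 1 x.2

/-- number of `1` -/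
noncomputable def oneQ (σ : K →+* K) (x : Un) : ℕ := oneN σ (2 * x.val) 1

theorem mulQ_eq (k : ℕ) (u v : U hσ (2 * k) 1) :
    mulQ σ (Un.mk k, (ix hσ h2 hne k u : Fin _), (ix hσ h2 hne k v : Fin _)) =
      (ix hσ h2 hne k (u * v) : Fin _) := by
  unfold mulQ
  rw [ix_val', ix_val', ix_val', eU_mul hσ]

theorem invQ_eq (k : ℕ) (u : U hσ (2 * k) 1) :
    invQ σ (Un.mk k, (ix hσ h2 hne k u : Fin _)) = (ix hσ h2 hne k u⁻¹ : Fin _) := by
  unfold invQ
  rw [ix_val', ix_val', eU_inv hσ]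

theorem oneQ_eq (k : ℕ) : oneQ σ (Un.mk k) = (ix hσ h2 hne k 1 : Fin _) := by
  unfold oneQ
  rw [ix_val', eU_one hσ]

variable {α : Type} [PTCode α]

include hσ h2 hne in
theorem ptu_qK_two {k : α → ℕ} (hk : PTU k) (hQ : PTU (fun a => (q σ ^ 3) ^ k a)) :
    PTU (fun a => qK K ^ (2 * k a + 1)) := by
  refine ptu_pow_of_pb (qK K) (PTU.succ (PTU.mul (PTU.const 2) hk)) ?_
  refine ((PB.const (q σ ^ 2)).mul (hQ.pb.pow 2)).mono fun a => ?_
  rw [qK_eq hσ h2 hne, ← pow_two, ← pow_mul, ← pow_mul, ← pow_mul, ← pow_add]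
  exact Nat.pow_le_pow_right (by have := two_le_q (σ := σ); omega) (by ring_nf; omega)

variable [PTCode K]

include hσ h2 hne

theorem ptf_mulQ (k u v : α → ℕ) (hk : PTU k) (hQ : PTU (fun a => (q σ ^ 3) ^ k a))
    (hu : PTF u) (hv : PTF v) : PTF (fun a => mulQ σ (Un.mk (k a), u a, v a)) :=
  ptf_mulN 1 (k := fun a => 2 * k a) (PTU.mul (PTU.const 2) hk) (ptu_qK_two hσ h2 hne hk hQ) hu hv

theorem ptf_invQ (k u : α → ℕ) (hk : PTU k) (hQ : PTU (fun a => (q σ ^ 3) ^ k a))
    (hu : PTF u) : PTF (fun a => invQ σ (Un.mk (k a), u a)) :=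
  ptf_invN 1 (k := fun a => 2 * k a) (PTU.mul (PTU.const 2) hk) (ptu_qK_two hσ h2 hne hk hQ) hu

theorem ptf_oneQ (k : α → ℕ) (hk : PTU k) (hQ : PTU (fun a => (q σ ^ 3) ^ k a)) :
    PTF (fun a => oneQ σ (Un.mk (k a))) :=
  ptf_oneN 1 (k := fun a => 2 * k a) (PTU.mul (PTU.const 2) hk) (ptu_qK_two hσ h2 hne hk hQ)

end basic

/-! ### the steps -/

section steps

variable {K : Type} [Field K] {σ : K →+* K} {k : ℕ}

/-- digit list of `1 + b τ + g τ²` -/
def beL (k : ℕ) (b g : K) : List K :=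
  tabK (k + 1) fun n => if n = 0 then 1 else if n = 1 then b else if n = 2 then g else 0

theorem toL_el (b g : K) : toL (el σ k b g) = beL k b g := by
  unfold el
  rw [toL_mk]
  refine tabK_congr fun n _ => ?_
  match n with
  | 0 => rfl
  | 1 => rfl
  | 2 => rfl
  | 3 => rfl
  | 4 => rfl
  | (m + 5) => rfl

open Classical in
/-- the digit list is central with constant term one -/
noncomputable def cenB (σ : K →+* K) (k : ℕ) (l : List K) : Bool :=
  decide (getK l 0 = 1) &&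
    decide (tabK (k + 1) (fun n => if n % 2 = 1 then 0 else getK l n) = tabK (k + 1) (getK l)) &&
    decide (tabK (k + 1) (fun n => σ (getK l n)) = tabK (k + 1) (getK l))

theorem cenB_iff {f : R σ k} : cenB σ k (toL f) = true ↔ Cen f := by
  unfold cenB Cen
  simp only [Bool.and_eq_true, decide_eq_true_eq, tabK_eq_iff, getK_toL, and_assoc]
  constructor
  · rintro ⟨h0, h1, h2⟩
    refine ⟨h0, fun n hn => ⟨fun ho => ?_, h2 n (by omega)⟩⟩
    have := h1 n (by omega)
    rw [if_pos ho] at this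
    exact this.symm
  · rintro ⟨h0, h1⟩
    refine ⟨h0, fun n hn => ?_, fun n hn => (h1 n (by omega)).2⟩
    split_ifs with ho
    · exact ((h1 n (by omega)).1 ho).symm
    · rfl

/-- uniqueness of the normalisation -/
theorem norm_unique (hσ : ∀ x, σ (σ x) = x) (h2 : (2 : K) ≠ 0) {be n : R σ k}
    (hn : Cen n) (hb1 : be * conj be = n) {u u' : (R σ k)ˣ}
    (hu : u ∈ U hσ k 1) (hu' : u' ∈ U hσ k 1) (h : Cen (conj be * (u : R σ k)))
    (h' : Cen (conj be * (u' : R σ k))) : u = u' := by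
  have key : ∀ {v : (R σ k)ˣ}, v ∈ U hσ k 1 → Cen (conj be * (v : R σ k)) →
      (conj be * (v : R σ k)) * (conj be * (v : R σ k)) = n ∧
        be * (conj be * (v : R σ k)) = n * (v : R σ k) := by
    intro v hv hc
    have e1 : be * (conj be * (v : R σ k)) = n * (v : R σ k) := by rw [← mul_assoc, hb1]
    refine ⟨?_, e1⟩
    have hvv : (v : R σ k) * conj (v : R σ k) = 1 := (mem_SG hσ).1 hv.1
    -- conj of a central element
    have e2 : conj (conj be * (v : R σ k)) = conj be * (v : R σ k) := hc.conj hσ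
    have e3 : conj (v : R σ k) * be = conj be * (v : R σ k) := by
      rw [← e2, conj_mul hσ, conj_conj hσ]
    -- `n * (w * w) = n * n`
    have e4 : n * ((conj be * (v : R σ k)) * (conj be * (v : R σ k))) = n * n := by
      calc n * ((conj be * (v : R σ k)) * (conj be * (v : R σ k)))
          = be * conj be * ((conj be * (v : R σ k)) * (conj be * (v : R σ k))) := by rw [hb1]
        _ = be * ((conj be * (v : R σ k)) * ((conj be * (v : R σ k)) * conj be)) := by
            rw [mul_assoc, ← (hc.mul hσ hc).comm hσ (conj be), mul_assoc]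
        _ = (be * (conj be * (v : R σ k))) * ((conj (v : R σ k) * be) * conj be) := by
            rw [e3, ← mul_assoc be (conj be * (v : R σ k))]
        _ = n * (v : R σ k) * (conj (v : R σ k) * n) := by rw [e1, mul_assoc (conj _), hb1]
        _ = n * ((v : R σ k) * conj (v : R σ k)) * n := by
            rw [mul_assoc n, ← mul_assoc (v : R σ k), ← mul_assoc n]
        _ = n * n := by rw [hvv, mul_one]
    have e5 : n * ((conj be * (v : R σ k)) * (conj be * (v : R σ k)) - n) = 0 := by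
      rw [mul_sub, e4, sub_self]
    exact sub_eq_zero.1 (cancel (by rw [hn.1]; exact one_ne_zero) e5)
  obtain ⟨k1, k2⟩ := key hu h
  obtain ⟨k1', k2'⟩ := key hu' h'
  have e1 : (conj be * (u : R σ k) + conj be * (u' : R σ k)) *
      (conj be * (u : R σ k) - conj be * (u' : R σ k)) = 0 := by
    rw [mul_sub, add_mul, add_mul, k1, k1', h.comm hσ (conj be * (u' : R σ k))]
    abel
  have e2 := cancel (by rw [c_add, h.1, h'.1, one_add_one_eq_two]; exact h2) e1
  have e3 : conj be * (u : R σ k) = conj be * (u' : R σ k) := sub_eq_zero.1 e2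
  have e4 : n * ((u : R σ k) - (u' : R σ k)) = 0 := by
    rw [mul_sub, ← k2, ← k2', e3, sub_self]
  exact Units.ext (sub_eq_zero.1 (cancel (by rw [hn.1]; exact one_ne_zero) e4))

variable [Finite K] [Inhabited K]

/-- test of element number `r` -/
noncomputable def okStep (σ : K →+* K) (b g : K) (k r : ℕ) : Bool :=
  cenB σ k (mulL σ k (conjL σ k (beL k b g)) (elL σ k 1 r))

/-- number of the normalised step at level `2 k` -/
noncomputable def stepQ (σ : K →+* K) (b g : K) (x : Un) : ℕ :=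
  (((List.range (numU σ (2 * x.val) 1)).find? (okStep σ b g (2 * x.val))).getD 0)

theorem okStep_eU (hσ : ∀ x, σ (σ x) = x) (b g : K) (u : U hσ k 1) :
    okStep σ b g k (eU hσ k 1 u : Fin _) = true ↔
      Cen (conj (el σ k b g) * ((u : (R σ k)ˣ) : R σ k)) := by
  unfold okStep
  rw [elL_eU hσ, ← toL_el (σ := σ), ← toL_conj hσ]
  unfold uL
  rw [← toL_mul hσ, cenB_iff]

theorem stepQ_eq (hσ : ∀ x, σ (σ x) = x) (h2 : (2 : K) ≠ 0) (hne : ∃ x, σ x ≠ x) {b g : K}
    (k : ℕ) {n : R σ (2 * k)} (hn : Cen n)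
    (hb1 : el σ (2 * k) b g * conj (el σ (2 * k) b g) = n)
    (hb2 : conj (el σ (2 * k) b g) * el σ (2 * k) b g = n)
    (u : U hσ (2 * k) 1) {s : R σ (2 * k)} (hs : Cen s)
    (hu : ((u : (R σ (2 * k))ˣ) : R σ (2 * k)) = s * el σ (2 * k) b g) :
    stepQ σ b g (Un.mk k) = (ix hσ h2 hne k u : Fin _) := by
  rw [ix_val']
  unfold stepQ
  have hok : okStep σ b g (2 * k) (eU hσ (2 * k) 1 u : Fin _) = true := by
    rw [okStep_eU]
    rw [hu, ← mul_assoc, ← hs.comm hσ (conj _), mul_assoc, hb2]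
    exact hs.mul hσ hn
  have hlt := (eU hσ (2 * k) 1 u).2
  have hmem : ((eU hσ (2 * k) 1 u : Fin _) : ℕ) ∈ List.range (numU σ (2 * k) 1) :=
    List.mem_range.2 hlt
  have hsome : ((List.range (numU σ (2 * k) 1)).find? (okStep σ b g (2 * k))).isSome = true := by
    rw [List.find?_isSome]
    exact ⟨_, hmem, hok⟩
  obtain ⟨r, hr⟩ := Option.isSome_iff_exists.1 hsome
  change ((List.range (numU σ (2 * k) 1)).find? (okStep σ b g (2 * k))).getD 0 = _
  rw [hr, Option.getD_some]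
  have hr1 := List.find?_some hr
  have hr2 : r < numU σ (2 * k) 1 := List.mem_range.1 (List.mem_of_find?_eq_some hr)
  set v : U hσ (2 * k) 1 := (eU hσ (2 * k) 1).symm ⟨r, hr2⟩ with hv
  have hrv : r = ((eU hσ (2 * k) 1 v : Fin _) : ℕ) := by rw [hv, Equiv.apply_symm_apply]
  rw [hrv] at hr1 ⊢
  have h1 := (okStep_eU hσ b g v).1 hr1
  have h2' := (okStep_eU hσ b g u).1 hok
  have : v = u := Subtype.ext (norm_unique hσ h2 hn hb1 v.2 u.2 h1 h2')
  rw [this]

/-- number of 547's `alP hσ h2 (2 k) hx i` -/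
noncomputable def aQ (σ : K →+* K) (x : K) (i : Option K) : Un → ℕ :=
  stepQ σ (bet σ x (rp i)) (gam σ x (rp i))

theorem aQ_eq (hσ : ∀ x, σ (σ x) = x) (h2 : (2 : K) ≠ 0) (hne : ∃ x, σ x ≠ x) {x : K}
    (hx : σ x ≠ x) (i : Option K) (k : ℕ) :
    aQ σ x i (Un.mk k) = (ix hσ h2 hne k (alP hσ h2 (2 * k) hx i) : Fin _) :=
  stepQ_eq hσ h2 hne k (Cen_nX hσ x) (el_conj_mul hσ hx (rp_ne i)).1
    (el_conj_mul hσ hx (rp_ne i)).2 _ (Cen_sX hσ h2 (2 * k) x) rfl

/-- the same for any element `s * be`, `s` central -/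
theorem aQ_eq' (hσ : ∀ x, σ (σ x) = x) (h2 : (2 : K) ≠ 0) (hne : ∃ x, σ x ≠ x) {x : K}
    (hx : σ x ≠ x) (i : Option K) (k : ℕ) (u : U hσ (2 * k) 1) {s : R σ (2 * k)} (hs : Cen s)
    (hu : ((u : (R σ (2 * k))ˣ) : R σ (2 * k)) =
      s * el σ (2 * k) (bet σ x (rp i)) (gam σ x (rp i))) :
    aQ σ x i (Un.mk k) = (ix hσ h2 hne k u : Fin _) :=
  stepQ_eq hσ h2 hne k (Cen_nX hσ x) (el_conj_mul hσ hx (rp_ne i)).1
    (el_conj_mul hσ hx (rp_ne i)).2 u hs hu

/-! ### polynomial time -/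

variable [PTCode K] {α : Type} [PTCode α]

omit [Finite K] [Inhabited K] in
theorem ptf_beL (b g : K) {k : α → ℕ} (hk : PTU k) : PTF (fun a => beL (k a) b g) := by
  unfold beL
  exact ptf_tabK (n := fun a => k a + 1)
    (f := fun _ n => if n = 0 then 1 else if n = 1 then b else if n = 2 then g else 0)
    (PTU.succ hk)
    (PTF.ite (PTPred.natEq PTF.snd (PTF.const 0)) (PTF.const 1)
      (PTF.ite (PTPred.natEq PTF.snd (PTF.const 1)) (PTF.const b)
        (PTF.ite (PTPred.natEq PTF.snd (PTF.const 2)) (PTF.const g) (PTF.const 0))))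

omit [Inhabited K] in
theorem ptf_cenB {k : α → ℕ} {l : α → List K} (hk : PTU k) (hl : PTF l) :
    PTF (fun a => cenB σ (k a) (l a)) := by
  classical
  have hl' : PTF (fun p : α × ℕ => getK (l p.1) p.2) :=
    ptf_getK (PTF.comp (g := l) hl PTF.fst) PTF.snd
  have h0 : PTPred (fun a => getK (l a) 0 = 1) :=
    PTPred.eq (ptf_getK hl (PTF.const 0)) (PTF.const 1)
  have h1 : PTF (fun a => tabK (k a + 1) (getK (l a))) :=
    ptf_tabK (n := fun a => k a + 1) (f := fun a n => getK (l a) n) (PTU.succ hk) hl'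
  have h2 : PTF (fun a => tabK (k a + 1) (fun n => if n % 2 = 1 then 0 else getK (l a) n)) :=
    ptf_tabK (n := fun a => k a + 1)
      (f := fun a n => if n % 2 = 1 then 0 else getK (l a) n) (PTU.succ hk)
      (PTF.ite (PTPred.natEq (PTF.natMod PTF.snd (PTF.const 2)) (PTF.const 1)) (PTF.const 0) hl')
  have h3 : PTF (fun a => tabK (k a + 1) (fun n => σ (getK (l a) n))) :=
    ptf_tabK (n := fun a => k a + 1) (f := fun a n => σ (getK (l a) n)) (PTU.succ hk)
      (PTF.comp (g := fun x : K => σ x) (PTF.of_finite _) hl')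
  exact PTF.and (PTF.and h0.toPTF (PTPred.eq h2 h1).toPTF) (PTPred.eq h3 h1).toPTF

theorem ptf_okStep (b g : K) {k r : α → ℕ} (hk : PTU k)
    (hN : PTU (fun a => qK K ^ (k a + 1))) (hr : PTF r) :
    PTF (fun a => okStep σ b g (k a) (r a)) :=
  ptf_cenB hk (ptf_mulL hk (ptf_conjL hk (ptf_beL b g hk)) (ptf_elL 1 hk hN hr))

theorem ptf_stepQ (hσ : ∀ x, σ (σ x) = x) (h2 : (2 : K) ≠ 0) (hne : ∃ x, σ x ≠ x) (b g : K)
    (k : α → ℕ) (hk : PTU k) (hQ : PTU (fun a => (q σ ^ 3) ^ k a)) :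
    PTF (fun a => stepQ σ b g (Un.mk (k a))) := by
  have hk2 : PTU (fun a => 2 * k a) := PTU.mul (PTU.const 2) hk
  have hN := ptu_qK_two hσ h2 hne hk hQ
  unfold stepQ
  refine PTF.optionGetD ?_ (PTF.const 0)
  refine PTF.find? (p := fun a r => okStep σ b g (2 * k a) r)
    (PTF.range (ptu_numU 1 hk2 hN)) ?_
  exact ptf_okStep b g (k := fun p : α × ℕ => 2 * k p.1) (r := fun p => p.2)
    (PTU.comp (n := fun a => 2 * k a) hk2 PTF.fst)
    (PTU.comp (n := fun a => qK K ^ (2 * k a + 1)) hN PTF.fst) PTF.snd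

theorem ptf_aQ (hσ : ∀ x, σ (σ x) = x) (h2 : (2 : K) ≠ 0) (hne : ∃ x, σ x ≠ x) (x : K)
    (i : Option K) (k : α → ℕ) (hk : PTU k) (hQ : PTU (fun a => (q σ ^ 3) ^ k a)) :
    PTF (fun a => aQ σ x i (Un.mk (k a))) :=
  ptf_stepQ hσ h2 hne _ _ k hk hQ

end steps

end Crest.Agent.R289.ObjTab940
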