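import Mathlib

/-!
# B1, numbers (row 289, block B)

`card = (q+1) q^(2k - k/2)` group order, `cnt` = number of closed words of length `k` in
`(π⁻¹ π')`, bounded as in `Exp820.closed_walks_ff` with `l = k`, `D` = dimension bound
(`q^(k/2) ≤ D` for `k` even, `q^((k+1)/2) ≤ 2 D` for `k` odd), `r^3 ≤ q`:
`card * cnt ≤ D * ((314 / r) * n^2)^k`, `n = q^2 + 1`.
-/

set_option autoImplicit false

namespace Crest.Agent.R289.ExpNum718

theorem numbers {q k card cnt : ℕ} {D r : ℝ} (hq : 1 ≤ q) (hr : 0 < r) (hrq : r ^ 3 ≤ q)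
    (hk : 2 ≤ k) (hcard : card ≤ (q + 1) * q ^ (2 * k - k / 2))
    (hcnt : cnt * q ^ (k + 1 + (k / 2 + 1)) ≤
      4 ^ k * (q ^ 2 + 1) ^ k * q ^ (k + 1 + (k / 2 + 1)) +
        k * (64 ^ k * (q + 1) * (q ^ 2 + 1) ^ (2 * k)))
    (hDe : k % 2 = 0 → (q : ℝ) ^ (k / 2) ≤ D) (hDo : k % 2 = 1 → (q : ℝ) ^ ((k + 1) / 2) ≤ 2 * D) :
    (card : ℝ) * cnt ≤ D * ((314 / r) * ((q : ℝ) ^ 2 + 1) ^ 2) ^ k := by
  set Q : ℝ := (q : ℝ) with hQ
  have hQ1 : (1 : ℝ) ≤ Q := by rw [hQ]; exact_mod_cast hq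
  have hQ0 : (0 : ℝ) < Q := by linarith
  set n : ℝ := Q ^ 2 + 1 with hn
  have hn0 : 0 < n := by positivity
  set h : ℕ := k / 2 with hh
  -- real versions
  have c1 : (card : ℝ) ≤ (Q + 1) * Q ^ (2 * k - h) := by
    have : (card : ℝ) ≤ (((q + 1) * q ^ (2 * k - k / 2) : ℕ) : ℝ) := by exact_mod_cast hcard
    push_cast at this
    exact this
  have c2 : (cnt : ℝ) * Q ^ (k + 1 + (h + 1)) ≤
      4 ^ k * n ^ k * Q ^ (k + 1 + (h + 1)) + k * (64 ^ k * (Q + 1) * n ^ (2 * k)) := by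
    have : ((cnt * q ^ (k + 1 + (k / 2 + 1)) : ℕ) : ℝ) ≤
      ((4 ^ k * (q ^ 2 + 1) ^ k * q ^ (k + 1 + (k / 2 + 1)) +
        k * (64 ^ k * (q + 1) * (q ^ 2 + 1) ^ (2 * k)) : ℕ) : ℝ) := by exact_mod_cast hcnt
    push_cast at this
    exact this
  have hcnt0 : (0 : ℝ) ≤ cnt := Nat.cast_nonneg _
  have hQ2 : Q + 1 ≤ 2 * Q := by linarith
  have hkk : (k : ℝ) ≤ 2 ^ k := by exact_mod_cast (Nat.lt_two_pow_self).le
  -- card * cnt * Q^(k+h+2) ≤ 6 * 128^k * n^(2k) * Q^(2k+2)  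
  have hle : 2 * k - h + (k + 1 + (h + 1)) = 3 * k + 2 := by omega
  have hnQ : Q ^ (2 * k) ≤ n ^ k := by
    rw [pow_mul]; exact pow_le_pow_left₀ (by positivity) (by linarith) k
  have key : (card : ℝ) * cnt * Q ^ (k + 1 + (h + 1)) ≤
      6 * 128 ^ k * n ^ (2 * k) * Q ^ (2 * k - h + 2) := by
    have s1 : (card : ℝ) * cnt * Q ^ (k + 1 + (h + 1)) ≤
        ((Q + 1) * Q ^ (2 * k - h)) * (4 ^ k * n ^ k * Q ^ (k + 1 + (h + 1)) +
          k * (64 ^ k * (Q + 1) * n ^ (2 * k))) := by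
      rw [mul_assoc]
      exact mul_le_mul c1 c2 (by positivity) (by positivity)
    refine s1.trans ?_
    rw [mul_add]
    have s2 : (Q + 1) * Q ^ (2 * k - h) * (4 ^ k * n ^ k * Q ^ (k + 1 + (h + 1))) ≤
        2 * 128 ^ k * n ^ (2 * k) * Q ^ (2 * k - h + 2) := by
      have e1 : (Q + 1) * Q ^ (2 * k - h) * (4 ^ k * n ^ k * Q ^ (k + 1 + (h + 1))) =
          (4 ^ k * n ^ k) * ((Q + 1) * Q ^ (3 * k + 2)) := by
        rw [← hle, pow_add]; ring
      rw [e1]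
      have e2 : (Q + 1) * Q ^ (3 * k + 2) ≤ 2 * (Q ^ (2 * k) * Q ^ (2 * k - h + 2)) := by
        have : Q ^ (2 * k) * Q ^ (2 * k - h + 2) = Q ^ (4 * k - h + 2) := by
          rw [← pow_add]; congr 1; omega
        rw [this]
        calc (Q + 1) * Q ^ (3 * k + 2) ≤ (2 * Q) * Q ^ (3 * k + 2) := by gcongr
          _ = 2 * Q ^ (3 * k + 3) := by ring
          _ ≤ 2 * Q ^ (4 * k - h + 2) := by
            have : Q ^ (3 * k + 3) ≤ Q ^ (4 * k - h + 2) := pow_le_pow_right₀ hQ1 (by omega)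
            linarith
      calc (4 ^ k * n ^ k) * ((Q + 1) * Q ^ (3 * k + 2))
          ≤ (128 ^ k * n ^ k) * (2 * (n ^ k * Q ^ (2 * k - h + 2))) := by
            have e7 : (4 : ℝ) ^ k * n ^ k ≤ 128 ^ k * n ^ k := by
              have : (4 : ℝ) ^ k ≤ 128 ^ k := pow_le_pow_left₀ (by norm_num) (by norm_num) k
              gcongr
            have e8 : 2 * (Q ^ (2 * k) * Q ^ (2 * k - h + 2)) ≤ 2 * (n ^ k * Q ^ (2 * k - h + 2)) := by
              gcongr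
            exact mul_le_mul e7 (e2.trans e8) (by positivity) (by positivity)
        _ = 2 * 128 ^ k * n ^ (2 * k) * Q ^ (2 * k - h + 2) := by
            rw [two_mul k, pow_add]; ring
    have s3 : (Q + 1) * Q ^ (2 * k - h) * (k * (64 ^ k * (Q + 1) * n ^ (2 * k))) ≤
        4 * 128 ^ k * n ^ (2 * k) * Q ^ (2 * k - h + 2) := by
      have e3 : (128 : ℝ) ^ k = 2 ^ k * 64 ^ k := by rw [← mul_pow]; norm_num
      calc (Q + 1) * Q ^ (2 * k - h) * (k * (64 ^ k * (Q + 1) * n ^ (2 * k)))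
          ≤ (2 * Q) * Q ^ (2 * k - h) * (2 ^ k * (64 ^ k * (2 * Q) * n ^ (2 * k))) := by gcongr
        _ = 4 * 128 ^ k * n ^ (2 * k) * Q ^ (2 * k - h + 2) := by
            rw [e3, pow_add]; ring
    calc _ ≤ 2 * 128 ^ k * n ^ (2 * k) * Q ^ (2 * k - h + 2) +
        4 * 128 ^ k * n ^ (2 * k) * Q ^ (2 * k - h + 2) := add_le_add s2 s3
      _ = _ := by ring
  -- divide
  have key2 : (card : ℝ) * cnt ≤ 6 * 128 ^ k * n ^ (2 * k) * Q ^ (k - 2 * h) := by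
    have e : Q ^ (2 * k - h + 2) = Q ^ (k - 2 * h) * Q ^ (k + 1 + (h + 1)) := by
      rw [← pow_add]; congr 1; omega
    rw [e, ← mul_assoc] at key
    exact le_of_mul_le_mul_right key (by positivity)
  refine key2.trans ?_
  have e4 : (314 / r * n ^ 2) ^ k = 314 ^ k * (r ^ k)⁻¹ * n ^ (2 * k) := by
    rw [mul_pow, div_pow, ← pow_mul]
    rw [div_eq_mul_inv]
  rw [e4]
  have h314 : (6 : ℝ) * 128 ^ k ≤ 314 ^ k := by
    obtain ⟨j, rfl⟩ : ∃ j, k = j + 2 := ⟨k - 2, by omega⟩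
    rw [pow_add, pow_add]
    have : (128 : ℝ) ^ j ≤ 314 ^ j := pow_le_pow_left₀ (by norm_num) (by norm_num) j
    nlinarith [pow_pos (show (0:ℝ) < 128 by norm_num) j]
  have hrk : 0 < r ^ k := by positivity
  suffices hs : 6 * 128 ^ k * Q ^ (k - 2 * h) * r ^ k ≤ D * 314 ^ k by
    have h5 : 6 * 128 ^ k * Q ^ (k - 2 * h) ≤ D * 314 ^ k * (r ^ k)⁻¹ := by
      rw [← div_eq_mul_inv, le_div_iff₀ hrk]; exact hs
    calc 6 * 128 ^ k * n ^ (2 * k) * Q ^ (k - 2 * h)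
        = (6 * 128 ^ k * Q ^ (k - 2 * h)) * n ^ (2 * k) := by ring
      _ ≤ (D * 314 ^ k * (r ^ k)⁻¹) * n ^ (2 * k) := by gcongr
      _ = D * (314 ^ k * (r ^ k)⁻¹ * n ^ (2 * k)) := by ring
  rcases Nat.even_or_odd' k with ⟨j, hj | hj⟩
  · -- even
    have hke : k % 2 = 0 := by omega
    have hhj : h = j := by omega
    have hD := hDe hke
    rw [hhj] at hD
    have e5 : k - 2 * h = 0 := by omega
    rw [e5, pow_zero, mul_one]
    have hr1 : r ^ k ≤ Q ^ j := by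
      rw [hj]
      by_cases hr1 : r ≤ 1
      · calc r ^ (2 * j) ≤ 1 := pow_le_one₀ hr.le hr1
          _ ≤ Q ^ j := one_le_pow₀ hQ1
      · push Not at hr1
        rw [pow_mul]
        refine pow_le_pow_left₀ (by positivity) ?_ j
        calc r ^ 2 ≤ r ^ 3 := pow_le_pow_right₀ hr1.le (by norm_num)
          _ ≤ Q := hrq
    calc 6 * 128 ^ k * r ^ k ≤ 314 ^ k * Q ^ j := by gcongr
      _ ≤ 314 ^ k * D := by gcongr
      _ = D * 314 ^ k := by ring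
  · -- odd
    have hko : k % 2 = 1 := by omega
    have hhj : h = j := by omega
    have hj1 : 1 ≤ j := by omega
    have hD := hDo hko
    rw [show (k + 1) / 2 = j + 1 by omega] at hD
    have e5 : k - 2 * h = 1 := by omega
    rw [e5, pow_one]
    have hr1 : r ^ k ≤ Q ^ j := by
      rw [hj]
      by_cases hr1 : r ≤ 1
      · calc r ^ (2 * j + 1) ≤ 1 := pow_le_one₀ hr.le hr1
          _ ≤ Q ^ j := one_le_pow₀ hQ1
      · push Not at hr1
        calc r ^ (2 * j + 1) ≤ r ^ (3 * j) := pow_le_pow_right₀ hr1.le (by omega)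
          _ = (r ^ 3) ^ j := by rw [pow_mul]
          _ ≤ Q ^ j := pow_le_pow_left₀ (by positivity) hrq j
    have h12 : (12 : ℝ) * 128 ^ k ≤ 314 ^ k := by
      obtain ⟨i, hi⟩ : ∃ i, k = i + 3 := ⟨k - 3, by omega⟩
      rw [hi, pow_add, pow_add]
      have : (128 : ℝ) ^ i ≤ 314 ^ i := pow_le_pow_left₀ (by norm_num) (by norm_num) i
      nlinarith [pow_pos (show (0:ℝ) < 128 by norm_num) i]
    have h6 : 2 * (6 * 128 ^ k * Q * r ^ k) ≤ 2 * (D * 314 ^ k) := by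
      calc 2 * (6 * 128 ^ k * Q * r ^ k) = (12 * 128 ^ k) * (Q * r ^ k) := by ring
        _ ≤ 314 ^ k * (Q * Q ^ j) := by gcongr
        _ = 314 ^ k * Q ^ (j + 1) := by ring
        _ ≤ 314 ^ k * (2 * D) := by gcongr
        _ = 2 * (D * 314 ^ k) := by ring
    linarith

end Crest.Agent.R289.ExpNum718
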