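import Crest.Agent.R289.SkewTr_877
import Crest.Agent.R289.Tower_962
import Crest.Agent.R289.ExpNum_718

/-!
# Multiplicities and the relative gap of one level of the tower of norm-one groups

`mult_even`, `mult_odd`: the hypothesis `hmult` of `Tower962.relGap_of_mult` for
`trSG : SG k →* SG (k-1)`; `relGap_level`: relative gap from the number of closed words.
-/

namespace Crest.Agent.R289.SkewGrp877

open Finset Crest.Agent.R289.TraceM962 Crest.Agent.R289.Tower962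

variable {K : Type*} [Field K] {σ : K →+* K} {k : ℕ} (hσ : ∀ x, σ (σ x) = x) [Finite K]

noncomputable instance instFintypeSG (k : ℕ) : Fintype ↥(SG hσ k) := Fintype.ofFinite _

include hσ

/-- the truncation by one level. -/
abbrev tr1 (k : ℕ) : SG hσ k →* SG hσ (k - 1) := trSG hσ (Nat.sub_le k 1)

omit [Finite K] in
lemma tr1_surjective (h2 : (2 : K) ≠ 0) (k : ℕ) : Function.Surjective (tr1 hσ k) :=
  trSG_surjective hσ _ h2

omit [Finite K] in
lemma tr1_eq_one (hk : 1 ≤ k) (u : SG hσ k) (hu : (u : (R σ k)ˣ) ∈ U hσ k k) :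
    tr1 hσ k u = 1 := by
  rw [trSG_eq_one_iff hσ, show k - 1 + 1 = k by omega]
  exact hu

/-- `k` even. -/
theorem mult_even (h2 : (2 : K) ≠ 0) (hne : ∃ x, σ x ≠ x) (hk : k % 2 = 0) (hk0 : k ≠ 0)
    (V : Submodule ℂ (SG hσ k → ℂ)) (hV0 : V ≠ ⊥) (hV : LStable V)
    (hfix : ∀ f ∈ V, (∀ z, tr1 hσ k z = 1 → ∀ x, f (z * x) = f x) → f = 0) :
    q σ ^ (k / 2) ≤ Module.finrank ℂ V :=
  dim_bound_even hσ (SG hσ k).subtype (SG hσ k).subtype_injective
    (by rw [Subgroup.range_subtype]; exact U_one_le_SG hσ) h2 hne hk hk0 V hV hV0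
    (fun f hf h => by
      refine hfix f hf fun z hz x => h z ?_ x
      rw [trSG_eq_one_iff hσ, show k - 1 + 1 = k by omega] at hz
      exact hz)

/-- `k` odd. -/
theorem mult_odd (h2 : (2 : K) ≠ 0) (hne : ∃ x, σ x ≠ x) (hk : k % 2 = 1)
    (V : Submodule ℂ (SG hσ k → ℂ)) (hV0 : V ≠ ⊥) (hV : LStable V)
    (hfix : ∀ f ∈ V, (∀ z, tr1 hσ k z = 1 → ∀ x, f (z * x) = f x) → f = 0) :
    (q σ + 1) * q σ ^ ((k - 1) / 2) ≤ 2 * Module.finrank ℂ V := by
  rw [← w_eq hσ h2 hne]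
  exact dim_bound_odd_torus hσ (SG hσ k).subtype (SG hσ k).subtype_injective
    (by rw [Subgroup.range_subtype]) h2 hne hk V hV hV0
    (fun f hf h => by
      refine hfix f hf fun z hz x => h z ?_ x
      rw [trSG_eq_one_iff hσ, show k - 1 + 1 = k by omega] at hz
      exact hz)

/-- order of the norm-one group. -/
theorem card_SG' (h2 : (2 : K) ≠ 0) (hne : ∃ x, σ x ≠ x) :
    Fintype.card (SG hσ k) = (q σ + 1) * q σ ^ (2 * k - k / 2) := by
  rw [← Nat.card_eq_fintype_card, card_SG hσ, w_eq hσ h2 hne, card_U_one hσ h2 hne]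
  congr 2
  omega

omit [Finite K] hσ in
/-- `q` from the cardinality of `K`. -/
lemma q_eq (hσ : ∀ x, σ (σ x) = x) [Finite K] (h2 : (2 : K) ≠ 0) (hne : ∃ x, σ x ≠ x) {Q : ℕ}
    (hQ : Nat.card K = Q ^ 2) : q σ = Q := by
  have h := card_K hσ h2 hne
  rw [hQ, ← pow_two] at h
  exact (Nat.pow_left_injective (n := 2) (by norm_num) h).symm

/-- **relative gap of level `k ≥ 2`** from the number of closed words. -/
theorem relGap_level {ι : Type*} [Fintype ι] [DecidableEq ↥(SG hσ k)]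
    [DecidableEq ↥(SG hσ (k - 1))] (h2 : (2 : K) ≠ 0)
    (hne : ∃ x, σ x ≠ x) {Q : ℕ} (hQ : Nat.card K = Q ^ 2) {r : ℝ} (hr : 0 < r) (hrq : r ^ 3 ≤ Q)
    (hk : 2 ≤ k) (t : ι → SG hσ k)
    (hcnt : closedWords t k * Q ^ (k + 1 + (k / 2 + 1)) ≤
      4 ^ k * (Q ^ 2 + 1) ^ k * Q ^ (k + 1 + (k / 2 + 1)) +
        k * (64 ^ k * (Q + 1) * (Q ^ 2 + 1) ^ (2 * k))) :
    RelGap (tr1 hσ k : SG hσ k → SG hσ (k - 1)) t ((314 / r) * ((Q : ℝ) ^ 2 + 1) ^ 2) := by
  have hq : q σ = Q := q_eq hσ h2 hne hQ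
  have hQ1 : 1 ≤ Q := by rw [← hq]; exact q_pos
  have hQ0 : (0 : ℝ) < (Q : ℝ) := by exact_mod_cast hQ1
  have hcard : Fintype.card (SG hσ k) ≤ (Q + 1) * Q ^ (2 * k - k / 2) := by
    rw [card_SG' hσ h2 hne, hq]
  have hμ : (0 : ℝ) ≤ (314 / r) * ((Q : ℝ) ^ 2 + 1) ^ 2 := by positivity
  rcases Nat.mod_two_eq_zero_or_one k with hk2 | hk2
  · refine relGap_of_mult (tr1 hσ k) t (D := (Q : ℝ) ^ (k / 2)) (by positivity) hμ
      (l := k) (by omega) ?_ ?_
    · intro V hV0 hV hfix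
      have h := mult_even hσ h2 hne hk2 (by omega) V hV0 hV hfix
      rw [hq] at h
      exact_mod_cast h
    · exact ExpNum718.numbers hQ1 hr hrq hk hcard hcnt (fun _ => le_rfl)
        (fun h => absurd h (by omega))
  · refine relGap_of_mult (tr1 hσ k) t (D := ((Q : ℝ) + 1) * (Q : ℝ) ^ ((k - 1) / 2) / 2)
      (by positivity) hμ (l := k) (by omega) ?_ ?_
    · intro V hV0 hV hfix
      have h := mult_odd hσ h2 hne hk2 V hV0 hV hfix
      rw [hq] at h
      have h' : (((Q + 1) * Q ^ ((k - 1) / 2) : ℕ) : ℝ) ≤ ((2 * Module.finrank ℂ V : ℕ) : ℝ) := by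
        exact_mod_cast h
      push_cast at h'
      linarith
    · refine ExpNum718.numbers hQ1 hr hrq hk hcard hcnt (fun h => absurd h (by omega))
        (fun _ => ?_)
      have e : (k + 1) / 2 = (k - 1) / 2 + 1 := by omega
      rw [e, pow_succ]
      have : (0 : ℝ) ≤ (Q : ℝ) ^ ((k - 1) / 2) := by positivity
      nlinarith

omit [Finite K] in
lemma trSG_tr1 (k : ℕ) (x : SG hσ (k + 1)) :
    trSG hσ (Nat.zero_le k) (tr1 hσ (k + 1) x) = trSG hσ (Nat.zero_le (k + 1)) x := by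
  refine Subtype.ext (Units.ext ?_)
  change tr σ (Nat.zero_le k) (tr σ (Nat.sub_le (k + 1) 1) ((x : (R σ (k + 1))ˣ) : R σ (k + 1))) =
    tr σ (Nat.zero_le (k + 1)) ((x : (R σ (k + 1))ˣ) : R σ (k + 1))
  refine ext' fun n hn => ?_
  rw [c_tr _ _ hn, c_tr _ _ hn]
  exact c_tr (k := k + 1) (k' := k) _ _ (by omega)

/-- **the tower**: relative gaps of the levels give the relative gap over the constants. -/
theorem relGap_tower {ι : Type*} [Fintype ι] [∀ k, DecidableEq ↥(SG hσ k)] (h2 : (2 : K) ≠ 0)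
    (t : ∀ k, ι → SG hσ k) (ht : ∀ k i, tr1 hσ (k + 1) (t (k + 1) i) = t k i) {μ : ℝ}
    (h : ∀ k, RelGap (tr1 hσ (k + 1) : SG hσ (k + 1) → SG hσ k) (t (k + 1)) μ) (k : ℕ) :
    RelGap (trSG hσ (Nat.zero_le (k + 1)) : SG hσ (k + 1) → SG hσ 0) (t (k + 1)) μ := by
  induction k with
  | zero => exact h 0
  | succ k ih =>
    have h1 := RelGap.step (tr1 hσ (k + 1 + 1)) (tr1_surjective hσ h2 (k + 1 + 1))
      (trSG hσ (Nat.zero_le (k + 1)) : SG hσ (k + 1) → SG hσ 0) (t (k + 1 + 1)) (h (k + 1))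
      (by
        have e : (fun i => tr1 hσ (k + 1 + 1) (t (k + 1 + 1) i)) = t (k + 1) :=
          funext fun i => ht (k + 1) i
        rw [e]; exact ih)
    have e2 : (fun x => trSG hσ (Nat.zero_le (k + 1)) (tr1 hσ (k + 1 + 1) x)) =
        (trSG hσ (Nat.zero_le (k + 1 + 1)) : SG hσ (k + 1 + 1) → SG hσ 0) :=
      funext fun x => trSG_tr1 hσ (k + 1) x
    rw [e2] at h1
    exact h1

end Crest.Agent.R289.SkewGrp877
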