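import Crest.Agent.R289.Obj289_233
import Crest.Agent.R289.ObjB2_367
import Crest.Agent.R289.ObjTabF_940
import Crest.Agent.R289.PG_608
import Crest.Agent.R289.SkewMult_877

/-!
# Row 289, assembly A + B: landed leaves over `Par`

`mulX`, `mulY`, `distOK`, `robOK` (constant 92), `isP`, `tabsOK`.
-/

set_option autoImplicit false

namespace Crest.Agent.R289.ObjPlug233

open Filter Polynomial Crest.Agent.Lib.PT
open Crest.Agent.R289.TP846 Crest.Agent.R289.Tan846 Crest.Agent.R289.SkewGrp877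
open Crest.Agent.R289.ObjDef233 Crest.Agent.R289.Obj289233 Crest.Agent.R289.PS459

variable (D : Par)

/-! ### elementary facts -/

theorem hne : ∃ x, D.σ x ≠ x := ⟨D.x, D.hx⟩

theorem q_eq : q D.σ = D.q :=
  SkewGrp877.q_eq D.hσ D.two (hne D) (by rw [Nat.card_eq_fintype_card, D.card])

theorem q_pos : 0 < D.q := by
  rcases Nat.eq_zero_or_pos D.q with h | h
  · have := D.card
    rw [h] at this
    have h1 : 0 < Fintype.card D.K := Fintype.card_pos
    omega
  · exact h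

theorem two_le_q : 2 ≤ D.q := by
  have h0 := q_pos D
  by_contra h
  have h1 : D.q = 1 := by omega
  have := D.frob D.x
  rw [h1, pow_one] at this
  exact D.hx this

/-- the norm of a non-zero element is a `(q - 1)`-st root of unity -/
theorem norm_pow (c : D.K) (hc : c ≠ 0) : (c * D.σ c) ^ (D.q - 1) = 1 := by
  have h0 := q_pos D
  have h1 : c * D.σ c = c ^ (D.q + 1) := by rw [D.frob, pow_succ, mul_comm]
  rw [h1, ← pow_mul]
  have h2 : (D.q + 1) * (D.q - 1) = Fintype.card D.K - 1 := by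
    rw [D.card]
    obtain ⟨n, hn⟩ : ∃ n, D.q = n + 1 := ⟨D.q - 1, by omega⟩
    rw [hn]
    simp only [Nat.add_sub_cancel]
    have : (n + 1) ^ 2 = (n + 1 + 1) * n + 1 := by ring
    rw [this, Nat.add_sub_cancel]
  rw [h2]
  exact FiniteField.pow_card_sub_one_eq_one c hc

/-- the charts -/
noncomputable def ch : ObjB367.ChL D.K (FacB281.L D.σ D.x D.y) (FacB281.M D.σ D.x D.y) (D.q - 1) :=
  ObjB367.chl D.hσ D.hx D.hy D.hxy D.hxy' (D.q - 1) (norm_pow D)

theorem X_eq (d : ℕ) (j : Bool) (z : Option D.K) : D.X d j z = (ch D).X (D.dg d) j z := by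
  ext u
  cases j
  · rw [D.mem_X_false, ObjB367.ChL.mem_X_false]
  · rw [D.mem_X_true]
    exact (ObjB367.mem_chl_X_true D.hσ D.hx D.hy D.hxy D.hxy' (D.q - 1) (norm_pow D)).symm

theorem Y_eq (d : ℕ) (i : Bool) (w : Option D.K) : D.Y d i w = (ch D).Y (D.dg d) i w := by
  ext u
  cases i
  · rw [D.mem_Y_false, ObjB367.ChL.mem_Y_false]
  · rw [D.mem_Y_true]
    exact (ObjB367.mem_chl_Y_true D.hσ D.hx D.hy D.hxy D.hxy' (D.q - 1) (norm_pow D)).symm

theorem dg_add (d d' : ℕ) : D.dg (d + d') = D.dg d + D.dg d' := by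
  simp only [Par.dg, add_mul]

/-! ### products -/

theorem mulX : MulX D := by
  intro d d' j z f g hf hg
  rw [X_eq] at hf hg ⊢
  rw [dg_add]
  exact (ch D).mulX _ _ j z f g hf hg

theorem mulY : MulY D := by
  intro d d' i w f g hf hg
  rw [Y_eq] at hf hg ⊢
  rw [dg_add]
  exact (ch D).mulY _ _ i w f g hf hg

/-! ### distance -/

theorem distOK {M0 : ℕ} (h : 4 * (M0 * (2 * (D.q - 1))) ≤ D.q ^ 2) : DistOK D M0 := by
  obtain ⟨n, h1, h2, h3⟩ := (ch D).dist (s := 2 * (D.q - 1)) (M0 := M0) (by rw [D.card]; exact h)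
  refine ⟨n, h1, fun d hd j z => ?_, fun d hd i w => ?_⟩
  · rw [X_eq]
    exact h2 d hd j z
  · rw [Y_eq]
    exact h3 d hd i w

theorem ev_distOK (M0 : ℕ) : ∀ᶠ q : ℕ in atTop, ∀ D : Par, D.q = q → DistOK D M0 := by
  filter_upwards [Params233.eventually_len (8 * M0) 0] with q hq D hD
  subst hD
  refine distOK D ?_
  have h1 : D.q - 1 ≤ D.q := Nat.sub_le _ _
  calc 4 * (M0 * (2 * (D.q - 1))) = 8 * M0 * (D.q - 1) := by ring
    _ ≤ 8 * M0 * D.q := Nat.mul_le_mul_left _ h1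
    _ ≤ D.q ^ 2 := by simpa using hq

/-! ### robustness -/

theorem robOK {M0 : ℕ} (h : 8 * (M0 * (2 * (D.q - 1))) + 32 ≤ D.q ^ 2) : RobOK D M0 92 := by
  intro κ _ deg hdeg k i j
  have h1 := (ch D).rob (D.tp k) rfl rfl (s := 2 * (D.q - 1)) (M0 := M0) (Dvd.intro_left 2 rfl)
    (by rw [D.card]; exact h) κ deg hdeg i j
  have e1 : (fun j z => {c : Option D.K → κ → D.K | ∀ ρ, (fun m => c m ρ) ∈ D.X (deg ρ) j z}) =
      fun j z => {c : Option D.K → κ → D.K |
        ∀ ρ, (fun m => c m ρ) ∈ (ch D).X (deg ρ * (2 * (D.q - 1))) j z} := by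
    funext j z
    ext c
    refine forall_congr' fun ρ => ?_
    rw [X_eq]
    rfl
  have e2 : (fun i w => {c : Option D.K → κ → D.K | ∀ ρ, (fun l => c l ρ) ∈ D.Y (deg ρ) i w}) =
      fun i w => {c : Option D.K → κ → D.K |
        ∀ ρ, (fun l => c l ρ) ∈ (ch D).Y (deg ρ * (2 * (D.q - 1))) i w} := by
    funext i w
    ext c
    refine forall_congr' fun ρ => ?_
    rw [Y_eq]
    rfl
  rw [e1, e2]
  exact h1

theorem ev_robOK (M0 : ℕ) : ∀ᶠ q : ℕ in atTop, ∀ D : Par, D.q = q → RobOK D M0 92 := by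
  filter_upwards [Params233.eventually_len (16 * M0) 32] with q hq D hD
  subst hD
  refine robOK D ?_
  have h1 : D.q - 1 ≤ D.q := Nat.sub_le _ _
  calc 8 * (M0 * (2 * (D.q - 1))) + 32 = 16 * M0 * (D.q - 1) + 32 := by ring
    _ ≤ 16 * M0 * D.q + 32 := Nat.add_le_add_right (Nat.mul_le_mul_left _ h1) _
    _ ≤ D.q ^ 2 := hq

/-! ### `p`-groups -/

theorem isP (k : ℕ) : IsPGroup D.p (D.P k) := by
  have := D.charP
  exact PG608.isPGroup_U D.hσ D.prime (le_refl 1)

/-! ### tables -/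

noncomputable instance : Inhabited D.K := ⟨0⟩

/-- the tables of `ObjTabF_940` -/
noncomputable def tabs : D.Tabs where
  ix k := (ObjTab940.ix D.hσ D.two (hne D) k).trans (finCongr (by rw [q_eq D]))
  aN z := ObjTab940.aQ D.σ D.x z
  bN z := ObjTab940.aQ D.σ D.y z
  mulN := ObjTab940.mulQ D.σ
  invN := ObjTab940.invQ D.σ

theorem ix_val (k : ℕ) (u : D.P k) :
    (((tabs D).ix k u : Fin _) : ℕ) = (ObjTab940.ix D.hσ D.two (hne D) k u : Fin _) := rfl

theorem tabsOK : TabsOK D (tabs D) := by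
  have hq : ∀ {α : Type} [PTCode α] {k : α → ℕ}, PTU (fun x => (D.q ^ 3) ^ k x) →
      PTU (fun x => (q D.σ ^ 3) ^ k x) := by
    intro α _ k h
    rw [q_eq D]
    exact h
  exact
    { ptf_a := fun z k hk hQ => ObjTab940.ptf_aQ D.hσ D.two (hne D) D.x z k hk (hq hQ)
      ptf_b := fun z k hk hQ => ObjTab940.ptf_aQ D.hσ D.two (hne D) D.y z k hk (hq hQ)
      ptf_mul := fun k u v hk hQ hu hv =>
        ObjTab940.ptf_mulQ D.hσ D.two (hne D) k u v hk (hq hQ) hu hv
      ptf_inv := fun k u hk hQ hu => ObjTab940.ptf_invQ D.hσ D.two (hne D) k u hk (hq hQ) hu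
      aN_eq := fun z k => ObjTab940.aQ_eq D.hσ D.two (hne D) D.hx z k
      bN_eq := fun z k => ObjTab940.aQ_eq D.hσ D.two (hne D) D.hy z k
      mul_eq := fun k u v => ObjTab940.mulQ_eq D.hσ D.two (hne D) k u v
      inv_eq := fun k u => ObjTab940.invQ_eq D.hσ D.two (hne D) k u }

/-- **`Obj289` from the two remaining leaves** -/
theorem obj289_of_exp_content
    (hexp : ∀ eps : ℝ, 0 < eps → ∀ᶠ q : ℕ in atTop, ∀ D : Par, D.q = q →
      ∃ lam : ℝ, 0 ≤ lam ∧ lam ≤ eps ∧ ExpOK D lam)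
    (hcont : ∀ᶠ q : ℕ in atTop, ∀ D : Par, D.q = q → ContOK D) : Asm12.Obj289 :=
  obj289_of mulX mulY isP (fun D => ⟨tabs D, tabsOK D⟩) ev_distOK 92 (by norm_num) ev_robOK
    hexp hcont

end Crest.Agent.R289.ObjPlug233
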