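import Crest.Agent.R289.Cont_740
import Crest.Agent.R289.ExpFin_820
import Crest.Agent.R289.ObjPlug_233

/-!
Row 289, blocks A + B closed: the object exists.
-/

set_option autoImplicit false

namespace Crest.Agent.R289.ObjFin740

/-- **the object of row 289** -/
theorem obj289 : Asm12.Obj289 :=
  ObjPlug233.obj289_of_exp_content Exp820.hexp Cont740.ev_contOK

end Crest.Agent.R289.ObjFin740
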