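import Crest.Agent.R289.Asm2_331
import Crest.Agent.R289.ObjFin_740

/-!
# Row 289, assembly (helper331): blocks A, B, D and E are closed

Only the arrow of block C is left: `S0434_of_arrow : (Obj289 → Fam289) → S0434Stm`.
-/

set_option autoImplicit false

namespace Crest.Agent.R289.Asm331

open Crest.Agent.R289.Asm12

/-- **S0434 from the arrow of block C** -/
theorem S0434_of_arrow (hC : Obj289 → Fam289) : S0434Stm :=
  S0434_of_fam289 (hC ObjFin740.obj289)

end Crest.Agent.R289.Asm331
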