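import Crest.Agent.R289.DecL_589

/-!
# Row 289, leaf E21 part 6 (helper589): the two decoding clauses on label words

* `labE_inj` : the label word determines the configuration.
* `legal_t` : the clock of a legal configuration is at most `L`.
* `clauseN`, `clauseM` : for a set `W` of label words of legal configurations and a map acting as `stepN`
  (`stepM`) on them, fixed words show a solution (literally the clauses of `FamT.Real`, `BaseT.On`).
-/

set_option autoImplicit false
set_option linter.dupNamespace false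
set_option linter.unusedSectionVars false

namespace Crest.Agent.R289.DecC589

open Crest.PPADPCP
open Crest.Agent.R289 Crest.Agent.R289.Sol589 Crest.Agent.R289.DecI589
open Crest.Agent.R289.DecL589
open Crest.Agent.R289.DefC Crest.Agent.R289.BootC515 Crest.Agent.R289.Compile827
open Crest.Agent.R289.DefI

section inj

variable {K : Type} [Field K] {c : Cst K} (I : Ins c) [Nonempty I.Γ]

theorem bankE_inj {x x' : I.XW} {z z' : I.ZW} (h : ∀ u, I.bankE x z u = I.bankE x' z' u) :
    x = x' ∧ z = z' := by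
  obtain ⟨g0⟩ := ‹Nonempty I.Γ›
  constructor
  · refine Prod.ext ?_ ?_
    · have := congrArg Cst.Bank.stg (h (g0, 1))
      exact this
    · funext i ω
      have := congrFun (congrFun (congrArg Cst.Bank.R (h (ω.1, 1))) i) ω.2
      exact this
  · refine Ins.ZW.ext ?_ ?_ ?_ ?_
    · funext p ω
      have := congrFun (congrFun (congrArg Cst.Bank.X (h (ω.1, p.1))) p.2) ω.2
      exact this
    · funext p ω
      have := congrFun (congrFun (congrArg Cst.Bank.Xm (h (ω.1, p.1))) p.2) ω.2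
      exact this
    · funext s p ω
      have := congrFun (congrFun (congrFun (congrArg Cst.Bank.Z (h (ω.1, p.1))) s) p.2) ω.2
      exact this
    · funext s p ω
      have := congrFun (congrFun (congrFun (congrArg Cst.Bank.Zm (h (ω.1, p.1))) s) p.2) ω.2
      exact this

/-- **the label word determines the configuration** -/
theorem labE_inj {Ck : Type} {cw : ℕ → I.U → Ck} {L : ℕ}
    (hcw : ∀ t t', t ≤ L → t' ≤ L → cw t = cw t' → t = t') {f f' : Conf I.XW I.ZW c.A.Tr}
    (ht : f.t ≤ L) (ht' : f'.t ≤ L) (h : I.labE cw f = I.labE cw f') : f = f' := by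
  have hl : ∀ u, I.labE cw f u = I.labE cw f' u := fun u => congrFun h u
  obtain ⟨g0⟩ := ‹Nonempty I.Γ›
  haveI : Nonempty I.Γ := ⟨g0⟩
  have e1 : f.l = f'.l := congrArg Cst.Lab.l (hl (g0, 1))
  have e2 : f.t = f'.t := hcw _ _ ht ht' (funext fun u => congrArg Cst.Lab.ck (hl u))
  have e3 := bankE_inj I (x := f.x1) (x' := f'.x1) (z := f.z1) (z' := f'.z1)
    fun u => congrArg Cst.Lab.b1 (hl u)
  have e4 := bankE_inj I (x := f.x2) (x' := f'.x2) (z := f.z2) (z' := f'.z2)
    fun u => congrArg Cst.Lab.b2 (hl u)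
  exact Conf.ext e1 e2 e3.1 e3.2 e4.1 e4.2

end inj

section clauses

variable {K : Type} [Field K] [DecidableEq K] {c : Cst K} {I : Ins c} {X Z : Type}
  {m : LM X Z c.A.Tr} {pr : X → I.XW} {pz : Z → I.ZW} {rX rY : c.A.Reg}

/-- the clock of a legal configuration -/
theorem legal_t {f : Conf X Z c.A.Tr} (hf : m.Legal f) : f.t ≤ m.L := by
  obtain ⟨a, rfl⟩ := (m.legal_iff f).1 hf
  cases a with
  | boot t ht => exact ht
  | rest x hx => exact Nat.zero_le _
  | fw ρ x hx h t ht => exact ht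
  | bw ρ x hx h t ht => exact ht

theorem mp_inj (hpr : Function.Injective pr) (hpz : Function.Injective pz)
    {f f' : Conf X Z c.A.Tr} (h : mp pr pz f = mp pr pz f') : f = f' := by
  have h1 := congrArg Conf.l h
  have h2 := congrArg Conf.t h
  have h3 := congrArg Conf.x1 h
  have h4 := congrArg Conf.z1 h
  have h5 := congrArg Conf.x2 h
  have h6 := congrArg Conf.z2 h
  exact Conf.ext h1 h2 (hpr h3) (hpz h4) (hpr h5) (hpz h6)

theorem word_inj [Nonempty I.Γ] (hpr : Function.Injective pr) (hpz : Function.Injective pz)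
    {Ck : Type} {cw : ℕ → I.U → Ck} (hcw : ∀ t t', t ≤ m.L → t' ≤ m.L → cw t = cw t' → t = t')
    {f f' : Conf X Z c.A.Tr} (hf : m.Legal f) (hf' : m.Legal f')
    (h : I.labE cw (mp pr pz f) = I.labE cw (mp pr pz f')) : f = f' :=
  mp_inj hpr hpz (labE_inj I hcw (legal_t hf) (legal_t hf') h)

variable {Γ' G' Λ : Type} {J : ℕ} [DecidableEq Λ] [DecidableEq I.Γ] {E : EOL}
  {act : G' → Equiv.Perm I.Γ} {out : Λ} {P : Layout I.Γ G' Λ J} {n : ℕ}

/-- **forward decoding clause** -/
theorem clauseN [Nonempty I.Γ] (hO : Ov m pr)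
    (hE : Ends c.A I.act I.pubC I.stg0 (I.con I.xs) rX rY P.al
      (fun v => P.outp act out true (P.outp act out false v) ≠ v)
      (fun v => P.outp act out false (P.outp act out true v) ≠ v ∧ v ≠ fun _ => false))
    (hR : Real E act out P) (hI : E.WF) (hpr : Function.Injective pr)
    (hpz : Function.Injective pz) {Ck : Type} {cw : ℕ → I.U → Ck}
    (hcw : ∀ t t', t ≤ m.L → t' ≤ m.L → cw t = cw t' → t = t')
    (W : Set (I.U → c.Lab Ck)) (hW : ∀ w ∈ W, ∃ f, m.Legal f ∧ w = I.labE cw (mp pr pz f))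
    (Nw : (I.U → c.Lab Ck) → I.U → c.Lab Ck)
    (hNw : ∀ f, m.Legal f → Nw (I.labE cw (mp pr pz f)) = I.labE cw (mp pr pz (m.stepN f)))
    (eU : I.U ≃ Fin n) (ad : ℕ → ℕ) (uad : Fin P.n → I.U) (hu : ∀ i, (uad i).1 = P.al i)
    (had : ∀ i : Fin P.n, (eU (uad i) : ℕ) = ad i) :
    ∀ w ∈ W, Nw w = w → ∃ v : Fin E.n → Bool, E.IsSolution v ∧
      ∀ i : Fin E.n, ∃ u : I.U, (eU u : ℕ) = ad (i : ℕ) ∧ gReg rX (w u) = v i := by
  intro w hw hfix
  obtain ⟨f, hf, rfl⟩ := hW w hw
  rw [hNw f hf] at hfix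
  have hfN : m.stepN f = f := word_inj hpr hpz hcw (m.legal_stepN hf) hf hfix
  obtain ⟨v, h1, h2⟩ := endN hO hE hf hfN
  refine solN hR hI eU ad (gReg rX) _ uad had ⟨v, h1, fun i => ?_⟩
  have := h2 pz cw i (uad i).2
  rw [← hu i] at this
  exact this

/-- **backward decoding clause** -/
theorem clauseM [Nonempty I.Γ] (hO : Ov m pr)
    (hE : Ends c.A I.act I.pubC I.stg0 (I.con I.xs) rX rY P.al
      (fun v => P.outp act out true (P.outp act out false v) ≠ v)
      (fun v => P.outp act out false (P.outp act out true v) ≠ v ∧ v ≠ fun _ => false))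
    (hR : Real E act out P) (hpr : Function.Injective pr)
    (hpz : Function.Injective pz) {Ck : Type} {cw : ℕ → I.U → Ck}
    (hcw : ∀ t t', t ≤ m.L → t' ≤ m.L → cw t = cw t' → t = t')
    (W : Set (I.U → c.Lab Ck)) (hW : ∀ w ∈ W, ∃ f, m.Legal f ∧ w = I.labE cw (mp pr pz f))
    (Mw : (I.U → c.Lab Ck) → I.U → c.Lab Ck)
    (hMw : ∀ f, m.Legal f → Mw (I.labE cw (mp pr pz f)) = I.labE cw (mp pr pz (m.stepM f)))
    (w0 : I.U → c.Lab Ck) (hw0 : w0 = I.labE cw (mp pr pz m.c0))
    (eU : I.U ≃ Fin n) (ad : ℕ → ℕ) (uad : Fin P.n → I.U) (hu : ∀ i, (uad i).1 = P.al i)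
    (had : ∀ i : Fin P.n, (eU (uad i) : ℕ) = ad i) :
    ∀ w ∈ W, Mw w = w → w ≠ w0 → ∃ v : Fin E.n → Bool, E.IsSolution v ∧
      ∀ i : Fin E.n, ∃ u : I.U, (eU u : ℕ) = ad (i : ℕ) ∧ gReg rY (w u) = v i := by
  intro w hw hfix hne
  obtain ⟨f, hf, rfl⟩ := hW w hw
  rw [hMw f hf] at hfix
  have hfM : m.stepM f = f := word_inj hpr hpz hcw (m.legal_stepM hf) hf hfix
  have hf0 : f ≠ m.c0 := fun h => hne (by rw [h, hw0])
  obtain ⟨v, h1, h2⟩ := endM hO hE hf hfM hf0
  refine solM hR eU ad (gReg rY) _ uad had ⟨v, h1, fun i => ?_⟩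
  have := h2 pz cw i (uad i).2
  rw [← hu i] at this
  exact this

end clauses

end Crest.Agent.R289.DecC589
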