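import Crest.Agent.R289.DefC_143

/-!
# Row 289, block C (helper515): boot stages of the content machine

`machB` = the End-of-Line content machine `DefC.mach` with two more stages: `e` = stage `d` with the
extra identity `Y = 0` and reversed fill labels, `f` = stage `c` with `Y = 0` and reversed fill
labels; links `ef` (reversed label `cd`) and `fc` (letter only).  Its only start state is `(e, 0)`,
whose registers are all `0` except the pointer word `D j = D0 j` (public).
-/

set_option autoImplicit false
set_option linter.unusedSectionVars false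
set_option linter.unusedVariables false

namespace Crest.Agent.R289.BootC515

open DefC

/-- stages -/
inductive SgB : Type
  | old : Sg → SgB
  | e : SgB
  | f : SgB
  deriving DecidableEq

/-- the old stage with the same contents -/
def SgB.base : SgB → Sg
  | .old s => s
  | .e => .d
  | .f => .c

/-- `true` = boot stage -/
def SgB.new : SgB → Prop
  | .old _ => False
  | .e => True
  | .f => True

/-- labels -/
inductive LbB (G Λ : Type) (J : ℕ) : Type
  | old : Lb G Λ J → LbB G Λ J
  | mir : Bool → Fin J → G → Fin J → Wr G Λ → LbB G Λ J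
  | ef : LbB G Λ J
  | fc : LbB G Λ J

/-- stage of a mirrored label -/
def mst : Bool → SgB
  | false => .e
  | true => .f

/-- identity guards of the boot stages -/
def legB {Λ : Type} {J : ℕ} (s : SgB) : Id1 Λ J → Prop
  | .Y0 => lgI s.base (Id1.Y0 : Id1 Λ J) ∨ s.new
  | i => lgI s.base i

/-- identity guards of `fc`, backward -/
def fcI {Λ : Type} {J : ℕ} : Id1 Λ J → Prop
  | .dL _ => True
  | .Y0 => True
  | _ => False

section machB
variable {K G Λ : Type} {J : ℕ} [CommRing K] (out : Λ) [DecidableEq Λ]

/-- the content machine with boot stages -/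
def machB : PMach K G where
  Reg := Rg Λ J
  Pub := Pb G Λ J
  Comp := Cp G Λ J
  Idl := Id1 Λ J
  Stg := SgB
  Tr := LbB G Λ J
  comp := cex
  idl := iex out
  leg s := lg s.base
  legI := legB
  src
    | .old ρ => .old ((mach (K := K) (G := G) (Λ := Λ) (J := J) out).src ρ)
    | .mir b _ _ _ _ => mst b
    | .ef => .e
    | .fc => .f
  tgt
    | .old ρ => .old ((mach (K := K) (G := G) (Λ := Λ) (J := J) out).tgt ρ)
    | .mir b _ _ _ _ => mst b
    | .ef => .f
    | .fc => .old .c
  en
    | .old ρ => enC ρ
    | .mir b j g j' w => bkC (.fill (mst b).base j g j' w)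
    | .ef => bkC .cd
    | .fc => fun _ => False
  enI
    | .old ρ => enI ρ
    | .mir b j g j' w => bkI (.fill (mst b).base j g j' w)
    | .ef => bkI (G := G) (.cd : Lb G Λ J)
    | .fc => bkI (G := G) (.cd : Lb G Λ J)
  bk
    | .old ρ => bkC ρ
    | .mir b j g j' w => enC (.fill (mst b).base j g j' w)
    | .ef => enC .cd
    | .fc => fun _ => False
  bkI
    | .old ρ => bkI ρ
    | .mir b j g j' w => enI (.fill (mst b).base j g j' w)
    | .ef => enI (G := G) (.cd : Lb G Λ J)
    | .fc => fcI
  up
    | .old ρ => (mach (K := K) (G := G) (Λ := Λ) (J := J) out).up ρ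
    | .mir b j g j' w =>
        (mach (K := K) (G := G) (Λ := Λ) (J := J) out).dn (.fill (mst b).base j g j' w)
    | .ef => (mach (K := K) (G := G) (Λ := Λ) (J := J) out).dn .cd
    | .fc => PE.reg
  dn
    | .old ρ => (mach (K := K) (G := G) (Λ := Λ) (J := J) out).dn ρ
    | .mir b j g j' w =>
        (mach (K := K) (G := G) (Λ := Λ) (J := J) out).up (.fill (mst b).base j g j' w)
    | .ef => (mach (K := K) (G := G) (Λ := Λ) (J := J) out).up .cd
    | .fc => PE.reg

/-- contents of the start state as linear expressions in public words -/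
def ini : Rg Λ J → PE K (Rg Λ J) (Pb G Λ J) G
  | .D j => PE.pub (.D0 j)
  | _ => PE.zero

theorem ini_hom (r : Rg Λ J) : (ini (K := K) (G := G) r).Hom 1 := by
  cases r <;> simp [ini, PE.Hom]

theorem machB_WF {d : ℕ} (h : (mach (K := K) (G := G) (Λ := Λ) (J := J) out).WF d) :
    (machB (K := K) (G := G) (Λ := Λ) (J := J) out).WF d where
  comp_hom := h.comp_hom
  idl_hom := h.idl_hom
  up_hom ρ r := by
    cases ρ with
    | old ρ => exact h.up_hom ρ r
    | mir b j g j' w => exact h.dn_hom (.fill (mst b).base j g j' w) r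
    | ef => exact h.dn_hom .cd r
    | fc => exact rfl
  dn_hom ρ r := by
    cases ρ with
    | old ρ => exact h.dn_hom ρ r
    | mir b j g j' w => exact h.up_hom (.fill (mst b).base j g j' w) r
    | ef => exact h.up_hom .cd r
    | fc => exact rfl

variable {Γ : Type} (act : G → Equiv.Perm Γ) (b : Pb G Λ J → Γ → K)

/-- contents -/
abbrev CT (K Λ : Type) (J : ℕ) (Γ : Type) := Rg Λ J → Γ → K

abbrev mA (K G : Type) {Λ : Type} (J : ℕ) [CommRing K] (out : Λ) [DecidableEq Λ] : PMach K G :=
  mach (K := K) (G := G) (J := J) out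

abbrev mB (K G : Type) {Λ : Type} (J : ℕ) [CommRing K] (out : Λ) [DecidableEq Λ] : PMach K G :=
  machB (K := K) (G := G) (J := J) out

theorem legal_old (s : Sg) (r : CT K Λ J Γ) :
    (mB K G J out).Legal act b (.old s) r ↔ (mA K G J out).Legal act b s r := by
  constructor
  · rintro ⟨h1, h2⟩
    refine ⟨h1, fun i hi => h2 i ?_⟩
    cases i <;> first | exact hi | exact Or.inl hi
  · rintro ⟨h1, h2⟩
    refine ⟨h1, fun i hi => h2 i ?_⟩
    cases i <;> first | exact hi | exact (hi.resolve_right (fun h => h))

theorem legal_new {s : SgB} (hs : s.new) (r : CT K Λ J Γ) :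
    (mB K G J out).Legal act b s r ↔
      (mA K G J out).Legal act b s.base r ∧ ∀ x, r .Y x = 0 := by
  constructor
  · rintro ⟨h1, h2⟩
    refine ⟨⟨h1, fun i hi => h2 i ?_⟩, h2 .Y0 (Or.inr hs)⟩
    cases i <;> first | exact hi | exact Or.inl hi
  · rintro ⟨⟨h1, h2⟩, h3⟩
    refine ⟨h1, fun i hi => ?_⟩
    cases i
    case Y0 => exact h3
    all_goals exact h2 _ hi

theorem mst_new (b : Bool) : (mst b).new := by cases b <;> trivial

theorem up_fill_Y (s : Sg) (j : Fin J) (g : G) (j' : Fin J) (w : Wr G Λ) (r : CT K Λ J Γ) :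
    (mA K G J out).upC act b (.fill s j g j' w) r .Y = r .Y := by
  show PE.evalC act b r ((mA K G J out).up (.fill s j g j' w) .Y) = r .Y
  simp only [mA, mach]
  split_ifs <;> rfl

theorem dn_fill_Y (s : Sg) (j : Fin J) (g : G) (j' : Fin J) (w : Wr G Λ) (r : CT K Λ J Γ) :
    (mA K G J out).dnC act b (.fill s j g j' w) r .Y = r .Y := by
  show PE.evalC act b r ((mA K G J out).dn (.fill s j g j' w) .Y) = r .Y
  simp only [mA, mach]
  split_ifs <;> rfl

theorem up_cd_Y (r : CT K Λ J Γ) : (mA K G J out).upC act b .cd r .Y = r .Y := rfl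

theorem dn_cd_Y (r : CT K Λ J Γ) : (mA K G J out).dnC act b .cd r .Y = r .Y := rfl

/-! ### guards of the new labels in terms of the old machine -/

theorem en_old (ρ : Lb G Λ J) (r : CT K Λ J Γ) :
    (mB K G J out).En act b (.old ρ) r ↔ (mA K G J out).En act b ρ r := Iff.rfl

theorem bk_old (ρ : Lb G Λ J) (r : CT K Λ J Γ) :
    (mB K G J out).Bk act b (.old ρ) r ↔ (mA K G J out).Bk act b ρ r := Iff.rfl

theorem en_mir (c : Bool) (j : Fin J) (g : G) (j' : Fin J) (w : Wr G Λ) (r : CT K Λ J Γ) :
    (mB K G J out).En act b (.mir c j g j' w) r ↔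
      (mA K G J out).Bk act b (.fill (mst c).base j g j' w) r := Iff.rfl

theorem bk_mir (c : Bool) (j : Fin J) (g : G) (j' : Fin J) (w : Wr G Λ) (r : CT K Λ J Γ) :
    (mB K G J out).Bk act b (.mir c j g j' w) r ↔
      (mA K G J out).En act b (.fill (mst c).base j g j' w) r := Iff.rfl

theorem en_ef (r : CT K Λ J Γ) :
    (mB K G J out).En act b .ef r ↔ (mA K G J out).Bk act b .cd r := Iff.rfl

theorem bk_ef (r : CT K Λ J Γ) :
    (mB K G J out).Bk act b .ef r ↔ (mA K G J out).En act b .cd r := Iff.rfl

theorem dLpt_iff (r : CT K Λ J Γ) (j : Fin J) :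
    (mA K G J out).IZ act b r (.dL j) ↔ ∀ x, r (.D j) x = b (.DL j) x := by
  constructor
  · intro h x
    have := h x
    simp only [mA, mach, iex, PE.sub, PE.evalC] at this
    linear_combination this
  · intro h x
    simp only [mA, mach, iex, PE.sub, PE.evalC]
    rw [h x]; ring

theorem d0pt_iff (r : CT K Λ J Γ) (j : Fin J) :
    (mA K G J out).IZ act b r (.d0 j) ↔ ∀ x, r (.D j) x = b (.D0 j) x := by
  constructor
  · intro h x
    have := h x
    simp only [mA, mach, iex, PE.sub, PE.evalC] at this
    linear_combination this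
  · intro h x
    simp only [mA, mach, iex, PE.sub, PE.evalC]
    rw [h x]; ring

theorem en_fc (r : CT K Λ J Γ) :
    (mB K G J out).En act b .fc r ↔ ∀ j x, r (.D j) x = b (.DL j) x := by
  constructor
  · rintro ⟨-, h⟩ j
    exact (dLpt_iff out act b r j).1 (h (.dL j) trivial)
  · intro h
    refine ⟨fun c hc => hc.elim, fun i hi => ?_⟩
    cases i
    case dL j => exact (dLpt_iff out act b r j).2 (h j)
    all_goals exact False.elim hi

theorem bk_fc (r : CT K Λ J Γ) :
    (mB K G J out).Bk act b .fc r ↔
      (∀ j x, r (.D j) x = b (.DL j) x) ∧ ∀ x, r .Y x = 0 := by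
  constructor
  · rintro ⟨-, h⟩
    exact ⟨fun j => (dLpt_iff out act b r j).1 (h (.dL j) trivial), h .Y0 trivial⟩
  · rintro ⟨h, hY⟩
    refine ⟨fun c hc => hc.elim, fun i hi => ?_⟩
    cases i
    case dL j => exact (dLpt_iff out act b r j).2 (h j)
    case Y0 => exact hY
    all_goals exact False.elim hi

theorem bk_cd (r : CT K Λ J Γ) :
    (mA K G J out).Bk act b .cd r ↔ ∀ j x, r (.D j) x = b (.DL j) x := by
  constructor
  · rintro ⟨-, h⟩ j
    exact (dLpt_iff out act b r j).1 (h (.dL j) trivial)
  · intro h
    refine ⟨fun c hc => hc.elim, fun i hi => ?_⟩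
    cases i
    case dL j => exact (dLpt_iff out act b r j).2 (h j)
    all_goals exact False.elim hi

theorem en_cd (r : CT K Λ J Γ) :
    (mA K G J out).En act b .cd r ↔ ∀ j x, r (.D j) x = b (.D0 j) x := by
  constructor
  · rintro ⟨-, h⟩ j
    exact (d0pt_iff out act b r j).1 (h (.d0 j) trivial)
  · intro h
    refine ⟨fun c hc => hc.elim, fun i hi => ?_⟩
    cases i
    case d0 j => exact (d0pt_iff out act b r j).2 (h j)
    all_goals exact False.elim hi

theorem en_da (r : CT K Λ J Γ) :
    (mA K G J out).En act b .da r ↔ ∀ j x, r (.D j) x = b (.D0 j) x := by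
  constructor
  · rintro ⟨-, h⟩ j
    exact (d0pt_iff out act b r j).1 (h (.d0 j) trivial)
  · intro h
    refine ⟨fun c hc => hc.elim, fun i hi => ?_⟩
    cases i
    case d0 j => exact (d0pt_iff out act b r j).2 (h j)
    all_goals exact False.elim hi

theorem bk_bc (r : CT K Λ J Γ) (h : (mA K G J out).Bk act b .bc r) :
    (∀ j x, r (.D j) x = b (.DL j) x) ∧ ∀ x, r .Y x = r (.F false out) x := by
  obtain ⟨-, h⟩ := h
  refine ⟨fun j => (dLpt_iff out act b r j).1 (h (.dL j) trivial), fun x => ?_⟩
  have := h .YS trivial x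
  simp only [mA, mach, iex, PE.sub, PE.evalC] at this
  linear_combination this

end machB

/-! ### the layout -/

section enc
variable {Γ G Λ : Type} {J : ℕ} (act : G → Equiv.Perm Γ) (out : Λ) (P : Layout Γ G Λ J)
  {K : Type} [CommRing K] [DecidableEq Γ] [DecidableEq Λ]

theorem bt_eq_zero [Nontrivial K] {x : Bool} (h : bt K x = 0) : x = false := by
  cases x
  · rfl
  · exact absurd h one_ne_zero

theorem nm_al {n : ℕ} (al : Fin n → Γ) (hal : Function.Injective al) (v : Fin n → Bool)
    (i : Fin n) : decide (∃ i', al i' = al i ∧ v i' = true) = v i := by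
  cases hv : v i with
  | true => exact decide_eq_true ⟨i, rfl, hv⟩
  | false =>
    refine decide_eq_false ?_
    rintro ⟨i', h1, h2⟩
    rw [hal h1, hv] at h2
    cases h2

variable (hP : P.OK act out)

include hP in
theorem nm_zero [Nontrivial K] {v : Fin P.n → Bool} (h : ∀ x, bt K (P.nm v x) = 0) :
    v = fun _ => false := by
  funext i
  have := bt_eq_zero (h (P.al i))
  rw [← this]
  exact (nm_al P.al hP.al_inj v i).symm

theorem enc_DL (s : Sg) (v : Fin P.n → Bool) (j : Fin J) (x : Γ) :
    encC act out P K s P.L v (.D j) x = pubC P K (.DL j) x := by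
  simp only [encC, pubC]
  by_cases h : P.vis P.L = (x, j)
  · rw [if_pos h, if_pos h]
  · rw [if_neg h, if_neg h]

theorem enc_D0 (s : Sg) (v : Fin P.n → Bool) (j : Fin J) (x : Γ) :
    encC act out P K s 0 v (.D j) x = pubC P K (.D0 j) x := by
  simp only [encC, pubC]
  by_cases h : P.vis 0 = (x, j)
  · rw [if_pos h, if_pos h]
  · rw [if_neg h, if_neg h]

include hP in
/-- pointer at the last visit -/
theorem t_of_DL [Nontrivial K] {s : Sg} {t : ℕ} {v : Fin P.n → Bool} (ht : t ≤ P.L)
    (h : ∀ j x, encC act out P K s t v (.D j) x = pubC P K (.DL j) x) : t = P.L := by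
  classical
  have := h (P.vis t).2 (P.vis t).1
  simp only [encC, pubC, Prod.mk.eta, if_true] at this
  by_contra hne
  rw [if_neg] at this
  · exact one_ne_zero this
  · intro h'
    exact hne (hP.inj _ _ ht le_rfl h'.symm)

include hP in
/-- pointer at the first visit -/
theorem t_of_D0 [Nontrivial K] {s : Sg} {t : ℕ} {v : Fin P.n → Bool} (ht : t ≤ P.L)
    (h : ∀ j x, encC act out P K s t v (.D j) x = pubC P K (.D0 j) x) : t = 0 := by
  classical
  have := h (P.vis t).2 (P.vis t).1
  simp only [encC, pubC, Prod.mk.eta, if_true] at this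
  by_contra hne
  rw [if_neg] at this
  · exact one_ne_zero this
  · intro h'
    exact hne (hP.inj _ _ ht (Nat.zero_le _) h'.symm)

include hP in
/-- no fill step starts at the last visit -/
theorem no_fill_L [Nontrivial K] {s : Sg} (hs : s.inv = true) {j : Fin J} {g : G} {j' : Fin J}
    {w : Wr G Λ} {r : CT K Λ J Γ} (h : (mA K G J out).Bk act (pubC P K) (.fill s j g j' w) r)
    (hD : ∀ j x, r (.D j) x = pubC P K (.DL j) x) : False := by
  classical
  obtain ⟨h1, h2⟩ := h
  by_cases hj : (P.vis P.L).2 = j
  · have := h1 (.gE j g j' (.cur j)) (by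
      show gd _ _ _ _ _ _ _
      rw [hs]
      exact Or.inl rfl) (P.vis P.L).1
    simp only [mA, mach, cex, u, Pt.ex, PE.sub, PE.evalC] at this
    rw [hD] at this
    have e1 : pubC P K (.DL j) (P.vis P.L).1 = 1 := by
      simp only [pubC]
      rw [if_pos (by rw [← hj])]
    have e2 : pubC P K (.E j g j') (P.vis P.L).1 = 0 := by
      simp only [pubC]
      rw [if_neg]
      rintro ⟨s', hs', h3, -, -⟩
      have : s' = P.L := hP.inj _ _ hs'.le le_rfl (by rw [h3, ← hj])
      omega
    have e3 : pubC P K .U (P.vis P.L).1 = 1 := rfl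
    rw [e1, e2, e3] at this
    exact one_ne_zero (α := K) (by linear_combination this)
  · have := h2 (.D (P.vis P.L).2) (by
      show (if s.inv then _ else _)
      rw [hs]
      exact hj) (P.vis P.L).1
    simp only [mA, mach, iex, PE.evalC] at this
    rw [hD] at this
    simp only [pubC, Prod.mk.eta, if_true] at this
    exact one_ne_zero this

/-- hypothesis: the start name has no predecessor -/
abbrev H0 : Prop :=
  P.outp act out false (P.outp act out true fun _ => false) ≠ fun _ => false

variable (hl : ∀ (s : Sg) (r : CT K Λ J Γ), (mA K G J out).Legal act (pubC P K) s r ↔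
    ∃ t ≤ P.L, ∃ v, r = encC act out P K s t v)
variable (hok : (mA K G J out).OK act (pubC P K))
variable (h0 : H0 act out P)

include hP hl h0 in
/-- `(c, L, 0)` has no predecessor in the old machine -/
theorem no_bc [Nontrivial K] {r : CT K Λ J Γ} (hr : (mA K G J out).Legal act (pubC P K) .c r)
    (hb : (mA K G J out).Bk act (pubC P K) .bc r) (hY : ∀ x, r .Y x = 0) : False := by
  obtain ⟨hD, hF⟩ := bk_bc out act _ r hb
  obtain ⟨t, ht, v, rfl⟩ := (hl .c r).1 hr
  obtain rfl := t_of_DL act out P hP ht hD
  have hv : v = fun _ => false := nm_zero act out P hP hY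
  subst hv
  apply h0
  funext i
  have h1 := hF (P.al i)
  rw [hY] at h1
  have := bt_eq_zero h1.symm
  exact this

include hP hl hok h0 in
theorem machB_ok' [Nontrivial K] : (mB K G J out).OK act (pubC P K) where
  fwd ρ r hr he := by
    cases ρ with
    | old ρ =>
      obtain ⟨h1, h2, h3⟩ := hok.fwd ρ r ((legal_old out act _ _ r).1 hr) he
      exact ⟨(legal_old out act _ _ _).2 h1, h2, h3⟩
    | mir c j g j' w =>
      obtain ⟨h1, h2⟩ := (legal_new out act _ (mst_new c) r).1 hr
      obtain ⟨h3, h4, h5⟩ := hok.bwd (.fill (mst c).base j g j' w) r h1 he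
      refine ⟨(legal_new out act _ (mst_new c) _).2 ⟨h3, fun x => ?_⟩, h4, h5⟩
      exact (congrFun (dn_fill_Y out act _ (mst c).base j g j' w r) x).trans (h2 x)
    | ef =>
      obtain ⟨h1, h2⟩ := (legal_new out act _ (s := .e) trivial r).1 hr
      obtain ⟨h3, h4, h5⟩ := hok.bwd .cd r h1 he
      exact ⟨(legal_new out act _ (s := .f) trivial _).2 ⟨h3, h2⟩, h4, h5⟩
    | fc =>
      obtain ⟨h1, h2⟩ := (legal_new out act _ (s := .f) trivial r).1 hr
      exact ⟨(legal_old out act _ _ _).2 h1,
        (bk_fc out act _ r).2 ⟨(en_fc out act _ r).1 he, h2⟩, rfl⟩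
  bwd ρ r hr he := by
    cases ρ with
    | old ρ =>
      obtain ⟨h1, h2, h3⟩ := hok.bwd ρ r ((legal_old out act _ _ r).1 hr) he
      exact ⟨(legal_old out act _ _ _).2 h1, h2, h3⟩
    | mir c j g j' w =>
      obtain ⟨h1, h2⟩ := (legal_new out act _ (mst_new c) r).1 hr
      obtain ⟨h3, h4, h5⟩ := hok.fwd (.fill (mst c).base j g j' w) r h1 he
      refine ⟨(legal_new out act _ (mst_new c) _).2 ⟨h3, fun x => ?_⟩, h4, h5⟩
      exact (congrFun (up_fill_Y out act _ (mst c).base j g j' w r) x).trans (h2 x)
    | ef =>
      obtain ⟨h1, h2⟩ := (legal_new out act _ (s := .f) trivial r).1 hr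
      obtain ⟨h3, h4, h5⟩ := hok.fwd .cd r h1 he
      exact ⟨(legal_new out act _ (s := .e) trivial _).2 ⟨h3, h2⟩, h4, h5⟩
    | fc =>
      obtain ⟨h1, h2⟩ := (bk_fc out act _ r).1 he
      have h3 := (legal_old out act _ _ r).1 hr
      exact ⟨(legal_new out act _ (s := .f) trivial _).2 ⟨h3, h2⟩, (en_fc out act _ r).2 h1, rfl⟩
  detF ρ ρ' r hs hr he he' := by
    cases ρ with
    | old ρ =>
      cases ρ' with
      | old ρ' =>
        have hs' : (mA K G J out).src ρ = (mA K G J out).src ρ' := SgB.old.inj hs
        rw [hok.detF ρ ρ' r hs' ((legal_old out act _ _ r).1 hr) he he']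
      | mir c j g j' w => cases c <;> cases hs
      | ef => cases hs
      | fc => cases hs
    | mir c j g j' w =>
      have h1 := ((legal_new out act _ (mst_new c) r).1 hr).1
      cases ρ' with
      | old ρ' => cases c <;> cases hs
      | mir c' j₂ g₂ j₂' w₂ =>
        have hc : c = c' := by
          cases c <;> cases c' <;> first | rfl | cases hs
        subst hc
        have := hok.detB (.fill (mst c).base j g j' w) (.fill (mst c).base j₂ g₂ j₂' w₂) r rfl h1
          he he'
        injection this with _ h2 h3 h4 h5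
        rw [h2, h3, h4, h5]
      | ef =>
        cases c with
        | true => cases hs
        | false =>
          have := hok.detB (.fill .d j g j' w) .cd r rfl h1 he he'
          cases this
      | fc =>
        cases c with
        | false => cases hs
        | true => exact (no_fill_L act out P hP rfl he ((en_fc out act _ r).1 he')).elim
    | ef =>
      have h1 := ((legal_new out act _ (s := .e) trivial r).1 hr).1
      cases ρ' with
      | old ρ' => cases hs
      | mir c j g j' w =>
        cases c with
        | true => cases hs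
        | false =>
          have := hok.detB (.fill .d j g j' w) .cd r rfl h1 he' he
          cases this
      | ef => rfl
      | fc => cases hs
    | fc =>
      cases ρ' with
      | old ρ' => cases hs
      | mir c j g j' w =>
        cases c with
        | false => cases hs
        | true => exact (no_fill_L act out P hP rfl he' ((en_fc out act _ r).1 he)).elim
      | ef => cases hs
      | fc => rfl
  detB ρ ρ' r hs hr he he' := by
    cases ρ with
    | old ρ =>
      have h1 := (legal_old out act _ _ r).1 hr
      cases ρ' with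
      | old ρ' =>
        have hs' : (mA K G J out).tgt ρ = (mA K G J out).tgt ρ' := SgB.old.inj hs
        rw [hok.detB ρ ρ' r hs' h1 he he']
      | mir c j g j' w => cases c <;> cases hs
      | ef => cases hs
      | fc =>
        exfalso
        obtain ⟨hD, hY⟩ := (bk_fc out act _ r).1 he'
        cases ρ with
        | fill s j g j' w =>
          have hs' : s = .c := SgB.old.inj hs
          subst hs'
          exact no_fill_L act out P hP rfl he hD
        | ab => cases hs
        | bc => exact no_bc act out P hP hl h0 h1 he hY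
        | cd => cases hs
        | da => cases hs
    | mir c j g j' w =>
      have h1 := ((legal_new out act _ (mst_new c) r).1 hr).1
      cases ρ' with
      | old ρ' => cases c <;> cases hs
      | mir c' j₂ g₂ j₂' w₂ =>
        have hc : c = c' := by
          cases c <;> cases c' <;> first | rfl | cases hs
        subst hc
        have := hok.detF (.fill (mst c).base j g j' w) (.fill (mst c).base j₂ g₂ j₂' w₂) r rfl h1
          he he'
        injection this with _ h2 h3 h4 h5
        rw [h2, h3, h4, h5]
      | ef =>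
        cases c with
        | false => cases hs
        | true =>
          have := hok.detF (.fill .c j g j' w) .cd r rfl h1 he he'
          cases this
      | fc => cases c <;> cases hs
    | ef =>
      have h1 := ((legal_new out act _ (s := .f) trivial r).1 hr).1
      cases ρ' with
      | old ρ' => cases hs
      | mir c j g j' w =>
        cases c with
        | false => cases hs
        | true =>
          have := hok.detF (.fill .c j g j' w) .cd r rfl h1 he' he
          cases this
      | ef => rfl
      | fc => cases hs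
    | fc =>
      have h1 := (legal_old out act _ _ r).1 hr
      cases ρ' with
      | old ρ' =>
        exfalso
        obtain ⟨hD, hY⟩ := (bk_fc out act _ r).1 he
        cases ρ' with
        | fill s j g j' w =>
          have hs' : Sg.c = s := SgB.old.inj hs
          subst hs'
          exact no_fill_L act out P hP rfl he' hD
        | ab => cases hs
        | bc => exact no_bc act out P hP hl h0 h1 he' hY
        | cd => cases hs
        | da => cases hs
      | mir c j g j' w => cases c <;> cases hs
      | ef => cases hs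
      | fc => rfl
  moves ρ r hr he := by
    cases ρ with
    | old ρ =>
      rcases hok.moves ρ r ((legal_old out act _ _ r).1 hr) he with h | h
      · exact Or.inl fun h' => h (SgB.old.inj h')
      · exact Or.inr h
    | mir c j g j' w =>
      obtain ⟨h1, h2⟩ := (legal_new out act _ (mst_new c) r).1 hr
      obtain ⟨h3, h4, h5⟩ := hok.bwd (.fill (mst c).base j g j' w) r h1 he
      right
      intro h
      have h' : (mA K G J out).dnC act (pubC P K) (.fill (mst c).base j g j' w) r = r := h
      rcases hok.moves _ _ h3 h4 with h6 | h6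
      · exact h6 rfl
      · rw [h'] at h5 h6
        exact h6 h5
    | ef => exact Or.inl (by intro h; cases h)
    | fc => exact Or.inl (by intro h; cases h)

include hP hl in
/-- legal contents of the boot stage `e` -/
theorem legalB_e [Nontrivial K] (r : CT K Λ J Γ) :
    (mB K G J out).Legal act (pubC P K) .e r ↔
      ∃ t ≤ P.L, r = encC act out P K .d t fun _ => false := by
  rw [legal_new out act _ (s := .e) trivial r]
  constructor
  · rintro ⟨h1, h2⟩
    obtain ⟨t, ht, v, rfl⟩ := (hl .d r).1 h1
    have hv : v = fun _ => false := nm_zero act out P hP h2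
    exact ⟨t, ht, by rw [hv]⟩
  · rintro ⟨t, ht, rfl⟩
    refine ⟨(hl .d _).2 ⟨t, ht, _, rfl⟩, fun x => ?_⟩
    simp [encC, Layout.nY, Layout.nm, bt]

include hP hl in
/-- legal contents of the boot stage `f` -/
theorem legalB_f [Nontrivial K] (r : CT K Λ J Γ) :
    (mB K G J out).Legal act (pubC P K) .f r ↔
      ∃ t ≤ P.L, r = encC act out P K .c t fun _ => false := by
  rw [legal_new out act _ (s := .f) trivial r]
  constructor
  · rintro ⟨h1, h2⟩
    obtain ⟨t, ht, v, rfl⟩ := (hl .c r).1 h1
    have hv : v = fun _ => false := nm_zero act out P hP h2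
    exact ⟨t, ht, by rw [hv]⟩
  · rintro ⟨t, ht, rfl⟩
    refine ⟨(hl .c _).2 ⟨t, ht, _, rfl⟩, fun x => ?_⟩
    simp [encC, Layout.nY, Layout.nm, bt]

include hl in
/-- legal contents of the old stages -/
theorem legalB_old (s : Sg) (r : CT K Λ J Γ) :
    (mB K G J out).Legal act (pubC P K) (.old s) r ↔
      ∃ t ≤ P.L, ∃ v, r = encC act out P K s t v :=
  (legal_old out act _ s r).trans (hl s r)

variable (hbl : ∀ (s : Sg) (t : ℕ) (v : Fin P.n → Bool), t ≤ P.L →
    ((¬ ∃ ρ : Lb G Λ J, (mA K G J out).src ρ = s ∧
        (mA K G J out).En act (pubC P K) ρ (encC act out P K s t v)) ↔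
      s = .b ∧ t = P.L ∧ P.outp act out true (P.outp act out false v) ≠ v) ∧
    ((¬ ∃ ρ : Lb G Λ J, (mA K G J out).tgt ρ = s ∧
        (mA K G J out).Bk act (pubC P K) ρ (encC act out P K s t v)) ↔
      s = .c ∧ t = P.L ∧ P.outp act out false (P.outp act out true v) ≠ v))

include hP hl hbl in
/-- legal contents without successor -/
theorem blockedB_fwd' [Nontrivial K] (s : SgB) (r : CT K Λ J Γ)
    (hr : (mB K G J out).Legal act (pubC P K) s r) :
    (¬ ∃ ρ : LbB G Λ J, (mB K G J out).src ρ = s ∧ (mB K G J out).En act (pubC P K) ρ r) ↔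
      ∃ v, s = .old .b ∧ r = encC act out P K .b P.L v ∧
        P.outp act out true (P.outp act out false v) ≠ v := by
  cases s with
  | old s0 =>
    obtain ⟨t, ht, v, rfl⟩ := (legalB_old act out P hl s0 r).1 hr
    constructor
    · intro h
      have : s0 = .b ∧ t = P.L ∧ P.outp act out true (P.outp act out false v) ≠ v := by
        apply (hbl s0 t v ht).1.1
        rintro ⟨ρ, h1, h2⟩
        exact h ⟨.old ρ, congrArg SgB.old h1, h2⟩
      obtain ⟨rfl, rfl, h3⟩ := this
      exact ⟨v, rfl, rfl, h3⟩
    · rintro ⟨v', h1, h2, h3⟩ ⟨ρ, h4, h5⟩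
      have h1' : s0 = .b := SgB.old.inj h1
      subst h1'
      rw [h2] at h5
      refine (hbl .b P.L v' le_rfl).1.2 ⟨rfl, rfl, h3⟩ ?_
      cases ρ with
      | old ρ => exact ⟨ρ, SgB.old.inj h4, h5⟩
      | mir c j g j' w => cases c <;> cases h4
      | ef => cases h4
      | fc => cases h4
  | e =>
    obtain ⟨t, ht, rfl⟩ := (legalB_e act out P hP hl r).1 hr
    constructor
    · intro h
      exfalso
      have := (hbl .d t (fun _ => false) ht).2.1 (by
        rintro ⟨ρ, h1, h2⟩
        cases ρ with
        | fill s j g j' w =>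
          have hs' : s = .d := h1
          subst hs'
          exact h ⟨.mir false j g j' w, rfl, h2⟩
        | ab => cases h1
        | bc => cases h1
        | cd => exact h ⟨.ef, rfl, h2⟩
        | da => cases h1)
      cases this.1
    · rintro ⟨v', h1, -, -⟩
      cases h1
  | f =>
    obtain ⟨t, ht, rfl⟩ := (legalB_f act out P hP hl r).1 hr
    constructor
    · intro h
      exfalso
      by_cases htL : t = P.L
      · subst htL
        exact h ⟨.fc, rfl, (en_fc out act _ _).2 fun j x => enc_DL act out P .c _ j x⟩
      · have := (hbl .c t (fun _ => false) ht).2.1 (by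
          rintro ⟨ρ, h1, h2⟩
          cases ρ with
          | fill s j g j' w =>
            have hs' : s = .c := h1
            subst hs'
            exact h ⟨.mir true j g j' w, rfl, h2⟩
          | ab => cases h1
          | bc => exact htL (t_of_DL act out P hP ht (bk_bc out act _ _ h2).1)
          | cd => cases h1
          | da => cases h1)
        exact htL this.2.1
    · rintro ⟨v', h1, -, -⟩
      cases h1

include hP hl hok hbl in
/-- legal contents without predecessor -/
theorem blockedB_bwd' [Nontrivial K] (s : SgB) (r : CT K Λ J Γ)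
    (hr : (mB K G J out).Legal act (pubC P K) s r) :
    (¬ ∃ ρ : LbB G Λ J, (mB K G J out).tgt ρ = s ∧ (mB K G J out).Bk act (pubC P K) ρ r) ↔
      (s = .e ∧ r = encC act out P K .d 0 fun _ => false) ∨
      ∃ v, s = .old .c ∧ r = encC act out P K .c P.L v ∧
        P.outp act out false (P.outp act out true v) ≠ v ∧ v ≠ fun _ => false := by
  cases s with
  | old s0 =>
    obtain ⟨t, ht, v, rfl⟩ := (legalB_old act out P hl s0 r).1 hr
    constructor
    · intro h
      right
      have : s0 = .c ∧ t = P.L ∧ P.outp act out false (P.outp act out true v) ≠ v := by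
        apply (hbl s0 t v ht).2.1
        rintro ⟨ρ, h1, h2⟩
        exact h ⟨.old ρ, congrArg SgB.old h1, h2⟩
      obtain ⟨rfl, rfl, h3⟩ := this
      refine ⟨v, rfl, rfl, h3, ?_⟩
      rintro rfl
      refine h ⟨.fc, rfl, (bk_fc out act _ _).2 ⟨fun j x => enc_DL act out P .c _ j x, fun x => ?_⟩⟩
      simp [encC, Layout.nY, Layout.nm, bt]
    · rintro (⟨h1, -⟩ | ⟨v', h1, h2, h3, h4⟩)
      · cases h1
      rintro ⟨ρ, h5, h6⟩
      have h1' : s0 = .c := SgB.old.inj h1
      subst h1'
      rw [h2] at h6
      cases ρ with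
      | old ρ => exact (hbl .c P.L v' le_rfl).2.2 ⟨rfl, rfl, h3⟩ ⟨ρ, SgB.old.inj h5, h6⟩
      | mir c j g j' w => cases c <;> cases h5
      | ef => cases h5
      | fc =>
        obtain ⟨-, hY⟩ := (bk_fc out act _ _).1 h6
        exact h4 (nm_zero act out P hP hY)
  | e =>
    obtain ⟨t, ht, rfl⟩ := (legalB_e act out P hP hl r).1 hr
    constructor
    · intro h
      left
      refine ⟨rfl, ?_⟩
      by_contra hne
      have := (hbl .d t (fun _ => false) ht).1.1 (by
        rintro ⟨ρ, h1, h2⟩
        cases ρ with
        | fill s j g j' w =>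
          have hs' : s = .d := h1
          subst hs'
          exact h ⟨.mir false j g j' w, rfl, h2⟩
        | ab => cases h1
        | bc => cases h1
        | cd => cases h1
        | da =>
          have : t = 0 := t_of_D0 act out P hP ht ((en_da out act _ _).1 h2)
          subst this
          exact hne rfl)
      cases this.1
    · rintro (⟨-, h2⟩ | ⟨v', h1, -⟩)
      · rintro ⟨ρ, h3, h4⟩
        have hle := (legalB_e act out P hP hl _).1 hr
        have h1 := ((legal_new out act _ (s := .e) trivial _).1 hr).1
        cases ρ with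
        | old ρ => cases h3
        | mir c j g j' w =>
          cases c with
          | true => cases h3
          | false =>
            have hda : (mA K G J out).En act (pubC P K) .da
                (encC act out P K .d t fun _ => false) := by
              rw [h2]
              exact (en_da out act _ _).2 fun j x => enc_D0 act out P .d _ j x
            have := hok.detF (.fill .d j g j' w) .da _ rfl h1 h4 hda
            cases this
        | ef => cases h3
        | fc => cases h3
      · cases h1
  | f =>
    obtain ⟨t, ht, rfl⟩ := (legalB_f act out P hP hl r).1 hr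
    constructor
    · intro h
      exfalso
      have := (hbl .c t (fun _ => false) ht).1.1 (by
        rintro ⟨ρ, h1, h2⟩
        cases ρ with
        | fill s j g j' w =>
          have hs' : s = .c := h1
          subst hs'
          exact h ⟨.mir true j g j' w, rfl, h2⟩
        | ab => cases h1
        | bc => cases h1
        | cd => exact h ⟨.ef, rfl, h2⟩
        | da => cases h1)
      cases this.1
    · rintro (⟨h1, -⟩ | ⟨v', h1, -⟩) <;> cases h1

/-- contents of the start state -/
theorem startB (r : CT K Λ J Γ) :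
    encC act out P K .d 0 (fun _ => false) =
      fun i => (ini (K := K) (G := G) i).evalC act (pubC P K) r := by
  funext i a
  cases i with
  | X => simp [encC, ini, PE.evalC, Layout.nX, Layout.nm, bt]
  | Y => simp [encC, ini, PE.evalC, Layout.nY, Layout.nm, bt]
  | F c l =>
    cases c <;>
      simp [encC, ini, PE.evalC, Sg.amt, Sg.prog, Layout.run, bt]
  | D j => exact enc_D0 act out P .d _ j a
  | M j => simp [encC, ini, PE.evalC]

include hP hl in
/-- the start state is legal -/
theorem start_legal [Nontrivial K] (r : CT K Λ J Γ) :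
    (mB K G J out).Legal act (pubC P K) .e
      (fun i => (ini (K := K) (G := G) i).evalC act (pubC P K) r) := by
  exact (legalB_e act out P hP hl _).2 ⟨0, Nat.zero_le _, (startB act out P r).symm⟩

end enc

/-! ### final forms -/

section final
variable {Γ G Λ : Type} {J : ℕ} (act : G → Equiv.Perm Γ) (out : Λ) (P : Layout Γ G Λ J)
  (K : Type) [CommRing K] [DecidableEq Γ] [DecidableEq Λ] (p : ℕ) [CharP K p] [Fact p.Prime]
  [IsDomain K]

/-- **content machine with boot stages**: axioms -/
theorem machB_ok (hp : p ≠ 2) (hP : P.OK act out) (hl : legal_iff_stmt act out P K p)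
    (hok : mach_ok_stmt act out P K p) (h0 : H0 act out P) :
    (machB (K := K) (G := G) (J := J) out).OK act (pubC P K) :=
  machB_ok' act out P hP (hl hp hP) (hok hp hP) h0

/-- legal contents of all stages -/
theorem legalB_iff (hp : p ≠ 2) (hP : P.OK act out) (hl : legal_iff_stmt act out P K p)
    (s : SgB) (r : Rg Λ J → Γ → K) :
    (machB (K := K) (G := G) (J := J) out).Legal act (pubC P K) s r ↔
      ∃ t ≤ P.L, ∃ v, r = encC act out P K s.base t v ∧ (s.new → v = fun _ => false) := by
  cases s with
  | old s =>
    rw [legalB_old act out P (hl hp hP) s r]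
    exact ⟨fun ⟨t, ht, v, h⟩ => ⟨t, ht, v, h, fun h => h.elim⟩,
      fun ⟨t, ht, v, h, _⟩ => ⟨t, ht, v, h⟩⟩
  | e =>
    rw [legalB_e act out P hP (hl hp hP) r]
    exact ⟨fun ⟨t, ht, h⟩ => ⟨t, ht, _, h, fun _ => rfl⟩,
      fun ⟨t, ht, v, h, h'⟩ => ⟨t, ht, by rw [h, h' trivial]; rfl⟩⟩
  | f =>
    rw [legalB_f act out P hP (hl hp hP) r]
    exact ⟨fun ⟨t, ht, h⟩ => ⟨t, ht, _, h, fun _ => rfl⟩,
      fun ⟨t, ht, v, h, h'⟩ => ⟨t, ht, by rw [h, h' trivial]; rfl⟩⟩

/-- legal contents without successor: `(b, L, v)` with `P (S v) ≠ v` -/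
theorem blockedB_fwd (hp : p ≠ 2) (hP : P.OK act out) (hl : legal_iff_stmt act out P K p)
    (hbl : blocked_stmt act out P K p) (s : SgB) (r : Rg Λ J → Γ → K)
    (hr : (machB (K := K) (G := G) (J := J) out).Legal act (pubC P K) s r) :
    (¬ ∃ ρ : LbB G Λ J, (machB (K := K) (G := G) (J := J) out).src ρ = s ∧
        (machB (K := K) (G := G) (J := J) out).En act (pubC P K) ρ r) ↔
      ∃ v, s = .old .b ∧ r = encC act out P K .b P.L v ∧
        P.outp act out true (P.outp act out false v) ≠ v :=
  blockedB_fwd' act out P hP (hl hp hP) (hbl hp hP) s r hr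

/-- legal contents without predecessor: the start state `(e, 0)`, or `(c, L, w)` with `w ≠ 0` and
`S (P w) ≠ w` -/
theorem blockedB_bwd (hp : p ≠ 2) (hP : P.OK act out) (hl : legal_iff_stmt act out P K p)
    (hok : mach_ok_stmt act out P K p) (hbl : blocked_stmt act out P K p)
    (s : SgB) (r : Rg Λ J → Γ → K)
    (hr : (machB (K := K) (G := G) (J := J) out).Legal act (pubC P K) s r) :
    (¬ ∃ ρ : LbB G Λ J, (machB (K := K) (G := G) (J := J) out).tgt ρ = s ∧
        (machB (K := K) (G := G) (J := J) out).Bk act (pubC P K) ρ r) ↔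
      (s = .e ∧ r = encC act out P K .d 0 fun _ => false) ∨
      ∃ v, s = .old .c ∧ r = encC act out P K .c P.L v ∧
        P.outp act out false (P.outp act out true v) ≠ v ∧ v ≠ fun _ => false :=
  blockedB_bwd' act out P hP (hl hp hP) (hok hp hP) (hbl hp hP) s r hr

end final

end Crest.Agent.R289.BootC515
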