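import Mathlib

/-!
# Row 289, block C, P-level content machine: definitions only (post 5912)

* `PE` : polynomial expressions over registers, public words and steps, with content evaluation and
  homogeneous degree.
* `PMach` : a content machine given by components (zero claims), linear identities and labelled
  transitions; `PMach.OK` its axioms (inverse partial bijections, unique labels).
* `Layout` : walk, instructions, name addresses; `mach` : the End-of-Line machine of post 5912.
* statements `legal_iff_stmt`, `mach_ok_stmt`, `blocked_stmt` (theorem C1).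
-/

set_option autoImplicit false

namespace Crest.Agent.R289.DefC

/-! ### expressions -/

/-- polynomial expressions: `tr g e` is `x ↦ e (act g x)`, `ti g e` is `x ↦ e ((act g)⁻¹ x)` -/
inductive PE (K R B G : Type) : Type
  | zero : PE K R B G
  | reg : R → PE K R B G
  | pub : B → PE K R B G
  | smul : K → PE K R B G → PE K R B G
  | add : PE K R B G → PE K R B G → PE K R B G
  | mul : PE K R B G → PE K R B G → PE K R B G
  | tr : G → PE K R B G → PE K R B G
  | ti : G → PE K R B G → PE K R B G

namespace PE
variable {K R B G Γ : Type}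

/-- content of an expression -/
def evalC [CommRing K] (act : G → Equiv.Perm Γ) (b : B → Γ → K) (r : R → Γ → K) :
    PE K R B G → Γ → K
  | zero => fun _ => 0
  | reg i => r i
  | pub i => b i
  | smul c e => fun x => c * e.evalC act b r x
  | add e f => fun x => e.evalC act b r x + f.evalC act b r x
  | mul e f => fun x => e.evalC act b r x * f.evalC act b r x
  | tr g e => fun x => e.evalC act b r (act g x)
  | ti g e => fun x => e.evalC act b r ((act g).symm x)

/-- homogeneous of degree `d` -/
def Hom : PE K R B G → ℕ → Prop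
  | zero, _ => True
  | reg _, d => d = 1
  | pub _, d => d = 1
  | smul _ e, d => e.Hom d
  | add e f, d => e.Hom d ∧ f.Hom d
  | mul e f, d => ∃ a b, d = a + b ∧ e.Hom a ∧ f.Hom b
  | tr _ e, d => e.Hom d
  | ti _ e, d => e.Hom d

/-- `e - f` -/
def sub [CommRing K] (e f : PE K R B G) : PE K R B G := add e (smul (-1) f)

/-- sum of a list -/
def sum (l : List (PE K R B G)) : PE K R B G := l.foldr add zero

end PE

/-! ### labelled content machines -/

/-- a content machine: `comp` = components (shown by the certificate), `idl` = linear identities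
(pointwise visible); `leg`, `legI` = the ones that must vanish in a stage; a label `ρ : Tr` is enabled
forward when all of `en ρ`, `enI ρ` vanish, backward when all of `bk ρ`, `bkI ρ` vanish. -/
structure PMach (K G : Type) where
  Reg : Type
  Pub : Type
  Comp : Type
  Idl : Type
  Stg : Type
  Tr : Type
  comp : Comp → PE K Reg Pub G
  idl : Idl → PE K Reg Pub G
  leg : Stg → Comp → Prop
  legI : Stg → Idl → Prop
  src : Tr → Stg
  tgt : Tr → Stg
  en : Tr → Comp → Prop
  enI : Tr → Idl → Prop
  bk : Tr → Comp → Prop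
  bkI : Tr → Idl → Prop
  up : Tr → Reg → PE K Reg Pub G
  dn : Tr → Reg → PE K Reg Pub G

namespace PMach
variable {K G : Type} (A : PMach K G)

/-- syntactic conditions: components of degree `d`, identities and updates linear -/
structure WF (d : ℕ) : Prop where
  comp_hom : ∀ c, (A.comp c).Hom d
  idl_hom : ∀ i, (A.idl i).Hom 1
  up_hom : ∀ ρ r, (A.up ρ r).Hom 1
  dn_hom : ∀ ρ r, (A.dn ρ r).Hom 1

variable [CommRing K] {Γ : Type} (act : G → Equiv.Perm Γ) (b : A.Pub → Γ → K)

/-- contents of all registers -/
abbrev Cont (A : PMach K G) (Γ : Type) : Type := A.Reg → Γ → K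

/-- component `c` vanishes -/
def CZ (r : A.Cont Γ) (c : A.Comp) : Prop := ∀ x, (A.comp c).evalC act b r x = 0

/-- identity `i` holds -/
def IZ (r : A.Cont Γ) (i : A.Idl) : Prop := ∀ x, (A.idl i).evalC act b r x = 0

/-- legal contents in stage `s` -/
def Legal (s : A.Stg) (r : A.Cont Γ) : Prop :=
  (∀ c, A.leg s c → A.CZ act b r c) ∧ ∀ i, A.legI s i → A.IZ act b r i

/-- label `ρ` is enabled forward -/
def En (ρ : A.Tr) (r : A.Cont Γ) : Prop :=
  (∀ c, A.en ρ c → A.CZ act b r c) ∧ ∀ i, A.enI ρ i → A.IZ act b r i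

/-- label `ρ` is enabled backward -/
def Bk (ρ : A.Tr) (r : A.Cont Γ) : Prop :=
  (∀ c, A.bk ρ c → A.CZ act b r c) ∧ ∀ i, A.bkI ρ i → A.IZ act b r i

/-- forward update -/
def upC (ρ : A.Tr) (r : A.Cont Γ) : A.Cont Γ := fun i => (A.up ρ i).evalC act b r

/-- backward update -/
def dnC (ρ : A.Tr) (r : A.Cont Γ) : A.Cont Γ := fun i => (A.dn ρ i).evalC act b r

/-- the axioms of a content machine: the labels are inverse partial bijections between legal states,
at most one label is enabled in each direction, and a step changes the state -/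
structure OK : Prop where
  fwd : ∀ ρ r, A.Legal act b (A.src ρ) r → A.En act b ρ r →
    A.Legal act b (A.tgt ρ) (A.upC act b ρ r) ∧ A.Bk act b ρ (A.upC act b ρ r) ∧
      A.dnC act b ρ (A.upC act b ρ r) = r
  bwd : ∀ ρ r, A.Legal act b (A.tgt ρ) r → A.Bk act b ρ r →
    A.Legal act b (A.src ρ) (A.dnC act b ρ r) ∧ A.En act b ρ (A.dnC act b ρ r) ∧
      A.upC act b ρ (A.dnC act b ρ r) = r
  detF : ∀ ρ ρ' r, A.src ρ = A.src ρ' → A.Legal act b (A.src ρ) r →
    A.En act b ρ r → A.En act b ρ' r → ρ = ρ'
  detB : ∀ ρ ρ' r, A.tgt ρ = A.tgt ρ' → A.Legal act b (A.tgt ρ) r →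
    A.Bk act b ρ r → A.Bk act b ρ' r → ρ = ρ'
  moves : ∀ ρ r, A.Legal act b (A.src ρ) r → A.En act b ρ r →
    A.src ρ ≠ A.tgt ρ ∨ A.upC act b ρ r ≠ r

end PMach

/-! ### layouts -/

/-- operations of a cell: input, constant, NAND of two cells at steps `g1`, `g2` -/
inductive Op (G Λ : Type) : Type
  | inp : Op G Λ
  | cst : Bool → Op G Λ
  | nand : G → Λ → G → Λ → Op G Λ
  deriving DecidableEq

/-- value of an operation at address `a`, name word `x`, cells `f` -/
def Op.eval {Γ G Λ : Type} (act : G → Equiv.Perm Γ) (x : Γ → Bool) (f : Γ → Λ → Bool) (a : Γ) :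
    Op G Λ → Bool
  | .inp => x a
  | .cst b => b
  | .nand g l g' l' => !(f (act g a) l && f (act g' a) l')

/-- value of an operation from the values of its two arguments (an absent argument is `false`) -/
def Op.val {G Λ : Type} (β β' : Bool) : Op G Λ → Bool
  | .inp => β
  | .cst b => b
  | .nand _ _ _ _ => !(β && β')

/-- walk, instructions of the two programs (`false` = successor circuit, `true` = predecessor
circuit) and name addresses; only visits `s ≤ L` and instructions `s < L` matter -/
structure Layout (Γ G Λ : Type) (J : ℕ) where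
  L : ℕ
  vis : ℕ → Γ × Fin J
  dir : ℕ → G
  ins : Bool → ℕ → Option (Λ × Op G Λ)
  n : ℕ
  al : Fin n → Γ

section layout
variable {Γ G Λ : Type} {J : ℕ} (act : G → Equiv.Perm Γ) (out : Λ) (P : Layout Γ G Λ J)

/-- conditions on a layout -/
structure Layout.OK : Prop where
  inj : ∀ s t, s ≤ P.L → t ≤ P.L → P.vis s = P.vis t → s = t
  step : ∀ s, s < P.L → (P.vis (s + 1)).1 = act (P.dir s) (P.vis s).1
  once : ∀ c s t l k k', s < P.L → t < P.L → P.ins c s = some (l, k) → P.ins c t = some (l, k') →
    (P.vis s).1 = (P.vis t).1 → s = t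
  arg : ∀ c s l g1 l1 g2 l2, s < P.L → P.ins c s = some (l, Op.nand g1 l1 g2 l2) →
    (∃ s' < s, ∃ k, P.ins c s' = some (l1, k) ∧ (P.vis s').1 = act g1 (P.vis s).1) ∧
    (∃ s' < s, ∃ k, P.ins c s' = some (l2, k) ∧ (P.vis s').1 = act g2 (P.vis s).1)
  al_inj : Function.Injective P.al
  out_al : ∀ c s k, s < P.L → P.ins c s = some (out, k) → ∃ i, P.al i = (P.vis s).1
  al_out : ∀ c i, ∃ s < P.L, ∃ k, P.ins c s = some (out, k) ∧ (P.vis s).1 = P.al i

variable [DecidableEq Γ] [DecidableEq Λ]

/-- the cells after `t` instructions -/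
def Layout.run (c : Bool) (x : Γ → Bool) : ℕ → Γ → Λ → Bool
  | 0 => fun _ _ => false
  | t + 1 => fun a l =>
      match P.ins c t with
      | none => Layout.run c x t a l
      | some (l', k) =>
          if (P.vis t).1 = a ∧ l' = l then k.eval act x (Layout.run c x t) a
          else Layout.run c x t a l

/-- name word of a name -/
def Layout.nm (v : Fin P.n → Bool) : Γ → Bool := fun a => decide (∃ i, P.al i = a ∧ v i = true)

/-- the map computed by program `c` -/
def Layout.outp (c : Bool) (v : Fin P.n → Bool) : Fin P.n → Bool :=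
  fun i => P.run act c (P.nm v) P.L (P.al i) out

end layout

/-! ### the machine -/

/-- registers -/
inductive Rg (Λ : Type) (J : ℕ) : Type
  | X : Rg Λ J
  | Y : Rg Λ J
  | F : Bool → Λ → Rg Λ J
  | D : Fin J → Rg Λ J
  | M : Fin J → Rg Λ J
  deriving DecidableEq

/-- public words -/
inductive Pb (G Λ : Type) (J : ℕ) : Type
  | U : Pb G Λ J
  | IN : Pb G Λ J
  | Vis : Fin J → Pb G Λ J
  | E : Fin J → G → Fin J → Pb G Λ J
  | Fi : Fin J → Pb G Λ J
  | La : Fin J → Pb G Λ J
  | W : Bool → Fin J → Λ → Op G Λ → Pb G Λ J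
  | Wa : Bool → Fin J → Pb G Λ J
  | Wc : Bool → Λ → Pb G Λ J
  | D0 : Fin J → Pb G Λ J
  | DL : Fin J → Pb G Λ J
  | Full : Fin J → Pb G Λ J

/-- a pointer word: the current pointer in lane `j`, or the previous pointer seen from the current
pointer (lane `j'`, step `g`) -/
inductive Pt (G : Type) (J : ℕ) : Type
  | cur : Fin J → Pt G J
  | old : G → Fin J → Pt G J

/-- an argument of an operation -/
inductive Ar (G Λ : Type) : Type
  | no : Ar G Λ
  | name : Bool → Ar G Λ
  | cell : Bool → G → Λ → Ar G Λ

/-- components -/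
inductive Cp (G Λ : Type) (J : ℕ) : Type
  | bool : Rg Λ J → Cp G Λ J
  | dm : Fin J → Cp G Λ J
  | visD : Fin J → Cp G Λ J
  | visM : Fin J → Cp G Λ J
  | inX : Cp G Λ J
  | inY : Cp G Λ J
  | step : Fin J → G → Fin J → Cp G Λ J
  | fi : Fin J → Cp G Λ J
  | la : Fin J → Cp G Λ J
  | unw : Bool → Λ → Cp G Λ J
  | cell : Bool → Bool → Fin J → Λ → Op G Λ → Cp G Λ J
  | gE : Fin J → G → Fin J → Pt G J → Cp G Λ J
  | gN : Bool → Fin J → Pt G J → Cp G Λ J
  | gW : Bool → Fin J → Λ → Op G Λ → Pt G J → Cp G Λ J
  | gA : Ar G Λ → Bool → Pt G J → Cp G Λ J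

/-- linear identities -/
inductive Id1 (Λ : Type) (J : ℕ) : Type
  | D : Fin J → Id1 Λ J
  | d0 : Fin J → Id1 Λ J
  | dL : Fin J → Id1 Λ J
  | X0 : Id1 Λ J
  | Y0 : Id1 Λ J
  | F0 : Bool → Λ → Id1 Λ J
  | YS : Id1 Λ J
  | XP : Id1 Λ J

/-- stages -/
inductive Sg : Type
  | a | b | c | d
  deriving DecidableEq

instance : Fintype Sg := ⟨{.a, .b, .c, .d}, by intro x; cases x <;> decide⟩

/-- what a fill step writes -/
inductive Wr (G Λ : Type) : Type
  | idle : Wr G Λ
  | put : Λ → Op G Λ → Bool → Bool → Wr G Λ

/-- labels -/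
inductive Lb (G Λ : Type) (J : ℕ) : Type
  | fill : Sg → Fin J → G → Fin J → Wr G Λ → Lb G Λ J
  | ab : Lb G Λ J
  | bc : Lb G Λ J
  | cd : Lb G Λ J
  | da : Lb G Λ J

section mach
variable (K G Λ : Type) (J : ℕ) [CommRing K] (out : Λ)

open PE

/-- expressions of the machine -/
abbrev Ex := PE K (Rg Λ J) (Pb G Λ J) G

variable {K G Λ J}

/-- bit as a scalar -/
def bt (K : Type) [CommRing K] (b : Bool) : K := if b then 1 else 0

/-- pointer word -/
def Pt.ex : Pt G J → Ex K G Λ J
  | .cur j => reg (.D j)
  | .old g j => tr g (reg (.D j))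

/-- argument word -/
def Ar.ex : Ar G Λ → Ex K G Λ J
  | .no => zero
  | .name c => reg (if c then .Y else .X)
  | .cell c g l => tr g (reg (.F c l))

/-- first argument of an operation in program `c` -/
def Op.a1 (c : Bool) : Op G Λ → Ar G Λ
  | .inp => .name c
  | .cst _ => .no
  | .nand g l _ _ => .cell c g l

/-- second argument -/
def Op.a2 (c : Bool) : Op G Λ → Ar G Λ
  | .inp => .no
  | .cst _ => .no
  | .nand _ _ g l => .cell c g l

/-- the public word `U` (content 1) -/
def u : Ex K G Λ J := pub .U

/-- value word of an operation, degree 2 -/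
def Op.ex (c : Bool) : Op G Λ → Ex K G Λ J
  | .inp => mul u (reg (if c then .Y else .X))
  | .cst b => smul (bt K b) (mul u u)
  | .nand g l g' l' => sub (mul u u) (mul (tr g (reg (.F c l))) (tr g' (reg (.F c l'))))

/-- components, all homogeneous of degree 4 -/
def cex : Cp G Λ J → Ex K G Λ J
  | .bool r => mul (mul u u) (sub (mul (reg r) (reg r)) (mul u (reg r)))
  | .dm j => mul (mul u u) (mul (reg (.D j)) (reg (.M j)))
  | .visD j => mul (mul u u) (mul (sub u (pub (.Vis j))) (reg (.D j)))
  | .visM j => mul (mul u u) (mul (sub u (pub (.Vis j))) (reg (.M j)))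
  | .inX => mul (mul u u) (mul (sub u (pub .IN)) (reg .X))
  | .inY => mul (mul u u) (mul (sub u (pub .IN)) (reg .Y))
  | .step j g j' => mul (mul u u) (mul (pub (.E j g j'))
      (sub (reg (.M j)) (tr g (add (reg (.M j')) (reg (.D j'))))))
  | .fi j => mul (mul u u) (mul (pub (.Fi j)) (sub (add (reg (.M j)) (reg (.D j))) u))
  | .la j => mul (mul u u) (mul (pub (.La j)) (reg (.M j)))
  | .unw c l => mul (mul u u) (mul (sub u (pub (.Wc c l))) (reg (.F c l)))
  | .cell c f j l k => mul (pub (.W c j l k))
      (sub (mul (mul u u) (reg (.F c l)))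
        (mul (if f then pub (.Full j) else reg (.M j)) (k.ex c)))
  | .gE j g j' p => mul (mul u u) (mul (sub u (pub (.E j g j'))) p.ex)
  | .gN c j p => mul (mul u u) (mul (pub (.Wa c j)) p.ex)
  | .gW c j l k p => mul (mul u u) (mul (sub u (pub (.W c j l k))) p.ex)
  | .gA a β p => mul (mul u u) (mul (sub a.ex (smul (bt K β) u)) p.ex)

/-- linear identities -/
def iex : Id1 Λ J → Ex K G Λ J
  | .D j => reg (.D j)
  | .d0 j => sub (reg (.D j)) (pub (.D0 j))
  | .dL j => sub (reg (.D j)) (pub (.DL j))
  | .X0 => reg .X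
  | .Y0 => reg .Y
  | .F0 c l => reg (.F c l)
  | .YS => sub (reg .Y) (reg (.F false out))
  | .XP => sub (reg .X) (reg (.F true out))

/-- program filled in a stage (stages `a`, `c` : successor circuit) -/
def Sg.prog : Sg → Bool
  | .a => false
  | .b => true
  | .c => false
  | .d => true

/-- `true` = the fill steps are run backward in this stage -/
def Sg.inv : Sg → Bool
  | .a => false
  | .b => false
  | .c => true
  | .d => true

/-- components that must vanish in a stage -/
def lg : Sg → Cp G Λ J → Prop
  | _, .bool _ => True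
  | _, .dm _ => True
  | _, .visD _ => True
  | _, .visM _ => True
  | _, .inX => True
  | _, .inY => True
  | _, .step _ _ _ => True
  | _, .fi _ => True
  | _, .la _ => True
  | s, .unw c _ => c = s.prog ∨ s = .b ∨ s = .c
  | s, .cell c f _ _ _ => (c = s.prog ∧ f = false) ∨ (c ≠ s.prog ∧ f = true ∧ (s = .b ∨ s = .c))
  | _, _ => False

/-- identities that must hold in a stage -/
def lgI : Sg → Id1 Λ J → Prop
  | .a, .Y0 => True
  | .a, .F0 c _ => c = true
  | .b, .YS => True
  | .c, .XP => True
  | .d, .X0 => True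
  | .d, .F0 c _ => c = false
  | _, _ => False

/-- component guards of a fill step in lanes `j → j'` by step `g`, pointer word `p` -/
def gd (c : Bool) (j : Fin J) (g : G) (j' : Fin J) (w : Wr G Λ) (p : Pt G J) (q : Cp G Λ J) :
    Prop :=
  q = .gE j g j' p ∨
  match w with
  | .idle => q = .gN c j p
  | .put l k β β' => q = .gW c j l k p ∨ q = .gA (k.a1 c) β p ∨ q = .gA (k.a2 c) β' p

/-- written value of a fill step, as a scalar -/
def Wr.val (K : Type) [CommRing K] : Wr G Λ → Λ → K
  | .idle, _ => 0
  | .put _ k β β', _ => bt K (k.val β β')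

/-- update of the fill step (pointer at lane `j` writes, then moves by `g` to lane `j'`) -/
def fup [DecidableEq Λ] (c : Bool) (j : Fin J) (g : G) (j' : Fin J) (w : Wr G Λ) :
    Rg Λ J → Ex K G Λ J
  | .X => reg .X
  | .Y => reg .Y
  | .F c' l => match w with
      | .idle => reg (.F c' l)
      | .put l' k β β' =>
          if c' = c ∧ l' = l then add (reg (.F c' l)) (smul (bt K (k.val β β')) (reg (.D j)))
          else reg (.F c' l)
  | .D i => if i = j' then ti g (reg (.D j)) else zero
  | .M i => if i = j then add (reg (.M i)) (reg (.D j)) else reg (.M i)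

/-- inverse update of the fill step -/
def fdn [DecidableEq Λ] (c : Bool) (j : Fin J) (g : G) (j' : Fin J) (w : Wr G Λ) :
    Rg Λ J → Ex K G Λ J
  | .X => reg .X
  | .Y => reg .Y
  | .F c' l => match w with
      | .idle => reg (.F c' l)
      | .put l' k β β' =>
          if c' = c ∧ l' = l then
            sub (reg (.F c' l)) (smul (bt K (k.val β β')) (tr g (reg (.D j'))))
          else reg (.F c' l)
  | .D i => if i = j then tr g (reg (.D j')) else zero
  | .M i => if i = j then sub (reg (.M i)) (tr g (reg (.D j'))) else reg (.M i)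

/-- identity guards of the labels, forward -/
def enI : Lb G Λ J → Id1 Λ J → Prop
  | .fill s j _ j' _, .D i => if s.inv then i ≠ j' else i ≠ j
  | .ab, .dL _ => True
  | .bc, .dL _ => True
  | .bc, .XP => True
  | .cd, .d0 _ => True
  | .da, .d0 _ => True
  | _, _ => False

/-- identity guards of the labels, backward -/
def bkI : Lb G Λ J → Id1 Λ J → Prop
  | .fill s j _ j' _, .D i => if s.inv then i ≠ j else i ≠ j'
  | .ab, .d0 _ => True
  | .bc, .dL _ => True
  | .bc, .YS => True
  | .cd, .dL _ => True
  | .da, .d0 _ => True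
  | _, _ => False

/-- component guards, forward -/
def enC : Lb G Λ J → Cp G Λ J → Prop
  | .fill s j g j' w, q =>
      gd s.prog j g j' w (if s.inv then Pt.old g j' else Pt.cur j) q
  | _, _ => False

/-- component guards, backward -/
def bkC : Lb G Λ J → Cp G Λ J → Prop
  | .fill s j g j' w, q =>
      gd s.prog j g j' w (if s.inv then Pt.cur j else Pt.old g j') q
  | _, _ => False

/-- the End-of-Line content machine -/
def mach [DecidableEq Λ] : PMach K G where
  Reg := Rg Λ J
  Pub := Pb G Λ J
  Comp := Cp G Λ J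
  Idl := Id1 Λ J
  Stg := Sg
  Tr := Lb G Λ J
  comp := cex
  idl := iex out
  leg := lg
  legI := lgI
  src
    | .fill s _ _ _ _ => s
    | .ab => .a
    | .bc => .b
    | .cd => .c
    | .da => .d
  tgt
    | .fill s _ _ _ _ => s
    | .ab => .b
    | .bc => .c
    | .cd => .d
    | .da => .a
  en := enC
  enI := enI
  bk := bkC
  bkI := bkI
  up
    | .fill s j g j' w => if s.inv then fdn s.prog j g j' w else fup s.prog j g j' w
    | .ab => fun
        | .X => reg .X
        | .Y => reg (.F false out)
        | .F c l => reg (.F c l)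
        | .D i => pub (.D0 i)
        | .M _ => zero
    | .bc => reg
    | .cd => fun
        | .X => zero
        | .Y => reg .Y
        | .F c l => reg (.F c l)
        | .D i => pub (.DL i)
        | .M i => pub (.Full i)
    | .da => fun
        | .X => reg .Y
        | .Y => zero
        | .F c l => reg (.F c l)
        | .D i => reg (.D i)
        | .M i => reg (.M i)
  dn
    | .fill s j g j' w => if s.inv then fup s.prog j g j' w else fdn s.prog j g j' w
    | .ab => fun
        | .X => reg .X
        | .Y => zero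
        | .F c l => reg (.F c l)
        | .D i => pub (.DL i)
        | .M i => pub (.Full i)
    | .bc => reg
    | .cd => fun
        | .X => reg (.F true out)
        | .Y => reg .Y
        | .F c l => reg (.F c l)
        | .D i => pub (.D0 i)
        | .M _ => zero
    | .da => fun
        | .X => zero
        | .Y => reg .X
        | .F c l => reg (.F c l)
        | .D i => reg (.D i)
        | .M i => reg (.M i)

end mach

/-! ### public contents and encoded states -/

section enc
variable {Γ G Λ : Type} {J : ℕ} (act : G → Equiv.Perm Γ) (out : Λ) (P : Layout Γ G Λ J)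
  (K : Type) [CommRing K]

open Classical in
/-- contents of the public words -/
noncomputable def pubC : Pb G Λ J → Γ → K
  | .U, _ => 1
  | .IN, a => if ∃ i, P.al i = a then 1 else 0
  | .Vis j, a => if ∃ s ≤ P.L, P.vis s = (a, j) then 1 else 0
  | .E j g j', a => if ∃ s < P.L, P.vis s = (a, j) ∧ P.dir s = g ∧ (P.vis (s + 1)).2 = j'
      then 1 else 0
  | .Fi j, a => if P.vis 0 = (a, j) then 1 else 0
  | .La j, a => if P.vis P.L = (a, j) then 1 else 0
  | .W c j l k, a => if ∃ s < P.L, P.vis s = (a, j) ∧ P.ins c s = some (l, k) then 1 else 0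
  | .Wa c j, a => if ∃ s < P.L, P.vis s = (a, j) ∧ P.ins c s ≠ none then 1 else 0
  | .Wc c l, a => if ∃ s < P.L, (P.vis s).1 = a ∧ ∃ k, P.ins c s = some (l, k) then 1 else 0
  | .D0 j, a => if P.vis 0 = (a, j) then 1 else 0
  | .DL j, a => if P.vis P.L = (a, j) then 1 else 0
  | .Full j, a => if ∃ s < P.L, P.vis s = (a, j) then 1 else 0

variable [DecidableEq Γ] [DecidableEq Λ]

/-- number of filled instructions of program `c` in stage `s` at time `t` -/
def Sg.amt (s : Sg) (L t : ℕ) (c : Bool) : ℕ :=
  if c = s.prog then t else if s = .b ∨ s = .c then L else 0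

/-- name in register `X` of the state `(s, t, v)` -/
def Layout.nX (s : Sg) (v : Fin P.n → Bool) : Fin P.n → Bool :=
  match s with
  | .a => v
  | .b => v
  | .c => P.outp act out true v
  | .d => fun _ => false

/-- name in register `Y` of the state `(s, t, v)` -/
def Layout.nY (s : Sg) (v : Fin P.n → Bool) : Fin P.n → Bool :=
  match s with
  | .a => fun _ => false
  | .b => P.outp act out false v
  | .c => v
  | .d => v

open Classical in
/-- contents of the legal state `(s, t, v)` -/
noncomputable def encC (s : Sg) (t : ℕ) (v : Fin P.n → Bool) : Rg Λ J → Γ → K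
  | .X, a => bt K (P.nm (P.nX act out s v) a)
  | .Y, a => bt K (P.nm (P.nY act out s v) a)
  | .F c l, a => bt K (P.run act c
      (P.nm (if c then P.nY act out s v else P.nX act out s v)) (s.amt P.L t c) a l)
  | .D j, a => if P.vis t = (a, j) then 1 else 0
  | .M j, a => if ∃ s' < t, P.vis s' = (a, j) then 1 else 0

/-- LEMMA P2 (statement): the legal contents of a stage are exactly the encoded states -/
def legal_iff_stmt (p : ℕ) [CharP K p] [Fact p.Prime] [IsDomain K] : Prop :=
  p ≠ 2 → P.OK act out → ∀ (s : Sg) (r : Rg Λ J → Γ → K),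
    (mach (K := K) (G := G) (J := J) out).Legal act (pubC P K) s r ↔
      ∃ t ≤ P.L, ∃ v, r = encC act out P K s t v

/-- THEOREM C1 (statement) -/
def mach_ok_stmt (p : ℕ) [CharP K p] [Fact p.Prime] [IsDomain K] : Prop :=
  p ≠ 2 → P.OK act out → (mach (K := K) (G := G) (J := J) out).OK act (pubC P K)

/-- the ends (statement): a legal state without successor is `(b, L, v)` with `P (S v) ≠ v`, a legal
state without predecessor is `(c, L, w)` with `S (P w) ≠ w` -/
def blocked_stmt (p : ℕ) [CharP K p] [Fact p.Prime] [IsDomain K] : Prop :=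
  p ≠ 2 → P.OK act out → ∀ (s : Sg) (t : ℕ) (v : Fin P.n → Bool), t ≤ P.L →
    ((¬ ∃ ρ : Lb G Λ J, (mach (K := K) (G := G) (J := J) out).src ρ = s ∧
        (mach (K := K) (G := G) (J := J) out).En act (pubC P K) ρ (encC act out P K s t v)) ↔
      s = .b ∧ t = P.L ∧ P.outp act out true (P.outp act out false v) ≠ v) ∧
    ((¬ ∃ ρ : Lb G Λ J, (mach (K := K) (G := G) (J := J) out).tgt ρ = s ∧
        (mach (K := K) (G := G) (J := J) out).Bk act (pubC P K) ρ (encC act out P K s t v)) ↔
      s = .c ∧ t = P.L ∧ P.outp act out false (P.outp act out true v) ≠ v)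

end enc

end Crest.Agent.R289.DefC
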