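import Mathlib
import Crest.Agent.R289.DefC_143

/-!
# Row 289, leaf C_STEP (P5 of #5912), over `DefC_143`

* the labelled line system `nxt` of the four stages on semantic states `(s, t, v)`;
* `en_iff`, `bk_iff` : at an encoded state the enabled labels are exactly the one of `nxt`;
* `up_enc`, `dn_enc` : the updates;
* `mach_ok_of_legal_iff : legal_iff_stmt → mach_ok_stmt`, `blocked : blocked_stmt`.
-/

set_option autoImplicit false
set_option linter.unusedSectionVars false

namespace Crest.Agent.R289.Step435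

open Crest.Agent.R289.DefC

variable {Γ G Λ : Type} {J : ℕ} (act : G → Equiv.Perm Γ) (out : Λ) (P : Layout Γ G Λ J)

section bits
variable (K : Type) [CommRing K]

@[simp] theorem bt_false : bt K false = 0 := rfl
@[simp] theorem bt_true : bt K true = 1 := rfl

theorem bt_inj [Nontrivial K] {b b' : Bool} : bt K b = bt K b' ↔ b = b' := by
  cases b <;> cases b' <;> simp [bt]

end bits

/-! ## runs -/

section runs
variable [DecidableEq Γ] [DecidableEq Λ]

/-- argument bits of an operation -/
def argB (x : Γ → Bool) (f : Γ → Λ → Bool) (a : Γ) : Op G Λ → Bool × Bool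
  | .inp => (x a, false)
  | .cst _ => (false, false)
  | .nand g l g' l' => (f (act g a) l, f (act g' a) l')

theorem eval_eq (x : Γ → Bool) (f : Γ → Λ → Bool) (a : Γ) (k : Op G Λ) :
    k.eval act x f a = k.val (argB act x f a k).1 (argB act x f a k).2 := by
  cases k <;> rfl

variable {P} {c : Bool} (x : Γ → Bool)

theorem run_succ_none {t : ℕ} (h : P.ins c t = none) :
    P.run act c x (t + 1) = P.run act c x t := by
  funext a l
  simp [Layout.run, h]

theorem run_succ_some {t : ℕ} {l : Λ} {k : Op G Λ} (h : P.ins c t = some (l, k)) (a : Γ) (l' : Λ) :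
    P.run act c x (t + 1) a l' =
      if (P.vis t).1 = a ∧ l = l' then k.eval act x (P.run act c x t) a
      else P.run act c x t a l' := by
  simp [Layout.run, h]

theorem run_unwritten {t : ℕ} {a : Γ} {l : Λ}
    (h : ∀ s < t, ∀ k, P.ins c s = some (l, k) → (P.vis s).1 ≠ a) :
    P.run act c x t a l = false := by
  induction t with
  | zero => rfl
  | succ t ih =>
    have ih' := ih (fun s hs => h s (by omega))
    rcases ho : P.ins c t with _ | ⟨l', k⟩
    · rw [run_succ_none act x ho]; exact ih'
    · rw [run_succ_some act x ho, if_neg]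
      · exact ih'
      · rintro ⟨h1, rfl⟩
        exact h t (by omega) k ho h1

theorem nm_true {v : Fin P.n → Bool} {a : Γ} :
    P.nm v a = true ↔ ∃ i, P.al i = a ∧ v i = true := by
  unfold Layout.nm
  exact decide_eq_true_iff

variable {out} (hP : P.OK act out)
include hP

theorem fresh {t : ℕ} (ht : t < P.L) {l : Λ} {k : Op G Λ} (h : P.ins c t = some (l, k)) :
    P.run act c x t (P.vis t).1 l = false := by
  apply run_unwritten
  intro s hs k' h1 h2
  have := hP.once c s t l k' k (by omega) ht h1 h h2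
  omega

theorem arg_stable {t : ℕ} (ht : t < P.L) {l : Λ} {k : Op G Λ} (h : P.ins c t = some (l, k)) :
    argB act x (P.run act c x (t + 1)) (P.vis t).1 k = argB act x (P.run act c x t) (P.vis t).1 k := by
  cases k with
  | inp => rfl
  | cst b => rfl
  | nand g1 l1 g2 l2 =>
    obtain ⟨⟨s1, hs1, k1, h1, h1'⟩, ⟨s2, hs2, k2, h2, h2'⟩⟩ := hP.arg c t l g1 l1 g2 l2 ht h
    have e1 : P.run act c x (t + 1) (act g1 (P.vis t).1) l1 =
        P.run act c x t (act g1 (P.vis t).1) l1 := by
      rw [run_succ_some act x h, if_neg]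
      rintro ⟨h3, rfl⟩
      have := hP.once c s1 t l k1 _ (by omega) ht h1 h (by rw [h1', ← h3])
      omega
    have e2 : P.run act c x (t + 1) (act g2 (P.vis t).1) l2 =
        P.run act c x t (act g2 (P.vis t).1) l2 := by
      rw [run_succ_some act x h, if_neg]
      rintro ⟨h3, rfl⟩
      have := hP.once c s2 t l k2 _ (by omega) ht h2 h (by rw [h2', ← h3])
      omega
    simp only [argB, e1, e2]

theorem out_cell {t : ℕ} (ht : t ≤ P.L) {a : Γ} (h : P.run act c x t a out = true) :
    ∃ i, P.al i = a := by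
  by_contra hn
  have : P.run act c x t a out = false := by
    apply run_unwritten
    intro s hs k h1 h2
    obtain ⟨i, hi⟩ := hP.out_al c s k (by omega) h1
    exact hn ⟨i, hi.trans h2⟩
  rw [this] at h
  exact Bool.noConfusion h

theorem nm_outp (v : Fin P.n → Bool) (a : Γ) :
    P.nm (P.outp act out c v) a = P.run act c (P.nm v) P.L a out := by
  rw [Bool.eq_iff_iff, nm_true]
  constructor
  · rintro ⟨i, rfl, h⟩
    exact h
  · intro h
    obtain ⟨i, hi⟩ := out_cell act (P.nm v) hP le_rfl h
    refine ⟨i, hi, ?_⟩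
    show P.run act c (P.nm v) P.L (P.al i) out = true
    rw [hi]; exact h

theorem nm_inj {v w : Fin P.n → Bool} (h : P.nm v = P.nm w) : v = w := by
  funext i
  have := congrFun h (P.al i)
  rw [Bool.eq_iff_iff, nm_true, nm_true] at this
  rw [Bool.eq_iff_iff]
  constructor
  · intro hv
    obtain ⟨j, hj, hw⟩ := this.1 ⟨i, rfl, hv⟩
    rwa [hP.al_inj hj] at hw
  · intro hv
    obtain ⟨j, hj, hw⟩ := this.2 ⟨i, rfl, hv⟩
    rwa [hP.al_inj hj] at hw

end runs

/-! ## guards at a delta pointer -/

section guards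
variable (K : Type) [CommRing K] [Nontrivial K] [DecidableEq Γ] [DecidableEq Λ]

/-- component `q` vanishes -/
abbrev Cz (r : Rg Λ J → Γ → K) (q : Cp G Λ J) : Prop :=
  ∀ x, (cex q : Ex K G Λ J).evalC act (pubC P K) r x = 0

/-- identity `i` holds -/
abbrev Iz (r : Rg Λ J → Γ → K) (i : Id1 Λ J) : Prop :=
  ∀ x, (iex out i : Ex K G Λ J).evalC act (pubC P K) r x = 0

/-- the pointer word is the delta of `A` -/
def PD (r : Rg Λ J → Γ → K) (p : Pt G J) (A : Γ) : Prop :=
  ∀ x, (p.ex : Ex K G Λ J).evalC act (pubC P K) r x = if x = A then 1 else 0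

variable {act P K} {r : Rg Λ J → Γ → K} {p : Pt G J} {A : Γ}

theorem gE_iff (hp : PD act P K r p A) {j j' : Fin J} {g : G} :
    Cz act P K r (.gE j g j' p) ↔
      ∃ s < P.L, P.vis s = (A, j) ∧ P.dir s = g ∧ (P.vis (s + 1)).2 = j' := by
  constructor
  · intro h
    have := h A
    simp only [cex, PE.evalC, PE.sub, u, hp A, if_true, pubC] at this
    by_contra hn
    rw [if_neg hn] at this
    simp at this
  · intro h x
    simp only [cex, PE.evalC, PE.sub, u, hp x, pubC]
    by_cases hx : x = A
    · subst hx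
      rw [if_pos h]
      simp
    · simp [hx]

theorem gN_iff (hp : PD act P K r p A) {c : Bool} {j : Fin J} :
    Cz act P K r (.gN c j p) ↔ ¬ ∃ s < P.L, P.vis s = (A, j) ∧ P.ins c s ≠ none := by
  constructor
  · intro h hn
    have := h A
    simp only [cex, PE.evalC, u, hp A, if_true, pubC] at this
    rw [if_pos hn] at this
    simp at this
  · intro h x
    simp only [cex, PE.evalC, PE.sub, u, hp x, pubC]
    by_cases hx : x = A
    · subst hx
      rw [if_neg h]
      simp
    · simp [hx]

theorem gW_iff (hp : PD act P K r p A) {c : Bool} {j : Fin J} {l : Λ} {k : Op G Λ} :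
    Cz act P K r (.gW c j l k p) ↔
      ∃ s < P.L, P.vis s = (A, j) ∧ P.ins c s = some (l, k) := by
  constructor
  · intro h
    have := h A
    simp only [cex, PE.evalC, PE.sub, u, hp A, if_true, pubC] at this
    by_contra hn
    rw [if_neg hn] at this
    simp at this
  · intro h x
    simp only [cex, PE.evalC, PE.sub, u, hp x, pubC]
    by_cases hx : x = A
    · subst hx
      rw [if_pos h]
      simp
    · simp [hx]

theorem gA_iff (hp : PD act P K r p A) {a : Ar G Λ} {β : Bool} :
    Cz act P K r (.gA a β p) ↔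
      (a.ex : Ex K G Λ J).evalC act (pubC P K) r A = bt K β := by
  constructor
  · intro h
    have := h A
    simp only [cex, PE.evalC, PE.sub, u, hp A, if_true, pubC] at this
    linear_combination this
  · intro h x
    simp only [cex, PE.evalC, PE.sub, u, hp x, pubC]
    by_cases hx : x = A
    · subst hx
      rw [h]
      simp
    · simp [hx]

/-- the write of program `c` at visit `s` -/
def wr (act : G → Equiv.Perm Γ) (P : Layout Γ G Λ J) (c : Bool) (x : Γ → Bool)
    (f : Γ → Λ → Bool) (s : ℕ) : Wr G Λ :=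
  match P.ins c s with
  | none => .idle
  | some (l, k) => .put l k (argB act x f (P.vis s).1 k).1 (argB act x f (P.vis s).1 k).2

theorem wr_none {c : Bool} {x : Γ → Bool} {f : Γ → Λ → Bool} {s : ℕ} (h : P.ins c s = none) :
    wr act P c x f s = .idle := by
  simp [wr, h]

theorem wr_some {c : Bool} {x : Γ → Bool} {f : Γ → Λ → Bool} {s : ℕ} {l : Λ} {k : Op G Λ}
    (h : P.ins c s = some (l, k)) :
    wr act P c x f s =
      .put l k (argB act x f (P.vis s).1 k).1 (argB act x f (P.vis s).1 k).2 := by
  simp [wr, h]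

theorem gd_iff (hinj : ∀ s t, s ≤ P.L → t ≤ P.L → P.vis s = P.vis t → s = t)
    (hp : PD act P K r p A) {c : Bool} {x : Γ → Bool} {f : Γ → Λ → Bool}
    (hX : ∀ a, r (if c then .Y else .X) a = bt K (x a))
    (hF : ∀ a l, r (.F c l) a = bt K (f a l)) {j j' : Fin J} {g : G} {w : Wr G Λ} :
    (∀ q, gd c j g j' w p q → Cz act P K r q) ↔
      ∃ s < P.L, P.vis s = (A, j) ∧ P.dir s = g ∧ (P.vis (s + 1)).2 = j' ∧
        w = wr act P c x f s := by
  have ha1 : ∀ k : Op G Λ, ((k.a1 c).ex : Ex K G Λ J).evalC act (pubC P K) r A =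
      bt K (argB act x f A k).1 := by
    intro k
    cases k with
    | inp => simpa [Op.a1, Ar.ex, PE.evalC, argB] using hX A
    | cst b => simp [Op.a1, Ar.ex, PE.evalC, argB]
    | nand g l g' l' => simpa [Op.a1, Ar.ex, PE.evalC, argB] using hF _ _
  have ha2 : ∀ k : Op G Λ, ((k.a2 c).ex : Ex K G Λ J).evalC act (pubC P K) r A =
      bt K (argB act x f A k).2 := by
    intro k
    cases k with
    | inp => simp [Op.a2, Ar.ex, PE.evalC, argB]
    | cst b => simp [Op.a2, Ar.ex, PE.evalC, argB]
    | nand g l g' l' => simpa [Op.a2, Ar.ex, PE.evalC, argB] using hF _ _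
  constructor
  · intro h
    obtain ⟨s, hs, h1, h2, h3⟩ := (gE_iff hp).1 (h _ (Or.inl rfl))
    refine ⟨s, hs, h1, h2, h3, ?_⟩
    cases w with
    | idle =>
      have := (gN_iff hp).1 (h (.gN c j p) (Or.inr rfl))
      have h0 : P.ins c s = none := by
        by_contra h0
        exact this ⟨s, hs, h1, h0⟩
      rw [wr_none h0]
    | put l k β β' =>
      obtain ⟨s', hs', h1', h4⟩ := (gW_iff hp).1 (h (.gW c j l k p) (Or.inr (Or.inl rfl)))
      have : s' = s := hinj s' s hs'.le hs.le (h1'.trans h1.symm)
      subst this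
      have h5 := (gA_iff hp).1 (h (.gA (k.a1 c) β p) (Or.inr (Or.inr (Or.inl rfl))))
      have h6 := (gA_iff hp).1 (h (.gA (k.a2 c) β' p) (Or.inr (Or.inr (Or.inr rfl))))
      rw [ha1, bt_inj] at h5
      rw [ha2, bt_inj] at h6
      have hA : (P.vis s').1 = A := by rw [h1]
      rw [wr_some h4, hA, h5, h6]
  · rintro ⟨s, hs, h1, h2, h3, rfl⟩ q hq
    have hA : (P.vis s).1 = A := by rw [h1]
    rcases hq with rfl | hq
    · exact (gE_iff hp).2 ⟨s, hs, h1, h2, h3⟩
    · rcases h0 : P.ins c s with _ | ⟨l, k⟩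
      · rw [wr_none h0] at hq
        simp only at hq
        subst hq
        rw [gN_iff hp]
        rintro ⟨s', hs', h1', h4⟩
        have : s' = s := hinj s' s hs'.le hs.le (h1'.trans h1.symm)
        subst this
        exact h4 h0
      · rw [wr_some h0] at hq
        simp only at hq
        rcases hq with rfl | rfl | rfl
        · exact (gW_iff hp).2 ⟨s, hs, h1, h0⟩
        · rw [gA_iff hp, ha1, hA]
        · rw [gA_iff hp, ha2, hA]

end guards

/-! ## encoded states -/

section enc
variable {K : Type} [CommRing K] [Nontrivial K] [DecidableEq Γ] [DecidableEq Λ]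

/-- input word of program `c` in stage `s` -/
def inw (s : Sg) (v : Fin P.n → Bool) (c : Bool) : Γ → Bool :=
  P.nm (if c then P.nY act out s v else P.nX act out s v)

theorem amt_prog (s : Sg) (L t : ℕ) : s.amt L t s.prog = t := by simp [Sg.amt]

theorem amt_other {s : Sg} {c : Bool} (h : c ≠ s.prog) (L t t' : ℕ) :
    s.amt L t c = s.amt L t' c := by simp [Sg.amt, h]

variable {act out P} {s : Sg} {v : Fin P.n → Bool} {t : ℕ}

theorem enc_F (c : Bool) (l : Λ) (a : Γ) : encC act out P K s t v (.F c l) a =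
    bt K (P.run act c (inw act out P s v c) (s.amt P.L t c) a l) := rfl

theorem enc_in (c : Bool) (a : Γ) : encC act out P K s t v (if c then .Y else .X) a =
    bt K (inw act out P s v c a) := by
  cases c <;> rfl

theorem enc_D (j : Fin J) (a : Γ) :
    encC act out P K s t v (.D j) a = if (P.vis t).1 = a ∧ (P.vis t).2 = j then 1 else 0 := by
  show (if P.vis t = (a, j) then (1 : K) else 0) = _
  by_cases h : P.vis t = (a, j)
  · rw [if_pos h, if_pos]
    rw [h]; exact ⟨rfl, rfl⟩
  · rw [if_neg h, if_neg]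
    rintro ⟨h1, h2⟩
    exact h (Prod.ext h1 h2)

theorem PD_cur {j : Fin J} (h : (P.vis t).2 = j) :
    PD act P K (encC act out P K s t v) (.cur j) (P.vis t).1 := by
  intro x
  show encC act out P K s t v (.D j) x = _
  rw [enc_D]
  by_cases hx : x = (P.vis t).1
  · rw [if_pos hx, if_pos ⟨hx.symm, h⟩]
  · rw [if_neg hx, if_neg]
    rintro ⟨h1, -⟩
    exact hx h1.symm

theorem PD_old {j : Fin J} {g : G} (h : (P.vis t).2 = j) :
    PD act P K (encC act out P K s t v) (.old g j) ((act g).symm (P.vis t).1) := by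
  intro x
  show encC act out P K s t v (.D j) (act g x) = _
  rw [enc_D]
  by_cases hx : x = (act g).symm (P.vis t).1
  · rw [if_pos hx, if_pos]
    subst hx
    simp [h]
  · rw [if_neg hx, if_neg]
    rintro ⟨h1, -⟩
    apply hx
    rw [h1]; simp

theorem Iz_D {i : Fin J} : Iz act out P K (encC act out P K s t v) (.D i) ↔ (P.vis t).2 ≠ i := by
  constructor
  · intro h h1
    have := h (P.vis t).1
    change encC act out P K s t v (.D i) (P.vis t).1 = 0 at this
    rw [enc_D, if_pos ⟨rfl, h1⟩] at this
    exact one_ne_zero this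
  · intro h x
    show encC act out P K s t v (.D i) x = 0
    rw [enc_D, if_neg]
    rintro ⟨-, h1⟩
    exact h h1

theorem Iz_D_all {j : Fin J} :
    (∀ i, i ≠ j → Iz act out P K (encC act out P K s t v) (.D i)) ↔ (P.vis t).2 = j := by
  constructor
  · intro h
    by_contra hn
    exact Iz_D.1 (h _ hn) rfl
  · intro h i hi
    rw [Iz_D, h]
    exact hi.symm

variable (hP : P.OK act out)
include hP

theorem Iz_pub {t' : ℕ} (ht : t ≤ P.L) (ht' : t' ≤ P.L) {w : Fin J → Γ → K}
    (hw : ∀ i x, w i x = if (P.vis t').1 = x ∧ (P.vis t').2 = i then 1 else 0) :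
    (∀ (i : Fin J) (x : Γ), encC act out P K s t v (.D i) x + -1 * w i x = 0) ↔ t = t' := by
  constructor
  · intro h
    have := h (P.vis t).2 (P.vis t).1
    rw [enc_D, if_pos ⟨rfl, rfl⟩, hw] at this
    by_contra hn
    rw [if_neg] at this
    · simp at this
    · rintro ⟨h1, h2⟩
      exact hn (hP.inj t t' ht ht' (Prod.ext h1 h2).symm)
  · rintro rfl i x
    rw [enc_D, hw]
    ring

omit hP in
theorem pub_vis (t' : ℕ) (i : Fin J) (x : Γ) [Decidable (P.vis t' = (x, i))] :
    (if P.vis t' = (x, i) then (1 : K) else 0) =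
      if (P.vis t').1 = x ∧ (P.vis t').2 = i then 1 else 0 := by
  by_cases h : P.vis t' = (x, i)
  · rw [if_pos h, if_pos]
    rw [h]; exact ⟨rfl, rfl⟩
  · rw [if_neg h, if_neg]
    rintro ⟨h1, h2⟩
    exact h (Prod.ext h1 h2)

theorem Iz_d0 (ht : t ≤ P.L) :
    (∀ i, Iz act out P K (encC act out P K s t v) (.d0 i)) ↔ t = 0 := by
  rw [← Iz_pub (K := K) (s := s) (v := v) (w := fun i x => pubC P K (.D0 i) x) hP ht
    (Nat.zero_le _) (fun i x => by
      simp only [pubC]; convert pub_vis (K := K) (P := P) 0 i x)]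
  exact Iff.rfl

theorem Iz_dL (ht : t ≤ P.L) :
    (∀ i, Iz act out P K (encC act out P K s t v) (.dL i)) ↔ t = P.L := by
  rw [← Iz_pub (K := K) (s := s) (v := v) (w := fun i x => pubC P K (.DL i) x) hP ht
    le_rfl (fun i x => by
      simp only [pubC]; convert pub_vis (K := K) (P := P) P.L i x)]
  exact Iff.rfl

/-- the canonical fill data at visit `t` -/
theorem up_enc (ht : t < P.L) (i : Rg Λ J) :
    (fup (K := K) s.prog (P.vis t).2 (P.dir t) (P.vis (t + 1)).2
      (wr act P s.prog (inw act out P s v s.prog)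
        (P.run act s.prog (inw act out P s v s.prog) t) t) i).evalC act (pubC P K)
        (encC act out P K s t v) = encC act out P K s (t + 1) v i := by
  cases i with
  | X => rfl
  | Y => rfl
  | F c' l =>
    by_cases hc : c' = s.prog
    · subst hc
      rcases h0 : P.ins s.prog t with _ | ⟨l0, k⟩
      · rw [wr_none h0]
        funext a
        show encC act out P K s t v (.F s.prog l) a = _
        rw [enc_F, enc_F, amt_prog, amt_prog, run_succ_none act _ h0]
      · rw [wr_some h0]
        funext a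
        by_cases hl : l0 = l
        · subst hl
          simp only [fup, if_true, and_self, PE.evalC]
          rw [enc_F, enc_F, amt_prog, amt_prog, enc_D, run_succ_some act _ h0]
          by_cases ha : (P.vis t).1 = a
          · subst ha
            rw [fresh act _ hP ht h0, if_pos ⟨rfl, rfl⟩, if_pos ⟨rfl, rfl⟩, eval_eq]
            simp
          · rw [if_neg (fun h => ha h.1), if_neg (fun h => ha h.1)]
            simp
        · simp only [fup, hl, and_false, if_false, PE.evalC]
          rw [enc_F, enc_F, amt_prog, amt_prog, run_succ_some act _ h0,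
            if_neg (fun h => hl h.2)]
    · have : (fup (K := K) s.prog (P.vis t).2 (P.dir t) (P.vis (t + 1)).2
          (wr act P s.prog (inw act out P s v s.prog)
          (P.run act s.prog (inw act out P s v s.prog) t) t) (.F c' l) : Ex K G Λ J)
          = .reg (.F c' l) := by
        rcases h0 : P.ins s.prog t with _ | ⟨l0, k⟩
        · rw [wr_none h0]; rfl
        · rw [wr_some h0]; simp [fup, hc]
      rw [this]
      funext a
      show encC act out P K s t v (.F c' l) a = _
      rw [enc_F, enc_F, amt_other hc P.L t (t + 1)]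
  | D i =>
    funext a
    by_cases hi : i = (P.vis (t + 1)).2
    · simp only [fup, hi, if_true, PE.evalC]
      rw [enc_D, enc_D]
      have := hP.step t ht
      by_cases ha : (P.vis t).1 = (act (P.dir t)).symm a
      · rw [if_pos ⟨ha, rfl⟩, if_pos]
        refine ⟨?_, rfl⟩
        rw [this, ha]; simp
      · rw [if_neg (fun h => ha h.1), if_neg]
        rintro ⟨h1, -⟩
        apply ha
        rw [← h1, this]; simp
    · simp only [fup, hi, if_false, PE.evalC]
      rw [enc_D, if_neg]
      rintro ⟨-, h1⟩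
      exact hi h1.symm
  | M i =>
    funext a
    have key : (∃ s' < t + 1, P.vis s' = (a, i)) ↔ (∃ s' < t, P.vis s' = (a, i)) ∨
        ((P.vis t).1 = a ∧ (P.vis t).2 = i) := by
      constructor
      · rintro ⟨s', h1, h2⟩
        rcases Nat.lt_succ_iff_lt_or_eq.1 h1 with h3 | rfl
        · exact Or.inl ⟨s', h3, h2⟩
        · right; rw [h2]; exact ⟨rfl, rfl⟩
      · rintro (⟨s', h1, h2⟩ | ⟨h1, h2⟩)
        · exact ⟨s', by omega, h2⟩
        · exact ⟨t, by omega, Prod.ext h1 h2⟩
    have hdis : (∃ s' < t, P.vis s' = (a, i)) → ¬ ((P.vis t).1 = a ∧ (P.vis t).2 = i) := by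
      rintro ⟨s', h1, h2⟩ ⟨h3, h4⟩
      have := hP.inj s' t (by omega) ht.le (h2.trans (Prod.ext h3 h4).symm)
      omega
    have hM : ∀ t', encC act out P K s t' v (.M i) a =
        if ∃ s' < t', P.vis s' = (a, i) then 1 else 0 := by
      intro t'
      show (if _ then (1 : K) else 0) = if _ then 1 else 0
      congr
    by_cases hi : i = (P.vis t).2
    · subst hi
      simp only [fup, if_true, PE.evalC]
      rw [enc_D, hM, hM]
      by_cases h1 : ∃ s' < t, P.vis s' = (a, (P.vis t).2)
      · rw [if_pos h1, if_neg (hdis h1), if_pos (key.2 (Or.inl h1))]; simp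
      · by_cases h2 : (P.vis t).1 = a ∧ (P.vis t).2 = (P.vis t).2
        · rw [if_neg h1, if_pos h2, if_pos (key.2 (Or.inr h2))]; simp
        · rw [if_neg h1, if_neg h2, if_neg (fun h => (key.1 h).elim h1 h2)]; simp
    · simp only [fup, hi, if_false, PE.evalC]
      rw [hM, hM]
      by_cases h1 : ∃ s' < t, P.vis s' = (a, i)
      · rw [if_pos h1, if_pos (key.2 (Or.inl h1))]
      · rw [if_neg h1, if_neg (fun h => (key.1 h).elim h1 (fun h2 => hi h2.2.symm))]

theorem dn_enc (ht : t < P.L) (i : Rg Λ J) :
    (fdn (K := K) s.prog (P.vis t).2 (P.dir t) (P.vis (t + 1)).2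
      (wr act P s.prog (inw act out P s v s.prog)
        (P.run act s.prog (inw act out P s v s.prog) t) t) i).evalC act (pubC P K)
        (encC act out P K s (t + 1) v) = encC act out P K s t v i := by
  have hD : ∀ a, encC act out P K s (t + 1) v (.D (P.vis (t + 1)).2) (act (P.dir t) a) =
      encC act out P K s t v (.D (P.vis t).2) a := by
    intro a
    rw [enc_D, enc_D]
    have := hP.step t ht
    by_cases ha : (P.vis t).1 = a
    · subst ha
      rw [if_pos ⟨this, rfl⟩, if_pos ⟨rfl, rfl⟩]
    · rw [if_neg, if_neg]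
      · exact fun h => ha h.1
      · rintro ⟨h1, -⟩
        rw [this] at h1
        exact ha ((act (P.dir t)).injective h1)
  have hup := fun i => up_enc (K := K) (s := s) (v := v) hP ht i
  cases i with
  | X => rfl
  | Y => rfl
  | F c' l =>
    rcases h0 : P.ins s.prog t with _ | ⟨l0, k⟩
    · have h3 := hup (.F c' l)
      rw [wr_none h0] at h3 ⊢
      exact h3.symm
    · rw [wr_some h0]
      by_cases hl : c' = s.prog ∧ l0 = l
      · have h3 := hup (.F c' l)
        rw [wr_some h0] at h3
        simp only [fup, hl, and_self, if_true, PE.evalC] at h3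
        simp only [fdn, hl, and_self, if_true, PE.evalC, PE.sub]
        funext a
        have h4 := congrFun h3 a
        obtain ⟨h5, h6⟩ := hl
        subst h5 h6
        rw [hD]
        rw [← h4]
        ring
      · have h3 := hup (.F c' l)
        rw [wr_some h0] at h3
        simp only [fup, hl, if_false, PE.evalC] at h3
        simp only [fdn, hl, if_false, PE.evalC]
        exact h3.symm
  | D i =>
    funext a
    by_cases hi : i = (P.vis t).2
    · subst hi
      simp only [fdn, if_true, PE.evalC]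
      exact hD a
    · simp only [fdn, hi, if_false, PE.evalC]
      rw [enc_D, if_neg]
      rintro ⟨-, h1⟩
      exact hi h1.symm
  | M i =>
    funext a
    have h3 := congrFun (hup (.M i)) a
    by_cases hi : i = (P.vis t).2
    · subst hi
      simp only [fup, if_true, PE.evalC] at h3
      simp only [fdn, if_true, PE.evalC, PE.sub]
      rw [hD, ← h3]
      ring
    · simp only [fup, hi, if_false, PE.evalC] at h3
      simp only [fdn, hi, if_false, PE.evalC]
      exact h3.symm

/-- forward guard of a fill step -/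
theorem guard_cur (ht : t ≤ P.L) {j j' : Fin J} {g : G} {w : Wr G Λ} :
    ((∀ q, gd s.prog j g j' w (.cur j) q → Cz act P K (encC act out P K s t v) q) ∧
      ∀ i, i ≠ j → Iz act out P K (encC act out P K s t v) (.D i)) ↔
    t < P.L ∧ j = (P.vis t).2 ∧ g = P.dir t ∧ j' = (P.vis (t + 1)).2 ∧
      w = wr act P s.prog (inw act out P s v s.prog)
        (P.run act s.prog (inw act out P s v s.prog) t) t := by
  rw [Iz_D_all]
  constructor
  · rintro ⟨h1, h2⟩
    have := (gd_iff (x := inw act out P s v s.prog)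
      (f := P.run act s.prog (inw act out P s v s.prog) t) hP.inj (PD_cur h2)
      (fun a => enc_in s.prog a) (fun a l => by rw [enc_F, amt_prog])).1 h1
    obtain ⟨s', hs', h3, h4, h5, h6⟩ := this
    have : s' = t := hP.inj s' t hs'.le ht (h3.trans (Prod.ext rfl h2.symm))
    subst this
    exact ⟨hs', h2.symm, h4.symm, h5.symm, h6⟩
  · rintro ⟨h1, rfl, rfl, rfl, rfl⟩
    refine ⟨?_, rfl⟩
    exact (gd_iff (x := inw act out P s v s.prog)
      (f := P.run act s.prog (inw act out P s v s.prog) t) hP.inj (PD_cur rfl)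
      (fun a => enc_in s.prog a) (fun a l => by rw [enc_F, amt_prog])).2
      ⟨t, h1, rfl, rfl, rfl, rfl⟩

/-- backward guard of a fill step -/
theorem guard_old (ht : t ≤ P.L) {j j' : Fin J} {g : G} {w : Wr G Λ} :
    ((∀ q, gd s.prog j g j' w (.old g j') q → Cz act P K (encC act out P K s t v) q) ∧
      ∀ i, i ≠ j' → Iz act out P K (encC act out P K s t v) (.D i)) ↔
    ∃ t', t' + 1 = t ∧ j = (P.vis t').2 ∧ g = P.dir t' ∧ j' = (P.vis t).2 ∧
      w = wr act P s.prog (inw act out P s v s.prog)
        (P.run act s.prog (inw act out P s v s.prog) t') t' := by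
  rw [Iz_D_all]
  have hwr : ∀ t', t' < P.L → wr act P s.prog (inw act out P s v s.prog)
      (P.run act s.prog (inw act out P s v s.prog) (t' + 1)) t' =
      wr act P s.prog (inw act out P s v s.prog)
        (P.run act s.prog (inw act out P s v s.prog) t') t' := by
    intro t' h1
    rcases h0 : P.ins s.prog t' with _ | ⟨l, k⟩
    · rw [wr_none h0, wr_none h0]
    · rw [wr_some h0, wr_some h0, arg_stable act _ hP h1 h0]
  constructor
  · rintro ⟨h1, h2⟩
    have := (gd_iff (x := inw act out P s v s.prog)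
      (f := P.run act s.prog (inw act out P s v s.prog) t) hP.inj (PD_old h2)
      (fun a => enc_in s.prog a) (fun a l => by rw [enc_F, amt_prog])).1 h1
    obtain ⟨s', hs', h3, h4, h5, h6⟩ := this
    have h7 : P.vis (s' + 1) = P.vis t := by
      apply Prod.ext
      · rw [hP.step s' hs', h3, h4]; simp
      · rw [h5, h2]
    have : s' + 1 = t := hP.inj _ t hs' ht h7
    subst this
    refine ⟨s', rfl, ?_, h4.symm, h2.symm, ?_⟩
    · rw [h3]
    · rw [h6, hwr s' hs']
  · rintro ⟨t', rfl, rfl, rfl, rfl, rfl⟩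
    refine ⟨?_, rfl⟩
    have h1 : t' < P.L := ht
    rw [← hwr t' h1]
    refine (gd_iff (x := inw act out P s v s.prog)
      (f := P.run act s.prog (inw act out P s v s.prog) (t' + 1)) hP.inj (PD_old rfl)
      (fun a => enc_in s.prog a) (fun a l => by rw [enc_F, amt_prog])).2
      ⟨t', h1, ?_, rfl, rfl, rfl⟩
    rw [hP.step t' h1]
    simp

omit hP in
theorem enc_F_eq {s' : Sg} {t' : ℕ} {v' : Fin P.n → Bool} (c : Bool) (l : Λ)
    (h1 : s.amt P.L t c = s'.amt P.L t' c)
    (h2 : s.amt P.L t c = 0 ∨ inw act out P s v c = inw act out P s' v' c) :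
    encC act out P K s t v (.F c l) = encC act out P K s' t' v' (.F c l) := by
  funext a
  rw [enc_F, enc_F, ← h1]
  rcases h2 with h2 | h2
  · rw [h2]; rfl
  · rw [h2]

omit hP in
theorem nm_false (a : Γ) : P.nm (fun _ => false) a = false := by
  rw [Bool.eq_false_iff]
  intro h
  obtain ⟨i, -, h⟩ := nm_true.1 h
  exact Bool.noConfusion h

omit hP in
theorem enc_D0 (i : Fin J) : (PE.pub (.D0 i) : Ex K G Λ J).evalC act (pubC P K)
    (encC act out P K s t v) = encC act out P K s 0 v (.D i) := by
  funext a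
  rw [enc_D]
  simp only [PE.evalC, pubC]
  convert pub_vis (K := K) (P := P) 0 i a

omit hP in
theorem enc_DL (i : Fin J) : (PE.pub (.DL i) : Ex K G Λ J).evalC act (pubC P K)
    (encC act out P K s t v) = encC act out P K s P.L v (.D i) := by
  funext a
  rw [enc_D]
  simp only [PE.evalC, pubC]
  convert pub_vis (K := K) (P := P) P.L i a

omit hP in
theorem enc_M0 (i : Fin J) : encC act out P K s 0 v (.M i) = fun _ => 0 := by
  funext a
  simp [encC]

omit hP in
theorem enc_ML (i : Fin J) : (PE.pub (.Full i) : Ex K G Λ J).evalC act (pubC P K)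
    (encC act out P K s t v) = encC act out P K s P.L v (.M i) := by
  funext a
  simp only [PE.evalC, pubC, encC]
  congr

end enc

/-! ## the labelled line system -/

section sys
variable {K : Type} [CommRing K] [Nontrivial K] [DecidableEq Γ] [DecidableEq Λ]

/-- the fill label at visit `t` -/
def fl (act : G → Equiv.Perm Γ) (out : Λ) (P : Layout Γ G Λ J) (s : Sg) (t : ℕ)
    (v : Fin P.n → Bool) : Lb G Λ J :=
  .fill s (P.vis t).2 (P.dir t) (P.vis (t + 1)).2
    (wr act P s.prog (inw act out P s v s.prog)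
      (P.run act s.prog (inw act out P s v s.prog) t) t)

/-- labelled steps of encoded states -/
inductive Nx (act : G → Equiv.Perm Γ) (out : Λ) (P : Layout Γ G Λ J) :
    Sg → ℕ → (Fin P.n → Bool) → Lb G Λ J → Sg → ℕ → (Fin P.n → Bool) → Prop
  | up (s : Sg) (t : ℕ) (v : Fin P.n → Bool) (hs : s.inv = false) (ht : t < P.L) :
      Nx act out P s t v (fl act out P s t v) s (t + 1) v
  | dn (s : Sg) (t : ℕ) (v : Fin P.n → Bool) (hs : s.inv = true) (ht : t < P.L) :
      Nx act out P s (t + 1) v (fl act out P s t v) s t v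
  | ab (v : Fin P.n → Bool) : Nx act out P .a P.L v .ab .b 0 v
  | bc (v : Fin P.n → Bool) (h : P.outp act out true (P.outp act out false v) = v) :
      Nx act out P .b P.L v .bc .c P.L (P.outp act out false v)
  | cd (v : Fin P.n → Bool) : Nx act out P .c 0 v .cd .d P.L v
  | da (v : Fin P.n → Bool) : Nx act out P .d 0 v .da .a 0 v

variable {act out P} {s s' : Sg} {t t' : ℕ} {v v' : Fin P.n → Bool} {ρ : Lb G Λ J}

theorem Nx.le (h : Nx act out P s t v ρ s' t' v') : t ≤ P.L ∧ t' ≤ P.L := by
  cases h <;> constructor <;> omega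

theorem Nx.src (h : Nx act out P s t v ρ s' t' v') :
    (mach (K := K) (G := G) (J := J) out).src ρ = s := by
  cases h <;> rfl

theorem Nx.tgt (h : Nx act out P s t v ρ s' t' v') :
    (mach (K := K) (G := G) (J := J) out).tgt ρ = s' := by
  cases h <;> rfl

variable (hP : P.OK act out)
include hP

theorem Nx.upC (h : Nx act out P s t v ρ s' t' v') :
    (mach (K := K) (G := G) (J := J) out).upC act (pubC P K) ρ (encC act out P K s t v) =
      encC act out P K s' t' v' := by
  cases h with
  | up s t v hs ht =>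
    funext i
    show ((if s.inv then fdn s.prog _ _ _ _ else fup s.prog _ _ _ _ : Rg Λ J → Ex K G Λ J)
      i).evalC act (pubC P K) _ = _
    rw [hs]
    exact up_enc hP ht i
  | dn s t v hs ht =>
    funext i
    show ((if s.inv then fdn s.prog _ _ _ _ else fup s.prog _ _ _ _ : Rg Λ J → Ex K G Λ J)
      i).evalC act (pubC P K) _ = _
    rw [hs]
    exact dn_enc hP ht i
  | ab v =>
    funext i
    cases i with
    | X => rfl
    | Y =>
      funext a
      show encC act out P K .a P.L v (.F false out) a = bt K (P.nm (P.outp act out false v) a)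
      rw [nm_outp act hP]; rfl
    | F c l =>
      show encC act out P K .a P.L v (.F c l) = _
      cases c
      · exact enc_F_eq false l rfl (Or.inr rfl)
      · exact enc_F_eq true l rfl (Or.inl rfl)
    | D i => exact enc_D0 i
    | M i => exact (enc_M0 i).symm
  | bc v h =>
    funext i
    cases i with
    | X =>
      funext a
      show bt K (P.nm v a) = bt K (P.nm (P.outp act out true (P.outp act out false v)) a)
      rw [h]
    | Y => rfl
    | F c l =>
      show encC act out P K .b P.L v (.F c l) = _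
      cases c
      · refine enc_F_eq false l rfl (Or.inr ?_)
        show P.nm v = P.nm (P.outp act out true (P.outp act out false v))
        rw [h]
      · exact enc_F_eq true l rfl (Or.inr rfl)
    | D i => rfl
    | M i => rfl
  | cd v =>
    funext i
    cases i with
    | X =>
      funext a
      show (0 : K) = bt K (P.nm (fun _ => false) a)
      rw [nm_false]; rfl
    | Y => rfl
    | F c l =>
      show encC act out P K .c 0 v (.F c l) = _
      cases c
      · exact enc_F_eq false l rfl (Or.inl rfl)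
      · exact enc_F_eq true l rfl (Or.inr rfl)
    | D i => exact enc_DL i
    | M i => exact enc_ML i
  | da v =>
    funext i
    cases i with
    | X => rfl
    | Y =>
      funext a
      show (0 : K) = bt K (P.nm (fun _ => false) a)
      rw [nm_false]; rfl
    | F c l =>
      show encC act out P K .d 0 v (.F c l) = _
      cases c
      · exact enc_F_eq false l rfl (Or.inl rfl)
      · exact enc_F_eq true l rfl (Or.inl rfl)
    | D i => rfl
    | M i => rfl

theorem Nx.dnC (h : Nx act out P s t v ρ s' t' v') :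
    (mach (K := K) (G := G) (J := J) out).dnC act (pubC P K) ρ (encC act out P K s' t' v') =
      encC act out P K s t v := by
  cases h with
  | up s t v hs ht =>
    funext i
    show ((if s.inv then fup s.prog _ _ _ _ else fdn s.prog _ _ _ _ : Rg Λ J → Ex K G Λ J)
      i).evalC act (pubC P K) _ = _
    rw [hs]
    exact dn_enc hP ht i
  | dn s t v hs ht =>
    funext i
    show ((if s.inv then fup s.prog _ _ _ _ else fdn s.prog _ _ _ _ : Rg Λ J → Ex K G Λ J)
      i).evalC act (pubC P K) _ = _
    rw [hs]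
    exact up_enc hP ht i
  | ab v =>
    funext i
    cases i with
    | X => rfl
    | Y =>
      funext a
      show (0 : K) = bt K (P.nm (fun _ => false) a)
      rw [nm_false]; rfl
    | F c l =>
      show encC act out P K .b 0 v (.F c l) = _
      cases c
      · exact enc_F_eq false l rfl (Or.inr rfl)
      · exact enc_F_eq true l rfl (Or.inl rfl)
    | D i => exact enc_DL i
    | M i => exact enc_ML i
  | bc v h =>
    funext i
    cases i with
    | X =>
      funext a
      show bt K (P.nm (P.outp act out true (P.outp act out false v)) a) = bt K (P.nm v a)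
      rw [h]
    | Y => rfl
    | F c l =>
      show encC act out P K .c P.L (P.outp act out false v) (.F c l) = _
      cases c
      · refine enc_F_eq false l rfl (Or.inr ?_)
        show P.nm (P.outp act out true (P.outp act out false v)) = P.nm v
        rw [h]
      · exact enc_F_eq true l rfl (Or.inr rfl)
    | D i => rfl
    | M i => rfl
  | cd v =>
    funext i
    cases i with
    | X =>
      funext a
      show encC act out P K .d P.L v (.F true out) a = bt K (P.nm (P.outp act out true v) a)
      rw [nm_outp act hP]; rfl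
    | Y => rfl
    | F c l =>
      show encC act out P K .d P.L v (.F c l) = _
      cases c
      · exact enc_F_eq false l rfl (Or.inl rfl)
      · exact enc_F_eq true l rfl (Or.inr rfl)
    | D i => exact enc_D0 i
    | M i => exact (enc_M0 i).symm
  | da v =>
    funext i
    cases i with
    | X =>
      funext a
      show (0 : K) = bt K (P.nm (fun _ => false) a)
      rw [nm_false]; rfl
    | Y => rfl
    | F c l =>
      show encC act out P K .a 0 v (.F c l) = _
      cases c
      · exact enc_F_eq false l rfl (Or.inl rfl)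
      · exact enc_F_eq true l rfl (Or.inl rfl)
    | D i => rfl
    | M i => rfl

omit [DecidableEq Λ] hP in
theorem en_fill_iff {r : Rg Λ J → Γ → K} {j j' : Fin J} {g : G} {w : Wr G Λ} [DecidableEq Λ] :
    (mach (K := K) (G := G) (J := J) out).En act (pubC P K) (.fill s j g j' w) r ↔
      if s.inv then (∀ q, gd s.prog j g j' w (.old g j') q → Cz act P K r q) ∧
        ∀ i, i ≠ j' → Iz act out P K r (.D i)
      else (∀ q, gd s.prog j g j' w (.cur j) q → Cz act P K r q) ∧
        ∀ i, i ≠ j → Iz act out P K r (.D i) := by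
  cases hs : s.inv
  · simp only [Bool.false_eq_true, if_false]
    constructor
    · rintro ⟨h1, h2⟩
      refine ⟨fun q hq => h1 q ?_, fun i hi => h2 (.D i) ?_⟩
      · show gd s.prog j g j' w (if s.inv then Pt.old g j' else Pt.cur j) q
        rw [hs]; exact hq
      · show if s.inv then i ≠ j' else i ≠ j
        rw [hs]; exact hi
    · rintro ⟨h1, h2⟩
      refine ⟨fun q hq => h1 q ?_, fun i hi => ?_⟩
      · change gd s.prog j g j' w (if s.inv then Pt.old g j' else Pt.cur j) q at hq
        rw [hs] at hq; exact hq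
      · cases i with
        | D i =>
          change if s.inv then i ≠ j' else i ≠ j at hi
          rw [hs] at hi; exact h2 i hi
        | _ => exact hi.elim
  · simp only [if_true]
    constructor
    · rintro ⟨h1, h2⟩
      refine ⟨fun q hq => h1 q ?_, fun i hi => h2 (.D i) ?_⟩
      · show gd s.prog j g j' w (if s.inv then Pt.old g j' else Pt.cur j) q
        rw [hs]; exact hq
      · show if s.inv then i ≠ j' else i ≠ j
        rw [hs]; exact hi
    · rintro ⟨h1, h2⟩
      refine ⟨fun q hq => h1 q ?_, fun i hi => ?_⟩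
      · change gd s.prog j g j' w (if s.inv then Pt.old g j' else Pt.cur j) q at hq
        rw [hs] at hq; exact hq
      · cases i with
        | D i =>
          change if s.inv then i ≠ j' else i ≠ j at hi
          rw [hs] at hi; exact h2 i hi
        | _ => exact hi.elim

omit [DecidableEq Λ] hP in
theorem bk_fill_iff {r : Rg Λ J → Γ → K} {j j' : Fin J} {g : G} {w : Wr G Λ} [DecidableEq Λ] :
    (mach (K := K) (G := G) (J := J) out).Bk act (pubC P K) (.fill s j g j' w) r ↔
      if s.inv then (∀ q, gd s.prog j g j' w (.cur j) q → Cz act P K r q) ∧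
        ∀ i, i ≠ j → Iz act out P K r (.D i)
      else (∀ q, gd s.prog j g j' w (.old g j') q → Cz act P K r q) ∧
        ∀ i, i ≠ j' → Iz act out P K r (.D i) := by
  cases hs : s.inv
  · simp only [Bool.false_eq_true, if_false]
    constructor
    · rintro ⟨h1, h2⟩
      refine ⟨fun q hq => h1 q ?_, fun i hi => h2 (.D i) ?_⟩
      · show gd s.prog j g j' w (if s.inv then Pt.cur j else Pt.old g j') q
        rw [hs]; exact hq
      · show if s.inv then i ≠ j else i ≠ j'
        rw [hs]; exact hi
    · rintro ⟨h1, h2⟩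
      refine ⟨fun q hq => h1 q ?_, fun i hi => ?_⟩
      · change gd s.prog j g j' w (if s.inv then Pt.cur j else Pt.old g j') q at hq
        rw [hs] at hq; exact hq
      · cases i with
        | D i =>
          change if s.inv then i ≠ j else i ≠ j' at hi
          rw [hs] at hi; exact h2 i hi
        | _ => exact hi.elim
  · simp only [if_true]
    constructor
    · rintro ⟨h1, h2⟩
      refine ⟨fun q hq => h1 q ?_, fun i hi => h2 (.D i) ?_⟩
      · show gd s.prog j g j' w (if s.inv then Pt.cur j else Pt.old g j') q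
        rw [hs]; exact hq
      · show if s.inv then i ≠ j else i ≠ j'
        rw [hs]; exact hi
    · rintro ⟨h1, h2⟩
      refine ⟨fun q hq => h1 q ?_, fun i hi => ?_⟩
      · change gd s.prog j g j' w (if s.inv then Pt.cur j else Pt.old g j') q at hq
        rw [hs] at hq; exact hq
      · cases i with
        | D i =>
          change if s.inv then i ≠ j else i ≠ j' at hi
          rw [hs] at hi; exact h2 i hi
        | _ => exact hi.elim

theorem YS_iff (hs : s = .b ∨ s = .c) (ht : s.amt P.L t false = P.L) :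
    Iz act out P K (encC act out P K s t v) .YS ↔
      P.nY act out s v = P.outp act out false (P.nX act out s v) := by
  have h1 : ∀ x, encC act out P K s t v (.F false out) x =
      bt K (P.nm (P.outp act out false (P.nX act out s v)) x) := by
    intro x
    rw [enc_F, ht, nm_outp act hP]; rfl
  constructor
  · intro h
    apply nm_inj act hP
    funext x
    have := h x
    change encC act out P K s t v .Y x + -1 * encC act out P K s t v (.F false out) x = 0 at this
    rw [h1] at this
    apply (bt_inj K).1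
    change bt K (P.nm (P.nY act out s v) x) + _ = 0 at this
    linear_combination this
  · intro h x
    show encC act out P K s t v .Y x + -1 * encC act out P K s t v (.F false out) x = 0
    rw [h1, ← h]
    show bt K (P.nm (P.nY act out s v) x) + _ = 0
    ring

theorem XP_iff (hs : s = .b ∨ s = .c) (ht : s.amt P.L t true = P.L) :
    Iz act out P K (encC act out P K s t v) .XP ↔
      P.nX act out s v = P.outp act out true (P.nY act out s v) := by
  have h1 : ∀ x, encC act out P K s t v (.F true out) x =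
      bt K (P.nm (P.outp act out true (P.nY act out s v)) x) := by
    intro x
    rw [enc_F, ht, nm_outp act hP]; rfl
  constructor
  · intro h
    apply nm_inj act hP
    funext x
    have := h x
    change encC act out P K s t v .X x + -1 * encC act out P K s t v (.F true out) x = 0 at this
    rw [h1] at this
    apply (bt_inj K).1
    change bt K (P.nm (P.nX act out s v) x) + _ = 0 at this
    linear_combination this
  · intro h x
    show encC act out P K s t v .X x + -1 * encC act out P K s t v (.F true out) x = 0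
    rw [h1, ← h]
    show bt K (P.nm (P.nX act out s v) x) + _ = 0
    ring

/-- forward guards are exactly the labelled steps -/
theorem en_iff (ht : t ≤ P.L) :
    ((mach (K := K) (G := G) (J := J) out).src ρ = s ∧
      (mach (K := K) (G := G) (J := J) out).En act (pubC P K) ρ (encC act out P K s t v)) ↔
    ∃ s' t' v', Nx act out P s t v ρ s' t' v' := by
  cases ρ with
  | fill s0 j g j' w =>
    constructor
    · rintro ⟨h0, h⟩
      change s0 = s at h0
      subst h0
      rw [en_fill_iff] at h
      cases hs : s0.inv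
      · rw [hs] at h
        simp only [Bool.false_eq_true, if_false] at h
        obtain ⟨h1, rfl, rfl, rfl, rfl⟩ := (guard_cur hP ht).1 h
        exact ⟨_, _, _, Nx.up s0 t v hs h1⟩
      · rw [hs] at h
        simp only [if_true] at h
        obtain ⟨t', rfl, rfl, rfl, rfl, rfl⟩ := (guard_old hP ht).1 h
        exact ⟨_, _, _, Nx.dn s0 t' v hs ht⟩
    · rintro ⟨s', t', v', h⟩
      cases h with
      | up _ _ _ hs h1 =>
        refine ⟨rfl, ?_⟩
        rw [en_fill_iff, hs]
        simp only [Bool.false_eq_true, if_false]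
        exact (guard_cur hP ht).2 ⟨h1, rfl, rfl, rfl, rfl⟩
      | dn _ t' _ hs h1 =>
        refine ⟨rfl, ?_⟩
        rw [en_fill_iff, hs]
        simp only [if_true]
        exact (guard_old hP ht).2 ⟨t', rfl, rfl, rfl, rfl, rfl⟩
  | ab =>
    constructor
    · rintro ⟨h0, h⟩
      change Sg.a = s at h0
      subst h0
      have : t = P.L := (Iz_dL (K := K) hP ht).1 (fun i => h.2 (.dL i) trivial)
      subst this
      exact ⟨_, _, _, Nx.ab v⟩
    · rintro ⟨s', t', v', h⟩
      cases h
      refine ⟨rfl, fun _ h => h.elim, fun i hi => ?_⟩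
      cases i with
      | dL i => exact (Iz_dL (K := K) hP ht).2 rfl i
      | _ => exact hi.elim
  | bc =>
    constructor
    · rintro ⟨h0, h⟩
      change Sg.b = s at h0
      subst h0
      have : t = P.L := (Iz_dL (K := K) hP ht).1 (fun i => h.2 (.dL i) trivial)
      subst this
      have h1 := (XP_iff (K := K) hP (Or.inl rfl) rfl).1 (h.2 .XP trivial)
      exact ⟨_, _, _, Nx.bc v h1.symm⟩
    · rintro ⟨s', t', v', h⟩
      cases h with
      | bc _ h1 =>
        refine ⟨rfl, fun _ h => h.elim, fun i hi => ?_⟩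
        cases i with
        | dL i => exact (Iz_dL (K := K) hP ht).2 rfl i
        | XP => exact (XP_iff (K := K) hP (Or.inl rfl) rfl).2 h1.symm
        | _ => exact hi.elim
  | cd =>
    constructor
    · rintro ⟨h0, h⟩
      change Sg.c = s at h0
      subst h0
      have : t = 0 := (Iz_d0 (K := K) hP ht).1 (fun i => h.2 (.d0 i) trivial)
      subst this
      exact ⟨_, _, _, Nx.cd v⟩
    · rintro ⟨s', t', v', h⟩
      cases h
      refine ⟨rfl, fun _ h => h.elim, fun i hi => ?_⟩
      cases i with
      | d0 i => exact (Iz_d0 (K := K) hP ht).2 rfl i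
      | _ => exact hi.elim
  | da =>
    constructor
    · rintro ⟨h0, h⟩
      change Sg.d = s at h0
      subst h0
      have : t = 0 := (Iz_d0 (K := K) hP ht).1 (fun i => h.2 (.d0 i) trivial)
      subst this
      exact ⟨_, _, _, Nx.da v⟩
    · rintro ⟨s', t', v', h⟩
      cases h
      refine ⟨rfl, fun _ h => h.elim, fun i hi => ?_⟩
      cases i with
      | d0 i => exact (Iz_d0 (K := K) hP ht).2 rfl i
      | _ => exact hi.elim

/-- backward guards are exactly the labelled steps -/
theorem bk_iff (ht : t' ≤ P.L) :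
    ((mach (K := K) (G := G) (J := J) out).tgt ρ = s' ∧
      (mach (K := K) (G := G) (J := J) out).Bk act (pubC P K) ρ (encC act out P K s' t' v')) ↔
    ∃ s t v, Nx act out P s t v ρ s' t' v' := by
  cases ρ with
  | fill s0 j g j' w =>
    constructor
    · rintro ⟨h0, h⟩
      change s0 = s' at h0
      subst h0
      rw [bk_fill_iff] at h
      cases hs : s0.inv
      · rw [hs] at h
        simp only [Bool.false_eq_true, if_false] at h
        obtain ⟨t, rfl, rfl, rfl, rfl, rfl⟩ := (guard_old hP ht).1 h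
        exact ⟨_, _, _, Nx.up s0 t v' hs ht⟩
      · rw [hs] at h
        simp only [if_true] at h
        obtain ⟨h1, rfl, rfl, rfl, rfl⟩ := (guard_cur hP ht).1 h
        exact ⟨_, _, _, Nx.dn s0 t' v' hs h1⟩
    · rintro ⟨s, t, v, h⟩
      cases h with
      | up _ t _ hs h1 =>
        refine ⟨rfl, ?_⟩
        rw [bk_fill_iff, hs]
        simp only [Bool.false_eq_true, if_false]
        exact (guard_old hP ht).2 ⟨t, rfl, rfl, rfl, rfl, rfl⟩
      | dn _ _ _ hs h1 =>
        refine ⟨rfl, ?_⟩
        rw [bk_fill_iff, hs]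
        simp only [if_true]
        exact (guard_cur hP ht).2 ⟨h1, rfl, rfl, rfl, rfl⟩
  | ab =>
    constructor
    · rintro ⟨h0, h⟩
      change Sg.b = s' at h0
      subst h0
      have : t' = 0 := (Iz_d0 (K := K) hP ht).1 (fun i => h.2 (.d0 i) trivial)
      subst this
      exact ⟨_, _, _, Nx.ab v'⟩
    · rintro ⟨s, t, v, h⟩
      cases h
      refine ⟨rfl, fun _ h => h.elim, fun i hi => ?_⟩
      cases i with
      | d0 i => exact (Iz_d0 (K := K) hP ht).2 rfl i
      | _ => exact hi.elim
  | bc =>
    constructor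
    · rintro ⟨h0, h⟩
      change Sg.c = s' at h0
      subst h0
      have : t' = P.L := (Iz_dL (K := K) hP ht).1 (fun i => h.2 (.dL i) trivial)
      subst this
      have h1 := (YS_iff (K := K) hP (Or.inr rfl) rfl).1 (h.2 .YS trivial)
      change v' = P.outp act out false (P.outp act out true v') at h1
      have h2 : P.outp act out true (P.outp act out false (P.outp act out true v')) =
          P.outp act out true v' := by rw [← h1]
      have h3 := Nx.bc (act := act) (P := P) _ h2
      rw [← h1] at h3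
      exact ⟨_, _, _, h3⟩
    · rintro ⟨s, t, v, h⟩
      cases h with
      | bc _ h1 =>
        refine ⟨rfl, fun _ h => h.elim, fun i hi => ?_⟩
        cases i with
        | dL i => exact (Iz_dL (K := K) hP ht).2 rfl i
        | YS =>
          refine (YS_iff (K := K) hP (Or.inr rfl) rfl).2 ?_
          show P.outp act out false v =
            P.outp act out false (P.outp act out true (P.outp act out false v))
          rw [h1]
        | _ => exact hi.elim
  | cd =>
    constructor
    · rintro ⟨h0, h⟩
      change Sg.d = s' at h0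
      subst h0
      have : t' = P.L := (Iz_dL (K := K) hP ht).1 (fun i => h.2 (.dL i) trivial)
      subst this
      exact ⟨_, _, _, Nx.cd v'⟩
    · rintro ⟨s, t, v, h⟩
      cases h
      refine ⟨rfl, fun _ h => h.elim, fun i hi => ?_⟩
      cases i with
      | dL i => exact (Iz_dL (K := K) hP ht).2 rfl i
      | _ => exact hi.elim
  | da =>
    constructor
    · rintro ⟨h0, h⟩
      change Sg.a = s' at h0
      subst h0
      have : t' = 0 := (Iz_d0 (K := K) hP ht).1 (fun i => h.2 (.d0 i) trivial)
      subst this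
      exact ⟨_, _, _, Nx.da v'⟩
    · rintro ⟨s, t, v, h⟩
      cases h
      refine ⟨rfl, fun _ h => h.elim, fun i hi => ?_⟩
      cases i with
      | d0 i => exact (Iz_d0 (K := K) hP ht).2 rfl i
      | _ => exact hi.elim

omit hP in
theorem Nx.inv (h : Nx act out P s t v ρ s' t' v') :
    (s.inv = false ∧ t < P.L ∧ ρ = fl act out P s t v ∧ s' = s ∧ t' = t + 1 ∧ v' = v) ∨
    (s.inv = true ∧ t' < P.L ∧ t = t' + 1 ∧ ρ = fl act out P s t' v' ∧ s' = s ∧ v' = v) ∨
    (s = .a ∧ t = P.L ∧ ρ = .ab ∧ s' = .b ∧ t' = 0 ∧ v' = v) ∨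
    (s = .b ∧ t = P.L ∧ ρ = .bc ∧ s' = .c ∧ t' = P.L ∧ v' = P.outp act out false v ∧
      P.outp act out true v' = v) ∨
    (s = .c ∧ t = 0 ∧ ρ = .cd ∧ s' = .d ∧ t' = P.L ∧ v' = v) ∨
    (s = .d ∧ t = 0 ∧ ρ = .da ∧ s' = .a ∧ t' = 0 ∧ v' = v) := by
  cases h with
  | up _ _ _ hs ht => exact Or.inl ⟨hs, ht, rfl, rfl, rfl, rfl⟩
  | dn _ _ _ hs ht => exact Or.inr (Or.inl ⟨hs, ht, rfl, rfl, rfl, rfl⟩)
  | ab => simp
  | bc _ h => simp [h]
  | cd => simp
  | da => simp

omit hP in
theorem Nx.detF {ρ' : Lb G Λ J} {s₁ s₂ : Sg} {t₁ t₂ : ℕ} {v₁ v₂ : Fin P.n → Bool}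
    (h : Nx act out P s t v ρ s₁ t₁ v₁) (h' : Nx act out P s t v ρ' s₂ t₂ v₂) :
    ρ = ρ' ∧ s₁ = s₂ ∧ t₁ = t₂ ∧ v₁ = v₂ := by
  rcases h.inv with ⟨a1, a2, a3, a4, a5, a6⟩ | ⟨a1, a2, a3, a4, a5, a6⟩ |
      ⟨a1, a2, a3, a4, a5, a6⟩ | ⟨a1, a2, a3, a4, a5, a6, a7⟩ | ⟨a1, a2, a3, a4, a5, a6⟩ |
      ⟨a1, a2, a3, a4, a5, a6⟩ <;>
    rcases h'.inv with ⟨b1, b2, b3, b4, b5, b6⟩ | ⟨b1, b2, b3, b4, b5, b6⟩ |
      ⟨b1, b2, b3, b4, b5, b6⟩ | ⟨b1, b2, b3, b4, b5, b6, b7⟩ | ⟨b1, b2, b3, b4, b5, b6⟩ |
      ⟨b1, b2, b3, b4, b5, b6⟩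
  all_goals first
    | (rw [a1] at b1; exact Bool.noConfusion b1)
    | (rw [a1] at b1; exact Sg.noConfusion b1)
    | (rw [b1] at a1; exact Bool.noConfusion a1)
    | (exfalso; omega)
    | exact ⟨a3.trans b3.symm, a4.trans b4.symm, a5.trans b5.symm, a6.trans b6.symm⟩
    | (obtain rfl : t₁ = t₂ := by omega
       subst a6 b6
       exact ⟨a4.trans b4.symm, a5.trans b5.symm, rfl, rfl⟩)

omit hP in
theorem Nx.detB {ρ' : Lb G Λ J} {s₁ s₂ : Sg} {t₁ t₂ : ℕ} {v₁ v₂ : Fin P.n → Bool}
    (h : Nx act out P s₁ t₁ v₁ ρ s t v) (h' : Nx act out P s₂ t₂ v₂ ρ' s t v) :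
    ρ = ρ' ∧ s₁ = s₂ ∧ t₁ = t₂ ∧ v₁ = v₂ := by
  rcases h.inv with ⟨a1, a2, a3, a4, a5, a6⟩ | ⟨a1, a2, a3, a4, a5, a6⟩ |
      ⟨a1, a2, a3, a4, a5, a6⟩ | ⟨a1, a2, a3, a4, a5, a6, a7⟩ | ⟨a1, a2, a3, a4, a5, a6⟩ |
      ⟨a1, a2, a3, a4, a5, a6⟩ <;>
    rcases h'.inv with ⟨b1, b2, b3, b4, b5, b6⟩ | ⟨b1, b2, b3, b4, b5, b6⟩ |
      ⟨b1, b2, b3, b4, b5, b6⟩ | ⟨b1, b2, b3, b4, b5, b6, b7⟩ | ⟨b1, b2, b3, b4, b5, b6⟩ |
      ⟨b1, b2, b3, b4, b5, b6⟩
  all_goals first
    | (rw [a4] at b4; exact Sg.noConfusion b4)
    | (rw [← a4, b4] at a1; exact Bool.noConfusion a1)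
    | (rw [← b4, a4] at b1; exact Bool.noConfusion b1)
    | (exfalso; omega)
    | exact ⟨a3.trans b3.symm, a1.trans b1.symm, a2.trans b2.symm, a6.symm.trans b6⟩
    | exact ⟨a3.trans b3.symm, a1.trans b1.symm, a2.trans b2.symm, a7.symm.trans b7⟩
    | (rw [← a5, b4] at a1; exact Bool.noConfusion a1)
    | (rw [← b5, a4] at b1; exact Bool.noConfusion b1)
    | (rw [← a4] at a1; rw [← b5, a1] at b1; exact Bool.noConfusion b1)
    | (rw [← a5] at a1; rw [← b4, a1] at b1; exact Bool.noConfusion b1)
    | (obtain rfl : t₁ = t₂ := by omega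
       subst a4 b4 a6 b6
       exact ⟨a3.trans b3.symm, rfl, rfl, rfl⟩)
    | (obtain rfl : t₁ = t₂ := by omega
       subst a5 b5 a6 b6
       exact ⟨a4.trans b4.symm, rfl, rfl, rfl⟩)

/-- existence of a labelled step forward -/
theorem nx_exists_iff (ht : t ≤ P.L) :
    (∃ ρ s' t' v', Nx act out P s t v ρ s' t' v') ↔
      ¬ (s = .b ∧ t = P.L ∧ P.outp act out true (P.outp act out false v) ≠ v) := by
  constructor
  · rintro ⟨ρ, s', t', v', h⟩ ⟨rfl, rfl, hv⟩
    rcases h.inv with ⟨a1, a2, a3, a4, a5, a6⟩ | ⟨a1, a2, a3, a4, a5, a6⟩ |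
      ⟨a1, a2, a3, a4, a5, a6⟩ | ⟨a1, a2, a3, a4, a5, a6, a7⟩ | ⟨a1, a2, a3, a4, a5, a6⟩ |
      ⟨a1, a2, a3, a4, a5, a6⟩
    · exact absurd a2 (lt_irrefl _)
    · exact Bool.noConfusion a1
    · exact Sg.noConfusion a1
    · rw [a6] at a7; exact hv a7
    · exact Sg.noConfusion a1
    · exact Sg.noConfusion a1
  · intro h
    rcases hs : s.inv with _ | _
    · rcases Nat.lt_or_ge t P.L with h1 | h1
      · exact ⟨_, _, _, _, Nx.up s t v hs h1⟩
      · obtain rfl : t = P.L := le_antisymm ht h1
        cases s with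
        | a => exact ⟨_, _, _, _, Nx.ab v⟩
        | b =>
          by_cases hv : P.outp act out true (P.outp act out false v) = v
          · exact ⟨_, _, _, _, Nx.bc v hv⟩
          · exact absurd ⟨rfl, rfl, hv⟩ h
        | c => exact Bool.noConfusion hs
        | d => exact Bool.noConfusion hs
    · cases t with
      | zero =>
        cases s with
        | a => exact Bool.noConfusion hs
        | b => exact Bool.noConfusion hs
        | c => exact ⟨_, _, _, _, Nx.cd v⟩
        | d => exact ⟨_, _, _, _, Nx.da v⟩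
      | succ t => exact ⟨_, _, _, _, Nx.dn s t v hs ht⟩

/-- existence of a labelled step backward -/
theorem pv_exists_iff (ht : t ≤ P.L) :
    (∃ ρ s₀ t₀ v₀, Nx act out P s₀ t₀ v₀ ρ s t v) ↔
      ¬ (s = .c ∧ t = P.L ∧ P.outp act out false (P.outp act out true v) ≠ v) := by
  constructor
  · rintro ⟨ρ, s₀, t₀, v₀, h⟩ ⟨rfl, rfl, hv⟩
    rcases h.inv with ⟨a1, a2, a3, a4, a5, a6⟩ | ⟨a1, a2, a3, a4, a5, a6⟩ |
      ⟨a1, a2, a3, a4, a5, a6⟩ | ⟨a1, a2, a3, a4, a5, a6, a7⟩ | ⟨a1, a2, a3, a4, a5, a6⟩ |
      ⟨a1, a2, a3, a4, a5, a6⟩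
    · rw [← a4] at a1; exact Bool.noConfusion a1
    · exact absurd a2 (lt_irrefl _)
    · exact Sg.noConfusion a4
    · rw [a7] at hv; exact hv a6.symm
    · exact Sg.noConfusion a4
    · exact Sg.noConfusion a4
  · intro h
    rcases hs : s.inv with _ | _
    · cases t with
      | zero =>
        cases s with
        | a => exact ⟨_, _, _, _, Nx.da v⟩
        | b => exact ⟨_, _, _, _, Nx.ab v⟩
        | c => exact Bool.noConfusion hs
        | d => exact Bool.noConfusion hs
      | succ t => exact ⟨_, _, _, _, Nx.up s t v hs ht⟩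
    · rcases Nat.lt_or_ge t P.L with h1 | h1
      · exact ⟨_, _, _, _, Nx.dn s t v hs h1⟩
      · obtain rfl : t = P.L := le_antisymm ht h1
        cases s with
        | a => exact Bool.noConfusion hs
        | b => exact Bool.noConfusion hs
        | c =>
          by_cases hv : P.outp act out false (P.outp act out true v) = v
          · have h2 : P.outp act out true (P.outp act out false (P.outp act out true v)) =
                P.outp act out true v := by rw [hv]
            have h3 := Nx.bc (act := act) (P := P) _ h2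
            rw [hv] at h3
            exact ⟨_, _, _, _, h3⟩
          · exact absurd ⟨rfl, rfl, hv⟩ h
        | d => exact ⟨_, _, _, _, Nx.cd v⟩

end sys

/-! ## the statements of `DefC_143` -/

section final
variable (K : Type) [CommRing K] [DecidableEq Γ] [DecidableEq Λ]
variable (p : ℕ) [CharP K p] [Fact p.Prime] [IsDomain K]

theorem blocked : blocked_stmt (G := G) act out P K p := by
  intro _ hP s t v ht
  constructor
  · rw [not_iff_comm, ← nx_exists_iff (act := act) (out := out) (v := v) (s := s) hP ht]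
    constructor
    · rintro ⟨ρ, h⟩
      exact ⟨ρ, (en_iff (K := K) hP ht).2 h⟩
    · rintro ⟨ρ, h⟩
      exact ⟨ρ, (en_iff (K := K) hP ht).1 h⟩
  · rw [not_iff_comm, ← pv_exists_iff (act := act) (out := out) (v := v) (s := s) hP ht]
    constructor
    · rintro ⟨ρ, h⟩
      exact ⟨ρ, (bk_iff (K := K) hP ht).2 h⟩
    · rintro ⟨ρ, h⟩
      exact ⟨ρ, (bk_iff (K := K) hP ht).1 h⟩

theorem mach_ok_of_legal_iff (hL : legal_iff_stmt (G := G) act out P K p) :
    mach_ok_stmt (G := G) act out P K p := by
  intro hp hP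
  have hL' := hL hp hP
  refine ⟨?_, ?_, ?_, ?_, ?_⟩
  · intro ρ r hr he
    obtain ⟨t, ht, v, rfl⟩ := (hL' _ r).1 hr
    obtain ⟨s', t', v', h⟩ := (en_iff (K := K) hP ht).1 ⟨rfl, he⟩
    have h1 := h.upC (K := K) hP
    have h2 := h.dnC (K := K) hP
    have h3 := (bk_iff (K := K) hP h.le.2).2 ⟨_, _, _, h⟩
    refine ⟨?_, ?_, ?_⟩
    · rw [h1, h3.1]
      exact (hL' _ _).2 ⟨t', h.le.2, v', rfl⟩
    · rw [h1]; exact h3.2
    · rw [h1]; exact h2
  · intro ρ r hr he
    obtain ⟨t, ht, v, rfl⟩ := (hL' _ r).1 hr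
    obtain ⟨s', t', v', h⟩ := (bk_iff (K := K) hP ht).1 ⟨rfl, he⟩
    have h1 := h.upC (K := K) hP
    have h2 := h.dnC (K := K) hP
    have h3 := (en_iff (K := K) hP h.le.1).2 ⟨_, _, _, h⟩
    refine ⟨?_, ?_, ?_⟩
    · rw [h2, h3.1]
      exact (hL' _ _).2 ⟨t', h.le.1, v', rfl⟩
    · rw [h2]; exact h3.2
    · rw [h2]; exact h1
  · intro ρ ρ' r hs hr he he'
    obtain ⟨t, ht, v, rfl⟩ := (hL' _ r).1 hr
    obtain ⟨_, _, _, h⟩ := (en_iff (K := K) hP ht).1 ⟨rfl, he⟩
    obtain ⟨_, _, _, h'⟩ := (en_iff (K := K) hP ht).1 ⟨hs.symm, he'⟩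
    exact (h.detF h').1
  · intro ρ ρ' r hs hr he he'
    obtain ⟨t, ht, v, rfl⟩ := (hL' _ r).1 hr
    obtain ⟨_, _, _, h⟩ := (bk_iff (K := K) hP ht).1 ⟨rfl, he⟩
    obtain ⟨_, _, _, h'⟩ := (bk_iff (K := K) hP ht).1 ⟨hs.symm, he'⟩
    exact (h.detB h').1
  · intro ρ r hr he
    obtain ⟨t, ht, v, rfl⟩ := (hL' _ r).1 hr
    obtain ⟨s', t', v', h⟩ := (en_iff (K := K) hP ht).1 ⟨rfl, he⟩
    have h1 := h.upC (K := K) hP
    have h3 := (bk_iff (K := K) hP h.le.2).2 ⟨_, _, _, h⟩
    rw [h1, h3.1]
    by_cases hs : (mach (K := K) (G := G) (J := J) out).src ρ = s'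
    · right
      intro h4
      have htt : t ≠ t' := by
        rcases h.inv with ⟨a1, a2, a3, a4, a5, a6⟩ | ⟨a1, a2, a3, a4, a5, a6⟩ |
          ⟨a1, a2, a3, a4, a5, a6⟩ | ⟨a1, a2, a3, a4, a5, a6, a7⟩ | ⟨a1, a2, a3, a4, a5, a6⟩ |
          ⟨a1, a2, a3, a4, a5, a6⟩
        · omega
        · omega
        all_goals
          rw [a1, a4] at hs
          exact Sg.noConfusion hs
      have h5 := congrFun (congrFun h4 (.D (P.vis t).2)) (P.vis t).1
      have h7 := enc_D (K := K) (act := act) (out := out) (P := P)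
        (s := (mach (K := K) (G := G) (J := J) out).src ρ) (v := v) (t := t)
        (P.vis t).2 (P.vis t).1
      rw [if_pos (⟨rfl, rfl⟩ : (P.vis t).1 = _ ∧ (P.vis t).2 = _)] at h7
      rw [enc_D] at h5
      replace h5 := h5.trans h7
      by_cases h6 : (P.vis t').1 = (P.vis t).1 ∧ (P.vis t').2 = (P.vis t).2
      · exact htt (hP.inj t t' ht h.le.2 (Prod.ext h6.1 h6.2).symm)
      · rw [if_neg h6] at h5
        exact zero_ne_one h5
    · left; exact hs

end final

end Crest.Agent.R289.Step435
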