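import Crest.Agent.R289.MachC_143
import Crest.Agent.R289.Step_435
import Crest.Agent.R289.BootC_515

/-!
# Row 289, block C: the content machine, all hypotheses discharged

Glue of `MachC_143.legal_iff` (P2), `Step_435` (P5) and `BootC_515` (start stages): for every layout
`P` with `P.OK act out` over a domain of characteristic `p ≠ 2`.
-/

set_option autoImplicit false

namespace Crest.Agent.R289.C1435

open Crest.Agent.R289.DefC Crest.Agent.R289.BootC515

variable {Γ G Λ : Type} {J : ℕ} (act : G → Equiv.Perm Γ) (out : Λ) (P : Layout Γ G Λ J)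
  (K : Type) [CommRing K] [DecidableEq Γ] [DecidableEq Λ] (p : ℕ) [CharP K p] [Fact p.Prime]
  [IsDomain K]

/-- LEMMA P2 -/
theorem legal_iff_holds : legal_iff_stmt (G := G) act out P K p :=
  fun _ hP s r => legal_iff hP s r

/-- THEOREM C1 -/
theorem mach_ok_holds : mach_ok_stmt (G := G) act out P K p :=
  Step435.mach_ok_of_legal_iff act out P K p (legal_iff_holds act out P K p)

/-- ends of the content machine -/
theorem blocked_holds : blocked_stmt (G := G) act out P K p :=
  Step435.blocked act out P K p

variable {act out P K}

/-- the content machine is OK -/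
theorem mach_ok (hp : p ≠ 2) (hP : P.OK act out) :
    (mach (K := K) (G := G) (J := J) out).OK act (pubC P K) :=
  mach_ok_holds act out P K p hp hP

/-- the content machine with boot stages is OK -/
theorem machB_ok (hp : p ≠ 2) (hP : P.OK act out) (h0 : H0 act out P) :
    (machB (K := K) (G := G) (J := J) out).OK act (pubC P K) :=
  BootC515.machB_ok act out P K p hp hP (legal_iff_holds act out P K p)
    (mach_ok_holds act out P K p) h0

/-- legal contents of all stages -/
theorem legalB_iff (hp : p ≠ 2) (hP : P.OK act out) (s : SgB) (r : Rg Λ J → Γ → K) :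
    (machB (K := K) (G := G) (J := J) out).Legal act (pubC P K) s r ↔
      ∃ t ≤ P.L, ∃ v, r = encC act out P K s.base t v ∧ (s.new → v = fun _ => false) :=
  BootC515.legalB_iff act out P K p hp hP (legal_iff_holds act out P K p) s r

/-- sinks -/
theorem blockedB_fwd (hp : p ≠ 2) (hP : P.OK act out) (s : SgB) (r : Rg Λ J → Γ → K)
    (hr : (machB (K := K) (G := G) (J := J) out).Legal act (pubC P K) s r) :
    (¬ ∃ ρ : LbB G Λ J, (machB (K := K) (G := G) (J := J) out).src ρ = s ∧
        (machB (K := K) (G := G) (J := J) out).En act (pubC P K) ρ r) ↔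
      ∃ v, s = .old .b ∧ r = encC act out P K .b P.L v ∧
        P.outp act out true (P.outp act out false v) ≠ v :=
  BootC515.blockedB_fwd act out P K p hp hP (legal_iff_holds act out P K p)
    (blocked_holds act out P K p) s r hr

/-- sources -/
theorem blockedB_bwd (hp : p ≠ 2) (hP : P.OK act out) (s : SgB) (r : Rg Λ J → Γ → K)
    (hr : (machB (K := K) (G := G) (J := J) out).Legal act (pubC P K) s r) :
    (¬ ∃ ρ : LbB G Λ J, (machB (K := K) (G := G) (J := J) out).tgt ρ = s ∧
        (machB (K := K) (G := G) (J := J) out).Bk act (pubC P K) ρ r) ↔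
      (s = .e ∧ r = encC act out P K .d 0 fun _ => false) ∨
      ∃ v, s = .old .c ∧ r = encC act out P K .c P.L v ∧
        P.outp act out false (P.outp act out true v) ≠ v ∧ v ≠ fun _ => false :=
  BootC515.blockedB_bwd act out P K p hp hP (legal_iff_holds act out P K p)
    (mach_ok_holds act out P K p) (blocked_holds act out P K p) s r hr

/-- the start contents are legal -/
theorem start_legal (hP : P.OK act out) (r : Rg Λ J → Γ → K) :
    (machB (K := K) (G := G) (J := J) out).Legal act (pubC P K) .e
      (fun i => (ini (K := K) (G := G) i).evalC act (pubC P K) r) :=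
  BootC515.start_legal act out P hP (fun s r => legal_iff hP s r) r

end Crest.Agent.R289.C1435
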