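import Mathlib

/-!
Row 289, block C (helper827): the compiled machine in LABEL FORM (#5912 P6, #5940, #5919).

Content words `X` (all registers of a bank, word level), certificates `Z` (record and mirror
words), labels `R` (finite set of transition labels).  Every transition label `ρ` has a forward
guard `en ρ`, a forward update `up ρ`, a backward guard `bk ρ` and a backward update `dn ρ`.

* `cert x t` = certificate of depth `t` of the word `x` (`t ≤ L`), `push`, `pop`, `ent` = the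
  pointwise formulas; `Rec t x z` = the pointwise relations (`z = cert x t`);
* `St`, `En ρ`, `Bk ρ` = zero claims read off the full certificate.

`Conf` = configuration of the compiled machine: stage letter, clock, two banks.
`Legal` = the list of relations; `stepN`, `stepM` = the two step maps (each branch is a pointwise
formula).  Proved: `Legal` is closed, the maps are mutually inverse off their fixed points,
fixed points are the dead ends of the content machine and the start word.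
-/

set_option autoImplicit false
set_option linter.unusedSimpArgs false
set_option linter.unusedVariables false

namespace Crest.Agent.R289.Compile827

/-- labelled content machine with certificates -/
structure LM (X Z R : Type*) where
  /-- depth of a full certificate -/
  L : ℕ
  /-- start content word -/
  x0 : X
  /-- blank content word -/
  xz : X
  /-- blank certificate -/
  zz : Z
  /-- legal content words -/
  IsL : X → Prop
  en : R → X → Prop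
  bk : R → X → Prop
  up : R → X → X
  dn : R → X → X
  cert : X → ℕ → Z
  push : ℕ → X → Z → Z
  pop : ℕ → X → Z → Z
  ent : X → Z
  Rec : ℕ → X → Z → Prop
  St : X → Z → Prop
  En : R → X → Z → Prop
  Bk : R → X → Z → Prop
  isL0 : IsL x0
  bk0 : ∀ ρ, ¬ bk ρ x0
  fwd : ∀ ρ x, IsL x → en ρ x → IsL (up ρ x) ∧ bk ρ (up ρ x) ∧ dn ρ (up ρ x) = x
  bwd : ∀ ρ x, IsL x → bk ρ x → IsL (dn ρ x) ∧ en ρ (dn ρ x) ∧ up ρ (dn ρ x) = x
  en_uniq : ∀ ρ ρ' x, IsL x → en ρ x → en ρ' x → ρ = ρ'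
  bk_uniq : ∀ ρ ρ' x, IsL x → bk ρ x → bk ρ' x → ρ = ρ'
  push_cert : ∀ t x, t < L → push t x (cert x t) = cert x (t + 1)
  pop_cert : ∀ t x, t < L → pop t x (cert x (t + 1)) = cert x t
  ent_cert : ∀ x, ent x = cert x 0
  Rec_iff : ∀ t x z, t ≤ L → (Rec t x z ↔ z = cert x t)
  St_iff : ∀ x, St x (cert x L) ↔ IsL x
  En_iff : ∀ ρ x, IsL x → (En ρ x (cert x L) ↔ en ρ x)
  Bk_iff : ∀ ρ x, IsL x → (Bk ρ x (cert x L) ↔ bk ρ x)

/-- stage letters of the compiled machine -/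
inductive Letter (R : Type*)
  /-- the start prelude -/
  | boot : Letter R
  /-- a content state in bank 1, nothing in bank 2 -/
  | rest : Letter R
  /-- bank 1 full, bank 2 = successor with a growing certificate -/
  | fw (ρ : R) : Letter R
  /-- bank 2 full, bank 1 = predecessor with a shrinking certificate -/
  | bw (ρ : R) : Letter R

/-- configurations -/
@[ext] structure Conf (X Z R : Type*) where
  l : Letter R
  t : ℕ
  x1 : X
  z1 : Z
  x2 : X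
  z2 : Z

namespace LM

variable {X Z R : Type*} (m : LM X Z R)

/-- the relations of the compiled machine -/
def Legal (c : Conf X Z R) : Prop :=
  match c.l with
  | .boot => c.t ≤ m.L ∧ c.x1 = m.xz ∧ c.z1 = m.zz ∧ c.x2 = m.x0 ∧ m.Rec c.t c.x2 c.z2
  | .rest => c.t = 0 ∧ m.Rec m.L c.x1 c.z1 ∧ m.St c.x1 c.z1 ∧ c.x2 = m.xz ∧ c.z2 = m.zz
  | .fw ρ => c.t ≤ m.L ∧ m.Rec m.L c.x1 c.z1 ∧ m.St c.x1 c.z1 ∧ m.En ρ c.x1 c.z1 ∧
      c.x2 = m.up ρ c.x1 ∧ m.Rec c.t c.x2 c.z2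
  | .bw ρ => c.t ≤ m.L ∧ m.Rec m.L c.x2 c.z2 ∧ m.St c.x2 c.z2 ∧ m.Bk ρ c.x2 c.z2 ∧
      c.x1 = m.dn ρ c.x2 ∧ m.Rec c.t c.x1 c.z1

/-- states of the compiled machine -/
inductive CSt
  | boot (t : ℕ) (ht : t ≤ m.L) : CSt
  | rest (x : X) (hx : m.IsL x) : CSt
  | fw (ρ : R) (x : X) (hx : m.IsL x) (h : m.en ρ x) (t : ℕ) (ht : t ≤ m.L) : CSt
  | bw (ρ : R) (x : X) (hx : m.IsL x) (h : m.bk ρ x) (t : ℕ) (ht : t ≤ m.L) : CSt

/-- configuration of a state -/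
def conf : m.CSt → Conf X Z R
  | .boot t _ => ⟨.boot, t, m.xz, m.zz, m.x0, m.cert m.x0 t⟩
  | .rest x _ => ⟨.rest, 0, x, m.cert x m.L, m.xz, m.zz⟩
  | .fw ρ x _ _ t _ => ⟨.fw ρ, t, x, m.cert x m.L, m.up ρ x, m.cert (m.up ρ x) t⟩
  | .bw ρ x _ _ t _ => ⟨.bw ρ, t, m.dn ρ x, m.cert (m.dn ρ x) t, x, m.cert x m.L⟩

theorem legal_conf (a : m.CSt) : m.Legal (m.conf a) := by
  cases a with
  | boot t ht =>
    exact ⟨ht, rfl, rfl, rfl, (m.Rec_iff _ _ _ ht).2 rfl⟩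
  | rest x hx =>
    exact ⟨rfl, (m.Rec_iff _ _ _ le_rfl).2 rfl, (m.St_iff x).2 hx, rfl, rfl⟩
  | fw ρ x hx h t ht =>
    exact ⟨ht, (m.Rec_iff _ _ _ le_rfl).2 rfl, (m.St_iff x).2 hx, (m.En_iff ρ x hx).2 h, rfl,
      (m.Rec_iff _ _ _ ht).2 rfl⟩
  | bw ρ x hx h t ht =>
    exact ⟨ht, (m.Rec_iff _ _ _ le_rfl).2 rfl, (m.St_iff x).2 hx, (m.Bk_iff ρ x hx).2 h, rfl,
      (m.Rec_iff _ _ _ ht).2 rfl⟩

/-- **legality**: the relations hold exactly for the configurations of the states -/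
theorem legal_iff (c : Conf X Z R) : m.Legal c ↔ ∃ a : m.CSt, c = m.conf a := by
  constructor
  · intro hc
    obtain ⟨l, t, x1, z1, x2, z2⟩ := c
    cases l with
    | boot =>
      obtain ⟨ht, h1, h2, h3, h4⟩ := hc
      simp only at ht h1 h2 h3 h4
      subst h1 h2 h3
      rw [m.Rec_iff _ _ _ ht] at h4
      subst h4
      exact ⟨.boot t ht, rfl⟩
    | rest =>
      obtain ⟨ht, h1, h2, h3, h4⟩ := hc
      simp only at ht h1 h2 h3 h4
      rw [m.Rec_iff _ _ _ le_rfl] at h1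
      subst ht h1 h3 h4
      exact ⟨.rest x1 ((m.St_iff x1).1 h2), rfl⟩
    | fw ρ =>
      obtain ⟨ht, h1, h2, h3, h4, h5⟩ := hc
      simp only at ht h1 h2 h3 h4 h5
      rw [m.Rec_iff _ _ _ le_rfl] at h1
      rw [m.Rec_iff _ _ _ ht] at h5
      subst h1 h4 h5
      have hx := (m.St_iff x1).1 h2
      exact ⟨.fw ρ x1 hx ((m.En_iff ρ x1 hx).1 h3) t ht, rfl⟩
    | bw ρ =>
      obtain ⟨ht, h1, h2, h3, h4, h5⟩ := hc
      simp only at ht h1 h2 h3 h4 h5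
      rw [m.Rec_iff _ _ _ le_rfl] at h1
      rw [m.Rec_iff _ _ _ ht] at h5
      subst h1 h4 h5
      have hx := (m.St_iff x2).1 h2
      exact ⟨.bw ρ x2 hx ((m.Bk_iff ρ x2 hx).1 h3) t ht, rfl⟩
  · rintro ⟨a, rfl⟩
    exact m.legal_conf a

open Classical in
/-- forward step map; every branch is a pointwise formula -/
noncomputable def stepN (c : Conf X Z R) : Conf X Z R :=
  match c.l with
  | .boot => if c.t < m.L then ⟨.boot, c.t + 1, c.x1, c.z1, c.x2, m.push c.t c.x2 c.z2⟩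
      else ⟨.rest, 0, c.x2, c.z2, m.xz, m.zz⟩
  | .rest => if h : ∃ ρ, m.En ρ c.x1 c.z1 then
      ⟨.fw h.choose, 0, c.x1, c.z1, m.up h.choose c.x1, m.ent (m.up h.choose c.x1)⟩ else c
  | .fw ρ => if c.t < m.L then ⟨.fw ρ, c.t + 1, c.x1, c.z1, c.x2, m.push c.t c.x2 c.z2⟩
      else ⟨.bw ρ, c.t, c.x1, c.z1, c.x2, c.z2⟩
  | .bw ρ => if 0 < c.t then ⟨.bw ρ, c.t - 1, c.x1, m.pop (c.t - 1) c.x1 c.z1, c.x2, c.z2⟩
      else ⟨.rest, 0, c.x2, c.z2, m.xz, m.zz⟩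

open Classical in
/-- backward step map; every branch is a pointwise formula -/
noncomputable def stepM (c : Conf X Z R) : Conf X Z R :=
  match c.l with
  | .boot => if 0 < c.t then ⟨.boot, c.t - 1, c.x1, c.z1, c.x2, m.pop (c.t - 1) c.x2 c.z2⟩ else c
  | .rest => if h : ∃ ρ, m.Bk ρ c.x1 c.z1 then
      ⟨.bw h.choose, 0, m.dn h.choose c.x1, m.ent (m.dn h.choose c.x1), c.x1, c.z1⟩
      else if c.x1 = m.x0 then ⟨.boot, m.L, m.xz, m.zz, c.x1, c.z1⟩ else c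
  | .fw ρ => if 0 < c.t then ⟨.fw ρ, c.t - 1, c.x1, c.z1, c.x2, m.pop (c.t - 1) c.x2 c.z2⟩
      else ⟨.rest, 0, c.x1, c.z1, m.xz, m.zz⟩
  | .bw ρ => if c.t < m.L then ⟨.bw ρ, c.t + 1, c.x1, m.push c.t c.x1 c.z1, c.x2, c.z2⟩
      else ⟨.fw ρ, c.t, c.x1, c.z1, c.x2, c.z2⟩

/-- start configuration -/
def c0 : Conf X Z R := ⟨.boot, 0, m.xz, m.zz, m.x0, m.ent m.x0⟩

theorem c0_eq : m.c0 = m.conf (.boot 0 (Nat.zero_le _)) := by
  simp [c0, conf, m.ent_cert]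

theorem legal_c0 : m.Legal m.c0 := by rw [c0_eq]; exact m.legal_conf _

/-- end of an edge -/
theorem stepN_boot_lt {t : ℕ} (ht : t < m.L) :
    m.stepN (m.conf (.boot t ht.le)) = m.conf (.boot (t + 1) ht) := by
  simp [stepN, conf, ht, m.push_cert t _ ht]

theorem stepN_boot_L : m.stepN (m.conf (.boot m.L le_rfl)) = m.conf (.rest m.x0 m.isL0) := by
  simp [stepN, conf]

theorem stepN_rest {x : X} (hx : m.IsL x) {ρ : R} (h : m.en ρ x) :
    m.stepN (m.conf (.rest x hx)) = m.conf (.fw ρ x hx h 0 (Nat.zero_le _)) := by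
  have hex : ∃ ρ, m.En ρ x (m.cert x m.L) := ⟨ρ, (m.En_iff ρ x hx).2 h⟩
  have hc : hex.choose = ρ :=
    m.en_uniq _ _ x hx ((m.En_iff _ x hx).1 hex.choose_spec) h
  simp [stepN, conf, hex, hc, m.ent_cert]

theorem stepN_rest_none {x : X} (hx : m.IsL x) (h : ∀ ρ, ¬ m.en ρ x) :
    m.stepN (m.conf (.rest x hx)) = m.conf (.rest x hx) := by
  have hex : ¬ ∃ ρ, m.En ρ x (m.cert x m.L) := by
    rintro ⟨ρ, hρ⟩; exact h ρ ((m.En_iff ρ x hx).1 hρ)
  simp [stepN, conf, hex]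

theorem stepN_fw_lt {ρ : R} {x : X} (hx : m.IsL x) (h : m.en ρ x) {t : ℕ} (ht : t < m.L) :
    m.stepN (m.conf (.fw ρ x hx h t ht.le)) = m.conf (.fw ρ x hx h (t + 1) ht) := by
  simp [stepN, conf, ht, m.push_cert t _ ht]

theorem stepN_fw_L {ρ : R} {x : X} (hx : m.IsL x) (h : m.en ρ x) :
    m.stepN (m.conf (.fw ρ x hx h m.L le_rfl)) =
      m.conf (.bw ρ (m.up ρ x) (m.fwd ρ x hx h).1 (m.fwd ρ x hx h).2.1 m.L le_rfl) := by
  have h3 := (m.fwd ρ x hx h).2.2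
  simp [stepN, conf, h3]

theorem stepN_bw_pos {ρ : R} {x : X} (hx : m.IsL x) (h : m.bk ρ x) {t : ℕ} (ht : t + 1 ≤ m.L) :
    m.stepN (m.conf (.bw ρ x hx h (t + 1) ht)) = m.conf (.bw ρ x hx h t (by omega)) := by
  simp [stepN, conf, m.pop_cert t _ ht]

theorem stepN_bw_zero {ρ : R} {x : X} (hx : m.IsL x) (h : m.bk ρ x) :
    m.stepN (m.conf (.bw ρ x hx h 0 (Nat.zero_le _))) = m.conf (.rest x hx) := by
  simp [stepN, conf]

theorem stepM_boot_pos {t : ℕ} (ht : t + 1 ≤ m.L) :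
    m.stepM (m.conf (.boot (t + 1) ht)) = m.conf (.boot t (by omega)) := by
  simp [stepM, conf, m.pop_cert t _ ht]

theorem stepM_boot_zero :
    m.stepM (m.conf (.boot 0 (Nat.zero_le _))) = m.conf (.boot 0 (Nat.zero_le _)) := by
  simp [stepM, conf]

theorem stepM_rest {x : X} (hx : m.IsL x) {ρ : R} (h : m.bk ρ x) :
    m.stepM (m.conf (.rest x hx)) = m.conf (.bw ρ x hx h 0 (Nat.zero_le _)) := by
  have hex : ∃ ρ, m.Bk ρ x (m.cert x m.L) := ⟨ρ, (m.Bk_iff ρ x hx).2 h⟩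
  have hc : hex.choose = ρ :=
    m.bk_uniq _ _ x hx ((m.Bk_iff _ x hx).1 hex.choose_spec) h
  simp [stepM, conf, hex, hc, m.ent_cert]

theorem stepM_rest_x0 :
    m.stepM (m.conf (.rest m.x0 m.isL0)) = m.conf (.boot m.L le_rfl) := by
  have hex : ¬ ∃ ρ, m.Bk ρ m.x0 (m.cert m.x0 m.L) := by
    rintro ⟨ρ, hρ⟩; exact m.bk0 ρ ((m.Bk_iff ρ _ m.isL0).1 hρ)
  simp [stepM, conf, hex]

theorem stepM_rest_none {x : X} (hx : m.IsL x) (h : ∀ ρ, ¬ m.bk ρ x) (h0 : x ≠ m.x0) :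
    m.stepM (m.conf (.rest x hx)) = m.conf (.rest x hx) := by
  have hex : ¬ ∃ ρ, m.Bk ρ x (m.cert x m.L) := by
    rintro ⟨ρ, hρ⟩; exact h ρ ((m.Bk_iff ρ x hx).1 hρ)
  simp [stepM, conf, hex, h0]

theorem stepM_fw_pos {ρ : R} {x : X} (hx : m.IsL x) (h : m.en ρ x) {t : ℕ} (ht : t + 1 ≤ m.L) :
    m.stepM (m.conf (.fw ρ x hx h (t + 1) ht)) = m.conf (.fw ρ x hx h t (by omega)) := by
  simp [stepM, conf, m.pop_cert t _ ht]

theorem stepM_fw_zero {ρ : R} {x : X} (hx : m.IsL x) (h : m.en ρ x) :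
    m.stepM (m.conf (.fw ρ x hx h 0 (Nat.zero_le _))) = m.conf (.rest x hx) := by
  simp [stepM, conf]

theorem stepM_bw_lt {ρ : R} {x : X} (hx : m.IsL x) (h : m.bk ρ x) {t : ℕ} (ht : t < m.L) :
    m.stepM (m.conf (.bw ρ x hx h t ht.le)) = m.conf (.bw ρ x hx h (t + 1) ht) := by
  simp [stepM, conf, ht, m.push_cert t _ ht]

theorem stepM_bw_L {ρ : R} {x : X} (hx : m.IsL x) (h : m.bk ρ x) :
    m.stepM (m.conf (.bw ρ x hx h m.L le_rfl)) =
      m.conf (.fw ρ (m.dn ρ x) (m.bwd ρ x hx h).1 (m.bwd ρ x hx h).2.1 m.L le_rfl) := by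
  have h3 := (m.bwd ρ x hx h).2.2
  simp [stepM, conf, h3]

/-- analysis of one forward step -/
theorem stepN_cases (a : m.CSt) :
    (∃ b : m.CSt, m.stepN (m.conf a) = m.conf b ∧ m.stepM (m.conf b) = m.conf a ∧
      m.conf b ≠ m.conf a) ∨
    (∃ x hx, a = .rest x hx ∧ (∀ ρ, ¬ m.en ρ x) ∧ m.stepN (m.conf a) = m.conf a) := by
  cases a with
  | boot t ht =>
    left
    rcases lt_or_eq_of_le ht with h | h
    · refine ⟨.boot (t + 1) h, m.stepN_boot_lt h, m.stepM_boot_pos h, ?_⟩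
      simp [conf]
    · subst h
      refine ⟨.rest m.x0 m.isL0, m.stepN_boot_L, m.stepM_rest_x0, ?_⟩
      simp [conf]
  | rest x hx =>
    by_cases hex : ∃ ρ, m.en ρ x
    · left
      obtain ⟨ρ, h⟩ := hex
      refine ⟨.fw ρ x hx h 0 (Nat.zero_le _), m.stepN_rest hx h, m.stepM_fw_zero hx h, ?_⟩
      simp [conf]
    · right
      push Not at hex
      exact ⟨x, hx, rfl, hex, m.stepN_rest_none hx hex⟩
  | fw ρ x hx h t ht =>
    left
    rcases lt_or_eq_of_le ht with h' | h'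
    · refine ⟨.fw ρ x hx h (t + 1) h', m.stepN_fw_lt hx h h', m.stepM_fw_pos hx h h', ?_⟩
      simp [conf]
    · subst h'
      have h3 := (m.fwd ρ x hx h).2.2
      refine ⟨.bw ρ (m.up ρ x) (m.fwd ρ x hx h).1 (m.fwd ρ x hx h).2.1 m.L le_rfl,
        m.stepN_fw_L hx h, ?_, ?_⟩
      · rw [stepM_bw_L]
        simp [conf, h3]
      · simp [conf]
  | bw ρ x hx h t ht =>
    left
    cases t with
    | zero =>
      refine ⟨.rest x hx, m.stepN_bw_zero hx h, m.stepM_rest hx h, ?_⟩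
      simp [conf]
    | succ t =>
      refine ⟨.bw ρ x hx h t (by omega), m.stepN_bw_pos hx h ht,
        m.stepM_bw_lt hx h (by omega), ?_⟩
      simp [conf]

/-- analysis of one backward step -/
theorem stepM_cases (a : m.CSt) :
    (∃ b : m.CSt, m.stepM (m.conf a) = m.conf b ∧ m.stepN (m.conf b) = m.conf a ∧
      m.conf b ≠ m.conf a) ∨
    (∃ x hx, a = .rest x hx ∧ (∀ ρ, ¬ m.bk ρ x) ∧ x ≠ m.x0 ∧ m.stepM (m.conf a) = m.conf a) ∨
    (m.conf a = m.c0 ∧ m.stepM (m.conf a) = m.conf a) := by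
  cases a with
  | boot t ht =>
    cases t with
    | zero => right; right; exact ⟨m.c0_eq.symm, m.stepM_boot_zero⟩
    | succ t =>
      left
      refine ⟨.boot t (by omega), m.stepM_boot_pos ht, m.stepN_boot_lt (by omega), ?_⟩
      simp [conf]
  | rest x hx =>
    by_cases hex : ∃ ρ, m.bk ρ x
    · left
      obtain ⟨ρ, h⟩ := hex
      refine ⟨.bw ρ x hx h 0 (Nat.zero_le _), m.stepM_rest hx h, m.stepN_bw_zero hx h, ?_⟩
      simp [conf]
    · push Not at hex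
      by_cases h0 : x = m.x0
      · left
        subst h0
        refine ⟨.boot m.L le_rfl, m.stepM_rest_x0, m.stepN_boot_L, ?_⟩
        simp [conf]
      · right; left
        exact ⟨x, hx, rfl, hex, h0, m.stepM_rest_none hx hex h0⟩
  | fw ρ x hx h t ht =>
    left
    cases t with
    | zero =>
      refine ⟨.rest x hx, m.stepM_fw_zero hx h, m.stepN_rest hx h, ?_⟩
      simp [conf]
    | succ t =>
      refine ⟨.fw ρ x hx h t (by omega), m.stepM_fw_pos hx h ht,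
        m.stepN_fw_lt hx h (by omega), ?_⟩
      simp [conf]
  | bw ρ x hx h t ht =>
    left
    rcases lt_or_eq_of_le ht with h' | h'
    · refine ⟨.bw ρ x hx h (t + 1) h', m.stepM_bw_lt hx h h', m.stepN_bw_pos hx h h', ?_⟩
      simp [conf]
    · subst h'
      have h3 := (m.bwd ρ x hx h).2.2
      refine ⟨.fw ρ (m.dn ρ x) (m.bwd ρ x hx h).1 (m.bwd ρ x hx h).2.1 m.L le_rfl,
        m.stepM_bw_L hx h, ?_, ?_⟩
      · rw [stepN_fw_L]
        simp [conf, h3]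
      · simp [conf]

theorem legal_stepN {c : Conf X Z R} (hc : m.Legal c) : m.Legal (m.stepN c) := by
  obtain ⟨a, rfl⟩ := (m.legal_iff c).1 hc
  rcases m.stepN_cases a with ⟨b, h, -, -⟩ | ⟨x, hx, -, -, h⟩
  · rw [h]; exact m.legal_conf b
  · rw [h]; exact m.legal_conf a

theorem legal_stepM {c : Conf X Z R} (hc : m.Legal c) : m.Legal (m.stepM c) := by
  obtain ⟨a, rfl⟩ := (m.legal_iff c).1 hc
  rcases m.stepM_cases a with ⟨b, h, -, -⟩ | ⟨x, hx, -, -, -, h⟩ | ⟨-, h⟩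
  · rw [h]; exact m.legal_conf b
  · rw [h]; exact m.legal_conf a
  · rw [h]; exact m.legal_conf a

theorem stepM_stepN {c : Conf X Z R} (hc : m.Legal c) (h : m.stepN c ≠ c) :
    m.stepM (m.stepN c) = c := by
  obtain ⟨a, rfl⟩ := (m.legal_iff c).1 hc
  rcases m.stepN_cases a with ⟨b, h1, h2, -⟩ | ⟨x, hx, -, -, h1⟩
  · rw [h1]; exact h2
  · exact absurd h1 h

theorem stepN_stepM {c : Conf X Z R} (hc : m.Legal c) (h : m.stepM c ≠ c) :
    m.stepN (m.stepM c) = c := by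
  obtain ⟨a, rfl⟩ := (m.legal_iff c).1 hc
  rcases m.stepM_cases a with ⟨b, h1, h2, -⟩ | ⟨x, hx, -, -, -, h1⟩ | ⟨-, h1⟩
  · rw [h1]; exact h2
  · exact absurd h1 h
  · exact absurd h1 h

theorem stepM_c0 : m.stepM m.c0 = m.c0 := by
  rw [c0_eq]; exact m.stepM_boot_zero

theorem stepN_c0 : m.stepN m.c0 ≠ m.c0 := by
  rw [c0_eq]
  intro h
  rcases m.stepN_cases (.boot 0 (Nat.zero_le _)) with ⟨b, h1, -, h3⟩ | ⟨x, hx, h1, -, -⟩
  · exact h3 (h1.symm.trans h)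
  · exact absurd h1 (by simp)

/-- **forward dead ends** -/
theorem stepN_eq_self {c : Conf X Z R} (hc : m.Legal c) :
    m.stepN c = c ↔ ∃ x, ∃ hx : m.IsL x, c = m.conf (.rest x hx) ∧ ∀ ρ, ¬ m.en ρ x := by
  obtain ⟨a, rfl⟩ := (m.legal_iff c).1 hc
  constructor
  · intro h
    rcases m.stepN_cases a with ⟨b, h1, -, h3⟩ | ⟨x, hx, h1, h2, -⟩
    · exact absurd (h1.symm.trans h) h3
    · exact ⟨x, hx, by rw [h1], h2⟩
  · rintro ⟨x, hx, h, h2⟩
    rw [h]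
    exact m.stepN_rest_none hx h2

/-- **backward dead ends** -/
theorem stepM_eq_self {c : Conf X Z R} (hc : m.Legal c) :
    m.stepM c = c ↔ c = m.c0 ∨
      ∃ x, ∃ hx : m.IsL x, c = m.conf (.rest x hx) ∧ (∀ ρ, ¬ m.bk ρ x) ∧ x ≠ m.x0 := by
  obtain ⟨a, rfl⟩ := (m.legal_iff c).1 hc
  constructor
  · intro h
    rcases m.stepM_cases a with ⟨b, h1, -, h3⟩ | ⟨x, hx, h1, h2, h0, -⟩ | ⟨h1, -⟩
    · exact absurd (h1.symm.trans h) h3
    · exact Or.inr ⟨x, hx, by rw [h1], h2, h0⟩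
    · exact Or.inl h1
  · rintro (h | ⟨x, hx, h, h2, h0⟩)
    · rw [h]; exact m.stepM_c0
    · rw [h]
      exact m.stepM_rest_none hx h2 h0

/-- **robust legality** (for 508's gap hypothesis): if weaker "at most a small share of the units
fails" versions of the relations imply the exact ones one after the other, they imply `Legal`. -/
theorem legal_of_gap (c : Conf X Z R)
    (RecG : ℕ → X → Z → Prop) (StG : X → Z → Prop) (EnG BkG : R → X → Z → Prop)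
    (EqX : X → X → Prop) (EqZ : Z → Z → Prop)
    (hRec : ∀ t x z, t ≤ m.L → RecG t x z → m.Rec t x z)
    (hSt : ∀ x z, m.Rec m.L x z → StG x z → m.St x z)
    (hEn : ∀ ρ x z, m.Rec m.L x z → EnG ρ x z → m.En ρ x z)
    (hBk : ∀ ρ x z, m.Rec m.L x z → BkG ρ x z → m.Bk ρ x z)
    (hX : ∀ x y, EqX x y → x = y) (hZ : ∀ z w, EqZ z w → z = w)
    (h : match c.l with
      | .boot => c.t ≤ m.L ∧ EqX c.x1 m.xz ∧ EqZ c.z1 m.zz ∧ EqX c.x2 m.x0 ∧ RecG c.t c.x2 c.z2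
      | .rest => c.t = 0 ∧ RecG m.L c.x1 c.z1 ∧ StG c.x1 c.z1 ∧ EqX c.x2 m.xz ∧ EqZ c.z2 m.zz
      | .fw ρ => c.t ≤ m.L ∧ RecG m.L c.x1 c.z1 ∧ StG c.x1 c.z1 ∧ EnG ρ c.x1 c.z1 ∧
          EqX c.x2 (m.up ρ c.x1) ∧ RecG c.t c.x2 c.z2
      | .bw ρ => c.t ≤ m.L ∧ RecG m.L c.x2 c.z2 ∧ StG c.x2 c.z2 ∧ BkG ρ c.x2 c.z2 ∧
          EqX c.x1 (m.dn ρ c.x2) ∧ RecG c.t c.x1 c.z1) :
    m.Legal c := by
  obtain ⟨l, t, x1, z1, x2, z2⟩ := c
  cases l with
  | boot =>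
    obtain ⟨h1, h2, h3, h4, h5⟩ := h
    exact ⟨h1, hX _ _ h2, hZ _ _ h3, hX _ _ h4, hRec _ _ _ h1 h5⟩
  | rest =>
    obtain ⟨h1, h2, h3, h4, h5⟩ := h
    have h2' := hRec _ _ _ le_rfl h2
    exact ⟨h1, h2', hSt _ _ h2' h3, hX _ _ h4, hZ _ _ h5⟩
  | fw ρ =>
    obtain ⟨h1, h2, h3, h4, h5, h6⟩ := h
    have h2' := hRec _ _ _ le_rfl h2
    exact ⟨h1, h2', hSt _ _ h2' h3, hEn _ _ _ h2' h4, hX _ _ h5, hRec _ _ _ h1 h6⟩
  | bw ρ =>
    obtain ⟨h1, h2, h3, h4, h5, h6⟩ := h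
    have h2' := hRec _ _ _ le_rfl h2
    exact ⟨h1, h2', hSt _ _ h2' h3, hBk _ _ _ h2' h4, hX _ _ h5, hRec _ _ _ h1 h6⟩

end LM

end Crest.Agent.R289.Compile827
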