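import Mathlib

/-!
# Row 289, block C, leaf T2: record and T-certificate, exact algebra (post #5756 (4), #5919)

Words of `C_P ⊗ C_T` are functions `n → A` (`n` = points of the T-object, `A` = any `K`-module of
P-side words or bundles of them).  T-side operators are matrices over `K` (`act`), P-side operators
are `K`-linear maps `A →ₗ[K] A` applied pointwise; they commute automatically (`act_map`).
-/

set_option autoImplicit false
set_option linter.unusedSectionVars false

namespace Crest.Agent.R289.Level492

open Finset Matrix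

variable {K : Type*} [CommRing K] {A B : Type*} [AddCommGroup A] [Module K A]
  [AddCommGroup B] [Module K B]
variable {l m n : Type*} [Fintype l] [Fintype m] [Fintype n]

/-- T-side operator with kernel `k` -/
def act (k : Matrix m n K) (X : n → A) : m → A := fun i => ∑ j, k i j • X j

/-- pure tensor `w ⊗ D` -/
def ten (D : n → K) (w : A) : n → A := fun j => D j • w

theorem act_add (k : Matrix m n K) (X Y : n → A) : act k (X + Y) = act k X + act k Y := by
  funext i; simp [act, smul_add, sum_add_distrib]

theorem act_sub (k : Matrix m n K) (X Y : n → A) : act k (X - Y) = act k X - act k Y := by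
  funext i; simp [act, smul_sub, sum_sub_distrib]

theorem act_neg (k : Matrix m n K) (X : n → A) : act k (-X) = -act k X := by
  funext i; simp [act]

theorem act_zero (k : Matrix m n K) : act k (0 : n → A) = 0 := by
  funext i; simp [act]

theorem act_smul (k : Matrix m n K) (c : K) (X : n → A) : act k (c • X) = c • act k X := by
  funext i
  simp only [act, Pi.smul_apply, smul_sum]
  exact sum_congr rfl fun j _ => smul_comm _ _ _

theorem act_sum {ι : Type*} (s : Finset ι) (k : Matrix m n K) (X : ι → n → A) :
    act k (∑ a ∈ s, X a) = ∑ a ∈ s, act k (X a) := by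
  classical
  induction s using Finset.induction_on with
  | empty => simp [act_zero]
  | insert a s ha ih => rw [sum_insert ha, sum_insert ha, act_add, ih]

/-- P-side maps commute with T-side operators -/
theorem act_map (k : Matrix m n K) (f : A →ₗ[K] B) (X : n → A) :
    act k (fun j => f (X j)) = fun i => f (act k X i) := by
  funext i; simp [act, map_sum]

theorem act_mul (k : Matrix l m K) (k' : Matrix m n K) (X : n → A) :
    act (k * k') X = act k (act k' X) := by
  funext i
  simp only [act, Matrix.mul_apply, sum_smul, smul_sum, mul_smul]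
  exact sum_comm

theorem act_one [DecidableEq n] (X : n → A) : act (1 : Matrix n n K) X = X := by
  funext i
  simp only [act, Matrix.one_apply, ite_smul, one_smul, zero_smul]
  simp

theorem act_ten (k : Matrix m n K) (D : n → K) (w : A) : act k (ten D w) = ten (k *ᵥ D) w := by
  funext i
  simp only [act, ten, Matrix.mulVec, dotProduct, sum_smul, mul_smul]

theorem map_ten (f : A →ₗ[K] B) (D : n → K) (w : A) :
    (fun j => f (ten D w j)) = ten D (f w) := by
  funext j; simp [ten]

theorem ten_add (D D' : n → K) (w : A) : ten (D + D') w = ten D w + ten D' w := by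
  funext j; simp [ten, add_smul]

theorem ten_sub (D D' : n → K) (w : A) : ten (D - D') w = ten D w - ten D' w := by
  funext j; simp [ten, sub_smul]

theorem ten_zero (w : A) : ten (0 : n → K) w = 0 := by
  funext j; simp [ten]

/-- uniqueness and existence of certificates: if `B` is invertible, the pointwise relation
`act a Q + act B Z = 0` has exactly one solution `Z`, namely `act (-(B⁻¹ * a)) Q` -/
theorem cert_unique [DecidableEq m] (a : Matrix m n K) (Bm Bi : Matrix m m K)
    (h1 : Bi * Bm = 1) (h2 : Bm * Bi = 1) (Q : n → A) (Z : m → A) :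
    act a Q + act Bm Z = 0 ↔ Z = act (-(Bi * a)) Q := by
  constructor
  · intro h
    have h' : act Bm Z = -act a Q := by
      rw [eq_neg_iff_add_eq_zero, add_comm]; exact h
    have : act Bi (act Bm Z) = act Bi (-act a Q) := by rw [h']
    rw [← act_mul, h1, act_one, act_neg, ← act_mul] at this
    rw [this]
    funext i
    simp [act]
  · rintro rfl
    rw [← act_mul, Matrix.mul_neg, ← Matrix.mul_assoc, h2, Matrix.one_mul]
    funext i
    simp [act]

/-! ### the record -/

section record

variable (Λ : A →ₗ[K] A) (U N1 N2 : Matrix n n K) (D : ℕ → n → K) (w : A)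

/-- `D_(t-1)`, with `D_(-1) = 0` -/
def Dm (t : ℕ) : n → K := match t with
  | 0 => 0
  | t + 1 => D t

/-- second order chain `y_0 = w`, `y_1 = Λ w`, `y_(j+2) = Λ y_(j+1) + y_j` -/
def chain : ℕ → A
  | 0 => w
  | 1 => Λ w
  | j + 2 => Λ (chain (j + 1)) + chain j

/-- push of the record -/
def push (t : ℕ) (X Xm : n → A) : n → A := fun j => Λ (X j) + Xm j + ten (D (t + 1)) w j

/-- `Lc = U - Λ N1 - N2` -/
def Lc (X : n → A) : n → A := fun j => act U X j - Λ (act N1 X j) - act N2 X j

/-- residual word of the record with clock value `t` -/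
def Q (E : n → K) (X : n → A) : n → A := Lc Λ U N1 N2 X - ten (U *ᵥ E) w

/-- the public words `kap_t`, `kap'_t` -/
def kap (t : ℕ) : n → K := U *ᵥ D t - N1 *ᵥ D (t + 1)
def kap' (t : ℕ) : n → K := U *ᵥ Dm D t - N2 *ᵥ D (t + 1)

theorem Lc_add (X Y : n → A) : Lc Λ U N1 N2 (X + Y) = Lc Λ U N1 N2 X + Lc Λ U N1 N2 Y := by
  funext j
  simp only [Lc, act_add, Pi.add_apply, map_add]
  abel

theorem Lc_map (X : n → A) :
    Lc Λ U N1 N2 (fun j => Λ (X j)) = fun j => Λ (Lc Λ U N1 N2 X j) := by
  funext j
  simp only [Lc, act_map, map_sub]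

theorem Lc_ten (E : n → K) (v : A) :
    Lc Λ U N1 N2 (ten E v) = ten (U *ᵥ E) v - ten (N1 *ᵥ E) (Λ v) - ten (N2 *ᵥ E) v := by
  funext j
  simp only [Lc, act_ten, Pi.sub_apply]
  simp [ten]

theorem Q_push (t : ℕ) (X Xm : n → A) :
    Q Λ U N1 N2 w (D (t + 1)) (push Λ D w t X Xm) =
      (fun j => Λ (Q Λ U N1 N2 w (D t) X j)) + Q Λ U N1 N2 w (Dm D t) Xm
        + ten (kap U N1 D t) (Λ w) + ten (kap' U N2 D t) w := by
  have hp : push Λ D w t X Xm = (fun j => Λ (X j)) + Xm + ten (D (t + 1)) w := by
    funext j; simp [push]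
  rw [Q, hp, Lc_add, Lc_add, Lc_map, Lc_ten]
  funext j
  simp only [Q, kap, kap', ten_sub, Pi.add_apply, Pi.sub_apply, map_sub]
  simp only [ten, map_smul]
  abel

/-- update of the certificate `Z = act Mir Q` -/
theorem Z_push (Mir : Matrix m n K) (t : ℕ) (X Xm : n → A) :
    act Mir (Q Λ U N1 N2 w (D (t + 1)) (push Λ D w t X Xm)) =
      (fun i => Λ (act Mir (Q Λ U N1 N2 w (D t) X) i)) + act Mir (Q Λ U N1 N2 w (Dm D t) Xm)
        + ten (Mir *ᵥ kap U N1 D t) (Λ w) + ten (Mir *ᵥ kap' U N2 D t) w := by
  rw [Q_push, act_add, act_add, act_add, act_map, act_ten, act_ten]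

/-- explicit record -/
def recX (t : ℕ) : n → A := ∑ i ∈ range (t + 1), ten (D i) (chain Λ w (t - i))

/-- `recX (t-1)`, with value `0` at `t = 0` -/
def recXm (t : ℕ) : n → A := match t with
  | 0 => 0
  | t + 1 => recX Λ D w t

theorem recX_zero : recX Λ D w 0 = ten (D 0) w := by
  simp [recX, chain]

theorem recX_succ (t : ℕ) :
    recX Λ D w (t + 1) = push Λ D w t (recX Λ D w t) (recXm Λ D w t) := by
  have key : recX Λ D w (t + 1)
      = (fun j => Λ (recX Λ D w t j)) + recXm Λ D w t + ten (D (t + 1)) w := by
    cases t with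
    | zero =>
      funext j
      simp [recX, recXm, chain, sum_range_succ, ten]
    | succ t =>
      have h1 : recX Λ D w (t + 1 + 1) = (∑ i ∈ range (t + 1), ten (D i) (chain Λ w (t + 2 - i)))
          + ten (D (t + 1)) (Λ w) + ten (D (t + 2)) w := by
        rw [recX, sum_range_succ, sum_range_succ]
        congr 1
        · congr 1
          · rw [show t + 1 + 1 - (t + 1) = 1 from by omega]; rfl
        · rw [show t + 1 + 1 - (t + 2) = 0 from by omega]; rfl
      have h2 : (fun j => Λ (recX Λ D w (t + 1) j))
          = (∑ i ∈ range (t + 1), ten (D i) (Λ (chain Λ w (t + 1 - i)))) + ten (D (t + 1)) (Λ w) := by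
        have : recX Λ D w (t + 1)
            = (∑ i ∈ range (t + 1), ten (D i) (chain Λ w (t + 1 - i))) + ten (D (t + 1)) w := by
          rw [recX, sum_range_succ, show t + 1 - (t + 1) = 0 from by omega]; rfl
        rw [this]
        funext j
        simp only [Pi.add_apply, Finset.sum_apply, map_add, map_sum, ten, map_smul]
      rw [h1, h2]
      have h3 : (∑ i ∈ range (t + 1), ten (D i) (chain Λ w (t + 2 - i)))
          = (∑ i ∈ range (t + 1), ten (D i) (Λ (chain Λ w (t + 1 - i))))
            + ∑ i ∈ range (t + 1), ten (D i) (chain Λ w (t - i)) := by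
        rw [← sum_add_distrib]
        refine sum_congr rfl fun i hi => ?_
        have hi' : i ≤ t := by simpa [Nat.lt_succ_iff] using hi
        obtain ⟨d, rfl⟩ := Nat.exists_eq_add_of_le hi'
        rw [show i + d + 2 - i = d + 2 from by omega, show i + d + 1 - i = d + 1 from by omega,
          show i + d - i = d from by omega]
        funext j
        simp [ten, chain]
      rw [h3]
      simp only [recXm, recX]
      abel
  rw [key]
  funext j
  simp [push]

/-- pop is the inverse of push -/
theorem recXm_pop (t : ℕ) :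
    recXm Λ D w t = fun j => recX Λ D w (t + 1) j - Λ (recX Λ D w t j) - ten (D (t + 1)) w j := by
  rw [recX_succ]
  funext j
  simp only [push]
  abel

/-- certificates of the explicit record -/
def cert (Mir : Matrix m n K) (t : ℕ) : m → A :=
  act Mir (Q Λ U N1 N2 w (D t) (recX Λ D w t))

def certm (Mir : Matrix m n K) (t : ℕ) : m → A :=
  act Mir (Q Λ U N1 N2 w (Dm D t) (recXm Λ D w t))

theorem certm_zero (Mir : Matrix m n K) : certm Λ U N1 N2 D w Mir 0 = 0 := by
  have : Q Λ U N1 N2 w (Dm D 0) (recXm Λ D w 0) = (0 : n → A) := by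
    funext j
    simp [Q, Lc, Dm, recXm, act_zero, ten, Matrix.mulVec_zero]
  rw [certm, this, act_zero]

theorem certm_succ (Mir : Matrix m n K) (t : ℕ) :
    certm Λ U N1 N2 D w Mir (t + 1) = cert Λ U N1 N2 D w Mir t := rfl

theorem cert_succ (Mir : Matrix m n K) (t : ℕ) :
    cert Λ U N1 N2 D w Mir (t + 1) =
      (fun i => Λ (cert Λ U N1 N2 D w Mir t i)) + certm Λ U N1 N2 D w Mir t
        + ten (Mir *ᵥ kap U N1 D t) (Λ w) + ten (Mir *ᵥ kap' U N2 D t) w := by
  rw [cert, recX_succ, Z_push]
  rfl

theorem certm_pop (Mir : Matrix m n K) (t : ℕ) :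
    certm Λ U N1 N2 D w Mir t =
      cert Λ U N1 N2 D w Mir (t + 1) - (fun i => Λ (cert Λ U N1 N2 D w Mir t i))
        - ten (Mir *ᵥ kap U N1 D t) (Λ w) - ten (Mir *ᵥ kap' U N2 D t) w := by
  rw [cert_succ]; abel

/-- entry formula -/
theorem cert_zero (Mir : Matrix m n K) :
    cert Λ U N1 N2 D w Mir 0
      = -(ten (Mir *ᵥ (N1 *ᵥ D 0)) (Λ w)) - ten (Mir *ᵥ (N2 *ᵥ D 0)) w := by
  have h : Q Λ U N1 N2 w (D 0) (recX Λ D w 0)
      = -(ten (N1 *ᵥ D 0) (Λ w)) - ten (N2 *ᵥ D 0) w := by
    rw [recX_zero, Q, Lc_ten]; abel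
  rw [cert, h, act_sub, act_neg, act_ten, act_ten]

end record

/-! ### contents: uniqueness of the record -/

section unique

variable (Λ : A →ₗ[K] A) (U N1 N2 : Matrix n n K) (w : A)

/-- positions `pos 0 .. pos L` of the walk in the content orbit; `U`, `N1`, `N2` act on contents as
identity, next, next-next (zero beyond the end) -/
structure Walk (pos : ℕ → n) (L : ℕ) : Prop where
  U_pos : ∀ i, i ≤ L → ∀ X : n → A, act U X (pos i) = X (pos i)
  N1_pos : ∀ i, i < L → ∀ X : n → A, act N1 X (pos i) = X (pos (i + 1))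
  N1_end : ∀ X : n → A, act N1 X (pos L) = 0
  N2_pos : ∀ i, i + 2 ≤ L → ∀ X : n → A, act N2 X (pos i) = X (pos (i + 2))
  N2_end : ∀ i, i ≤ L → L < i + 2 → ∀ X : n → A, act N2 X (pos i) = 0

variable {Λ U N1 N2 w}

theorem content_unique {pos : ℕ → n} {L t : ℕ} (hW : Walk (A := A) U N1 N2 pos L) (ht : t ≤ L)
    {E : n → K} (hE : ∀ i, i ≤ L → E (pos i) = if i = t then 1 else 0) {X : n → A}
    (hQ : ∀ i, i ≤ L → Q Λ U N1 N2 w E X (pos i) = 0) :
    ∀ i, i ≤ L → X (pos i) = if i ≤ t then chain Λ w (t - i) else 0 := by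
  have hUE : ∀ i, i ≤ L → ten (U *ᵥ E) w (pos i) = if i = t then w else 0 := by
    intro i hi
    rw [← act_ten, hW.U_pos i hi (ten E w)]
    simp only [ten, hE i hi]
    split_ifs <;> simp
  have hrel : ∀ i, i ≤ L → X (pos i) = Λ (act N1 X (pos i)) + act N2 X (pos i)
      + (if i = t then w else 0) := by
    intro i hi
    have := hQ i hi
    simp only [Q, Lc, Pi.sub_apply, hUE i hi, hW.U_pos i hi X] at this
    rw [sub_sub, sub_sub, sub_eq_zero] at this
    rw [this]; abel
  -- downward induction
  suffices H : ∀ d, d ≤ L → X (pos (L - d)) = if L - d ≤ t then chain Λ w (t - (L - d)) else 0 by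
    intro i hi
    have := H (L - i) (by omega)
    rwa [show L - (L - i) = i from by omega] at this
  intro d
  induction d using Nat.strong_induction_on with
  | _ d ih =>
    intro hd
    have e1 := hrel (L - d) (by omega)
    match d, ih, hd, e1 with
    | 0, _, _, e1 =>
      rw [Nat.sub_zero] at e1 ⊢
      rw [hW.N1_end, hW.N2_end L le_rfl (by omega), map_zero, zero_add, zero_add] at e1
      rw [e1]
      by_cases h : L = t
      · subst h; simp [chain]
      · have : ¬ L ≤ t := by omega
        simp [h, this]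
    | 1, ih, hd, e1 =>
      have i0 := ih 0 (by omega) (by omega)
      rw [Nat.sub_zero] at i0
      rw [hW.N1_pos (L - 1) (by omega), show L - 1 + 1 = L from by omega, i0,
        hW.N2_end (L - 1) (by omega) (by omega)] at e1
      rw [e1]
      by_cases h1 : L - 1 = t
      · have h2 : ¬ L ≤ t := by omega
        simp [h1, h2, chain]
      · by_cases h3 : L ≤ t
        · have h4 : t = L := by omega
          subst h4
          simp only [le_refl, if_true, Nat.sub_self, h1, if_false, add_zero]
          rw [if_pos (by omega), show t - (t - 1) = 1 from by omega]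
          simp [chain]
        · have h5 : ¬ (L - 1 ≤ t) := by omega
          simp [h3, h1, h5]
    | d + 2, ih, hd, e1 =>
      have i0 := ih d (by omega) (by omega)
      have i1 := ih (d + 1) (by omega) (by omega)
      rw [hW.N1_pos (L - (d + 2)) (by omega), show L - (d + 2) + 1 = L - (d + 1) from by omega, i1,
        hW.N2_pos (L - (d + 2)) (by omega), show L - (d + 2) + 2 = L - d from by omega, i0] at e1
      rw [e1]
      by_cases h1 : L - (d + 2) = t
      · have h2 : ¬ L - (d + 1) ≤ t := by omega
        have h3 : ¬ L - d ≤ t := by omega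
        simp [h1, h2, h3, chain]
      · by_cases h4 : L - (d + 2) ≤ t
        · have h5 : L - (d + 1) ≤ t := by omega
          by_cases h6 : L - d ≤ t
          · obtain ⟨j, hj⟩ : ∃ j, t - (L - d) = j := ⟨_, rfl⟩
            have h7 : t - (L - (d + 1)) = j + 1 := by omega
            have h8 : t - (L - (d + 2)) = j + 2 := by omega
            simp [h1, h4, h5, h6, hj, h7, h8, chain]
          · have h7 : t - (L - (d + 1)) = 0 := by omega
            have h8 : t - (L - (d + 2)) = 1 := by omega
            simp [h1, h4, h5, h6, h7, h8, chain]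
        · have h5 : ¬ L - (d + 1) ≤ t := by omega
          have h6 : ¬ L - d ≤ t := by omega
          simp [h1, h4, h5, h6]

end unique

end Crest.Agent.R289.Level492
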