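import Crest.Agent.R289.Mirror_545

/-!
Row 289, mirror words, two factors: units `P × T`, `SP` symbols of the first factor, `S` symbols of
the second factor.  A word is `Q : T → S → (Ω → K)` (`Ω` = positions of the first factor), the
contents on the second factor are the symbols `s0`.
* `mir_content`: the contents of mirror words only depend on the content of `Q`; zero content gives
  zero contents;
* `mir_dense_prod`: if the content of `Q` is a non-zero word of a code of minimum weight `dP` at one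
  address, then at least `dP * d` symbols of the contents are not zero;
* `mir_units`: the same as a count of units.
-/

set_option autoImplicit false
set_option linter.unusedSectionVars false

namespace Crest.Agent.R289.Mirror545

open Finset

variable {K T S ι J Ω : Type*} [Field K] [Group T] [Fintype S] [DecidableEq S] [Fintype ι]
  [Fintype J]

/-- restriction to the content symbol -/
def atS0 (K Ω : Type*) {S : Type*} [Field K] (s0 : S) : (S → Ω → K) →ₗ[K] (Ω → K) where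
  toFun f := f s0
  map_add' _ _ := rfl
  map_smul' _ _ := rfl

/-- the contents of mirror words are mirror words of the content -/
theorem mir_content {s0 : S} {β : {s : S // s ≠ s0} → S → J → K} {γ : J → T}
    {Q : T → S → Ω → K} {U : {s : S // s ≠ s0} → T → S → Ω → K} (h : MirRel s0 β γ Q U) :
    MirRel s0 β γ (fun τ => Q τ s0) (fun s τ => U s τ s0) :=
  h.map (atS0 K Ω s0)

/-- if the content of `Q` is zero, all contents of the mirror words are zero -/
theorem mir_content_zero (s0 : S) (α : ι → S → J → K) (P : {s : S // s ≠ s0} → ι → K)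
    (hP : IsP s0 α P) (γ : J → T) {L : ℕ} (hL : AugNil322.J K T ^ L = ⊥)
    {Q : T → S → Ω → K} {U : {s : S // s ≠ s0} → T → S → Ω → K}
    (h : MirRel s0 (bet s0 α P) γ Q U) (hQ : ∀ τ, Q τ s0 = 0) : ∀ s τ, U s τ s0 = 0 :=
  mir_zero s0 α P hP γ hL (mir_content h) hQ

/-- if all contents vanish (of `Q` and of the mirror words) then ... in particular that of `Q` -/
theorem mir_content_iff (s0 : S) (α : ι → S → J → K) (P : {s : S // s ≠ s0} → ι → K)
    (hP : IsP s0 α P) (γ : J → T) {L : ℕ} (hL : AugNil322.J K T ^ L = ⊥)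
    {Q : T → S → Ω → K} {U : {s : S // s ≠ s0} → T → S → Ω → K}
    (h : MirRel s0 (bet s0 α P) γ Q U) :
    (∀ τ, Q τ s0 = 0) ↔
      ∀ s τ, ext s0 (fun τ => Q τ s0) (fun (s : {s : S // s ≠ s0}) τ => U s τ s0) s τ = 0 := by
  constructor
  · intro hQ s τ
    have h2 := mir_content_zero s0 α P hP γ hL h hQ
    unfold ext
    split_ifs
    · exact hQ τ
    · exact h2 _ τ
  · intro hz τ
    have := hz s0 τ
    rwa [ext_s0] at this

/-- the pointwise value of a completed family -/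
theorem ext_apply {X : Type*} (s0 : S) (q : T → Ω → X) (U : {s : S // s ≠ s0} → T → Ω → X)
    (s : S) (τ : T) (ω : Ω) :
    ext s0 q U s τ ω = ext s0 (fun τ => q τ ω) (fun s τ => U s τ ω) s τ := by
  unfold ext
  split_ifs <;> rfl

/-- **density, two factors**: contents form -/
theorem mir_dense_prod [Fintype T] [Finite Ω] (s0 : S) (α : ι → S → J → K)
    (P : {s : S // s ≠ s0} → ι → K) (hP : IsP s0 α P) (γ : J → T) {L : ℕ}
    (hL : AugNil322.J K T ^ L = ⊥)
    (hsurj : ∀ c : T → K, ∃ f : T → S → K, InV α γ f ∧ ∀ g, f g s0 = c g)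
    {d : ℕ} (hd : ∀ f : T → S → K, InV α γ f → f ≠ 0 →
      d ≤ Nat.card {x : T × S // f x.1 x.2 ≠ 0})
    {q : T → Ω → K} {U : {s : S // s ≠ s0} → T → Ω → K}
    (h : MirRel s0 (bet s0 α P) γ q U) {dP : ℕ} {τ0 : T}
    (hdP : dP ≤ Nat.card {ω : Ω // q τ0 ω ≠ 0}) :
    dP * d ≤ Nat.card {x : Ω × (T × S) // ext s0 q U x.2.2 x.2.1 x.1 ≠ 0} := by
  classical
  have := Fintype.ofFinite Ω
  have key : ∀ ω : {ω : Ω // q τ0 ω ≠ 0},
      d ≤ Nat.card {x : T × S // ext s0 q U x.2 x.1 ω.1 ≠ 0} := by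
    intro ω
    have hm := h.map (LinearMap.proj ω.1 : (Ω → K) →ₗ[K] K)
    have := mir_dense s0 α P hP γ hL hsurj hd hm ⟨τ0, ω.2⟩
    refine this.trans (le_of_eq ?_)
    refine Nat.card_congr (Equiv.subtypeEquivRight fun x => ?_)
    rw [ext_apply s0 q U]
    rfl
  have e1 : Nat.card (Σ ω : {ω : Ω // q τ0 ω ≠ 0}, {x : T × S // ext s0 q U x.2 x.1 ω.1 ≠ 0})
      ≤ Nat.card {x : Ω × (T × S) // ext s0 q U x.2.2 x.2.1 x.1 ≠ 0} := by
    refine Nat.card_le_card_of_injective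
      (fun z => (⟨(z.1.1, z.2.1), z.2.2⟩ :
        {x : Ω × (T × S) // ext s0 q U x.2.2 x.2.1 x.1 ≠ 0})) ?_
    rintro ⟨⟨a, ha⟩, ⟨x, hx⟩⟩ ⟨⟨b, hb⟩, ⟨y, hy⟩⟩ hxy
    have h1 : (a, x) = (b, y) := congrArg Subtype.val hxy
    rw [Prod.mk.injEq] at h1
    obtain ⟨rfl, rfl⟩ := h1
    rfl
  refine le_trans ?_ e1
  rw [Nat.card_sigma]
  calc dP * d ≤ Nat.card {ω : Ω // q τ0 ω ≠ 0} * d := Nat.mul_le_mul_right d hdP
    _ = ∑ _ω : {ω : Ω // q τ0 ω ≠ 0}, d := by
        rw [Finset.sum_const, smul_eq_mul, Finset.card_univ, Nat.card_eq_fintype_card]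
    _ ≤ _ := Finset.sum_le_sum fun ω _ => key ω

/-- **density, units**: positions `Ω = Pg × SP`; at least `dP * d / (|SP| |S|)` of the units
`(p, τ)` see a non-zero symbol -/
theorem mir_units [Fintype T] {Pg SP : Type*} [Finite Pg] [Fintype SP] (s0 : S)
    (α : ι → S → J → K) (P : {s : S // s ≠ s0} → ι → K) (hP : IsP s0 α P) (γ : J → T) {L : ℕ}
    (hL : AugNil322.J K T ^ L = ⊥)
    (hsurj : ∀ c : T → K, ∃ f : T → S → K, InV α γ f ∧ ∀ g, f g s0 = c g)
    {d : ℕ} (hd : ∀ f : T → S → K, InV α γ f → f ≠ 0 →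
      d ≤ Nat.card {x : T × S // f x.1 x.2 ≠ 0})
    {q : T → (Pg × SP) → K} {U : {s : S // s ≠ s0} → T → (Pg × SP) → K}
    (h : MirRel s0 (bet s0 α P) γ q U) {dP : ℕ} {τ0 : T}
    (hdP : dP ≤ Nat.card {ω : Pg × SP // q τ0 ω ≠ 0}) :
    dP * d ≤ Nat.card {u : Pg × T // ∃ b : SP × S, ext s0 q U b.2 u.2 (u.1, b.1) ≠ 0}
      * (Fintype.card SP * Fintype.card S) := by
  classical
  refine (mir_dense_prod s0 α P hP γ hL hsurj hd h hdP).trans ?_
  have : Nat.card {u : Pg × T // ∃ b : SP × S, ext s0 q U b.2 u.2 (u.1, b.1) ≠ 0}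
      * (Fintype.card SP * Fintype.card S)
      = Nat.card ({u : Pg × T // ∃ b : SP × S, ext s0 q U b.2 u.2 (u.1, b.1) ≠ 0} × (SP × S)) := by
    rw [Nat.card_prod, Nat.card_prod, Nat.card_eq_fintype_card (α := SP),
      Nat.card_eq_fintype_card (α := S)]
  rw [this]
  refine Nat.card_le_card_of_injective
    (fun z => ((⟨(z.1.1.1, z.1.2.1), ⟨(z.1.1.2, z.1.2.2), z.2⟩⟩, (z.1.1.2, z.1.2.2)) :
      {u : Pg × T // ∃ b : SP × S, ext s0 q U b.2 u.2 (u.1, b.1) ≠ 0} × (SP × S))) ?_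
  rintro ⟨⟨⟨a, b⟩, ⟨c, e⟩⟩, hx⟩ ⟨⟨⟨a', b'⟩, ⟨c', e'⟩⟩, hy⟩ hxy
  simp only [Prod.mk.injEq, Subtype.mk.injEq] at hxy
  obtain ⟨⟨rfl, rfl⟩, rfl, rfl⟩ := hxy
  rfl

end Crest.Agent.R289.Mirror545
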