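import Crest.Agent.R289.WordC_880
import Crest.Agent.R289.Level_492
import Crest.Agent.R289.Compile_827
import Crest.Agent.R289.Mirror2_545

/-!
Row 289, block C, I1 (helper827): the `LM` instance (label form of the compiled machine,
Compile_827) from a content machine `DefC.PMach` (WF, OK), the record/certificate algebra of
Level_492 and the mirror words of Mirror_545.  Exact algebra at the word level.

* `CD` : content side = codes `C d` on points `Ω`, contents on the orbit `h0 : Γ → Ω`.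
* `TD` : T-side = operators `U, N1, N2`, mirror matrix, path, delta words, cascade `Λ` on a module
  `A` of bundles of words, with separating functionals `φ` and content-zero submodules `ZA c`.
* `lm` : the instance.  `mirMat` : the mirror relation of Mirror_545 as a matrix.
-/

set_option autoImplicit false
set_option linter.unusedSectionVars false
set_option linter.unusedVariables false

namespace Crest.Agent.R289.LInst827

open Finset DefC Level492 Compile827 WordC880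

/-! ### content side -/

/-- content side at the word level -/
structure CD (K G : Type) [Field K] (B : PMach K G) (Γ Ω : Type) where
  act : G → Equiv.Perm Γ
  actO : G → Equiv.Perm Ω
  h0 : Γ → Ω
  hh : ∀ g a, h0 (act g a) = actO g (h0 a)
  C : ℕ → Submodule K (Ω → K)
  hmul : ∀ a b f g, f ∈ C a → g ∈ C b → (fun x => f x * g x) ∈ C (a + b)
  htr : ∀ g a f, f ∈ C a → (fun x => f (actO g x)) ∈ C a
  hti : ∀ g a f, f ∈ C a → (fun x => f ((actO g).symm x)) ∈ C a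
  hrig : ∀ f ∈ C 1, (∀ a, f (h0 a) = 0) → f = 0
  pw : B.Pub → Ω → K
  hpw : ∀ i, pw i ∈ C 1

namespace CD

variable {K G : Type} [Field K] {B : PMach K G} {Γ Ω : Type} (c : CD K G B Γ Ω)

/-- stage and register words -/
abbrev WX (B : PMach K G) (Ω : Type) : Type := B.Stg × (B.Reg → Ω → K)

/-- contents of the public words -/
def pc : B.Pub → Γ → K := fun i a => c.pw i (c.h0 a)

/-- contents of the registers -/
def cont (x : WX B Ω) : B.Reg → Γ → K := fun i a => x.2 i (c.h0 a)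

/-- component word -/
def comp (x : WX B Ω) : B.Comp → Ω → K := fun k => (B.comp k).evalC c.actO c.pw x.2

/-- identity word -/
def idl (x : WX B Ω) : B.Idl → Ω → K := fun k => (B.idl k).evalC c.actO c.pw x.2

def IsL (x : WX B Ω) : Prop := (∀ i, x.2 i ∈ c.C 1) ∧ B.Legal c.act c.pc x.1 (c.cont x)
def en (ρ : B.Tr) (x : WX B Ω) : Prop := x.1 = B.src ρ ∧ B.En c.act c.pc ρ (c.cont x)
def bk (ρ : B.Tr) (x : WX B Ω) : Prop := x.1 = B.tgt ρ ∧ B.Bk c.act c.pc ρ (c.cont x)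
def up (ρ : B.Tr) (x : WX B Ω) : WX B Ω := (B.tgt ρ, fun i => (B.up ρ i).evalC c.actO c.pw x.2)
def dn (ρ : B.Tr) (x : WX B Ω) : WX B Ω := (B.src ρ, fun i => (B.dn ρ i).evalC c.actO c.pw x.2)

theorem cont_up (ρ : B.Tr) (x : WX B Ω) : c.cont (c.up ρ x) = B.upC c.act c.pc ρ (c.cont x) := by
  funext i a
  exact upW_content B c.act c.actO c.h0 c.hh c.pw x.2 ρ i a

theorem cont_dn (ρ : B.Tr) (x : WX B Ω) : c.cont (c.dn ρ x) = B.dnC c.act c.pc ρ (c.cont x) := by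
  funext i a
  exact dnW_content B c.act c.actO c.h0 c.hh c.pw x.2 ρ i a

theorem up_mem {d : ℕ} (hW : B.WF d) (ρ : B.Tr) {x : WX B Ω} (hx : ∀ i, x.2 i ∈ c.C 1) (i : B.Reg) :
    (c.up ρ x).2 i ∈ c.C 1 :=
  evalC_mem c.actO c.C c.hmul c.htr c.hti c.pw x.2 c.hpw hx _ 1 (hW.up_hom ρ i)

theorem dn_mem {d : ℕ} (hW : B.WF d) (ρ : B.Tr) {x : WX B Ω} (hx : ∀ i, x.2 i ∈ c.C 1) (i : B.Reg) :
    (c.dn ρ x).2 i ∈ c.C 1 :=
  evalC_mem c.actO c.C c.hmul c.htr c.hti c.pw x.2 c.hpw hx _ 1 (hW.dn_hom ρ i)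

/-- words of `C 1` with the same contents are equal -/
theorem ext_of_cont {x y : B.Reg → Ω → K} (hx : ∀ i, x i ∈ c.C 1) (hy : ∀ i, y i ∈ c.C 1)
    (h : ∀ i a, x i (c.h0 a) = y i (c.h0 a)) : x = y := by
  funext i
  have h1 := c.hrig _ ((c.C 1).sub_mem (hx i) (hy i)) (fun a => by
    simp only [Pi.sub_apply, h i a, sub_self])
  exact sub_eq_zero.1 h1

theorem fwd {d : ℕ} (hW : B.WF d) (hOK : B.OK c.act c.pc) (ρ : B.Tr) (x : WX B Ω) (hx : c.IsL x)
    (he : c.en ρ x) : c.IsL (c.up ρ x) ∧ c.bk ρ (c.up ρ x) ∧ c.dn ρ (c.up ρ x) = x := by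
  have h := hOK.fwd ρ (c.cont x) (by rw [← he.1]; exact hx.2) he.2
  have hm := c.up_mem hW ρ hx.1
  refine ⟨⟨hm, ?_⟩, ⟨rfl, ?_⟩, ?_⟩
  · rw [c.cont_up]; exact h.1
  · rw [c.cont_up]; exact h.2.1
  · have h2 : (c.dn ρ (c.up ρ x)).2 = x.2 := by
      refine c.ext_of_cont (c.dn_mem hW ρ hm) hx.1 (fun i a => ?_)
      have h3 := c.cont_dn ρ (c.up ρ x)
      rw [c.cont_up, h.2.2] at h3
      exact congrFun (congrFun h3 i) a
    exact Prod.ext he.1.symm h2

theorem bwd {d : ℕ} (hW : B.WF d) (hOK : B.OK c.act c.pc) (ρ : B.Tr) (x : WX B Ω) (hx : c.IsL x)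
    (he : c.bk ρ x) : c.IsL (c.dn ρ x) ∧ c.en ρ (c.dn ρ x) ∧ c.up ρ (c.dn ρ x) = x := by
  have h := hOK.bwd ρ (c.cont x) (by rw [← he.1]; exact hx.2) he.2
  have hm := c.dn_mem hW ρ hx.1
  refine ⟨⟨hm, ?_⟩, ⟨rfl, ?_⟩, ?_⟩
  · rw [c.cont_dn]; exact h.1
  · rw [c.cont_dn]; exact h.2.1
  · have h2 : (c.up ρ (c.dn ρ x)).2 = x.2 := by
      refine c.ext_of_cont (c.up_mem hW ρ hm) hx.1 (fun i a => ?_)
      have h3 := c.cont_up ρ (c.dn ρ x)
      rw [c.cont_dn, h.2.2] at h3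
      exact congrFun (congrFun h3 i) a
    exact Prod.ext he.1.symm h2

theorem en_uniq (hOK : B.OK c.act c.pc) (ρ ρ' : B.Tr) (x : WX B Ω) (hx : c.IsL x)
    (h : c.en ρ x) (h' : c.en ρ' x) : ρ = ρ' :=
  hOK.detF ρ ρ' (c.cont x) (h.1.symm.trans h'.1) (by rw [← h.1]; exact hx.2) h.2 h'.2

theorem bk_uniq (hOK : B.OK c.act c.pc) (ρ ρ' : B.Tr) (x : WX B Ω) (hx : c.IsL x)
    (h : c.bk ρ x) (h' : c.bk ρ' x) : ρ = ρ' :=
  hOK.detB ρ ρ' (c.cont x) (h.1.symm.trans h'.1) (by rw [← h.1]; exact hx.2) h.2 h'.2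

/-- component word vanishes on the orbit iff the content component vanishes -/
theorem comp_zero_iff (x : WX B Ω) (k : B.Comp) :
    (∀ a, c.comp x k (c.h0 a) = 0) ↔ B.CZ c.act c.pc (c.cont x) k :=
  zero_iff B c.act c.actO c.h0 c.hh c.pw x.2 k

/-- identity word vanishes iff the content identity holds -/
theorem idl_zero_iff {d : ℕ} (hW : B.WF d) (x : WX B Ω) (hx : ∀ i, x.2 i ∈ c.C 1) (k : B.Idl) :
    (∀ y, c.idl x k y = 0) ↔ B.IZ c.act c.pc (c.cont x) k :=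
  idl_iff B c.act c.actO c.h0 c.hh c.C c.hmul c.htr c.hti c.hrig c.pw x.2 c.hpw hx k (hW.idl_hom k)

end CD

/-! ### T-side -/

/-- T-side data, with bundles in the module `A` -/
structure TD (K : Type) [Field K] (W Γ Ω : Type) (h0 : Γ → Ω) (n m A Y : Type) [Fintype n]
    [Fintype m] [AddCommGroup A] [Module K A] where
  /-- cascade on bundles -/
  Λ : A →ₗ[K] A
  /-- bundle of the component words -/
  emb : (W → Ω → K) → A
  /-- separating functionals (coordinates) -/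
  φ : Y → (A →ₗ[K] K)
  φ_sep : ∀ a, (∀ y, φ y a = 0) → a = 0
  /-- bundles whose component `k` has zero content -/
  ZA : W → Submodule K A
  Λ_Z : ∀ k, ∀ a ∈ ZA k, Λ a ∈ ZA k
  emb_Z : ∀ w k, emb w ∈ ZA k ↔ ∀ a, w k (h0 a) = 0
  U : Matrix n n K
  N1 : Matrix n n K
  N2 : Matrix n n K
  Mir : Matrix m n K
  /-- the mirror relation -/
  MR : (n → A) → (m → A) → Prop
  MR_iff : ∀ Q Z, MR Q Z ↔ Z = Level492.act Mir Q
  L : ℕ
  pos : ℕ → n
  /-- content points -/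
  H : Set n
  Hm : Set m
  pos_H : ∀ i, i ≤ L → pos i ∈ H
  walk : Walk (A := A) U N1 N2 pos L
  off_U : ∀ j ∈ H, (∀ i, i ≤ L → pos i ≠ j) → ∀ X : n → A, Level492.act U X j = X j
  off_N1 : ∀ j ∈ H, (∀ i, i ≤ L → pos i ≠ j) → ∀ X : n → A, Level492.act N1 X j = 0
  off_N2 : ∀ j ∈ H, (∀ i, i ≤ L → pos i ≠ j) → ∀ X : n → A, Level492.act N2 X j = 0
  /-- words of the T-object -/
  VT : Submodule K (n → K)
  VT_rig : ∀ f ∈ VT, (∀ j ∈ H, f j = 0) → f = 0
  D : ℕ → n → K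
  D_mem : ∀ t, t ≤ L → D t ∈ VT
  D_pos : ∀ t i, t ≤ L → i ≤ L → D t (pos i) = if i = t then 1 else 0
  D_off : ∀ t, t ≤ L → ∀ j ∈ H, (∀ i, i ≤ L → pos i ≠ j) → D t j = 0
  mir_H : ∀ Q : n → A, (∀ j ∈ H, Q j = 0) → ∀ j ∈ Hm, Level492.act Mir Q j = 0

namespace TD

variable {K : Type} [Field K] {W Γ Ω : Type} {h0 : Γ → Ω} {n m A Y : Type} [Fintype n]
  [Fintype m] [AddCommGroup A] [Module K A] (τ : TD K W Γ Ω h0 n m A Y)

/-- rows of a bundle word are words of the T-object -/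
def InT (X : n → A) : Prop := ∀ y, (fun j => τ.φ y (X j)) ∈ τ.VT

theorem inT_ten {D : n → K} (hD : D ∈ τ.VT) (w : A) : τ.InT (ten D w) := by
  intro y
  have : (fun j => τ.φ y (ten D w j)) = (τ.φ y w) • D := by
    funext j
    simp [ten, mul_comm]
  rw [this]
  exact τ.VT.smul_mem _ hD

theorem inT_sum {ι : Type} (s : Finset ι) (X : ι → n → A) (h : ∀ i ∈ s, τ.InT (X i)) :
    τ.InT (∑ i ∈ s, X i) := by
  intro y
  have : (fun j => τ.φ y ((∑ i ∈ s, X i) j)) = ∑ i ∈ s, fun j => τ.φ y (X i j) := by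
    funext j
    simp [Finset.sum_apply, map_sum]
  rw [this]
  exact τ.VT.sum_mem fun i hi => h i hi y

theorem inT_zero : τ.InT (0 : n → A) := by
  intro y
  have : (fun j => τ.φ y ((0 : n → A) j)) = 0 := by
    funext j; simp
  rw [this]
  exact τ.VT.zero_mem

theorem inT_rec (w : A) (t : ℕ) (ht : t ≤ τ.L) : τ.InT (recX τ.Λ τ.D w t) := by
  unfold recX
  refine τ.inT_sum _ _ fun i hi => τ.inT_ten (τ.D_mem i ?_) _
  have := Finset.mem_range.1 hi
  omega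

theorem ext_of_H {X X' : n → A} (hX : τ.InT X) (hX' : τ.InT X') (h : ∀ j ∈ τ.H, X j = X' j) :
    X = X' := by
  funext j
  refine sub_eq_zero.1 (τ.φ_sep _ fun y => ?_)
  have h1 := τ.VT_rig _ (τ.VT.sub_mem (hX y) (hX' y)) (fun j hj => by
    simp only [Pi.sub_apply, h j hj, sub_self])
  have h2 := congrFun h1 j
  simpa [map_sub] using h2

/-- contents of the record on the path -/
theorem rec_pos (w : A) (t : ℕ) (ht : t ≤ τ.L) (i : ℕ) (hi : i ≤ τ.L) :
    recX τ.Λ τ.D w t (τ.pos i) = if i ≤ t then chain τ.Λ w (t - i) else 0 := by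
  unfold recX
  rw [Finset.sum_apply]
  have h1 : ∀ i' ∈ range (t + 1), ten (τ.D i') (chain τ.Λ w (t - i')) (τ.pos i)
      = if i = i' then chain τ.Λ w (t - i') else 0 := by
    intro i' hi'
    have := Finset.mem_range.1 hi'
    simp only [ten, τ.D_pos i' i (by omega) hi]
    split_ifs <;> simp
  rw [Finset.sum_congr rfl h1, Finset.sum_ite_eq]
  by_cases h : i ≤ t
  · rw [if_pos (Finset.mem_range.2 (by omega)), if_pos h]
  · rw [if_neg (by rw [Finset.mem_range]; omega), if_neg h]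

theorem rec_off (w : A) (t : ℕ) (ht : t ≤ τ.L) (j : n) (hj : j ∈ τ.H)
    (hoff : ∀ i, i ≤ τ.L → τ.pos i ≠ j) : recX τ.Λ τ.D w t j = 0 := by
  unfold recX
  rw [Finset.sum_apply]
  refine Finset.sum_eq_zero fun i hi => ?_
  have := Finset.mem_range.1 hi
  simp [ten, τ.D_off i (by omega) j hj hoff]

/-- residual at clock word `E` -/
abbrev Qt (E : n → K) (w : A) (X : n → A) : n → A := Level492.Q τ.Λ τ.U τ.N1 τ.N2 w E X

theorem act_U_D_H (t : ℕ) (ht : t ≤ τ.L) (w : A) (j : n) (hj : j ∈ τ.H) :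
    ten (τ.U.mulVec (τ.D t)) w j = ten (τ.D t) w j := by
  rw [← act_ten]
  by_cases hoff : ∀ i, i ≤ τ.L → τ.pos i ≠ j
  · exact τ.off_U j hj hoff _
  · push Not at hoff
    obtain ⟨i, hi, rfl⟩ := hoff
    exact τ.walk.U_pos i hi _

/-- **record uniqueness**: a T-word is the record iff its residual has zero content -/
theorem rec_iff (w : A) (t : ℕ) (ht : t ≤ τ.L) (X : n → A) (hX : τ.InT X) :
    (∀ j ∈ τ.H, τ.Qt (τ.D t) w X j = 0) ↔ X = recX τ.Λ τ.D w t := by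
  constructor
  · intro h
    refine τ.ext_of_H hX (τ.inT_rec w t ht) fun j hj => ?_
    by_cases hoff : ∀ i, i ≤ τ.L → τ.pos i ≠ j
    · rw [τ.rec_off w t ht j hj hoff]
      have := h j hj
      have eU : ten (τ.U.mulVec (τ.D t)) w j = 0 := by
        rw [τ.act_U_D_H t ht w j hj]; simp [ten, τ.D_off t ht j hj hoff]
      simp only [Qt, Level492.Q, Lc, Pi.sub_apply, eU, τ.off_U j hj hoff,
        τ.off_N1 j hj hoff, τ.off_N2 j hj hoff, map_zero, sub_zero] at this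
      exact this
    · push Not at hoff
      obtain ⟨i, hi, rfl⟩ := hoff
      rw [τ.rec_pos w t ht i hi]
      exact content_unique (E := τ.D t) τ.walk ht (fun i hi => τ.D_pos t i ht hi)
        (fun i hi => h _ (τ.pos_H i hi)) i hi
  · rintro rfl j hj
    by_cases hoff : ∀ i, i ≤ τ.L → τ.pos i ≠ j
    · have eU : ten (τ.U.mulVec (τ.D t)) w j = 0 := by
        rw [τ.act_U_D_H t ht w j hj]; simp [ten, τ.D_off t ht j hj hoff]
      simp only [Qt, Level492.Q, Lc, Pi.sub_apply, eU, τ.off_U j hj hoff,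
        τ.off_N1 j hj hoff, τ.off_N2 j hj hoff, map_zero, sub_zero, τ.rec_off w t ht j hj hoff]
    · push Not at hoff
      obtain ⟨i, hi, rfl⟩ := hoff
      simp only [Qt, Level492.Q, Lc, Pi.sub_apply, τ.act_U_D_H t ht w _ (τ.pos_H i hi),
        τ.walk.U_pos i hi]
      have e0 := τ.rec_pos w t ht i hi
      have eD : ten (τ.D t) w (τ.pos i) = if i = t then w else 0 := by
        simp only [ten, τ.D_pos t i ht hi]
        split_ifs <;> simp
      rw [e0, eD]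
      rcases Nat.lt_or_ge i τ.L with hlt | hge
      · rw [τ.walk.N1_pos i hlt, τ.rec_pos w t ht (i + 1) hlt]
        rcases Nat.lt_or_ge (i + 1) τ.L with hlt2 | hge2
        · rw [τ.walk.N2_pos i (by omega), τ.rec_pos w t ht (i + 2) (by omega)]
          by_cases h2 : i + 2 ≤ t
          · obtain ⟨d, rfl⟩ := Nat.exists_eq_add_of_le h2
            rw [if_pos (by omega), if_pos (by omega), if_pos (by omega), if_neg (by omega),
              show i + 2 + d - i = d + 2 from by omega,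
              show i + 2 + d - (i + 1) = d + 1 from by omega,
              show i + 2 + d - (i + 2) = d from by omega]
            simp [chain]
          · by_cases h1 : i + 1 = t
            · subst h1
              simp [chain]
            · by_cases h0' : i = t
              · subst h0'
                simp [chain]
              · have a1 : ¬ i ≤ t := by omega
                have a2 : ¬ i + 1 ≤ t := by omega
                simp [a1, a2, h2, h0']
        · have hi1 : i + 1 = τ.L := by omega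
          rw [τ.walk.N2_end i hi (by omega)]
          by_cases h1 : i + 1 = t
          · subst h1
            simp [chain]
          · have a2 : ¬ i + 1 ≤ t := by omega
            by_cases h0' : i = t
            · subst h0'
              simp [chain]
            · have a1 : ¬ i ≤ t := by omega
              simp [a1, a2, h0']
      · have hiL : i = τ.L := by omega
        subst hiL
        rw [τ.walk.N1_end, τ.walk.N2_end _ le_rfl (by omega)]
        by_cases h0' : τ.L = t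
        · rw [← h0']
          simp [chain]
        · have a1 : ¬ τ.L ≤ t := by omega
          simp [a1, h0']

theorem chain_zero_w (Λ : A →ₗ[K] A) (j : ℕ) : chain Λ (0 : A) j = 0 := by
  induction j using Nat.strong_induction_on with
  | _ j ih =>
    match j, ih with
    | 0, _ => rfl
    | 1, _ => simp [chain]
    | j + 2, ih => simp [chain, ih j (by omega), ih (j + 1) (by omega)]

theorem recX_zero_w (t : ℕ) : recX τ.Λ τ.D (0 : A) t = 0 := by
  unfold recX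
  refine Finset.sum_eq_zero fun i _ => ?_
  rw [chain_zero_w]
  funext j
  simp [ten]

/-- the second word -/
theorem recm_iff (w : A) (t : ℕ) (ht : t ≤ τ.L) (X : n → A) (hX : τ.InT X) :
    (∀ j ∈ τ.H, τ.Qt (Dm τ.D t) w X j = 0) ↔ X = recXm τ.Λ τ.D w t := by
  cases t with
  | zero =>
    have h0 := τ.rec_iff (0 : A) 0 (Nat.zero_le _) X hX
    have e : ∀ j, τ.Qt (Dm τ.D 0) w X j = τ.Qt (τ.D 0) (0 : A) X j := by
      intro j
      simp [Qt, Level492.Q, Dm, ten, Matrix.mulVec_zero]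
    rw [τ.recX_zero_w] at h0
    simp only [e]
    exact h0
  | succ t => exact τ.rec_iff w t (by omega) X hX

theorem inT_recm (w : A) (t : ℕ) (ht : t ≤ τ.L) : τ.InT (recXm τ.Λ τ.D w t) := by
  cases t with
  | zero => exact τ.inT_zero
  | succ t => exact τ.inT_rec w t (by omega)

/-! ### certificates -/

/-- certificate values: record, previous record, mirror words of both residuals -/
abbrev Zc (n m A : Type) : Type := ((n → A) × (n → A)) × ((m → A) × (m → A))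

/-- certificate of depth `t` of the bundle `w` -/
def certZ (w : A) (t : ℕ) : Zc n m A :=
  ((recX τ.Λ τ.D w t, recXm τ.Λ τ.D w t),
    (cert τ.Λ τ.U τ.N1 τ.N2 τ.D w τ.Mir t, certm τ.Λ τ.U τ.N1 τ.N2 τ.D w τ.Mir t))

/-- the pointwise relations of a certificate of depth `t` -/
def RecZ (w : A) (t : ℕ) (z : Zc n m A) : Prop :=
  (τ.InT z.1.1 ∧ τ.InT z.1.2) ∧
  (τ.MR (τ.Qt (τ.D t) w z.1.1) z.2.1 ∧ τ.MR (τ.Qt (Dm τ.D t) w z.1.2) z.2.2) ∧
  ((∀ j ∈ τ.H, τ.Qt (τ.D t) w z.1.1 j = 0) ∧ (∀ j ∈ τ.Hm, z.2.1 j = 0)) ∧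
  ((∀ j ∈ τ.H, τ.Qt (Dm τ.D t) w z.1.2 j = 0) ∧ (∀ j ∈ τ.Hm, z.2.2 j = 0))

theorem recZ_iff (w : A) (t : ℕ) (ht : t ≤ τ.L) (z : Zc n m A) :
    τ.RecZ w t z ↔ z = τ.certZ w t := by
  constructor
  · rintro ⟨⟨h1, h2⟩, ⟨h3, h4⟩, ⟨h5, -⟩, ⟨h6, -⟩⟩
    have e1 := (τ.rec_iff w t ht _ h1).1 h5
    have e2 := (τ.recm_iff w t ht _ h2).1 h6
    rw [τ.MR_iff] at h3 h4
    obtain ⟨⟨X, Xm⟩, ⟨Z, Zm⟩⟩ := z
    simp only at e1 e2 h3 h4
    subst e1 e2 h3 h4
    rfl
  · rintro rfl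
    have h5 := (τ.rec_iff w t ht _ (τ.inT_rec w t ht)).2 rfl
    have h6 := (τ.recm_iff w t ht _ (τ.inT_recm w t ht)).2 rfl
    exact ⟨⟨τ.inT_rec w t ht, τ.inT_recm w t ht⟩,
      ⟨(τ.MR_iff _ _).2 rfl, (τ.MR_iff _ _).2 rfl⟩,
      ⟨h5, τ.mir_H _ h5⟩, ⟨h6, τ.mir_H _ h6⟩⟩

/-- public tables: mirror words of `kap`, `kap'`, and of the entry words -/
def tA (t : ℕ) : m → K := τ.Mir.mulVec (kap τ.U τ.N1 τ.D t)
def tB (t : ℕ) : m → K := τ.Mir.mulVec (kap' τ.U τ.N2 τ.D t)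
def tA0 : m → K := τ.Mir.mulVec (τ.N1.mulVec (τ.D 0))
def tB0 : m → K := τ.Mir.mulVec (τ.N2.mulVec (τ.D 0))

/-- push, pointwise -/
def pushZ (w : A) (t : ℕ) (z : Zc n m A) : Zc n m A :=
  ((fun j => τ.Λ (z.1.1 j) + z.1.2 j + τ.D (t + 1) j • w, z.1.1),
    (fun i => τ.Λ (z.2.1 i) + z.2.2 i + τ.tA t i • τ.Λ w + τ.tB t i • w, z.2.1))

/-- pop (from depth `t + 1` to depth `t`), pointwise -/
def popZ (w : A) (t : ℕ) (z : Zc n m A) : Zc n m A :=
  ((z.1.2, fun j => z.1.1 j - τ.Λ (z.1.2 j) - τ.D (t + 1) j • w),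
    (z.2.2, fun i => z.2.1 i - τ.Λ (z.2.2 i) - τ.tA t i • τ.Λ w - τ.tB t i • w))

/-- entry, pointwise -/
def entZ (w : A) : Zc n m A :=
  ((fun j => τ.D 0 j • w, fun _ => 0),
    (fun i => -(τ.tA0 i • τ.Λ w) - τ.tB0 i • w, fun _ => 0))

theorem push_certZ (w : A) (t : ℕ) : τ.pushZ w t (τ.certZ w t) = τ.certZ w (t + 1) := by
  have h1 : (fun j => τ.Λ (recX τ.Λ τ.D w t j) + recXm τ.Λ τ.D w t j + τ.D (t + 1) j • w)
      = recX τ.Λ τ.D w (t + 1) := by
    rw [recX_succ]; rfl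
  have h2 : (fun i => τ.Λ (cert τ.Λ τ.U τ.N1 τ.N2 τ.D w τ.Mir t i)
      + certm τ.Λ τ.U τ.N1 τ.N2 τ.D w τ.Mir t i + τ.tA t i • τ.Λ w + τ.tB t i • w)
      = cert τ.Λ τ.U τ.N1 τ.N2 τ.D w τ.Mir (t + 1) := by
    rw [cert_succ]; rfl
  exact Prod.ext (Prod.ext h1 rfl) (Prod.ext h2 rfl)

theorem pop_certZ (w : A) (t : ℕ) : τ.popZ w t (τ.certZ w (t + 1)) = τ.certZ w t := by
  have h1 : (fun j => recX τ.Λ τ.D w (t + 1) j - τ.Λ (recX τ.Λ τ.D w t j) - τ.D (t + 1) j • w)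
      = recXm τ.Λ τ.D w t := by
    rw [recXm_pop]; rfl
  have h2 : (fun i => cert τ.Λ τ.U τ.N1 τ.N2 τ.D w τ.Mir (t + 1) i
      - τ.Λ (cert τ.Λ τ.U τ.N1 τ.N2 τ.D w τ.Mir t i) - τ.tA t i • τ.Λ w - τ.tB t i • w)
      = certm τ.Λ τ.U τ.N1 τ.N2 τ.D w τ.Mir t := by
    rw [certm_pop]; rfl
  exact Prod.ext (Prod.ext rfl h1) (Prod.ext rfl h2)

theorem ent_certZ (w : A) : τ.entZ w = τ.certZ w 0 := by
  have h1 : (fun j => τ.D 0 j • w) = recX τ.Λ τ.D w 0 := by
    rw [recX_zero]; rfl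
  have h2 : (fun i => -(τ.tA0 i • τ.Λ w) - τ.tB0 i • w)
      = cert τ.Λ τ.U τ.N1 τ.N2 τ.D w τ.Mir 0 := by
    rw [cert_zero]; rfl
  have h3 : (fun _ => (0 : A)) = certm τ.Λ τ.U τ.N1 τ.N2 τ.D w τ.Mir 0 := by
    rw [certm_zero]; rfl
  exact Prod.ext (Prod.ext h1 rfl) (Prod.ext h2 h3)

/-! ### full records -/

theorem chain_Z (k : W) (w : A) (hw : w ∈ τ.ZA k) (j : ℕ) : chain τ.Λ w j ∈ τ.ZA k := by
  induction j using Nat.strong_induction_on with
  | _ j ih =>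
    match j, ih with
    | 0, _ => exact hw
    | 1, _ => exact τ.Λ_Z k w hw
    | j + 2, ih =>
      exact (τ.ZA k).add_mem (τ.Λ_Z k _ (ih (j + 1) (by omega))) (ih j (by omega))

/-- the full record shows whether the content of component `k` vanishes -/
theorem full_iff (w : A) (k : W) : (∀ j, recX τ.Λ τ.D w τ.L j ∈ τ.ZA k) ↔ w ∈ τ.ZA k := by
  constructor
  · intro h
    have h1 := h (τ.pos τ.L)
    rw [τ.rec_pos w τ.L le_rfl τ.L le_rfl, if_pos le_rfl, Nat.sub_self] at h1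
    exact h1
  · intro h j
    unfold recX
    rw [Finset.sum_apply]
    exact (τ.ZA k).sum_mem fun i _ => (τ.ZA k).smul_mem _ (τ.chain_Z k w h _)

end TD

/-! ### the instance -/

section inst

variable {K G : Type} [Field K] {B : PMach K G} {Γ Ω : Type} (c : CD K G B Γ Ω)
  {n m A Y : Type} [Fintype n] [Fintype m] [AddCommGroup A] [Module K A]
  (τ : TD K B.Comp Γ Ω c.h0 n m A Y)

/-- bundle of the component words of a state -/
def wv (x : CD.WX B Ω) : A := τ.emb (c.comp x)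

/-- static claims in a full bank -/
def StZ (x : CD.WX B Ω) (z : TD.Zc n m A) : Prop :=
  (∀ i, x.2 i ∈ c.C 1) ∧ (∀ k, B.legI x.1 k → ∀ y, c.idl x k y = 0) ∧
    ∀ k, B.leg x.1 k → ∀ j, z.1.1 j ∈ τ.ZA k

/-- label claims in a full bank, forward -/
def EnZ (ρ : B.Tr) (x : CD.WX B Ω) (z : TD.Zc n m A) : Prop :=
  x.1 = B.src ρ ∧ (∀ k, B.enI ρ k → ∀ y, c.idl x k y = 0) ∧
    ∀ k, B.en ρ k → ∀ j, z.1.1 j ∈ τ.ZA k

/-- label claims in a full bank, backward -/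
def BkZ (ρ : B.Tr) (x : CD.WX B Ω) (z : TD.Zc n m A) : Prop :=
  x.1 = B.tgt ρ ∧ (∀ k, B.bkI ρ k → ∀ y, c.idl x k y = 0) ∧
    ∀ k, B.bk ρ k → ∀ j, z.1.1 j ∈ τ.ZA k

theorem comp_full_iff (x : CD.WX B Ω) (k : B.Comp) :
    (∀ j, (τ.certZ (wv c τ x) τ.L).1.1 j ∈ τ.ZA k) ↔ B.CZ c.act c.pc (c.cont x) k := by
  rw [← c.comp_zero_iff x k]
  show (∀ j, recX τ.Λ τ.D (wv c τ x) τ.L j ∈ τ.ZA k) ↔ _
  rw [τ.full_iff, wv, τ.emb_Z]

theorem stZ_iff {d : ℕ} (hW : B.WF d) (x : CD.WX B Ω) :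
    StZ c τ x (τ.certZ (wv c τ x) τ.L) ↔ c.IsL x := by
  constructor
  · rintro ⟨h1, h2, h3⟩
    exact ⟨h1, fun k hk => (comp_full_iff c τ x k).1 (h3 k hk),
      fun k hk => (c.idl_zero_iff hW x h1 k).1 (h2 k hk)⟩
  · rintro ⟨h1, h2, h3⟩
    exact ⟨h1, fun k hk => (c.idl_zero_iff hW x h1 k).2 (h3 k hk),
      fun k hk => (comp_full_iff c τ x k).2 (h2 k hk)⟩

theorem enZ_iff {d : ℕ} (hW : B.WF d) (ρ : B.Tr) (x : CD.WX B Ω) (hx : c.IsL x) :
    EnZ c τ ρ x (τ.certZ (wv c τ x) τ.L) ↔ c.en ρ x := by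
  constructor
  · rintro ⟨h1, h2, h3⟩
    exact ⟨h1, fun k hk => (comp_full_iff c τ x k).1 (h3 k hk),
      fun k hk => (c.idl_zero_iff hW x hx.1 k).1 (h2 k hk)⟩
  · rintro ⟨h1, h2, h3⟩
    exact ⟨h1, fun k hk => (c.idl_zero_iff hW x hx.1 k).2 (h3 k hk),
      fun k hk => (comp_full_iff c τ x k).2 (h2 k hk)⟩

theorem bkZ_iff {d : ℕ} (hW : B.WF d) (ρ : B.Tr) (x : CD.WX B Ω) (hx : c.IsL x) :
    BkZ c τ ρ x (τ.certZ (wv c τ x) τ.L) ↔ c.bk ρ x := by
  constructor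
  · rintro ⟨h1, h2, h3⟩
    exact ⟨h1, fun k hk => (comp_full_iff c τ x k).1 (h3 k hk),
      fun k hk => (c.idl_zero_iff hW x hx.1 k).1 (h2 k hk)⟩
  · rintro ⟨h1, h2, h3⟩
    exact ⟨h1, fun k hk => (c.idl_zero_iff hW x hx.1 k).2 (h3 k hk),
      fun k hk => (comp_full_iff c τ x k).2 (h2 k hk)⟩

/-- **the labelled machine with certificates** -/
def lm {d : ℕ} (hW : B.WF d) (hOK : B.OK c.act c.pc) (x0 xz : CD.WX B Ω) (zz : TD.Zc n m A)
    (hx0 : c.IsL x0) (hbk0 : ∀ ρ, ¬ c.bk ρ x0) :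
    LM (CD.WX B Ω) (TD.Zc n m A) B.Tr where
  L := τ.L
  x0 := x0
  xz := xz
  zz := zz
  IsL := c.IsL
  en := c.en
  bk := c.bk
  up := c.up
  dn := c.dn
  cert x t := τ.certZ (wv c τ x) t
  push t x z := τ.pushZ (wv c τ x) t z
  pop t x z := τ.popZ (wv c τ x) t z
  ent x := τ.entZ (wv c τ x)
  Rec t x z := τ.RecZ (wv c τ x) t z
  St := StZ c τ
  En := EnZ c τ
  Bk := BkZ c τ
  isL0 := hx0
  bk0 := hbk0
  fwd := c.fwd hW hOK
  bwd := c.bwd hW hOK
  en_uniq := c.en_uniq hOK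
  bk_uniq := c.bk_uniq hOK
  push_cert t x _ := τ.push_certZ (wv c τ x) t
  pop_cert t x _ := τ.pop_certZ (wv c τ x) t
  ent_cert x := τ.ent_certZ (wv c τ x)
  Rec_iff t x z ht := τ.recZ_iff (wv c τ x) t ht z
  St_iff := stZ_iff c τ hW
  En_iff := enZ_iff c τ hW
  Bk_iff := bkZ_iff c τ hW

end inst

end Crest.Agent.R289.LInst827
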