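import Crest.Agent.R289.Level_492
import Crest.Agent.R289.Mirror2_545

/-!
Row 289, block C (helper827): the mirror relation of Mirror_545 as a matrix acting on words
`T × S → A` (form of Level_492: `Z = act Mir Q`), and its contents.

`MRel s0 α P γ Q Z` = the pointwise relation (left translations by the `γ j`) between
`Q : T × S → A` and `Z : {s // s ≠ s0} × T × S → A`.
* `mirMat`, `mirMat_iff : MRel Q Z ↔ Z = act mirMat Q`;
* `mirMat_H` : zero contents of `Q` give zero contents of `act mirMat Q`.
-/

set_option autoImplicit false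
set_option linter.unusedSectionVars false

namespace Crest.Agent.R289.MirMat827

open Finset Mirror545 Level492

variable {K T S ι J A : Type*} [Field K] [Group T] [Fintype T] [DecidableEq T] [Fintype S]
  [DecidableEq S] [Fintype ι] [Fintype J] [AddCommGroup A] [Module K A]

theorem MirRel.sum {M κ : Type*} [AddCommGroup M] [Module K M] {s0 : S}
    {β : {s : S // s ≠ s0} → S → J → K} {γ : J → T} (F : Finset κ) (q : κ → T → M)
    (U : κ → {s : S // s ≠ s0} → T → M) (h : ∀ k ∈ F, MirRel s0 β γ (q k) (U k)) :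
    MirRel s0 β γ (fun g => ∑ k ∈ F, q k g) (fun s g => ∑ k ∈ F, U k s g) := by
  classical
  induction F using Finset.induction_on with
  | empty =>
    simp only [Finset.sum_empty]
    exact Mirror545.MirRel.zero s0 β γ
  | insert a F ha ih =>
    simp only [Finset.sum_insert ha]
    exact (h a (Finset.mem_insert_self a F)).add
      (ih fun k hk => h k (Finset.mem_insert_of_mem hk))

/-- the mirror relation in the index form of Level_492 -/
def MRel (s0 : S) (α : ι → S → J → K) (P : {s : S // s ≠ s0} → ι → K) (γ : J → T)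
    (Q : T × S → A) (Z : {s : S // s ≠ s0} × T × S → A) : Prop :=
  MirRel s0 (bet s0 α P) γ (fun g s => Q (g, s)) (fun c g s => Z (c, g, s))

/-- unit word at a point -/
def dl (K : Type*) [Field K] {T S : Type*} [DecidableEq T] [DecidableEq S] (j : T × S) :
    T → S → K := fun g s => if (g, s) = j then 1 else 0

/-- the mirror matrix -/
noncomputable def mirMat (s0 : S) (α : ι → S → J → K) (P : {s : S // s ≠ s0} → ι → K)
    (hP : IsP s0 α P) (γ : J → T) {L : ℕ} (hL : AugNil322.J K T ^ L = ⊥) :
    Matrix ({s : S // s ≠ s0} × T × S) (T × S) K :=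
  fun i j => (mir_existsUnique s0 α P hP γ hL (dl K j)).choose i.1 i.2.1 i.2.2

theorem mirMat_dl (s0 : S) (α : ι → S → J → K) (P : {s : S // s ≠ s0} → ι → K)
    (hP : IsP s0 α P) (γ : J → T) {L : ℕ} (hL : AugNil322.J K T ^ L = ⊥) (j : T × S) :
    MirRel s0 (bet s0 α P) γ (dl K j) (fun c g s => mirMat s0 α P hP γ hL (c, g, s) j) :=
  (mir_existsUnique s0 α P hP γ hL (dl K j)).choose_spec.1

/-- a word over `K` times an element of `A` -/
def tn (A : Type*) (S : Type*) {K : Type*} [Field K] [AddCommGroup A] [Module K A] (a : A) :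
    (S → K) →ₗ[K] (S → A) where
  toFun f := fun s => f s • a
  map_add' f g := by funext s; simp [add_smul]
  map_smul' k f := by funext s; simp [mul_smul]

theorem mirMat_rel (s0 : S) (α : ι → S → J → K) (P : {s : S // s ≠ s0} → ι → K)
    (hP : IsP s0 α P) (γ : J → T) {L : ℕ} (hL : AugNil322.J K T ^ L = ⊥) (Q : T × S → A) :
    MRel s0 α P γ Q (act (mirMat s0 α P hP γ hL) Q) := by
  have h := MirRel.sum (K := K) (univ : Finset (T × S))
    (fun j g => tn A S (Q j) (dl K j g))
    (fun j c g => tn A S (Q j) (fun s => mirMat s0 α P hP γ hL (c, g, s) j))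
    (fun j _ => (mirMat_dl s0 α P hP γ hL j).map (tn A S (Q j)))
  unfold MRel
  convert h using 2 with g c
  · funext s
    rw [Finset.sum_apply]
    simp only [tn, LinearMap.coe_mk, AddHom.coe_mk, dl, ite_smul, one_smul, zero_smul]
    rw [Finset.sum_ite_eq]
    simp
  · funext g s
    rw [Finset.sum_apply]
    rfl

/-- **the mirror relation is the graph of the mirror matrix** -/
theorem mirMat_iff (s0 : S) (α : ι → S → J → K) (P : {s : S // s ≠ s0} → ι → K)
    (hP : IsP s0 α P) (γ : J → T) {L : ℕ} (hL : AugNil322.J K T ^ L = ⊥) (Q : T × S → A)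
    (Z : {s : S // s ≠ s0} × T × S → A) :
    MRel s0 α P γ Q Z ↔ Z = act (mirMat s0 α P hP γ hL) Q := by
  constructor
  · intro h
    have h2 := mir_unique s0 α P hP γ hL h (mirMat_rel s0 α P hP γ hL Q)
    funext i
    exact congrFun (congrFun (congrFun h2 i.1) i.2.1) i.2.2
  · rintro rfl
    exact mirMat_rel s0 α P hP γ hL Q

/-- projection to the content symbol -/
def pr (K A : Type*) {S : Type*} [Field K] [AddCommGroup A] [Module K A] (s0 : S) :
    (S → A) →ₗ[K] A where
  toFun f := f s0
  map_add' _ _ := rfl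
  map_smul' _ _ := rfl

/-- zero contents give zero contents of the mirror words -/
theorem mirMat_H (s0 : S) (α : ι → S → J → K) (P : {s : S // s ≠ s0} → ι → K)
    (hP : IsP s0 α P) (γ : J → T) {L : ℕ} (hL : AugNil322.J K T ^ L = ⊥) (Q : T × S → A)
    (hQ : ∀ g, Q (g, s0) = 0) (c : {s : S // s ≠ s0}) (g : T) :
    act (mirMat s0 α P hP γ hL) Q (c, g, s0) = 0 := by
  have h := (mirMat_rel s0 α P hP γ hL Q)
  unfold MRel at h
  exact mir_zero s0 α P hP γ hL (h.map (pr K A s0)) hQ c g

end Crest.Agent.R289.MirMat827
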