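import Crest.Agent.R289.DefI_306
import Crest.Agent.R289.LInst_827
import Crest.Agent.R289.MirMat_827

/-!
Row 289, block C, I1 (helper827): the `LM` instance over the literal words of DefI_306.

`Hyp I CG CT tt` : what an instance `I : Ins c` must satisfy (codes `CG d` on `Γ × S`, `CT d` on
`T × S'`, walk `tt`, tables).  `XS`, `ZS` : code words (subtypes).  `lmI` : the labelled machine
with `Rec := I.Rec`, `St := I.St`, `En := I.En`, `Bk := I.Bk`, `push := I.push`, `pop := I.pop`,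
`ent := I.ent`, `up := I.up`, `dn := I.dn`.  Hence `Compile827.LM.legal_iff` etc. = LEMMA U.
-/

set_option autoImplicit false
set_option linter.unusedSectionVars false
set_option linter.unusedVariables false

namespace Crest.Agent.R289.LMI827

open Finset DefC DefI Compile827 LInst827

variable {K : Type} [Field K] {c : Cst K}

/-- requirements on an instance -/
structure Hyp (I : Ins c) (CG : ℕ → Submodule K (I.Om → K)) (CT : ℕ → Submodule K (I.n → K))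
    (tt : ℕ → I.T) : Prop where
  wf : c.A.WF 4
  ok : c.A.OK I.act I.pubC
  gmul : ∀ a b f g, f ∈ CG a → g ∈ CG b → (fun x => f x * g x) ∈ CG (a + b)
  gtr : ∀ g d f, f ∈ CG d → (fun ω => f (I.pm (I.act g) ω)) ∈ CG d
  gti : ∀ g d f, f ∈ CG d → (fun ω => f ((I.pm (I.act g)).symm ω)) ∈ CG d
  gmv : ∀ j d f, f ∈ CG d → (fun ω => f (I.pm (I.mv j) ω)) ∈ CG d
  grig : ∀ f ∈ CG 1, (∀ g, f (g, c.s0) = 0) → f = 0
  gpub : ∀ b, I.pubP b ∈ CG 1
  gx0 : ∀ i, I.x0 i ∈ CG 1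
  trig : ∀ f ∈ CT 1, (∀ τ, f (τ, c.s0') = 0) → f = 0
  tD : ∀ t, I.D t ∈ CT 1
  tA : ∀ t s, I.A t s ∈ CT 2
  tB : ∀ t s, I.B t s ∈ CT 2
  tA0 : ∀ s, I.A0 s ∈ CT 2
  tB0 : ∀ s, I.B0 s ∈ CT 2
  one_c : ∀ τ, I.one (τ, c.s0') = 1
  tt_inj : ∀ i j, i ≤ I.L → j ≤ I.L → tt i = tt j → i = j
  D_c : ∀ t, t ≤ I.L → ∀ τ, I.D t (τ, c.s0') = if τ = tt t then 1 else 0
  N1_on : ∀ i, i < I.L → ∀ X : I.n → I.AW,
    Level492.act I.mN1 X (tt i, c.s0') = X (tt (i + 1), c.s0')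
  N1_off : ∀ τ, (∀ i, i < I.L → τ ≠ tt i) → ∀ X : I.n → I.AW,
    Level492.act I.mN1 X (τ, c.s0') = 0
  N2_on : ∀ i, i + 2 ≤ I.L → ∀ X : I.n → I.AW,
    Level492.act I.mN2 X (tt i, c.s0') = X (tt (i + 2), c.s0')
  N2_off : ∀ τ, (∀ i, i + 2 ≤ I.L → τ ≠ tt i) → ∀ X : I.n → I.AW,
    Level492.act I.mN2 X (τ, c.s0') = 0
  hA : ∀ t, I.MirK (Level492.kap I.mU I.mN1 I.D t) (I.A t)
  hB : ∀ t, I.MirK (Level492.kap' I.mU I.mN2 I.D t) (I.B t)
  hA0 : I.MirK (-(I.mN1.mulVec (I.D 0))) I.A0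
  hB0 : I.MirK (-(I.mN2.mulVec (I.D 0))) I.B0
  mirror : ∃ (ι : Type) (_ : Fintype ι) (α : ι → c.S' → c.JT → K) (P : c.C → ι → K) (Lm : ℕ),
    Mirror545.IsP c.s0' α P ∧ c.bet = Mirror545.bet c.s0' α P ∧ AugNil322.J K I.T ^ Lm = ⊥

section side
variable {I : Ins c} {CG : ℕ → Submodule K (I.Om → K)} {CT : ℕ → Submodule K (I.n → K)}
  {tt : ℕ → I.T}

/-- content side -/
def cd (h : Hyp I CG CT tt) : CD K c.G c.A I.Γ I.Om where
  act := I.act
  actO := fun g => I.pm (I.act g)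
  h0 := fun g => (g, c.s0)
  hh := fun _ _ => rfl
  C := CG
  hmul := h.gmul
  htr := h.gtr
  hti := h.gti
  hrig := h.grig
  pw := I.pubP
  hpw := h.gpub

/-- bundle of component words -/
def embI (I : Ins c) (w : c.A.Comp → I.Om → K) : I.AW := fun ω a m => if a = 0 then w m ω else 0

/-- coordinates -/
def phiI (I : Ins c) (y : I.Om × Fin (c.r + 1) × c.A.Comp) : I.AW →ₗ[K] K where
  toFun f := f y.1 y.2.1 y.2.2
  map_add' _ _ := rfl
  map_smul' _ _ := rfl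

/-- bundles whose component `k` has zero content -/
def ZAI (I : Ins c) (k : c.A.Comp) : Submodule K I.AW where
  carrier := {f | ∀ g a, f (g, c.s0) a k = 0}
  add_mem' hf hg g a := by simp only [Pi.add_apply, hf g a, hg g a, add_zero]
  zero_mem' _ _ := rfl
  smul_mem' r f hf g a := by
    simp only [Pi.smul_apply, smul_eq_mul, hf g a, mul_zero]

theorem mem_ZAI {I : Ins c} {k : c.A.Comp} {f : I.AW} :
    f ∈ ZAI I k ↔ ∀ g a, f (g, c.s0) a k = 0 := Iff.rfl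

/-- the mirror matrix exists -/
theorem exists_mir (h : Hyp I CG CT tt) : ∃ Mir : Matrix (c.C × I.n) I.n K,
    (∀ (A : Type) [AddCommGroup A] [Module K A] (Q : I.n → A) (Z : c.C × I.n → A),
      Mirror545.MirRel c.s0' c.bet I.gam (fun τ s' => Q (τ, s')) (fun s τ s' => Z (s, (τ, s'))) ↔
        Z = Level492.act Mir Q) ∧
    (∀ (A : Type) [AddCommGroup A] [Module K A] (Q : I.n → A), (∀ τ, Q (τ, c.s0') = 0) →
      ∀ s τ, Level492.act Mir Q (s, (τ, c.s0')) = 0) := by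
  obtain ⟨ι, _, α, P, Lm, hP, hbet, hL⟩ := h.mirror
  refine ⟨MirMat827.mirMat c.s0' α P hP I.gam hL, ?_, ?_⟩
  · intro A _ _ Q Z
    rw [hbet]
    exact MirMat827.mirMat_iff c.s0' α P hP I.gam hL Q Z
  · intro A _ _ Q hQ s τ
    exact MirMat827.mirMat_H c.s0' α P hP I.gam hL Q hQ s τ

/-- the mirror matrix -/
noncomputable def mirI (h : Hyp I CG CT tt) : Matrix (c.C × I.n) I.n K := (exists_mir h).choose

theorem mirI_iff (h : Hyp I CG CT tt) (A : Type) [AddCommGroup A] [Module K A] (Q : I.n → A)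
    (Z : c.C × I.n → A) :
    Mirror545.MirRel c.s0' c.bet I.gam (fun τ s' => Q (τ, s')) (fun s τ s' => Z (s, (τ, s'))) ↔
      Z = Level492.act (mirI h) Q := (exists_mir h).choose_spec.1 A Q Z

theorem mirI_H (h : Hyp I CG CT tt) (A : Type) [AddCommGroup A] [Module K A] (Q : I.n → A)
    (hQ : ∀ τ, Q (τ, c.s0') = 0) (s : c.C) (τ : I.T) :
    Level492.act (mirI h) Q (s, (τ, c.s0')) = 0 := (exists_mir h).choose_spec.2 A Q hQ s τ

theorem act_mU (X : I.n → I.AW) (p : I.n) : Level492.act I.mU X p = I.one p • X p := by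
  unfold Level492.act Ins.mU
  rw [Finset.sum_eq_single p]
  · rw [Matrix.diagonal_apply_eq]
  · intro q _ hq
    rw [Matrix.diagonal_apply_ne _ (Ne.symm hq), zero_smul]
  · intro hp; exact absurd (mem_univ _) hp

/-- T-side -/
noncomputable def td (h : Hyp I CG CT tt) :
    TD K c.A.Comp I.Γ I.Om (cd h).h0 I.n (c.C × I.n) I.AW
      (I.Om × Fin (c.r + 1) × c.A.Comp) where
  Λ := I.Lam
  emb := embI I
  φ := phiI I
  φ_sep := fun a ha => by funext ω i m; exact ha (ω, i, m)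
  ZA := ZAI I
  Λ_Z := fun k f hf g a => by
    show ∑ j, ∑ b, c.lam j a b * f (I.pm (I.mv j) (g, c.s0)) b k = 0
    refine Finset.sum_eq_zero fun j _ => Finset.sum_eq_zero fun b _ => ?_
    have : f (I.mv j g, c.s0) b k = 0 := hf _ _
    show c.lam j a b * f (I.mv j g, c.s0) b k = 0
    rw [this, mul_zero]
  emb_Z := fun w k => by
    constructor
    · intro hz g
      have h1 : (if (0 : Fin (c.r + 1)) = 0 then w k (g, c.s0) else 0) = 0 := hz g 0
      rw [if_pos rfl] at h1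
      exact h1
    · intro hz g a
      show (if a = 0 then w k (g, c.s0) else 0) = 0
      split_ifs
      · exact hz g
      · rfl
  U := I.mU
  N1 := I.mN1
  N2 := I.mN2
  Mir := mirI h
  MR := fun Q Z => I.Mir Q (fun s p => Z (s, p))
  MR_iff := fun Q Z => mirI_iff h I.AW Q Z
  L := I.L
  pos := fun i => (tt i, c.s0')
  H := {p | p.2 = c.s0'}
  Hm := {p | p.2.2 = c.s0'}
  pos_H := fun _ _ => rfl
  walk :=
    { U_pos := fun i _ X => by rw [act_mU, h.one_c, one_smul]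
      N1_pos := fun i hi X => h.N1_on i hi X
      N1_end := fun X => h.N1_off _ (fun i hi he => by
        have := h.tt_inj _ _ le_rfl hi.le he
        omega) X
      N2_pos := fun i hi X => h.N2_on i hi X
      N2_end := fun i hi h2 X => h.N2_off _ (fun j hj he => by
        have := h.tt_inj _ _ hi (by omega) he
        omega) X }
  off_U := fun j hj _ X => by
    obtain ⟨τ, s⟩ := j
    have hs : s = c.s0' := hj
    subst hs
    rw [act_mU, h.one_c, one_smul]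
  off_N1 := fun j hj hoff X => by
    obtain ⟨τ, s⟩ := j
    have hs : s = c.s0' := hj
    subst hs
    exact h.N1_off τ (fun i hi he => hoff i hi.le (by rw [he])) X
  off_N2 := fun j hj hoff X => by
    obtain ⟨τ, s⟩ := j
    have hs : s = c.s0' := hj
    subst hs
    exact h.N2_off τ (fun i hi he => hoff i (by omega) (by rw [he])) X
  VT := CT 1
  VT_rig := fun f hf hz => h.trig f hf (fun τ => hz (τ, c.s0') rfl)
  D := I.D
  D_mem := fun t _ => h.tD t
  D_pos := fun t i ht hi => by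
    rw [h.D_c t ht]
    by_cases hit : i = t
    · subst hit; simp
    · rw [if_neg hit, if_neg]
      intro he
      exact hit (h.tt_inj _ _ hi ht he)
  D_off := fun t ht j hj hoff => by
    obtain ⟨τ, s⟩ := j
    have hs : s = c.s0' := hj
    subst hs
    rw [h.D_c t ht, if_neg]
    intro he
    exact hoff t ht (by rw [he])
  mir_H := fun Q hQ j hj => by
    obtain ⟨s, τ, s'⟩ := j
    have hs : s' = c.s0' := hj
    subst hs
    exact mirI_H h I.AW Q (fun τ => hQ (τ, c.s0') rfl) s τ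

end side

/-! ### code words -/

section words
variable (I : Ins c) (CG : ℕ → Submodule K (I.Om → K)) (CT : ℕ → Submodule K (I.n → K))

/-- bundle words of the product code of degrees `d`, `e` -/
def InPC (d e : ℕ) (X : I.n → I.AW) : Prop :=
  (∀ p a m, (fun ω => X p ω a m) ∈ CG d) ∧ ∀ ω a m, (fun p => X p ω a m) ∈ CT e

/-- certificate words in the codes -/
def InZ (z : I.ZW) : Prop :=
  (InPC I CG CT 4 1 z.X ∧ InPC I CG CT 4 1 z.Xm) ∧
    ((∀ s, InPC I CG CT 4 2 (z.Z s)) ∧ ∀ s, InPC I CG CT 4 2 (z.Zm s))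

/-- content words in the codes -/
abbrev XS : Type := {x : I.XW // ∀ i, x.2 i ∈ CG 1}

/-- certificates in the codes -/
abbrev ZS : Type := {z : I.ZW // InZ I CG CT z}

end words

section closure
variable {I : Ins c} {CG : ℕ → Submodule K (I.Om → K)} {CT : ℕ → Submodule K (I.n → K)}
  {tt : ℕ → I.T}

theorem InPC.add {d e : ℕ} {X Y : I.n → I.AW} (hX : InPC I CG CT d e X)
    (hY : InPC I CG CT d e Y) : InPC I CG CT d e (fun p => X p + Y p) :=
  ⟨fun p a m => (CG d).add_mem (hX.1 p a m) (hY.1 p a m),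
    fun ω a m => (CT e).add_mem (hX.2 ω a m) (hY.2 ω a m)⟩

theorem InPC.sub {d e : ℕ} {X Y : I.n → I.AW} (hX : InPC I CG CT d e X)
    (hY : InPC I CG CT d e Y) : InPC I CG CT d e (fun p => X p - Y p) :=
  ⟨fun p a m => (CG d).sub_mem (hX.1 p a m) (hY.1 p a m),
    fun ω a m => (CT e).sub_mem (hX.2 ω a m) (hY.2 ω a m)⟩

theorem InPC.zero {d e : ℕ} : InPC I CG CT d e (fun _ => 0) :=
  ⟨fun _ _ _ => (CG d).zero_mem, fun _ _ _ => (CT e).zero_mem⟩

theorem InPC.lam (h : Hyp I CG CT tt) {d e : ℕ} {X : I.n → I.AW} (hX : InPC I CG CT d e X) :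
    InPC I CG CT d e (fun p => I.Lam (X p)) := by
  constructor
  · intro p a m
    have : (fun ω => I.Lam (X p) ω a m)
        = ∑ j, ∑ b, c.lam j a b • fun ω => X p (I.pm (I.mv j) ω) b m := by
      funext ω
      simp only [Ins.Lam, LinearMap.coe_mk, AddHom.coe_mk, Finset.sum_apply, Pi.smul_apply,
        smul_eq_mul]
    rw [this]
    exact (CG d).sum_mem fun j _ => (CG d).sum_mem fun b _ =>
      (CG d).smul_mem _ (h.gmv j d _ (hX.1 p b m))
  · intro ω a m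
    have : (fun p => I.Lam (X p) ω a m)
        = ∑ j, ∑ b, c.lam j a b • fun p => X p (I.pm (I.mv j) ω) b m := by
      funext p
      simp only [Ins.Lam, LinearMap.coe_mk, AddHom.coe_mk, Finset.sum_apply, Pi.smul_apply,
        smul_eq_mul]
    rw [this]
    exact (CT e).sum_mem fun j _ => (CT e).sum_mem fun b _ => (CT e).smul_mem _ (hX.2 _ b m)

theorem InPC.ten {d e : ℕ} {E : I.n → K} (hE : E ∈ CT e) {w : I.AW}
    (hw : ∀ a m, (fun ω => w ω a m) ∈ CG d) : InPC I CG CT d e (I.ten E w) := by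
  constructor
  · intro p a m
    have : (fun ω => I.ten E w p ω a m) = E p • fun ω => w ω a m := by
      funext ω; rfl
    rw [this]
    exact (CG d).smul_mem _ (hw a m)
  · intro ω a m
    have : (fun p => I.ten E w p ω a m) = w ω a m • E := by
      funext p
      show E p * w ω a m = w ω a m * E p
      exact mul_comm _ _
    rw [this]
    exact (CT e).smul_mem _ hE

theorem wv_mem (h : Hyp I CG CT tt) (x : I.XW) (hx : ∀ i, x.2 i ∈ CG 1) (a : Fin (c.r + 1))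
    (m : c.A.Comp) : (fun ω => I.wv x.2 ω a m) ∈ CG 4 := by
  by_cases ha : a = 0
  · have : (fun ω => I.wv x.2 ω a m) = I.evalW (c.A.comp m) x.2 := by
      funext ω; simp [Ins.wv, ha]
    rw [this]
    exact WordC880.evalC_mem (fun g => I.pm (I.act g)) CG h.gmul h.gtr h.gti I.pubP x.2 h.gpub hx
      _ 4 (h.wf.comp_hom m)
  · have : (fun ω => I.wv x.2 ω a m) = 0 := by
      funext ω; simp [Ins.wv, ha]
    rw [this]
    exact (CG 4).zero_mem

theorem lam_mem (h : Hyp I CG CT tt) {w : I.AW} {d : ℕ} (hw : ∀ a m, (fun ω => w ω a m) ∈ CG d)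
    (a : Fin (c.r + 1)) (m : c.A.Comp) : (fun ω => I.Lam w ω a m) ∈ CG d := by
  have : (fun ω => I.Lam w ω a m) = ∑ j, ∑ b, c.lam j a b • fun ω => w (I.pm (I.mv j) ω) b m := by
    funext ω
    simp only [Ins.Lam, LinearMap.coe_mk, AddHom.coe_mk, Finset.sum_apply, Pi.smul_apply,
      smul_eq_mul]
  rw [this]
  exact (CG d).sum_mem fun j _ => (CG d).sum_mem fun b _ =>
    (CG d).smul_mem _ (h.gmv j d _ (hw b m))

theorem push_mem (h : Hyp I CG CT tt) (t : ℕ) (x : XS I CG) (z : ZS I CG CT) :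
    InZ I CG CT (I.push t x.1 z.1) := by
  have hw := wv_mem h x.1 x.2
  have hlw := lam_mem h hw
  exact ⟨⟨((z.2.1.1.lam h).add z.2.1.2).add (InPC.ten (h.tD _) hw), z.2.1.1⟩,
    ⟨fun s => ((((z.2.2.1 s).lam h).add (z.2.2.2 s)).add (InPC.ten (h.tA t s) hlw)).add
      (InPC.ten (h.tB t s) hw), z.2.2.1⟩⟩

theorem pop_mem (h : Hyp I CG CT tt) (t : ℕ) (x : XS I CG) (z : ZS I CG CT) :
    InZ I CG CT (I.pop t x.1 z.1) := by
  have hw := wv_mem h x.1 x.2
  have hlw := lam_mem h hw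
  exact ⟨⟨z.2.1.2, (z.2.1.1.sub (z.2.1.2.lam h)).sub (InPC.ten (h.tD _) hw)⟩,
    ⟨z.2.2.2, fun s => (((z.2.2.1 s).sub ((z.2.2.2 s).lam h)).sub
      (InPC.ten (h.tA t s) hlw)).sub (InPC.ten (h.tB t s) hw)⟩⟩

theorem ent_mem (h : Hyp I CG CT tt) (x : XS I CG) : InZ I CG CT (I.ent x.1) := by
  have hw := wv_mem h x.1 x.2
  have hlw := lam_mem h hw
  exact ⟨⟨InPC.ten (h.tD _) hw, InPC.zero⟩,
    ⟨fun s => (InPC.ten (h.tA0 s) hlw).add (InPC.ten (h.tB0 s) hw), fun _ => InPC.zero⟩⟩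

theorem zz_mem : InZ I CG CT I.zz := ⟨⟨InPC.zero, InPC.zero⟩, ⟨fun _ => InPC.zero, fun _ => InPC.zero⟩⟩

/-! ### the instance -/

/-- repackaging of certificates -/
def ofZ (I : Ins c) (z : TD.Zc I.n (c.C × I.n) I.AW) : I.ZW :=
  ⟨z.1.1, z.1.2, fun s p => z.2.1 (s, p), fun s p => z.2.2 (s, p)⟩

def toZ (I : Ins c) (z : I.ZW) : TD.Zc I.n (c.C × I.n) I.AW :=
  ((z.X, z.Xm), (fun i => z.Z i.1 i.2, fun i => z.Zm i.1 i.2))

theorem toZ_inj {z z' : I.ZW} (h : toZ I z = toZ I z') : z = z' := by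
  have h1 := congrArg (ofZ I) h
  exact h1

theorem mulVec_act {m n : Type} [Fintype n] (k : Matrix m n K) (X : n → K) :
    k.mulVec X = Level492.act k X := by
  funext i
  simp [Matrix.mulVec, dotProduct, Level492.act]

theorem tA_eq (h : Hyp I CG CT tt) (t : ℕ) (s : c.C) (p : I.n) :
    (td h).tA t (s, p) = I.A t s p := by
  have h1 := (mirI_iff h K (Level492.kap I.mU I.mN1 I.D t) (fun i => I.A t i.1 i.2)).1 (h.hA t)
  show (mirI h).mulVec (Level492.kap I.mU I.mN1 I.D t) (s, p) = _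
  rw [mulVec_act]
  exact (congrFun h1 (s, p)).symm

theorem tB_eq (h : Hyp I CG CT tt) (t : ℕ) (s : c.C) (p : I.n) :
    (td h).tB t (s, p) = I.B t s p := by
  have h1 := (mirI_iff h K (Level492.kap' I.mU I.mN2 I.D t) (fun i => I.B t i.1 i.2)).1 (h.hB t)
  show (mirI h).mulVec (Level492.kap' I.mU I.mN2 I.D t) (s, p) = _
  rw [mulVec_act]
  exact (congrFun h1 (s, p)).symm

theorem tA0_eq (h : Hyp I CG CT tt) (s : c.C) (p : I.n) :
    -((td h).tA0 (s, p)) = I.A0 s p := by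
  have h1 := (mirI_iff h K (-(I.mN1.mulVec (I.D 0))) (fun i => I.A0 i.1 i.2)).1 h.hA0
  show -((mirI h).mulVec (I.mN1.mulVec (I.D 0)) (s, p)) = _
  rw [mulVec_act, ← Pi.neg_apply, ← Level492.act_neg]
  exact (congrFun h1 (s, p)).symm

theorem tB0_eq (h : Hyp I CG CT tt) (s : c.C) (p : I.n) :
    -((td h).tB0 (s, p)) = I.B0 s p := by
  have h1 := (mirI_iff h K (-(I.mN2.mulVec (I.D 0))) (fun i => I.B0 i.1 i.2)).1 h.hB0
  show -((mirI h).mulVec (I.mN2.mulVec (I.D 0)) (s, p)) = _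
  rw [mulVec_act, ← Pi.neg_apply, ← Level492.act_neg]
  exact (congrFun h1 (s, p)).symm

/-- the bundle of components in both forms -/
theorem wv_eq (h : Hyp I CG CT tt) (x : I.XW) : wv (cd h) (td h) x = I.wv x.2 := rfl

theorem push_eq (h : Hyp I CG CT tt) (t : ℕ) (x : I.XW) (z : I.ZW) :
    toZ I (I.push t x z) = (td h).pushZ (I.wv x.2) t (toZ I z) := by
  refine Prod.ext rfl (Prod.ext ?_ rfl)
  funext i
  show I.Lam (z.Z i.1 i.2) + z.Zm i.1 i.2 + I.A t i.1 i.2 • I.Lam (I.wv x.2)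
    + I.B t i.1 i.2 • I.wv x.2 = I.Lam (z.Z i.1 i.2) + z.Zm i.1 i.2
    + (td h).tA t i • I.Lam (I.wv x.2) + (td h).tB t i • I.wv x.2
  rw [← tA_eq h t i.1 i.2, ← tB_eq h t i.1 i.2]

theorem pop_eq (h : Hyp I CG CT tt) (t : ℕ) (x : I.XW) (z : I.ZW) :
    toZ I (I.pop t x z) = (td h).popZ (I.wv x.2) t (toZ I z) := by
  refine Prod.ext rfl (Prod.ext rfl ?_)
  funext i
  show z.Z i.1 i.2 - I.Lam (z.Zm i.1 i.2) - I.A t i.1 i.2 • I.Lam (I.wv x.2)
    - I.B t i.1 i.2 • I.wv x.2 = z.Z i.1 i.2 - I.Lam (z.Zm i.1 i.2)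
    - (td h).tA t i • I.Lam (I.wv x.2) - (td h).tB t i • I.wv x.2
  rw [← tA_eq h t i.1 i.2, ← tB_eq h t i.1 i.2]

theorem ent_eq (h : Hyp I CG CT tt) (x : I.XW) :
    toZ I (I.ent x) = (td h).entZ (I.wv x.2) := by
  refine Prod.ext rfl (Prod.ext ?_ rfl)
  funext i
  show I.A0 i.1 i.2 • I.Lam (I.wv x.2) + I.B0 i.1 i.2 • I.wv x.2
    = -((td h).tA0 i • I.Lam (I.wv x.2)) - (td h).tB0 i • I.wv x.2
  rw [← tA0_eq h i.1 i.2, ← tB0_eq h i.1 i.2, neg_smul, neg_smul, sub_eq_add_neg]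

/-- certificates, by pushing -/
def certS (h : Hyp I CG CT tt) (x : XS I CG) : ℕ → ZS I CG CT
  | 0 => ⟨I.ent x.1, ent_mem h x⟩
  | t + 1 => ⟨I.push t x.1 (certS h x t).1, push_mem h t x (certS h x t)⟩

theorem certS_eq (h : Hyp I CG CT tt) (x : XS I CG) (t : ℕ) :
    toZ I (certS h x t).1 = (td h).certZ (I.wv x.1.2) t := by
  induction t with
  | zero =>
    show toZ I (I.ent x.1) = _
    rw [ent_eq h, (td h).ent_certZ]
  | succ t ih =>
    show toZ I (I.push t x.1 (certS h x t).1) = _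
    rw [push_eq h, ih, (td h).push_certZ]

theorem pop_certS (h : Hyp I CG CT tt) (x : XS I CG) (t : ℕ) :
    (⟨I.pop t x.1 (certS h x (t + 1)).1, pop_mem h t x _⟩ : ZS I CG CT) = certS h x t := by
  apply Subtype.ext
  apply toZ_inj
  show toZ I (I.pop t x.1 (certS h x (t + 1)).1) = _
  rw [pop_eq h, certS_eq, (td h).pop_certZ, certS_eq]

/-- rows of code words are words of the T-object -/
theorem inT_of_PC (h : Hyp I CG CT tt) {d : ℕ} {X : I.n → I.AW} (hX : InPC I CG CT d 1 X) :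
    (td h).InT X := fun y => hX.2 y.1 y.2.1 y.2.2

theorem rec_iffS (h : Hyp I CG CT tt) (t : ℕ) (x : XS I CG) (z : ZS I CG CT) (ht : t ≤ I.L) :
    I.Rec t x.1 z.1 ↔ z = certS h x t := by
  have key : I.Rec t x.1 z.1 ↔ (td h).RecZ (I.wv x.1.2) t (toZ I z.1) := by
    constructor
    · rintro ⟨h1, h2, h3, h4, h5, h6⟩
      refine ⟨⟨inT_of_PC h z.2.1.1, inT_of_PC h z.2.1.2⟩, ⟨h1, h2⟩, ⟨?_, ?_⟩, ⟨?_, ?_⟩⟩
      · rintro ⟨τ, s⟩ hs
        have hs' : s = c.s0' := hs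
        subst hs'
        exact h3 τ
      · rintro ⟨s, τ, s'⟩ hs
        have hs' : s' = c.s0' := hs
        subst hs'
        exact h5 s τ
      · rintro ⟨τ, s⟩ hs
        have hs' : s = c.s0' := hs
        subst hs'
        exact h4 τ
      · rintro ⟨s, τ, s'⟩ hs
        have hs' : s' = c.s0' := hs
        subst hs'
        exact h6 s τ
    · rintro ⟨-, ⟨h1, h2⟩, ⟨h3, h5⟩, ⟨h4, h6⟩⟩
      exact ⟨h1, h2, fun τ => h3 (τ, c.s0') rfl, fun τ => h4 (τ, c.s0') rfl,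
        fun s τ => h5 (s, τ, c.s0') rfl, fun s τ => h6 (s, τ, c.s0') rfl⟩
  rw [key, (td h).recZ_iff _ t ht, ← certS_eq h x t]
  exact ⟨fun e => Subtype.ext (toZ_inj e), fun e => by rw [e]⟩

theorem cz_iff {I : Ins c} (z : I.ZW) (m : c.A.Comp) : I.CZ z m ↔ ∀ p, z.X p ∈ ZAI I m := by
  constructor
  · intro h p g a; exact h p g a
  · intro h p g a; exact h p g a

theorem st_iffS (h : Hyp I CG CT tt) (x : XS I CG) :
    I.St x.1 (certS h x I.L).1 ↔ (cd h).IsL x.1 := by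
  rw [← stZ_iff (cd h) (td h) h.wf x.1]
  have e := certS_eq h x I.L
  have eX : ∀ p, (certS h x I.L).1.X p = ((td h).certZ (I.wv x.1.2) I.L).1.1 p := fun p =>
    congrFun (congrArg (fun z => z.1.1) e) p
  constructor
  · rintro ⟨h1, h2⟩
    refine ⟨x.2, h2, fun k hk j => ?_⟩
    have := (cz_iff _ _).1 (h1 k hk) j
    rw [eX] at this
    exact this
  · rintro ⟨-, h2, h3⟩
    refine ⟨fun k hk => (cz_iff _ _).2 fun j => ?_, h2⟩
    rw [eX]
    exact h3 k hk j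

theorem en_iffS (h : Hyp I CG CT tt) (ρ : c.A.Tr) (x : XS I CG) (hx : (cd h).IsL x.1) :
    I.En ρ x.1 (certS h x I.L).1 ↔ (cd h).en ρ x.1 := by
  rw [← enZ_iff (cd h) (td h) h.wf ρ x.1 hx]
  have e := certS_eq h x I.L
  have eX : ∀ p, (certS h x I.L).1.X p = ((td h).certZ (I.wv x.1.2) I.L).1.1 p := fun p =>
    congrFun (congrArg (fun z => z.1.1) e) p
  constructor
  · rintro ⟨h0, h1, h2⟩
    refine ⟨h0, h2, fun k hk j => ?_⟩
    have := (cz_iff _ _).1 (h1 k hk) j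
    rw [eX] at this
    exact this
  · rintro ⟨h0, h2, h3⟩
    refine ⟨h0, fun k hk => (cz_iff _ _).2 fun j => ?_, h2⟩
    rw [eX]
    exact h3 k hk j

theorem bk_iffS (h : Hyp I CG CT tt) (ρ : c.A.Tr) (x : XS I CG) (hx : (cd h).IsL x.1) :
    I.Bk ρ x.1 (certS h x I.L).1 ↔ (cd h).bk ρ x.1 := by
  rw [← bkZ_iff (cd h) (td h) h.wf ρ x.1 hx]
  have e := certS_eq h x I.L
  have eX : ∀ p, (certS h x I.L).1.X p = ((td h).certZ (I.wv x.1.2) I.L).1.1 p := fun p =>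
    congrFun (congrArg (fun z => z.1.1) e) p
  constructor
  · rintro ⟨h0, h1, h2⟩
    refine ⟨h0, h2, fun k hk j => ?_⟩
    have := (cz_iff _ _).1 (h1 k hk) j
    rw [eX] at this
    exact this
  · rintro ⟨h0, h2, h3⟩
    refine ⟨h0, fun k hk => (cz_iff _ _).2 fun j => ?_, h2⟩
    rw [eX]
    exact h3 k hk j

/-- the update words in both forms -/
theorem up_memS (h : Hyp I CG CT tt) (ρ : c.A.Tr) (x : XS I CG) : ∀ i, (I.up ρ x.1).2 i ∈ CG 1 :=
  (cd h).up_mem h.wf ρ x.2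

theorem dn_memS (h : Hyp I CG CT tt) (ρ : c.A.Tr) (x : XS I CG) : ∀ i, (I.dn ρ x.1).2 i ∈ CG 1 :=
  (cd h).dn_mem h.wf ρ x.2

/-- **the labelled machine over the literal words of DefI** -/
def lmI (h : Hyp I CG CT tt) (hx0 : c.A.Legal I.act I.pubC I.stg0 (I.con I.xs))
    (hb0 : ∀ ρ, ¬ (I.stg0 = c.A.tgt ρ ∧ c.A.Bk I.act I.pubC ρ (I.con I.xs))) :
    LM (XS I CG) (ZS I CG CT) c.A.Tr where
  L := I.L
  x0 := ⟨I.xs, h.gx0⟩
  xz := ⟨I.xz, fun _ => (CG 1).zero_mem⟩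
  zz := ⟨I.zz, zz_mem⟩
  IsL x := (cd h).IsL x.1
  en ρ x := (cd h).en ρ x.1
  bk ρ x := (cd h).bk ρ x.1
  up ρ x := ⟨I.up ρ x.1, up_memS h ρ x⟩
  dn ρ x := ⟨I.dn ρ x.1, dn_memS h ρ x⟩
  cert x t := certS h x t
  push t x z := ⟨I.push t x.1 z.1, push_mem h t x z⟩
  pop t x z := ⟨I.pop t x.1 z.1, pop_mem h t x z⟩
  ent x := ⟨I.ent x.1, ent_mem h x⟩
  Rec t x z := I.Rec t x.1 z.1
  St x z := I.St x.1 z.1
  En ρ x z := I.En ρ x.1 z.1
  Bk ρ x z := I.Bk ρ x.1 z.1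
  isL0 := ⟨h.gx0, hx0⟩
  bk0 := fun ρ hρ => hb0 ρ hρ
  fwd ρ x hx he := by
    obtain ⟨h1, h2, h3⟩ := (cd h).fwd h.wf h.ok ρ x.1 hx he
    exact ⟨h1, h2, Subtype.ext h3⟩
  bwd ρ x hx he := by
    obtain ⟨h1, h2, h3⟩ := (cd h).bwd h.wf h.ok ρ x.1 hx he
    exact ⟨h1, h2, Subtype.ext h3⟩
  en_uniq ρ ρ' x hx := (cd h).en_uniq h.ok ρ ρ' x.1 hx
  bk_uniq ρ ρ' x hx := (cd h).bk_uniq h.ok ρ ρ' x.1 hx
  push_cert t x _ := rfl
  pop_cert t x _ := pop_certS h x t
  ent_cert x := rfl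
  Rec_iff t x z ht := rec_iffS h t x z ht
  St_iff x := st_iffS h x
  En_iff ρ x hx := en_iffS h ρ x hx
  Bk_iff ρ x hx := bk_iffS h ρ x hx

end closure

end Crest.Agent.R289.LMI827
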