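import Crest.Agent.R289.InsObj_576
import Crest.Agent.R289.LMI_827
import Crest.Agent.R289.C1_435

/-!
# Row 289, block C: the hypotheses `LMI827.Hyp` of the literal machine for the object instance

`InsObj576.ins h W kP kR kT P lay` (content group `P kP × P kR`, `T = P kT`) satisfies
`LMI827.Hyp` with the codes `CG D kP kR` and `CT D kT`, walk `P.tt`, as soon as the layout is OK.

* `CG_mul`, `CG_lt`, `CG_rig`; `word_lin`; `encG_mem`, `encG_s0`, `eq_encG`, `encG_lt`;
* `mU_eq`, `mN1_eq`, `mN2_eq`; mirror tables; contents `pubC_eq`, `con_xs`;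
* `hyp`; `hx0` (the start state is legal), `hb0` (no backward label at the start state).
-/

set_option autoImplicit false

namespace Crest.Agent.R289.HypObj146

open Finset Crest.Agent.R289.Asm12 Crest.Agent.R289.DefC Crest.Agent.R289.DefI
  Crest.Agent.R289.BootC515 Crest.Agent.R289.FinB263 Crest.Agent.R289.InsObj576
open Crest.Agent.R289.TOInst112 (Sy s0 tO)

/-! ### words of the content group -/

section words
variable {D : Obj} {M0 : ℕ} {lam0 Kr : ℝ} (h : D.OK M0 lam0 Kr) {kP kR : ℕ}

include h in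
theorem CG_mul {a b : ℕ} {f g : (D.P kP × D.P kR) × SG D → D.K} (hf : f ∈ CG D kP kR a)
    (hg : g ∈ CG D kP kR b) : (fun x => f x * g x) ∈ CG D kP kR (a + b) :=
  ⟨fun g' s' => TOInst112.Cm_mul h (hf.1 g' s') (hg.1 g' s'),
    fun u s => TOInst112.Cm_mul h (hf.2 u s) (hg.2 u s)⟩

/-- left translations -/
theorem CG_lt {d : ℕ} (a : D.P kP × D.P kR) {f : (D.P kP × D.P kR) × SG D → D.K}
    (hf : f ∈ CG D kP kR d) : (fun x => f (a * x.1, x.2)) ∈ CG D kP kR d :=
  ⟨fun g' s' => TOInst112.Cm_lt (hf.1 (a.2 * g') s') a.1,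
    fun u s => TOInst112.Cm_lt (hf.2 (a.1 * u) s) a.2⟩

include h in
/-- words of degree one are determined by their contents -/
theorem CG_rig {f : (D.P kP × D.P kR) × SG D → D.K} (hf : f ∈ CG D kP kR 1)
    (h0 : ∀ g, f (g, sG D) = 0) : f = 0 := by
  have h1 : ∀ (u : D.P kP) (g' : D.P kR) (s' : Sy D), f ((u, g'), (s0 D, s')) = 0 := by
    intro u g' s'
    have := TOInst112.Cm_inj h (hf.2 u (s0 D)) fun t => h0 (u, t)
    exact congrFun (congrFun this g') s'
  funext x
  obtain ⟨⟨g, g'⟩, s, s'⟩ := x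
  have := TOInst112.Cm_inj h (hf.1 g' s') fun t => h1 t g' s'
  exact congrFun (congrFun this g) s

/-- the word of given contents is linear in the contents -/
theorem word_lin (k : ℕ) (c : D.P k → D.K) (t : D.P k) (s : Sy D) :
    (tO h k).word c t s = ∑ x, c x * (tO h k).word (fun y => if y = x then 1 else 0) t s := by
  have h1 : (tO h k).word c
      = ∑ x, c x • (tO h k).word (fun y => if y = x then (1 : D.K) else 0) := by
    refine sub_eq_zero.1 ((tO h k).inj _ ((tO h k).C1.sub_mem ((tO h k).word_mem c)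
      (Submodule.sum_mem _ fun x _ => (tO h k).C1.smul_mem _ ((tO h k).word_mem _))) fun y => ?_)
    simp only [Pi.sub_apply, Finset.sum_apply, Pi.smul_apply, smul_eq_mul, (tO h k).word_s0]
    simp
  have h2 := congrFun (congrFun h1 t) s
  simpa only [Finset.sum_apply, Pi.smul_apply, smul_eq_mul] using h2

theorem encG_mem (c : D.P kP × D.P kR → D.K) : encG h kP kR c ∈ CG D kP kR 1 := by
  refine ⟨fun g' s' => ?_, fun u s =>
    (tO h kR).word_mem fun g' => (tO h kP).word (fun g => c (g, g')) u s⟩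
  have h1 : (fun (u : D.P kP) (s : Sy D) => encG h kP kR c ((u, g'), (s, s')))
      = ∑ x, (tO h kR).word (fun y => if y = x then (1 : D.K) else 0) g' s' •
          (tO h kP).word (fun g => c (g, x)) := by
    funext u s
    simp only [encG, Finset.sum_apply, Pi.smul_apply, smul_eq_mul]
    rw [word_lin h kR]
    exact sum_congr rfl fun x _ => mul_comm _ _
  rw [h1]
  exact Submodule.sum_mem _ fun x _ => Submodule.smul_mem _ _ ((tO h kP).word_mem _)

theorem encG_s0 (c : D.P kP × D.P kR → D.K) (g : D.P kP × D.P kR) :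
    encG h kP kR c (g, sG D) = c g := by
  show (tO h kR).word (fun g' => (tO h kP).word (fun g => c (g, g')) g.1 (s0 D)) g.2 (s0 D) = c g
  have h1 : ∀ (k : ℕ) (c : D.P k → D.K) (t : D.P k), (tO h k).word c t (s0 D) = c t :=
    fun k c t => (tO h k).word_s0 c t
  rw [h1, h1]

/-- a word of degree one is the word of its contents -/
theorem eq_encG {f : (D.P kP × D.P kR) × SG D → D.K} (hf : f ∈ CG D kP kR 1) :
    f = encG h kP kR fun g => f (g, sG D) :=
  sub_eq_zero.1 (CG_rig h ((CG D kP kR 1).sub_mem hf (encG_mem h _)) fun g => by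
    rw [Pi.sub_apply, encG_s0, sub_self])

/-- the encoder commutes with left translations -/
theorem encG_lt (c : D.P kP × D.P kR → D.K) (a : D.P kP × D.P kR) :
    encG h kP kR (fun g => c (a * g)) = fun x => encG h kP kR c (a * x.1, x.2) := by
  rw [eq_encG h (CG_lt a (encG_mem h c))]
  congr 1
  funext g
  exact (encG_s0 h c (a * g)).symm

end words

/-! ### codes of the T-object -/

/-- the code of degree `d` at level `k`, as functions of points -/
def CT (D : Obj) (k d : ℕ) : Submodule D.K (D.P k × Sy D → D.K) :=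
  (TOInst112.Cm D k d).comap (LinearEquiv.curry D.K D.K (D.P k) (Sy D)).toLinearMap

theorem mem_CT {D : Obj} {k d : ℕ} {f : D.P k × Sy D → D.K} :
    f ∈ CT D k d ↔ (fun t s => f (t, s)) ∈ TOInst112.Cm D k d := Iff.rfl

/-! ### the instance -/

section inst
variable {D : Obj} {M0 : ℕ} {lam0 Kr : ℝ} (h : D.OK M0 lam0 Kr) {W kP kR kT : ℕ}
  (P : TSide492.Path (D.P kT) (Fin W) (Fin W × Fin W))
  (lay : Layout (D.P kP × D.P kR) (G D) (Fin 28) 128)

theorem mU_eq : (ins h W kP kR kT P lay).mU = TSide492.Um (tO h kT) := by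
  show Matrix.diagonal (fun p : D.P kT × Sy D => TSide492.Uw (tO h kT) p.1 p.2)
    = TSide492.Um (tO h kT)
  ext p q
  rw [Matrix.diagonal_apply]
  simp only [TSide492.Um, TSide492.stM, one_mul, univ_unique, sum_const, card_singleton, one_smul]
  by_cases hpq : p = q
  · subst hpq; simp
  · rw [if_neg hpq, if_neg]
    intro h'; exact hpq h'.symm

theorem mN1_eq : (ins h W kP kR kT P lay).mN1 = TSide492.N1 (tO h kT) P := rfl

theorem mN2_eq : (ins h W kP kR kT P lay).mN2 = TSide492.N2 (tO h kT) P := rfl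

/-- words of the T-object with values in `K` -/
theorem TW_K {C : Submodule D.K (D.P kT → Sy D → D.K)} {X : D.P kT × Sy D → D.K} :
    X ∈ TSide492.TW C D.K ↔ (fun t s => X (t, s)) ∈ C := by
  rw [TSide492.mem_TW]
  constructor
  · intro hX
    exact hX LinearMap.id
  · intro hX φ
    have : (fun (t : D.P kT) (s : Sy D) => φ (X (t, s))) = φ 1 • fun t s => X (t, s) := by
      funext t s
      have : φ (X (t, s)) = φ (X (t, s) • 1) := by rw [smul_eq_mul, mul_one]
      rw [this, map_smul, smul_eq_mul, mul_comm]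
      rfl
    rw [this]
    exact C.smul_mem _ hX

theorem Dw_mem (t : ℕ) : TSide492.Dw (tO h kT) P t ∈ TSide492.TW (tO h kT).C1 D.K :=
  TW_K.2 ((tO h kT).word_mem _)

theorem Dm_mem (t : ℕ) :
    Level492.Dm (TSide492.Dw (tO h kT) P) t ∈ TSide492.TW (tO h kT).C1 D.K := by
  cases t with
  | zero => exact Submodule.zero_mem _
  | succ t => exact Dw_mem h P t

theorem Um_mem {X : D.P kT × Sy D → D.K} (hX : X ∈ TSide492.TW (tO h kT).C1 D.K) :
    (TSide492.Um (tO h kT)).mulVec X ∈ TSide492.TW (tO h kT).C2 D.K := by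
  rw [TSide492.mulVec_eq_act]
  exact TSide492.stM_mem (tO h kT) (fun _ => (tO h kT).word_mem _) _ hX

theorem N1_mem {X : D.P kT × Sy D → D.K} (hX : X ∈ TSide492.TW (tO h kT).C1 D.K) :
    (TSide492.N1 (tO h kT) P).mulVec X ∈ TSide492.TW (tO h kT).C2 D.K := by
  rw [TSide492.mulVec_eq_act]
  exact TSide492.stM_mem (tO h kT) (fun _ => (tO h kT).word_mem _) _ hX

theorem N2_mem {X : D.P kT × Sy D → D.K} (hX : X ∈ TSide492.TW (tO h kT).C1 D.K) :
    (TSide492.N2 (tO h kT) P).mulVec X ∈ TSide492.TW (tO h kT).C2 D.K := by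
  rw [TSide492.mulVec_eq_act]
  exact TSide492.stM_mem (tO h kT) (fun _ => (tO h kT).word_mem _) _ hX

theorem kap_mem (t : ℕ) : Level492.kap (TSide492.Um (tO h kT)) (TSide492.N1 (tO h kT) P)
    (TSide492.Dw (tO h kT) P) t ∈ TSide492.TW (tO h kT).C2 D.K :=
  Submodule.sub_mem _ (Um_mem h (Dw_mem h P t)) (N1_mem h P (Dw_mem h P (t + 1)))

theorem kap'_mem (t : ℕ) : Level492.kap' (TSide492.Um (tO h kT)) (TSide492.N2 (tO h kT) P)
    (TSide492.Dw (tO h kT) P) t ∈ TSide492.TW (tO h kT).C2 D.K :=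
  Submodule.sub_mem _ (Um_mem h (Dm_mem h P t)) (N2_mem h P (Dw_mem h P (t + 1)))

theorem mat_mem {X : D.P kT × Sy D → D.K} (hX : X ∈ TSide492.TW (tO h kT).C2 D.K)
    (s : {s : Sy D // s ≠ s0 D}) :
    (fun p : D.P kT × Sy D => ((md h kT).mat.mulVec X) (s, p.1, p.2)) ∈ CT D kT 2 := by
  rw [TSide492.mulVec_eq_act]
  exact TW_K.1 ((md h kT).mat_mem (tO h kT).lt2 hX s)

theorem rel_mat (X : D.P kT × Sy D → D.K) :
    (md h kT).Rel (fun t s => X (t, s)) (fun c t s => ((md h kT).mat.mulVec X) (c, t, s)) := by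
  rw [TSide492.mulVec_eq_act]
  exact ((md h kT).rel_iff_mat X _).2 rfl

/-! ### contents -/

/-- contents of the public words -/
theorem pubC_eq (b : Pb (G D) (Fin 28) 128) :
    (ins h W kP kR kT P lay).pubC b = pubC lay D.K b := by
  funext g
  exact encG_s0 h _ g

/-- contents of the start registers -/
theorem con_xs : (ins h W kP kR kT P lay).con (ins h W kP kR kT P lay).xs
    = encC (act D kP kR) (26 : Fin 28) lay D.K .d 0 fun _ => false := by
  rw [startB (act D kP kR) (26 : Fin 28) lay (K := D.K) fun _ _ => 0]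
  funext i g
  show (ini (K := D.K) (G := G D) i).evalC (fun g => pmG (act D kP kR g))
    (pubW h kP kR lay) (fun _ _ => 0) (g, sG D) = _
  cases i <;> first | rfl | exact encG_s0 h _ g

/-! ### the hypotheses -/

variable (hlay : lay.OK (act D kP kR) (26 : Fin 28))
  (h0 : H0 (act D kP kR) (26 : Fin 28) lay)

include h hlay h0 in
theorem ok : (machB (K := D.K) (G := G D) (J := 128) (26 : Fin 28)).OK (act D kP kR)
    (pubC lay D.K) := by
  have : Fact D.p.Prime := ⟨h.prime⟩
  have : CharP D.K D.p := h.charP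
  exact C1435.machB_ok D.p h.odd hlay h0

include hlay h0 in
/-- **the hypotheses of the literal machine** -/
theorem hyp : LMI827.Hyp (ins h W kP kR kT P lay) (CG D kP kR) (CT D kT) P.tt where
  wf := machB_WF4 (26 : Fin 28)
  ok := by
    have e : (ins h W kP kR kT P lay).pubC = pubC lay D.K := funext fun b => pubC_eq h P lay b
    rw [e]
    exact ok h lay hlay h0
  gmul := fun _ _ _ _ hf hg => CG_mul h hf hg
  gtr := fun g _ _ hf => CG_lt (gv D kP kR g) hf
  gti := fun g _ _ hf => CG_lt (gv D kP kR g)⁻¹ hf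
  gmv := fun j _ _ hf => CG_lt (ga D kP kR j)⁻¹ hf
  grig := fun _ hf hc => CG_rig h hf hc
  gpub := fun _ => encG_mem h _
  gx0 := by
    intro i
    show (fun x => (ini (K := D.K) (G := G D) i).evalC (fun g => pmG (act D kP kR g))
      (pubW h kP kR lay) (fun _ _ => 0) x) ∈ CG D kP kR 1
    cases i <;> first | exact Submodule.zero_mem _ | exact encG_mem h _
  trig := by
    intro f hf hc
    have := TOInst112.Cm_inj h (mem_CT.1 hf) hc
    funext x
    exact congrFun (congrFun this x.1) x.2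
  tD := fun t => TW_K.1 (Dw_mem h P t)
  tA := fun t s => mat_mem h (kap_mem h P t) s
  tB := fun t s => mat_mem h (kap'_mem h P t) s
  tA0 := fun s => (CT D kT 2).neg_mem (mat_mem h (N1_mem h P (Dw_mem h P 0)) s)
  tB0 := fun s => (CT D kT 2).neg_mem (mat_mem h (N2_mem h P (Dw_mem h P 0)) s)
  one_c := fun τ => (tO h kT).word_s0 _ τ
  tt_inj := P.inj
  D_c := fun t _ τ => by
    exact TSide492.Dw_s0 (tO h kT) P t τ
  N1_on := fun i hi X => TSide492.act_N1_s0 (tO h kT) P X hi
  N1_off := fun τ hτ X => TSide492.act_N1_off (tO h kT) P X hτ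
  N2_on := fun i hi X => TSide492.act_N2_s0 (tO h kT) P X hi
  N2_off := fun τ hτ X => TSide492.act_N2_off (tO h kT) P X hτ
  hA := by
    intro t
    rw [mU_eq]
    exact rel_mat h _
  hB := by
    intro t
    rw [mU_eq]
    exact rel_mat h _
  hA0 := by
    have h1 := Mirror545.MirRel.neg (rel_mat h ((TSide492.N1 (tO h kT) P).mulVec
      (TSide492.Dw (tO h kT) P 0)))
    exact h1
  hB0 := by
    have h1 := Mirror545.MirRel.neg (rel_mat h ((TSide492.N2 (tO h kT) P).mulVec
      (TSide492.Dw (tO h kT) P 0)))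
    exact h1
  mirror := ⟨ObjApi12.Cn D 1, inferInstance, ObjApi12.alpha D 1, Pm h, (nil h kT).choose,
    Pm_spec h, rfl, (nil h kT).choose_spec⟩

theorem con_xs_eq (r : Rg (Fin 28) 128 → D.P kP × D.P kR → D.K) :
    (ins h W kP kR kT P lay).con (ins h W kP kR kT P lay).xs
    = fun i => (ini (K := D.K) (G := G D) i).evalC (act D kP kR) (pubC lay D.K) r :=
  (con_xs h P lay).trans (startB (act D kP kR) (26 : Fin 28) lay r)

include hlay in
/-- **the start state is legal** -/
theorem hx0 : (cst h W).A.Legal (ins h W kP kR kT P lay).act (ins h W kP kR kT P lay).pubC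
    (ins h W kP kR kT P lay).stg0
    ((ins h W kP kR kT P lay).con (ins h W kP kR kT P lay).xs) := by
  have : Fact D.p.Prime := ⟨h.prime⟩
  have : CharP D.K D.p := h.charP
  have e : (ins h W kP kR kT P lay).pubC = pubC lay D.K := funext fun b => pubC_eq h P lay b
  rw [e, con_xs_eq h P lay fun _ _ => 0]
  exact C1435.start_legal (K := D.K) hlay _

include hlay in
/-- **no backward label at the start state** -/
theorem hb0 : ∀ ρ, ¬ ((ins h W kP kR kT P lay).stg0 = (cst h W).A.tgt ρ ∧
    (cst h W).A.Bk (ins h W kP kR kT P lay).act (ins h W kP kR kT P lay).pubC ρ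
      ((ins h W kP kR kT P lay).con (ins h W kP kR kT P lay).xs)) := by
  have : Fact D.p.Prime := ⟨h.prime⟩
  have : CharP D.K D.p := h.charP
  have e : (ins h W kP kR kT P lay).pubC = pubC lay D.K := funext fun b => pubC_eq h P lay b
  have h1 := hx0 h P lay hlay
  rw [e, con_xs h P lay] at h1
  have h2 := (C1435.blockedB_bwd D.p h.odd hlay SgB.e _ h1).2 (Or.inl ⟨rfl, rfl⟩)
  rintro ρ ⟨h3, h4⟩
  rw [e, con_xs h P lay] at h4
  exact h2 ⟨ρ, h3.symm, h4⟩

/-- **the literal machine of the object instance** -/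
noncomputable def lmO : Compile827.LM (LMI827.XS (ins h W kP kR kT P lay) (CG D kP kR))
    (LMI827.ZS (ins h W kP kR kT P lay) (CG D kP kR) (CT D kT)) (cst h W).A.Tr :=
  LMI827.lmI (hyp h P lay hlay h0) (hx0 h P lay hlay) (hb0 h P lay hlay)

end inst

end Crest.Agent.R289.HypObj146
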