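import Mathlib

/-!
# Row 289, block C: the second order (time reversible) cascade

`Λ` = any map of content functions `P → M` with the growth property of the expanding cascade
(`64 * |supp y| ≤ |P| → 4 * |supp y| ≤ |supp (Λ y)|`).  The second order chain
`y 0 = w`, `y 1 = Λ w`, `y (j+2) = Λ (y (j+1)) + e • y j` (`e` any integer, in particular `±1`)
has a layer `j ≤ L` of density `> 1/64` as soon as `w ≠ 0` and `|P| < 64 * 3^L`.
-/

set_option autoImplicit false

namespace Crest.Agent.R289.Growth2

open Finset

section numeric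

/-- numeric core: `a j` = size of layer `j`, `b j` = size of `Λ (layer j)` -/
theorem num_growth {n L : ℕ} {a b : ℕ → ℕ} (hpos : 1 ≤ a 0)
    (hg : ∀ j, 64 * a j ≤ n → 4 * a j ≤ b j) (h0 : b 0 ≤ a 1)
    (h2 : ∀ j, b (j + 1) ≤ a (j + 2) + a j) (hL : n < 64 * 3 ^ L) :
    ∃ j, j ≤ L ∧ n < 64 * a j := by
  by_contra hcon
  push Not at hcon
  have key : ∀ j, j < L → 3 * a j ≤ a (j + 1) := by
    intro j
    induction j with
    | zero =>
      intro hj
      have h1 := hg 0 (hcon 0 (Nat.zero_le _))
      show 3 * a 0 ≤ a 1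
      omega
    | succ j ih =>
      intro hj
      have h1 := ih (by omega)
      have h3 := hg (j + 1) (hcon (j + 1) (by omega))
      have h4 := h2 j
      show 3 * a (j + 1) ≤ a (j + 2)
      omega
  have pow : ∀ j, j ≤ L → 3 ^ j ≤ a j := by
    intro j
    induction j with
    | zero => intro _; simpa using hpos
    | succ j ih =>
      intro hj
      have h1 := ih (by omega)
      have h3 := key j (by omega)
      calc 3 ^ (j + 1) = 3 * 3 ^ j := by ring
        _ ≤ 3 * a j := by omega
        _ ≤ a (j + 1) := h3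
  have h5 := pow L le_rfl
  have h6 := hcon L le_rfl
  omega

/-- first order version: growth factor `2` below density `1/16` -/
theorem num_growth1 {n L : ℕ} {a b : ℕ → ℕ} (hpos : 1 ≤ a 0)
    (hg : ∀ j, 16 * a j ≤ n → 2 * a j ≤ b j) (h0 : ∀ j, b j ≤ a (j + 1))
    (hL : n < 16 * 2 ^ L) :
    ∃ j, j ≤ L ∧ n < 16 * a j := by
  by_contra hcon
  push Not at hcon
  have pow : ∀ j, j ≤ L → 2 ^ j ≤ a j := by
    intro j
    induction j with
    | zero => intro _; simpa using hpos
    | succ j ih =>
      intro hj
      have h1 := ih (by omega)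
      have h3 := hg j (hcon j (by omega))
      have h4 := h0 j
      calc 2 ^ (j + 1) = 2 * 2 ^ j := by ring
        _ ≤ 2 * a j := by omega
        _ ≤ b j := h3
        _ ≤ a (j + 1) := h4
  have h5 := pow L le_rfl
  have h6 := hcon L le_rfl
  omega

end numeric

section sizes

variable {P M : Type*} [Fintype P] [AddCommGroup M]

open Classical in
/-- number of addresses where `y` is not zero -/
noncomputable def sz (y : P → M) : ℕ := (univ.filter fun g => y g ≠ 0).card

theorem sz_zero : sz (0 : P → M) = 0 := by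
  classical
  unfold sz
  simp

theorem sz_eq_zero {y : P → M} : sz y = 0 ↔ y = 0 := by
  classical
  unfold sz
  rw [Finset.card_eq_zero, Finset.filter_eq_empty_iff]
  constructor
  · intro h
    funext g
    by_contra hg
    exact h (mem_univ g) hg
  · rintro rfl g _
    simp

theorem one_le_sz {y : P → M} (h : y ≠ 0) : 1 ≤ sz y := by
  by_contra hc
  exact h (sz_eq_zero.1 (by omega))

theorem sz_le_card (y : P → M) : sz y ≤ Fintype.card P := by
  classical
  unfold sz
  exact (card_filter_le _ _).trans (by simp)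

/-- general subadditivity -/
theorem sz_le_add {x y z : P → M} (h : ∀ g, y g = 0 → z g = 0 → x g = 0) :
    sz x ≤ sz y + sz z := by
  classical
  unfold sz
  refine le_trans (card_le_card ?_) (card_union_le _ _)
  intro g hg
  simp only [mem_filter, mem_univ, true_and, mem_union] at hg ⊢
  by_contra hc
  push Not at hc
  exact hg (h g hc.1 hc.2)

theorem sz_le_of {x y : P → M} (h : ∀ g, y g = 0 → x g = 0) : sz x ≤ sz y := by
  have h1 := sz_le_add (x := x) (y := y) (z := 0) (fun g hg _ => h g hg)
  rw [sz_zero] at h1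
  simpa using h1

end sizes

section chain

variable {P M : Type*}

/-- the second order chain of `w` -/
def chain [AddCommGroup M] (Lam : (P → M) → (P → M)) (e : ℤ) (w : P → M) : ℕ → P → M
  | 0 => w
  | 1 => Lam w
  | (j + 2) => fun g => Lam (chain Lam e w (j + 1)) g + e • chain Lam e w j g

variable [AddCommGroup M] {Lam : (P → M) → (P → M)} {e : ℤ} {w : P → M}

@[simp] theorem chain_zero : chain Lam e w 0 = w := rfl
@[simp] theorem chain_one : chain Lam e w 1 = Lam w := rfl
theorem chain_two (j : ℕ) :
    chain Lam e w (j + 2) = fun g => Lam (chain Lam e w (j + 1)) g + e • chain Lam e w j g := rfl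

/-- the chain of the zero function -/
theorem chain_of_zero (h0 : Lam 0 = 0) (e : ℤ) (j : ℕ) : chain Lam e 0 j = 0 := by
  have key : ∀ j, chain Lam e 0 j = 0 ∧ chain Lam e 0 (j + 1) = 0 := by
    intro j
    induction j with
    | zero => exact ⟨rfl, h0⟩
    | succ j ih =>
      refine ⟨ih.2, ?_⟩
      rw [chain_two, ih.1, ih.2, h0]
      funext g
      simp
  exact (key j).1

/-- **second order cascade**: a non-zero content has a layer of density `> 1/64` -/
theorem cascade2 [Fintype P]
    (hgrow : ∀ y : P → M, 64 * sz y ≤ Fintype.card P → 4 * sz y ≤ sz (Lam y))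
    (e : ℤ) (hw : w ≠ 0) {L : ℕ} (hL : Fintype.card P < 64 * 3 ^ L) :
    ∃ j, j ≤ L ∧ Fintype.card P < 64 * sz (chain Lam e w j) := by
  refine num_growth (a := fun j => sz (chain Lam e w j))
    (b := fun j => sz (Lam (chain Lam e w j))) (one_le_sz hw) (fun j => hgrow _) le_rfl ?_ hL
  intro j
  refine sz_le_add fun g h1 h2 => ?_
  rw [chain_two] at h1
  simp only at h1
  rw [h2, smul_zero, add_zero] at h1
  exact h1

/-- **first order cascade**, factor `2` below density `1/16` -/
theorem cascade1 [Fintype P]
    (hgrow : ∀ y : P → M, 16 * sz y ≤ Fintype.card P → 2 * sz y ≤ sz (Lam y))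
    (hw : w ≠ 0) {L : ℕ} (hL : Fintype.card P < 16 * 2 ^ L) :
    ∃ j, j ≤ L ∧ Fintype.card P < 16 * sz (Lam^[j] w) := by
  refine num_growth1 (a := fun j => sz (Lam^[j] w))
    (b := fun j => sz (Lam (Lam^[j] w))) (one_le_sz hw) (fun j => hgrow _) ?_ hL
  intro j
  show sz (Lam (Lam^[j] w)) ≤ sz (Lam^[j + 1] w)
  rw [Function.iterate_succ_apply']

/-- all layers vanish iff the content vanishes -/
theorem chain_all_zero_iff (h0 : Lam 0 = 0) (e : ℤ) (L : ℕ) :
    (∀ j, j ≤ L → chain Lam e w j = 0) ↔ w = 0 := by
  constructor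
  · intro h
    exact h 0 (Nat.zero_le _)
  · rintro rfl j _
    exact chain_of_zero h0 e j

end chain

section transport

/-- A map of functions that intertwines the two operators and is additive intertwines the chains
(restriction of words on `Ω` to the orbit `H ≅ P`). -/
theorem chain_map {P Q M : Type*} [AddCommGroup M] {Lam : (P → M) → (P → M)}
    {Lam' : (Q → M) → (Q → M)} (c : (P → M) → (Q → M))
    (hc : ∀ y, c (Lam y) = Lam' (c y))
    (hadd : ∀ (u v : P → M) (e : ℤ), c (fun g => u g + e • v g) = fun g => c u g + e • c v g)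
    (e : ℤ) (w : P → M) (j : ℕ) : c (chain Lam e w j) = chain Lam' e (c w) j := by
  have key : ∀ j, c (chain Lam e w j) = chain Lam' e (c w) j ∧
      c (chain Lam e w (j + 1)) = chain Lam' e (c w) (j + 1) := by
    intro j
    induction j with
    | zero => exact ⟨rfl, hc w⟩
    | succ j ih =>
      refine ⟨ih.2, ?_⟩
      rw [chain_two, hadd, hc, ih.1, ih.2, chain_two]
  exact (key j).1

variable {P Ω M : Type*} [Group P] [MulAction P Ω]

/-- content of a word on the orbit of `x0` -/
def cont (x0 : Ω) (w : Ω → M) : P → M := fun g => w (g • x0)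

/-- an operator made of left translations: `(Λ w) x = F (i ↦ w (γ_i⁻¹ x))` -/
def lop {ι : Type*} (ga : ι → P) (F : (ι → M) → M) (w : Ω → M) : Ω → M :=
  fun x => F fun i => w ((ga i)⁻¹ • x)

/-- the same operator on contents -/
def lopP {ι : Type*} (ga : ι → P) (F : (ι → M) → M) (y : P → M) : P → M :=
  fun g => F fun i => y ((ga i)⁻¹ * g)

theorem cont_lop {ι : Type*} (ga : ι → P) (F : (ι → M) → M) (x0 : Ω) (w : Ω → M) :
    cont x0 (lop ga F w) = lopP ga F (cont (P := P) x0 w) := by
  funext g
  unfold cont lop lopP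
  simp only [smul_smul]

variable [AddCommGroup M]

theorem cont_chain {ι : Type*} (ga : ι → P) (F : (ι → M) → M) (x0 : Ω) (e : ℤ) (w : Ω → M)
    (j : ℕ) :
    cont (P := P) x0 (chain (lop ga F) e w j) = chain (lopP ga F) e (cont x0 w) j :=
  chain_map (cont (P := P) x0) (fun y => cont_lop ga F x0 y) (fun _ _ _ => rfl) e w j

/-- **ZERO TEST on the orbit `H = P x0` (second order)**: if `w` vanishes on `H` all layers vanish
on `H`; otherwise some layer `j ≤ L` is non-zero at more than `|P|/64` of the addresses. -/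
theorem zero_test2 {ι : Type*} [Fintype P] (ga : ι → P) (F : (ι → M) → M) (hF : F 0 = 0)
    (hgrow : ∀ y : P → M, 64 * sz y ≤ Fintype.card P → 4 * sz y ≤ sz (lopP ga F y))
    (x0 : Ω) (e : ℤ) (w : Ω → M) {L : ℕ} (hL : Fintype.card P < 64 * 3 ^ L) :
    ((∀ g : P, w (g • x0) = 0) →
      ∀ j (g : P), chain (lop ga F) e w j (g • x0) = 0) ∧
    ((∃ g : P, w (g • x0) ≠ 0) → ∃ j, j ≤ L ∧
      Fintype.card P < 64 * sz (fun g : P => chain (lop ga F) e w j (g • x0))) := by
  have hz : lopP ga F (0 : P → M) = 0 := by
    funext g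
    exact hF
  constructor
  · intro h j g
    have h1 : cont (P := P) x0 w = 0 := by
      funext g
      exact h g
    have h2 := cont_chain ga F x0 e w j
    rw [h1, chain_of_zero hz] at h2
    exact congrFun h2 g
  · rintro ⟨g, hg⟩
    have h1 : cont (P := P) x0 w ≠ 0 := fun h => hg (congrFun h g)
    obtain ⟨j, hj, hlt⟩ := cascade2 (Lam := lopP ga F) hgrow e h1 hL
    refine ⟨j, hj, ?_⟩
    have h2 := cont_chain ga F x0 e w j
    have h3 : (fun g : P => chain (lop ga F) e w j (g • x0)) =
        chain (lopP ga F) e (cont x0 w) j := h2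
    rw [h3]
    exact hlt

/-- second order step is reversible: previous layers from the two top layers -/
theorem chain_prev {P M : Type*} [AddCommGroup M] {Lam : (P → M) → (P → M)} {w : P → M}
    (j : ℕ) (g : P) :
    chain Lam 1 w j g = chain Lam 1 w (j + 2) g - Lam (chain Lam 1 w (j + 1)) g := by
  rw [chain_two]
  simp

end transport

end Crest.Agent.R289.Growth2
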