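import Crest.Agent.R289.Cascade_397
import Crest.Agent.R289.Growth2_577

/-!
# Row 289, block C: growth with an arbitrary factor, second order cascade of `Lam`

`growthR`: if `64 * ρ * lam ^ 2 ≤ 1` and `16 * ρ * |supp y| ≤ |P|` then
`ρ * |supp y| ≤ |supp (Lam y)|`.  `zero_test2R`: the second order chain with ratio `R`
(growth factor `R + 1`) reaches density `> 1/(16 (R+1))` in `L` steps if `|P| < 16 (R+1) R^L`.
-/

set_option autoImplicit false
set_option linter.unusedSectionVars false

namespace Crest.Agent.R289.Growth3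

open Finset Cascade397 Growth2

section numeric

/-- numeric core with ratio `R` -/
theorem num_growthR {n L D R : ℕ} {a b : ℕ → ℕ} (hR : 1 ≤ R) (hpos : 1 ≤ a 0)
    (hg : ∀ j, D * a j ≤ n → (R + 1) * a j ≤ b j) (h0 : b 0 ≤ a 1)
    (h2 : ∀ j, b (j + 1) ≤ a (j + 2) + a j) (hL : n < D * R ^ L) :
    ∃ j, j ≤ L ∧ n < D * a j := by
  by_contra hcon
  push Not at hcon
  have key : ∀ j, j < L → R * a j ≤ a (j + 1) := by
    intro j
    induction j with
    | zero =>
      intro hj
      have h1 := hg 0 (hcon 0 (Nat.zero_le _))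
      show R * a 0 ≤ a 1
      have h3 : (R + 1) * a 0 = R * a 0 + a 0 := by ring
      omega
    | succ j ih =>
      intro hj
      have h1 := ih (by omega)
      have h3 := hg (j + 1) (hcon (j + 1) (by omega))
      have h4 := h2 j
      have h5 : a j ≤ a (j + 1) := le_trans (Nat.le_mul_of_pos_left _ hR) h1
      have h6 : (R + 1) * a (j + 1) = R * a (j + 1) + a (j + 1) := by ring
      show R * a (j + 1) ≤ a (j + 2)
      omega
  have pow : ∀ j, j ≤ L → R ^ j ≤ a j := by
    intro j
    induction j with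
    | zero => intro _; simpa using hpos
    | succ j ih =>
      intro hj
      have h1 := ih (by omega)
      have h3 := key j (by omega)
      calc R ^ (j + 1) = R * R ^ j := by ring
        _ ≤ R * a j := Nat.mul_le_mul_left _ h1
        _ ≤ a (j + 1) := h3
  have h5 := pow L le_rfl
  have h6 := hcon L le_rfl
  have h7 : D * R ^ L ≤ D * a L := Nat.mul_le_mul_left _ h5
  omega

/-- second order cascade with ratio `R` -/
theorem cascadeR {P M : Type*} [Fintype P] [AddCommGroup M] {Lam : (P → M) → (P → M)} {w : P → M}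
    {D R : ℕ} (hR : 1 ≤ R)
    (hgrow : ∀ y : P → M, D * sz y ≤ Fintype.card P → (R + 1) * sz y ≤ sz (Lam y))
    (e : ℤ) (hw : w ≠ 0) {L : ℕ} (hL : Fintype.card P < D * R ^ L) :
    ∃ j, j ≤ L ∧ Fintype.card P < D * sz (chain Lam e w j) := by
  refine num_growthR (a := fun j => sz (chain Lam e w j))
    (b := fun j => sz (Lam (chain Lam e w j))) hR (one_le_sz hw) (fun j => hgrow _) le_rfl ?_ hL
  intro j
  refine sz_le_add fun g h1 h2 => ?_
  rw [chain_two] at h1
  simp only at h1
  rw [h2, smul_zero, add_zero] at h1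
  exact h1

end numeric

section Growth

variable {P ι F M : Type*} [Group P] [Fintype P] [DecidableEq P] [Fintype ι] [Field F]
  [AddCommGroup M] [Module F M]

/-- GROWTH LEMMA, arbitrary factor `ρ`. -/
theorem growthR (ga : ι → P) (al : ι → F) (hal : Function.Injective al) {r : ℕ}
    (hr1 : Fintype.card ι ≤ 2 * r) (hr2 : 2 * r ≤ Fintype.card ι + 2) (hn : 0 < Fintype.card ι)
    {lam : ℝ} (hM : Mix ga lam) (hl0 : 0 ≤ lam) {ρ : ℕ} (hρ : 1 ≤ ρ) (hl : 64 * ρ * lam ^ 2 ≤ 1)
    (y : P → Fin r → M) (hy : 16 * ρ * (supp y).card ≤ Fintype.card P) :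
    ρ * (supp y).card ≤ (supp (Lam ga al y)).card := by
  classical
  set T := supp y with hT
  set n : ℝ := (Fintype.card ι : ℝ) with hnn
  have hn0 : 0 < n := by rw [hnn]; exact_mod_cast hn
  have hP : (0 : ℝ) < Fintype.card P := by exact_mod_cast Fintype.card_pos
  have hρR : (1 : ℝ) ≤ ρ := by exact_mod_cast hρ
  by_cases hT0 : T.card = 0
  · rw [hT0]; omega
  have hTpos : (0 : ℝ) < T.card := by exact_mod_cast Nat.pos_of_ne_zero hT0
  have hyρ : (16 : ℝ) * ρ * T.card ≤ Fintype.card P := by exact_mod_cast hy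
  have hy' : (16 : ℝ) * T.card ≤ Fintype.card P := by nlinarith
  have hl2 : lam ^ 2 ≤ 1 / 64 := by nlinarith [sq_nonneg lam]
  have hl8 : lam ≤ 1 / 8 := by
    by_contra hc
    push Not at hc
    nlinarith
  set U := univ.filter fun g => 1 ≤ wt ga al y g ∧ wt ga al y g ≤ r with hU
  set B := univ.filter fun g => r < wt ga al y g with hB
  have hUs : U ⊆ supp (Lam ga al y) := by
    intro g hg
    rw [hU, Finset.mem_filter] at hg
    exact mem_supp_Lam ga al hal y g hg.2.1 hg.2.2
  refine le_trans ?_ (Finset.card_le_card hUs)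
  by_contra hcon
  push Not at hcon
  have hUlt : (U.card : ℝ) ≤ ρ * T.card := by exact_mod_cast hcon.le
  -- total
  have hsplit : ∑ g, wt ga al y g = ∑ g ∈ U, wt ga al y g + ∑ g ∈ B, wt ga al y g := by
    have hdisj : Disjoint U B := by
      rw [Finset.disjoint_left]
      intro g hgU hgB
      rw [hU, Finset.mem_filter] at hgU
      rw [hB, Finset.mem_filter] at hgB
      omega
    rw [← Finset.sum_union hdisj]
    symm
    apply Finset.sum_subset (Finset.subset_univ _)
    intro g _ hg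
    rw [Finset.mem_union, hU, hB, Finset.mem_filter, Finset.mem_filter] at hg
    simp only [Finset.mem_univ, true_and] at hg
    omega
  have htot := wt_sum_ge ga al hal hr2 y
  rw [hsplit] at htot
  have htot' : n * T.card ≤ 2 * (∑ g ∈ U, (wt ga al y g : ℝ) + ∑ g ∈ B, (wt ga al y g : ℝ)) := by
    rw [hnn]
    exact_mod_cast htot
  -- B small
  have hdens : n * T.card / Fintype.card P ≤ n / 16 := by
    rw [div_le_div_iff₀ hP (by norm_num)]
    nlinarith
  have hBvar : (B.card : ℝ) * (7 * n / 16) ^ 2 ≤ n ^ 2 * lam ^ 2 * T.card := by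
    refine le_trans ?_ (deg_var ga hM T)
    calc (B.card : ℝ) * (7 * n / 16) ^ 2 = ∑ _g ∈ B, (7 * n / 16) ^ 2 := by
          rw [Finset.sum_const, nsmul_eq_mul]
      _ ≤ ∑ g ∈ B, ((deg ga T g : ℝ) - Fintype.card ι * T.card / Fintype.card P) ^ 2 := by
          apply Finset.sum_le_sum
          intro g hg
          rw [hB, Finset.mem_filter] at hg
          have h1 : (wt ga al y g : ℝ) ≤ deg ga T g := by exact_mod_cast wt_le_deg ga al y g
          have h2 : n ≤ 2 * (wt ga al y g : ℝ) := by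
            rw [hnn]
            have := hg.2
            exact_mod_cast (by omega : Fintype.card ι ≤ 2 * wt ga al y g)
          apply pow_le_pow_left₀ (by positivity)
          rw [← hnn]
          linarith
      _ ≤ ∑ g, ((deg ga T g : ℝ) - Fintype.card ι * T.card / Fintype.card P) ^ 2 :=
          Finset.sum_le_sum_of_subset_of_nonneg (Finset.subset_univ B) fun g _ _ => sq_nonneg _
  have hBc : (B.card : ℝ) ≤ 4 / 49 * T.card := by
    have h1 : (B.card : ℝ) * (7 * n / 16) ^ 2 ≤ n ^ 2 * (1 / 64) * T.card := by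
      refine le_trans hBvar ?_
      apply mul_le_mul_of_nonneg_right _ hTpos.le
      apply mul_le_mul_of_nonneg_left hl2 (by positivity)
    have h2 : 0 < n ^ 2 := by positivity
    have h3 : n ^ 2 * ((B.card : ℝ) * (49 / 256)) ≤ n ^ 2 * (1 / 64 * T.card) := by
      nlinarith [h1]
    have h4 := le_of_mul_le_mul_left h3 h2
    linarith
  have hBs : ∑ g ∈ B, (wt ga al y g : ℝ) ≤ n * (8 / 196 * T.card) := by
    have h1 : ∑ g ∈ B, (wt ga al y g : ℝ) ≤ ∑ g ∈ B, (deg ga T g : ℝ) :=
      Finset.sum_le_sum fun g _ => by exact_mod_cast wt_le_deg ga al y g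
    refine le_trans h1 (le_trans (deg_mix ga hM hl0 B T) ?_)
    rw [← hnn]
    apply mul_le_mul_of_nonneg_left _ hn0.le
    have h2 : (T.card : ℝ) * B.card / Fintype.card P ≤ B.card / 16 := by
      rw [div_le_div_iff₀ hP (by norm_num)]
      nlinarith [(by positivity : (0 : ℝ) ≤ B.card)]
    have h3 : √((B.card : ℝ) * T.card) ≤ 2 / 7 * T.card := by
      rw [show (2 / 7 * (T.card : ℝ)) = √((2 / 7 * (T.card : ℝ)) ^ 2) from
        (Real.sqrt_sq (by positivity)).symm]
      apply Real.sqrt_le_sqrt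
      nlinarith
    have h4 : lam * √((B.card : ℝ) * T.card) ≤ 1 / 8 * (2 / 7 * T.card) :=
      mul_le_mul hl8 h3 (Real.sqrt_nonneg _) (by norm_num)
    linarith
  have hUs2 : ∑ g ∈ U, (wt ga al y g : ℝ) ≤ n * (3 / 16 * T.card) := by
    have h1 : ∑ g ∈ U, (wt ga al y g : ℝ) ≤ ∑ g ∈ U, (deg ga T g : ℝ) :=
      Finset.sum_le_sum fun g _ => by exact_mod_cast wt_le_deg ga al y g
    refine le_trans h1 (le_trans (deg_mix ga hM hl0 U T) ?_)
    rw [← hnn]
    apply mul_le_mul_of_nonneg_left _ hn0.le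
    have hU0 : (0 : ℝ) ≤ U.card := by positivity
    have h2 : (T.card : ℝ) * U.card / Fintype.card P ≤ T.card / 16 := by
      rw [div_le_div_iff₀ hP (by norm_num)]
      have h5 : (T.card : ℝ) * U.card * 16 ≤ T.card * (ρ * T.card) * 16 := by
        apply mul_le_mul_of_nonneg_right _ (by norm_num)
        exact mul_le_mul_of_nonneg_left hUlt hTpos.le
      have h6 : (T.card : ℝ) * (ρ * T.card) * 16 = T.card * (16 * ρ * T.card) := by ring
      have h7 : (T.card : ℝ) * (16 * ρ * T.card) ≤ T.card * Fintype.card P :=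
        mul_le_mul_of_nonneg_left hyρ hTpos.le
      linarith
    have h4 : lam * √((U.card : ℝ) * T.card) ≤ 1 / 8 * T.card := by
      refine le_of_sq_le_sq_nonneg ?_ (by positivity)
      rw [mul_pow, Real.sq_sqrt (by positivity)]
      have h5 : lam ^ 2 * ((U.card : ℝ) * T.card) ≤ lam ^ 2 * (ρ * T.card * T.card) := by
        apply mul_le_mul_of_nonneg_left _ (sq_nonneg _)
        exact mul_le_mul_of_nonneg_right hUlt hTpos.le
      have h6 : 64 * ρ * lam ^ 2 * ((T.card : ℝ) * T.card) ≤ 1 * ((T.card : ℝ) * T.card) :=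
        mul_le_mul_of_nonneg_right hl (by positivity)
      nlinarith
    linarith
  have hfin : n * T.card ≤ n * (2 * (3 / 16 + 8 / 196) * T.card) := by
    calc n * T.card ≤ 2 * (∑ g ∈ U, (wt ga al y g : ℝ) + ∑ g ∈ B, (wt ga al y g : ℝ)) := htot'
      _ ≤ 2 * (n * (3 / 16 * T.card) + n * (8 / 196 * T.card)) := by linarith
      _ = n * (2 * (3 / 16 + 8 / 196) * T.card) := by ring
  have := le_of_mul_le_mul_left hfin hn0
  nlinarith

/-- `sz` of Growth2 is the size of the support -/
theorem sz_eq {r : ℕ} (y : P → Fin r → M) : sz y = (supp y).card := by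
  classical
  unfold sz supp
  congr 1
  ext g
  simp only [Finset.mem_filter]

/-- growth in the form of Growth2 / `cascadeR` -/
theorem growthR_sz (ga : ι → P) (al : ι → F) (hal : Function.Injective al) {r : ℕ}
    (hr1 : Fintype.card ι ≤ 2 * r) (hr2 : 2 * r ≤ Fintype.card ι + 2) (hn : 0 < Fintype.card ι)
    {lam : ℝ} (hM : Mix ga lam) (hl0 : 0 ≤ lam) {ρ : ℕ} (hρ : 1 ≤ ρ) (hl : 64 * ρ * lam ^ 2 ≤ 1)
    (y : P → Fin r → M) (hy : 16 * ρ * sz y ≤ Fintype.card P) :
    ρ * sz y ≤ sz (Lam ga al y) := by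
  rw [sz_eq] at hy ⊢
  rw [sz_eq]
  exact growthR ga al hal hr1 hr2 hn hM hl0 hρ hl y hy

end Growth

section Words

variable {P Ω ι F M : Type*} [Group P] [Fintype P] [DecidableEq P] [MulAction P Ω] [Fintype ι]
  [Field F] [AddCommGroup M] [Module F M]

/-- restriction of the second order chain to the orbit of `x0` -/
theorem chain_orbit (ga : ι → P) (al : ι → F) {r : ℕ} (e : ℤ) (w : Ω → Fin r → M) (x0 : Ω)
    (j : ℕ) : (fun g : P => chain (Lam ga al) e w j (g • x0)) =
      chain (Lam ga al) e (fun g : P => w (g • x0)) j := by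
  refine chain_map (Lam := Lam ga al) (Lam' := Lam ga al) (fun (u : Ω → Fin r → M) (g : P) =>
    u (g • x0)) ?_ (fun _ _ _ => rfl) e w j
  intro u
  funext g
  exact Lam_orbit ga al u x0 g

/-- **SECOND ORDER ZERO TEST ON AN ORBIT, ratio `R`.** -/
theorem zero_test2R (ga : ι → P) (al : ι → F) (hal : Function.Injective al) {r : ℕ}
    (hr1 : Fintype.card ι ≤ 2 * r) (hr2 : 2 * r ≤ Fintype.card ι + 2) (hn : 0 < Fintype.card ι)
    {lam : ℝ} (hM : Mix ga lam) (hl0 : 0 ≤ lam) {R : ℕ} (hR : 1 ≤ R)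
    (hl : 64 * ((R : ℝ) + 1) * lam ^ 2 ≤ 1) (w : Ω → Fin r → M) (x0 : Ω) (e : ℤ) {L : ℕ}
    (hL : Fintype.card P < 16 * (R + 1) * R ^ L) :
    ((∀ g : P, w (g • x0) = 0) → ∀ j (g : P), chain (Lam ga al) e w j (g • x0) = 0) ∧
    ((∃ g : P, w (g • x0) ≠ 0) → ∃ j, j ≤ L ∧
      Fintype.card P < 16 * (R + 1) * sz (fun g : P => chain (Lam ga al) e w j (g • x0))) := by
  constructor
  · intro h j g
    have h1 : (fun g : P => w (g • x0)) = 0 := by
      funext g
      exact h g
    have h2 := chain_orbit (P := P) ga al e w x0 j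
    rw [h1, chain_of_zero (Lam_zero ga al)] at h2
    exact congrFun h2 g
  · rintro ⟨g, hg⟩
    have h1 : (fun g : P => w (g • x0)) ≠ 0 := fun h => hg (congrFun h g)
    rw [show (16 * (R + 1) * R ^ L) = (16 * (R + 1)) * R ^ L from rfl] at hL
    obtain ⟨j, hj, hlt⟩ := cascadeR (Lam := Lam ga al) (D := 16 * (R + 1)) hR (fun y hy =>
      growthR_sz ga al hal hr1 hr2 hn hM hl0 (by omega) (by push_cast; exact hl) y hy) e h1 hL
    refine ⟨j, hj, ?_⟩
    rw [chain_orbit]
    exact hlt

/-- the chain preserves every left translation stable submodule, componentwise -/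
theorem chain_mem (ga : ι → P) (al : ι → F) {r : ℕ} (e : ℤ) (C : Submodule F (Ω → M))
    (hC : ∀ f ∈ C, ∀ g : P, (fun x => f (g⁻¹ • x)) ∈ C) (w : Ω → Fin r → M)
    (hw : ∀ a, (fun x => w x a) ∈ C) (j : ℕ) (a : Fin r) :
    (fun x => chain (Lam ga al) e w j x a) ∈ C := by
  have key : ∀ j, (∀ a, (fun x => chain (Lam ga al) e w j x a) ∈ C) ∧
      (∀ a, (fun x => chain (Lam ga al) e w (j + 1) x a) ∈ C) := by
    intro j
    induction j with
    | zero => exact ⟨hw, fun a => Lam_mem ga al C hC w hw a⟩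
    | succ j ih =>
      refine ⟨ih.2, fun a => ?_⟩
      have h1 := C.add_mem (Lam_mem ga al C hC _ ih.2 a) (C.smul_mem ((e : ℤ) : F) (ih.1 a))
      have h2 : (fun x => chain (Lam ga al) e w (j + 1 + 1) x a) =
          (fun x => Lam ga al (chain (Lam ga al) e w (j + 1)) x a) +
            ((e : ℤ) : F) • (fun x => chain (Lam ga al) e w j x a) := by
        funext x
        rw [chain_two]
        simp [Int.cast_smul_eq_zsmul]
      rw [h2]
      exact h1
  exact (key j).1 a

end Words

end Crest.Agent.R289.Growth3
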