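import Mathlib

/-!
# Row 289, block B: expansion (non-negative form) of product walks, left form, connectivity

`MixF s lam`: `∑ v, (∑ i, f (s i v))^2 ≤ n^2 ((∑ f)^2/|V| + lam^2 ∑ f^2)` for every `f ≥ 0`.
* `MixF.prod`: product walks (content group `P × T`), `l3^2 ≥ l1^2 + l2^2 + l1^2 l2^2`;
* `mixF_right_iff_left`: right multiplication by `al` = left multiplication by `al⁻¹`;
* `MixF.set`: set form;
* `MixF.closed`, `closure_range_eq_top`, `closure_quot_eq_top`: connectivity for `lam^2 < 1/2`.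
-/

set_option autoImplicit false

namespace Crest.Agent.R289.MixProd178

open Finset

/-- expansion in the non-negative form -/
def MixF {ι V : Type*} [Fintype ι] [Fintype V] (s : ι → V → V) (lam : ℝ) : Prop :=
  ∀ f : V → ℝ, (∀ v, 0 ≤ f v) →
    ∑ v, (∑ i, f (s i v)) ^ 2 ≤
      (Fintype.card ι : ℝ) ^ 2 * ((∑ v, f v) ^ 2 / (Fintype.card V : ℝ) + lam ^ 2 * ∑ v, f v ^ 2)

section basic

variable {ι κ V W : Type*} [Fintype ι] [Fintype κ] [Fintype V] [Fintype W]

lemma MixF.mono {s : ι → V → V} {l l' : ℝ} (h : MixF s l) (hl : l ^ 2 ≤ l' ^ 2) : MixF s l' := by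
  intro f hf
  refine (h f hf).trans ?_
  have h1 : 0 ≤ ∑ v, f v ^ 2 := Finset.sum_nonneg fun v _ => sq_nonneg _
  have h2 : l ^ 2 * ∑ v, f v ^ 2 ≤ l' ^ 2 * ∑ v, f v ^ 2 := mul_le_mul_of_nonneg_right hl h1
  exact mul_le_mul_of_nonneg_left (by linarith) (sq_nonneg _)

/-- transport along a bijection of the vertices -/
lemma MixF.transport {s : ι → V → V} {l : ℝ} (h : MixF s l) (e : V ≃ W) :
    MixF (fun i w => e (s i (e.symm w))) l := by
  intro f hf
  have h0 := h (fun v => f (e v)) (fun v => hf _)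
  have e1 : ∑ w, (∑ i, f (e (s i (e.symm w)))) ^ 2 = ∑ v, (∑ i, f (e (s i v))) ^ 2 :=
    (Equiv.sum_comp e.symm (fun v => (∑ i, f (e (s i v))) ^ 2))
  have e2 : ∑ v, f (e v) = ∑ w, f w := Equiv.sum_comp e f
  have e3 : ∑ v, f (e v) ^ 2 = ∑ w, f w ^ 2 := Equiv.sum_comp e (fun w => f w ^ 2)
  have e4 : (Fintype.card V : ℝ) = Fintype.card W := by rw [Fintype.card_congr e]
  simp only [e2, e3, e4] at h0
  rw [e1]
  exact h0

/-- reindexing of the steps -/
lemma MixF.reindex {s : ι → V → V} {l : ℝ} (h : MixF s l) (e : κ ≃ ι) :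
    MixF (fun k v => s (e k) v) l := by
  intro f hf
  have h0 := h f hf
  have e1 : ∀ v, ∑ k, f (s (e k) v) = ∑ i, f (s i v) := fun v =>
    Equiv.sum_comp e (fun i => f (s i v))
  simp only [e1, Fintype.card_congr e]
  exact h0

/-- the product walk -/
def prodS (s : ι → V → V) (t : κ → W → W) : ι × κ → V × W → V × W :=
  fun x y => (s x.1 y.1, t x.2 y.2)

private lemma sq_sum_div_le {α : Type*} [Fintype α] (f : α → ℝ) :
    (∑ v, f v) ^ 2 / (Fintype.card α : ℝ) ≤ ∑ v, f v ^ 2 := by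
  refine div_le_of_le_mul₀ (Nat.cast_nonneg _) (Finset.sum_nonneg fun v _ => sq_nonneg _) ?_
  have := sq_sum_le_card_mul_sum_sq (s := (univ : Finset α)) (f := f)
  rw [Finset.card_univ] at this
  rw [mul_comm]
  exact this

/-- **expansion of a product walk** -/
theorem MixF.prod {s : ι → V → V} {t : κ → W → W} {l1 l2 l3 : ℝ} (hs : MixF s l1)
    (ht : MixF t l2) (h3 : l1 ^ 2 + l2 ^ 2 + l1 ^ 2 * l2 ^ 2 ≤ l3 ^ 2) :
    MixF (prodS s t) l3 := by
  intro f hf
  set n : ℝ := (Fintype.card ι : ℝ) with hn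
  set m : ℝ := (Fintype.card κ : ℝ) with hm
  set A : ℝ := (Fintype.card V : ℝ) with hA
  set B : ℝ := (Fintype.card W : ℝ) with hB
  set Q : ℝ := ∑ x : V × W, f x ^ 2 with hQ
  set S : ℝ := ∑ x : V × W, f x with hS
  have hn0 : 0 ≤ n := Nat.cast_nonneg _
  have hm0 : 0 ≤ m := Nat.cast_nonneg _
  have hA0 : 0 ≤ A := Nat.cast_nonneg _
  have hB0 : 0 ≤ B := Nat.cast_nonneg _
  have hQ0 : 0 ≤ Q := Finset.sum_nonneg fun v _ => sq_nonneg _
  have hQv : Q = ∑ v, ∑ w, f (v, w) ^ 2 := by rw [hQ, Fintype.sum_prod_type]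
  have hQw : Q = ∑ w, ∑ v, f (v, w) ^ 2 := by rw [hQv, Finset.sum_comm]
  -- the half step
  set g : V → W → ℝ := fun v w => ∑ i, f (s i v, w) with hg
  have hg0 : ∀ v w, 0 ≤ g v w := fun v w => Finset.sum_nonneg fun i _ => hf _
  have hL : ∑ x : V × W, (∑ ij : ι × κ, f (prodS s t ij x)) ^ 2
      = ∑ v, ∑ w, (∑ j, g v (t j w)) ^ 2 := by
    rw [Fintype.sum_prod_type]
    refine Finset.sum_congr rfl fun v _ => Finset.sum_congr rfl fun w _ => ?_
    congr 1
    rw [Fintype.sum_prod_type, Finset.sum_comm]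
    rfl
  -- step in `W`
  have h1 : ∀ v, ∑ w, (∑ j, g v (t j w)) ^ 2
      ≤ m ^ 2 * ((∑ w, g v w) ^ 2 / B + l2 ^ 2 * ∑ w, g v w ^ 2) := fun v => ht (g v) (hg0 v)
  -- the sums over `W`
  set F : V → ℝ := fun v => ∑ w, f (v, w) with hF
  have hF0 : ∀ v, 0 ≤ F v := fun v => Finset.sum_nonneg fun w _ => hf _
  have h2 : ∀ v, ∑ w, g v w = ∑ i, F (s i v) := by
    intro v
    rw [hg, hF]
    exact Finset.sum_comm
  have h3' : ∑ v, (∑ i, F (s i v)) ^ 2 ≤ n ^ 2 * ((∑ v, F v) ^ 2 / A + l1 ^ 2 * ∑ v, F v ^ 2) :=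
    hs F hF0
  have hFS : ∑ v, F v = S := by rw [hS, Fintype.sum_prod_type]
  have hFQ : ∑ v, F v ^ 2 ≤ B * Q := by
    rw [hQv, Finset.mul_sum]
    refine Finset.sum_le_sum fun v _ => ?_
    have := sq_sum_le_card_mul_sum_sq (s := (univ : Finset W)) (f := fun w => f (v, w))
    rw [Finset.card_univ] at this
    exact this
  -- the square sum of the half step
  have h4 : ∑ v, ∑ w, g v w ^ 2 ≤ n ^ 2 * ((1 + l1 ^ 2) * Q) := by
    rw [Finset.sum_comm]
    have h5 : ∀ w, ∑ v, g v w ^ 2 ≤ n ^ 2 * ((1 + l1 ^ 2) * ∑ v, f (v, w) ^ 2) := by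
      intro w
      have h6 := hs (fun v => f (v, w)) (fun v => hf _)
      have h7 : (∑ v, f (v, w)) ^ 2 / A ≤ ∑ v, f (v, w) ^ 2 :=
        sq_sum_div_le (fun v => f (v, w))
      refine h6.trans (mul_le_mul_of_nonneg_left ?_ (sq_nonneg _))
      linarith
    calc ∑ w, ∑ v, g v w ^ 2 ≤ ∑ w, n ^ 2 * ((1 + l1 ^ 2) * ∑ v, f (v, w) ^ 2) :=
          Finset.sum_le_sum fun w _ => h5 w
      _ = n ^ 2 * ((1 + l1 ^ 2) * Q) := by
          rw [← Finset.mul_sum, ← Finset.mul_sum, ← hQw]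
  -- the first term
  have h8 : ∑ v, (∑ w, g v w) ^ 2 / B ≤ n ^ 2 * (S ^ 2 / (A * B) + l1 ^ 2 * Q) := by
    rw [← Finset.sum_div]
    have h9 : ∑ v, (∑ w, g v w) ^ 2 ≤ n ^ 2 * (S ^ 2 / A + l1 ^ 2 * (B * Q)) := by
      rw [Finset.sum_congr rfl fun v _ => by rw [h2 v]]
      refine h3'.trans (mul_le_mul_of_nonneg_left ?_ (sq_nonneg _))
      rw [hFS]
      have := mul_le_mul_of_nonneg_left hFQ (sq_nonneg l1)
      linarith
    rcases hB0.eq_or_lt with hBz | hBpos
    · rw [← hBz]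
      simp only [div_zero, mul_zero]
      positivity
    · rw [div_le_iff₀ hBpos]
      refine h9.trans (le_of_eq ?_)
      rcases hA0.eq_or_lt with hAz | hApos
      · rw [← hAz]; simp; ring
      · field_simp
  have hcard : (Fintype.card (V × W) : ℝ) = A * B := by
    rw [Fintype.card_prod]; push_cast; rfl
  have hcard2 : (Fintype.card (ι × κ) : ℝ) = n * m := by
    rw [Fintype.card_prod]; push_cast; rfl
  rw [hL, hcard, hcard2]
  calc ∑ v, ∑ w, (∑ j, g v (t j w)) ^ 2
      ≤ ∑ v, m ^ 2 * ((∑ w, g v w) ^ 2 / B + l2 ^ 2 * ∑ w, g v w ^ 2) :=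
        Finset.sum_le_sum fun v _ => h1 v
    _ = m ^ 2 * (∑ v, (∑ w, g v w) ^ 2 / B + l2 ^ 2 * ∑ v, ∑ w, g v w ^ 2) := by
        rw [← Finset.mul_sum, Finset.sum_add_distrib, ← Finset.mul_sum]
    _ ≤ m ^ 2 * (n ^ 2 * (S ^ 2 / (A * B) + l1 ^ 2 * Q) + l2 ^ 2 * (n ^ 2 * ((1 + l1 ^ 2) * Q))) := by
        refine mul_le_mul_of_nonneg_left (add_le_add h8 ?_) (sq_nonneg _)
        exact mul_le_mul_of_nonneg_left h4 (sq_nonneg _)
    _ = (n * m) ^ 2 * (S ^ 2 / (A * B) + (l1 ^ 2 + l2 ^ 2 + l1 ^ 2 * l2 ^ 2) * Q) := by ring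
    _ ≤ (n * m) ^ 2 * (S ^ 2 / (A * B) + l3 ^ 2 * Q) := by
        refine mul_le_mul_of_nonneg_left ?_ (sq_nonneg _)
        have := mul_le_mul_of_nonneg_right h3 hQ0
        linarith

open Classical in
/-- set form: the number of pairs `(i, v)`, `v ∈ B`, `s i v ∈ A` -/
theorem MixF.set {s : ι → V → V} {l : ℝ} (h : MixF s l) (A B : Finset V) :
    (∑ v ∈ B, ((univ.filter fun i => s i v ∈ A).card : ℝ)) ^ 2 ≤
      (Fintype.card ι : ℝ) ^ 2 * ((A.card : ℝ) ^ 2 / (Fintype.card V : ℝ) + l ^ 2 * A.card) *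
        B.card := by
  have h0 := h (fun v => if v ∈ A then 1 else 0) (fun v => by split_ifs <;> norm_num)
  have e1 : ∑ v, (if v ∈ A then (1 : ℝ) else 0) = A.card := by
    rw [Finset.sum_ite_mem, Finset.univ_inter]; simp
  have e2 : ∑ v, (if v ∈ A then (1 : ℝ) else 0) ^ 2 = A.card := by
    rw [← e1]; refine Finset.sum_congr rfl fun v _ => ?_; split_ifs <;> norm_num
  have e3 : ∀ v, ∑ i, (if s i v ∈ A then (1 : ℝ) else 0)
      = ((univ.filter fun i => s i v ∈ A).card : ℝ) := by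
    intro v; rw [Finset.sum_boole]
  simp only [e1, e2, e3] at h0
  have h1 := sq_sum_le_card_mul_sum_sq (s := B)
    (f := fun v => ((univ.filter fun i => s i v ∈ A).card : ℝ))
  have h2 : ∑ v ∈ B, ((univ.filter fun i => s i v ∈ A).card : ℝ) ^ 2
      ≤ ∑ v, ((univ.filter fun i => s i v ∈ A).card : ℝ) ^ 2 :=
    Finset.sum_le_sum_of_subset_of_nonneg (Finset.subset_univ _) fun v _ _ => sq_nonneg _
  calc (∑ v ∈ B, ((univ.filter fun i => s i v ∈ A).card : ℝ)) ^ 2
      ≤ B.card * ∑ v ∈ B, ((univ.filter fun i => s i v ∈ A).card : ℝ) ^ 2 := h1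
    _ ≤ B.card * ((Fintype.card ι : ℝ) ^ 2 *
          ((A.card : ℝ) ^ 2 / (Fintype.card V : ℝ) + l ^ 2 * A.card)) :=
        mul_le_mul_of_nonneg_left (h2.trans h0) (Nat.cast_nonneg _)
    _ = _ := by ring

/-- general form of the connectivity argument: if `v ∈ A ↔ s i v ∈ B` for all `i`, and
`|A| = |B|`, then `A` is empty or more than half of everything -/
lemma MixF.half [Nonempty ι] {s : ι → V → V} {l : ℝ} (h : MixF s l) (hl : l ^ 2 < 1 / 2)
    (A B : Finset V) (hAB : ∀ i v, v ∈ A ↔ s i v ∈ B) (hc : B.card = A.card)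
    (hne : A.Nonempty) : Fintype.card V < 2 * A.card := by
  classical
  by_contra hcon
  push Not at hcon
  have h0 := h (fun v => if v ∈ B then 1 else 0) (fun v => by split_ifs <;> norm_num)
  have e1 : ∑ v, (if v ∈ B then (1 : ℝ) else 0) = A.card := by
    rw [Finset.sum_ite_mem, Finset.univ_inter]; simp [hc]
  have e2 : ∑ v, (if v ∈ B then (1 : ℝ) else 0) ^ 2 = A.card := by
    rw [← e1]; refine Finset.sum_congr rfl fun v _ => ?_; split_ifs <;> norm_num
  have e3 : ∀ v, (∑ i, (if s i v ∈ B then (1 : ℝ) else 0)) ^ 2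
      = if v ∈ A then (Fintype.card ι : ℝ) ^ 2 else 0 := by
    intro v
    by_cases hv : v ∈ A
    · rw [if_pos hv, Finset.sum_congr rfl fun i _ => if_pos ((hAB i v).mp hv)]
      simp
    · rw [if_neg hv, Finset.sum_congr rfl fun i _ => if_neg (fun hh => hv ((hAB i v).mpr hh))]
      simp
  simp only [e1, e2, e3] at h0
  rw [Finset.sum_ite_mem, Finset.univ_inter, Finset.sum_const, nsmul_eq_mul] at h0
  have hn : (0 : ℝ) < (Fintype.card ι : ℝ) ^ 2 := by
    have : 0 < Fintype.card ι := Fintype.card_pos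
    positivity
  have ha : (0 : ℝ) < A.card := by exact_mod_cast hne.card_pos
  have hV : (0 : ℝ) < (Fintype.card V : ℝ) := by
    have : A.card ≤ Fintype.card V := by rw [← Finset.card_univ]; exact Finset.card_le_univ _
    exact_mod_cast lt_of_lt_of_le hne.card_pos this
  have hh : (2 : ℝ) * A.card ≤ (Fintype.card V : ℝ) := by exact_mod_cast hcon
  have h1 : (A.card : ℝ) ≤ (A.card : ℝ) ^ 2 / (Fintype.card V : ℝ) + l ^ 2 * A.card := by
    rw [mul_comm] at h0
    exact le_of_mul_le_mul_left h0 hn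
  have h2 : (A.card : ℝ) ^ 2 / (Fintype.card V : ℝ) ≤ A.card / 2 := by
    rw [div_le_iff₀ hV]
    nlinarith
  have h3 : l ^ 2 * A.card < 1 / 2 * A.card := mul_lt_mul_of_pos_right hl ha
  linarith

/-- **closed sets are trivial** -/
theorem MixF.closed [Nonempty ι] {s : ι → V → V} {l : ℝ} (h : MixF s l) (hl : l ^ 2 < 1 / 2)
    (A : Set V) (hA : ∀ i v, v ∈ A ↔ s i v ∈ A) (hne : A.Nonempty) : A = Set.univ := by
  classical
  by_contra hcon
  obtain ⟨b, hb⟩ : ∃ b, b ∉ A := by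
    by_contra hh; push Not at hh; exact hcon (Set.eq_univ_of_forall hh)
  obtain ⟨a, ha⟩ := hne
  have h1 := h.half hl (univ.filter fun v => v ∈ A) (univ.filter fun v => v ∈ A)
    (fun i v => by simpa using hA i v) rfl ⟨a, by simpa using ha⟩
  have h2 := h.half hl (univ.filter fun v => v ∉ A) (univ.filter fun v => v ∉ A)
    (fun i v => by simpa using not_congr (hA i v)) rfl ⟨b, by simpa using hb⟩
  have h3 : (univ.filter fun v => v ∈ A).card + (univ.filter fun v => v ∉ A).card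
      = Fintype.card V := by
    rw [← Finset.card_univ]
    exact Finset.card_filter_add_card_filter_not (s := (univ : Finset V)) (fun v => v ∈ A)
  omega

end basic

section group

variable {ι G : Type*} [Fintype ι] [Group G] [Fintype G]

/-- right form = left form -/
theorem mixF_right_iff_left (al : ι → G) (l : ℝ) :
    MixF (fun i v => v * al i) l ↔ MixF (fun i g => (al i)⁻¹ * g) l := by
  constructor
  · intro h
    have := h.transport (Equiv.inv G)
    refine (?_ : (fun i w => (Equiv.inv G) ((Equiv.inv G).symm w * al i))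
      = fun i g => (al i)⁻¹ * g) ▸ this
    funext i g
    simp
  · intro h
    have := h.transport (Equiv.inv G)
    refine (?_ : (fun i w => (Equiv.inv G) ((al i)⁻¹ * (Equiv.inv G).symm w))
      = fun i g => g * al i) ▸ this
    funext i g
    simp

/-- the elements `al i` generate the group -/
theorem closure_range_eq_top [Nonempty ι] {al : ι → G} {l : ℝ}
    (h : MixF (fun i v => v * al i) l) (hl : l ^ 2 < 1 / 2) :
    Subgroup.closure (Set.range al) = ⊤ := by
  have hin : ∀ i, al i ∈ Subgroup.closure (Set.range al) := fun i =>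
    Subgroup.subset_closure ⟨i, rfl⟩
  have := h.closed hl (Subgroup.closure (Set.range al) : Set G)
    (fun i v => by
      simp only [SetLike.mem_coe]
      exact (Subgroup.mul_mem_cancel_right _ (hin i)).symm) ⟨1, Subgroup.one_mem _⟩
  rw [eq_top_iff]
  intro x _
  have hx : x ∈ (Subgroup.closure (Set.range al) : Set G) := by rw [this]; trivial
  exact hx

/-- the elements `al i * (al j)⁻¹` generate the group -/
theorem closure_quot_eq_top [Nonempty ι] {al : ι → G} {l : ℝ}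
    (h : MixF (fun i v => v * al i) l) (hl : l ^ 2 < 1 / 2) :
    Subgroup.closure (Set.range fun x : ι × ι => al x.1 * (al x.2)⁻¹) = ⊤ := by
  classical
  set H := Subgroup.closure (Set.range fun x : ι × ι => al x.1 * (al x.2)⁻¹) with hH
  have hin : ∀ i j, al i * (al j)⁻¹ ∈ H := fun i j => Subgroup.subset_closure ⟨(i, j), rfl⟩
  have i₀ : ι := Classical.arbitrary ι
  by_contra hcon
  obtain ⟨b, hb⟩ : ∃ b, b ∉ H := by
    by_contra hh; push Not at hh; exact hcon (eq_top_iff.mpr fun x _ => hh x)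
  -- membership `v ∈ H ↔ v * al i ∈ H * al i₀`
  have key : ∀ (i : ι) (v : G), v ∈ H ↔ v * al i * (al i₀)⁻¹ ∈ H := by
    intro i v
    rw [mul_assoc]
    exact (Subgroup.mul_mem_cancel_right _ (hin i i₀)).symm
  have hcard : ∀ p : G → Prop, (univ.filter fun v => p (v * (al i₀)⁻¹)).card
      = (univ.filter p).card := by
    intro p
    refine Finset.card_bij (fun v _ => v * (al i₀)⁻¹) ?_ ?_ ?_
    · intro v hv; simpa using hv
    · intro v _ w _ hvw; simpa using hvw
    · intro w hw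
      exact ⟨w * al i₀, by simpa using hw, by simp⟩
  have h1 := h.half hl (univ.filter fun v => v ∈ H) (univ.filter fun v => v * (al i₀)⁻¹ ∈ H)
    (fun i v => by simpa using key i v) (hcard fun v => v ∈ H) ⟨1, by simp⟩
  have h2 := h.half hl (univ.filter fun v => v ∉ H) (univ.filter fun v => v * (al i₀)⁻¹ ∉ H)
    (fun i v => by simpa using not_congr (key i v)) (by convert hcard (fun v => v ∉ H))
    ⟨b, by simpa using hb⟩
  have h3 : (univ.filter fun v => v ∈ H).card + (univ.filter fun v => v ∉ H).card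
      = Fintype.card G := by
    rw [← Finset.card_univ]
    exact Finset.card_filter_add_card_filter_not (s := (univ : Finset G)) (fun v => v ∈ H)
  omega

variable {κ T : Type*} [Fintype κ] [Group T] [Fintype T]

/-- product groups: left multiplications by `(al i)⁻¹`, `(be j)⁻¹` -/
theorem MixF.prod_left {al : ι → G} {be : κ → T} {l1 l2 l3 : ℝ}
    (hs : MixF (fun i g => (al i)⁻¹ * g) l1) (ht : MixF (fun j g => (be j)⁻¹ * g) l2)
    (h3 : l1 ^ 2 + l2 ^ 2 + l1 ^ 2 * l2 ^ 2 ≤ l3 ^ 2) :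
    MixF (fun (x : ι × κ) (g : G × T) => ((al x.1, be x.2) : G × T)⁻¹ * g) l3 := by
  have e : (fun (x : ι × κ) (g : G × T) => ((al x.1, be x.2) : G × T)⁻¹ * g)
      = prodS (fun i g => (al i)⁻¹ * g) (fun j g => (be j)⁻¹ * g) := by
    funext x g
    exact Prod.ext rfl rfl
  rw [e]
  exact hs.prod ht h3

/-- product groups: right multiplications -/
theorem MixF.prod_right {al : ι → G} {be : κ → T} {l1 l2 l3 : ℝ}
    (hs : MixF (fun i g => g * al i) l1) (ht : MixF (fun j g => g * be j) l2)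
    (h3 : l1 ^ 2 + l2 ^ 2 + l1 ^ 2 * l2 ^ 2 ≤ l3 ^ 2) :
    MixF (fun (x : ι × κ) (g : G × T) => g * ((al x.1, be x.2) : G × T)) l3 := by
  have e : (fun (x : ι × κ) (g : G × T) => g * ((al x.1, be x.2) : G × T))
      = prodS (fun i g => g * al i) (fun j g => g * be j) := by
    funext x g
    exact Prod.ext rfl rfl
  rw [e]
  exact hs.prod ht h3

end group

end Crest.Agent.R289.MixProd178
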