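import Mathlib
import Crest.Agent.R289.Growth3_577
import Crest.Agent.R289.TP_846
import Crest.Agent.R289.MixProd_178

/-!
Row 289, block C: the cascade operator over the base field `K`, for a family of ANY number of left
translations (content groups `P` and `P × T`).

`LamK A ga w x a = ∑ i, ∑ b, A i a b • w ((ga i)⁻¹ • x) b`, values in any `K`-module.

* `Grow A` : for every group, every mixing family `ga`, every `K`-module and every factor `R` with
  `64 R lam² ≤ 1`: `R * sz y ≤ sz (LamK A ga y)` for `16 R sz y ≤ |P|`;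
* `exists_grow` : for every field `K` and every finite nonempty index type there is such an `A`
  (multiplications of an extension field, written as matrices over `K`);
* `Grow.zero_test2R` : second order zero test on an orbit;
* `mix_of_exp`, `mix_prod` : the mixing hypothesis from `TP846.Exp`, for `P` and `P × T`.
-/

set_option autoImplicit false
set_option linter.unusedSectionVars false

namespace Crest.Agent.R289.CascK750

open Finset Crest.Agent.R289.Cascade397 Crest.Agent.R289.Growth2 Crest.Agent.R289.Growth3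

/-! ### the operator -/

section op

variable {P Ω ι ρ K M : Type*} [Group P] [MulAction P Ω] [Fintype ι] [Fintype ρ] [Field K]
  [AddCommGroup M] [Module K M]

/-- cascade operator with coefficient matrices over `K` -/
def LamK (A : ι → ρ → ρ → K) (ga : ι → P) (w : Ω → ρ → M) (x : Ω) (a : ρ) : M :=
  ∑ i, ∑ b, A i a b • w ((ga i)⁻¹ • x) b

theorem LamK_zero (A : ι → ρ → ρ → K) (ga : ι → P) : LamK A ga (0 : Ω → ρ → M) = 0 := by
  funext x a
  simp [LamK]

theorem LamK_add (A : ι → ρ → ρ → K) (ga : ι → P) (w w' : Ω → ρ → M) :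
    LamK A ga (w + w') = LamK A ga w + LamK A ga w' := by
  funext x a
  simp [LamK, Finset.sum_add_distrib]

theorem LamK_neg (A : ι → ρ → ρ → K) (ga : ι → P) (w : Ω → ρ → M) :
    LamK A ga (-w) = - LamK A ga w := by
  funext x a
  simp [LamK]

theorem LamK_sub (A : ι → ρ → ρ → K) (ga : ι → P) (w w' : Ω → ρ → M) :
    LamK A ga (w - w') = LamK A ga w - LamK A ga w' := by
  funext x a
  simp [LamK, Finset.sum_sub_distrib, smul_sub]

theorem LamK_smul (A : ι → ρ → ρ → K) (ga : ι → P) (c : K) (w : Ω → ρ → M) :
    LamK A ga (c • w) = c • LamK A ga w := by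
  funext x a
  simp only [LamK, Pi.smul_apply, Finset.smul_sum]
  refine Finset.sum_congr rfl fun i _ => Finset.sum_congr rfl fun b _ => ?_
  rw [smul_comm]

/-- the operator commutes with `K`-linear maps of the values -/
theorem LamK_map {M' : Type*} [AddCommGroup M'] [Module K M'] (A : ι → ρ → ρ → K) (ga : ι → P)
    (φ : M →ₗ[K] M') (w : Ω → ρ → M) :
    LamK A ga (fun x a => φ (w x a)) = fun x a => φ (LamK A ga w x a) := by
  funext x a
  simp [LamK, map_sum]

/-- restriction to an orbit -/
theorem LamK_orbit (A : ι → ρ → ρ → K) (ga : ι → P) (w : Ω → ρ → M) (x0 : Ω) (g : P) :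
    LamK A ga w (g • x0) = LamK A ga (fun h : P => w (h • x0)) g := by
  funext a
  simp only [LamK, smul_smul, smul_eq_mul]

/-- every left translation stable submodule is preserved, componentwise -/
theorem LamK_mem (A : ι → ρ → ρ → K) (ga : ι → P) (C : Submodule K (Ω → M))
    (hC : ∀ f ∈ C, ∀ g : P, (fun x => f (g⁻¹ • x)) ∈ C) (w : Ω → ρ → M)
    (hw : ∀ a, (fun x => w x a) ∈ C) (a : ρ) : (fun x => LamK A ga w x a) ∈ C := by
  have h : (fun x => LamK A ga w x a)
      = ∑ i, ∑ b : ρ, A i a b • (fun x => w ((ga i)⁻¹ • x) b) := by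
    funext x
    simp [LamK, Finset.sum_apply]
  rw [h]
  refine Submodule.sum_mem _ fun i _ => Submodule.sum_mem _ fun b _ => Submodule.smul_mem _ _ ?_
  exact hC _ (hw b) (ga i)

end op

/-! ### growth -/

/-- the growth property of a coefficient system -/
def Grow {ι ρ K : Type} [Fintype ι] [Fintype ρ] [Field K] (A : ι → ρ → ρ → K) : Prop :=
  ∀ (P : Type) [Group P] [Fintype P] (ga : ι → P) (lam : ℝ), Mix ga lam → 0 ≤ lam →
    ∀ R : ℕ, 1 ≤ R → 64 * (R : ℝ) * lam ^ 2 ≤ 1 →
      ∀ (M : Type) [AddCommGroup M] [Module K M] (y : P → ρ → M),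
        16 * R * sz y ≤ Fintype.card P → R * sz y ≤ sz (LamK A ga y)

section field

variable {K F : Type} [Field K] [Field F] [Algebra K F]

open scoped Matrix.Module

/-- coefficients: multiplication by `al i ^ (a + b)` as a matrix over `K` -/
noncomputable def coef {ι : Type} {e r : ℕ} (bas : Module.Basis (Fin e) K F) (al : ι → F) (i : ι)
    (a b : Fin r × Fin e) : K :=
  Algebra.leftMulMatrix bas (al i ^ ((a.1 : ℕ) + (b.1 : ℕ))) a.2 b.2

theorem sz_congr {P M M' : Type*} [Fintype P] [AddCommGroup M] [AddCommGroup M'] {y : P → M}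
    {y' : P → M'} (h : ∀ g, y g = 0 ↔ y' g = 0) : sz y = sz y' := by
  classical
  unfold sz
  congr 1
  ext g
  simp only [Finset.mem_filter, Finset.mem_univ, true_and]
  exact not_congr (h g)

theorem grow_coef {ι : Type} [Fintype ι] {e r : ℕ} (bas : Module.Basis (Fin e) K F) (al : ι → F)
    (hal : Function.Injective al) (hr1 : Fintype.card ι ≤ 2 * r)
    (hr2 : 2 * r ≤ Fintype.card ι + 2) (hn : 0 < Fintype.card ι) :
    Grow (coef (r := r) bas al) := by
  classical
  intro P _ _ ga lam hM hl0 R hR hl M _ _ y hy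
  let _ : Module F (Fin e → M) :=
    Module.compHom (Fin e → M) (Algebra.leftMulMatrix bas).toRingHom
  have hsm : ∀ (f : F) (v : Fin e → M) (c : Fin e),
      (f • v) c = ∑ d, Algebra.leftMulMatrix bas f c d • v d := fun f v c => rfl
  set y' : P → Fin r → (Fin e → M) := fun g a c => y g (a, c) with hy'
  have h1 : sz y = sz y' := by
    apply sz_congr
    intro g
    constructor
    · intro h
      funext a c
      exact congrFun h (a, c)
    · intro h
      funext x
      exact congrFun (congrFun h x.1) x.2
  have h2 : sz (LamK (coef bas al) ga y) = sz (Lam ga al y') := by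
    apply sz_congr
    intro g
    have key : ∀ (a : Fin r) (c : Fin e),
        Lam ga al y' g a c = LamK (coef bas al) ga y g (a, c) := by
      intro a c
      rw [Lam_apply, Finset.sum_apply]
      unfold LamK
      refine Finset.sum_congr rfl fun i _ => ?_
      rw [Finset.sum_apply, Fintype.sum_prod_type]
      refine Finset.sum_congr rfl fun b _ => ?_
      rw [hsm]
      rfl
    constructor
    · intro h
      funext a c
      rw [key, h]
      rfl
    · intro h
      funext x
      have := congrFun (congrFun h x.1) x.2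
      rw [key] at this
      exact this
  rw [h2, h1]
  rw [h1] at hy
  exact growthR_sz ga al hal hr1 hr2 hn hM hl0 hR hl y' hy

end field

/-- reindexing of the rows -/
theorem Grow.reindex {ι ρ ρ' K : Type} [Fintype ι] [Fintype ρ] [Fintype ρ'] [Field K]
    {A : ι → ρ → ρ → K} (h : Grow A) (e : ρ' ≃ ρ) :
    Grow (fun i a b => A i (e a) (e b)) := by
  intro P _ _ ga lam hM hl0 R hR hl M _ _ y hy
  have h1 : sz y = sz (fun g a => y g (e.symm a)) := by
    apply sz_congr
    intro g
    constructor
    · intro h; funext a; exact congrFun h _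
    · intro h; funext a
      have := congrFun h (e a)
      simpa using this
  have h2 : sz (LamK (fun i a b => A i (e a) (e b)) ga y)
      = sz (LamK A ga (fun g a => y g (e.symm a))) := by
    apply sz_congr
    intro g
    have key : ∀ a, LamK (fun i a b => A i (e a) (e b)) ga y g a
        = LamK A ga (fun g a => y g (e.symm a)) g (e a) := by
      intro a
      unfold LamK
      refine Finset.sum_congr rfl fun i _ => ?_
      rw [← Equiv.sum_comp e]
      simp
    constructor
    · intro h
      funext a
      have := key (e.symm a)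
      rw [h] at this
      simpa using this.symm
    · intro h
      funext a
      rw [key, h]
      rfl
  rw [h2, h1]
  rw [h1] at hy
  exact h P ga lam hM hl0 R hR hl M _ hy

/-- reindexing of the family -/
theorem Grow.reindex_fam {ι ι' ρ K : Type} [Fintype ι] [Fintype ι'] [Fintype ρ] [Field K]
    {A : ι → ρ → ρ → K} (h : Grow A) (e : ι' ≃ ι) :
    Grow (fun i => A (e i)) := by
  intro P _ _ ga lam hM hl0 R hR hl M _ _ y hy
  have h2 : LamK (fun i => A (e i)) ga y = LamK A (fun i => ga (e.symm i)) y := by
    funext g a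
    unfold LamK
    rw [← Equiv.sum_comp e]
    simp
  rw [h2]
  refine h P _ lam ?_ hl0 R hR hl M y hy
  intro f hf
  have := hM f hf
  have hc : Fintype.card ι = Fintype.card ι' := (Fintype.card_congr e).symm
  have hs : ∀ g, ∑ i, f ((ga (e.symm i))⁻¹ * g) = ∑ i, f ((ga i)⁻¹ * g) := fun g =>
    Equiv.sum_comp e.symm (fun i => f ((ga i)⁻¹ * g))
  simp only [hs, hc]
  exact this

/-- **existence of the cascade coefficients**, over any field, for any finite nonempty family -/
theorem exists_grow (K : Type) [Field K] (ι : Type) [Fintype ι] [Nonempty ι] :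
    ∃ (r : ℕ) (A : ι → Fin r → Fin r → K), 0 < r ∧ Grow A := by
  classical
  -- an extension field with enough elements
  let Kb := AlgebraicClosure K
  obtain ⟨em, hem⟩ : ∃ em : ι → Kb, Function.Injective em :=
    ⟨_, ((Fintype.equivFin ι).toEmbedding.trans
      (Fin.valEmbedding.trans (Infinite.natEmbedding Kb))).injective⟩
  let F := IntermediateField.adjoin K (Set.range em)
  have : FiniteDimensional K F := by
    apply IntermediateField.finiteDimensional_adjoin
    intro x _
    exact (Algebra.IsAlgebraic.isAlgebraic x).isIntegral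
  let al : ι → F := fun i => ⟨em i, IntermediateField.subset_adjoin K _ ⟨i, rfl⟩⟩
  have hal : Function.Injective al := fun i j h => hem (congrArg Subtype.val h)
  let bas := Module.finBasis K F
  set e := Module.finrank K F with he
  have he0 : 0 < e := Module.finrank_pos
  have hn : 0 < Fintype.card ι := Fintype.card_pos
  set r0 := (Fintype.card ι + 1) / 2 with hr0
  have h1 : Fintype.card ι ≤ 2 * r0 := by omega
  have h2 : 2 * r0 ≤ Fintype.card ι + 2 := by omega
  have hr : 0 < r0 := by omega
  have hg := grow_coef (r := r0) bas al hal h1 h2 hn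
  exact ⟨r0 * e, _, Nat.mul_pos hr he0, hg.reindex finProdFinEquiv.symm⟩

/-! ### second order zero test -/

section test

variable {ι ρ K : Type} [Fintype ι] [Fintype ρ] [Field K] {A : ι → ρ → ρ → K}
  {P : Type} [Group P] [Fintype P] {M : Type} [AddCommGroup M] [Module K M]

/-- **second order cascade over `K`** -/
theorem Grow.cascade (h : Grow A) {ga : ι → P} {lam : ℝ} (hM : Mix ga lam) (hl0 : 0 ≤ lam)
    {R : ℕ} (hR : 1 ≤ R) (hl : 64 * ((R : ℝ) + 1) * lam ^ 2 ≤ 1) {w : P → ρ → M} (hw : w ≠ 0)
    (e : ℤ) {L : ℕ} (hL : Fintype.card P < 16 * (R + 1) * R ^ L) :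
    ∃ j, j ≤ L ∧ Fintype.card P < 16 * (R + 1) * sz (chain (LamK A ga) e w j) := by
  refine cascadeR (D := 16 * (R + 1)) hR (fun y hy => ?_) e hw hL
  exact h P ga lam hM hl0 (R + 1) (by omega) (by push_cast; exact hl) M y hy

variable {Ω : Type} [MulAction P Ω]

/-- restriction of the second order chain to the orbit of `x0` -/
theorem chain_orbit (A : ι → ρ → ρ → K) (ga : ι → P) (e : ℤ) (w : Ω → ρ → M) (x0 : Ω) (j : ℕ) :
    (fun g : P => chain (LamK A ga) e w j (g • x0)) =
      chain (LamK A ga) e (fun g : P => w (g • x0)) j := by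
  refine chain_map (Lam := LamK A ga) (Lam' := LamK A ga) (fun (u : Ω → ρ → M) (g : P) =>
    u (g • x0)) ?_ (fun _ _ _ => rfl) e w j
  intro u
  funext g
  exact LamK_orbit A ga u x0 g

/-- **second order zero test on an orbit, ratio `R`, over `K`** -/
theorem Grow.zero_test (h : Grow A) {ga : ι → P} {lam : ℝ} (hM : Mix ga lam) (hl0 : 0 ≤ lam)
    {R : ℕ} (hR : 1 ≤ R) (hl : 64 * ((R : ℝ) + 1) * lam ^ 2 ≤ 1) (w : Ω → ρ → M) (x0 : Ω) (e : ℤ)
    {L : ℕ} (hL : Fintype.card P < 16 * (R + 1) * R ^ L) :
    ((∀ g : P, w (g • x0) = 0) → ∀ j (g : P), chain (LamK A ga) e w j (g • x0) = 0) ∧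
    ((∃ g : P, w (g • x0) ≠ 0) → ∃ j, j ≤ L ∧
      Fintype.card P < 16 * (R + 1) * sz (fun g : P => chain (LamK A ga) e w j (g • x0))) := by
  constructor
  · intro h0 j g
    have h1 : (fun g : P => w (g • x0)) = 0 := by
      funext g
      exact h0 g
    have h2 := chain_orbit A ga e w x0 j
    rw [h1, chain_of_zero (LamK_zero A ga)] at h2
    exact congrFun h2 g
  · rintro ⟨g, hg⟩
    have h1 : (fun g : P => w (g • x0)) ≠ 0 := fun h => hg (congrFun h g)
    obtain ⟨j, hj, hlt⟩ := h.cascade hM hl0 hR hl h1 e hL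
    refine ⟨j, hj, ?_⟩
    rw [chain_orbit]
    exact hlt

end test

/-! ### mixing from the object -/

section mix

open Crest.Agent.R289.MixProd178

variable {P T I J : Type} [Group P] [Fintype P] [Group T] [Fintype T] [Fintype I] [Fintype J]

theorem mixF_of_exp {s : I → P} {lam : ℝ} (h : TP846.Exp s lam) :
    MixF (fun i g => (s i)⁻¹ * g) lam :=
  (mixF_right_iff_left s lam).mp h

/-- the mixing hypothesis of the cascade on `P` -/
theorem mix_of_exp {s : I → P} {lam : ℝ} (h : TP846.Exp s lam) : Mix s lam :=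
  mixF_of_exp h

/-- the mixing hypothesis of the cascade on `P × T` -/
theorem mix_prod {s : I → P} {t : J → T} {l1 l2 l3 : ℝ} (hs : TP846.Exp s l1)
    (ht : TP846.Exp t l2) (h3 : l1 ^ 2 + l2 ^ 2 + l1 ^ 2 * l2 ^ 2 ≤ l3 ^ 2) :
    Mix (fun x : I × J => ((s x.1, t x.2) : P × T)) l3 :=
  (mixF_of_exp hs).prod_left (mixF_of_exp ht) h3

theorem mix_mono {s : I → P} {l l' : ℝ} (h : Mix s l) (hl : l ^ 2 ≤ l' ^ 2) : Mix s l' :=
  MixF.mono (s := fun i g => (s i)⁻¹ * g) h hl

end mix

end Crest.Agent.R289.CascK750
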