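import Crest.Agent.R289.DefC_143

/-!
# Row 289, block C: finiteness and decidability of the index types of `DefC_143`

* `Fintype`, `DecidableEq` for `Op`, `Rg`, `Pb`, `Pt`, `Ar`, `Cp`, `Id1`, `Wr`, `Lb` and for the index
  types of `mach`.
* decidability of `lg`, `lgI`, `gd`, `enC`, `enI`, `bkC`, `bkI` and of the fields of `mach`.
* `mach_WF`: the End-of-Line machine is syntactically well formed of degree 4.
-/

set_option autoImplicit false
set_option linter.unusedSectionVars false

namespace Crest.Agent.R289.FinC792

open Crest.Agent.R289.DefC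

deriving instance Fintype for Op
deriving instance Fintype for Rg
deriving instance DecidableEq for Pb
deriving instance Fintype for Pb
deriving instance DecidableEq for Pt
deriving instance Fintype for Pt
deriving instance DecidableEq for Ar
deriving instance Fintype for Ar
deriving instance DecidableEq for Cp
set_option synthInstance.maxHeartbeats 400000 in
set_option synthInstance.maxSize 4096 in
deriving instance Fintype for Cp
deriving instance DecidableEq for Id1
deriving instance Fintype for Id1
deriving instance DecidableEq for Wr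
deriving instance Fintype for Wr
deriving instance DecidableEq for Lb
deriving instance Fintype for Lb

section dec
variable {K G Λ : Type} {J : ℕ}

instance decLg (s : Sg) (q : Cp G Λ J) : Decidable (lg s q) := by
  unfold lg; split <;> infer_instance

instance decLgI (s : Sg) (q : Id1 Λ J) : Decidable (lgI s q) := by
  unfold lgI; split <;> infer_instance

instance decGd [DecidableEq G] [DecidableEq Λ] (c : Bool) (j : Fin J) (g : G) (j' : Fin J)
    (w : Wr G Λ) (p : Pt G J) (q : Cp G Λ J) : Decidable (gd c j g j' w p q) := by
  unfold gd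
  cases w <;> infer_instance

instance decEnC [DecidableEq G] [DecidableEq Λ] (l : Lb G Λ J) (q : Cp G Λ J) :
    Decidable (enC l q) := by
  unfold enC; split <;> infer_instance

instance decBkC [DecidableEq G] [DecidableEq Λ] (l : Lb G Λ J) (q : Cp G Λ J) :
    Decidable (bkC l q) := by
  unfold bkC; split <;> infer_instance

instance decEnI (l : Lb G Λ J) (q : Id1 Λ J) : Decidable (enI l q) := by
  unfold enI; split <;> infer_instance

instance decBkI (l : Lb G Λ J) (q : Id1 Λ J) : Decidable (bkI l q) := by
  unfold bkI; split <;> infer_instance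

end dec

section mach
variable {K G Λ : Type} {J : ℕ} [CommRing K] [DecidableEq Λ] (out : Λ)

instance : DecidableEq (mach (K := K) (G := G) (J := J) out).Reg :=
  inferInstanceAs (DecidableEq (Rg Λ J))
instance : DecidableEq (mach (K := K) (G := G) (J := J) out).Idl :=
  inferInstanceAs (DecidableEq (Id1 Λ J))
instance : DecidableEq (mach (K := K) (G := G) (J := J) out).Stg :=
  inferInstanceAs (DecidableEq Sg)
instance [DecidableEq G] : DecidableEq (mach (K := K) (G := G) (J := J) out).Pub :=
  inferInstanceAs (DecidableEq (Pb G Λ J))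
instance [DecidableEq G] : DecidableEq (mach (K := K) (G := G) (J := J) out).Comp :=
  inferInstanceAs (DecidableEq (Cp G Λ J))
instance [DecidableEq G] : DecidableEq (mach (K := K) (G := G) (J := J) out).Tr :=
  inferInstanceAs (DecidableEq (Lb G Λ J))

instance : Fintype (mach (K := K) (G := G) (J := J) out).Stg := inferInstanceAs (Fintype Sg)
instance [Fintype Λ] : Fintype (mach (K := K) (G := G) (J := J) out).Reg :=
  inferInstanceAs (Fintype (Rg Λ J))
instance [Fintype Λ] : Fintype (mach (K := K) (G := G) (J := J) out).Idl :=
  inferInstanceAs (Fintype (Id1 Λ J))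
instance [Fintype G] [Fintype Λ] : Fintype (mach (K := K) (G := G) (J := J) out).Pub :=
  inferInstanceAs (Fintype (Pb G Λ J))
instance [Fintype G] [Fintype Λ] : Fintype (mach (K := K) (G := G) (J := J) out).Comp :=
  inferInstanceAs (Fintype (Cp G Λ J))
instance [Fintype G] [Fintype Λ] : Fintype (mach (K := K) (G := G) (J := J) out).Tr :=
  inferInstanceAs (Fintype (Lb G Λ J))

instance (s : (mach (K := K) (G := G) (J := J) out).Stg)
    (q : (mach (K := K) (G := G) (J := J) out).Comp) :
    Decidable ((mach (K := K) (G := G) (J := J) out).leg s q) := decLg s q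
instance (s : (mach (K := K) (G := G) (J := J) out).Stg)
    (q : (mach (K := K) (G := G) (J := J) out).Idl) :
    Decidable ((mach (K := K) (G := G) (J := J) out).legI s q) := decLgI s q
instance [DecidableEq G] (l : (mach (K := K) (G := G) (J := J) out).Tr)
    (q : (mach (K := K) (G := G) (J := J) out).Comp) :
    Decidable ((mach (K := K) (G := G) (J := J) out).en l q) := decEnC l q
instance [DecidableEq G] (l : (mach (K := K) (G := G) (J := J) out).Tr)
    (q : (mach (K := K) (G := G) (J := J) out).Comp) :
    Decidable ((mach (K := K) (G := G) (J := J) out).bk l q) := decBkC l q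
instance (l : (mach (K := K) (G := G) (J := J) out).Tr)
    (q : (mach (K := K) (G := G) (J := J) out).Idl) :
    Decidable ((mach (K := K) (G := G) (J := J) out).enI l q) := decEnI l q
instance (l : (mach (K := K) (G := G) (J := J) out).Tr)
    (q : (mach (K := K) (G := G) (J := J) out).Idl) :
    Decidable ((mach (K := K) (G := G) (J := J) out).bkI l q) := decBkI l q

end mach

/-! ### degrees -/

section deg
variable {K G Λ : Type} {J : ℕ} [CommRing K]

theorem hom_sub {R B : Type} {e f : PE K R B G} {d : ℕ} (he : e.Hom d) (hf : f.Hom d) :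
    (PE.sub e f).Hom d := ⟨he, hf⟩

theorem hom_mul {R B : Type} {e f : PE K R B G} {a b : ℕ} (he : e.Hom a) (hf : f.Hom b) :
    (PE.mul e f).Hom (a + b) := ⟨a, b, rfl, he, hf⟩

theorem hom_u : (u : Ex K G Λ J).Hom 1 := rfl

theorem hom_uu : (PE.mul u u : Ex K G Λ J).Hom 2 := hom_mul (a := 1) (b := 1) rfl rfl

theorem hom_Pt (p : Pt G J) : (p.ex : Ex K G Λ J).Hom 1 := by
  cases p <;> rfl

theorem hom_Ar (a : Ar G Λ) : (a.ex : Ex K G Λ J).Hom 1 := by
  cases a with
  | no => trivial
  | name c => cases c <;> rfl
  | cell c g l => rfl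

theorem hom_Op (c : Bool) (k : Op G Λ) : (k.ex c : Ex K G Λ J).Hom 2 := by
  cases k with
  | inp => exact hom_mul (a := 1) (b := 1) rfl (by cases c <;> rfl)
  | cst b => exact hom_uu
  | nand g l g' l' => exact hom_sub hom_uu (hom_mul (a := 1) (b := 1) rfl rfl)

theorem hom_cex (q : Cp G Λ J) : (cex q : Ex K G Λ J).Hom 4 := by
  have h2 : ∀ e f : Ex K G Λ J, e.Hom 1 → f.Hom 1 →
      (PE.mul (PE.mul u u) (PE.mul e f)).Hom 4 := fun e f he hf =>
    hom_mul (a := 2) (b := 2) hom_uu (hom_mul (a := 1) (b := 1) he hf)
  cases q with
  | bool r =>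
      exact hom_mul (a := 2) (b := 2) hom_uu
        (hom_sub (hom_mul (a := 1) (b := 1) rfl rfl) (hom_mul (a := 1) (b := 1) rfl rfl))
  | dm j => exact h2 _ _ rfl rfl
  | visD j => exact h2 _ _ (hom_sub rfl rfl) rfl
  | visM j => exact h2 _ _ (hom_sub rfl rfl) rfl
  | inX => exact h2 _ _ (hom_sub rfl rfl) rfl
  | inY => exact h2 _ _ (hom_sub rfl rfl) rfl
  | step j g j' => exact h2 _ _ rfl (hom_sub rfl ⟨rfl, rfl⟩)
  | fi j => exact h2 _ _ rfl (hom_sub ⟨rfl, rfl⟩ rfl)
  | la j => exact h2 _ _ rfl rfl
  | unw c l => exact h2 _ _ (hom_sub rfl rfl) rfl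
  | cell c f j l k =>
      refine hom_mul (a := 1) (b := 3) rfl (hom_sub (hom_mul (a := 2) (b := 1) hom_uu rfl)
        (hom_mul (a := 1) (b := 2) ?_ (hom_Op c k)))
      cases f <;> rfl
  | gE j g j' p => exact h2 _ _ (hom_sub rfl rfl) (hom_Pt p)
  | gN c j p => exact h2 _ _ rfl (hom_Pt p)
  | gW c j l k p => exact h2 _ _ (hom_sub rfl rfl) (hom_Pt p)
  | gA a β p => exact h2 _ _ (hom_sub (hom_Ar a) rfl) (hom_Pt p)

theorem hom_iex (out : Λ) (i : Id1 Λ J) : (iex out i : Ex K G Λ J).Hom 1 := by
  cases i <;> first | rfl | exact hom_sub rfl rfl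

theorem hom_fup [DecidableEq Λ] (c : Bool) (j : Fin J) (g : G) (j' : Fin J) (w : Wr G Λ)
    (r : Rg Λ J) : (fup c j g j' w r : Ex K G Λ J).Hom 1 := by
  cases r with
  | X => rfl
  | Y => rfl
  | F c' l =>
      cases w with
      | idle => rfl
      | put l' k β β' =>
          show PE.Hom (if _ then _ else _) 1
          split
          · exact ⟨rfl, rfl⟩
          · rfl
  | D i =>
      show PE.Hom (if _ then _ else _) 1
      split
      · rfl
      · trivial
  | M i =>
      show PE.Hom (if _ then _ else _) 1
      split
      · exact ⟨rfl, rfl⟩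
      · rfl

theorem hom_fdn [DecidableEq Λ] (c : Bool) (j : Fin J) (g : G) (j' : Fin J) (w : Wr G Λ)
    (r : Rg Λ J) : (fdn c j g j' w r : Ex K G Λ J).Hom 1 := by
  cases r with
  | X => rfl
  | Y => rfl
  | F c' l =>
      cases w with
      | idle => rfl
      | put l' k β β' =>
          show PE.Hom (if _ then _ else _) 1
          split
          · exact hom_sub rfl rfl
          · rfl
  | D i =>
      show PE.Hom (if _ then _ else _) 1
      split
      · rfl
      · trivial
  | M i =>
      show PE.Hom (if _ then _ else _) 1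
      split
      · exact hom_sub rfl rfl
      · rfl

/-- the End-of-Line machine is well formed: components of degree 4, identities and updates linear -/
theorem mach_WF [DecidableEq Λ] (out : Λ) :
    (mach (K := K) (G := G) (J := J) out).WF 4 where
  comp_hom := hom_cex
  idl_hom := hom_iex out
  up_hom := by
    intro ρ r
    cases ρ with
    | fill s j g j' w =>
        show PE.Hom ((if s.inv then fdn s.prog j g j' w else fup s.prog j g j' w) r) 1
        split
        · exact hom_fdn _ _ _ _ _ _
        · exact hom_fup _ _ _ _ _ _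
    | ab => cases r <;> first | rfl | trivial
    | bc => cases r <;> rfl
    | cd => cases r <;> first | rfl | trivial
    | da => cases r <;> first | rfl | trivial
  dn_hom := by
    intro ρ r
    cases ρ with
    | fill s j g j' w =>
        show PE.Hom ((if s.inv then fup s.prog j g j' w else fdn s.prog j g j' w) r) 1
        split
        · exact hom_fup _ _ _ _ _ _
        · exact hom_fdn _ _ _ _ _ _
    | ab => cases r <;> first | rfl | trivial
    | bc => cases r <;> rfl
    | cd => cases r <;> first | rfl | trivial
    | da => cases r <;> first | rfl | trivial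

end deg

end Crest.Agent.R289.FinC792
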