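import Crest.Agent.R289.BootC_515
import Crest.Agent.R289.FinC_792

/-!
# Row 289, block C: finiteness and decidability of the index types of `BootC515.machB` (helper263)

* `Fintype`, `DecidableEq`, `Finite` for `SgB`, `LbB` and for all index types of `machB`;
* decidability of `SgB.new`, `legB`, `fcI` and of the guard fields of `machB`;
* `machB_WF4` : `machB` is syntactically well formed of degree 4.
-/

set_option autoImplicit false
set_option linter.unusedSectionVars false

namespace Crest.Agent.R289.FinB263

open Crest.Agent.R289.DefC Crest.Agent.R289.BootC515 Crest.Agent.R289.FinC792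

deriving instance Fintype for SgB
deriving instance DecidableEq for LbB
deriving instance Fintype for LbB

section dec
variable {K G Λ : Type} {J : ℕ}

instance decNew (s : SgB) : Decidable s.new := by
  cases s <;> (unfold SgB.new; infer_instance)

instance decLegB (s : SgB) (q : Id1 Λ J) : Decidable (legB s q) := by
  unfold legB; split <;> infer_instance

instance decFcI (q : Id1 Λ J) : Decidable (fcI q) := by
  unfold fcI; split <;> infer_instance

end dec

section machB
variable {K G Λ : Type} {J : ℕ} [CommRing K] [DecidableEq Λ] (out : Λ)

instance : DecidableEq (machB (K := K) (G := G) (J := J) out).Reg :=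
  inferInstanceAs (DecidableEq (Rg Λ J))
instance : DecidableEq (machB (K := K) (G := G) (J := J) out).Idl :=
  inferInstanceAs (DecidableEq (Id1 Λ J))
instance : DecidableEq (machB (K := K) (G := G) (J := J) out).Stg :=
  inferInstanceAs (DecidableEq SgB)
instance [DecidableEq G] : DecidableEq (machB (K := K) (G := G) (J := J) out).Pub :=
  inferInstanceAs (DecidableEq (Pb G Λ J))
instance [DecidableEq G] : DecidableEq (machB (K := K) (G := G) (J := J) out).Comp :=
  inferInstanceAs (DecidableEq (Cp G Λ J))
instance [DecidableEq G] : DecidableEq (machB (K := K) (G := G) (J := J) out).Tr :=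
  inferInstanceAs (DecidableEq (LbB G Λ J))

instance : Fintype (machB (K := K) (G := G) (J := J) out).Stg := inferInstanceAs (Fintype SgB)
instance [Fintype Λ] : Fintype (machB (K := K) (G := G) (J := J) out).Reg :=
  inferInstanceAs (Fintype (Rg Λ J))
instance [Fintype Λ] : Fintype (machB (K := K) (G := G) (J := J) out).Idl :=
  inferInstanceAs (Fintype (Id1 Λ J))
instance [Fintype G] [Fintype Λ] : Fintype (machB (K := K) (G := G) (J := J) out).Pub :=
  inferInstanceAs (Fintype (Pb G Λ J))
instance [Fintype G] [Fintype Λ] : Fintype (machB (K := K) (G := G) (J := J) out).Comp :=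
  inferInstanceAs (Fintype (Cp G Λ J))
instance [Fintype G] [Fintype Λ] : Fintype (machB (K := K) (G := G) (J := J) out).Tr :=
  inferInstanceAs (Fintype (LbB G Λ J))

instance (s : (machB (K := K) (G := G) (J := J) out).Stg)
    (q : (machB (K := K) (G := G) (J := J) out).Comp) :
    Decidable ((machB (K := K) (G := G) (J := J) out).leg s q) := decLg (SgB.base s) q
instance (s : (machB (K := K) (G := G) (J := J) out).Stg)
    (q : (machB (K := K) (G := G) (J := J) out).Idl) :
    Decidable ((machB (K := K) (G := G) (J := J) out).legI s q) := decLegB s q

instance [DecidableEq G] (l : (machB (K := K) (G := G) (J := J) out).Tr)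
    (q : (machB (K := K) (G := G) (J := J) out).Comp) :
    Decidable ((machB (K := K) (G := G) (J := J) out).en l q) := by
  cases l with
  | old ρ => exact decEnC ρ q
  | mir b j g j' w => exact decBkC (.fill (mst b).base j g j' w) q
  | ef => exact decBkC .cd q
  | fc => exact instDecidableFalse

instance [DecidableEq G] (l : (machB (K := K) (G := G) (J := J) out).Tr)
    (q : (machB (K := K) (G := G) (J := J) out).Comp) :
    Decidable ((machB (K := K) (G := G) (J := J) out).bk l q) := by
  cases l with
  | old ρ => exact decBkC ρ q
  | mir b j g j' w => exact decEnC (.fill (mst b).base j g j' w) q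
  | ef => exact decEnC .cd q
  | fc => exact instDecidableFalse

instance (l : (machB (K := K) (G := G) (J := J) out).Tr)
    (q : (machB (K := K) (G := G) (J := J) out).Idl) :
    Decidable ((machB (K := K) (G := G) (J := J) out).enI l q) := by
  cases l with
  | old ρ => exact decEnI ρ q
  | mir b j g j' w => exact decBkI (.fill (mst b).base j g j' w) q
  | ef => exact decBkI (G := G) (.cd : Lb G Λ J) q
  | fc => exact decBkI (G := G) (.cd : Lb G Λ J) q

instance (l : (machB (K := K) (G := G) (J := J) out).Tr)
    (q : (machB (K := K) (G := G) (J := J) out).Idl) :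
    Decidable ((machB (K := K) (G := G) (J := J) out).bkI l q) := by
  cases l with
  | old ρ => exact decBkI ρ q
  | mir b j g j' w => exact decEnI (.fill (mst b).base j g j' w) q
  | ef => exact decEnI (G := G) (.cd : Lb G Λ J) q
  | fc => exact decFcI q

/-- `machB` is syntactically well formed of degree 4 -/
theorem machB_WF4 : (machB (K := K) (G := G) (Λ := Λ) (J := J) out).WF 4 :=
  machB_WF out (mach_WF out)

/-- finiteness of all index types of `machB` -/
theorem machB_finite [Finite G] [Finite Λ] :
    Finite (machB (K := K) (G := G) (J := J) out).Reg ∧
    Finite (machB (K := K) (G := G) (J := J) out).Pub ∧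
    Finite (machB (K := K) (G := G) (J := J) out).Comp ∧
    Finite (machB (K := K) (G := G) (J := J) out).Idl ∧
    Finite (machB (K := K) (G := G) (J := J) out).Stg ∧
    Finite (machB (K := K) (G := G) (J := J) out).Tr := by
  classical
  have := Fintype.ofFinite G
  have := Fintype.ofFinite Λ
  exact ⟨inferInstance, inferInstance, inferInstance, inferInstance, inferInstance,
    inferInstance⟩

end machB

end Crest.Agent.R289.FinB263
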