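import Mathlib

/-!
Row 289 (helper645).  The left-right one-place object, abstract form.

`CR al Ce Co` = the right code on `P x I`: local words at even vertices `p` and at odd vertices
`h` (points `(h (al i)⁻¹, i)`); invariant under left translations.
`A1 al Ce Co i0` = the content map `f ↦ f(., i0)` is bijective (theorem A1).
* `enc` = the encoder, linear, commutes with left translations, convolution formula.
* `chain_exact` : the nilpotent iteration computes the encoder in `L` steps.
* `chain_mem` : every layer of the iteration, applied to a left word, is a left word.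
* `LR` = the left-right code on `J x P x I`; `LR_bij` : the content map is bijective.
* `red_spec` : functional degree reduction.
-/

set_option autoImplicit false

namespace Crest.Agent.R289.LR645

open Finset

variable {K : Type*} [Field K] {P : Type*} [Group P] {I J : Type*}

/-- the right code of one place -/
def CR (al : I → P) (Ce Co : Submodule K (I → K)) : Submodule K (P → I → K) where
  carrier := {f | (∀ p, f p ∈ Ce) ∧ ∀ h, (fun i => f (h * (al i)⁻¹) i) ∈ Co}
  add_mem' := by
    rintro f g ⟨h1, h2⟩ ⟨h3, h4⟩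
    exact ⟨fun p => Ce.add_mem (h1 p) (h3 p), fun h => Co.add_mem (h2 h) (h4 h)⟩
  zero_mem' := ⟨fun _ => Ce.zero_mem, fun _ => Co.zero_mem⟩
  smul_mem' := by
    rintro c f ⟨h1, h2⟩
    exact ⟨fun p => Ce.smul_mem c (h1 p), fun h => Co.smul_mem c (h2 h)⟩

theorem mem_CR {al : I → P} {Ce Co : Submodule K (I → K)} {f : P → I → K} :
    f ∈ CR al Ce Co ↔ (∀ p, f p ∈ Ce) ∧ ∀ h, (fun i => f (h * (al i)⁻¹) i) ∈ Co := Iff.rfl

/-- left translation -/
def LT (g : P) : (P → I → K) →ₗ[K] (P → I → K) where
  toFun f := fun p i => f (g * p) i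
  map_add' _ _ := rfl
  map_smul' _ _ := rfl

@[simp] theorem LT_apply (g : P) (f : P → I → K) (p : P) (i : I) : LT g f p i = f (g * p) i := rfl

theorem LT_mem {al : I → P} {Ce Co : Submodule K (I → K)} {f : P → I → K}
    (hf : f ∈ CR al Ce Co) (g : P) : LT g f ∈ CR al Ce Co := by
  refine ⟨fun p => hf.1 (g * p), fun h => ?_⟩
  have := hf.2 (g * h)
  simpa [LT, mul_assoc] using this

/-- products of code words -/
theorem mul_mem {al : I → P} {Ce Co Ce' Co' Ce'' Co'' : Submodule K (I → K)}
    (he : ∀ a ∈ Ce, ∀ b ∈ Ce', (fun i => a i * b i) ∈ Ce'')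
    (ho : ∀ a ∈ Co, ∀ b ∈ Co', (fun i => a i * b i) ∈ Co'') {f g : P → I → K}
    (hf : f ∈ CR al Ce Co) (hg : g ∈ CR al Ce' Co') :
    (fun p i => f p i * g p i) ∈ CR al Ce'' Co'' :=
  ⟨fun p => he _ (hf.1 p) _ (hg.1 p), fun h => ho _ (hf.2 h) _ (hg.2 h)⟩

/-- theorem A1 as a hypothesis: the content map is bijective -/
def A1 (al : I → P) (Ce Co : Submodule K (I → K)) (i0 : I) : Prop :=
  ∀ c : P → K, ∃! f, f ∈ CR al Ce Co ∧ ∀ p, f p i0 = c p

section enc

variable {al : I → P} {Ce Co : Submodule K (I → K)} {i0 : I}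

theorem A1.inj (h : A1 al Ce Co i0) {f g : P → I → K} (hf : f ∈ CR al Ce Co)
    (hg : g ∈ CR al Ce Co) (hfg : ∀ p, f p i0 = g p i0) : f = g :=
  (h fun p => g p i0).unique ⟨hf, hfg⟩ ⟨hg, fun _ => rfl⟩

/-- the encoder -/
noncomputable def enc (h : A1 al Ce Co i0) (c : P → K) : P → I → K := (h c).choose

theorem enc_mem (h : A1 al Ce Co i0) (c : P → K) : enc h c ∈ CR al Ce Co := (h c).choose_spec.1.1

@[simp] theorem enc_content (h : A1 al Ce Co i0) (c : P → K) (p : P) : enc h c p i0 = c p :=
  (h c).choose_spec.1.2 p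

theorem enc_of_mem (h : A1 al Ce Co i0) {f : P → I → K} (hf : f ∈ CR al Ce Co) :
    enc h (fun p => f p i0) = f :=
  h.inj (enc_mem h _) hf fun p => enc_content h _ p

/-- the encoder as a linear map -/
noncomputable def encL (h : A1 al Ce Co i0) : (P → K) →ₗ[K] (P → I → K) where
  toFun c := enc h c
  map_add' a b := h.inj (enc_mem h _) ((CR al Ce Co).add_mem (enc_mem h a) (enc_mem h b)) fun p => by
    simp
  map_smul' t a := h.inj (enc_mem h _) ((CR al Ce Co).smul_mem t (enc_mem h a)) fun p => by
    simp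

@[simp] theorem encL_apply (h : A1 al Ce Co i0) (c : P → K) : encL h c = enc h c := rfl

theorem enc_LT (h : A1 al Ce Co i0) (c : P → K) (g : P) :
    enc h (fun p => c (g * p)) = LT g (enc h c) :=
  h.inj (enc_mem h _) (LT_mem (enc_mem h c) g) fun p => by simp

open Classical in
/-- the delta word at `1` -/
noncomputable def dlt (h : A1 al Ce Co i0) : P → I → K := enc h fun p => if p = 1 then 1 else 0

/-- convolution formula of the encoder -/
theorem enc_formula [Fintype P] (h : A1 al Ce Co i0) (c : P → K) (p : P) (i : I) :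
    enc h c p i = ∑ g, c g * dlt h (g⁻¹ * p) i := by
  classical
  have h1 : c = ∑ g, c g • (fun p => if p = g then (1 : K) else 0) := by
    funext p
    simp [Finset.sum_apply, Pi.smul_apply]
  have h2 : ∀ g : P, enc h (fun p => if p = g then (1 : K) else 0) = LT g⁻¹ (dlt h) := by
    intro g
    rw [dlt, ← enc_LT]
    congr 1
    funext p
    have : g⁻¹ * p = 1 ↔ p = g := by
      rw [inv_mul_eq_one]; exact eq_comm
    simp only [this]
  conv_lhs => rw [h1]
  rw [← encL_apply, map_sum]
  simp only [map_smul, encL_apply, h2, Finset.sum_apply, Pi.smul_apply, smul_eq_mul, LT_apply]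

end enc

/-! ### The chain -/

section chain

variable {al : I → P} {Ce Co : Submodule K (I → K)} {i0 : I}

/-- one step of the iteration: `x ↦ u c(p) + M (x(p,j) - x(p (al j)⁻¹, j))_j`;
`c` and `x` may carry an extra index `y`. -/
def step {Y : Type*} (al : I → P) (u : I → K) (M : (I → K) →ₗ[K] (I → K)) (c : Y → P → K)
    (x : Y → P → I → K) : Y → P → I → K :=
  fun y p => c y p • u + M fun j => x y p j - x y (p * (al j)⁻¹) j

/-- the layers of the chain -/
def layer {Y : Type*} (al : I → P) (u : I → K) (M : (I → K) →ₗ[K] (I → K)) (c : Y → P → K) :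
    ℕ → Y → P → I → K
  | 0 => fun _ _ _ => 0
  | n + 1 => step al u M c (layer al u M c n)

/-- the nilpotent operator -/
def nil (al : I → P) (M : (I → K) →ₗ[K] (I → K)) : Module.End K (P → I → K) where
  toFun x := fun p => M fun j => x p j - x (p * (al j)⁻¹) j
  map_add' x y := by
    funext p
    show M _ = M _ + M _
    rw [← map_add]
    congr 1
    funext j
    simp only [Pi.add_apply]
    ring
  map_smul' t x := by
    funext p
    show M _ = t • M _
    rw [← map_smul]
    congr 1
    funext j
    simp only [Pi.smul_apply, smul_eq_mul]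
    ring

theorem nil_apply (al : I → P) (M : (I → K) →ₗ[K] (I → K)) (x : P → I → K) (p : P) :
    nil al M x p = M fun j => x p j - x (p * (al j)⁻¹) j := rfl

/-- the scalar data of the chain: `u` and `M` with `v = v(i0) u + M v` for every `v` in `Ce`,
and `M` kills `Co` -/
structure Data (Ce Co : Submodule K (I → K)) (i0 : I) where
  u : I → K
  M : (I → K) →ₗ[K] (I → K)
  hM : ∀ v ∈ Co, M v = 0
  hu : ∀ v ∈ Ce, v = v i0 • u + M v

/-- the data exist as soon as `Ce ∩ Co` has no nonzero word vanishing at `i0` -/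
theorem exists_data [Finite I] (hb : ∀ v ∈ Ce, v ∈ Co → v i0 = 0 → v = 0) :
    Nonempty (Data Ce Co i0) := by
  classical
  have := Fintype.ofFinite I
  -- the map `Ce → K × (I → K) ⧸ Co`
  let φ : Ce →ₗ[K] (K × ((I → K) ⧸ Co)) :=
    ((LinearMap.proj i0).comp Ce.subtype).prod (Co.mkQ.comp Ce.subtype)
  have hφ : LinearMap.ker φ = ⊥ := by
    rw [LinearMap.ker_eq_bot']
    rintro ⟨v, hv⟩ h
    have h1 : v i0 = 0 := congrArg Prod.fst h
    have h2 : Co.mkQ v = 0 := congrArg Prod.snd h
    have h3 : v ∈ Co := by simpa using h2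
    exact Subtype.ext (hb v hv h3 h1)
  obtain ⟨ψ, hψ⟩ := φ.exists_leftInverse_of_injective hφ
  refine ⟨⟨(ψ (1, 0) : I → K), Ce.subtype.comp (ψ.comp ((LinearMap.inr K K _).comp Co.mkQ)), ?_, ?_⟩⟩
  · intro v hv
    have : Co.mkQ v = 0 := by simpa using hv
    show ((ψ ((LinearMap.inr K K _) (Co.mkQ v)) : Ce) : I → K) = 0
    rw [this, map_zero, map_zero]
    rfl
  · intro v hv
    have h1 : ψ (φ ⟨v, hv⟩) = ⟨v, hv⟩ := by
      have := LinearMap.congr_fun hψ ⟨v, hv⟩
      simpa using this
    have h2 : φ ⟨v, hv⟩ = v i0 • ((1 : K), (0 : (I → K) ⧸ Co)) + (0, Co.mkQ v) := by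
      ext
      · simp [φ]
      · simp [φ]
    have h3 : (ψ (φ ⟨v, hv⟩) : I → K) = v := by rw [h1]
    rw [h2, map_add, map_smul] at h3
    conv_lhs => rw [← h3]
    simp

/-- base injectivity follows from A1 -/
theorem A1.base (h : A1 al Ce Co i0) : ∀ v ∈ Ce, v ∈ Co → v i0 = 0 → v = 0 := by
  intro v h1 h2 h3
  have : (fun _ : P => v) = 0 :=
    h.inj (f := fun _ => v) ⟨fun _ => h1, fun _ => h2⟩ (CR al Ce Co).zero_mem fun _ => h3
  exact congrFun this 1

/-- a code word is the fixed point of the step -/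
theorem fix_of_mem (D : Data Ce Co i0) {f : P → I → K} (hf : f ∈ CR al Ce Co) (p : P) :
    f p = f p i0 • D.u + nil al D.M f p := by
  have h1 := D.hu _ (hf.1 p)
  have h2 := D.hM _ (hf.2 p)
  have h3 : (fun j => f p j - f (p * (al j)⁻¹) j) = f p - fun j => f (p * (al j)⁻¹) j := rfl
  rw [nil_apply, h3, map_sub, h2, sub_zero]
  exact h1

/-- the chain reaches the encoder exactly after `L` steps -/
theorem chain_exact {Y : Type*} (D : Data Ce Co i0) {L : ℕ} (hL : nil al D.M ^ L = 0)
    {f : Y → P → I → K} (hf : ∀ y, f y ∈ CR al Ce Co) :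
    layer al D.u D.M (fun y p => f y p i0) L = f := by
  have key : ∀ n y, (f y - layer al D.u D.M (fun y p => f y p i0) n y) = (nil al D.M ^ n) (f y) := by
    intro n
    induction n with
    | zero =>
      intro y
      funext p i
      simp [layer]
    | succ n ih =>
      intro y
      rw [pow_succ', Module.End.mul_apply, ← ih y, map_sub]
      funext p
      have h1 := fix_of_mem D (hf y) p
      have h2 : layer al D.u D.M (fun y p => f y p i0) (n + 1) y p
          = f y p i0 • D.u + nil al D.M (layer al D.u D.M (fun y p => f y p i0) n y) p := rfl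
      have h3 : ∀ a b c d : I → K, a = b + c → a - (b + d) = c - d := by
        intro a b c d h; rw [h]; abel
      rw [Pi.sub_apply, Pi.sub_apply, h2]
      exact h3 _ _ _ _ h1
  funext y
  have := key L y
  rw [hL] at this
  simpa [sub_eq_zero, eq_comm] using this

end chain

/-! ### Left words: mirror images -/

/-- mirror image of a word on `J x P`: `F(j,p) ↦ (p,j) ↦ F(j,p⁻¹)` -/
def mir (F : J → P → K) : P → J → K := fun p j => F j p⁻¹

section layers

variable {al : I → P} {be : J → P} {De Do : Submodule K (J → K)}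

/-- right translation of a left word is a left word -/
theorem mir_rt {F : J → P → K} (hF : mir F ∈ CR be De Do) (g : P) :
    mir (fun j p => F j (p * g)) ∈ CR be De Do := by
  have := LT_mem hF g⁻¹
  convert this using 1
  funext p j
  simp [mir, LT]

/-- every layer of the chain, with a left word as content, is (for each `i`) a left word -/
theorem layer_mem [Finite I] (u : I → K) (M : (I → K) →ₗ[K] (I → K)) {c : J → P → K}
    (hc : mir c ∈ CR be De Do) (n : ℕ) (i : I) :
    mir (fun j p => layer al u M c n j p i) ∈ CR be De Do := by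
  classical
  have := Fintype.ofFinite I
  induction n generalizing i with
  | zero => exact (CR be De Do).zero_mem
  | succ n ih =>
    have h1 : mir (fun j p => layer al u M c (n + 1) j p i)
        = u i • mir c + ∑ k, M (fun j => if k = j then 1 else 0) i •
          (mir (fun j p => layer al u M c n j p k)
            - mir (fun j p => layer al u M c n j (p * (al k)⁻¹) k)) := by
      funext p j
      have h2 : layer al u M c (n + 1) j p⁻¹ i
          = (c j p⁻¹ • u + M fun k => layer al u M c n j p⁻¹ k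
              - layer al u M c n j (p⁻¹ * (al k)⁻¹) k) i := rfl
      have h3 : ∀ v : I → K, M v i = ∑ k, M (fun j => if k = j then 1 else 0) i * v k := by
        intro v
        rw [LinearMap.pi_apply_eq_sum_univ M v, Finset.sum_apply]
        refine Finset.sum_congr rfl fun k _ => ?_
        rw [Pi.smul_apply, smul_eq_mul, mul_comm]
      have h4 : mir (fun j p => layer al u M c (n + 1) j p i) p j
          = c j p⁻¹ * u i + ∑ k, M (fun j => if k = j then 1 else 0) i *
            (layer al u M c n j p⁻¹ k - layer al u M c n j (p⁻¹ * (al k)⁻¹) k) := by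
        show layer al u M c (n + 1) j p⁻¹ i = _
        rw [h2, Pi.add_apply, h3]
        rfl
      rw [h4, Pi.add_apply, Pi.add_apply, Finset.sum_apply, Finset.sum_apply, mul_comm]
      rfl
    rw [h1]
    refine (CR be De Do).add_mem ((CR be De Do).smul_mem _ hc) ?_
    refine (CR be De Do).sum_mem fun k _ => (CR be De Do).smul_mem _ ?_
    exact (CR be De Do).sub_mem (ih k) (mir_rt (ih k) _)

end layers

/-! ### The left-right code -/

/-- the left-right code on `J x P x I` -/
def LR (al : I → P) (Ce Co : Submodule K (I → K)) (be : J → P) (De Do : Submodule K (J → K)) :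
    Submodule K (J → P → I → K) where
  carrier := {F | (∀ j, F j ∈ CR al Ce Co) ∧ ∀ i, mir (fun j p => F j p i) ∈ CR be De Do}
  add_mem' := by
    rintro f g ⟨h1, h2⟩ ⟨h3, h4⟩
    exact ⟨fun j => (CR al Ce Co).add_mem (h1 j) (h3 j),
      fun i => (CR be De Do).add_mem (h2 i) (h4 i)⟩
  zero_mem' := ⟨fun _ => (CR al Ce Co).zero_mem, fun _ => (CR be De Do).zero_mem⟩
  smul_mem' := by
    rintro c f ⟨h1, h2⟩
    exact ⟨fun j => (CR al Ce Co).smul_mem c (h1 j), fun i => (CR be De Do).smul_mem c (h2 i)⟩

theorem mem_LR {al : I → P} {Ce Co : Submodule K (I → K)} {be : J → P}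
    {De Do : Submodule K (J → K)} {F : J → P → I → K} :
    F ∈ LR al Ce Co be De Do ↔
      (∀ j, F j ∈ CR al Ce Co) ∧ ∀ i, mir (fun j p => F j p i) ∈ CR be De Do := Iff.rfl

/-- products of left-right words -/
theorem LR_mul_mem {al : I → P} {be : J → P} {Ce Co Ce' Co' Ce'' Co'' : Submodule K (I → K)}
    {De Do De' Do' De'' Do'' : Submodule K (J → K)}
    (h1 : ∀ a ∈ Ce, ∀ b ∈ Ce', (fun i => a i * b i) ∈ Ce'')
    (h2 : ∀ a ∈ Co, ∀ b ∈ Co', (fun i => a i * b i) ∈ Co'')
    (h3 : ∀ a ∈ De, ∀ b ∈ De', (fun i => a i * b i) ∈ De'')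
    (h4 : ∀ a ∈ Do, ∀ b ∈ Do', (fun i => a i * b i) ∈ Do'') {F G : J → P → I → K}
    (hF : F ∈ LR al Ce Co be De Do) (hG : G ∈ LR al Ce' Co' be De' Do') :
    (fun j p i => F j p i * G j p i) ∈ LR al Ce'' Co'' be De'' Do'' :=
  ⟨fun j => mul_mem h1 h2 (hF.1 j) (hG.1 j), fun i => mul_mem h3 h4 (hF.2 i) (hG.2 i)⟩

section LRthm

variable {al : I → P} {Ce Co : Submodule K (I → K)} {i0 : I} {be : J → P}
  {De Do : Submodule K (J → K)} {j0 : J}

/-- rigidity: the content determines the word -/
theorem LR_inj (hR : A1 al Ce Co i0) (hL : A1 be De Do j0) {F G : J → P → I → K}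
    (hF : F ∈ LR al Ce Co be De Do) (hG : G ∈ LR al Ce Co be De Do)
    (h : ∀ p, F j0 p i0 = G j0 p i0) : F = G := by
  have h1 : F j0 = G j0 := hR.inj (hF.1 j0) (hG.1 j0) h
  funext j p i
  have h2 : mir (fun j p => F j p i) = mir (fun j p => G j p i) :=
    hL.inj (hF.2 i) (hG.2 i) fun p => by simp [mir, h1]
  have h3 := congrFun (congrFun h2 p⁻¹) j
  simpa [mir] using h3

/-- extension of a right word of ANY right degree to a left-right word -/
theorem ext_left [Fintype P] {Ce' Co' : Submodule K (I → K)} (hL : A1 be De Do j0)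
    {f : P → I → K} (hf : f ∈ CR al Ce' Co') :
    (fun j p i => enc hL (fun g => f g⁻¹ i) p⁻¹ j) ∈ LR al Ce' Co' be De Do ∧
      ∀ p i, (fun j p i => enc hL (fun g => f g⁻¹ i) p⁻¹ j) j0 p i = f p i := by
  refine ⟨⟨fun j => ?_, fun i => ?_⟩, fun p i => ?_⟩
  · have h1 : (fun (p : P) (i : I) => enc hL (fun g => f g⁻¹ i) p⁻¹ j)
        = ∑ u, dlt hL u⁻¹ j • LT u⁻¹ f := by
      funext p i
      rw [enc_formula, Finset.sum_apply, Finset.sum_apply]
      refine Fintype.sum_equiv (Equiv.mulLeft p) _ _ fun g => ?_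
      simp [LT, mul_comm]
    show (fun (p : P) (i : I) => enc hL (fun g => f g⁻¹ i) p⁻¹ j) ∈ _
    rw [h1]
    exact (CR al Ce' Co').sum_mem fun u _ => (CR al Ce' Co').smul_mem _ (LT_mem hf _)
  · have : mir (fun j p => enc hL (fun g => f g⁻¹ i) p⁻¹ j) = enc hL (fun g => f g⁻¹ i) := by
      funext p j
      simp [mir]
    show mir (fun j p => enc hL (fun g => f g⁻¹ i) p⁻¹ j) ∈ _
    rw [this]
    exact enc_mem hL _
  · simp

/-- **the content map of the left-right code is bijective** -/
theorem LR_bij [Fintype P] (hR : A1 al Ce Co i0) (hL : A1 be De Do j0) (c : P → K) :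
    ∃! F, F ∈ LR al Ce Co be De Do ∧ ∀ p, F j0 p i0 = c p := by
  obtain ⟨h1, h2⟩ := ext_left (al := al) (Ce' := Ce) (Co' := Co) hL (enc_mem hR c)
  have h3 : ∀ p, (fun j p i => enc hL (fun g => enc hR c g⁻¹ i) p⁻¹ j) j0 p i0 = c p := by
    intro p
    rw [h2 p i0, enc_content]
  refine ⟨_, ⟨h1, h3⟩, fun G hG => ?_⟩
  refine LR_inj hR hL hG.1 h1 fun p => ?_
  rw [hG.2]
  exact (h3 p).symm

end LRthm

/-! ### Functional degree reduction -/

section red

variable {al : I → P} {Ce Co : Submodule K (I → K)} {i0 : I} {be : J → P}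
  {De Do : Submodule K (J → K)} {j0 : J}

/-- the chain computes the encoder -/
theorem chain_enc {Y : Type*} (hR : A1 al Ce Co i0) (D : Data Ce Co i0) {L : ℕ}
    (hL : nil al D.M ^ L = 0) (c : Y → P → K) :
    layer al D.u D.M c L = fun y => enc hR (c y) := by
  have := chain_exact (al := al) D hL (f := fun y => enc hR (c y)) fun y => enc_mem hR _
  simpa using this

/-- the reduced word: first chain (right), slice `j0`, second chain (left) -/
def red (al : I → P) (i0 : I) (be : J → P) (j0 : J) (u : I → K) (M : (I → K) →ₗ[K] (I → K))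
    (u' : J → K) (M' : (J → K) →ₗ[K] (J → K)) (L L' : ℕ) (w : J → P → I → K) :
    J → P → I → K :=
  fun j p i => layer be u' M' (fun i p => layer al u M (fun j p => w j p i0) L j0 p⁻¹ i) L' i p⁻¹ j

/-- **degree reduction**: the reduced word is a code word of the left-right code with the same
content -/
theorem red_spec [Fintype P] (hR : A1 al Ce Co i0) (hL : A1 be De Do j0) (D : Data Ce Co i0)
    (D' : Data De Do j0) {L L' : ℕ} (h1 : nil al D.M ^ L = 0) (h2 : nil be D'.M ^ L' = 0)
    (w : J → P → I → K) :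
    red al i0 be j0 D.u D.M D'.u D'.M L L' w ∈ LR al Ce Co be De Do ∧
      ∀ p, red al i0 be j0 D.u D.M D'.u D'.M L L' w j0 p i0 = w j0 p i0 := by
  obtain ⟨h3, h4⟩ := ext_left (al := al) (Ce' := Ce) (Co' := Co) hL
    (enc_mem hR fun p => w j0 p i0)
  have h5 : red al i0 be j0 D.u D.M D'.u D'.M L L' w
      = fun j p i => enc hL (fun g => enc hR (fun p => w j0 p i0) g⁻¹ i) p⁻¹ j := by
    funext j p i
    simp only [red, chain_enc hR D h1, chain_enc hL D' h2]
  rw [h5]
  refine ⟨h3, fun p => ?_⟩
  rw [h4 p i0, enc_content]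

/-- protection of the first chain: every layer is a left word of the degree of `w` -/
theorem red_layer_left [Finite I] (u : I → K) (M : (I → K) →ₗ[K] (I → K))
    {De' Do' : Submodule K (J → K)} {w : J → P → I → K}
    (hw : ∀ i, mir (fun j p => w j p i) ∈ CR be De' Do') (n : ℕ) (i : I) :
    mir (fun j p => layer al u M (fun j p => w j p i0) n j p i) ∈ CR be De' Do' :=
  layer_mem u M (hw i0) n i

/-- protection of the second chain: every layer is a right word -/
theorem red_layer_right [Finite J] (u' : J → K) (M' : (J → K) →ₗ[K] (J → K))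
    {Ce' Co' : Submodule K (I → K)} {f : P → I → K} (hf : f ∈ CR al Ce' Co') (n : ℕ) (j : J) :
    (fun p i => layer be u' M' (fun i p => f p⁻¹ i) n i p⁻¹ j) ∈ CR al Ce' Co' := by
  have h1 : mir (fun (i : I) (p : P) => f p⁻¹ i) ∈ CR al Ce' Co' := by
    convert hf using 1
    funext p i
    simp [mir]
  exact layer_mem u' M' h1 n j

/-- rigidity as a zero test: a left-right word vanishes iff its content does -/
theorem red_eq_zero [Fintype P] (hR : A1 al Ce Co i0) (hL : A1 be De Do j0) (D : Data Ce Co i0)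
    (D' : Data De Do j0) {L L' : ℕ} (h1 : nil al D.M ^ L = 0) (h2 : nil be D'.M ^ L' = 0)
    (w : J → P → I → K) :
    red al i0 be j0 D.u D.M D'.u D'.M L L' w = 0 ↔ ∀ p, w j0 p i0 = 0 := by
  obtain ⟨h3, h4⟩ := red_spec hR hL D D' h1 h2 w
  constructor
  · intro h p
    rw [← h4 p, h]; rfl
  · intro h
    refine LR_inj hR hL h3 (LR al Ce Co be De Do).zero_mem fun p => ?_
    rw [h4 p, h p]; rfl

/-- nilpotency from a filtration lowered by the right differences -/
theorem nil_pow_eq_zero [Finite I] (M : (I → K) →ₗ[K] (I → K)) (W : ℕ → Submodule K (P → K))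
    (h0 : W 0 = ⊥) (hW : ∀ n, ∀ x ∈ W (n + 1), ∀ k, (fun p => x p - x (p * (al k)⁻¹)) ∈ W n)
    {L : ℕ} (hL : W L = ⊤) : nil al M ^ L = 0 := by
  classical
  have := Fintype.ofFinite I
  have key : ∀ n m, ∀ x : P → I → K, (∀ i, (fun p => x p i) ∈ W (n + m)) →
      ∀ i, (fun p => (nil al M ^ n) x p i) ∈ W m := by
    intro n
    induction n with
    | zero =>
      intro m x hx i
      have := hx i
      rw [Nat.zero_add] at this
      exact this
    | succ n ih =>
      intro m x hx i
      rw [pow_succ, Module.End.mul_apply]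
      refine ih m _ (fun i => ?_) i
      have h1 : (fun p => nil al M x p i) = ∑ k, M (fun j => if k = j then 1 else 0) i •
          fun p => x p k - x (p * (al k)⁻¹) k := by
        funext p
        rw [nil_apply, LinearMap.pi_apply_eq_sum_univ M, Finset.sum_apply, Finset.sum_apply]
        refine Finset.sum_congr rfl fun k _ => ?_
        rw [Pi.smul_apply, Pi.smul_apply, smul_eq_mul, smul_eq_mul, mul_comm]
      rw [h1]
      refine (W (n + m)).sum_mem fun k _ => (W (n + m)).smul_mem _ ?_
      refine hW (n + m) (fun p => x p k) ?_ k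
      have := hx k
      rwa [show n + 1 + m = n + m + 1 by omega] at this
  refine LinearMap.ext fun x => ?_
  funext p i
  have h1 := key L 0 x (fun i => by rw [Nat.add_zero, hL]; exact Submodule.mem_top) i
  rw [h0, Submodule.mem_bot] at h1
  exact congrFun h1 p

end red

end Crest.Agent.R289.LR645
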