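import Mathlib

/-!
Row 289, block A: `p`-group representation lemmas in characteristic `p`
(socle argument of posts 1898, 5366 (1), 5389 (a)).
-/

set_option autoImplicit false

namespace Crest.Agent.R289.PG878

open Finset

variable {p : ℕ} [Fact p.Prime] {P : Type*} [Group P] [Finite P]
  {K : Type*} [Field K] [Finite K] [CharP K p]

omit [Finite P] [Finite K] in
/-- A nonzero finite `K`-space on which a `p`-group acts additively has a nonzero fixed vector. -/
theorem exists_fixed_ne_zero (hP : IsPGroup p P) {V : Type*} [AddCommGroup V] [Module K V]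
    [Finite V] [DistribMulAction P V] (hV : ∃ v : V, v ≠ 0) :
    ∃ v : V, v ≠ 0 ∧ ∀ g : P, g • v = v := by
  classical
  obtain ⟨v0, hv0⟩ := hV
  have hK : p ∣ Nat.card V := by
    -- the additive order of `v0` is `p`
    have h1 : addOrderOf v0 = p := by
      apply addOrderOf_eq_prime
      · have : (p : K) • v0 = 0 := by rw [CharP.cast_eq_zero, zero_smul]
        rw [← Nat.cast_smul_eq_nsmul K p v0]
        exact this
      · exact hv0
    rw [← h1]
    exact addOrderOf_dvd_natCard v0
  have h0 : (0 : V) ∈ MulAction.fixedPoints P V := fun g => smul_zero g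
  obtain ⟨b, hb, hne⟩ := hP.exists_fixed_point_of_prime_dvd_card_of_fixed_point V hK h0
  exact ⟨b, hne.symm, fun g => hb g⟩

variable {Ω : Type*} [MulAction P Ω] [Finite Ω]

omit [Finite P] in
/-- A nonzero `P`-stable subspace of functions contains a nonzero `P`-invariant function. -/
theorem exists_invariant (hP : IsPGroup p P) (V : Submodule K (Ω → K))
    (hV : ∀ g : P, ∀ f ∈ V, (fun ω => f (g • ω)) ∈ V) (hne : V ≠ ⊥) :
    ∃ f ∈ V, f ≠ 0 ∧ ∀ g : P, ∀ ω, f (g • ω) = f ω := by
  classical
  let _ : DistribMulAction P V :=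
    { smul := fun g f => ⟨fun ω => f.1 (g⁻¹ • ω), hV g⁻¹ f.1 f.2⟩
      one_smul := fun f => by
        apply Subtype.ext
        funext ω
        show f.1 ((1 : P)⁻¹ • ω) = f.1 ω
        simp
      mul_smul := fun g h f => by
        apply Subtype.ext
        funext ω
        show f.1 ((g * h)⁻¹ • ω) = f.1 (h⁻¹ • g⁻¹ • ω)
        rw [mul_inv_rev, mul_smul]
      smul_zero := fun g => by
        apply Subtype.ext
        funext ω
        rfl
      smul_add := fun g f h => by
        apply Subtype.ext
        funext ω
        rfl }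
  have hex : ∃ v : V, v ≠ 0 := by
    obtain ⟨v, hv, hv0⟩ := (Submodule.ne_bot_iff V).1 hne
    exact ⟨⟨v, hv⟩, fun h => hv0 (congrArg Subtype.val h)⟩
  have _ : Finite V := inferInstance
  obtain ⟨v, hv0, hfix⟩ := exists_fixed_ne_zero (K := K) hP hex
  refine ⟨v.1, v.2, fun h => hv0 (Subtype.ext h), fun g ω => ?_⟩
  have h1 : (g⁻¹ • v).1 ω = v.1 ω := by rw [hfix g⁻¹]
  have h2 : (g⁻¹ • v).1 ω = v.1 ((g⁻¹)⁻¹ • ω) := rfl
  rw [h2, inv_inv] at h1
  exact h1

/-- INTERPOLATION THEOREM: a translation stable space of functions on a `p`-group (char `p`)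
containing one function of nonzero total sum is everything. -/
theorem eq_top_of_sum_ne_zero [Fintype P] (hP : IsPGroup p P) (V : Submodule K (P → K))
    (hV : ∀ g : P, ∀ f ∈ V, (fun h => f (g * h)) ∈ V) (F : P → K) (hF : F ∈ V)
    (hsum : ∑ g : P, F g ≠ 0) : V = ⊤ := by
  classical
  by_contra hne
  -- annihilator of `V`, as a space of functions
  let W : Submodule K (P → K) :=
    { carrier := {u | ∀ f ∈ V, ∑ h : P, u h * f h = 0}
      add_mem' := by
        intro a b ha hb f hf
        have : ∑ h : P, (a + b) h * f h = ∑ h : P, a h * f h + ∑ h : P, b h * f h := by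
          rw [← Finset.sum_add_distrib]
          exact Finset.sum_congr rfl fun h _ => by simp [add_mul]
        rw [this, ha f hf, hb f hf, add_zero]
      zero_mem' := by
        intro f _
        simp
      smul_mem' := by
        intro c a ha f hf
        have : ∑ h : P, (c • a) h * f h = c * ∑ h : P, a h * f h := by
          rw [Finset.mul_sum]
          exact Finset.sum_congr rfl fun h _ => by simp [mul_assoc]
        rw [this, ha f hf, mul_zero] }
  have hWmem : ∀ u, u ∈ W ↔ ∀ f ∈ V, ∑ h : P, u h * f h = 0 := fun u => Iff.rfl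
  have hWV : ∀ g : P, ∀ u ∈ W, (fun h => u (g • h)) ∈ W := by
    intro g u hu f hf
    have h1 := hu (fun h => f (g⁻¹ * h)) (hV g⁻¹ f hf)
    have h2 : ∑ h : P, u (g • h) * f h = ∑ h : P, u h * f (g⁻¹ * h) := by
      refine Fintype.sum_equiv (Equiv.mulLeft g) _ _ fun h => ?_
      simp [smul_eq_mul]
    rw [h2]
    exact h1
  have hWne : W ≠ ⊥ := by
    obtain ⟨φ, hφ0, hφ⟩ := Submodule.exists_dual_map_eq_bot_of_lt_top (lt_top_iff_ne_top.2 hne)
      inferInstance
    intro hW
    apply hφ0
    have hu : (fun h => φ (Pi.single h 1)) ∈ W := by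
      intro f hf
      have h1 : φ f = 0 := by
        have : φ f ∈ Submodule.map φ V := Submodule.mem_map_of_mem hf
        rw [hφ] at this
        exact (Submodule.mem_bot K).1 this
      have h2 : f = ∑ h : P, f h • (Pi.single h 1 : P → K) := by
        funext x
        simp [Finset.sum_apply, Pi.single_apply]
      have h3 : φ f = ∑ h : P, f h * φ (Pi.single h 1) := by
        conv_lhs => rw [h2]
        rw [map_sum]
        exact Finset.sum_congr rfl fun h _ => by rw [map_smul, smul_eq_mul]
      rw [h1] at h3
      rw [h3]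
      exact Finset.sum_congr rfl fun h _ => mul_comm _ _
    rw [hW] at hu
    have hz : (fun h => φ (Pi.single h 1)) = 0 := (Submodule.mem_bot K).1 hu
    apply LinearMap.ext
    intro f
    have h2 : f = ∑ h : P, f h • (Pi.single h 1 : P → K) := by
      funext x
      simp [Finset.sum_apply, Pi.single_apply]
    rw [h2, map_sum]
    rw [LinearMap.zero_apply]
    refine Finset.sum_eq_zero fun h _ => ?_
    have := congrFun hz h
    rw [map_smul, this]
    simp
  obtain ⟨u, huW, hu0, hinv⟩ := exists_invariant (Ω := P) hP W hWV hWne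
  have hconst : ∀ h : P, u h = u 1 := fun h => by
    have := hinv h 1
    rwa [smul_eq_mul, mul_one] at this
  have h1 := huW F hF
  have h2 : ∑ h : P, u h * F h = u 1 * ∑ h : P, F h := by
    rw [Finset.mul_sum]
    exact Finset.sum_congr rfl fun h _ => by rw [hconst h]
  rw [h2] at h1
  rcases mul_eq_zero.1 h1 with h | h
  · apply hu0
    funext x
    rw [hconst x, h]
    rfl
  · exact hsum h

/-- RESTRICTION IS BIJECTIVE: `V` a `P`-stable space of functions on a `P`-set whose invariant
functions are multiples of one function `w0` with `w0 h0 ≠ 0`, and which contains one function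
with nonzero orbit sum at `h0`. Then a word of `V` is the same as a function on `P` (its values on
the orbit of `h0`). -/
theorem restrict_bijective [Fintype P] (hP : IsPGroup p P) (V : Submodule K (Ω → K))
    (hV : ∀ g : P, ∀ f ∈ V, (fun ω => f (g • ω)) ∈ V) (h0 : Ω)
    (hfix : ∀ f ∈ V, (∀ g : P, ∀ ω, f (g • ω) = f ω) → f h0 = 0 → f = 0)
    (F : Ω → K) (hF : F ∈ V) (hsum : ∑ g : P, F (g • h0) ≠ 0) :
    Function.Bijective (fun f : V => fun g : P => f.1 (g • h0)) := by
  classical
  constructor
  · -- injective
    let V0 : Submodule K (Ω → K) :=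
      { carrier := {f | f ∈ V ∧ ∀ g : P, f (g • h0) = 0}
        add_mem' := by
          intro a b ha hb
          refine ⟨V.add_mem ha.1 hb.1, fun g => ?_⟩
          rw [Pi.add_apply, ha.2 g, hb.2 g, add_zero]
        zero_mem' := ⟨V.zero_mem, fun g => rfl⟩
        smul_mem' := by
          intro c a ha
          refine ⟨V.smul_mem c ha.1, fun g => ?_⟩
          rw [Pi.smul_apply, ha.2 g, smul_zero] }
    have hV0 : ∀ g : P, ∀ f ∈ V0, (fun ω => f (g • ω)) ∈ V0 := by
      intro g f hf
      refine ⟨hV g f hf.1, fun h => ?_⟩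
      show f (g • h • h0) = 0
      rw [← mul_smul]
      exact hf.2 _
    have hbot : V0 = ⊥ := by
      by_contra hne
      obtain ⟨f, hf, hf0, hinv⟩ := exists_invariant hP V0 hV0 hne
      apply hf0
      refine hfix f hf.1 hinv ?_
      have := hf.2 1
      rwa [one_smul] at this
    intro f g hfg
    have hmem : f.1 - g.1 ∈ V0 := by
      refine ⟨V.sub_mem f.2 g.2, fun x => ?_⟩
      have := congrFun hfg x
      rw [Pi.sub_apply]
      simp only at this
      rw [this, sub_self]
    rw [hbot] at hmem
    exact Subtype.ext (sub_eq_zero.1 ((Submodule.mem_bot K).1 hmem))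
  · -- surjective
    let r : (Ω → K) →ₗ[K] (P → K) :=
      { toFun := fun f g => f (g • h0)
        map_add' := fun _ _ => rfl
        map_smul' := fun _ _ => rfl }
    have htop : Submodule.map r V = ⊤ := by
      refine eq_top_of_sum_ne_zero hP (Submodule.map r V) ?_ (r F) (Submodule.mem_map_of_mem hF) hsum
      rintro g _ ⟨f, hf, rfl⟩
      -- translation by `g` on the left of `P` : `h ↦ f ((g * h) • h0)`
      refine ⟨fun ω => f (g • ω), hV g f hf, ?_⟩
      funext h
      show f (g • h • h0) = f ((g * h) • h0)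
      rw [mul_smul]
    intro φ
    have : φ ∈ Submodule.map r V := by rw [htop]; trivial
    obtain ⟨f, hf, hfφ⟩ := this
    exact ⟨⟨f, hf⟩, hfφ⟩

end Crest.Agent.R289.PG878
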