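import Mathlib
import Crest.Agent.R289.PGroup_878
import Crest.Agent.R289.LR_645

/-!
Row 289, block A (helper14).  The lifting step of theorem A1, in literal function form.

`P` is a finite `p`-group, `K` a finite field of characteristic `p`, words are functions
`P → I → K`; `Ce` = local code at the even vertices `p`, `Co` = local code at the odd vertices
`h` (points `(h (al i)⁻¹, i)`).  Given an operator `S` that commutes with the left translations,
preserves the even and the odd condition, maps every constant word into the even words, and has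
`S w0 = lam w0`, `lam ≠ 0`, for a constant word `w0 ∈ Ce ∩ Co`, `w0 i0 ≠ 0`, such that the base
code `Ce ∩ Co` has only the zero word vanishing at `i0`: the content map is bijective.
-/

set_option autoImplicit false

namespace Crest.Agent.R289.Lift14

open Finset
open Crest.Agent.R289.LR645

variable {p : ℕ} [Fact p.Prime] {P : Type*} [Group P] [Fintype P]
  {K : Type*} [Field K] [Finite K] [CharP K p] {I : Type*} [Fintype I]

/-- words whose even views are in `Ce` -/
def Ev (P : Type*) (Ce : Submodule K (I → K)) : Submodule K (P → I → K) where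
  carrier := {f | ∀ g, f g ∈ Ce}
  add_mem' := fun ha hb g => Ce.add_mem (ha g) (hb g)
  zero_mem' := fun _ => Ce.zero_mem
  smul_mem' := fun c _ ha g => Ce.smul_mem c (ha g)

omit [Fintype I] [Finite K] in
theorem mem_Ev {P : Type*} {Ce : Submodule K (I → K)} {f : P → I → K} :
    f ∈ Ev P Ce ↔ ∀ g, f g ∈ Ce := Iff.rfl

/-- the annihilator of the local code, as a finite set of vectors -/
abbrev Ann (Ce : Submodule K (I → K)) : Type _ :=
  {ψ : I → K // ∀ v ∈ Ce, ∑ i, ψ i * v i = 0}

omit [Finite K] in
theorem mem_of_ann {Ce : Submodule K (I → K)} {v : I → K}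
    (h : ∀ ψ : Ann Ce, ∑ i, ψ.1 i * v i = 0) : v ∈ Ce := by
  classical
  by_contra hv
  obtain ⟨φ, hφv, hφ⟩ := Submodule.exists_le_ker_of_notMem hv
  have key : ∀ u : I → K, φ u = ∑ i, φ (Pi.single i 1) * u i := by
    intro u
    have h2 : u = ∑ i, u i • (Pi.single i 1 : I → K) := by
      funext x
      simp [Finset.sum_apply, Pi.single_apply]
    conv_lhs => rw [h2]
    rw [map_sum]
    exact Finset.sum_congr rfl fun i _ => by rw [map_smul, smul_eq_mul, mul_comm]
  apply hφv
  rw [key v]
  refine h ⟨fun i => φ (Pi.single i 1), fun u hu => ?_⟩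
  rw [← key u]
  exact LinearMap.mem_ker.1 (hφ hu)

/-- the syndrome map -/
def syn (P : Type*) (Ce : Submodule K (I → K)) :
    (P → I → K) →ₗ[K] (P × Ann Ce → K) where
  toFun f := fun x => ∑ i, x.2.1 i * f x.1 i
  map_add' f g := by
    funext x
    simp [mul_add, Finset.sum_add_distrib]
  map_smul' c f := by
    funext x
    simp only [Pi.smul_apply, smul_eq_mul, RingHom.id_apply, Finset.mul_sum]
    exact Finset.sum_congr rfl fun i _ => by ring

omit [Finite K] [Group P] [Fintype P] in
theorem syn_apply {Ce : Submodule K (I → K)} (f : P → I → K) (x : P × Ann Ce) :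
    syn P Ce f x = ∑ i, x.2.1 i * f x.1 i := rfl

omit [Finite K] [Fintype P] [Group P] in
theorem syn_eq_zero {Ce : Submodule K (I → K)} {f : P → I → K} :
    syn P Ce f = 0 ↔ f ∈ Ev P Ce := by
  constructor
  · intro h g
    exact mem_of_ann fun ψ => congrFun h (g, ψ)
  · intro h
    funext x
    exact x.2.2 _ (h x.1)

/-- in a finite monoid some positive power is idempotent -/
theorem exists_idem_pow {M : Type*} [Monoid M] [Finite M] (x : M) :
    ∃ n : ℕ, 0 < n ∧ x ^ n * x ^ n = x ^ n := by
  obtain ⟨a, b, hab, h⟩ := Finite.exists_ne_map_eq_of_infinite (fun n : ℕ => x ^ n)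
  obtain ⟨m, d, hd, hm⟩ : ∃ m d : ℕ, 0 < d ∧ x ^ (m + d) = x ^ m := by
    rcases Nat.lt_or_gt_of_ne hab with h1 | h1
    · exact ⟨a, b - a, by omega, by rw [h]; congr 1; omega⟩
    · exact ⟨b, a - b, by omega, by rw [← h]; congr 1; omega⟩
  have h2 : ∀ j, x ^ (m + j * d) = x ^ m := by
    intro j
    induction j with
    | zero => simp
    | succ j ih =>
      have : m + (j + 1) * d = (m + j * d) + d := by ring
      rw [this, pow_add, ih, ← pow_add, hm]
  have h3 : ∀ t, m ≤ t → ∀ j, x ^ (t + j * d) = x ^ t := by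
    intro t ht j
    have e1 : t + j * d = (m + j * d) + (t - m) := by omega
    have e2 : t = m + (t - m) := by omega
    rw [e1, pow_add, h2, ← pow_add, ← e2]
  refine ⟨(m + 1) * d, Nat.mul_pos (Nat.succ_pos _) hd, ?_⟩
  rw [← pow_add]
  exact h3 _ (by nlinarith) (m + 1)

/-- an idempotent operator that commutes with left translations, preserves the even words and
maps the constant words to even words, maps everything to even words -/
theorem idem_mem_Ev (hP : IsPGroup p P) (Ce : Submodule K (I → K))
    (T : (P → I → K) →ₗ[K] (P → I → K)) (hT2 : ∀ f, T (T f) = T f)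
    (hT : ∀ g f, T (LT g f) = LT g (T f))
    (hTe : ∀ f ∈ Ev P Ce, T f ∈ Ev P Ce)
    (hbase : ∀ φ : I → K, T (fun _ => φ) ∈ Ev P Ce) (f : P → I → K) : T f ∈ Ev P Ce := by
  classical
  let _ : MulAction P (P × Ann Ce) :=
    { smul := fun g x => (g * x.1, x.2)
      one_smul := fun x => by
        show (1 * x.1, x.2) = x
        simp
      mul_smul := fun g h x => by
        show (g * h * x.1, x.2) = (g * (h * x.1), x.2)
        rw [mul_assoc] }
  have hsm : ∀ (g : P) (x : P × Ann Ce), g • x = (g * x.1, x.2) := fun _ _ => rfl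
  let W : Submodule K (P × Ann Ce → K) := Submodule.map (syn P Ce) (LinearMap.range T)
  have hWst : ∀ g : P, ∀ u ∈ W, (fun ω => u (g • ω)) ∈ W := by
    rintro g _ ⟨_, ⟨r, rfl⟩, rfl⟩
    refine ⟨T (LT g r), ⟨LT g r, rfl⟩, ?_⟩
    rw [hT]
    funext x
    rfl
  have hW : W = ⊥ := by
    by_contra hne
    obtain ⟨u, hu, hu0, hinv⟩ := PG878.exists_invariant hP W hWst hne
    obtain ⟨_, ⟨r, rfl⟩, rfl⟩ := hu
    apply hu0
    rw [syn_eq_zero]
    -- `T r - const` is even
    have h1 : T r - (fun _ => T r 1) ∈ Ev P Ce := by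
      rw [← syn_eq_zero, map_sub, sub_eq_zero]
      funext x
      have := hinv x.1 (1, x.2)
      rw [hsm] at this
      simp only [mul_one] at this
      rw [show ((x.1, x.2) : P × Ann Ce) = x from rfl] at this
      rw [this]
      rfl
    have h2 : T (T r) ∈ Ev P Ce := by
      have h3 := (Ev P Ce).add_mem (hTe _ h1) (hbase (T r 1))
      rw [map_sub, sub_add_cancel] at h3
      exact h3
    rwa [hT2] at h2
  have : syn P Ce (T f) ∈ W := ⟨T f, ⟨f, rfl⟩, rfl⟩
  rw [hW] at this
  exact syn_eq_zero.1 ((Submodule.mem_bot K).1 this)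

/-- THE LIFTING THEOREM: theorem A1 from an operator and facts on constant words. -/
theorem a1_of_operator (hP : IsPGroup p P) (al : I → P) (Ce Co : Submodule K (I → K)) (i0 : I)
    (S : (P → I → K) →ₗ[K] (P → I → K))
    (hS : ∀ g f, S (LT g f) = LT g (S f))
    (hSe : ∀ f : P → I → K, (∀ g, f g ∈ Ce) → ∀ g, S f g ∈ Ce)
    (hSo : ∀ f : P → I → K, (∀ h, (fun i => f (h * (al i)⁻¹) i) ∈ Co) →
      ∀ h, (fun i => S f (h * (al i)⁻¹) i) ∈ Co)
    (hbase : ∀ φ : I → K, ∀ g, S (fun _ => φ) g ∈ Ce)
    (w0 : I → K) (lam : K) (hlam : lam ≠ 0) (hw : S (fun _ => w0) = fun _ => lam • w0)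
    (hwo : w0 ∈ Co) (hw0 : w0 i0 ≠ 0)
    (hV0 : ∀ v ∈ Ce, v ∈ Co → v i0 = 0 → v = 0) : A1 al Ce Co i0 := by
  classical
  have _ : Finite (P → I → K) := inferInstance
  have _ : Finite (Module.End K (P → I → K)) := DFunLike.finite _
  obtain ⟨n, hn, hidem⟩ := exists_idem_pow (M := Module.End K (P → I → K)) S
  -- powers of `S`
  have pS : ∀ n g f, (S ^ n) (LT g f) = LT g ((S ^ n) f) := by
    intro n g f
    induction n with
    | zero => rfl
    | succ n ih => rw [pow_succ', Module.End.mul_apply, ih, hS]; rfl
  have pSe : ∀ n, ∀ f ∈ Ev P Ce, (S ^ n) f ∈ Ev P Ce := by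
    intro n f hf
    induction n with
    | zero => exact hf
    | succ n ih => rw [pow_succ', Module.End.mul_apply]; exact hSe _ ih
  have pSo : ∀ n, ∀ f : P → I → K, (∀ h, (fun i => f (h * (al i)⁻¹) i) ∈ Co) →
      ∀ h, (fun i => (S ^ n) f (h * (al i)⁻¹) i) ∈ Co := by
    intro n f hf
    induction n with
    | zero => exact hf
    | succ n ih => rw [pow_succ', Module.End.mul_apply]; exact hSo _ ih
  have pb : ∀ φ : I → K, (S ^ n) (fun _ => φ) ∈ Ev P Ce := by
    intro φ
    obtain ⟨m, rfl⟩ : ∃ m, n = m + 1 := ⟨n - 1, by omega⟩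
    rw [pow_succ, Module.End.mul_apply]
    exact pSe m _ (hbase φ)
  have pw : ∀ n, (S ^ n) (fun _ => w0) = fun _ => lam ^ n • w0 := by
    intro n
    induction n with
    | zero => simp
    | succ n ih =>
      rw [pow_succ', Module.End.mul_apply, ih]
      have : (fun _ : P => lam ^ n • w0) = lam ^ n • (fun _ : P => w0) := rfl
      rw [this, map_smul, hw]
      funext g
      rw [Pi.smul_apply, smul_smul, pow_succ]
  have hTe := idem_mem_Ev hP Ce (S ^ n)
    (fun f => by rw [← Module.End.mul_apply, hidem]) (pS n) (pSe n) pb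
  -- the word `G` at one odd vertex
  let G : P → I → K := fun g i => if g * al i = 1 then w0 i else 0
  have hG : ∀ h, (fun i => G (h * (al i)⁻¹) i) ∈ Co := by
    intro h
    by_cases hh : h = 1
    · have : (fun i => G (h * (al i)⁻¹) i) = w0 := by
        funext i
        simp [G, hh]
      rw [this]
      exact hwo
    · have : (fun i => G (h * (al i)⁻¹) i) = 0 := by
        funext i
        simp [G, hh]
      rw [this]
      exact Co.zero_mem
  have hGs : ∀ i, ∑ g, G g i = w0 i := by
    intro i
    have : ∀ g, G g i = if g = (al i)⁻¹ then w0 i else 0 := by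
      intro g
      simp only [G]
      congr 1
      rw [mul_eq_one_iff_eq_inv]
    simp_rw [this]
    rw [Finset.sum_ite_eq' Finset.univ]
    simp
  -- the word of the code
  let F : P → I → K := (S ^ n) G
  have hF : F ∈ CR al Ce Co := ⟨hTe G, pSo n G hG⟩
  have htr : ∀ f : P → I → K, ∑ g, LT g f = fun _ => fun i => ∑ g, f g i := by
    intro f
    funext h i
    rw [Finset.sum_apply, Finset.sum_apply]
    simp only [LT_apply]
    exact Fintype.sum_equiv (Equiv.mulRight h) _ _ fun g => rfl
  have hFs : ∀ i, ∑ g, F g i = lam ^ n * w0 i := by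
    intro i
    have h1 : (fun _ : P => fun i => ∑ g, F g i) = (S ^ n) (fun _ => w0) := by
      rw [← htr F]
      have : ∑ g, LT g F = (S ^ n) (∑ g, LT g G) := by
        rw [map_sum]
        exact Finset.sum_congr rfl fun g _ => (pS n g G).symm
      rw [this, htr G]
      congr 1
      funext g i
      exact hGs i
    rw [pw n] at h1
    exact congrFun (congrFun h1 1) i
  -- curry and apply the restriction theorem
  let _ : MulAction P (P × I) :=
    { smul := fun g x => (g * x.1, x.2)
      one_smul := fun x => by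
        show (1 * x.1, x.2) = x
        simp
      mul_smul := fun g h x => by
        show (g * h * x.1, x.2) = (g * (h * x.1), x.2)
        rw [mul_assoc] }
  have hsm : ∀ (g : P) (x : P × I), g • x = (g * x.1, x.2) := fun _ _ => rfl
  let V : Submodule K (P × I → K) :=
    { carrier := {f | (fun g i => f (g, i)) ∈ CR al Ce Co}
      add_mem' := fun ha hb => (CR al Ce Co).add_mem ha hb
      zero_mem' := (CR al Ce Co).zero_mem
      smul_mem' := fun c _ ha => (CR al Ce Co).smul_mem c ha }
  have hbij := PG878.restrict_bijective hP V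
    (fun g f hf => LT_mem (f := fun g i => f (g, i)) hf g) (1, i0)
    (by
      intro f hf hinv hf0
      have hc : ∀ g i, f (g, i) = f (1, i) := by
        intro g i
        have := hinv g (1, i)
        rw [hsm] at this
        simpa using this
      have h1 : (fun i => f (1, i)) ∈ Ce := hf.1 1
      have h2 : (fun i => f (1, i)) ∈ Co := by
        have := hf.2 1
        have e : (fun i => f (1 * (al i)⁻¹, i)) = fun i => f (1, i) := funext fun i => hc _ i
        simp only at this
        rw [e] at this
        exact this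
      have h3 := hV0 _ h1 h2 hf0
      funext x
      rw [show x = (x.1, x.2) from rfl, hc]
      exact congrFun h3 x.2)
    (fun x => F x.1 x.2) hF
    (by
      have : ∀ g : P, (fun x : P × I => F x.1 x.2) (g • ((1 : P), i0)) = F g i0 := by
        intro g
        rw [hsm]
        simp
      simp_rw [this]
      rw [hFs]
      exact mul_ne_zero (pow_ne_zero _ hlam) hw0)
  intro c
  obtain ⟨f, hf⟩ := hbij.2 c
  refine ⟨fun g i => f.1 (g, i), ⟨f.2, fun g => ?_⟩, ?_⟩
  · have := congrFun hf g
    simp only [hsm, mul_one] at this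
    exact this
  · rintro f' ⟨hf', hc'⟩
    have h1 : (⟨fun x => f' x.1 x.2, hf'⟩ : V) = f := by
      apply hbij.1
      rw [hf]
      funext g
      simp only [hsm, mul_one]
      exact hc' g
    funext g i
    exact congrFun (congrArg Subtype.val h1) (g, i)

end Crest.Agent.R289.Lift14
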