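import Mathlib
import Crest.Agent.R289.Lift_14

/-!
Row 289, block A (helper878).  The lifting step of theorem A1 for an arbitrary family of local
conditions (two places: four vertex types, or four edge types).

`P` is a finite `p`-group, `K` a finite field of characteristic `p`, words are functions
`P → X → K` (`X` = squares per group element, e.g. `I × I`).  A condition is a pair
`(r : X → P, C : Submodule K (X → K))`: the view of `f` at the vertex `h` of that type is
`x ↦ f (h * (r x)⁻¹) x` and has to be in `C`.
`a1_family`: if `S` commutes with left translations, preserves every condition, some power of it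
maps every constant word to the base code, and it has an eigenvector `w0` in the base code with
non-zero eigenvalue and `w0 x0 ≠ 0`, and the base code has only the zero word vanishing at `x0`,
then `f ↦ f (., x0)` is a bijection from the code onto the functions on `P`.
-/

set_option autoImplicit false

namespace Crest.Agent.R289.Lift2_878

open Finset
open Crest.Agent.R289.LR645 (LT LT_apply)
open Crest.Agent.R289.Lift14

variable {p : ℕ} [Fact p.Prime] {P : Type*} [Group P]
  {K : Type*} [Field K] {X : Type*} {ι : Type*}

/-- words that satisfy one local condition -/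
def Cond (r : X → P) (C : Submodule K (X → K)) : Submodule K (P → X → K) where
  carrier := {f | ∀ h, (fun x => f (h * (r x)⁻¹) x) ∈ C}
  add_mem' := fun ha hb h => C.add_mem (ha h) (hb h)
  zero_mem' := fun _ => C.zero_mem
  smul_mem' := fun c _ ha h => C.smul_mem c (ha h)

theorem mem_Cond {r : X → P} {C : Submodule K (X → K)} {f : P → X → K} :
    f ∈ Cond r C ↔ ∀ h, (fun x => f (h * (r x)⁻¹) x) ∈ C := Iff.rfl

/-- constant words satisfy a condition iff their view does -/
theorem const_mem_Cond {r : X → P} {C : Submodule K (X → K)} {φ : X → K} :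
    (fun _ => φ) ∈ Cond r C ↔ φ ∈ C := ⟨fun h => h 1, fun h _ => h⟩

theorem LT_mem_Cond {r : X → P} {C : Submodule K (X → K)} {f : P → X → K}
    (hf : f ∈ Cond r C) (g : P) : LT g f ∈ Cond r C := by
  intro h
  have := hf (g * h)
  simpa [LT_apply, mul_assoc] using this

/-- the code: all conditions -/
def Code (r : ι → X → P) (C : ι → Submodule K (X → K)) : Submodule K (P → X → K) :=
  ⨅ c, Cond (r c) (C c)

theorem mem_Code {r : ι → X → P} {C : ι → Submodule K (X → K)} {f : P → X → K} :
    f ∈ Code r C ↔ ∀ c h, (fun x => f (h * (r c x)⁻¹) x) ∈ C c := by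
  simp only [Code, Submodule.mem_iInf]
  rfl

/-- coordinates at the vertices `h` of one type -/
def sh (r : X → P) : (P → X → K) ≃ₗ[K] (P → X → K) where
  toFun f := fun h x => f (h * (r x)⁻¹) x
  invFun f := fun h x => f (h * r x) x
  map_add' _ _ := rfl
  map_smul' _ _ := rfl
  left_inv f := by
    funext h x
    simp
  right_inv f := by
    funext h x
    simp

theorem sh_apply (r : X → P) (f : P → X → K) (h : P) (x : X) :
    sh r f h x = f (h * (r x)⁻¹) x := rfl

theorem sh_symm_apply (r : X → P) (f : P → X → K) (h : P) (x : X) :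
    (sh r).symm f h x = f (h * r x) x := rfl

theorem sh_LT (r : X → P) (g : P) (f : P → X → K) : sh r (LT g f) = LT g (sh r f) := by
  funext h x
  simp [sh_apply, mul_assoc]

theorem sh_symm_LT (r : X → P) (g : P) (f : P → X → K) :
    (sh r).symm (LT g f) = LT g ((sh r).symm f) := by
  funext h x
  simp [sh_symm_apply, mul_assoc]

theorem sh_mem {r : X → P} {C : Submodule K (X → K)} {f : P → X → K} :
    sh r f ∈ Ev P C ↔ f ∈ Cond r C := Iff.rfl

theorem sh_symm_mem {r : X → P} {C : Submodule K (X → K)} {f : P → X → K} :
    (sh r).symm f ∈ Cond r C ↔ f ∈ Ev P C := by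
  rw [← sh_mem, LinearEquiv.apply_symm_apply]

/-- an idempotent operator that commutes with left translations, preserves a condition and maps
the constant words into it, maps everything into it -/
theorem idem_mem_Cond [Fintype P] [Finite K] [CharP K p] [Fintype X] (hP : IsPGroup p P)
    (r : X → P) (C : Submodule K (X → K))
    (T : (P → X → K) →ₗ[K] (P → X → K)) (hT2 : ∀ f, T (T f) = T f)
    (hT : ∀ g f, T (LT g f) = LT g (T f))
    (hTC : ∀ f ∈ Cond r C, T f ∈ Cond r C)
    (hbase : ∀ φ : X → K, T (fun _ => φ) ∈ Cond r C) (f : P → X → K) : T f ∈ Cond r C := by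
  let T' : (P → X → K) →ₗ[K] (P → X → K) :=
    (sh r).toLinearMap ∘ₗ T ∘ₗ (sh r).symm.toLinearMap
  have e : ∀ u, T' u = sh r (T ((sh r).symm u)) := fun _ => rfl
  have h1 : T' (sh r f) ∈ Ev P C := by
    apply idem_mem_Ev hP C T'
    · intro u
      rw [e, e, LinearEquiv.symm_apply_apply, hT2]
    · intro g u
      rw [e, e, sh_symm_LT, hT, sh_LT]
    · intro u hu
      rw [e, sh_mem]
      exact hTC _ (sh_symm_mem.2 hu)
    · intro φ
      rw [e, sh_mem]
      exact hbase φ
  rw [e, LinearEquiv.symm_apply_apply, sh_mem] at h1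
  exact h1

/-- THE LIFTING THEOREM for a family of conditions (two places). -/
theorem a1_family [Fintype P] [Finite K] [CharP K p] [Fintype X] (hP : IsPGroup p P)
    (r : ι → X → P) (C : ι → Submodule K (X → K)) (x0 : X)
    (S : (P → X → K) →ₗ[K] (P → X → K))
    (hS : ∀ g f, S (LT g f) = LT g (S f))
    (hSC : ∀ c, ∀ f : P → X → K, (∀ h, (fun x => f (h * (r c x)⁻¹) x) ∈ C c) →
      ∀ h, (fun x => S f (h * (r c x)⁻¹) x) ∈ C c)
    (hbase : ∀ φ : X → K, ∃ m : ℕ, ∀ c, (S ^ m) (fun _ => φ) 1 ∈ C c)
    (w0 : X → K) (lam : K) (hlam : lam ≠ 0) (hw : S (fun _ => w0) = fun _ => lam • w0)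
    (hw0 : w0 x0 ≠ 0)
    (hV0 : ∀ v, (∀ c, v ∈ C c) → v x0 = 0 → v = 0) (content : P → K) :
    ∃! f : P → X → K, (∀ c h, (fun x => f (h * (r c x)⁻¹) x) ∈ C c) ∧
      ∀ g, f g x0 = content g := by
  classical
  have _ : Finite (P → X → K) := inferInstance
  have _ : Finite (Module.End K (P → X → K)) := DFunLike.finite _
  obtain ⟨n, hn, hidem⟩ := exists_idem_pow (M := Module.End K (P → X → K)) S
  -- powers of `S`
  have pS : ∀ n g f, (S ^ n) (LT g f) = LT g ((S ^ n) f) := by
    intro n g f
    induction n with
    | zero => rfl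
    | succ n ih => rw [pow_succ', Module.End.mul_apply, ih, hS]; rfl
  have pSC : ∀ c n, ∀ f ∈ Cond (r c) (C c), (S ^ n) f ∈ Cond (r c) (C c) := by
    intro c n f hf
    induction n with
    | zero => exact hf
    | succ n ih => rw [pow_succ', Module.End.mul_apply]; exact hSC c _ ih
  have pw : ∀ n, (S ^ n) (fun _ => w0) = fun _ => lam ^ n • w0 := by
    intro n
    induction n with
    | zero => simp
    | succ n ih =>
      rw [pow_succ', Module.End.mul_apply, ih]
      have : (fun _ : P => lam ^ n • w0) = lam ^ n • (fun _ : P => w0) := rfl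
      rw [this, map_smul, hw]
      funext g
      rw [Pi.smul_apply, smul_smul, pow_succ]
  have pidem : ∀ m : ℕ, (S ^ n) ^ (m + 1) = S ^ n := by
    intro m
    induction m with
    | zero => simp
    | succ m ih => rw [pow_succ, ih, hidem]
  -- images of constant words are constant
  have pc : ∀ m : ℕ, ∀ φ : X → K, (S ^ m) (fun _ => φ) = fun _ => (S ^ m) (fun _ => φ) 1 := by
    intro m φ
    funext g x
    have h1 := pS m g (fun _ => φ)
    have h2 : LT g (fun _ : P => φ) = fun _ => φ := rfl
    rw [h2] at h1
    have h3 := congrFun (congrFun h1 1) x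
    rw [LT_apply, mul_one] at h3
    exact h3.symm
  have pb : ∀ c, ∀ φ : X → K, (S ^ n) (fun _ => φ) ∈ Cond (r c) (C c) := by
    intro c φ
    obtain ⟨m, hm⟩ := hbase φ
    rw [← pidem m, ← pow_mul]
    obtain ⟨d, hd⟩ : ∃ d, n * (m + 1) = d + m := by
      refine ⟨n * (m + 1) - m, ?_⟩
      have : m ≤ n * (m + 1) := by nlinarith
      omega
    rw [hd, pow_add, Module.End.mul_apply]
    apply pSC
    rw [pc m φ]
    exact const_mem_Cond.2 (hm c)
  -- everything is mapped into the code
  have hall : ∀ f c, (S ^ n) f ∈ Cond (r c) (C c) := fun f c =>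
    idem_mem_Cond hP (r c) (C c) (S ^ n)
      (fun f => by rw [← Module.End.mul_apply, hidem]) (pS n) (pSC c n) (pb c) f
  have hwC : ∀ c, w0 ∈ C c := by
    intro c
    have h1 := hall (fun _ => w0) c
    rw [pw n] at h1
    have h2 := (const_mem_Cond.1 h1 : lam ^ n • w0 ∈ C c)
    have h3 := (C c).smul_mem (lam ^ n)⁻¹ h2
    rwa [smul_smul, inv_mul_cancel₀ (pow_ne_zero _ hlam), one_smul] at h3
  -- the word of the code
  let G : P → X → K := fun g x => if g = 1 then w0 x else 0
  have hGs : ∀ x, ∑ g, G g x = w0 x := by
    intro x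
    simp only [G]
    rw [Finset.sum_ite_eq' Finset.univ]
    simp
  let F : P → X → K := (S ^ n) G
  have hF : ∀ c, F ∈ Cond (r c) (C c) := fun c => hall G c
  have htr : ∀ f : P → X → K, ∑ g, LT g f = fun _ => fun x => ∑ g, f g x := by
    intro f
    funext h x
    rw [Finset.sum_apply, Finset.sum_apply]
    simp only [LT_apply]
    exact Fintype.sum_equiv (Equiv.mulRight h) _ _ fun g => rfl
  have hFs : ∀ x, ∑ g, F g x = lam ^ n * w0 x := by
    intro x
    have h1 : (fun _ : P => fun x => ∑ g, F g x) = (S ^ n) (fun _ => w0) := by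
      rw [← htr F]
      have : ∑ g, LT g F = (S ^ n) (∑ g, LT g G) := by
        rw [map_sum]
        exact Finset.sum_congr rfl fun g _ => (pS n g G).symm
      rw [this, htr G]
      congr 1
      funext g x
      exact hGs x
    rw [pw n] at h1
    exact congrFun (congrFun h1 1) x
  -- curry and apply the restriction theorem
  let _ : MulAction P (P × X) :=
    { smul := fun g x => (g * x.1, x.2)
      one_smul := fun x => by
        show (1 * x.1, x.2) = x
        simp
      mul_smul := fun g h x => by
        show (g * h * x.1, x.2) = (g * (h * x.1), x.2)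
        rw [mul_assoc] }
  have hsm : ∀ (g : P) (x : P × X), g • x = (g * x.1, x.2) := fun _ _ => rfl
  let V : Submodule K (P × X → K) :=
    { carrier := {f | ∀ c, (fun g x => f (g, x)) ∈ Cond (r c) (C c)}
      add_mem' := fun ha hb c => (Cond (r c) (C c)).add_mem (ha c) (hb c)
      zero_mem' := fun c => (Cond (r c) (C c)).zero_mem
      smul_mem' := fun k _ ha c => (Cond (r c) (C c)).smul_mem k (ha c) }
  have hbij := PG878.restrict_bijective hP V
    (fun g f hf c => LT_mem_Cond (f := fun g x => f (g, x)) (hf c) g) (1, x0)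
    (by
      intro f hf hinv hf0
      have hc : ∀ g x, f (g, x) = f (1, x) := by
        intro g x
        have := hinv g (1, x)
        rw [hsm] at this
        simpa using this
      have h2 : ∀ c, (fun x => f (1, x)) ∈ C c := by
        intro c
        have := hf c 1
        have e : (fun x => f (1 * (r c x)⁻¹, x)) = fun x => f (1, x) := funext fun x => hc _ x
        simp only at this
        rw [e] at this
        exact this
      have h3 := hV0 _ h2 hf0
      funext x
      rw [show x = (x.1, x.2) from rfl, hc]
      exact congrFun h3 x.2)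
    (fun x => F x.1 x.2) hF
    (by
      have : ∀ g : P, (fun x : P × X => F x.1 x.2) (g • ((1 : P), x0)) = F g x0 := by
        intro g
        rw [hsm]
        simp
      simp_rw [this]
      rw [hFs]
      exact mul_ne_zero (pow_ne_zero _ hlam) hw0)
  obtain ⟨f, hf⟩ := hbij.2 content
  refine ⟨fun g x => f.1 (g, x), ⟨f.2, fun g => ?_⟩, ?_⟩
  · have := congrFun hf g
    simp only [hsm, mul_one] at this
    exact this
  · rintro f' ⟨hf', hc'⟩
    have h1 : (⟨fun x => f' x.1 x.2, hf'⟩ : V) = f := by
      apply hbij.1
      rw [hf]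
      funext g
      simp only [hsm, mul_one]
      exact hc' g
    funext g x
    exact congrFun (congrArg Subtype.val h1) (g, x)

end Crest.Agent.R289.Lift2_878
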