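import Crest.Agent.R289.Mirror2_545
import Crest.Agent.R289.PGroup_878
import Crest.Agent.R289.Lift2_878

/-!
Row 289 (helper781): the mirror words of `Mirror_545` for a code given by a family of local
conditions (`Lift2_878.Code r C`: the view `x ↦ f (h * (r c x)⁻¹) x` lies in `C c`).

* `J_nilpotent`: the augmentation ideal of a finite `p`-group over a finite field of
  characteristic `p` is nilpotent (no coordinates needed);
* `mem_iff_ann`: a subspace of `X → K` is the annihilator of its annihilator vectors;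
* `al C`, `gam r`: coefficients (they only depend on the local codes `C`, not on the level) and
  group elements with `InV (al C) (gam r) f ↔ f ∈ Code r C`;
* `pm`, `beta`: a fixed choice of the relation coefficients for a base code without a non-zero word
  vanishing at `x0`;
* `mir_existsUnique`, `mir_unique`, `mir_zero`, `mir_word`, `mir_dense`, `mir_units`: the theorems
  of `Mirror_545` / `Mirror2_545` for `Code r C`.
-/

set_option autoImplicit false
set_option linter.unusedSectionVars false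

namespace Crest.Agent.R289.MirInst781

open Finset

open Crest.Agent.R289.Lift2_878 (Code mem_Code)

/-! ### nilpotency of the augmentation ideal -/

section nil

variable {p : ℕ} [Fact p.Prime] {T : Type*} [Group T] [Finite T]
  {K : Type*} [Field K] [Finite K] [CharP K p]

/-- left multiplication by a group element on a stable subspace -/
noncomputable def lm (W : Submodule K (MonoidAlgebra K T))
    (hW : ∀ g : T, ∀ w ∈ W, MonoidAlgebra.single g (1 : K) * w ∈ W) (g : T) : W →ₗ[K] W where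
  toFun w := ⟨MonoidAlgebra.single g (1 : K) * w.1, hW g w.1 w.2⟩
  map_add' _ _ := Subtype.ext (mul_add _ _ _)
  map_smul' _ _ := Subtype.ext (mul_smul_comm _ _ _)

theorem not_le_mul (hP : IsPGroup p T) (W : Submodule K (MonoidAlgebra K T))
    (hW : ∀ g : T, ∀ w ∈ W, MonoidAlgebra.single g (1 : K) * w ∈ W) (h0 : W ≠ ⊥) :
    ¬ W ≤ AugNil322.J K T * W := by
  classical
  intro hle
  have hfinA : Module.Finite K (MonoidAlgebra K T) := inferInstance
  have : Finite (MonoidAlgebra K T) := Module.finite_of_finite K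
  have : Finite (Module.Dual K W) := Module.finite_of_finite K
  let _ : DistribMulAction T (Module.Dual K W) :=
    { smul := fun g φ => φ.comp (lm W hW g⁻¹)
      one_smul := fun φ => by
        apply LinearMap.ext
        intro w
        show φ (lm W hW (1 : T)⁻¹ w) = φ w
        congr 1
        apply Subtype.ext
        show MonoidAlgebra.single (1 : T)⁻¹ (1 : K) * w.1 = w.1
        rw [inv_one, ← MonoidAlgebra.one_def, one_mul]
      mul_smul := fun g h φ => by
        apply LinearMap.ext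
        intro w
        show φ (lm W hW (g * h)⁻¹ w) = φ (lm W hW h⁻¹ (lm W hW g⁻¹ w))
        congr 1
        apply Subtype.ext
        show MonoidAlgebra.single (g * h)⁻¹ (1 : K) * w.1
          = MonoidAlgebra.single h⁻¹ (1 : K) * (MonoidAlgebra.single g⁻¹ (1 : K) * w.1)
        rw [← mul_assoc, MonoidAlgebra.single_mul_single, mul_inv_rev, one_mul]
      smul_zero := fun _ => rfl
      smul_add := fun _ _ _ => rfl }
  have hex : ∃ φ : Module.Dual K W, φ ≠ 0 := by
    obtain ⟨w, hw, hw0⟩ := (Submodule.ne_bot_iff W).1 h0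
    have hne : (⟨w, hw⟩ : W) ≠ 0 := fun h => hw0 (congrArg Subtype.val h)
    by_contra hcon
    push Not at hcon
    exact hne ((Module.forall_dual_apply_eq_zero_iff K (⟨w, hw⟩ : W)).1
      (fun φ => by rw [hcon φ]; rfl))
  obtain ⟨φ, hφ0, hfix⟩ := PG878.exists_fixed_ne_zero (K := K) hP hex
  have hfix' : ∀ (g : T) (w : W), φ (lm W hW g w) = φ w := by
    intro g w
    have h1 : (g⁻¹ • φ) w = φ w := by rw [hfix g⁻¹]
    have h2 : (g⁻¹ • φ) w = φ (lm W hW (g⁻¹)⁻¹ w) := rfl
    rw [h2, inv_inv] at h1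
    exact h1
  -- `φ` kills `J * W`
  have hkill : ∀ a : MonoidAlgebra K T, ∀ w : W, ∃ h : a * w.1 ∈ W,
      φ ⟨a * w.1, h⟩ = AugNil322.aug K T a * φ w := by
    intro a w
    induction a using MonoidAlgebra.induction_linear with
    | zero =>
      have h : (0 : MonoidAlgebra K T) * w.1 ∈ W := by rw [zero_mul]; exact W.zero_mem
      have e : (⟨(0 : MonoidAlgebra K T) * w.1, h⟩ : W) = 0 := Subtype.ext (zero_mul _)
      exact ⟨h, by rw [congrArg φ e, map_zero, map_zero, zero_mul]⟩
    | add a b ha hb =>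
      obtain ⟨h1, e1⟩ := ha
      obtain ⟨h2, e2⟩ := hb
      have h : (a + b) * w.1 ∈ W := by rw [add_mul]; exact W.add_mem h1 h2
      have e : (⟨(a + b) * w.1, h⟩ : W) = ⟨a * w.1, h1⟩ + ⟨b * w.1, h2⟩ :=
        Subtype.ext (add_mul _ _ _)
      exact ⟨h, by rw [congrArg φ e, map_add, e1, e2, map_add, add_mul]⟩
    | single g c =>
      have hc : MonoidAlgebra.single g c * w.1 = c • (lm W hW g w).1 := by
        show _ = c • (MonoidAlgebra.single g (1 : K) * w.1)
        rw [← smul_mul_assoc]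
        congr 1
        simp
      have h : MonoidAlgebra.single g c * w.1 ∈ W := by
        rw [hc]; exact W.smul_mem c (lm W hW g w).2
      have e : (⟨MonoidAlgebra.single g c * w.1, h⟩ : W) = c • lm W hW g w := Subtype.ext hc
      exact ⟨h, by rw [congrArg φ e, map_smul, hfix', AugNil322.aug_single, smul_eq_mul]⟩
  have hzero : ∀ z ∈ AugNil322.J K T * W, ∃ hz : z ∈ W, φ ⟨z, hz⟩ = 0 := by
    intro z hz
    refine Submodule.mul_induction_on hz ?_ ?_
    · intro a ha w hw
      obtain ⟨h1, e1⟩ := hkill a ⟨w, hw⟩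
      exact ⟨h1, by rw [e1, AugNil322.mem_J.1 ha, zero_mul]⟩
    · rintro a b ⟨h1, e1⟩ ⟨h2, e2⟩
      refine ⟨W.add_mem h1 h2, ?_⟩
      have e : (⟨a + b, W.add_mem h1 h2⟩ : W) = ⟨a, h1⟩ + ⟨b, h2⟩ := rfl
      rw [congrArg φ e, map_add, e1, e2, add_zero]
  apply hφ0
  apply LinearMap.ext
  intro w
  obtain ⟨_, e⟩ := hzero w.1 (hle w.2)
  exact e

theorem single_mul_J (g : T) (w : MonoidAlgebra K T) (hw : w ∈ AugNil322.J K T) :
    MonoidAlgebra.single g (1 : K) * w ∈ AugNil322.J K T := by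
  rw [AugNil322.mem_J] at hw ⊢
  rw [map_mul, hw, mul_zero]

theorem single_mul_J_pow (n : ℕ) (g : T) (w : MonoidAlgebra K T)
    (hw : w ∈ AugNil322.J K T ^ (n + 1)) :
    MonoidAlgebra.single g (1 : K) * w ∈ AugNil322.J K T ^ (n + 1) := by
  rw [pow_succ'] at hw ⊢
  refine Submodule.mul_induction_on hw ?_ ?_
  · intro a ha b hb
    rw [← mul_assoc]
    exact Submodule.mul_mem_mul (single_mul_J g a ha) hb
  · intro a b ha hb
    rw [mul_add]
    exact Submodule.add_mem _ ha hb

theorem J_pow_le (n : ℕ) :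
    AugNil322.J K T ^ (n + 2) ≤ (AugNil322.J K T ^ (n + 1) : Submodule K (MonoidAlgebra K T)) := by
  rw [pow_succ' _ (n + 1), pow_succ' _ n, ← mul_assoc]
  refine mul_le_mul' ?_ le_rfl
  rw [Submodule.mul_le]
  intro a _ b hb
  rw [AugNil322.mem_J] at hb ⊢
  rw [map_mul, hb, mul_zero]

/-- the augmentation ideal of a finite `p`-group is nilpotent -/
theorem J_nilpotent (hP : IsPGroup p T) : ∃ L : ℕ, AugNil322.J K T ^ L = ⊥ := by
  classical
  have hfinA : Module.Finite K (MonoidAlgebra K T) := inferInstance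
  have key : ∀ n : ℕ, AugNil322.J K T ^ (n + 1) ≠ (⊥ : Submodule K (MonoidAlgebra K T)) →
      Module.finrank K (AugNil322.J K T ^ (n + 2) : Submodule K (MonoidAlgebra K T))
        < Module.finrank K (AugNil322.J K T ^ (n + 1) : Submodule K (MonoidAlgebra K T)) := by
    intro n hn
    refine Submodule.finrank_lt_finrank_of_lt (lt_of_le_of_ne (J_pow_le n) ?_)
    intro he
    refine not_le_mul hP (AugNil322.J K T ^ (n + 1)) (single_mul_J_pow n) hn ?_
    rw [← pow_succ', he]
  by_contra hcon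
  push Not at hcon
  have hdec : ∀ n : ℕ, Module.finrank K (AugNil322.J K T ^ (n + 1) :
      Submodule K (MonoidAlgebra K T)) + n ≤ Module.finrank K (AugNil322.J K T ^ 1 :
      Submodule K (MonoidAlgebra K T)) := by
    intro n
    induction n with
    | zero => exact le_refl _
    | succ n ih =>
      have h1 := key n (hcon (n + 1))
      have h2 : Module.finrank K (AugNil322.J K T ^ (n + 1 + 1) :
        Submodule K (MonoidAlgebra K T)) = Module.finrank K (AugNil322.J K T ^ (n + 2) :
        Submodule K (MonoidAlgebra K T)) := rfl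
      omega
  have h1 := hdec (Module.finrank K (AugNil322.J K T ^ 1 : Submodule K (MonoidAlgebra K T)) + 1)
  omega

end nil

/-! ### a subspace of `X → K` is given by its annihilator vectors -/

variable {K X ι T : Type*} [Field K] [Fintype X] [DecidableEq X] [Group T]

/-- annihilator vectors -/
def Ann (C : Submodule K (X → K)) : Set (X → K) := {v | ∀ f ∈ C, ∑ x, v x * f x = 0}

theorem mem_iff_ann (C : Submodule K (X → K)) (f : X → K) :
    f ∈ C ↔ ∀ v ∈ Ann C, ∑ x, v x * f x = 0 := by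
  constructor
  · intro hf v hv
    exact hv f hf
  · intro h
    by_contra hf
    obtain ⟨φ, hφ, hC⟩ := Submodule.exists_dual_map_eq_bot_of_notMem hf inferInstance
    apply hφ
    have hv : ∀ u : X → K, ∑ x, φ (Pi.single x 1) * u x = φ u := by
      intro u
      conv_rhs => rw [← Finset.univ_sum_single u, map_sum]
      refine Finset.sum_congr rfl fun x _ => ?_
      rw [show (Pi.single x (u x) : X → K) = u x • Pi.single x (1 : K) by
        rw [← Pi.single_smul, smul_eq_mul, mul_one], map_smul, smul_eq_mul, mul_comm]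
    rw [← hv f]
    refine h (fun x => φ (Pi.single x 1)) ?_
    intro u hu
    rw [hv u]
    have : φ u ∈ Submodule.map φ C := Submodule.mem_map_of_mem hu
    rw [hC] at this
    exact (Submodule.mem_bot K).1 this

/-! ### the coefficients -/

/-- rows: a condition and an annihilator vector of its local code -/
abbrev Row (C : ι → Submodule K (X → K)) : Type _ := Σ c, {v : X → K // v ∈ Ann (C c)}

open Classical in
/-- level independent coefficients -/
noncomputable def al (C : ι → Submodule K (X → K)) (i : Row C) (s : X) (j : ι × X) : K :=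
  if j.1 = i.1 ∧ j.2 = s then i.2.1 s else 0

/-- the group elements of the relations -/
def gam (r : ι → X → T) (j : ι × X) : T := (r j.1 j.2)⁻¹

theorem sum_al [Fintype ι] (C : ι → Submodule K (X → K)) (i : Row C) (s : X) (F : ι × X → K) :
    ∑ j, al C i s j * F j = i.2.1 s * F (i.1, s) := by
  classical
  rw [Finset.sum_eq_single (i.1, s)]
  · simp [al]
  · intro j _ hj
    have : ¬ (j.1 = i.1 ∧ j.2 = s) := fun h => hj (Prod.ext h.1 h.2)
    simp [al, this]
  · intro h
    exact absurd (Finset.mem_univ _) h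

theorem inv_iff [Fintype ι] (r : ι → X → T) (C : ι → Submodule K (X → K)) (f : T → X → K) :
    Mirror545.InV (al C) (gam r) f ↔ f ∈ Code r C := by
  rw [mem_Code]
  have e : ∀ (i : Row C) (g : T), ∑ s, ∑ j, al C i s j * f (g * gam r j) s
      = ∑ s, i.2.1 s * f (g * (r i.1 s)⁻¹) s := by
    intro i g
    refine Finset.sum_congr rfl fun s _ => ?_
    rw [sum_al C i s (fun j => f (g * gam r j) s)]
    rfl
  constructor
  · intro h c g
    rw [mem_iff_ann]
    intro v hv
    rw [← h ⟨c, v, hv⟩ g, e]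
  · intro h i g
    rw [e]
    exact (mem_iff_ann _ _).1 (h i.1 g) i.2.1 i.2.2

theorem hbase_of [Fintype ι] (C : ι → Submodule K (X → K)) (x0 : X)
    (hV0 : ∀ v, (∀ c, v ∈ C c) → v x0 = 0 → v = 0) :
    ∀ x : X → K, (∀ i : Row C, ∑ s, (∑ j, al C i s j) * x s = 0) → x x0 = 0 → x = 0 := by
  intro x hx h0
  refine hV0 x (fun c => ?_) h0
  rw [mem_iff_ann]
  intro v hv
  rw [← hx ⟨c, v, hv⟩]
  refine Finset.sum_congr rfl fun s _ => ?_
  have := sum_al C ⟨c, v, hv⟩ s (fun _ => (1 : K))
  simp only [mul_one] at this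
  rw [this]

variable [Fintype ι] [Finite K]

noncomputable instance (C : ι → Submodule K (X → K)) : Fintype (Row C) := Fintype.ofFinite _

/-- a left inverse of the augmented columns (level independent) -/
noncomputable def pm (C : ι → Submodule K (X → K)) (x0 : X)
    (hV0 : ∀ v, (∀ c, v ∈ C c) → v x0 = 0 → v = 0) : {s : X // s ≠ x0} → Row C → K :=
  (Mirror545.exists_P x0 (al C) (hbase_of C x0 hV0)).choose

theorem pm_spec (C : ι → Submodule K (X → K)) (x0 : X)
    (hV0 : ∀ v, (∀ c, v ∈ C c) → v x0 = 0 → v = 0) : Mirror545.IsP x0 (al C) (pm C x0 hV0) :=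
  (Mirror545.exists_P x0 (al C) (hbase_of C x0 hV0)).choose_spec

/-- coefficients of the mirror relation (level independent) -/
noncomputable def beta (C : ι → Submodule K (X → K)) (x0 : X)
    (hV0 : ∀ v, (∀ c, v ∈ C c) → v x0 = 0 → v = 0) : {s : X // s ≠ x0} → X → ι × X → K :=
  Mirror545.bet x0 (al C) (pm C x0 hV0)

section main

variable {p : ℕ} [Fact p.Prime] [CharP K p] [Finite T] (hP : IsPGroup p T)
  (r : ι → X → T) (C : ι → Submodule K (X → K)) (x0 : X)
  (hV0 : ∀ v, (∀ c, v ∈ C c) → v x0 = 0 → v = 0)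
  {M : Type*} [AddCommGroup M] [Module K M]

include hP

/-- **every word has exactly one family of mirror words** -/
theorem mir_existsUnique (q : T → M) :
    ∃! U : {s : X // s ≠ x0} → T → M, Mirror545.MirRel x0 (beta C x0 hV0) (gam r) q U := by
  obtain ⟨L, hL⟩ := J_nilpotent (K := K) hP
  exact Mirror545.mir_existsUnique x0 (al C) (pm C x0 hV0) (pm_spec C x0 hV0) (gam r) hL q

theorem mir_unique {q : T → M} {U U' : {s : X // s ≠ x0} → T → M}
    (h : Mirror545.MirRel x0 (beta C x0 hV0) (gam r) q U)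
    (h' : Mirror545.MirRel x0 (beta C x0 hV0) (gam r) q U') : U = U' :=
  (mir_existsUnique hP r C x0 hV0 q).unique h h'

theorem mir_zero {q : T → M} {U : {s : X // s ≠ x0} → T → M}
    (h : Mirror545.MirRel x0 (beta C x0 hV0) (gam r) q U) (hq : ∀ g, q g = 0) :
    ∀ s g, U s g = 0 := by
  obtain ⟨L, hL⟩ := J_nilpotent (K := K) hP
  exact Mirror545.mir_zero x0 (al C) (pm C x0 hV0) (pm_spec C x0 hV0) (gam r) hL h hq

/-- **Lemma M**: the mirror words read backwards are the word of the code with the content of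
`q` read backwards.  `hA1` is theorem A1 (`Lift2_878.a1_family`). -/
theorem mir_word
    (hA1 : ∀ content : T → K, ∃! f : T → X → K,
      (∀ c h, (fun x => f (h * (r c x)⁻¹) x) ∈ C c) ∧ ∀ g, f g x0 = content g)
    {q : T → K} {U : {s : X // s ≠ x0} → T → K}
    (h : Mirror545.MirRel x0 (beta C x0 hV0) (gam r) q U) :
    (fun g s => Mirror545.ext x0 q U s g⁻¹) ∈ Code r C := by
  obtain ⟨L, hL⟩ := J_nilpotent (K := K) hP
  rw [← inv_iff]
  refine Mirror545.mir_word x0 (al C) (pm C x0 hV0) (pm_spec C x0 hV0) (gam r) hL ?_ h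
  intro c
  obtain ⟨f, ⟨h1, h2⟩, _⟩ := hA1 c
  exact ⟨f, (inv_iff r C f).2 (mem_Code.2 h1), h2⟩

/-- **density** -/
theorem mir_dense [Fintype T]
    (hA1 : ∀ content : T → K, ∃! f : T → X → K,
      (∀ c h, (fun x => f (h * (r c x)⁻¹) x) ∈ C c) ∧ ∀ g, f g x0 = content g)
    {d : ℕ} (hd : ∀ f ∈ Code r C, f ≠ 0 → d ≤ Nat.card {x : T × X // f x.1 x.2 ≠ 0})
    {q : T → M} {U : {s : X // s ≠ x0} → T → M}
    (h : Mirror545.MirRel x0 (beta C x0 hV0) (gam r) q U) (hq : ∃ g, q g ≠ 0) :
    d ≤ Nat.card {x : T × X // Mirror545.ext x0 q U x.2 x.1 ≠ 0} := by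
  obtain ⟨L, hL⟩ := J_nilpotent (K := K) hP
  refine Mirror545.mir_dense x0 (al C) (pm C x0 hV0) (pm_spec C x0 hV0) (gam r) hL ?_ ?_ h hq
  · intro c
    obtain ⟨f, ⟨h1, h2⟩, _⟩ := hA1 c
    exact ⟨f, (inv_iff r C f).2 (mem_Code.2 h1), h2⟩
  · intro f hf hf0
    exact hd f ((inv_iff r C f).1 hf) hf0

/-- **density, two factors**: positions `Ω` of the first factor -/
theorem mir_dense_prod [Fintype T] {Ω : Type*} [Finite Ω]
    (hA1 : ∀ content : T → K, ∃! f : T → X → K,
      (∀ c h, (fun x => f (h * (r c x)⁻¹) x) ∈ C c) ∧ ∀ g, f g x0 = content g)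
    {d : ℕ} (hd : ∀ f ∈ Code r C, f ≠ 0 → d ≤ Nat.card {x : T × X // f x.1 x.2 ≠ 0})
    {q : T → Ω → K} {U : {s : X // s ≠ x0} → T → Ω → K}
    (h : Mirror545.MirRel x0 (beta C x0 hV0) (gam r) q U) {dP : ℕ} {τ0 : T}
    (hdP : dP ≤ Nat.card {ω : Ω // q τ0 ω ≠ 0}) :
    dP * d ≤ Nat.card {x : Ω × (T × X) // Mirror545.ext x0 q U x.2.2 x.2.1 x.1 ≠ 0} := by
  obtain ⟨L, hL⟩ := J_nilpotent (K := K) hP
  refine Mirror545.mir_dense_prod x0 (al C) (pm C x0 hV0) (pm_spec C x0 hV0) (gam r) hL ?_ ?_ h hdP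
  · intro c
    obtain ⟨f, ⟨h1, h2⟩, _⟩ := hA1 c
    exact ⟨f, (inv_iff r C f).2 (mem_Code.2 h1), h2⟩
  · intro f hf hf0
    exact hd f ((inv_iff r C f).1 hf) hf0

/-- **density, units** -/
theorem mir_units [Fintype T] {Pg SP : Type*} [Finite Pg] [Fintype SP]
    (hA1 : ∀ content : T → K, ∃! f : T → X → K,
      (∀ c h, (fun x => f (h * (r c x)⁻¹) x) ∈ C c) ∧ ∀ g, f g x0 = content g)
    {d : ℕ} (hd : ∀ f ∈ Code r C, f ≠ 0 → d ≤ Nat.card {x : T × X // f x.1 x.2 ≠ 0})
    {q : T → (Pg × SP) → K} {U : {s : X // s ≠ x0} → T → (Pg × SP) → K}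
    (h : Mirror545.MirRel x0 (beta C x0 hV0) (gam r) q U) {dP : ℕ} {τ0 : T}
    (hdP : dP ≤ Nat.card {ω : Pg × SP // q τ0 ω ≠ 0}) :
    dP * d ≤ Nat.card {u : Pg × T // ∃ b : SP × X,
        Mirror545.ext x0 q U b.2 u.2 (u.1, b.1) ≠ 0} * (Fintype.card SP * Fintype.card X) := by
  obtain ⟨L, hL⟩ := J_nilpotent (K := K) hP
  refine Mirror545.mir_units x0 (al C) (pm C x0 hV0) (pm_spec C x0 hV0) (gam r) hL ?_ ?_ h hdP
  · intro c
    obtain ⟨f, ⟨h1, h2⟩, _⟩ := hA1 c
    exact ⟨f, (inv_iff r C f).2 (mem_Code.2 h1), h2⟩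
  · intro f hf hf0
    exact hd f ((inv_iff r C f).1 hf) hf0

end main

end Crest.Agent.R289.MirInst781
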