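/-
R289/AugNil_322.lean  (helper322)

Nilpotency of the augmentation ideal of `MonoidAlgebra K P` for a finite group `P`
with "triangular" coordinates over a finite field `K` of characteristic `p`.
Generic input of the zero test (#5543/#5545) and of the left-right object (#5542).
-/
import Mathlib

namespace Crest.Agent.R289.AugNil322

open Finset

/-! ### 1. Weight filtrations of a commutative algebra -/

section Filt

variable {K A ι : Type*} [Field K] [CommRing A] [Algebra K A]

/-- `G u wt n`: span of the products of atoms of total weight `< n`. -/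
def G (u : ι → A) (wt : ι → ℕ) (n : ℕ) : Submodule K A :=
  Submodule.span K {f | ∃ s : Multiset ι, (s.map wt).sum < n ∧ f = (s.map u).prod}

variable {u : ι → A} {wt : ι → ℕ}

theorem G_zero : G (K := K) u wt 0 = ⊥ := by
  unfold G
  rw [Submodule.span_eq_bot]
  rintro f ⟨s, hs, -⟩
  exact absurd hs (Nat.not_lt_zero _)

theorem G_mono {m n : ℕ} (h : m ≤ n) : G (K := K) u wt m ≤ G (K := K) u wt n := by
  unfold G
  apply Submodule.span_mono
  rintro f ⟨s, hs, rfl⟩
  exact ⟨s, lt_of_lt_of_le hs h, rfl⟩

theorem prod_mem_G (s : Multiset ι) {n : ℕ} (h : (s.map wt).sum < n) :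
    (s.map u).prod ∈ G (K := K) u wt n :=
  Submodule.subset_span ⟨s, h, rfl⟩

theorem one_mem_G {n : ℕ} (h : 0 < n) : (1 : A) ∈ G (K := K) u wt n := by
  have := prod_mem_G (K := K) (u := u) (wt := wt) 0 (n := n) (by simpa using h)
  simpa using this

theorem atom_mem_G (a : ι) {n : ℕ} (h : wt a < n) : u a ∈ G (K := K) u wt n := by
  have := prod_mem_G (K := K) (u := u) (wt := wt) {a} (n := n) (by simpa using h)
  simpa using this

/-- product rule of the filtration -/
theorem mul_mem_G {f g : A} {v w : ℕ} (hf : f ∈ G (K := K) u wt (v + 1))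
    (hg : g ∈ G (K := K) u wt w) : f * g ∈ G (K := K) u wt (v + w) := by
  unfold G at hf hg
  induction hf using Submodule.span_induction with
  | mem f hf =>
    obtain ⟨s, hs, rfl⟩ := hf
    induction hg using Submodule.span_induction with
    | mem g hg =>
      obtain ⟨t, ht, rfl⟩ := hg
      have := prod_mem_G (K := K) (u := u) (wt := wt) (s + t) (n := v + w)
        (by simp only [Multiset.map_add, Multiset.sum_add]; omega)
      simpa using this
    | zero => simp
    | add x y _ _ hx hy => rw [mul_add]; exact Submodule.add_mem _ hx hy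
    | smul c x _ hx => rw [mul_smul_comm]; exact Submodule.smul_mem _ _ hx
  | zero => simp
  | add x y _ _ hx hy => rw [add_mul]; exact Submodule.add_mem _ hx hy
  | smul c x _ hx => rw [smul_mul_assoc]; exact Submodule.smul_mem _ _ hx

theorem mul_mem_G' {f g : A} {v w : ℕ} (hf : f ∈ G (K := K) u wt v)
    (hg : g ∈ G (K := K) u wt (w + 1)) : f * g ∈ G (K := K) u wt (v + w) := by
  rw [mul_comm, add_comm v w]
  exact mul_mem_G hg hf

theorem pow_mem_G {f : A} {v : ℕ} (hf : f ∈ G (K := K) u wt (v + 1)) (n : ℕ) :
    f ^ n ∈ G (K := K) u wt (n * v + 1) := by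
  induction n with
  | zero => simpa using one_mem_G (K := K) (u := u) (wt := wt) (by omega)
  | succ n ih =>
    rw [pow_succ]
    have := mul_mem_G ih hf
    refine G_mono (le_of_eq ?_) this
    ring

theorem prod_mem_G_finset {β : Type*} (S : Finset β) (f : β → A) (v : β → ℕ)
    (hf : ∀ b ∈ S, f b ∈ G (K := K) u wt (v b + 1)) :
    ∏ b ∈ S, f b ∈ G (K := K) u wt (∑ b ∈ S, v b + 1) := by
  classical
  induction S using Finset.induction_on with
  | empty => simpa using one_mem_G (K := K) (u := u) (wt := wt) (by omega)
  | insert b S hb ih =>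
    rw [Finset.prod_insert hb, Finset.sum_insert hb]
    have h1 := hf b (Finset.mem_insert_self _ _)
    have h2 := ih (fun c hc => hf c (Finset.mem_insert_of_mem hc))
    have := mul_mem_G h1 h2
    refine G_mono (le_of_eq ?_) this
    ring

/-- An algebra endomorphism that lowers the weight of the atoms lowers the whole filtration. -/
theorem lower_prod (T : A →ₐ[K] A) (hT : ∀ a, T (u a) - u a ∈ G (K := K) u wt (wt a))
    (s : Multiset ι) :
    T (s.map u).prod - (s.map u).prod ∈ G (K := K) u wt (s.map wt).sum := by
  induction s using Multiset.induction_on with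
  | empty => simp
  | cons a s ih =>
    simp only [Multiset.map_cons, Multiset.prod_cons, Multiset.sum_cons, map_mul]
    set f := (s.map u).prod with hf
    have hsplit : T (u a) * T f - u a * f = (T (u a) - u a) * T f + u a * (T f - f) := by ring
    rw [hsplit]
    have hfm : f ∈ G (K := K) u wt ((s.map wt).sum + 1) := prod_mem_G s (Nat.lt_succ_self _)
    have hTf : T f ∈ G (K := K) u wt ((s.map wt).sum + 1) := by
      have : T f = (T f - f) + f := by ring
      rw [this]
      exact Submodule.add_mem _ (G_mono (Nat.le_succ _) ih) hfm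
    refine Submodule.add_mem _ (mul_mem_G' (hT a) hTf) ?_
    exact mul_mem_G (atom_mem_G a (Nat.lt_succ_self _)) ih

theorem lower (T : A →ₐ[K] A) (hT : ∀ a, T (u a) - u a ∈ G (K := K) u wt (wt a))
    {n : ℕ} {f : A} (hf : f ∈ G (K := K) u wt (n + 1)) :
    T f - f ∈ G (K := K) u wt n := by
  unfold G at hf
  induction hf using Submodule.span_induction with
  | mem f hf =>
    obtain ⟨s, hs, rfl⟩ := hf
    exact G_mono (Nat.lt_succ_iff.mp hs) (lower_prod T hT s)
  | zero => simp
  | add x y _ _ hx hy =>
    have : T (x + y) - (x + y) = (T x - x) + (T y - y) := by rw [map_add]; ring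
    rw [this]; exact Submodule.add_mem _ hx hy
  | smul c x _ hx =>
    have : T (c • x) - c • x = c • (T x - x) := by rw [map_smul, smul_sub]
    rw [this]; exact Submodule.smul_mem _ _ hx

end Filt

/-! ### 2. Functions on a finite group -/

section Fun

variable {K : Type*} [Field K] {P : Type*} [Group P]

/-- right translation of functions: `(rt γ f) g = f (g * γ)` -/
def rt (γ : P) : (P → K) →ₐ[K] (P → K) where
  toFun f := fun g => f (g * γ)
  map_one' := rfl
  map_mul' _ _ := rfl
  map_zero' := rfl
  map_add' _ _ := rfl
  commutes' _ := rfl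

@[simp] theorem rt_apply (γ : P) (f : P → K) (g : P) : rt γ f g = f (g * γ) := rfl

/-- the atoms: `g ↦ (x i g) ^ (p ^ e)` -/
def atom (p : ℕ) {k : ℕ} (x : Fin k → P → K) (ie : Fin k × ℕ) : P → K :=
  fun g => (x ie.1 g) ^ (p ^ ie.2)

def awt {k : ℕ} (ie : Fin k × ℕ) : ℕ := (ie.1 : ℕ) + 1

/-- "triangular" coordinates: the difference of the coordinate `i` under a right translation is a
combination of `1` and of the Frobenius powers of the coordinates `< i`. -/
def Tri (p : ℕ) {k : ℕ} (x : Fin k → P → K) : Prop :=
  ∀ (γ : P) (i : Fin k), (rt γ (x i) - x i) ∈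
    Submodule.span K (insert (1 : P → K) {f | ∃ j : Fin k, j < i ∧ ∃ e : ℕ, f = atom p x (j, e)})

variable {p : ℕ} {k : ℕ} {x : Fin k → P → K}

omit [Group P] in
theorem atom_pow (i : Fin k) (e e' : ℕ) :
    (atom p x (i, e)) ^ (p ^ e') = atom p x (i, e + e') := by
  funext g
  simp [atom, ← pow_mul, ← pow_add]

theorem frob_span [hp : Fact p.Prime] [CharP K p] {S : Set (P → K)} (e : ℕ)
    {M : Submodule K (P → K)} (hS : ∀ f ∈ S, f ^ (p ^ e) ∈ M) {f : P → K}
    (hf : f ∈ Submodule.span K S) : f ^ (p ^ e) ∈ M := by
  have : CharP (P → K) p := by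
    refine ⟨fun n => ?_⟩
    constructor
    · intro h
      have := congrFun h 1
      simpa [CharP.cast_eq_zero_iff K p] using this
    · intro h
      funext g
      simpa [CharP.cast_eq_zero_iff K p] using h
  induction hf using Submodule.span_induction with
  | mem f hf => exact hS f hf
  | zero =>
    rw [zero_pow (pow_ne_zero _ hp.out.ne_zero)]; exact Submodule.zero_mem _
  | add a b _ _ ha hb =>
    rw [add_pow_char_pow]
    exact Submodule.add_mem _ ha hb
  | smul c a _ ha =>
    rw [smul_pow]
    exact Submodule.smul_mem _ _ ha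

theorem rt_atom_sub [hp : Fact p.Prime] [CharP K p] (hx : Tri p x) (γ : P) (ie : Fin k × ℕ) :
    rt γ (atom p x ie) - atom p x ie ∈ G (K := K) (atom p x) awt (awt ie) := by
  obtain ⟨i, e⟩ := ie
  have : CharP (P → K) p := by
    refine ⟨fun n => ?_⟩
    constructor
    · intro h
      have := congrFun h 1
      simpa [CharP.cast_eq_zero_iff K p] using this
    · intro h
      funext g
      simpa [CharP.cast_eq_zero_iff K p] using h
  have h1 : rt γ (atom p x (i, e)) - atom p x (i, e) = (rt γ (x i) - x i) ^ (p ^ e) := by
    rw [sub_pow_char_pow]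
    rfl
  rw [h1]
  refine frob_span e ?_ (hx γ i)
  intro f hf
  rcases hf with rfl | ⟨j, hj, e', rfl⟩
  · rw [one_pow]
    exact one_mem_G (by simp [awt])
  · rw [atom_pow]
    refine atom_mem_G _ ?_
    simp only [awt]
    have : (j : ℕ) < (i : ℕ) := hj
    omega

/-- jointly injective coordinates over a field with `p ^ r` elements: the filtration is exhausted. -/
theorem G_top [hp : Fact p.Prime] [CharP K p] [Fintype K] [Finite P] (r : ℕ)
    (hr : Fintype.card K = p ^ r)
    (hinj : Function.Injective (fun g i => x i g)) :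
    G (K := K) (atom p x) awt (∑ i : Fin k, r * ((p - 1) * ((i : ℕ) + 1)) + 1) = ⊤ := by
  classical
  have := Fintype.ofFinite P
  have : CharP (P → K) p := by
    refine ⟨fun n => ?_⟩
    constructor
    · intro h
      have := congrFun h 1
      simpa [CharP.cast_eq_zero_iff K p] using this
    · intro h
      funext g
      simpa [CharP.cast_eq_zero_iff K p] using h
  rw [eq_top_iff]
  rintro f -
  -- delta functions
  have hdelta : ∀ b : P, (Pi.single b (1 : K) : P → K) ∈
      G (K := K) (atom p x) awt (∑ i : Fin k, r * ((p - 1) * ((i : ℕ) + 1)) + 1) := by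
    intro b
    have hprod : (Pi.single b (1 : K) : P → K) =
        ∏ i : Fin k, (1 - (x i - fun _ => x i b) ^ (Fintype.card K - 1)) := by
      funext g
      rw [Finset.prod_apply]
      by_cases h : g = b
      · subst h
        rw [Pi.single_eq_same]
        symm
        apply Finset.prod_eq_one
        intro i _
        have h0 : Fintype.card K - 1 ≠ 0 := by
          have := Fintype.one_lt_card (α := K); omega
        simp [h0]
      · rw [Pi.single_eq_of_ne h]
        symm
        have : ∃ i, x i g ≠ x i b := by
          by_contra hcon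
          push Not at hcon
          exact h (hinj (funext hcon))
        obtain ⟨i, hi⟩ := this
        apply Finset.prod_eq_zero (Finset.mem_univ i)
        have := FiniteField.pow_card_sub_one_eq_one (x i g - x i b) (sub_ne_zero.mpr hi)
        simp [this]
    rw [hprod]
    refine prod_mem_G_finset _ _ _ ?_
    intro i _
    -- (y)^(p^r - 1) = prod_e (y^(p^e))^(p-1)
    have hgeom : ∀ y : P → K, y ^ (p ^ r - 1) = ∏ e ∈ Finset.range r, (y ^ (p ^ e)) ^ (p - 1) := by
      intro y
      have hsum : ∀ r : ℕ, ∑ e ∈ Finset.range r, p ^ e * (p - 1) = p ^ r - 1 := by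
        intro r
        have hp1 : 1 ≤ p := hp.out.one_lt.le
        have h1 : ∀ r : ℕ, ∑ e ∈ Finset.range r, p ^ e * (p - 1) + 1 = p ^ r := by
          intro r
          induction r with
          | zero => simp
          | succ r ih =>
            rw [Finset.sum_range_succ]
            have : p ^ (r + 1) = p ^ r + p ^ r * (p - 1) := by
              obtain ⟨m, rfl⟩ := Nat.exists_eq_add_of_le hp1
              rw [Nat.add_sub_cancel_left]; ring
            omega
        have := h1 r
        omega
      rw [← hsum r, ← Finset.prod_pow_eq_pow_sum]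
      refine Finset.prod_congr rfl (fun e _ => ?_)
      rw [pow_mul]
    rw [hr, hgeom]
    refine Submodule.sub_mem _ (one_mem_G (by omega)) ?_
    have hle : r * ((p - 1) * ((i : ℕ) + 1)) = ∑ e ∈ Finset.range r, (p - 1) * ((i : ℕ) + 1) := by
      rw [Finset.sum_const, Finset.card_range, smul_eq_mul]
    rw [hle]
    refine prod_mem_G_finset _ _ _ ?_
    intro e _
    refine pow_mem_G ?_ _
    rw [sub_pow_char_pow]
    refine Submodule.sub_mem _ ?_ ?_
    · have : (x i) ^ (p ^ e) = atom p x (i, e) := rfl
      rw [this]
      exact atom_mem_G _ (by simp [awt])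
    · have : ((fun _ => x i b : P → K)) ^ (p ^ e) = ((x i b) ^ (p ^ e)) • (1 : P → K) := by
        funext g; simp
      rw [this]
      exact Submodule.smul_mem _ _ (one_mem_G (by omega))
  have hf : f = ∑ b : P, f b • (Pi.single b (1 : K) : P → K) := by
    funext g
    simp [Finset.sum_apply, Pi.single_apply]
  rw [hf]
  exact Submodule.sum_mem _ (fun b _ => Submodule.smul_mem _ _ (hdelta b))

end Fun

/-- A sufficient criterion (truncated skew polynomials `1 + Σ x_i τ^(i+1)` and their subgroups):
right translations are affine triangular in the coordinates. -/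
theorem tri_of_affine {K : Type*} [Field K] {P : Type*} [Group P] (p : ℕ) {k : ℕ}
    {x : Fin k → P → K}
    (h : ∀ (γ : P) (i : Fin k), ∃ (c : K) (d : Fin k → K), ∀ g : P,
      x i (g * γ) = x i g + c + ∑ j ∈ Finset.univ.filter (· < i), d j * x j g) :
    Tri p x := by
  intro γ i
  obtain ⟨c, d, hcd⟩ := h γ i
  have heq : rt γ (x i) - x i
      = c • (1 : P → K) + ∑ j ∈ Finset.univ.filter (· < i), d j • atom p x (j, 0) := by
    funext g
    simp only [Pi.sub_apply, rt_apply, Pi.add_apply, Pi.smul_apply, Pi.one_apply, smul_eq_mul,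
      mul_one, Finset.sum_apply, atom, pow_zero, pow_one]
    rw [hcd g]; ring
  rw [heq]
  refine Submodule.add_mem _ (Submodule.smul_mem _ _ (Submodule.subset_span (Set.mem_insert _ _))) ?_
  refine Submodule.sum_mem _ (fun j hj => Submodule.smul_mem _ _ (Submodule.subset_span ?_))
  exact Set.mem_insert_of_mem _ ⟨j, (Finset.mem_filter.mp hj).2, 0, rfl⟩

/-! ### 3. The group ring -/

section Ring

variable {K : Type*} [Field K] {P : Type*} [Group P]

/-- augmentation -/
noncomputable def aug (K : Type*) [Field K] (P : Type*) [Group P] : MonoidAlgebra K P →ₐ[K] K :=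
  MonoidAlgebra.lift K K P 1

/-- augmentation ideal, as a `K`-subspace of the group ring -/
noncomputable def J (K : Type*) [Field K] (P : Type*) [Group P] : Submodule K (MonoidAlgebra K P) :=
  LinearMap.ker (aug K P).toLinearMap

@[simp] theorem aug_single (γ : P) (c : K) : aug K P (MonoidAlgebra.single γ c) = c := by
  rw [aug, MonoidAlgebra.lift_single]; simp

theorem mem_J {a : MonoidAlgebra K P} : a ∈ J K P ↔ aug K P a = 0 := Iff.rfl

theorem single_sub_one_mem_J (γ : P) :
    (MonoidAlgebra.single γ 1 - 1 : MonoidAlgebra K P) ∈ J K P := by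
  rw [mem_J, map_sub, aug_single, map_one, sub_self]

/-- the group ring acts on functions by right translations -/
noncomputable def act (K : Type*) [Field K] (P : Type*) [Group P] :
    MonoidAlgebra K P →ₐ[K] Module.End K (P → K) :=
  MonoidAlgebra.lift K (Module.End K (P → K)) P
    { toFun := fun γ => (rt γ).toLinearMap
      map_one' := by
        apply LinearMap.ext
        intro f
        funext g
        simp
      map_mul' := by
        intro a b
        apply LinearMap.ext
        intro f
        funext g
        simp [mul_assoc] }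

@[simp] theorem act_single (γ : P) (c : K) (f : P → K) :
    act K P (MonoidAlgebra.single γ c) f = c • rt γ f := by
  rw [act, MonoidAlgebra.lift_single]; rfl

theorem act_one_apply (a : MonoidAlgebra K P) (h : P) [DecidableEq P] :
    act K P a (Pi.single h 1) 1 = a.coeff h := by
  induction a using MonoidAlgebra.induction_linear with
  | zero => simp
  | add a b ha hb =>
    rw [map_add, LinearMap.add_apply, Pi.add_apply, ha, hb, MonoidAlgebra.coeff_add]; rfl
  | single γ c =>
    rw [act_single]
    simp only [Pi.smul_apply, rt_apply, one_mul, smul_eq_mul, MonoidAlgebra.coeff_single]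
    by_cases hh : γ = h
    · subst hh; simp
    · rw [Pi.single_eq_of_ne hh, Finsupp.single_eq_of_ne (Ne.symm hh)]; simp

theorem act_injective : Function.Injective (act K P) := by
  classical
  intro a b hab
  apply MonoidAlgebra.ext
  ext h
  rw [← act_one_apply a h, ← act_one_apply b h, hab]

variable {p : ℕ} {k : ℕ} {x : Fin k → P → K}

/-- elements of the augmentation ideal lower the filtration -/
theorem act_lower [hp : Fact p.Prime] [CharP K p] (hx : Tri p x) {n : ℕ} {f : P → K}
    (hf : f ∈ G (K := K) (atom p x) awt (n + 1)) {a : MonoidAlgebra K P} (ha : a ∈ J K P) :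
    act K P a f ∈ G (K := K) (atom p x) awt n := by
  have key : ∀ a : MonoidAlgebra K P,
      act K P a f - aug K P a • f ∈ G (K := K) (atom p x) awt n := by
    intro a
    induction a using MonoidAlgebra.induction_linear with
    | zero => simp
    | add a b ha hb =>
      have : act K P (a + b) f - aug K P (a + b) • f
          = (act K P a f - aug K P a • f) + (act K P b f - aug K P b • f) := by
        rw [map_add, map_add, LinearMap.add_apply, add_smul]; abel
      rw [this]; exact Submodule.add_mem _ ha hb
    | single γ c =>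
      rw [act_single, aug_single, ← smul_sub]
      exact Submodule.smul_mem _ _ (lower (rt γ) (rt_atom_sub hx γ) hf)
  have := key a
  rwa [mem_J.mp ha, zero_smul, sub_zero] at this

theorem act_pow_lower [hp : Fact p.Prime] [CharP K p] (hx : Tri p x) {m : ℕ}
    {a : MonoidAlgebra K P} (ha : a ∈ J K P ^ m) :
    ∀ {n : ℕ} {f : P → K}, f ∈ G (K := K) (atom p x) awt (n + m) →
      act K P a f ∈ G (K := K) (atom p x) awt n := by
  induction ha using Submodule.pow_induction_on_left' with
  | algebraMap c =>
    intro n f hf
    rw [AlgHom.commutes]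
    exact Submodule.smul_mem _ _ hf
  | add a b i _ _ ha hb =>
    intro n f hf
    rw [map_add, LinearMap.add_apply]
    exact Submodule.add_mem _ (ha hf) (hb hf)
  | mem_mul m hm i a _ ih =>
    intro n f hf
    rw [map_mul, Module.End.mul_apply]
    refine act_lower hx ?_ hm
    exact ih (by rw [add_assoc, add_comm 1 i]; exact hf)

/-- **nilpotency of the augmentation ideal** -/
theorem J_pow_eq_bot [hp : Fact p.Prime] [CharP K p] [Fintype K] [Finite P] (r : ℕ)
    (hr : Fintype.card K = p ^ r) (hinj : Function.Injective (fun g i => x i g)) (hx : Tri p x) :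
    J K P ^ (∑ i : Fin k, r * ((p - 1) * ((i : ℕ) + 1)) + 1) = ⊥ := by
  rw [eq_bot_iff]
  intro a ha
  rw [Submodule.mem_bot]
  apply act_injective
  apply LinearMap.ext
  intro f
  have hf : f ∈ G (K := K) (atom p x) awt
      (0 + (∑ i : Fin k, r * ((p - 1) * ((i : ℕ) + 1)) + 1)) := by
    rw [zero_add, G_top r hr hinj]; trivial
  have := act_pow_lower hx ha hf
  rw [G_zero, Submodule.mem_bot] at this
  rw [this, map_zero]; rfl

/-- closed form of the exponent -/
theorem exponent_eq (r p k : ℕ) :
    2 * ∑ i : Fin k, r * ((p - 1) * ((i : ℕ) + 1)) = r * ((p - 1) * (k * (k + 1))) := by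
  rw [← Finset.mul_sum, ← Finset.mul_sum]
  have : 2 * ∑ i : Fin k, ((i : ℕ) + 1) = k * (k + 1) := by
    induction k with
    | zero => simp
    | succ k ih =>
      rw [Fin.sum_univ_castSucc]
      simp only [Fin.val_castSucc, Fin.val_last]
      rw [mul_add, ih]; ring
  rw [← this]; ring

/-! ### 4. Matrices with entries in a nilpotent subspace, Neumann series -/

theorem matrix_pow_mem {R : Type*} [Ring R] [Algebra K R] (I : Submodule K R)
    {n : Type*} [Fintype n] [DecidableEq n] (N : Matrix n n R) (hN : ∀ i j, N i j ∈ I) (m : ℕ) :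
    ∀ i j, (N ^ m) i j ∈ I ^ m := by
  induction m with
  | zero =>
    intro i j
    rw [pow_zero, pow_zero, Matrix.one_apply]
    split_ifs
    · exact Submodule.one_le.mp le_rfl
    · exact Submodule.zero_mem _
  | succ m ih =>
    intro i j
    rw [pow_succ, pow_succ, Matrix.mul_apply]
    exact Submodule.sum_mem _ (fun l _ => Submodule.mul_mem_mul (ih i l) (hN l j))

theorem matrix_pow_eq_zero {R : Type*} [Ring R] [Algebra K R] (I : Submodule K R) {L : ℕ}
    (hI : I ^ L = ⊥) {n : Type*} [Fintype n] [DecidableEq n] (N : Matrix n n R)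
    (hN : ∀ i j, N i j ∈ I) : N ^ L = 0 := by
  ext i j
  have := matrix_pow_mem I N hN L i j
  rw [hI, Submodule.mem_bot] at this
  simpa using this

/-- Neumann series, both sides -/
theorem neumann {R : Type*} [Ring R] {L : ℕ} {N : R} (hN : N ^ L = 0) :
    (1 - N) * ∑ i ∈ Finset.range L, N ^ i = 1 ∧ (∑ i ∈ Finset.range L, N ^ i) * (1 - N) = 1 := by
  constructor
  · rw [mul_neg_geom_sum, hN, sub_zero]
  · rw [geom_sum_mul_neg, hN, sub_zero]

end Ring

end Crest.Agent.R289.AugNil322
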