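import Mathlib
import Crest.Agent.R289.AugNil_322

/-!
Row 289, mirror words (static zero test on `H` with `O(1)` unique auxiliary words, no extra factor).

Code `V = InV α γ`: words `f : T → S → K` with the right constraints
`∑ s, ∑ j, α i s j * f (g * γ j) s = 0` (all `i`, `g`); `α` absolute constants, `γ : J → T`.
`β = P α` with `P` a left inverse of the augmented columns `s ≠ s0`.
`MirRel β γ q U`: the pointwise relation (left translations by the `γ j` only) between a word `q`
and its mirror words `U s`, `s ≠ s0`.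
* `exists_P`: `P` exists as soon as a constant word of `V` vanishing at `s0` is zero
  (`base_of_inj`: follows from the injectivity of `V → Fun(T)` at one level);
* `mir_existsUnique`: `q` has exactly one family of mirror words (values in any `K`-module);
* `mir_word`: `g ↦ (ext q U) s g⁻¹` is the word of `V` with content `g ↦ q g⁻¹`;
* `mir_zero`, `mir_dense`: `q = 0` iff all `U s = 0`, otherwise at least `d` non-zero symbols;
* `MirRel.add`, `MirRel.sub`, `MirRel.map`: naturality (push formulas).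
-/

set_option autoImplicit false
set_option linter.unusedSectionVars false

namespace Crest.Agent.R289.Mirror545

open Finset

variable {K T S ι J M M' : Type*} [Field K] [Group T] [Fintype S] [DecidableEq S] [Fintype ι]
  [Fintype J] [AddCommGroup M] [Module K M] [AddCommGroup M'] [Module K M']

/-- words of `V` -/
def InV (α : ι → S → J → K) (γ : J → T) (f : T → S → K) : Prop :=
  ∀ i g, ∑ s, ∑ j, α i s j * f (g * γ j) s = 0

/-- the family `U` completed by `q` at `s0` -/
def ext {X : Type*} (s0 : S) (q : X) (U : {s : S // s ≠ s0} → X) (s : S) : X :=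
  if h : s = s0 then q else U ⟨s, h⟩

@[simp] theorem ext_s0 {X : Type*} (s0 : S) (q : X) (U : {s : S // s ≠ s0} → X) :
    ext s0 q U s0 = q := by simp [ext]

@[simp] theorem ext_ne {X : Type*} (s0 : S) (q : X) (U : {s : S // s ≠ s0} → X)
    (s : {s : S // s ≠ s0}) : ext s0 q U s.1 = U s := by
  simp [ext, s.2]

/-- coefficients of the mirror relation -/
def bet (s0 : S) (α : ι → S → J → K) (P : {s : S // s ≠ s0} → ι → K)
    (c : {s : S // s ≠ s0}) (s : S) (j : J) : K := ∑ i, P c i * α i s j

/-- `P` is a left inverse of the augmented columns `s ≠ s0` -/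
def IsP (s0 : S) (α : ι → S → J → K) (P : {s : S // s ≠ s0} → ι → K) : Prop :=
  ∀ c s : {s : S // s ≠ s0}, ∑ j, bet s0 α P c s.1 j = if c = s then 1 else 0

/-- the mirror relation: pointwise, left translations by the `γ j` -/
def MirRel (s0 : S) (β : {s : S // s ≠ s0} → S → J → K) (γ : J → T) (q : T → M)
    (U : {s : S // s ≠ s0} → T → M) : Prop :=
  ∀ c g, ∑ s, ∑ j, β c s j • ext s0 q U s ((γ j)⁻¹ * g) = 0

/-! ### linear algebra at the base -/

theorem exists_P (s0 : S) (α : ι → S → J → K)
    (hbase : ∀ x : S → K, (∀ i, ∑ s, (∑ j, α i s j) * x s = 0) → x s0 = 0 → x = 0) :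
    ∃ P, IsP s0 α P := by
  classical
  let A : Matrix ι {s : S // s ≠ s0} K := fun i s => ∑ j, α i s.1 j
  have hinj : Function.Injective (Matrix.toLin' A) := by
    rw [← LinearMap.ker_eq_bot, LinearMap.ker_eq_bot']
    intro y hy
    have h := hbase (ext s0 0 y) (fun i => ?_) (by simp)
    · funext s
      have := congrFun h s.1
      simpa using this
    · have h1 := congrFun hy i
      rw [Matrix.toLin'_apply] at h1
      have h2 : ∑ s, (∑ j, α i s j) * ext s0 0 y s
          = ∑ s : {s : S // s ≠ s0}, (∑ j, α i s.1 j) * y s := by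
        rw [← Finset.add_sum_erase _ _ (Finset.mem_univ s0)]
        simp only [ext_s0, mul_zero, zero_add]
        rw [Finset.sum_subtype (univ.erase s0) (p := fun s => s ≠ s0) (by simp)]
        exact Finset.sum_congr rfl fun s _ => by rw [ext_ne]
      rw [h2]
      simpa [Matrix.mulVec, dotProduct, A] using h1
  obtain ⟨g, hg⟩ := LinearMap.exists_leftInverse_of_injective (Matrix.toLin' A)
    (LinearMap.ker_eq_bot.2 hinj)
  refine ⟨fun c i => LinearMap.toMatrix' g c i, fun c s => ?_⟩
  have h1 : LinearMap.toMatrix' g * A = 1 := by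
    have := congrArg LinearMap.toMatrix' hg
    rwa [LinearMap.toMatrix'_comp, LinearMap.toMatrix'_toLin', LinearMap.toMatrix'_id] at this
  have h2 := congrFun (congrFun h1 c) s
  rw [Matrix.mul_apply, Matrix.one_apply] at h2
  rw [← h2]
  simp only [bet]
  rw [Finset.sum_comm]
  exact Finset.sum_congr rfl fun i _ => by rw [← Finset.mul_sum]

theorem base_of_inj (s0 : S) (α : ι → S → J → K) (γ : J → T)
    (hinj : ∀ f : T → S → K, InV α γ f → (∀ g, f g s0 = 0) → f = 0) :
    ∀ x : S → K, (∀ i, ∑ s, (∑ j, α i s j) * x s = 0) → x s0 = 0 → x = 0 := by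
  intro x hx h0
  have h := hinj (fun _ => x) (fun i g => ?_) (fun _ => h0)
  · exact congrFun h 1
  · rw [← hx i]
    exact Finset.sum_congr rfl fun s _ => by rw [Finset.sum_mul]

/-! ### the group ring acting by left translations -/

section action

/-- left translation -/
def lt (K M : Type*) {T : Type*} [Field K] [Group T] [AddCommGroup M] [Module K M] (g : T) :
    Module.End K (T → M) where
  toFun u := fun x => u (g⁻¹ * x)
  map_add' _ _ := rfl
  map_smul' _ _ := rfl

@[simp] theorem lt_apply (g : T) (u : T → M) (x : T) : lt K M g u x = u (g⁻¹ * x) := rfl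

/-- `K[T]` acting on `T → M` by left translations -/
noncomputable def act (K M T : Type*) [Field K] [Group T] [AddCommGroup M] [Module K M] :
    MonoidAlgebra K T →ₐ[K] Module.End K (T → M) :=
  MonoidAlgebra.lift K (Module.End K (T → M)) T
    { toFun := fun g => lt K M g
      map_one' := by ext u x; simp
      map_mul' := fun g h => by
        apply LinearMap.ext
        intro u
        funext x
        simp [mul_assoc] }

@[simp] theorem act_single (g : T) (c : K) (u : T → M) (x : T) :
    act K M T (MonoidAlgebra.single g c) u x = c • u (g⁻¹ * x) := by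
  simp [act, MonoidAlgebra.lift_single]

/-- matrix over `End W` acting on families -/
def opM {R W : Type*} [Fintype R] [AddCommGroup W] [Module K W]
    (X : Matrix R R (Module.End K W)) (U : R → W) (c : R) : W := ∑ s, X c s (U s)

theorem opM_mul {R W : Type*} [Fintype R] [AddCommGroup W] [Module K W]
    (X Y : Matrix R R (Module.End K W)) (U : R → W) : opM (X * Y) U = opM X (opM Y U) := by
  funext c
  simp only [opM, Matrix.mul_apply, LinearMap.sum_apply, Module.End.mul_apply, map_sum]
  exact Finset.sum_comm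

theorem opM_one {R W : Type*} [Fintype R] [DecidableEq R] [AddCommGroup W] [Module K W]
    (U : R → W) : opM (1 : Matrix R R (Module.End K W)) U = U := by
  funext c
  simp only [opM, Matrix.one_apply]
  rw [Finset.sum_eq_single c]
  · simp
  · intro s _ hs
    rw [if_neg (Ne.symm hs)]; rfl
  · intro h; exact absurd (Finset.mem_univ c) h

end action

/-! ### existence and uniqueness of the mirror words -/

/-- the matrix of the relation over `K[T]` -/
noncomputable def BR (s0 : S) (β : {s : S // s ≠ s0} → S → J → K) (γ : J → T) :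
    Matrix {s : S // s ≠ s0} {s : S // s ≠ s0} (MonoidAlgebra K T) :=
  fun c s => ∑ j, MonoidAlgebra.single (γ j) (β c s.1 j)

theorem opM_BR (s0 : S) (β : {s : S // s ≠ s0} → S → J → K) (γ : J → T)
    (U : {s : S // s ≠ s0} → T → M) (c : {s : S // s ≠ s0}) (g : T) :
    opM ((BR s0 β γ).map (act K M T)) U c g
      = ∑ s : {s : S // s ≠ s0}, ∑ j, β c s.1 j • U s ((γ j)⁻¹ * g) := by
  simp only [opM, Finset.sum_apply, Matrix.map_apply, BR, map_sum, LinearMap.sum_apply,
    act_single]

theorem sum_ext (s0 : S) (β : {s : S // s ≠ s0} → S → J → K) (γ : J → T) (q : T → M)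
    (U : {s : S // s ≠ s0} → T → M) (c : {s : S // s ≠ s0}) (g : T) :
    ∑ s, ∑ j, β c s j • ext s0 q U s ((γ j)⁻¹ * g)
      = ∑ j, β c s0 j • q ((γ j)⁻¹ * g)
        + ∑ s : {s : S // s ≠ s0}, ∑ j, β c s.1 j • U s ((γ j)⁻¹ * g) := by
  rw [← Finset.add_sum_erase _ _ (Finset.mem_univ s0)]
  congr 1
  · simp
  · rw [Finset.sum_subtype (univ.erase s0) (p := fun s => s ≠ s0) (by simp)]
    exact Finset.sum_congr rfl fun s _ => by rw [ext_ne]

theorem mirRel_iff (s0 : S) (β : {s : S // s ≠ s0} → S → J → K) (γ : J → T) (q : T → M)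
    (U : {s : S // s ≠ s0} → T → M) :
    MirRel s0 β γ q U ↔ opM ((BR s0 β γ).map (act K M T)) U
      = fun c g => - ∑ j, β c s0 j • q ((γ j)⁻¹ * g) := by
  constructor
  · intro h
    funext c g
    rw [opM_BR]
    have := h c g
    rw [sum_ext] at this
    exact eq_neg_of_add_eq_zero_right this
  · intro h c g
    rw [sum_ext]
    have := congrFun (congrFun h c) g
    rw [opM_BR] at this
    rw [this]
    exact add_neg_cancel _

open AugNil322 in
/-- the matrix of the relation is invertible -/
theorem BR_inv (s0 : S) (α : ι → S → J → K) (P : {s : S // s ≠ s0} → ι → K) (hP : IsP s0 α P)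
    (γ : J → T) {L : ℕ} (hL : AugNil322.J K T ^ L = ⊥) :
    ∃ Y : Matrix {s : S // s ≠ s0} {s : S // s ≠ s0} (MonoidAlgebra K T),
      BR s0 (bet s0 α P) γ * Y = 1 ∧ Y * BR s0 (bet s0 α P) γ = 1 := by
  classical
  set B := BR s0 (bet s0 α P) γ with hB
  have hN : ∀ c s, (1 - B) c s ∈ AugNil322.J K T := by
    intro c s
    rw [mem_J, Matrix.sub_apply, map_sub]
    have h1 : aug K T (B c s) = if c = s then 1 else 0 := by
      rw [← hP c s, hB]
      simp only [BR, map_sum, aug_single]
    rw [h1, Matrix.one_apply]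
    split_ifs <;> simp
  have h0 := matrix_pow_eq_zero (K := K) (AugNil322.J K T) hL (1 - B) hN
  obtain ⟨h1, h2⟩ := neumann h0
  rw [sub_sub_cancel] at h1 h2
  exact ⟨_, h1, h2⟩

/-- **every word has exactly one family of mirror words** -/
theorem mir_existsUnique (s0 : S) (α : ι → S → J → K) (P : {s : S // s ≠ s0} → ι → K)
    (hP : IsP s0 α P) (γ : J → T) {L : ℕ} (hL : AugNil322.J K T ^ L = ⊥) (q : T → M) :
    ∃! U : {s : S // s ≠ s0} → T → M, MirRel s0 (bet s0 α P) γ q U := by
  classical
  obtain ⟨Y, h1, h2⟩ := BR_inv s0 α P hP γ hL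
  have h1' : (BR s0 (bet s0 α P) γ).map (act K M T) * Y.map (act K M T) = 1 := by
    rw [← Matrix.map_mul, h1, Matrix.map_one _ (map_zero _) (map_one _)]
  have h2' : Y.map (act K M T) * (BR s0 (bet s0 α P) γ).map (act K M T) = 1 := by
    rw [← Matrix.map_mul, h2, Matrix.map_one _ (map_zero _) (map_one _)]
  refine ⟨opM (Y.map (act K M T)) (fun c g => - ∑ j, bet s0 α P c s0 j • q ((γ j)⁻¹ * g)), ?_, ?_⟩
  · show MirRel _ _ _ _ _
    rw [mirRel_iff, ← opM_mul, h1', opM_one]
  · intro U hU
    have hU' : MirRel s0 (bet s0 α P) γ q U := hU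
    rw [mirRel_iff] at hU'
    rw [← hU', ← opM_mul, h2', opM_one]

/-- uniqueness in usable form -/
theorem mir_unique (s0 : S) (α : ι → S → J → K) (P : {s : S // s ≠ s0} → ι → K)
    (hP : IsP s0 α P) (γ : J → T) {L : ℕ} (hL : AugNil322.J K T ^ L = ⊥) {q : T → M}
    {U U' : {s : S // s ≠ s0} → T → M} (h : MirRel s0 (bet s0 α P) γ q U)
    (h' : MirRel s0 (bet s0 α P) γ q U') : U = U' :=
  (mir_existsUnique s0 α P hP γ hL q).unique h h'

/-! ### naturality -/

theorem MirRel.map {s0 : S} {β : {s : S // s ≠ s0} → S → J → K} {γ : J → T} {q : T → M}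
    {U : {s : S // s ≠ s0} → T → M} (h : MirRel s0 β γ q U) (φ : M →ₗ[K] M') :
    MirRel s0 β γ (fun g => φ (q g)) (fun s g => φ (U s g)) := by
  intro c g
  have h1 := congrArg φ (h c g)
  rw [map_zero] at h1
  rw [← h1, map_sum]
  refine Finset.sum_congr rfl fun s _ => ?_
  rw [map_sum]
  refine Finset.sum_congr rfl fun j _ => ?_
  rw [map_smul]
  congr 1
  unfold ext
  split_ifs <;> rfl

theorem MirRel.add {s0 : S} {β : {s : S // s ≠ s0} → S → J → K} {γ : J → T} {q q' : T → M}
    {U U' : {s : S // s ≠ s0} → T → M} (h : MirRel s0 β γ q U) (h' : MirRel s0 β γ q' U') :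
    MirRel s0 β γ (fun g => q g + q' g) (fun s g => U s g + U' s g) := by
  intro c g
  have h1 := h c g
  have h2 := h' c g
  have : ∑ s, ∑ j, β c s j • ext s0 (fun g => q g + q' g) (fun s g => U s g + U' s g) s
        ((γ j)⁻¹ * g)
      = ∑ s, ∑ j, β c s j • ext s0 q U s ((γ j)⁻¹ * g)
        + ∑ s, ∑ j, β c s j • ext s0 q' U' s ((γ j)⁻¹ * g) := by
    rw [← Finset.sum_add_distrib]
    refine Finset.sum_congr rfl fun s _ => ?_
    rw [← Finset.sum_add_distrib]
    refine Finset.sum_congr rfl fun j _ => ?_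
    rw [← smul_add]
    congr 1
    unfold ext
    split_ifs <;> rfl
  rw [this, h1, h2, add_zero]

theorem MirRel.neg {s0 : S} {β : {s : S // s ≠ s0} → S → J → K} {γ : J → T} {q : T → M}
    {U : {s : S // s ≠ s0} → T → M} (h : MirRel s0 β γ q U) :
    MirRel s0 β γ (fun g => - q g) (fun s g => - U s g) :=
  h.map (-LinearMap.id)

theorem MirRel.zero (s0 : S) (β : {s : S // s ≠ s0} → S → J → K) (γ : J → T) :
    MirRel s0 β γ (fun _ => (0 : M)) (fun _ _ => 0) := by
  intro c g
  refine Finset.sum_eq_zero fun s _ => Finset.sum_eq_zero fun j _ => ?_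
  have : ext s0 (fun _ : T => (0 : M)) (fun _ _ => 0) s ((γ j)⁻¹ * g) = 0 := by
    unfold ext
    split_ifs <;> rfl
  rw [this, smul_zero]

/-! ### the mirror words are a word of `V` read backwards -/

/-- **Lemma M** -/
theorem mir_word (s0 : S) (α : ι → S → J → K) (P : {s : S // s ≠ s0} → ι → K)
    (hP : IsP s0 α P) (γ : J → T) {L : ℕ} (hL : AugNil322.J K T ^ L = ⊥)
    (hsurj : ∀ c : T → K, ∃ f : T → S → K, InV α γ f ∧ ∀ g, f g s0 = c g)
    {q : T → K} {U : {s : S // s ≠ s0} → T → K} (h : MirRel s0 (bet s0 α P) γ q U) :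
    InV α γ (fun g s => ext s0 q U s g⁻¹) := by
  classical
  obtain ⟨f, hf, hc⟩ := hsurj (fun g => q g⁻¹)
  have hU : MirRel s0 (bet s0 α P) γ q (fun s g => f g⁻¹ s.1) := by
    intro c g
    have he : ∀ s : S, ∀ x : T,
        ext s0 q (fun (s : {s : S // s ≠ s0}) g => f g⁻¹ s.1) s x = f x⁻¹ s := by
      intro s x
      by_cases hs : s = s0
      · subst hs
        rw [ext_s0, hc, inv_inv]
      · exact congrFun (ext_ne s0 q (fun (s : {s : S // s ≠ s0}) g => f g⁻¹ s.1) ⟨s, hs⟩) x
    have h1 : ∑ s, ∑ j, bet s0 α P c s j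
          • ext s0 q (fun (s : {s : S // s ≠ s0}) g => f g⁻¹ s.1) s ((γ j)⁻¹ * g)
        = ∑ i, P c i * ∑ s, ∑ j, α i s j * f (g⁻¹ * γ j) s := by
      calc _ = ∑ s, ∑ j, ∑ i, P c i * (α i s j * f (g⁻¹ * γ j) s) := by
            refine Finset.sum_congr rfl fun s _ => Finset.sum_congr rfl fun j _ => ?_
            rw [he, bet, smul_eq_mul, Finset.sum_mul]
            refine Finset.sum_congr rfl fun i _ => ?_
            rw [mul_inv_rev, inv_inv, mul_assoc]
        _ = ∑ s, ∑ i, ∑ j, P c i * (α i s j * f (g⁻¹ * γ j) s) :=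
            Finset.sum_congr rfl fun s _ => Finset.sum_comm
        _ = ∑ i, ∑ s, ∑ j, P c i * (α i s j * f (g⁻¹ * γ j) s) := Finset.sum_comm
        _ = _ := by
            refine Finset.sum_congr rfl fun i _ => ?_
            rw [Finset.mul_sum]
            refine Finset.sum_congr rfl fun s _ => ?_
            rw [Finset.mul_sum]
    rw [h1]
    exact Finset.sum_eq_zero fun i _ => by rw [hf i g⁻¹, mul_zero]
  have hUU := mir_unique s0 α P hP γ hL h hU
  have : (fun g s => ext s0 q U s g⁻¹) = f := by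
    funext g s
    by_cases hs : s = s0
    · subst hs
      rw [ext_s0, hc]
    · have := congrFun (ext_ne s0 q U ⟨s, hs⟩) g⁻¹
      rw [this, hUU]
      simp
  rw [this]
  exact hf

/-- mirror words of zero are zero -/
theorem mir_zero (s0 : S) (α : ι → S → J → K) (P : {s : S // s ≠ s0} → ι → K)
    (hP : IsP s0 α P) (γ : J → T) {L : ℕ} (hL : AugNil322.J K T ^ L = ⊥)
    {q : T → M} {U : {s : S // s ≠ s0} → T → M} (h : MirRel s0 (bet s0 α P) γ q U)
    (hq : ∀ g, q g = 0) : ∀ s g, U s g = 0 := by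
  have hq' : q = fun _ => 0 := funext hq
  subst hq'
  have := mir_unique s0 α P hP γ hL h (MirRel.zero s0 _ γ)
  intro s g
  rw [this]

/-- **density**: if the content is not zero at one address, at least `d` of the symbols
`ext q U s g` are not zero -/
theorem mir_dense [Fintype T] (s0 : S) (α : ι → S → J → K) (P : {s : S // s ≠ s0} → ι → K)
    (hP : IsP s0 α P) (γ : J → T) {L : ℕ} (hL : AugNil322.J K T ^ L = ⊥)
    (hsurj : ∀ c : T → K, ∃ f : T → S → K, InV α γ f ∧ ∀ g, f g s0 = c g)
    {d : ℕ} (hd : ∀ f : T → S → K, InV α γ f → f ≠ 0 →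
      d ≤ Nat.card {x : T × S // f x.1 x.2 ≠ 0})
    {q : T → M} {U : {s : S // s ≠ s0} → T → M} (h : MirRel s0 (bet s0 α P) γ q U)
    (hq : ∃ g, q g ≠ 0) :
    d ≤ Nat.card {x : T × S // ext s0 q U x.2 x.1 ≠ 0} := by
  classical
  obtain ⟨g0, hg0⟩ := hq
  obtain ⟨φ, hφ⟩ : ∃ φ : Module.Dual K M, φ (q g0) ≠ 0 := by
    by_contra hcon
    push Not at hcon
    exact hg0 ((Module.forall_dual_apply_eq_zero_iff K (q g0)).1 hcon)
  have hmap := h.map φ
  have hV := mir_word s0 α P hP γ hL hsurj hmap
  have hne : (fun (g : T) s => ext s0 (fun g => φ (q g)) (fun s g => φ (U s g)) s g⁻¹) ≠ 0 := by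
    intro h0
    have := congrFun (congrFun h0 g0⁻¹) s0
    simp only [ext_s0, inv_inv, Pi.zero_apply] at this
    exact hφ this
  refine (hd _ hV hne).trans ?_
  refine Nat.card_le_card_of_injective
    (fun x : {x : T × S // ext s0 (fun g => φ (q g)) (fun s g => φ (U s g)) x.2 x.1⁻¹ ≠ 0} =>
      (⟨(x.1.1⁻¹, x.1.2), ?_⟩ : {x : T × S // ext s0 q U x.2 x.1 ≠ 0})) ?_
  · intro h0
    apply x.2
    have h0' : ext s0 q U x.1.2 x.1.1⁻¹ = 0 := h0
    have : ext s0 (fun g => φ (q g)) (fun s g => φ (U s g)) x.1.2 x.1.1⁻¹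
        = φ (ext s0 q U x.1.2 x.1.1⁻¹) := by
      unfold ext
      split_ifs <;> rfl
    rw [this, h0', map_zero]
  · intro x y hxy
    have h1 := congrArg (fun z : {x : T × S // ext s0 q U x.2 x.1 ≠ 0} => z.1) hxy
    simp only [Prod.mk.injEq, inv_inj] at h1
    exact Subtype.ext (Prod.ext h1.1 h1.2)

end Crest.Agent.R289.Mirror545
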