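import Crest.Agent.R289.AsmObj_12
import Crest.Agent.R289.Mirror_545

/-!
# Row 289, assembly: what block C derives from one object (`Asm12.Obj`, `Obj.OK`)

* `Cm k d` : the code of degree `d` at level `k` as a `K`-submodule; products, left translations.
* `enc k` : the encoder `content ↦ word of V = Cm k 1`, linear, left equivariant; `content`.
* `alpha d`, `gam k` : the code as `Mirror545.InV` with absolute coefficients; `exists_IsP`.
* `dist_frac` : minimum distance.
-/

set_option autoImplicit false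

namespace Crest.Agent.R289.ObjApi12

open Finset Crest.Agent.Lib.PT Crest.Agent.R289.TP846 Crest.Agent.R289.Tan846
  Crest.Agent.R289.Asm12

variable (D : Obj)

/-- labels of lines -/
abbrev I (D : Obj) : Type := Option D.K

/-- words at level `k` -/
abbrev Wd (D : Obj) (k : ℕ) : Type := D.P k → I D → I D → D.K

/-! ### the code as a submodule -/

/-- the code of degree `d` at level `k` -/
def Cm (k d : ℕ) : Submodule D.K (Wd D k) where
  carrier := D.C k d
  add_mem' := by
    intro f g hf hg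
    exact ⟨fun j u z => (D.X d j z).add_mem (hf.1 j u z) (hg.1 j u z),
      fun i u w => (D.Y d i w).add_mem (hf.2 i u w) (hg.2 i u w)⟩
  zero_mem' := ⟨fun j _ z => (D.X d j z).zero_mem, fun i _ w => (D.Y d i w).zero_mem⟩
  smul_mem' := by
    intro c f hf
    exact ⟨fun j u z => (D.X d j z).smul_mem c (hf.1 j u z),
      fun i u w => (D.Y d i w).smul_mem c (hf.2 i u w)⟩

variable {D}

theorem mem_Cm {k d : ℕ} {f : Wd D k} : f ∈ Cm D k d ↔ f ∈ D.C k d := Iff.rfl

variable {M0 : ℕ} {lam0 Kr : ℝ}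

theorem mul_mem (h : D.OK M0 lam0 Kr) {k d d' : ℕ} {f g : Wd D k} (hf : f ∈ Cm D k d)
    (hg : g ∈ Cm D k d') : f * g ∈ Cm D k (d + d') :=
  ⟨fun j u z => h.mulX d d' j z _ _ (hf.1 j u z) (hg.1 j u z),
    fun i u w => h.mulY d d' i w _ _ (hf.2 i u w) (hg.2 i u w)⟩

/-- left translation -/
def ltr {k : ℕ} (u : D.P k) (f : Wd D k) : Wd D k := fun g => f (u⁻¹ * g)

theorem ltr_mem {k d : ℕ} (u : D.P k) {f : Wd D k} (hf : f ∈ Cm D k d) : ltr u f ∈ Cm D k d :=
  TP.tr_mem (D.tp k) u hf

/-! ### contents -/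

/-- content of a word -/
def cont {k : ℕ} (f : Wd D k) : D.P k → D.K := fun g => f g D.z0 D.w0

theorem cont_inj (h : D.OK M0 lam0 Kr) {k : ℕ} {f g : Wd D k} (hf : f ∈ Cm D k 1)
    (hg : g ∈ Cm D k 1) (he : ∀ u, cont f u = cont g u) : f = g :=
  (h.content k (cont g)).unique ⟨hf, he⟩ ⟨hg, fun _ => rfl⟩

/-- the word of `V` with a given content -/
noncomputable def enc (h : D.OK M0 lam0 Kr) (k : ℕ) (c : D.P k → D.K) : Wd D k :=
  (h.content k c).choose

theorem enc_mem (h : D.OK M0 lam0 Kr) (k : ℕ) (c : D.P k → D.K) : enc h k c ∈ Cm D k 1 :=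
  (h.content k c).choose_spec.1.1

@[simp] theorem cont_enc (h : D.OK M0 lam0 Kr) (k : ℕ) (c : D.P k → D.K) : cont (enc h k c) = c :=
  funext (h.content k c).choose_spec.1.2

theorem enc_cont (h : D.OK M0 lam0 Kr) {k : ℕ} {f : Wd D k} (hf : f ∈ Cm D k 1) :
    enc h k (cont f) = f :=
  cont_inj h (enc_mem h k _) hf fun u => congrFun (cont_enc h k _) u

/-- the encoder as a linear map -/
noncomputable def encL (h : D.OK M0 lam0 Kr) (k : ℕ) : (D.P k → D.K) →ₗ[D.K] Wd D k where
  toFun := enc h k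
  map_add' c c' := cont_inj h (enc_mem h k _)
    ((Cm D k 1).add_mem (enc_mem h k c) (enc_mem h k c')) fun u => by
      have h1 := congrFun (cont_enc h k (c + c')) u
      have h2 := congrFun (cont_enc h k c) u
      have h3 := congrFun (cont_enc h k c') u
      rw [h1]
      show c u + c' u = cont (enc h k c) u + cont (enc h k c') u
      rw [h2, h3]
  map_smul' a c := cont_inj h (enc_mem h k _)
    ((Cm D k 1).smul_mem a (enc_mem h k c)) fun u => by
      have h1 := congrFun (cont_enc h k (a • c)) u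
      have h2 := congrFun (cont_enc h k c) u
      rw [h1]
      show a * c u = a * cont (enc h k c) u
      rw [h2]

@[simp] theorem encL_apply (h : D.OK M0 lam0 Kr) (k : ℕ) (c : D.P k → D.K) :
    encL h k c = enc h k c := rfl

theorem cont_ltr {k : ℕ} (u : D.P k) (f : Wd D k) (g : D.P k) :
    cont (ltr u f) g = cont f (u⁻¹ * g) := rfl

theorem enc_ltr (h : D.OK M0 lam0 Kr) {k : ℕ} (u : D.P k) (c : D.P k → D.K) :
    enc h k (fun g => c (u⁻¹ * g)) = ltr u (enc h k c) :=
  cont_inj h (enc_mem h k _) (ltr_mem u (enc_mem h k c)) fun g => by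
    rw [cont_enc, cont_ltr, cont_enc]

/-- content of a product -/
theorem cont_mul {k : ℕ} (f g : Wd D k) (u : D.P k) : cont (f * g) u = cont f u * cont g u := rfl

/-- the word with content `1` -/
noncomputable def U1 (h : D.OK M0 lam0 Kr) (k : ℕ) : Wd D k := enc h k fun _ => 1

theorem U1_mem (h : D.OK M0 lam0 Kr) (k : ℕ) : U1 h k ∈ Cm D k 1 := enc_mem h k _

theorem cont_U1 (h : D.OK M0 lam0 Kr) (k : ℕ) (u : D.P k) : cont (U1 h k) u = 1 :=
  congrFun (cont_enc h k _) u

theorem U1_ltr (h : D.OK M0 lam0 Kr) (k : ℕ) (u : D.P k) : ltr u (U1 h k) = U1 h k :=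
  (enc_ltr h u fun _ => 1).symm

/-! ### constraints with absolute coefficients -/

/-- functionals that vanish on a code -/
def Ann {K J : Type} [Field K] [Fintype J] (V : Submodule K (J → K)) : Type :=
  {φ : J → K // ∀ u ∈ V, ∑ m, φ m * u m = 0}

noncomputable instance {K J : Type} [Field K] [Fintype K] [Fintype J] (V : Submodule K (J → K)) :
    Fintype (Ann V) := by
  classical
  unfold Ann
  exact Fintype.ofFinite _

theorem mem_iff_ann {K J : Type} [Field K] [Fintype J] (V : Submodule K (J → K)) (u : J → K) :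
    u ∈ V ↔ ∀ φ : Ann V, ∑ m, φ.1 m * u m = 0 := by
  classical
  constructor
  · intro hu φ
    exact φ.2 u hu
  · intro hall
    by_contra hu
    obtain ⟨f, hf, hV⟩ := Submodule.exists_le_ker_of_notMem hu
    have key : ∀ v : J → K, f v = ∑ m, f (Pi.single m 1) * v m := by
      intro v
      have hv : v = ∑ m, v m • (Pi.single m (1 : K) : J → K) := by
        funext i
        simp [Finset.sum_apply, Pi.single_apply]
      conv_lhs => rw [hv]
      rw [map_sum]
      refine Finset.sum_congr rfl fun m _ => ?_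
      rw [map_smul, smul_eq_mul, mul_comm]
    have := hall ⟨fun m => f (Pi.single m 1), fun v hv => by
      rw [← key v]
      exact LinearMap.mem_ker.1 (hV hv)⟩
    exact hf (by rw [key u]; exact this)

/-- absolute x-label of a square on its x-edge of type `j` -/
def xlA (D : Obj) (j : Bool) (l m : I D) : I D := if j then D.L l m else l

/-- absolute y-label of a square on its y-edge of type `i` -/
def ylA (D : Obj) (i : Bool) (l m : I D) : I D := if i then D.M l m else m

/-- index set of the constraints -/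
abbrev Cn (D : Obj) (d : ℕ) : Type :=
  (Σ jz : Bool × I D, Ann (D.X d jz.1 jz.2)) ⊕ (Σ iw : Bool × I D, Ann (D.Y d iw.1 iw.2))

/-- index set of the right steps -/
abbrev Rs (D : Obj) : Type := (Bool × I D) ⊕ (Bool × I D)

/-- right steps at level `k` -/
def gam (D : Obj) (k : ℕ) : Rs D → D.P k
  | .inl (j, m) => ((D.tp k).bj j m)⁻¹
  | .inr (i, l) => ((D.tp k).ai i l)⁻¹

open Classical in
/-- absolute coefficients of the constraints -/
noncomputable def alpha (D : Obj) (d : ℕ) : Cn D d → I D × I D → Rs D → D.K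
  | .inl ⟨(j, z), φ⟩, s, r => if r = .inl (j, s.2) ∧ xlA D j s.1 s.2 = z then φ.1 s.2 else 0
  | .inr ⟨(i, w), φ⟩, s, r => if r = .inr (i, s.1) ∧ ylA D i s.1 s.2 = w then φ.1 s.1 else 0

theorem sum_inl (h : D.OK M0 lam0 Kr) (k d : ℕ) (f : Wd D k) (j : Bool) (z : I D)
    (φ : Ann (D.X d j z)) (g : D.P k) :
    ∑ s : I D × I D, ∑ r, alpha D d (.inl ⟨(j, z), φ⟩) s r * f (g * gam D k r) s.1 s.2 =
      ∑ m, φ.1 m * TP.sq f ((D.tp k).sqX j g z m) := by
  classical
  have e1 : ∀ s : I D × I D,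
      ∑ r, alpha D d (.inl ⟨(j, z), φ⟩) s r * f (g * gam D k r) s.1 s.2 =
        if xlA D j s.1 s.2 = z then φ.1 s.2 * f (g * ((D.tp k).bj j s.2)⁻¹) s.1 s.2 else 0 := by
    intro s
    rw [Finset.sum_eq_single (Sum.inl (j, s.2))]
    · simp [alpha, gam]
    · intro r _ hr
      simp [alpha, hr]
    · intro hn
      exact absurd (Finset.mem_univ _) hn
  rw [Finset.sum_congr rfl fun s _ => e1 s, Fintype.sum_prod_type, Finset.sum_comm]
  refine Finset.sum_congr rfl fun m _ => ?_
  have hx : ∀ l, xlA D j l m = z ↔ l = (D.tp k).li j m z := by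
    intro l
    have e : xlA D j l m = (D.tp k).xl j l m := by
      unfold xlA TP.xl
      rw [h.L_eq k]
    rw [e]
    constructor
    · intro hl
      rw [← hl, TP.li_xl]
    · rintro rfl
      exact TP.xl_li _ _ _ _
  rw [Finset.sum_eq_single ((D.tp k).li j m z)]
  · rw [if_pos ((hx _).2 rfl)]
    rfl
  · intro l _ hl
    exact if_neg fun hc => hl ((hx l).1 hc)
  · intro hn
    exact absurd (Finset.mem_univ _) hn

theorem sum_inr (h : D.OK M0 lam0 Kr) (k d : ℕ) (f : Wd D k) (i : Bool) (w : I D)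
    (φ : Ann (D.Y d i w)) (g : D.P k) :
    ∑ s : I D × I D, ∑ r, alpha D d (.inr ⟨(i, w), φ⟩) s r * f (g * gam D k r) s.1 s.2 =
      ∑ l, φ.1 l * TP.sq f ((D.tp k).sqY i g w l) := by
  classical
  have e1 : ∀ s : I D × I D,
      ∑ r, alpha D d (.inr ⟨(i, w), φ⟩) s r * f (g * gam D k r) s.1 s.2 =
        if ylA D i s.1 s.2 = w then φ.1 s.1 * f (g * ((D.tp k).ai i s.1)⁻¹) s.1 s.2 else 0 := by
    intro s
    rw [Finset.sum_eq_single (Sum.inr (i, s.1))]
    · simp [alpha, gam]
    · intro r _ hr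
      simp [alpha, hr]
    · intro hn
      exact absurd (Finset.mem_univ _) hn
  rw [Finset.sum_congr rfl fun s _ => e1 s, Fintype.sum_prod_type]
  refine Finset.sum_congr rfl fun l _ => ?_
  have hx : ∀ m, ylA D i l m = w ↔ m = (D.tp k).mi i l w := by
    intro m
    have e : ylA D i l m = (D.tp k).yl i l m := by
      unfold ylA TP.yl
      rw [h.M_eq k]
    rw [e]
    constructor
    · intro hl
      rw [← hl, TP.mi_yl]
    · rintro rfl
      exact TP.yl_mi _ _ _ _
  rw [Finset.sum_eq_single ((D.tp k).mi i l w)]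
  · rw [if_pos ((hx _).2 rfl)]
    rfl
  · intro m _ hl
    exact if_neg fun hc => hl ((hx m).1 hc)
  · intro hn
    exact absurd (Finset.mem_univ _) hn

/-- **the code is `InV` with absolute coefficients** -/
theorem inV_iff (h : D.OK M0 lam0 Kr) (k d : ℕ) (f : Wd D k) :
    f ∈ Cm D k d ↔ Mirror545.InV (alpha D d) (gam D k) (fun g s => f g s.1 s.2) := by
  constructor
  · intro hf i g
    rcases i with ⟨⟨j, z⟩, φ⟩ | ⟨⟨i, w⟩, φ⟩
    · rw [sum_inl h]
      exact φ.2 _ (hf.1 j g z)
    · rw [sum_inr h]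
      exact φ.2 _ (hf.2 i g w)
  · intro hf
    refine ⟨fun j g z => ?_, fun i g w => ?_⟩
    · show (fun m => TP.sq f ((D.tp k).sqX j g z m)) ∈ D.X d j z
      rw [mem_iff_ann]
      intro φ
      rw [← sum_inl h]
      exact hf (.inl ⟨(j, z), φ⟩) g
    · show (fun l => TP.sq f ((D.tp k).sqY i g w l)) ∈ D.Y d i w
      rw [mem_iff_ann]
      intro φ
      rw [← sum_inr h]
      exact hf (.inr ⟨(i, w), φ⟩) g

/-- content symbol -/
abbrev s0 (D : Obj) : I D × I D := (D.z0, D.w0)

/-- the base fact, from the injectivity of contents at level `0` -/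
theorem base (h : D.OK M0 lam0 Kr) :
    ∀ x : I D × I D → D.K, (∀ i, ∑ s, (∑ r, alpha D 1 i s r) * x s = 0) → x (s0 D) = 0 →
      x = 0 := by
  refine Mirror545.base_of_inj (s0 D) (alpha D 1) (gam D 0) ?_
  intro f hf h0
  have h1 : (fun g l m => f g (l, m) : Wd D 0) ∈ Cm D 0 1 := (inV_iff h 0 1 _).2 hf
  have h2 : (fun g l m => f g (l, m) : Wd D 0) = 0 :=
    cont_inj h h1 (Cm D 0 1).zero_mem fun u => h0 u
  funext g s
  exact congrFun (congrFun (congrFun h2 g) s.1) s.2

/-- **absolute coefficients of the mirror relation exist** -/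
theorem exists_IsP (h : D.OK M0 lam0 Kr) :
    ∃ Pm : {s : I D × I D // s ≠ s0 D} → Cn D 1 → D.K, Mirror545.IsP (s0 D) (alpha D 1) Pm :=
  Mirror545.exists_P (s0 D) (alpha D 1) (base h)

/-- the hypothesis `hsurj` of `Mirror545` -/
theorem inV_surj (h : D.OK M0 lam0 Kr) (k : ℕ) (c : D.P k → D.K) :
    ∃ f : D.P k → I D × I D → D.K, Mirror545.InV (alpha D 1) (gam D k) f ∧
      ∀ g, f g (s0 D) = c g :=
  ⟨fun g s => enc h k c g s.1 s.2, (inV_iff h k 1 _).1 (enc_mem h k c),
    fun g => congrFun (cont_enc h k c) g⟩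

end Crest.Agent.R289.ObjApi12
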