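import Crest.Agent.Lib.PT.Iter
import Crest.Agent.R289.TP_846

/-!
# Row 289, assembly: literal interface A + B → C

`Obj`, `Obj.OK`, `Obj289`: what blocks A + B deliver to block C: the two-place object at all levels,
in the vocabulary of `TP_846` (units = group elements, label of a unit `Option K → Option K → K`).
Nothing else about the group, the field or the codes is used by block C.
-/

set_option autoImplicit false

namespace Crest.Agent.R289.Asm12

open Crest.Agent.Lib.PT Crest.Agent.R289.TP846 Crest.Agent.R289.Tan846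

/-! ### the object -/

/-- data of the two-place object: a finite field `K`, edge codes `X m`, `Y m` of degree `m`
(in units of `2 (q - 1)`), the groups `P k`, `|P k| = Q ^ k`, with their steps, and the tables.
Intended: `K` of `q ^ 2` elements, `Q = q ^ 3`, `P k` = norm-one elements `1 + a_1 τ + .. + a_(2k) τ^(2k)`. -/
structure Obj where
  /-- field -/
  K : Type
  [fK : Field K]
  [tK : Fintype K]
  [dK : DecidableEq K]
  [cK : PTCode K]
  /-- characteristic -/
  p : ℕ
  /-- growth of the groups -/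
  Q : ℕ
  /-- new labels -/
  L : Option K → Option K → Option K
  /-- new labels -/
  M : Option K → Option K → Option K
  /-- code of the x-edges of type `j`, label `z` (functions of `m`), degree `d` -/
  X : ℕ → Bool → Option K → Submodule K (Option K → K)
  /-- code of the y-edges of type `i`, label `w` (functions of `l`), degree `d` -/
  Y : ℕ → Bool → Option K → Submodule K (Option K → K)
  /-- content position -/
  z0 : Option K
  /-- content position -/
  w0 : Option K
  /-- group of level `k` -/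
  P : ℕ → Type
  [gP : ∀ k, Group (P k)]
  [tP : ∀ k, Fintype (P k)]
  [dP : ∀ k, DecidableEq (P k)]
  /-- complex of level `k` -/
  tp : ∀ k, TP (P k) (Option K)
  /-- numbering -/
  ix : ∀ k, P k ≃ Fin (Q ^ k)
  /-- numbers of the x-steps -/
  aN : Option K → Un → ℕ
  /-- numbers of the y-steps -/
  bN : Option K → Un → ℕ
  /-- multiplication of numbers -/
  mulN : Un × ℕ × ℕ → ℕ
  /-- inverse of numbers -/
  invN : Un × ℕ → ℕ

attribute [instance] Obj.fK Obj.tK Obj.dK Obj.cK Obj.gP Obj.tP Obj.dP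

namespace Obj

variable (D : Obj)

/-- bundle of edge codes: register `ρ` has degree `deg ρ` -/
def bX {κ : Type} (deg : κ → ℕ) (j : Bool) (z : Option D.K) : Set (Option D.K → κ → D.K) :=
  {c | ∀ ρ, (fun m => c m ρ) ∈ D.X (deg ρ) j z}

/-- bundle of edge codes: register `ρ` has degree `deg ρ` -/
def bY {κ : Type} (deg : κ → ℕ) (i : Bool) (w : Option D.K) : Set (Option D.K → κ → D.K) :=
  {c | ∀ ρ, (fun l => c l ρ) ∈ D.Y (deg ρ) i w}

/-- the code of degree `d` at level `k` (units `g : P k`, label `Option K → Option K → K`) -/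
def C (k d : ℕ) : Set (D.P k → Option D.K → Option D.K → D.K) :=
  (D.tp k).Code (fun j z => (D.X d j z : Set _)) (fun i w => (D.Y d i w : Set _))

/-- **what blocks A + B prove about the object**, degrees up to `M0`, spectral gap `lam0` -/
structure OK (M0 : ℕ) (lam0 Kr : ℝ) : Prop where
  prime : D.p.Prime
  odd : D.p ≠ 2
  charP : CharP D.K D.p
  isP : ∀ k, IsPGroup D.p (D.P k)
  two_le : 2 ≤ D.Q
  L_eq : ∀ k, (D.tp k).L = D.L
  M_eq : ∀ k, (D.tp k).M = D.M
  /-- products -/
  mulX : ∀ d d' j z f g, f ∈ D.X d j z → g ∈ D.X d' j z → f * g ∈ D.X (d + d') j z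
  mulY : ∀ d d' i w f g, f ∈ D.Y d i w → g ∈ D.Y d' i w → f * g ∈ D.Y (d + d') i w
  /-- distance of the edge codes -/
  dist : ∃ n : ℕ, 3 * Fintype.card (Option D.K) ≤ 4 * n ∧
    (∀ d ≤ M0, ∀ j z, Dist (D.X d j z : Set (Option D.K → D.K)) n) ∧
    ∀ d ≤ M0, ∀ i w, Dist (D.Y d i w : Set (Option D.K → D.K)) n
  /-- robustness of the vertex codes, bundles of registers of different degrees -/
  rob : ∀ (κ : Type) [Fintype κ] (deg : κ → ℕ), (∀ ρ, deg ρ ≤ M0) → ∀ k i j,
    (D.tp k).Rob (D.bX deg) (D.bY deg) i j Kr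
  /-- expansion -/
  exp : ∃ lam : ℝ, 0 ≤ lam ∧ lam ≤ lam0 ∧ 4 * Kr ^ 2 * lam ^ 2 ≤ 1 ∧ ∀ k,
    Exp (D.tp k).a lam ∧ Exp (fun z => ((D.tp k).a z)⁻¹) lam ∧
    Exp (D.tp k).b lam ∧ Exp (fun z => ((D.tp k).b z)⁻¹) lam
  /-- contents -/
  content : ∀ k (c : D.P k → D.K), ∃! f, f ∈ D.C k 1 ∧ ∀ g, f g D.z0 D.w0 = c g
  /-- tables: polynomial time relative to a unary bound of the order of the group -/
  ptf_a : ∀ {α : Type} [PTCode α] (z : Option D.K) (k : α → ℕ), PTU k →
    PTU (fun x => D.Q ^ k x) → PTF (fun x => D.aN z (Un.mk (k x)))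
  ptf_b : ∀ {α : Type} [PTCode α] (z : Option D.K) (k : α → ℕ), PTU k →
    PTU (fun x => D.Q ^ k x) → PTF (fun x => D.bN z (Un.mk (k x)))
  ptf_mul : ∀ {α : Type} [PTCode α] (k u v : α → ℕ), PTU k →
    PTU (fun x => D.Q ^ k x) → PTF u → PTF v → PTF (fun x => D.mulN (Un.mk (k x), u x, v x))
  ptf_inv : ∀ {α : Type} [PTCode α] (k u : α → ℕ), PTU k →
    PTU (fun x => D.Q ^ k x) → PTF u → PTF (fun x => D.invN (Un.mk (k x), u x))
  aN_eq : ∀ z k, D.aN z (Un.mk k) = D.ix k ((D.tp k).a z)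
  bN_eq : ∀ z k, D.bN z (Un.mk k) = D.ix k ((D.tp k).b z)
  mul_eq : ∀ k (u v : D.P k), D.mulN (Un.mk k, D.ix k u, D.ix k v) = D.ix k (u * v)
  inv_eq : ∀ k (u : D.P k), D.invN (Un.mk k, D.ix k u) = D.ix k u⁻¹

end Obj

/-- **what blocks A + B deliver** (`Kr` = robustness constant of Polishchuk-Spielman) -/
def Obj289 : Prop :=
  ∃ Kr : ℝ, 0 ≤ Kr ∧ ∀ (M0 : ℕ) (lam0 : ℝ), 0 < lam0 → ∃ D : Obj, D.p = 3 ∧ D.OK M0 lam0 Kr

end Crest.Agent.R289.Asm12
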