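import Crest.Agent.R289.TSide_492
import Crest.Agent.R289.AsmObj_12

/-!
# Row 289, block C: the T-object `TO` of `TSide_492` from the object of `AsmObj_12` (p2 of #6387)

`Sy D = Option K × Option K` symbols of a unit, `s0 D = (z0, w0)` content symbol,
`Cm D k d : Submodule K (P k → Sy D → K)` the code of degree `d` at level `k`;
products (any degrees), left translations, content bijection, `tO h k : TO K (P k) (Sy D)`.
-/

set_option autoImplicit false

namespace Crest.Agent.R289.TOInst112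

open Crest.Agent.R289.Asm12 Crest.Agent.R289.TP846 Crest.Agent.R289.TSide492

variable (D : Obj)

/-- symbols of a unit -/
abbrev Sy : Type := Option D.K × Option D.K

/-- the content symbol -/
def s0 : Sy D := (D.z0, D.w0)

/-- the code of degree `d` at level `k` -/
def Cm (k d : ℕ) : Submodule D.K (D.P k → Sy D → D.K) where
  carrier := {f | (fun g l m => f g (l, m)) ∈ D.C k d}
  zero_mem' := ⟨fun j _ z => (D.X d j z).zero_mem, fun i _ w => (D.Y d i w).zero_mem⟩
  add_mem' := fun hf hg => ⟨fun j h z => (D.X d j z).add_mem (hf.1 j h z) (hg.1 j h z),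
    fun i h w => (D.Y d i w).add_mem (hf.2 i h w) (hg.2 i h w)⟩
  smul_mem' := fun c _ hf => ⟨fun j h z => (D.X d j z).smul_mem c (hf.1 j h z),
    fun i h w => (D.Y d i w).smul_mem c (hf.2 i h w)⟩

variable {D}

theorem mem_Cm {k d : ℕ} {f : D.P k → Sy D → D.K} :
    f ∈ Cm D k d ↔ (fun g l m => f g (l, m)) ∈ D.C k d := Iff.rfl

theorem mem_Cm_curry {k d : ℕ} {f : D.P k → Option D.K → Option D.K → D.K} :
    (fun g (s : Sy D) => f g s.1 s.2) ∈ Cm D k d ↔ f ∈ D.C k d := Iff.rfl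

/-- left translation, inverse form -/
theorem Cm_tr {k d : ℕ} {f : D.P k → Sy D → D.K} (hf : f ∈ Cm D k d) (a : D.P k) :
    (fun g s => f (a⁻¹ * g) s) ∈ Cm D k d :=
  (D.tp k).tr_mem a hf

/-- left translation -/
theorem Cm_lt {k d : ℕ} {f : D.P k → Sy D → D.K} (hf : f ∈ Cm D k d) (a : D.P k) :
    (fun g s => f (a * g) s) ∈ Cm D k d := by
  have := Cm_tr hf a⁻¹
  simpa only [inv_inv] using this

variable {M0 : ℕ} {lam0 Kr : ℝ} (h : D.OK M0 lam0 Kr)
include h

/-- products, degrees add -/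
theorem Cm_mul {k d d' : ℕ} {f g : D.P k → Sy D → D.K} (hf : f ∈ Cm D k d)
    (hg : g ∈ Cm D k d') : (fun t s => f t s * g t s) ∈ Cm D k (d + d') :=
  ⟨fun j a z => h.mulX d d' j z _ _ (hf.1 j a z) (hg.1 j a z),
    fun i a w => h.mulY d d' i w _ _ (hf.2 i a w) (hg.2 i a w)⟩

/-- a word of degree 1 is determined by its content -/
theorem Cm_inj {k : ℕ} {f : D.P k → Sy D → D.K} (hf : f ∈ Cm D k 1)
    (h0 : ∀ t, f t (s0 D) = 0) : f = 0 := by
  obtain ⟨u, -, hu⟩ := h.content k fun _ => 0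
  have h1 := hu (fun g l m => f g (l, m)) ⟨hf, h0⟩
  have h2 := hu (fun g l m => (0 : D.P k → Sy D → D.K) g (l, m)) ⟨(Cm D k 1).zero_mem, fun _ => rfl⟩
  funext g s
  exact congrFun (congrFun (congrFun (h1.trans h2.symm) g) s.1) s.2

/-- every content is the content of a word of degree 1 -/
theorem Cm_surj (k : ℕ) (c : D.P k → D.K) : ∃ f ∈ Cm D k 1, ∀ t, f t (s0 D) = c t := by
  obtain ⟨u, hu, -⟩ := h.content k c
  exact ⟨fun g s => u g s.1 s.2, hu.1, hu.2⟩

/-- content, unique existence -/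
theorem Cm_content (k : ℕ) (c : D.P k → D.K) : ∃! f, f ∈ Cm D k 1 ∧ ∀ t, f t (s0 D) = c t := by
  obtain ⟨f, hf, hc⟩ := Cm_surj h k c
  refine ⟨f, ⟨hf, hc⟩, fun g hg => ?_⟩
  have := Cm_inj h ((Cm D k 1).sub_mem hg.1 hf) fun t => by
    show g t (s0 D) - f t (s0 D) = 0
    rw [hg.2, hc, sub_self]
  exact sub_eq_zero.1 this

omit h in
theorem two_eq : (2 : ℕ) = 1 + 1 := rfl

/-- **the T-object of level `k`** -/
def tO (k : ℕ) : TO D.K (D.P k) (Sy D) where
  s0 := s0 D
  C1 := Cm D k 1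
  C2 := Cm D k 2
  lt1 _ hf a := Cm_lt hf a
  lt2 _ hf a := Cm_lt hf a
  mul _ hf _ hg := Cm_mul h hf hg
  inj _ hf h0 := Cm_inj h hf h0
  surj c := Cm_surj h k c

end Crest.Agent.R289.TOInst112
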