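import Mathlib
import Crest.Agent.R289.Level_492
import Crest.Agent.R289.Mirror_545

/-!
# Row 289, block C: the T-side of a certificate at word level

Words of the product code are functions `X : T × S → A` (`T` group of the T-object, `S` symbols of a
unit of the T-object, `A` any `K`-module of P-side words or bundles of them); this is the type
`n → A` of `Level_492` with `n = T × S`.

* `TO`: the T-object (codes of degree 1 and 2, left translations, products, content bijection);
  `TW C A`: words with values in `A` all of whose T-slices are in `C`;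
* `stM`: operator `X ↦ ∑ a, E a • (left translation of X by g a)` as a matrix;
* `Path`: the path `tt 0 .. tt L` and its steps; public words `D i`, `E1 a`, `E2 a`, `Uw`;
* `walk`: instance of `Level492.Walk`; `rec_content`: the residual words of the explicit records
  have content zero; `rec_iff`, `recm_iff`: records are characterised by this;
* `mirM`: the matrix of the mirror words of `Mirror_545`, `mir_iff`;
* `Rec`, `Rec_iff`: the relations of `(X, X⁻, C, C⁻)` hold exactly for the explicit ones.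
-/

set_option autoImplicit false
set_option linter.unusedSectionVars false

namespace Crest.Agent.R289.TSide492

open Finset Matrix Crest.Agent.R289.Level492

/-! ### the T-object -/

/-- codes of degree 1 and 2 on `T × S`, contents at the symbol `s0` -/
structure TO (K T S : Type*) [Field K] [Group T] where
  s0 : S
  C1 : Submodule K (T → S → K)
  C2 : Submodule K (T → S → K)
  lt1 : ∀ f ∈ C1, ∀ a : T, (fun t s => f (a * t) s) ∈ C1
  lt2 : ∀ f ∈ C2, ∀ a : T, (fun t s => f (a * t) s) ∈ C2
  mul : ∀ f ∈ C1, ∀ g ∈ C1, (fun t s => f t s * g t s) ∈ C2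
  inj : ∀ f ∈ C1, (∀ t, f t s0 = 0) → f = 0
  surj : ∀ c : T → K, ∃ f ∈ C1, ∀ t, f t s0 = c t

variable {K T S : Type*} [Field K] [Group T]
variable {A B : Type*} [AddCommGroup A] [Module K A] [AddCommGroup B] [Module K B]

/-- words with values in `A` whose T-slices are in `C` -/
def TW (C : Submodule K (T → S → K)) (A : Type*) [AddCommGroup A] [Module K A] :
    Submodule K (T × S → A) where
  carrier := {X | ∀ φ : Module.Dual K A, (fun t s => φ (X (t, s))) ∈ C}
  zero_mem' φ := by
    have : (fun (t : T) (s : S) => φ ((0 : T × S → A) (t, s))) = 0 := by funext t s; simp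
    rw [this]; exact C.zero_mem
  add_mem' {X Y} hX hY φ := by
    have : (fun (t : T) (s : S) => φ ((X + Y) (t, s)))
        = (fun t s => φ (X (t, s))) + fun t s => φ (Y (t, s)) := by funext t s; simp
    rw [this]; exact C.add_mem (hX φ) (hY φ)
  smul_mem' c X hX φ := by
    have : (fun (t : T) (s : S) => φ ((c • X) (t, s))) = c • fun t s => φ (X (t, s)) := by
      funext t s; simp
    rw [this]; exact C.smul_mem c (hX φ)

theorem mem_TW {C : Submodule K (T → S → K)} {X : T × S → A} :
    X ∈ TW C A ↔ ∀ φ : Module.Dual K A, (fun t s => φ (X (t, s))) ∈ C := Iff.rfl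

/-- coordinate form -/
theorem mem_TW_pi {κ : Type*} [Finite κ] {C : Submodule K (T → S → K)} {X : T × S → κ → K} :
    X ∈ TW C (κ → K) ↔ ∀ k, (fun t s => X (t, s) k) ∈ C := by
  classical
  have := Fintype.ofFinite κ
  constructor
  · intro h k
    exact h (LinearMap.proj k)
  · intro h φ
    have : (fun (t : T) (s : S) => φ (X (t, s)))
        = ∑ k, φ (Pi.single k 1) • fun t s => X (t, s) k := by
      funext t s
      rw [Finset.sum_apply, Finset.sum_apply]
      conv_lhs => rw [LinearMap.pi_apply_eq_sum_univ φ (X (t, s))]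
      refine sum_congr rfl fun k _ => ?_
      simp only [Pi.smul_apply, smul_eq_mul]
      rw [mul_comm]
      congr 2
      funext j
      by_cases hj : k = j
      · subst hj; simp
      · simp [hj, Ne.symm hj]
    rw [this]
    exact Submodule.sum_mem _ fun k _ => C.smul_mem _ (h k)

theorem TW_map {C : Submodule K (T → S → K)} (f : A →ₗ[K] B) {X : T × S → A} (hX : X ∈ TW C A) :
    (fun p => f (X p)) ∈ TW C B := fun φ => hX (φ.comp f)

theorem TW_ten {C : Submodule K (T → S → K)} {D : T → S → K} (hD : D ∈ C) (w : A) :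
    ten (fun p : T × S => D p.1 p.2) w ∈ TW C A := by
  intro φ
  have : (fun (t : T) (s : S) => φ (ten (fun p : T × S => D p.1 p.2) w (t, s))) = φ w • D := by
    funext t s
    simp [ten, mul_comm]
  rw [this]
  exact C.smul_mem _ hD

namespace TO

variable (O : TO K T S)

/-- the word with content `c` -/
noncomputable def word (c : T → K) : T → S → K := (O.surj c).choose

theorem word_mem (c : T → K) : O.word c ∈ O.C1 := (O.surj c).choose_spec.1

theorem word_s0 (c : T → K) (t : T) : O.word c t O.s0 = c t := (O.surj c).choose_spec.2 t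

/-- rigidity for words with values in a module -/
theorem TW_inj {X Y : T × S → A} (hX : X ∈ TW O.C1 A) (hY : Y ∈ TW O.C1 A)
    (h : ∀ t, X (t, O.s0) = Y (t, O.s0)) : X = Y := by
  funext p
  by_contra hne
  have h1 : X p - Y p ≠ 0 := sub_ne_zero.2 hne
  obtain ⟨φ, hφ⟩ : ∃ φ : Module.Dual K A, φ (X p - Y p) ≠ 0 := by
    by_contra hcon
    push Not at hcon
    exact h1 ((Module.forall_dual_apply_eq_zero_iff K _).1 hcon)
  have h2 := O.inj _ ((TW O.C1 A).sub_mem hX hY φ) fun t => by simp [h t]
  exact hφ (congrFun (congrFun h2 p.1) p.2)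

end TO

/-! ### step operators -/

section steps
variable [Fintype T] [DecidableEq T] [Fintype S] [DecidableEq S] {α : Type*} [Fintype α]

/-- `X ↦ ∑ a, E a • (left translation of X by g a)` -/
def stM (E : α → T → S → K) (g : α → T) : Matrix (T × S) (T × S) K :=
  fun p q => ∑ a, if q = (g a * p.1, p.2) then E a p.1 p.2 else 0

theorem act_stM (E : α → T → S → K) (g : α → T) (X : T × S → A) (p : T × S) :
    act (stM E g) X p = ∑ a, E a p.1 p.2 • X (g a * p.1, p.2) := by
  simp only [act, stM, sum_smul, ite_smul, zero_smul]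
  rw [sum_comm]
  refine sum_congr rfl fun a _ => ?_
  rw [Finset.sum_ite_eq' univ (g a * p.1, p.2) fun q => E a p.1 p.2 • X q]
  simp

theorem mulVec_eq_act {m n : Type*} [Fintype n] (k : Matrix m n K) (X : n → K) :
    k *ᵥ X = act k X := by
  funext i
  simp [Matrix.mulVec, dotProduct, act]

theorem stM_mem (O : TO K T S) {E : α → T → S → K} (hE : ∀ a, E a ∈ O.C1) (g : α → T)
    {X : T × S → A} (hX : X ∈ TW O.C1 A) : act (stM E g) X ∈ TW O.C2 A := by
  intro φ
  have : (fun (t : T) (s : S) => φ (act (stM E g) X (t, s)))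
      = ∑ a, fun t s => E a t s * φ (X (g a * t, s)) := by
    funext t s
    rw [act_stM, map_sum, Finset.sum_apply, Finset.sum_apply]
    exact sum_congr rfl fun a _ => by simp
  rw [this]
  exact Submodule.sum_mem _ fun a _ => O.mul _ (hE a) _ (O.lt1 _ (hX φ) (g a))

end steps

/-! ### the path -/

/-- a path of distinct elements of `T`; `g1 (d1 i)` = step from `i` to `i + 1`, `g2 (d2 i)` = step
from `i` to `i + 2` -/
structure Path (T α1 α2 : Type*) [Group T] where
  L : ℕ
  tt : ℕ → T
  inj : ∀ i j, i ≤ L → j ≤ L → tt i = tt j → i = j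
  g1 : α1 → T
  d1 : ℕ → α1
  st1 : ∀ i, i < L → tt (i + 1) = g1 (d1 i) * tt i
  g2 : α2 → T
  d2 : ℕ → α2
  st2 : ∀ i, i + 2 ≤ L → tt (i + 2) = g2 (d2 i) * tt i

section path
variable [Fintype T] [DecidableEq T] [Fintype S] [DecidableEq S]
variable {α1 α2 : Type*} [Fintype α1] [Fintype α2]
variable (O : TO K T S) (P : Path T α1 α2)

open Classical in
/-- content of `D i` -/
noncomputable def cD (i : ℕ) (t : T) : K := if t = P.tt i then 1 else 0

open Classical in
/-- content of `E1 a` -/
noncomputable def cE1 (a : α1) (t : T) : K := if ∃ i, i < P.L ∧ t = P.tt i ∧ P.d1 i = a then 1 else 0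

open Classical in
/-- content of `E2 a` -/
noncomputable def cE2 (a : α2) (t : T) : K :=
  if ∃ i, i + 2 ≤ P.L ∧ t = P.tt i ∧ P.d2 i = a then 1 else 0

/-- the public words -/
noncomputable def Dw (i : ℕ) : T × S → K := fun p => O.word (cD P i) p.1 p.2
noncomputable def E1 (a : α1) : T → S → K := O.word (cE1 P a)
noncomputable def E2 (a : α2) : T → S → K := O.word (cE2 P a)
noncomputable def Uw : T → S → K := O.word fun _ => 1

/-- the operators -/
noncomputable def Um : Matrix (T × S) (T × S) K := stM (fun _ : Unit => Uw O) fun _ => 1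
noncomputable def N1 : Matrix (T × S) (T × S) K := stM (E1 O P) P.g1
noncomputable def N2 : Matrix (T × S) (T × S) K := stM (E2 O P) P.g2

theorem act_Um (X : T × S → A) (p : T × S) : act (Um O) X p = Uw O p.1 p.2 • X p := by
  rw [Um, act_stM]
  simp

theorem act_Um_s0 (X : T × S → A) (t : T) : act (Um O) X (t, O.s0) = X (t, O.s0) := by
  rw [act_Um, Uw, O.word_s0, one_smul]

theorem Dw_s0 (i : ℕ) (t : T) : Dw O P i (t, O.s0) = if t = P.tt i then 1 else 0 := by
  rw [Dw, O.word_s0, cD]

theorem Dw_mem (i : ℕ) (w : A) : ten (Dw O P i) w ∈ TW O.C1 A := TW_ten (O.word_mem _) w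

theorem act_N1_s0 (X : T × S → A) {i : ℕ} (hi : i < P.L) :
    act (N1 O P) X (P.tt i, O.s0) = X (P.tt (i + 1), O.s0) := by
  rw [N1, act_stM, Finset.sum_eq_single (P.d1 i)]
  · rw [E1, O.word_s0, cE1, if_pos ⟨i, hi, rfl, rfl⟩, one_smul, P.st1 i hi]
  · intro a _ ha
    rw [E1, O.word_s0, cE1, if_neg, zero_smul]
    rintro ⟨j, hj, h1, h2⟩
    have := P.inj i j hi.le hj.le h1
    subst this
    exact ha h2.symm
  · intro h; exact absurd (mem_univ _) h

theorem act_N1_off (X : T × S → A) {t : T} (ht : ∀ i, i < P.L → t ≠ P.tt i) :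
    act (N1 O P) X (t, O.s0) = 0 := by
  rw [N1, act_stM]
  refine sum_eq_zero fun a _ => ?_
  rw [E1, O.word_s0, cE1, if_neg, zero_smul]
  rintro ⟨j, hj, h1, -⟩
  exact ht j hj h1

theorem act_N2_s0 (X : T × S → A) {i : ℕ} (hi : i + 2 ≤ P.L) :
    act (N2 O P) X (P.tt i, O.s0) = X (P.tt (i + 2), O.s0) := by
  rw [N2, act_stM, Finset.sum_eq_single (P.d2 i)]
  · rw [E2, O.word_s0, cE2, if_pos ⟨i, hi, rfl, rfl⟩, one_smul, P.st2 i hi]
  · intro a _ ha
    rw [E2, O.word_s0, cE2, if_neg, zero_smul]
    rintro ⟨j, hj, h1, h2⟩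
    have := P.inj i j (by omega) (by omega) h1
    subst this
    exact ha h2.symm
  · intro h; exact absurd (mem_univ _) h

theorem act_N2_off (X : T × S → A) {t : T} (ht : ∀ i, i + 2 ≤ P.L → t ≠ P.tt i) :
    act (N2 O P) X (t, O.s0) = 0 := by
  rw [N2, act_stM]
  refine sum_eq_zero fun a _ => ?_
  rw [E2, O.word_s0, cE2, if_neg, zero_smul]
  rintro ⟨j, hj, h1, -⟩
  exact ht j hj h1

theorem walk : Walk (A := A) (Um O) (N1 O P) (N2 O P) (fun i => (P.tt i, O.s0)) P.L where
  U_pos i _ X := act_Um_s0 O X _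
  N1_pos i hi X := act_N1_s0 O P X hi
  N1_end X := act_N1_off O P X fun i hi h => by
    have := P.inj _ _ le_rfl hi.le h
    omega
  N2_pos i hi X := act_N2_s0 O P X hi
  N2_end i hi h2 X := act_N2_off O P X fun j hj h => by
    have := P.inj _ _ hi (by omega) h
    omega

/-! ### records -/

variable (Λ : A →ₗ[K] A)

/-- the residual word has content zero -/
def CZ (w : A) (E : T × S → K) (X : T × S → A) : Prop :=
  ∀ t, Q Λ (Um O) (N1 O P) (N2 O P) w E X (t, O.s0) = 0

theorem lc_unique {Y : T × S → A}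
    (h : ∀ t, Lc Λ (Um O) (N1 O P) (N2 O P) Y (t, O.s0) = 0) (t : T) : Y (t, O.s0) = 0 := by
  have hQ : ∀ t, Q Λ (Um O) (N1 O P) (N2 O P) 0 (Dw O P 0) Y (t, O.s0) = 0 := by
    intro t
    have h0 : ten (Um O *ᵥ Dw O P 0) (0 : A) = 0 := by funext j; simp [ten]
    rw [Q, h0, sub_zero]
    exact h t
  by_cases ht : ∃ i, i ≤ P.L ∧ t = P.tt i
  · obtain ⟨i, hi, rfl⟩ := ht
    have := content_unique (walk O P) (Nat.zero_le P.L) (E := Dw O P 0)
      (fun i hi => by
        rw [Dw_s0]
        by_cases h0 : i = 0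
        · subst h0; simp
        · rw [if_neg h0, if_neg]
          intro h'
          exact h0 (P.inj _ _ hi (Nat.zero_le _) h'))
      (fun i _ => hQ (P.tt i)) i hi
    rw [this]
    split_ifs with h0
    · have : i = 0 := by omega
      subst this
      rfl
    · rfl
  · push Not at ht
    have h1 := h t
    simp only [Lc] at h1
    rw [act_Um_s0, act_N1_off O P Y fun i hi => ht i hi.le,
      act_N2_off O P Y fun i hi => ht i (by omega), map_zero, sub_zero, sub_zero] at h1
    exact h1

theorem Q_sub (w : A) (E : T × S → K) (X X' : T × S → A) (U' N1' N2' : Matrix (T × S) (T × S) K) :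
    Q Λ U' N1' N2' w E X - Q Λ U' N1' N2' w E X' = Lc Λ U' N1' N2' (X - X') := by
  funext p
  simp only [Q, Lc, act_sub, Pi.sub_apply, map_sub]
  abel

/-- at most one word has residual content zero -/
theorem cz_unique {w : A} {E : T × S → K} {X X' : T × S → A} (hX : X ∈ TW O.C1 A)
    (hX' : X' ∈ TW O.C1 A) (h : CZ O P Λ w E X) (h' : CZ O P Λ w E X') : X = X' := by
  apply O.TW_inj hX hX'
  intro t
  have h1 := lc_unique O P Λ (Y := X - X') (fun t => by
    rw [← Q_sub Λ w E, Pi.sub_apply, h t, h' t, sub_zero]) t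
  exact sub_eq_zero.1 h1

theorem kap_s0 {t : ℕ} (ht : t + 1 ≤ P.L) (τ : T) :
    kap (Um O) (N1 O P) (Dw O P) t (τ, O.s0) = 0 := by
  show (Um O *ᵥ Dw O P t) (τ, O.s0) - (N1 O P *ᵥ Dw O P (t + 1)) (τ, O.s0) = 0
  rw [mulVec_eq_act, mulVec_eq_act, act_Um_s0, Dw_s0]
  by_cases hτ : ∃ i, i < P.L ∧ τ = P.tt i
  · obtain ⟨i, hi, rfl⟩ := hτ
    rw [act_N1_s0 O P _ hi, Dw_s0]
    by_cases hit : i = t
    · subst hit; simp
    · rw [if_neg, if_neg, sub_zero]
      · intro h; exact hit (by have := P.inj _ _ (by omega) (by omega) h; omega)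
      · intro h; exact hit (P.inj _ _ hi.le (by omega) h)
  · push Not at hτ
    rw [act_N1_off O P _ hτ, if_neg (hτ t (by omega)), sub_zero]

theorem kap'_s0 {t : ℕ} (ht : t + 1 ≤ P.L) (τ : T) :
    kap' (Um O) (N2 O P) (Dw O P) t (τ, O.s0) = 0 := by
  show (Um O *ᵥ Dm (Dw O P) t) (τ, O.s0) - (N2 O P *ᵥ Dw O P (t + 1)) (τ, O.s0) = 0
  rw [mulVec_eq_act, mulVec_eq_act, act_Um_s0]
  by_cases hτ : ∃ i, i + 2 ≤ P.L ∧ τ = P.tt i
  · obtain ⟨i, hi, rfl⟩ := hτ
    rw [act_N2_s0 O P _ hi, Dw_s0]
    cases t with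
    | zero =>
      show (0 : K) - _ = 0
      rw [if_neg, sub_zero]
      intro h; have := P.inj _ _ (by omega) (by omega) h; omega
    | succ t =>
      show Dw O P t _ - _ = 0
      rw [Dw_s0]
      by_cases hit : i = t
      · subst hit; simp
      · rw [if_neg, if_neg, sub_zero]
        · intro h; exact hit (by have := P.inj _ _ (by omega) (by omega) h; omega)
        · intro h; exact hit (P.inj _ _ (by omega) (by omega) h)
  · push Not at hτ
    rw [act_N2_off O P _ hτ, sub_zero]
    cases t with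
    | zero => rfl
    | succ t =>
      show Dw O P t _ = 0
      rw [Dw_s0, if_neg (hτ t (by omega))]

/-- **the residual words of the explicit records have content zero** -/
theorem rec_content (w : A) (t : ℕ) (ht : t ≤ P.L) :
    CZ O P Λ w (Dw O P t) (recX Λ (Dw O P) w t) ∧
      CZ O P Λ w (Dm (Dw O P) t) (recXm Λ (Dw O P) w t) := by
  induction t with
  | zero =>
    constructor
    · intro τ
      have h : Q Λ (Um O) (N1 O P) (N2 O P) w (Dw O P 0) (recX Λ (Dw O P) w 0)
          = -(ten (N1 O P *ᵥ Dw O P 0) (Λ w)) - ten (N2 O P *ᵥ Dw O P 0) w := by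
        rw [recX_zero, Q, Lc_ten]; abel
      rw [h]
      have h1 : (N1 O P *ᵥ Dw O P 0) (τ, O.s0) = 0 := by
        rw [mulVec_eq_act]
        by_cases hτ : ∃ i, i < P.L ∧ τ = P.tt i
        · obtain ⟨i, hi, rfl⟩ := hτ
          rw [act_N1_s0 O P _ hi, Dw_s0, if_neg]
          intro h; have := P.inj _ _ (by omega) (by omega) h; omega
        · push Not at hτ
          exact act_N1_off O P _ hτ
      have h2 : (N2 O P *ᵥ Dw O P 0) (τ, O.s0) = 0 := by
        rw [mulVec_eq_act]
        by_cases hτ : ∃ i, i + 2 ≤ P.L ∧ τ = P.tt i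
        · obtain ⟨i, hi, rfl⟩ := hτ
          rw [act_N2_s0 O P _ hi, Dw_s0, if_neg]
          intro h; have := P.inj _ _ (by omega) (by omega) h; omega
        · push Not at hτ
          exact act_N2_off O P _ hτ
      simp [ten, h1, h2]
    · intro τ
      have : Q Λ (Um O) (N1 O P) (N2 O P) w (Dm (Dw O P) 0) (recXm Λ (Dw O P) w 0)
          = (0 : T × S → A) := by
        funext j
        simp [Q, Lc, Dm, recXm, act_zero, ten, Matrix.mulVec_zero]
      rw [this]; rfl
  | succ t ih =>
    obtain ⟨i1, i2⟩ := ih (by omega)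
    refine ⟨?_, i1⟩
    intro τ
    rw [recX_succ, Q_push]
    simp only [Pi.add_apply]
    rw [i1 τ, i2 τ]
    simp [ten, kap_s0 O P ht, kap'_s0 O P ht]

theorem recX_mem (w : A) (t : ℕ) : recX Λ (Dw O P) w t ∈ TW O.C1 A :=
  Submodule.sum_mem _ fun i _ => Dw_mem O P i _

theorem recXm_mem (w : A) (t : ℕ) : recXm Λ (Dw O P) w t ∈ TW O.C1 A := by
  cases t with
  | zero => exact (TW O.C1 A).zero_mem
  | succ t => exact recX_mem O P Λ w t

/-- **record theorem** -/
theorem rec_iff {w : A} {t : ℕ} (ht : t ≤ P.L) {X : T × S → A} :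
    (X ∈ TW O.C1 A ∧ CZ O P Λ w (Dw O P t) X) ↔ X = recX Λ (Dw O P) w t := by
  constructor
  · rintro ⟨h1, h2⟩
    exact cz_unique O P Λ h1 (recX_mem O P Λ w t) h2 (rec_content O P Λ w t ht).1
  · rintro rfl
    exact ⟨recX_mem O P Λ w t, (rec_content O P Λ w t ht).1⟩

theorem recm_iff {w : A} {t : ℕ} (ht : t ≤ P.L) {X : T × S → A} :
    (X ∈ TW O.C1 A ∧ CZ O P Λ w (Dm (Dw O P) t) X) ↔ X = recXm Λ (Dw O P) w t := by
  constructor
  · rintro ⟨h1, h2⟩
    exact cz_unique O P Λ h1 (recXm_mem O P Λ w t) h2 (rec_content O P Λ w t ht).2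
  · rintro rfl
    exact ⟨recXm_mem O P Λ w t, (rec_content O P Λ w t ht).2⟩

end path

end Crest.Agent.R289.TSide492
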