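import Mathlib
import Crest.Agent.R289.TSide_492

/-!
# Row 289, block C: certificates at word level (record and mirror words)

* `MD`: data of the mirror relation of `Mirror_545` for the T-object, `MD.mir q` the unique family of
  mirror words, linear and natural, `MD.mat` its matrix; `mir_mem`: it stays in every code that is
  closed under left translations;
* `CZt`: certificates `(X, X⁻, C, C⁻)`; `certZ w t`, `pushZ`, `popZ`, `entZ` (pointwise formulas),
  `push_certZ`, `pop_certZ`, `ent_certZ`;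
* `Rec`, `Rec_iff`: the relations hold exactly for `certZ w t` (`t ≤ L`);
* `full_iff`: zero test of the full record; `certZ_mem`: code membership.
-/

set_option autoImplicit false
set_option linter.unusedSectionVars false

namespace Crest.Agent.R289.TSide492

open Finset Matrix Crest.Agent.R289.Level492
open Crest.Agent.R289.Mirror545 (MirRel IsP bet ext InV BR opM opM_mul opM_one mirRel_iff BR_inv
  mir_existsUnique mir_unique)

variable {K T S ι J : Type*} [Field K] [Group T] [Fintype S] [DecidableEq S] [Fintype ι]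
  [Fintype J]
variable {A B M M' : Type*} [AddCommGroup A] [Module K A] [AddCommGroup B] [Module K B]
  [AddCommGroup M] [Module K M] [AddCommGroup M'] [Module K M']

/-! ### mirror words -/

/-- data of the mirror relation -/
structure MD (K T S ι J : Type*) [Field K] [Group T] [Fintype S] [DecidableEq S] [Fintype ι]
    [Fintype J] (s0 : S) where
  al : ι → S → J → K
  P : {s : S // s ≠ s0} → ι → K
  hP : IsP s0 al P
  gam : J → T
  nil : ∃ L, AugNil322.J K T ^ L = ⊥

namespace MD

variable {s0 : S} (m : MD K T S ι J s0)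

/-- the mirror relation -/
def Rel (q : T → M) (U : {s : S // s ≠ s0} → T → M) : Prop :=
  MirRel s0 (bet s0 m.al m.P) m.gam q U

theorem existsUnique (q : T → M) : ∃! U, m.Rel q U :=
  mir_existsUnique s0 m.al m.P m.hP m.gam m.nil.choose_spec q

/-- the mirror words -/
noncomputable def mir (q : T → M) : {s : S // s ≠ s0} → T → M := (m.existsUnique q).choose

theorem mir_rel (q : T → M) : m.Rel q (m.mir q) := (m.existsUnique q).choose_spec.1

theorem rel_iff (q : T → M) (U : {s : S // s ≠ s0} → T → M) : m.Rel q U ↔ U = m.mir q := by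
  constructor
  · intro h
    exact (m.existsUnique q).unique h (m.mir_rel q)
  · rintro rfl
    exact m.mir_rel q

theorem mir_map (φ : M →ₗ[K] M') (q : T → M) :
    m.mir (fun g => φ (q g)) = fun s g => φ (m.mir q s g) :=
  ((m.rel_iff _ _).1 (Mirror545.MirRel.map (m.mir_rel q) φ)).symm

theorem mir_add (q q' : T → M) :
    m.mir (fun g => q g + q' g) = fun s g => m.mir q s g + m.mir q' s g :=
  ((m.rel_iff _ _).1 (Mirror545.MirRel.add (m.mir_rel q) (m.mir_rel q'))).symm

theorem mir_zero : m.mir (fun _ => (0 : M)) = fun _ _ => 0 :=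
  ((m.rel_iff _ _).1 (Mirror545.MirRel.zero s0 _ m.gam)).symm

theorem mir_sum {κ : Type*} (F : Finset κ) (q : κ → T → M) :
    m.mir (fun g => ∑ k ∈ F, q k g) = fun s g => ∑ k ∈ F, m.mir (q k) s g := by
  classical
  induction F using Finset.induction_on with
  | empty => simp [mir_zero]
  | insert a F ha ih =>
    have : (fun g => ∑ k ∈ insert a F, q k g) = fun g => q a g + ∑ k ∈ F, q k g := by
      funext g; rw [sum_insert ha]
    rw [this, mir_add, ih]
    funext s g
    rw [sum_insert ha]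

theorem act_mem {W : Submodule K (T → M)}
    (hW : ∀ u ∈ W, ∀ a : T, (fun t => u (a * t)) ∈ W) (y : MonoidAlgebra K T) {u : T → M}
    (hu : u ∈ W) : Mirror545.act K M T y u ∈ W := by
  induction y using MonoidAlgebra.induction_linear with
  | zero => simp
  | add f g hf hg => rw [map_add, LinearMap.add_apply]; exact W.add_mem hf hg
  | single g c =>
    have : Mirror545.act K M T (MonoidAlgebra.single g c) u = c • fun t => u (g⁻¹ * t) := by
      funext x
      rw [Mirror545.act_single]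
      rfl
    rw [this]
    exact W.smul_mem c (hW u hu g⁻¹)

/-- the mirror words of a word stay in every space closed under left translations -/
theorem mir_mem {W : Submodule K (T → M)}
    (hW : ∀ u ∈ W, ∀ a : T, (fun t => u (a * t)) ∈ W) {q : T → M} (hq : q ∈ W)
    (c : {s : S // s ≠ s0}) : m.mir q c ∈ W := by
  classical
  obtain ⟨L, hL⟩ := m.nil
  obtain ⟨Y, h1, h2⟩ := BR_inv s0 m.al m.P m.hP m.gam hL
  have h1' : (BR s0 (bet s0 m.al m.P) m.gam).map (Mirror545.act K M T)
      * Y.map (Mirror545.act K M T) = 1 := by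
    rw [← Matrix.map_mul, h1, Matrix.map_one _ (map_zero _) (map_one _)]
  have hU : m.Rel q (opM (Y.map (Mirror545.act K M T))
      (fun c g => - ∑ j, bet s0 m.al m.P c s0 j • q ((m.gam j)⁻¹ * g))) := by
    show MirRel _ _ _ _ _
    rw [mirRel_iff, ← opM_mul, h1', opM_one]
  rw [← (m.rel_iff _ _).1 hU]
  simp only [opM, Matrix.map_apply]
  refine W.sum_mem fun s _ => act_mem hW _ ?_
  have : (fun g => - ∑ j, bet s0 m.al m.P s s0 j • q ((m.gam j)⁻¹ * g))
      = - ∑ j, bet s0 m.al m.P s s0 j • fun g => q ((m.gam j)⁻¹ * g) := by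
    funext g
    simp
  rw [this]
  exact W.neg_mem (W.sum_mem fun j _ => W.smul_mem _ (hW q hq _))

variable [Fintype T] [DecidableEq T]

/-- index of the mirror words -/
abbrev Ix (s0 : S) (T : Type*) : Type _ := {s : S // s ≠ s0} × T × S

/-- the matrix of the mirror words -/
noncomputable def mat : Matrix (Ix s0 T) (T × S) K :=
  fun c p => m.mir (fun t s => if (t, s) = p then (1 : K) else 0 : T → S → K) c.1 c.2.1 c.2.2

theorem act_mat (Q : T × S → A) (c : Ix s0 T) :
    act m.mat Q c = m.mir (fun t s => Q (t, s)) c.1 c.2.1 c.2.2 := by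
  let φ : (T × S) → (S → K) →ₗ[K] (S → A) := fun p =>
    { toFun := fun f s => f s • Q p
      map_add' := fun f g => by funext s; simp [add_smul]
      map_smul' := fun c f => by funext s; simp [mul_smul] }
  have h1 : (fun (t : T) (s : S) => Q (t, s))
      = fun t => ∑ p : T × S, φ p ((fun s => if (t, s) = p then (1 : K) else 0)) := by
    funext t s
    rw [Finset.sum_apply, Finset.sum_eq_single (t, s)]
    · simp [φ]
    · intro p _ hp
      simp [φ, Ne.symm hp]
    · intro h; exact absurd (mem_univ _) h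
  rw [h1, mir_sum m univ fun p t => φ p ((fun s => if (t, s) = p then (1 : K) else 0))]
  simp only [Finset.sum_apply, act]
  refine sum_congr rfl fun p _ => ?_
  rw [mir_map m (φ p) fun t s => if (t, s) = p then (1 : K) else 0]
  rfl

/-- **mirror relation = matrix** -/
theorem rel_iff_mat (Q : T × S → A) (C : Ix s0 T → A) :
    m.Rel (fun t s => Q (t, s)) (fun c t s => C (c, t, s)) ↔ C = act m.mat Q := by
  rw [rel_iff]
  constructor
  · intro h
    funext c
    rw [act_mat, ← h]
  · rintro rfl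
    funext c t s
    rw [act_mat]

theorem mat_mem {C2 : Submodule K (T → S → K)}
    (h2 : ∀ f ∈ C2, ∀ a : T, (fun t s => f (a * t) s) ∈ C2) {Q : T × S → A}
    (hQ : Q ∈ TW C2 A) (c : {s : S // s ≠ s0}) :
    (fun p : T × S => act m.mat Q (c, p.1, p.2)) ∈ TW C2 A := by
  intro φ
  let ψ : (S → A) →ₗ[K] (S → K) :=
    { toFun := fun f s => φ (f s)
      map_add' := fun f g => by funext s; simp
      map_smul' := fun c f => by funext s; simp }
  have h1 : (fun (t : T) (s : S) => φ (act m.mat Q (c, t, s)))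
      = m.mir (fun t s => φ (Q (t, s)) : T → S → K) c := by
    have := mir_map m ψ fun t s => Q (t, s)
    have h3 := congrFun this c
    have h4 : m.mir (fun t s => φ (Q (t, s)) : T → S → K) c
        = fun t => ψ (m.mir (fun t s => Q (t, s)) c t) := h3
    rw [h4]
    funext t s
    rw [act_mat]
    rfl
  rw [h1]
  exact mir_mem m (W := C2) (fun u hu a => h2 u hu a) (hQ φ) c

end MD

/-! ### certificates -/

section cert
variable [Fintype T] [DecidableEq T] {α1 α2 : Type*} [Fintype α1] [Fintype α2]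
variable (O : TO K T S) (P : Path T α1 α2) (m : MD K T S ι J O.s0) (Λ : A →ₗ[K] A)

/-- certificate of one component -/
@[ext] structure CZt (O : TO K T S) (A : Type*) where
  X : T × S → A
  Xm : T × S → A
  C : MD.Ix O.s0 T → A
  Cm : MD.Ix O.s0 T → A

/-- the explicit certificate of depth `t` -/
noncomputable def certZ (w : A) (t : ℕ) : CZt O A where
  X := recX Λ (Dw O P) w t
  Xm := recXm Λ (Dw O P) w t
  C := cert Λ (Um O) (N1 O P) (N2 O P) (Dw O P) w m.mat t
  Cm := certm Λ (Um O) (N1 O P) (N2 O P) (Dw O P) w m.mat t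

/-- the public tables -/
noncomputable def tabA (t : ℕ) : MD.Ix O.s0 T → K := m.mat *ᵥ kap (Um O) (N1 O P) (Dw O P) t
noncomputable def tabB (t : ℕ) : MD.Ix O.s0 T → K := m.mat *ᵥ kap' (Um O) (N2 O P) (Dw O P) t
noncomputable def tabA0 : MD.Ix O.s0 T → K := m.mat *ᵥ (N1 O P *ᵥ Dw O P 0)
noncomputable def tabB0 : MD.Ix O.s0 T → K := m.mat *ᵥ (N2 O P *ᵥ Dw O P 0)

/-- push from depth `t` to depth `t + 1` -/
noncomputable def pushZ (t : ℕ) (w : A) (z : CZt O A) : CZt O A where
  X p := Λ (z.X p) + z.Xm p + Dw O P (t + 1) p • w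
  Xm := z.X
  C c := Λ (z.C c) + z.Cm c + tabA O P m t c • Λ w + tabB O P m t c • w
  Cm := z.C

/-- pop from depth `t + 1` to depth `t` -/
noncomputable def popZ (t : ℕ) (w : A) (z : CZt O A) : CZt O A where
  X := z.Xm
  Xm p := z.X p - Λ (z.Xm p) - Dw O P (t + 1) p • w
  C := z.Cm
  Cm c := z.C c - Λ (z.Cm c) - tabA O P m t c • Λ w - tabB O P m t c • w

/-- entry -/
noncomputable def entZ (w : A) : CZt O A where
  X p := Dw O P 0 p • w
  Xm := 0
  C c := -(tabA0 O P m c • Λ w) - tabB0 O P m c • w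
  Cm := 0

theorem push_certZ (w : A) (t : ℕ) :
    pushZ O P m Λ t w (certZ O P m Λ w t) = certZ O P m Λ w (t + 1) := by
  apply CZt.ext
  · show _ = recX Λ (Dw O P) w (t + 1)
    rw [recX_succ]; rfl
  · rfl
  · show _ = cert Λ (Um O) (N1 O P) (N2 O P) (Dw O P) w m.mat (t + 1)
    rw [cert_succ]; rfl
  · rfl

theorem pop_certZ (w : A) (t : ℕ) :
    popZ O P m Λ t w (certZ O P m Λ w (t + 1)) = certZ O P m Λ w t := by
  apply CZt.ext
  · rfl
  · show _ = recXm Λ (Dw O P) w t
    rw [recXm_pop]; rfl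
  · rfl
  · show _ = certm Λ (Um O) (N1 O P) (N2 O P) (Dw O P) w m.mat t
    rw [certm_pop]; rfl

theorem ent_certZ (w : A) : entZ O P m Λ w = certZ O P m Λ w 0 := by
  apply CZt.ext
  · show _ = recX Λ (Dw O P) w 0
    rw [recX_zero]; rfl
  · rfl
  · show _ = cert Λ (Um O) (N1 O P) (N2 O P) (Dw O P) w m.mat 0
    rw [cert_zero]; rfl
  · show _ = certm Λ (Um O) (N1 O P) (N2 O P) (Dw O P) w m.mat 0
    rw [certm_zero]; rfl

/-- the residual words -/
noncomputable def Qt (w : A) (t : ℕ) (X : T × S → A) : T × S → A :=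
  Q Λ (Um O) (N1 O P) (N2 O P) w (Dw O P t) X

noncomputable def Qm (w : A) (t : ℕ) (X : T × S → A) : T × S → A :=
  Q Λ (Um O) (N1 O P) (N2 O P) w (Dm (Dw O P) t) X

/-- pointwise formula of the residual word -/
theorem Q_apply (w : A) (E : T × S → K) (X : T × S → A) (p : T × S) :
    Q Λ (Um O) (N1 O P) (N2 O P) w E X p =
      Uw O p.1 p.2 • X p - Λ (∑ a, E1 O P a p.1 p.2 • X (P.g1 a * p.1, p.2))
        - (∑ a, E2 O P a p.1 p.2 • X (P.g2 a * p.1, p.2)) - (Uw O p.1 p.2 * E p) • w := by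
  have h1 : (Um O *ᵥ E) p = Uw O p.1 p.2 * E p := by
    rw [mulVec_eq_act, act_Um, smul_eq_mul]
  simp only [Q, Lc, Pi.sub_apply, ten, h1]
  rw [act_Um, N1, N2, act_stM, act_stM]

/-- **the relations of a certificate of depth `t`** -/
structure Rec (w : A) (t : ℕ) (z : CZt O A) : Prop where
  memX : z.X ∈ TW O.C1 A
  memXm : z.Xm ∈ TW O.C1 A
  cz : ∀ τ, Qt O P Λ w t z.X (τ, O.s0) = 0
  czm : ∀ τ, Qm O P Λ w t z.Xm (τ, O.s0) = 0
  mir : m.Rel (fun τ s => Qt O P Λ w t z.X (τ, s)) (fun c τ s => z.C (c, τ, s))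
  mirm : m.Rel (fun τ s => Qm O P Λ w t z.Xm (τ, s)) (fun c τ s => z.Cm (c, τ, s))

/-- **relations = explicit certificate** -/
theorem Rec_iff {w : A} {t : ℕ} (ht : t ≤ P.L) {z : CZt O A} :
    Rec O P m Λ w t z ↔ z = certZ O P m Λ w t := by
  constructor
  · intro h
    have h1 : z.X = recX Λ (Dw O P) w t := (rec_iff O P Λ ht).1 ⟨h.memX, h.cz⟩
    have h2 : z.Xm = recXm Λ (Dw O P) w t := (recm_iff O P Λ ht).1 ⟨h.memXm, h.czm⟩
    have h3 := (m.rel_iff_mat _ _).1 h.mir
    have h4 := (m.rel_iff_mat _ _).1 h.mirm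
    rw [h1] at h3
    rw [h2] at h4
    exact CZt.ext h1 h2 h3 h4
  · rintro rfl
    exact
      { memX := recX_mem O P Λ w t
        memXm := recXm_mem O P Λ w t
        cz := (rec_content O P Λ w t ht).1
        czm := (rec_content O P Λ w t ht).2
        mir := (m.rel_iff_mat _ _).2 rfl
        mirm := (m.rel_iff_mat _ _).2 rfl }

/-! ### code membership -/

theorem Qt_mem (w : A) (t : ℕ) {X : T × S → A} (hX : X ∈ TW O.C1 A) :
    Qt O P Λ w t X ∈ TW O.C2 A := by
  have h1 : act (Um O) X ∈ TW O.C2 A := stM_mem O (fun _ => O.word_mem _) _ hX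
  have h2 : act (N1 O P) X ∈ TW O.C2 A := stM_mem O (fun _ => O.word_mem _) _ hX
  have h3 : act (N2 O P) X ∈ TW O.C2 A := stM_mem O (fun _ => O.word_mem _) _ hX
  have h4 : ten (Um O *ᵥ Dw O P t) w ∈ TW O.C2 A := by
    rw [← act_ten]
    exact stM_mem O (fun _ => O.word_mem _) _ (Dw_mem O P t w)
  exact (TW O.C2 A).sub_mem ((TW O.C2 A).sub_mem ((TW O.C2 A).sub_mem h1 (TW_map Λ h2)) h3) h4

theorem Qm_mem (w : A) (t : ℕ) {X : T × S → A} (hX : X ∈ TW O.C1 A) :
    Qm O P Λ w t X ∈ TW O.C2 A := by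
  cases t with
  | succ t => exact Qt_mem O P Λ w t hX
  | zero =>
    have h1 : act (Um O) X ∈ TW O.C2 A := stM_mem O (fun _ => O.word_mem _) _ hX
    have h2 : act (N1 O P) X ∈ TW O.C2 A := stM_mem O (fun _ => O.word_mem _) _ hX
    have h3 : act (N2 O P) X ∈ TW O.C2 A := stM_mem O (fun _ => O.word_mem _) _ hX
    have h4 : ten (Um O *ᵥ Dm (Dw O P) 0) w ∈ TW O.C2 A := by
      have : ten (Um O *ᵥ Dm (Dw O P) 0) w = (0 : T × S → A) := by
        funext j; simp [ten, Dm, Matrix.mulVec_zero]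
      rw [this]; exact (TW O.C2 A).zero_mem
    exact (TW O.C2 A).sub_mem ((TW O.C2 A).sub_mem ((TW O.C2 A).sub_mem h1 (TW_map Λ h2)) h3) h4

/-- the T-slices of the explicit certificate are code words -/
theorem certZ_mem (w : A) (t : ℕ) :
    (certZ O P m Λ w t).X ∈ TW O.C1 A ∧ (certZ O P m Λ w t).Xm ∈ TW O.C1 A ∧
      (∀ c, (fun p : T × S => (certZ O P m Λ w t).C (c, p.1, p.2)) ∈ TW O.C2 A) ∧
      (∀ c, (fun p : T × S => (certZ O P m Λ w t).Cm (c, p.1, p.2)) ∈ TW O.C2 A) :=
  ⟨recX_mem O P Λ w t, recXm_mem O P Λ w t,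
    fun c => m.mat_mem O.lt2 (Qt_mem O P Λ w t (recX_mem O P Λ w t)) c,
    fun c => m.mat_mem O.lt2 (Qm_mem O P Λ w t (recXm_mem O P Λ w t)) c⟩

/-- the values of the explicit certificate are in every `Λ`-closed space that contains `w` -/
theorem certZ_val {A' : Submodule K A} (hΛ : ∀ a ∈ A', Λ a ∈ A') {w : A} (hw : w ∈ A') (t : ℕ) :
    (∀ p, (certZ O P m Λ w t).X p ∈ A') ∧ (∀ p, (certZ O P m Λ w t).Xm p ∈ A') ∧
      (∀ c, (certZ O P m Λ w t).C c ∈ A') ∧ (∀ c, (certZ O P m Λ w t).Cm c ∈ A') := by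
  induction t with
  | zero =>
    rw [← ent_certZ]
    exact ⟨fun p => A'.smul_mem _ hw, fun _ => A'.zero_mem,
      fun c => A'.sub_mem (A'.neg_mem (A'.smul_mem _ (hΛ w hw))) (A'.smul_mem _ hw),
      fun _ => A'.zero_mem⟩
  | succ t ih =>
    obtain ⟨h1, h2, h3, h4⟩ := ih
    rw [← push_certZ]
    exact ⟨fun p => A'.add_mem (A'.add_mem (hΛ _ (h1 p)) (h2 p)) (A'.smul_mem _ hw), h1,
      fun c => A'.add_mem (A'.add_mem (A'.add_mem (hΛ _ (h3 c)) (h4 c))
        (A'.smul_mem _ (hΛ w hw))) (A'.smul_mem _ hw), h3⟩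

/-! ### zero test of the full record -/

theorem chain_map (ΛB : B →ₗ[K] B) (h : A →ₗ[K] B) (hh : ∀ a, h (Λ a) = ΛB (h a)) (w : A) :
    ∀ n, h (chain Λ w n) = chain ΛB (h w) n
  | 0 => rfl
  | 1 => hh w
  | n + 2 => by
    simp only [chain, map_add, hh]
    rw [chain_map ΛB h hh w (n + 1), chain_map ΛB h hh w n]

theorem recX_map (ΛB : B →ₗ[K] B) (h : A →ₗ[K] B) (hh : ∀ a, h (Λ a) = ΛB (h a)) (w : A) (t : ℕ)
    (p : T × S) : h (recX Λ (Dw O P) w t p) = recX ΛB (Dw O P) (h w) t p := by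
  simp only [recX, Finset.sum_apply, ten, map_sum, map_smul]
  exact sum_congr rfl fun i _ => by rw [chain_map Λ ΛB h hh]

/-- contents of the explicit record -/
theorem recX_s0 (w : A) {t i : ℕ} (ht : t ≤ P.L) (hi : i ≤ P.L) :
    recX Λ (Dw O P) w t (P.tt i, O.s0) = if i ≤ t then chain Λ w (t - i) else 0 := by
  simp only [recX, Finset.sum_apply, ten]
  have h1 : ∀ j ∈ range (t + 1), Dw O P j (P.tt i, O.s0) • chain Λ w (t - j)
      = if j = i then chain Λ w (t - i) else 0 := by
    intro j hj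
    rw [Finset.mem_range] at hj
    rw [Dw_s0]
    by_cases hji : j = i
    · subst hji; simp
    · rw [if_neg hji, if_neg, zero_smul]
      intro h
      exact hji (P.inj _ _ hi (by omega) h).symm
  rw [sum_congr rfl h1, Finset.sum_ite_eq' (range (t + 1)) i]
  by_cases hit : i ≤ t
  · rw [if_pos hit, if_pos (Finset.mem_range.2 (by omega))]
  · rw [if_neg hit, if_neg (fun h => hit (by have := Finset.mem_range.1 h; omega))]

theorem chain_zero (n : ℕ) : chain Λ (0 : A) n = 0 := by
  have key : ∀ n, chain Λ (0 : A) n = 0 ∧ chain Λ (0 : A) (n + 1) = 0 := by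
    intro n
    induction n with
    | zero => exact ⟨rfl, by simp [chain]⟩
    | succ n ih => exact ⟨ih.2, by simp [chain, ih.1, ih.2]⟩
  exact (key n).1

/-- **zero test of the full record** (`h` = restriction to the contents of one component) -/
theorem full_iff (ΛB : B →ₗ[K] B) (h : A →ₗ[K] B) (hh : ∀ a, h (Λ a) = ΛB (h a)) {w : A}
    (hg : chain ΛB (h w) P.L = 0 → h w = 0) :
    (∀ τ, h (recX Λ (Dw O P) w P.L (τ, O.s0)) = 0) ↔ h w = 0 := by
  constructor
  · intro h0
    have := h0 (P.tt 0)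
    rw [recX_s0 O P Λ w le_rfl (Nat.zero_le _), if_pos (Nat.zero_le _), Nat.sub_zero,
      chain_map Λ ΛB h hh] at this
    exact hg this
  · intro h0 τ
    rw [recX_map O P Λ ΛB h hh, h0]
    simp only [recX, Finset.sum_apply, ten, chain_zero, smul_zero, sum_const_zero]

/-- the same at all positions -/
theorem full_iff' (ΛB : B →ₗ[K] B) (h : A →ₗ[K] B) (hh : ∀ a, h (Λ a) = ΛB (h a)) {w : A}
    (hg : chain ΛB (h w) P.L = 0 → h w = 0) :
    (∀ p, h (recX Λ (Dw O P) w P.L p) = 0) ↔ h w = 0 := by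
  constructor
  · intro h0
    exact (full_iff O P Λ ΛB h hh hg).1 fun τ => h0 _
  · intro h0 p
    rw [recX_map O P Λ ΛB h hh, h0]
    simp only [recX, Finset.sum_apply, ten, chain_zero, smul_zero, sum_const_zero]

end cert

end Crest.Agent.R289.TSide492
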