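import Crest.Agent.R289.DefI_306
import Crest.Agent.R289.ObjApi_12
import Crest.Agent.R289.TOInst_112
import Crest.Agent.R289.TSide2_492
import Crest.Agent.R289.CascK_750
import Crest.Agent.R289.FinB_263
import Crest.Agent.R289.MirInst_781

/-!
# Row 289, block C: the instance `Cst` + `Ins` of `DefI_306` from the object `Asm12.Obj`

Fixed: `D : Obj`, `h : D.OK M0 lam0 Kr`, `W : ℕ` (number of steps of the path in `T`).
* `G D` : names of the moves of the content group `Γ = D.P kP × D.P kR` (pairs of words of at most 3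
  letters `a z`, `b z` or inverses), `act` = LEFT multiplication by their values;
* `rC`, `lamC` : absolute cascade coefficients (`CascK750.exists_grow`), `grow`, moves `ga`;
* `Pm`, `md k` : absolute mirror coefficients and the mirror data of level `k`;
* `encG` : the word of `V_P ⊗ V_R` with given contents, codes `CG d`;
* `cst h W : Cst D.K`, `ins h W kP kR kT P lay : Ins (cst h W)`;
* the identities between these definitions and `TSide_492`, `TSide2_492`, `CascK_750`, `DefC_143`.
-/

set_option autoImplicit false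

namespace Crest.Agent.R289.InsObj576

open Finset Crest.Agent.R289.Asm12 Crest.Agent.R289.DefC Crest.Agent.R289.DefI
  Crest.Agent.R289.BootC515 Crest.Agent.R289.FinB263
open Crest.Agent.R289.TOInst112 (Sy s0 tO)

/-! ### moves -/

section moves
variable (D : Obj)

/-- letters `(y?, inverse?, label)` -/
abbrev Ltr : Type := Bool × Bool × Option D.K

/-- value of a letter at level `k` -/
def lv (k : ℕ) : Ltr D → D.P k
  | (false, false, z) => (D.tp k).a z
  | (false, true, z) => ((D.tp k).a z)⁻¹
  | (true, false, z) => (D.tp k).b z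
  | (true, true, z) => ((D.tp k).b z)⁻¹

/-- value of an optional letter -/
def ov (k : ℕ) : Option (Ltr D) → D.P k
  | none => 1
  | some a => lv D k a

/-- names of words of at most 3 letters -/
abbrev W3 : Type := Fin 3 → Option (Ltr D)

/-- value of a word -/
def wv3 (k : ℕ) (w : W3 D) : D.P k := ov D k (w 2) * ov D k (w 1) * ov D k (w 0)

/-- the name of a one letter word -/
def one3 (a : Ltr D) : W3 D := ![some a, none, none]

/-- the name of the identity -/
def id3 : W3 D := fun _ => none

@[simp] theorem wv3_id3 (k : ℕ) : wv3 D k (id3 D) = 1 := by simp [wv3, id3, ov]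

@[simp] theorem wv3_one3 (k : ℕ) (a : Ltr D) : wv3 D k (one3 D a) = lv D k a := by
  simp [wv3, one3, ov]

/-- names of the moves of the content group -/
abbrev G : Type := W3 D × W3 D

/-- value of a move -/
def gv (kP kR : ℕ) (g : G D) : D.P kP × D.P kR := (wv3 D kP g.1, wv3 D kR g.2)

/-- action of a move: left multiplication -/
def act (kP kR : ℕ) (g : G D) : Equiv.Perm (D.P kP × D.P kR) := Equiv.mulLeft (gv D kP kR g)

theorem act_apply (kP kR : ℕ) (g : G D) (x : D.P kP × D.P kR) :
    act D kP kR g x = (wv3 D kP g.1 * x.1, wv3 D kR g.2 * x.2) := rfl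

theorem act_symm_apply (kP kR : ℕ) (g : G D) (x : D.P kP × D.P kR) :
    (act D kP kR g).symm x = ((wv3 D kP g.1)⁻¹ * x.1, (wv3 D kR g.2)⁻¹ * x.2) := rfl

/-! ### cascade -/

/-- the cascade family -/
def ga (kP kR : ℕ) (j : Option D.K × Option D.K) : D.P kP × D.P kR :=
  ((D.tp kP).a j.1, (D.tp kR).a j.2)

theorem exists_casc : ∃ (r : ℕ) (A : Option D.K × Option D.K → Fin (r + 1) → Fin (r + 1) → D.K),
    CascK750.Grow A := by
  obtain ⟨r, A, hr, hA⟩ := CascK750.exists_grow D.K (Option D.K × Option D.K)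
  obtain ⟨r, rfl⟩ := Nat.exists_eq_succ_of_ne_zero hr.ne'
  exact ⟨r, A, hA⟩

/-- rank of the cascade, minus one -/
noncomputable def rC : ℕ := (exists_casc D).choose

/-- absolute cascade coefficients -/
noncomputable def lamC : Option D.K × Option D.K → Fin (rC D + 1) → Fin (rC D + 1) → D.K :=
  (exists_casc D).choose_spec.choose

theorem grow : CascK750.Grow (lamC D) := (exists_casc D).choose_spec.choose_spec

end moves

/-! ### mirror data -/

section mirror
variable {D : Obj} {M0 : ℕ} {lam0 Kr : ℝ} (h : D.OK M0 lam0 Kr)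

/-- absolute left inverse of the augmented columns -/
noncomputable def Pm : {s : Sy D // s ≠ s0 D} → ObjApi12.Cn D 1 → D.K :=
  (ObjApi12.exists_IsP h).choose

theorem Pm_spec : Mirror545.IsP (s0 D) (ObjApi12.alpha D 1) (Pm h) :=
  (ObjApi12.exists_IsP h).choose_spec

include h in
theorem nil (k : ℕ) : ∃ L, AugNil322.J D.K (D.P k) ^ L = ⊥ := by
  have : Fact D.p.Prime := ⟨h.prime⟩
  have : CharP D.K D.p := h.charP
  exact MirInst781.J_nilpotent (h.isP k)

/-- mirror data of level `k` -/
noncomputable def md (k : ℕ) :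
    TSide492.MD D.K (D.P k) (Sy D) (ObjApi12.Cn D 1) (ObjApi12.Rs D) (tO h k).s0 where
  al := ObjApi12.alpha D 1
  P := Pm h
  hP := Pm_spec h
  gam := ObjApi12.gam D k
  nil := nil h k

end mirror

/-! ### words of the content group -/

section words
variable (D : Obj)

/-- symbols of a unit of the content group -/
abbrev SG : Type := Sy D × Sy D

/-- content symbol of a unit of the content group -/
abbrev sG : SG D := (s0 D, s0 D)

/-- the code of degree `d` on the content group: both slices are words of degree `d` -/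
def CG (kP kR d : ℕ) : Submodule D.K ((D.P kP × D.P kR) × SG D → D.K) where
  carrier := {f | (∀ g' s', (fun g s => f ((g, g'), (s, s'))) ∈ TOInst112.Cm D kP d) ∧
    ∀ g s, (fun g' s' => f ((g, g'), (s, s'))) ∈ TOInst112.Cm D kR d}
  zero_mem' := ⟨fun _ _ => (TOInst112.Cm D kP d).zero_mem,
    fun _ _ => (TOInst112.Cm D kR d).zero_mem⟩
  add_mem' := fun hf hg => ⟨fun g' s' => (TOInst112.Cm D kP d).add_mem (hf.1 g' s') (hg.1 g' s'),
    fun g s => (TOInst112.Cm D kR d).add_mem (hf.2 g s) (hg.2 g s)⟩
  smul_mem' := fun c _ hf => ⟨fun g' s' => (TOInst112.Cm D kP d).smul_mem c (hf.1 g' s'),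
    fun g s => (TOInst112.Cm D kR d).smul_mem c (hf.2 g s)⟩

variable {D} {M0 : ℕ} {lam0 Kr : ℝ} (h : D.OK M0 lam0 Kr)

/-- the word of `V_P ⊗ V_R` with contents `c` -/
noncomputable def encG (kP kR : ℕ) (c : D.P kP × D.P kR → D.K) :
    (D.P kP × D.P kR) × SG D → D.K := fun x =>
  (tO h kR).word (fun g' => (tO h kP).word (fun g => c (g, g')) x.1.1 x.2.1) x.1.2 x.2.2

end words

/-! ### the constants -/

section inst
variable {D : Obj} {M0 : ℕ} {lam0 Kr : ℝ} (h : D.OK M0 lam0 Kr)

/-- **absolute constants** -/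
@[reducible] noncomputable def cst (W : ℕ) : Cst D.K where
  G := G D
  A := machB (K := D.K) (G := G D) (J := 128) (26 : Fin 28)
  S := SG D
  s0 := sG D
  S' := Sy D
  s0' := s0 D
  r := rC D
  Jc := Option D.K × Option D.K
  lam := lamC D
  J1 := Fin W
  J2 := Fin W × Fin W
  JT := ObjApi12.Rs D
  bet := Mirror545.bet (s0 D) (ObjApi12.alpha D 1) (Pm h)

/-- permutation of points -/
def pmG {kP kR : ℕ} (e : Equiv.Perm (D.P kP × D.P kR)) :
    Equiv.Perm ((D.P kP × D.P kR) × SG D) := Equiv.prodCongr e (Equiv.refl _)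

/-- public words -/
noncomputable def pubW (kP kR : ℕ) (lay : Layout (D.P kP × D.P kR) (G D) (Fin 28) 128)
    (b : Pb (G D) (Fin 28) 128) : (D.P kP × D.P kR) × SG D → D.K :=
  encG h kP kR (pubC lay D.K b)

/-- **the instance** -/
@[reducible] noncomputable def ins (W kP kR kT : ℕ) (P : TSide492.Path (D.P kT) (Fin W) (Fin W × Fin W))
    (lay : Layout (D.P kP × D.P kR) (G D) (Fin 28) 128) : Ins (cst h W) where
  Γ := D.P kP × D.P kR
  T := D.P kT
  act := act D kP kR
  mv := fun j => Equiv.mulLeft (ga D kP kR j)⁻¹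
  pubP := pubW h kP kR lay
  stg0 := SgB.e
  stgz := SgB.old Sg.a
  x0 := fun i => (ini (K := D.K) (G := G D) i).evalC (fun g => pmG (act D kP kR g))
    (pubW h kP kR lay) fun _ _ => 0
  h1 := P.g1
  h2 := P.g2
  gam := ObjApi12.gam D kT
  one := fun p => TSide492.Uw (tO h kT) p.1 p.2
  E1 := fun j p => TSide492.E1 (tO h kT) P j p.1 p.2
  E2 := fun j p => TSide492.E2 (tO h kT) P j p.1 p.2
  L := P.L
  D := TSide492.Dw (tO h kT) P
  A := fun t s p => TSide492.tabA (tO h kT) P (md h kT) t (s, p.1, p.2)
  B := fun t s p => TSide492.tabB (tO h kT) P (md h kT) t (s, p.1, p.2)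
  A0 := fun s p => -TSide492.tabA0 (tO h kT) P (md h kT) (s, p.1, p.2)
  B0 := fun s p => -TSide492.tabB0 (tO h kT) P (md h kT) (s, p.1, p.2)

end inst

end Crest.Agent.R289.InsObj576
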