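import Crest.Agent.R289.DefD_721

/-!
Product contraction (block B / C, helper974).  Words on `U1 × U2` with labels `Option Γ`
(`none` = unreadable).  Row operators `c2` (one for every row) and column operators `c1` contract
small error sets of rows / columns; then "rows first, columns second" contracts every error set of
density `≤ ρ1 ρ2 / 2` of the product.
-/

set_option autoImplicit false

namespace Crest.Agent.R289.CorrTensor974

open Finset Crest.Agent.R289.DefD

section frac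
variable {U V : Type} [Fintype U] [Fintype V]

open Classical in
theorem frac_eq_sum (p : U → Prop) :
    frac p = (∑ u, if p u then (1 : ℝ) else 0) / (Fintype.card U : ℝ) := by
  unfold frac
  congr 1
  rw [card_filter]
  push_cast
  refine Finset.sum_congr rfl fun u _ => ?_
  split_ifs <;> simp

theorem frac_nonneg (p : U → Prop) : 0 ≤ frac p := by
  unfold frac
  positivity

theorem frac_le_one (p : U → Prop) : frac p ≤ 1 := by
  classical
  unfold frac
  rcases Nat.eq_zero_or_pos (Fintype.card U) with h | h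
  · simp [h]
  · rw [div_le_one (by exact_mod_cast h)]
    exact_mod_cast (card_le_univ _)

theorem frac_mono {p q : U → Prop} (h : ∀ u, p u → q u) : frac p ≤ frac q := by
  classical
  unfold frac
  apply div_le_div_of_nonneg_right _ (by positivity)
  exact_mod_cast card_le_card (fun u hu => by
    simp only [mem_filter, mem_univ, true_and] at hu ⊢
    exact h u hu)

theorem frac_or_le (p q : U → Prop) : frac (fun u => p u ∨ q u) ≤ frac p + frac q := by
  classical
  unfold frac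
  rw [← add_div]
  apply div_le_div_of_nonneg_right _ (by positivity)
  have h1 : ((univ.filter fun u => p u ∨ q u).card : ℝ) ≤
      ((univ.filter p).card + (univ.filter q).card : ℕ) := by
    refine Nat.cast_le.mpr (le_trans (card_le_card ?_) (card_union_le _ _))
    intro u hu
    simpa using hu
  refine le_trans (le_of_eq ?_) (h1.trans (le_of_eq ?_))
  · congr!
  · push_cast; congr!

/-- a fraction on a product is the mean of the row fractions -/
theorem frac_prod (p : U × V → Prop) :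
    frac p = (∑ u, frac fun v => p (u, v)) / (Fintype.card U : ℝ) := by
  classical
  rw [frac_eq_sum]
  simp only [frac_eq_sum (U := V)]
  rw [← Finset.sum_div, Fintype.sum_prod_type, Fintype.card_prod, div_div]
  push_cast
  congr 1
  ring

/-- the same with the roles exchanged -/
theorem frac_prod' (p : U × V → Prop) :
    frac p = (∑ v, frac fun u => p (u, v)) / (Fintype.card V : ℝ) := by
  classical
  rw [frac_eq_sum]
  simp only [frac_eq_sum (U := U)]
  rw [← Finset.sum_div, Fintype.sum_prod_type_right, Fintype.card_prod, div_div]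
  push_cast
  rfl

end frac

variable {U1 U2 Γ : Type} [Fintype U1] [Fintype U2]

/-- apply the row operators -/
def rowOp (c2 : U1 → (U2 → Option Γ) → (U2 → Option Γ)) (X : U1 × U2 → Option Γ) :
    U1 × U2 → Option Γ :=
  fun u => c2 u.1 (fun v => X (u.1, v)) u.2

/-- apply the column operators -/
def colOp (c1 : U2 → (U1 → Option Γ) → (U1 → Option Γ)) (X : U1 × U2 → Option Γ) :
    U1 × U2 → Option Γ :=
  fun u => c1 u.2 (fun v => X (v, u.2)) u.1

/-- `c` contracts error sets of density `≤ ρ` of the word `w` by the factor `κ` -/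
def Contr {U : Type} [Fintype U] (c : (U → Option Γ) → (U → Option Γ)) (w : U → Γ) (ρ κ : ℝ) :
    Prop :=
  ∀ X : U → Option Γ, dist X w ≤ ρ → dist (c X) w ≤ κ * dist X w

/-- PRODUCT CONTRACTION, general constants -/
theorem contr_prod [Nonempty U1] [Nonempty U2]
    (c1 : U2 → (U1 → Option Γ) → (U1 → Option Γ)) (c2 : U1 → (U2 → Option Γ) → (U2 → Option Γ))
    (w : U1 × U2 → Γ) (ρ1 ρ2 κ1 κ2 : ℝ) (hρ1 : 0 < ρ1) (hρ2 : 0 < ρ2) (hκ1 : 0 ≤ κ1)
    (hκ2 : 0 ≤ κ2)
    (h1 : ∀ v, Contr (c1 v) (fun u => w (u, v)) ρ1 κ1)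
    (h2 : ∀ u, Contr (c2 u) (fun v => w (u, v)) ρ2 κ2) :
    Contr (fun X => colOp c1 (rowOp c2 X)) w (ρ1 * ρ2 / 2)
      (κ1 / ρ2 + κ1 * κ2 + 2 * κ2 / ρ1) := by
  classical
  intro X hX
  set d := dist X w with hd
  have hn1 : (0 : ℝ) < Fintype.card U1 := by exact_mod_cast Fintype.card_pos
  have hn2 : (0 : ℝ) < Fintype.card U2 := by exact_mod_cast Fintype.card_pos
  -- row errors
  set e : U1 → ℝ := fun u => dist (fun v => X (u, v)) (fun v => w (u, v)) with he
  have he0 : ∀ u, 0 ≤ e u := fun u => frac_nonneg _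
  have hde : d = (∑ u, e u) / (Fintype.card U1 : ℝ) := by
    rw [hd]; unfold DefD.dist; rw [frac_prod]; rfl
  set Y := rowOp c2 X with hY
  set Bd : U1 → Prop := fun u => ρ2 < e u with hBd
  set b := frac Bd with hb
  have hb_le : b ≤ d / ρ2 := by
    rw [hb, frac_eq_sum, hde, div_div, mul_comm, ← div_div]
    apply div_le_div_of_nonneg_right _ hn1.le
    rw [Finset.sum_div]
    apply Finset.sum_le_sum
    intro u _
    split_ifs with h
    · rw [le_div_iff₀ hρ2, one_mul]; exact h.le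
    · exact div_nonneg (he0 u) hρ2.le
  have hb0 : 0 ≤ b := frac_nonneg _
  have hbρ : b ≤ ρ1 / 2 := by
    refine hb_le.trans ?_
    rw [div_le_iff₀ hρ2]
    calc d ≤ ρ1 * ρ2 / 2 := hX
      _ = ρ1 / 2 * ρ2 := by ring
  -- remaining errors outside the bad rows
  set g : U2 → ℝ := fun v => frac fun u => ¬ Bd u ∧ Y (u, v) ≠ some (w (u, v)) with hg
  have hg0 : ∀ v, 0 ≤ g v := fun v => frac_nonneg _
  have hgsum : (∑ v, g v) / (Fintype.card U2 : ℝ) ≤ κ2 * d := by
    have h3 : (∑ v, g v) / (Fintype.card U2 : ℝ) =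
        (∑ u, frac fun v => ¬ Bd u ∧ Y (u, v) ≠ some (w (u, v))) / (Fintype.card U1 : ℝ) := by
      rw [hg, ← frac_prod' (fun x : U1 × U2 => ¬ Bd x.1 ∧ Y x ≠ some (w x)),
        frac_prod (fun x : U1 × U2 => ¬ Bd x.1 ∧ Y x ≠ some (w x))]
    rw [h3, hde, ← mul_div_assoc]
    apply div_le_div_of_nonneg_right _ hn1.le
    rw [Finset.mul_sum]
    apply Finset.sum_le_sum
    intro u _
    by_cases hu : Bd u
    · have : (frac fun v => ¬ Bd u ∧ Y (u, v) ≠ some (w (u, v))) = 0 := by
        unfold frac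
        simp [hu]
      rw [this]
      exact mul_nonneg hκ2 (he0 u)
    · have h4 := h2 u (fun v => X (u, v)) (not_lt.mp hu)
      refine le_trans (frac_mono ?_) h4
      intro v hv
      exact hv.2
  -- column errors of Y
  set f : U2 → ℝ := fun v => dist (fun u => Y (u, v)) (fun u => w (u, v)) with hf
  have hfle : ∀ v, f v ≤ b + g v := by
    intro v
    refine le_trans (frac_mono ?_) (frac_or_le Bd (fun u => ¬ Bd u ∧ Y (u, v) ≠ some (w (u, v))))
    intro u hu
    by_cases h : Bd u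
    · exact Or.inl h
    · exact Or.inr ⟨h, hu⟩
  -- after the column step
  have hcol : ∀ v, dist (fun u => colOp c1 Y (u, v)) (fun u => w (u, v)) ≤
      κ1 * (b + g v) + 2 / ρ1 * g v := by
    intro v
    by_cases h : f v ≤ ρ1
    · have h5 := h1 v (fun u => Y (u, v)) h
      have h6 : κ1 * f v ≤ κ1 * (b + g v) := mul_le_mul_of_nonneg_left (hfle v) hκ1
      have h7 : 0 ≤ 2 / ρ1 * g v := mul_nonneg (by positivity) (hg0 v)
      calc dist (fun u => colOp c1 Y (u, v)) (fun u => w (u, v)) ≤ κ1 * f v := h5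
        _ ≤ κ1 * (b + g v) + 2 / ρ1 * g v := by linarith
    · have h8 : ρ1 / 2 < g v := by
        have := hfle v
        push Not at h
        linarith
      have h9 : (1 : ℝ) ≤ 2 / ρ1 * g v := by
        rw [div_mul_eq_mul_div, le_div_iff₀ hρ1]
        linarith
      have h10 : 0 ≤ κ1 * (b + g v) := mul_nonneg hκ1 (add_nonneg hb0 (hg0 v))
      have h11 : dist (fun u => colOp c1 Y (u, v)) (fun u => w (u, v)) ≤ 1 := frac_le_one _
      linarith
  -- sum up
  have hfin : dist (colOp c1 Y) w ≤ κ1 * b + (κ1 + 2 / ρ1) * (κ2 * d) := by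
    have h12 : dist (colOp c1 Y) w =
        (∑ v, dist (fun u => colOp c1 Y (u, v)) (fun u => w (u, v))) / (Fintype.card U2 : ℝ) := by
      unfold DefD.dist; rw [frac_prod']
    rw [h12]
    have h13 : (∑ v, dist (fun u => colOp c1 Y (u, v)) (fun u => w (u, v))) ≤
        ∑ v, (κ1 * (b + g v) + 2 / ρ1 * g v) := Finset.sum_le_sum fun v _ => hcol v
    have h14 : ∑ v, (κ1 * (b + g v) + 2 / ρ1 * g v) =
        (Fintype.card U2 : ℝ) * (κ1 * b) + (κ1 + 2 / ρ1) * ∑ v, g v := by
      rw [Finset.mul_sum, ← nsmul_eq_mul, ← Finset.card_univ, ← Finset.sum_const,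
        ← Finset.sum_add_distrib]
      refine Finset.sum_congr rfl fun v _ => ?_
      ring
    have hk : 0 ≤ κ1 + 2 / ρ1 := by positivity
    calc (∑ v, dist (fun u => colOp c1 Y (u, v)) (fun u => w (u, v))) / (Fintype.card U2 : ℝ)
        ≤ ((Fintype.card U2 : ℝ) * (κ1 * b) + (κ1 + 2 / ρ1) * ∑ v, g v) /
            (Fintype.card U2 : ℝ) := by
          apply div_le_div_of_nonneg_right _ hn2.le
          rw [← h14]; exact h13
      _ = κ1 * b + (κ1 + 2 / ρ1) * ((∑ v, g v) / (Fintype.card U2 : ℝ)) := by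
          field_simp
      _ ≤ κ1 * b + (κ1 + 2 / ρ1) * (κ2 * d) := by
          have := mul_le_mul_of_nonneg_left hgsum hk
          linarith
  have h15 : κ1 * b ≤ κ1 * (d / ρ2) := mul_le_mul_of_nonneg_left hb_le hκ1
  calc dist (colOp c1 Y) w ≤ κ1 * b + (κ1 + 2 / ρ1) * (κ2 * d) := hfin
    _ ≤ κ1 * (d / ρ2) + (κ1 + 2 / ρ1) * (κ2 * d) := by linarith
    _ = (κ1 / ρ2 + κ1 * κ2 + 2 * κ2 / ρ1) * d := by ring

/-- PRODUCT CONTRACTION with factor `1/4` (form of `MData.Ax.corr_le`) -/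
theorem contr_prod_quarter [Nonempty U1] [Nonempty U2]
    (c1 : U2 → (U1 → Option Γ) → (U1 → Option Γ)) (c2 : U1 → (U2 → Option Γ) → (U2 → Option Γ))
    (w : U1 × U2 → Γ) (ρ1 ρ2 κ1 κ2 : ℝ) (hρ1 : 0 < ρ1) (hρ2 : 0 < ρ2) (hρ1' : ρ1 ≤ 1)
    (hρ2' : ρ2 ≤ 1) (hκ1 : 0 ≤ κ1) (hκ2 : 0 ≤ κ2) (hk1 : κ1 ≤ ρ2 / 16) (hk2 : κ2 ≤ ρ1 / 16)
    (h1 : ∀ v, Contr (c1 v) (fun u => w (u, v)) ρ1 κ1)
    (h2 : ∀ u, Contr (c2 u) (fun v => w (u, v)) ρ2 κ2) :
    Contr (fun X => colOp c1 (rowOp c2 X)) w (ρ1 * ρ2 / 2) (1 / 4) := by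
  intro X hX
  refine (contr_prod c1 c2 w ρ1 ρ2 κ1 κ2 hρ1 hρ2 hκ1 hκ2 h1 h2 X hX).trans ?_
  apply mul_le_mul_of_nonneg_right _ (frac_nonneg _)
  have a1 : κ1 / ρ2 ≤ 1 / 16 := by rw [div_le_iff₀ hρ2]; linarith
  have a2 : κ2 / ρ1 ≤ 1 / 16 := by rw [div_le_iff₀ hρ1]; linarith
  have a3 : κ1 * κ2 ≤ 1 / 16 := by
    have b1 : κ1 ≤ 1 / 16 := by linarith
    have b2 : κ2 ≤ 1 := by linarith
    calc κ1 * κ2 ≤ (1 / 16) * 1 := mul_le_mul b1 b2 hκ2 (by norm_num)
      _ = 1 / 16 := by norm_num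
  have a4 : 2 * κ2 / ρ1 = 2 * (κ2 / ρ1) := by ring
  rw [a4]
  linarith

/-- iteration: `r` rounds contract by `κ ^ r` (`κ ≤ 1`) -/
theorem contr_iterate {U : Type} [Fintype U] (c : (U → Option Γ) → (U → Option Γ)) (w : U → Γ)
    (ρ κ : ℝ) (hκ0 : 0 ≤ κ) (hκ : κ ≤ 1) (h : Contr c w ρ κ) (r : ℕ) :
    Contr (c^[r]) w ρ (κ ^ r) := by
  induction r with
  | zero => intro X _; simp
  | succ r ih =>
    intro X hX
    rw [Function.iterate_succ_apply', pow_succ', mul_assoc]
    have h1 := ih X hX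
    have h2 : dist (c^[r] X) w ≤ ρ := by
      refine h1.trans (le_trans ?_ hX)
      calc κ ^ r * dist X w ≤ 1 * dist X w :=
            mul_le_mul_of_nonneg_right (pow_le_one₀ hκ0 hκ) (frac_nonneg _)
        _ = dist X w := one_mul _
    exact (h _ h2).trans (mul_le_mul_of_nonneg_left h1 hκ0)

/-- `Contr` is monotone in the constants -/
theorem Contr.mono {U : Type} [Fintype U] {c : (U → Option Γ) → (U → Option Γ)} {w : U → Γ}
    {ρ κ ρ' κ' : ℝ} (h : Contr c w ρ κ) (hρ : ρ' ≤ ρ) (hκ : κ ≤ κ') : Contr c w ρ' κ' := by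
  intro X hX
  exact (h X (hX.trans hρ)).trans (mul_le_mul_of_nonneg_right hκ (frac_nonneg _))

/-- transport along a bijection of the unit sets -/
theorem Contr.equiv {U V : Type} [Fintype U] [Fintype V] (σ : V ≃ U)
    {c : (U → Option Γ) → (U → Option Γ)} {w : U → Γ} {ρ κ : ℝ} (h : Contr c w ρ κ) :
    Contr (fun X : V → Option Γ => fun v => c (fun u => X (σ.symm u)) (σ v)) (fun v => w (σ v))
      ρ κ := by
  classical
  have key : ∀ (X : V → Option Γ), dist X (fun v => w (σ v)) = dist (fun u => X (σ.symm u)) w := by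
    intro X
    unfold DefD.dist
    rw [frac_eq_sum, frac_eq_sum, Fintype.card_congr σ]
    congr 1
    refine Fintype.sum_equiv σ _ _ fun v => ?_
    simp
  intro X hX
  rw [key] at hX ⊢
  rw [key]
  have := h _ hX
  simpa using this

end Crest.Agent.R289.CorrTensor974
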