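import Mathlib
import Crest.Agent.R289.DefD_721

/-!
# Row 289: abstract word-level theorem (leaf (iv) of post 5715)

* `CRules ι A P` : local test and local correction (`ι` = neighbour slots, `A` = alphabet,
  `P` = public data of a unit), instance independent;
* `CAx R nb pub C ..` : the word-level axioms of a locally testable and locally correctable code;
* `CAx.restrict` : (W2) adding finitely many pointwise relations with a gap;
* `MRules`, `mach_Ax` : (W3) + (W4) local step maps, literal `LRules` and `DefD.MData.Ax`.
-/

set_option autoImplicit false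

namespace Crest.Agent.R289.Word508

open Finset Crest.Agent.R289.DefD

/-! ### fractions -/

section fracs
variable {U : Type} [Fintype U]

lemma frac_nonneg (p : U → Prop) : 0 ≤ frac p := by
  unfold frac; positivity

lemma frac_mono {p q : U → Prop} (h : ∀ u, p u → q u) : frac p ≤ frac q := by
  classical
  unfold frac
  apply div_le_div_of_nonneg_right _ (Nat.cast_nonneg _)
  exact_mod_cast card_le_card (fun u hu => by
    simp only [mem_filter, mem_univ, true_and] at hu ⊢
    exact h u hu)

lemma frac_or (p q : U → Prop) : frac (fun u => p u ∨ q u) ≤ frac p + frac q := by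
  classical
  unfold frac
  rw [← add_div]
  apply div_le_div_of_nonneg_right _ (Nat.cast_nonneg _)
  rw [← Nat.cast_add]
  apply Nat.cast_le.mpr
  refine le_trans (card_le_card ?_) (card_union_le _ _)
  intro u hu
  simp only [mem_filter, mem_univ, true_and, mem_union] at hu ⊢
  exact hu

lemma frac_false : frac (fun _ : U => False) = 0 := by
  classical
  unfold frac
  simp

lemma frac_eq_zero {p : U → Prop} (h : ∀ u, ¬ p u) : frac p = 0 := by
  have : p = fun _ => False := by funext u; simp [h u]
  rw [this]; exact frac_false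

lemma frac_le_one (p : U → Prop) : frac p ≤ 1 := by
  classical
  unfold frac
  apply div_le_one_of_le₀ _ (Nat.cast_nonneg _)
  exact_mod_cast card_le_univ _

lemma frac_exists_finset {ι : Type} (s : Finset ι) (p : ι → U → Prop) :
    frac (fun u => ∃ i ∈ s, p i u) ≤ ∑ i ∈ s, frac (p i) := by
  classical
  induction s using Finset.induction_on with
  | empty => simp [frac_false]
  | insert a s ha ih =>
    rw [sum_insert ha]
    refine le_trans (frac_mono (q := fun u => p a u ∨ ∃ i ∈ s, p i u) ?_) ?_
    · rintro u ⟨i, hi, hp⟩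
      rcases mem_insert.mp hi with rfl | hi
      · exact Or.inl hp
      · exact Or.inr ⟨i, hi, hp⟩
    · exact le_trans (frac_or _ _) (by linarith)

lemma frac_exists {ι : Type} [Fintype ι] (p : ι → U → Prop) :
    frac (fun u => ∃ i, p i u) ≤ ∑ i, frac (p i) := by
  have := frac_exists_finset (univ : Finset ι) p
  simpa using this

end fracs

/-! ### neighbour maps -/

/-- bounded multiplicity of the neighbour maps, in the form that is used -/
def NbMult {ι U : Type} [Fintype U] (nb : ι → U → U) (m : ℝ) : Prop :=
  ∀ i (E : U → Prop), frac (fun u => E (nb i u)) ≤ m * frac E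

lemma nbMult_of_fiber {ι U : Type} [Fintype U] [DecidableEq U] (nb : ι → U → U) (m : ℕ)
    (h : ∀ i v, (univ.filter fun u => nb i u = v).card ≤ m) : NbMult nb m := by
  classical
  intro i E
  unfold frac
  rw [← mul_div_assoc]
  apply div_le_div_of_nonneg_right _ (Nat.cast_nonneg _)
  rw [← Nat.cast_mul]
  apply Nat.cast_le.mpr
  have h1 : (univ.filter fun u => E (nb i u)).card ≤
      ∑ v ∈ univ.filter E, (univ.filter fun u => nb i u = v).card := by
    rw [← card_biUnion]
    · apply card_le_card
      intro u hu
      simp only [mem_filter, mem_univ, true_and, mem_biUnion] at hu ⊢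
      exact ⟨nb i u, hu, rfl⟩
    · intro x _ y _ hxy
      rw [Function.onFun, disjoint_left]
      intro u hu hu'
      simp only [mem_filter, mem_univ, true_and] at hu hu'
      exact hxy (hu.symm.trans hu')
  refine h1.trans ?_
  calc ∑ v ∈ univ.filter E, (univ.filter fun u => nb i u = v).card
      ≤ ∑ _v ∈ univ.filter E, m := sum_le_sum fun v _ => h i v
    _ = m * (univ.filter E).card := by rw [sum_const, smul_eq_mul, mul_comm]

lemma nbMult_of_injective {ι U : Type} [Fintype U] (nb : ι → U → U)
    (h : ∀ i, Function.Injective (nb i)) : NbMult nb 1 := by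
  classical
  have := nbMult_of_fiber nb 1 (fun i v => by
    apply card_le_one.mpr
    intro a ha b hb
    simp only [mem_filter, mem_univ, true_and] at ha hb
    exact h i (ha.trans hb.symm))
  simpa using this

/-- at most `k m` times the density of the units with an erroneous neighbour -/
lemma frac_nb_le {ι U : Type} [Fintype ι] [Fintype U] {nb : ι → U → U} {m : ℝ}
    (hm : NbMult nb m) (E : U → Prop) :
    frac (fun u => ∃ i, E (nb i u)) ≤ (Fintype.card ι : ℝ) * m * frac E := by
  refine (frac_exists _).trans ?_
  refine (sum_le_sum fun i _ => hm i E).trans ?_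
  rw [sum_const, nsmul_eq_mul, card_univ, mul_assoc]

/-! ### local codes -/

/-- local test and local correction: `ι` = neighbour slots, `A` = alphabet, `P` = public data -/
structure CRules (ι A P : Type) where
  viol : (ι → A) → P → Prop
  corr : (ι → A) → P → A

/-- word-level axioms of a locally testable and locally correctable code `C` on the units `U` -/
structure CAx {ι U A P : Type} [Fintype U] (R : CRules ι A P) (nb : ι → U → U) (pub : U → P)
    (C : Set (U → A)) (m zs r0 d0 c θ : ℝ) : Prop where
  mult : NbMult nb m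
  sep : ∀ v ∈ C, ∀ w ∈ C, v ≠ w → d0 ≤ distW v w
  sound : ∀ X : U → A, frac (fun u => R.viol (fun i => X (nb i u)) (pub u)) ≤ zs →
    ∃ w ∈ C, distW X w ≤ c * frac (fun u => R.viol (fun i => X (nb i u)) (pub u))
  compl : ∀ w ∈ C, ∀ u, ¬ R.viol (fun i => w (nb i u)) (pub u)
  corr : ∀ w ∈ C, ∀ E : U → Prop, frac E ≤ r0 →
    frac (fun u => ∃ x : ι → A, (∀ i, ¬ E (nb i u) → x i = w (nb i u)) ∧
      R.corr x (pub u) ≠ w u) ≤ θ * frac E

/-- (W2) the test with additional pointwise relations `rel j`, `j : J` -/
def CRules.restrict {ι A P J : Type} (R : CRules ι A P) (rel : J → (ι → A) → P → Prop) :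
    CRules ι A P where
  viol x p := R.viol x p ∨ ∃ j, ¬ rel j x p
  corr := R.corr

/-- the words of `C` that satisfy all relations everywhere -/
def restrictC {ι U A P J : Type} (nb : ι → U → U) (pub : U → P) (C : Set (U → A))
    (rel : J → (ι → A) → P → Prop) : Set (U → A) :=
  {w | w ∈ C ∧ ∀ j u, rel j (fun i => w (nb i u)) (pub u)}

/-- (W2) RESTRICTION THEOREM: relations with a gap `g` -/
theorem CAx.restrict {ι U A P J : Type} [Fintype ι] [Fintype U] {R : CRules ι A P}
    {nb : ι → U → U} {pub : U → P} {C : Set (U → A)} {m zs r0 d0 c θ : ℝ}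
    (h : CAx R nb pub C m zs r0 d0 c θ) (rel : J → (ι → A) → P → Prop) {g : ℝ}
    (hg : 0 < g) (hm : 0 ≤ m) (hc : 0 ≤ c)
    (gap : ∀ w ∈ C, (¬ ∀ j u, rel j (fun i => w (nb i u)) (pub u)) →
      ∃ j, g ≤ frac fun u => ¬ rel j (fun i => w (nb i u)) (pub u)) :
    CAx (R.restrict rel) nb pub (restrictC nb pub C rel) m
      (min zs (g / (2 * (1 + Fintype.card ι * m * c)))) r0 d0 c θ where
  mult := h.mult
  sep v hv w hw := h.sep v hv.1 w hw.1
  sound X hX := by
    set V := frac (fun u => (R.restrict rel).viol (fun i => X (nb i u)) (pub u)) with hV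
    have hVn : 0 ≤ V := frac_nonneg _
    have h1 : frac (fun u => R.viol (fun i => X (nb i u)) (pub u)) ≤ V :=
      frac_mono fun u hu => Or.inl hu
    obtain ⟨w, hwC, hw⟩ := h.sound X (h1.trans (hX.trans (min_le_left _ _)))
    have hw' : distW X w ≤ c * V := hw.trans (mul_le_mul_of_nonneg_left h1 hc)
    refine ⟨w, ⟨hwC, ?_⟩, hw'⟩
    by_contra hrel
    obtain ⟨j, hj⟩ := gap w hwC hrel
    have h2 : frac (fun u => ¬ rel j (fun i => w (nb i u)) (pub u)) ≤
        V + (Fintype.card ι : ℝ) * m * distW X w := by
      refine (frac_mono (q := fun u =>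
        (R.restrict rel).viol (fun i => X (nb i u)) (pub u) ∨
          ∃ i, X (nb i u) ≠ w (nb i u)) ?_).trans ?_
      · intro u hu
        by_cases hE : ∃ i, X (nb i u) ≠ w (nb i u)
        · exact Or.inr hE
        · left
          right
          refine ⟨j, ?_⟩
          have : (fun i => X (nb i u)) = fun i => w (nb i u) := by
            funext i
            by_contra hi
            exact hE ⟨i, hi⟩
          rw [this]; exact hu
      · refine (frac_or _ _).trans ?_
        have := frac_nb_le h.mult (fun v => X v ≠ w v)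
        unfold distW
        linarith
    have h3 : g ≤ (1 + Fintype.card ι * m * c) * V := by
      have hk : (0 : ℝ) ≤ Fintype.card ι * m := mul_nonneg (Nat.cast_nonneg _) hm
      have := mul_le_mul_of_nonneg_left hw' hk
      nlinarith [hj.trans h2]
    have hpos : (0 : ℝ) < 1 + Fintype.card ι * m * c := by positivity
    have h4 : V ≤ g / (2 * (1 + Fintype.card ι * m * c)) := hX.trans (min_le_right _ _)
    have h5 : (1 + Fintype.card ι * m * c) * V ≤ g / 2 := by
      calc (1 + Fintype.card ι * m * c) * V
          ≤ (1 + Fintype.card ι * m * c) * (g / (2 * (1 + Fintype.card ι * m * c))) :=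
            mul_le_mul_of_nonneg_left h4 hpos.le
        _ = g / 2 := by field_simp
    linarith
  compl w hw u hu := by
    rcases hu with hu | ⟨j, hj⟩
    · exact h.compl w hw.1 u hu
    · exact hj (hw.2 j u)
  corr w hw E hE := h.corr w hw.1 E hE

/-! ### machines -/

/-- local rules of a machine over a general alphabet -/
structure MRules (ι A P : Type) extends CRules ι A P where
  Nu : (ι → A) → P → A
  Mu : (ι → A) → P → A

/-- word-level axioms of the step maps -/
structure StepAx {ι U A P : Type} [Fintype U] (R : MRules ι A P) (nb : ι → U → U) (pub : U → P)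
    (W : Set (U → A)) (w0 : U → A) (N M : (U → A) → (U → A)) (γ : ℝ) : Prop where
  w0_mem : w0 ∈ W
  N_mem : ∀ w ∈ W, N w ∈ W
  M_mem : ∀ w ∈ W, M w ∈ W
  MN : ∀ w ∈ W, N w ≠ w → M (N w) = w
  NM : ∀ w ∈ W, M w ≠ w → N (M w) = w
  M_w0 : M w0 = w0
  N_w0 : N w0 ≠ w0
  N_loc : ∀ w ∈ W, frac (fun u => R.Nu (fun i => w (nb i u)) (pub u) ≠ N w u) ≤ γ
  M_loc : ∀ w ∈ W, frac (fun u => R.Mu (fun i => w (nb i u)) (pub u) ≠ M w u) ≤ γ

section literal
variable {ι A P : Type} {k l r : ℕ}

open Classical in
/-- decoding of a label -/
noncomputable def dec [Nonempty A] (enc : A → (Fin l → Bool)) (g : Fin l → Bool) : A :=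
  if h : ∃ a, enc a = g then h.choose else Classical.arbitrary A

lemma dec_enc [Nonempty A] {enc : A → (Fin l → Bool)} (he : Function.Injective enc) (a : A) :
    dec enc (enc a) = a := by
  unfold dec
  have h : ∃ b, enc b = enc a := ⟨a, rfl⟩
  rw [dif_pos h]
  exact he h.choose_spec

/-- (W4) the literal rules -/
noncomputable def MRules.toL [Nonempty A] [Nonempty P] (R : MRules ι A P) (e : ι ≃ Fin k)
    (enc : A → (Fin l → Bool)) (encP : P → (Fin r → Bool)) : LRules k l r where
  corr x p := enc (R.corr (fun i => dec enc (x (e i))) (dec encP p))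
  Nu x p := enc (R.Nu (fun i => dec enc (x (e i))) (dec encP p))
  Mu x p := enc (R.Mu (fun i => dec enc (x (e i))) (dec encP p))
  viol x p := by
    classical
    exact decide ((∃ i, x i ∉ Set.range enc) ∨
      R.viol (fun i => dec enc (x (e i))) (dec encP p))

open Classical in
/-- transport of a map on words -/
noncomputable def liftMap {U : Type} (enc : A → (Fin l → Bool)) (N : (U → A) → (U → A))
    (X : U → Fin l → Bool) : U → Fin l → Bool :=
  if h : ∃ w : U → A, X = fun u => enc (w u) then fun u => enc (N h.choose u) else X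

lemma liftMap_enc {U : Type} {enc : A → (Fin l → Bool)} (he : Function.Injective enc)
    (N : (U → A) → (U → A)) (w : U → A) :
    liftMap enc N (fun u => enc (w u)) = fun u => enc (N w u) := by
  have h : ∃ w' : U → A, (fun u => enc (w u)) = fun u => enc (w' u) := ⟨w, rfl⟩
  unfold liftMap
  rw [dif_pos h]
  have : h.choose = w := by
    funext u
    exact he (congrFun h.choose_spec u).symm
  rw [this]

/-- the constants of the literal machine -/
noncomputable def mconst (zs r0 d0 C γ : ℝ) (h1 : 0 < zs) (h2 : 0 < r0) (h3 : 0 < d0)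
    (h4 : 1 ≤ C) (h5 : 0 ≤ γ) : MConst :=
  ⟨zs, r0, d0, C, γ, h1, h2, h3, h4, h5⟩

lemma enc_comp_inj {U : Type} {enc : A → (Fin l → Bool)} (he : Function.Injective enc)
    {v w : U → A} (h : (fun u => enc (v u)) = fun u => enc (w u)) : v = w := by
  funext u; exact he (congrFun h u)

/-- value of `klift` when the value is forced -/
lemma klift_eq {U : Type} {β : Type}
    (f : (Fin k → Fin l → Bool) → (Fin r → Bool) → β) (nb : Fin k → U → U)
    (pub : U → Fin r → Bool) (X : U → Option (Fin l → Bool)) (u : U) (g : β)
    (h : ∀ x : Fin k → Fin l → Bool,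
      (∀ i y, X (nb i u) = some y → x i = y) → f x (pub u) = g) :
    klift f nb pub X u = some g := by
  have hex : ∃ g : β, ∀ x : Fin k → Fin l → Bool,
      (∀ i y, X (nb i u) = some y → x i = y) → f x (pub u) = g := ⟨g, h⟩
  unfold klift
  rw [dif_pos hex]
  congr 1
  let x0 : Fin k → Fin l → Bool := fun i => (X (nb i u)).getD (fun _ => false)
  have hx0 : ∀ i y, X (nb i u) = some y → x0 i = y := by
    intro i y hy; simp [x0, hy]
  rw [← hex.choose_spec x0 hx0, h x0 hx0]

/-- (W3)+(W4) MACHINE THEOREM: a local code with local step maps is a machine in the sense of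
`DefD.MData.Ax`, for the literal rules -/
theorem mach_Ax {U : Type} [Fintype ι] [Fintype U] [Nonempty A] [Nonempty P]
    (R : MRules ι A P) (nb : ι → U → U) (pub : U → P) (W : Set (U → A)) (w0 : U → A)
    (N M : (U → A) → (U → A)) {m zs r0 d0 c θ γ : ℝ}
    (h : CAx R.toCRules nb pub W m zs r0 d0 c θ) (hs : StepAx R nb pub W w0 N M γ)
    (i0 : ι) (hi0 : ∀ u, nb i0 u = u) (hθ : θ ≤ 1 / 4)
    (e : ι ≃ Fin k) (enc : A → (Fin l → Bool)) (he : Function.Injective enc)
    (encP : P → (Fin r → Bool)) (heP : Function.Injective encP)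
    (K : MConst) (hzs : K.zs ≤ zs) (hr0 : K.r0 ≤ r0) (hd0 : K.d0 ≤ d0)
    (hc : c + 1 ≤ K.c) (hcm : Fintype.card ι * m ≤ K.c) (hγ : γ ≤ K.γ) :
    ((R.toL e enc encP).data (fun i => nb (e.symm i)) (fun u => encP (pub u))
      {X | ∃ w ∈ W, X = fun u => enc (w u)} (fun u => enc (w0 u))
      (liftMap enc N) (liftMap enc M)).Ax K := by
  classical
  have hdec := fun a => dec_enc he a
  have hdecP := fun p => dec_enc heP p
  -- distance of encoded words
  have hdistW : ∀ v w : U → A, distW (fun u => enc (v u)) (fun u => enc (w u)) = distW v w := by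
    intro v w
    unfold distW
    congr 1
    funext u
    exact propext ⟨fun h h' => h (congrArg enc h'), fun h h' => h (he h')⟩
  -- the erroneous units
  have hnb : ∀ (X : U → Option (Fin l → Bool)) (w : U → A),
      frac (fun u => ∃ i, X (nb i u) ≠ some (enc (w (nb i u)))) ≤
        K.c * dist X (fun u => enc (w u)) := by
    intro X w
    refine (frac_nb_le h.mult (fun v => X v ≠ some (enc (w v)))).trans ?_
    exact mul_le_mul_of_nonneg_right hcm (frac_nonneg _)
  -- exact evaluation of a step rule
  have hstep : ∀ (f : (ι → A) → P → A) (F : (U → A) → (U → A)) (w : U → A)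
      (X : U → Option (Fin l → Bool)),
      frac (fun u => f (fun i => w (nb i u)) (pub u) ≠ F w u) ≤ γ →
      dist (klift (k := k) (fun x p => enc (f (fun i => dec enc (x (e i))) (dec encP p)))
        (fun i => nb (e.symm i)) (fun u => encP (pub u)) X) (fun u => enc (F w u)) ≤
        K.c * dist X (fun u => enc (w u)) + K.γ := by
    intro f F w X hf
    refine (frac_mono (q := fun u => (∃ i, X (nb i u) ≠ some (enc (w (nb i u)))) ∨
      f (fun i => w (nb i u)) (pub u) ≠ F w u) ?_).trans ?_
    · intro u hu
      by_contra hcon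
      push Not at hcon
      obtain ⟨h1, h2⟩ := hcon
      apply hu
      apply klift_eq
      intro x hx
      have hx' : (fun i => dec enc (x (e i))) = fun i => w (nb i u) := by
        funext i
        have := hx (e i) (enc (w (nb i u))) (by simpa using h1 i)
        rw [this, hdec]
      show enc (f (fun i => dec enc (x (e i))) (dec encP (encP (pub u)))) = enc (F w u)
      rw [hx', hdecP, h2]
    · refine (frac_or _ _).trans ?_
      exact add_le_add (hnb X w) (hf.trans hγ)
  refine
    { w0_mem := ⟨w0, hs.w0_mem, rfl⟩
      N_mem := ?_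
      M_mem := ?_
      MN := ?_
      NM := ?_
      M_w0 := ?_
      N_w0 := ?_
      sep := ?_
      sound := ?_
      compl := ?_
      corr_le := ?_
      Nu_le := ?_
      Mu_le := ?_ }
  · rintro _ ⟨w, hw, rfl⟩
    exact ⟨N w, hs.N_mem w hw, liftMap_enc he N w⟩
  · rintro _ ⟨w, hw, rfl⟩
    exact ⟨M w, hs.M_mem w hw, liftMap_enc he M w⟩
  · rintro _ ⟨w, hw, rfl⟩ hne
    change liftMap enc N _ ≠ _ at hne
    change liftMap enc M (liftMap enc N _) = _
    rw [liftMap_enc he N w] at hne ⊢
    rw [liftMap_enc he M (N w), hs.MN w hw (fun h' => hne (by rw [h']))]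
  · rintro _ ⟨w, hw, rfl⟩ hne
    change liftMap enc M _ ≠ _ at hne
    change liftMap enc N (liftMap enc M _) = _
    rw [liftMap_enc he M w] at hne ⊢
    rw [liftMap_enc he N (M w), hs.NM w hw (fun h' => hne (by rw [h']))]
  · change liftMap enc M (fun u => enc (w0 u)) = fun u => enc (w0 u)
    rw [liftMap_enc he M w0, hs.M_w0]
  · change liftMap enc N (fun u => enc (w0 u)) ≠ fun u => enc (w0 u)
    rw [liftMap_enc he N w0]
    exact fun h' => hs.N_w0 (enc_comp_inj he h')
  · rintro _ ⟨v, hv, rfl⟩ _ ⟨w, hw, rfl⟩ hne
    rw [hdistW]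
    exact hd0.trans (h.sep v hv w hw (fun h' => hne (by rw [h'])))
  · -- soundness
    intro X hX
    set V := frac (fun u => ((R.toL e enc encP).data (fun i => nb (e.symm i))
      (fun u => encP (pub u)) {X | ∃ w ∈ W, X = fun u => enc (w u)} (fun u => enc (w0 u))
      (liftMap enc N) (liftMap enc M)).viol X u = true) with hV
    let X' : U → A := fun u => dec enc ((X u).getD (fun _ => false))
    -- a unit that is not violated
    have key : ∀ u, ¬ ((lift (R.toL e enc encP).viol (fun i => nb (e.symm i))
        (fun u => encP (pub u)) X u).getD true = true) →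
        (∀ i, X (nb i u) = some (enc (X' (nb i u)))) ∧
          ¬ R.viol (fun i => X' (nb i u)) (pub u) := by
      intro u hu
      unfold lift at hu
      split_ifs at hu with hex
      · have hsp := hex.choose_spec
        set x := hex.choose with hx
        simp only [Option.getD_some, MRules.toL, decide_eq_true_eq, not_or, not_exists,
          not_not] at hu
        obtain ⟨hu1, hu2⟩ := hu
        have hX1 : ∀ i, X (nb i u) = some (x (e i)) := fun i => by simpa using hsp (e i)
        have hX2 : ∀ i, X' (nb i u) = dec enc (x (e i)) := fun i => by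
          simp [X', hX1 i]
        refine ⟨fun i => ?_, ?_⟩
        · obtain ⟨a, ha⟩ := hu1 (e i)
          rw [hX2 i, hX1 i, ← ha, hdec]
        · have : (fun i => X' (nb i u)) = fun i => dec enc (x (e i)) := funext hX2
          rw [this]
          rw [hdecP] at hu2
          exact hu2
      · simp at hu
    have hVn : 0 ≤ V := frac_nonneg _
    have h1 : frac (fun u => R.viol (fun i => X' (nb i u)) (pub u)) ≤ V := by
      apply frac_mono
      intro u hu
      by_contra hcon
      exact (key u hcon).2 hu
    obtain ⟨w, hwW, hw⟩ := h.sound X' (h1.trans (hX.trans hzs))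
    refine ⟨fun u => enc (w u), ⟨w, hwW, rfl⟩, ?_⟩
    have hmono : dist X (fun u => enc (w u)) ≤ distW X' w + V := by
      refine (frac_mono (q := fun u => X' u ≠ w u ∨
        ((R.toL e enc encP).data (fun i => nb (e.symm i))
          (fun u => encP (pub u)) {X | ∃ w ∈ W, X = fun u => enc (w u)} (fun u => enc (w0 u))
          (liftMap enc N) (liftMap enc M)).viol X u = true) ?_).trans (frac_or _ _)
      intro u hu
      by_contra hcon
      push Not at hcon
      obtain ⟨hc1, hc2⟩ := hcon
      have := (key u hc2).1 i0
      rw [hi0, hc1] at this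
      exact hu this
    have hcge : 0 ≤ K.c - (c + 1) := by linarith
    by_cases hc0 : 0 ≤ c
    · have h2 : distW X' w ≤ c * V := hw.trans (mul_le_mul_of_nonneg_left h1 hc0)
      nlinarith
    · have h2 : distW X' w ≤ 0 := hw.trans
        (mul_nonpos_of_nonpos_of_nonneg (le_of_not_ge hc0) (frac_nonneg _))
      have := K.c_ge
      nlinarith
  · -- completeness
    rintro _ ⟨w, hw, rfl⟩ X
    have hle := hnb X w
    have hγnn := K.γ_nn
    refine (frac_mono (q := fun u => ∃ i, X (nb i u) ≠ some (enc (w (nb i u)))) ?_).trans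
      (by linarith)
    intro u hu
    by_contra hcon
    push Not at hcon
    change (lift (R.toL e enc encP).viol (fun i => nb (e.symm i))
        (fun u => encP (pub u)) X u).getD true = true at hu
    unfold lift at hu
    have hex : ∃ x : Fin k → Fin l → Bool, ∀ i, X (nb (e.symm i) u) = some (x i) :=
      ⟨fun i => enc (w (nb (e.symm i) u)), fun i => hcon (e.symm i)⟩
    rw [dif_pos hex] at hu
    have hsp := hex.choose_spec
    have hxeq : ∀ i, hex.choose i = enc (w (nb (e.symm i) u)) := fun i => by
      have := (hsp i).symm.trans (hcon (e.symm i))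
      exact Option.some_injective _ this
    simp only [Option.getD_some, MRules.toL, decide_eq_true_eq] at hu
    rcases hu with ⟨i, hi⟩ | hu
    · exact hi ⟨_, (hxeq i).symm⟩
    · have h1 : (fun i => dec enc (hex.choose (e i))) = fun i => w (nb i u) := by
        funext i
        rw [hxeq (e i), hdec, Equiv.symm_apply_apply]
      rw [h1, hdecP] at hu
      exact h.compl w hw u hu
  · -- correction
    rintro _ ⟨w, hw, rfl⟩ X hX
    have hE : frac (fun v => X v ≠ some (enc (w v))) ≤ r0 := le_trans hX hr0
    have h1 := h.corr w hw (fun v => X v ≠ some (enc (w v))) hE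
    have h2 : dist (klift (R.toL e enc encP).corr (fun i => nb (e.symm i))
        (fun u => encP (pub u)) X) (fun u => enc (w u)) ≤
        θ * dist X (fun u => enc (w u)) := by
      refine le_trans (frac_mono ?_) h1
      intro u hu
      by_contra hcon
      push Not at hcon
      apply hu
      apply klift_eq
      intro x hx
      have := hcon (fun i => dec enc (x (e i))) (fun i hi => by
        have hi' : X (nb i u) = some (enc (w (nb i u))) := hi
        have hx1 := hx (e i) (enc (w (nb i u))) (by simpa using hi')
        rw [hx1, hdec])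
      show enc (R.corr (fun i => dec enc (x (e i))) (dec encP (encP (pub u)))) = enc (w u)
      rw [hdecP, this]
    have h3 : 0 ≤ dist X (fun u => enc (w u)) := frac_nonneg _
    have h4 : θ * dist X (fun u => enc (w u)) ≤ dist X (fun u => enc (w u)) / 4 := by
      nlinarith
    exact h2.trans h4
  · rintro _ ⟨w, hw, rfl⟩ X _
    change dist _ (liftMap enc N _) ≤ _
    rw [liftMap_enc he N w]
    exact hstep R.Nu N w X (hs.N_loc w hw)
  · rintro _ ⟨w, hw, rfl⟩ X _
    change dist _ (liftMap enc M _) ≤ _
    rw [liftMap_enc he M w]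
    exact hstep R.Mu M w X (hs.M_loc w hw)

end literal

end Crest.Agent.R289.Word508
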