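import Crest.Agent.R289.TP_846
import Crest.Agent.R289.CorrTensor_974
import Crest.Agent.R289.Word_508

/-!
Row 289, leaf BC6 (helper974): local correction of the register words on a PRODUCT unit set
`P × T`, in the adversarial per-reader form of `Word508.CAx.corr`.

* `Bad f nb w E`  : units that adversarial values on `E` can make wrong; `SCorr f nb C r0 θ`.
* calculus        : `SCorr.comp`, `SCorr.pow`, `SCorr.label`, `SCorr.pi`, `SCorr.bundle`,
                    `scorr_prod` (columns after rows, from the one-sided statements),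
                    injectivity of the slots.
* leaves          : `scorr_tan` (one-sided Tanner codes; `bun`, `dist_bun`, `mem_tan_bun`: bundles,
                    mixtures of codes), `scorr_maj` (constant words on an expander).
* `cax_of_parts`  : test part + correction part = `Word508.CAx`.
-/

set_option autoImplicit false
set_option linter.unusedSectionVars false

namespace Crest.Agent.R289.CorrLab974

open Finset Crest.Agent.R289.DefD Crest.Agent.R289.CorrTensor974 Crest.Agent.R289.Tan846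

/-! ### the calculus -/

section calculus
variable {ι κ U A : Type}

/-- units that adversarial values on `E` (chosen per reader) can make wrong -/
def Bad (f : (ι → A) → A) (nb : ι → U → U) (w : U → A) (E : U → Prop) (u : U) : Prop :=
  ∃ x : ι → A, (∀ i, ¬ E (nb i u) → x i = w (nb i u)) ∧ f x ≠ w u

/-- the same for some word of the code `C` -/
def BadC (f : (ι → A) → A) (nb : ι → U → U) (C : Set (U → A)) (E : U → Prop) (u : U) : Prop :=
  ∃ w ∈ C, Bad f nb w E u

theorem Bad.mono {f : (ι → A) → A} {nb : ι → U → U} {w : U → A} {E E' : U → Prop}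
    (h : ∀ u, E u → E' u) {u : U} (hb : Bad f nb w E u) : Bad f nb w E' u := by
  obtain ⟨x, hx, hne⟩ := hb
  exact ⟨x, fun i hi => hx i fun hE => hi (h _ hE), hne⟩

theorem not_badC {f : (ι → A) → A} {nb : ι → U → U} {C : Set (U → A)} {E : U → Prop} {u : U}
    (h : ¬ BadC f nb C E u) {w : U → A} (hw : w ∈ C) (x : ι → A)
    (hx : ∀ i, ¬ E (nb i u) → x i = w (nb i u)) : f x = w u := by
  by_contra hne
  exact h ⟨w, hw, x, hx, hne⟩

/-- local correction of all words of `C`; the bad set `BadC` does not depend on the word -/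
def SCorr [Fintype U] (f : (ι → A) → A) (nb : ι → U → U) (C : Set (U → A)) (r0 θ : ℝ) : Prop :=
  ∀ E : U → Prop, frac E ≤ r0 → frac (BadC f nb C E) ≤ θ * frac E

/-- the field `corr` of `Word508.CAx` -/
theorem SCorr.corr [Fintype U] {f : (ι → A) → A} {nb : ι → U → U} {C : Set (U → A)}
    {r0 θ : ℝ} (h : SCorr f nb C r0 θ) :
    ∀ w ∈ C, ∀ E : U → Prop, frac E ≤ r0 →
      frac (fun u => ∃ x : ι → A, (∀ i, ¬ E (nb i u) → x i = w (nb i u)) ∧ f x ≠ w u) ≤
        θ * frac E := fun w hw E hE =>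
  (frac_mono fun _ hu => (⟨w, hw, hu⟩ : BadC f nb C E _)).trans (h E hE)

/-- form with an existential bad set -/
theorem SCorr.exists_bad [Fintype U] {f : (ι → A) → A} {nb : ι → U → U} {C : Set (U → A)}
    {r0 θ : ℝ} (h : SCorr f nb C r0 θ) (E : U → Prop) (hE : frac E ≤ r0) :
    ∃ B : U → Prop, frac B ≤ θ * frac E ∧ ∀ w ∈ C, ∀ u, ¬ B u → ∀ x : ι → A,
      (∀ i, ¬ E (nb i u) → x i = w (nb i u)) → f x = w u :=
  ⟨BadC f nb C E, h E hE, fun _ hw _ hu x hx => not_badC hu hw x hx⟩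

theorem scorr_of_bad [Fintype U] {f : (ι → A) → A} {nb : ι → U → U} {C : Set (U → A)}
    {r0 θ : ℝ} (h : ∀ E : U → Prop, frac E ≤ r0 → ∃ B : U → Prop, frac B ≤ θ * frac E ∧
      ∀ w ∈ C, ∀ u, ¬ B u → ∀ x : ι → A, (∀ i, ¬ E (nb i u) → x i = w (nb i u)) → f x = w u) :
    SCorr f nb C r0 θ := by
  intro E hE
  obtain ⟨B, hB, h2⟩ := h E hE
  refine (frac_mono fun u hu => ?_).trans hB
  obtain ⟨w, hw, x, hx, hne⟩ := hu
  by_contra hc
  exact hne (h2 w hw u hc x hx)

theorem SCorr.mono [Fintype U] {f : (ι → A) → A} {nb : ι → U → U} {C C' : Set (U → A)}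
    {r0 r0' θ θ' : ℝ} (h : SCorr f nb C r0 θ) (hC : C' ⊆ C) (hr : r0' ≤ r0) (hθ : θ ≤ θ') :
    SCorr f nb C' r0' θ' := fun E hE =>
  (frac_mono fun _ ⟨w, hw, hb⟩ => (⟨w, hC hw, hb⟩ : BadC f nb C E _)).trans
    ((h E (hE.trans hr)).trans (mul_le_mul_of_nonneg_right hθ (frac_nonneg _)))

/-- composition of rules: first `g`, then `f` -/
def compF (f : (ι → A) → A) (g : (κ → A) → A) (x : ι × κ → A) : A := f fun i => g fun j => x (i, j)

/-- slots of a composition -/
def compNb (nb : ι → U → U) (nb' : κ → U → U) (p : ι × κ) (u : U) : U := nb' p.2 (nb p.1 u)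

theorem bad_comp {f : (ι → A) → A} {g : (κ → A) → A} {nb : ι → U → U} {nb' : κ → U → U}
    {w : U → A} {E : U → Prop} {u : U} (h : Bad (compF f g) (compNb nb nb') w E u) :
    Bad f nb w (Bad g nb' w E) u := by
  obtain ⟨x, hx, hne⟩ := h
  refine ⟨fun i => g fun j => x (i, j), fun i hi => ?_, hne⟩
  by_contra hc
  exact hi ⟨fun j => x (i, j), fun j hj => hx (i, j) hj, hc⟩

theorem badC_comp {f : (ι → A) → A} {g : (κ → A) → A} {nb : ι → U → U} {nb' : κ → U → U}
    {C : Set (U → A)} {E : U → Prop} {u : U} (h : BadC (compF f g) (compNb nb nb') C E u) :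
    BadC f nb C (BadC g nb' C E) u := by
  obtain ⟨w, hw, hb⟩ := h
  exact ⟨w, hw, (bad_comp hb).mono fun v hv => ⟨w, hw, hv⟩⟩

theorem compNb_inj {nb : ι → U → U} {nb' : κ → U → U} (h : ∀ i, Function.Injective (nb i))
    (h' : ∀ i, Function.Injective (nb' i)) (p : ι × κ) : Function.Injective (compNb nb nb' p) :=
  fun _ _ e => h p.1 (h' p.2 e)

theorem SCorr.comp [Fintype U] {f : (ι → A) → A} {g : (κ → A) → A} {nb : ι → U → U}
    {nb' : κ → U → U} {C : Set (U → A)} {r0 θ θ' : ℝ} (hf : SCorr f nb C r0 θ)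
    (hg : SCorr g nb' C r0 θ') (h0 : 0 ≤ θ) (h1 : θ' ≤ 1) :
    SCorr (compF f g) (compNb nb nb') C r0 (θ * θ') := by
  intro E hE
  have a := hg E hE
  have b : frac (BadC g nb' C E) ≤ r0 := by
    refine a.trans (le_trans ?_ hE)
    calc θ' * frac E ≤ 1 * frac E := mul_le_mul_of_nonneg_right h1 (frac_nonneg _)
      _ = frac E := one_mul _
  refine (frac_mono fun u hu => badC_comp hu).trans ((hf _ b).trans ?_)
  rw [mul_assoc]
  exact mul_le_mul_of_nonneg_left a h0

/-- slots of `n` rounds -/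
def PowI (ι : Type) : ℕ → Type
  | 0 => Unit
  | n + 1 => ι × PowI ι n

instance PowI.fintype (ι : Type) [Fintype ι] : ∀ n, Fintype (PowI ι n)
  | 0 => inferInstanceAs (Fintype Unit)
  | n + 1 => by
      letI := PowI.fintype ι n
      exact inferInstanceAs (Fintype (ι × PowI ι n))

/-- `n` rounds of the rule `f` -/
def powF (f : (ι → A) → A) : ∀ n, (PowI ι n → A) → A
  | 0 => fun x => x ()
  | n + 1 => fun x => compF f (powF f n) x

def powNb (nb : ι → U → U) : ∀ n, PowI ι n → U → U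
  | 0 => fun _ u => u
  | n + 1 => fun p => compNb nb (powNb nb n) p

theorem powNb_inj {nb : ι → U → U} (h : ∀ i, Function.Injective (nb i)) :
    ∀ n p, Function.Injective (powNb nb n p)
  | 0, _ => fun _ _ e => e
  | n + 1, p => compNb_inj h (powNb_inj h n) p

theorem SCorr.pow [Fintype U] {f : (ι → A) → A} {nb : ι → U → U} {C : Set (U → A)} {r0 θ : ℝ}
    (hf : SCorr f nb C r0 θ) (h0 : 0 ≤ θ) (h1 : θ ≤ 1) (n : ℕ) :
    SCorr (powF f n) (powNb nb n) C r0 (θ ^ n) := by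
  induction n with
  | zero =>
    intro E _
    rw [pow_zero, one_mul]
    refine frac_mono fun u hu => ?_
    obtain ⟨w, _, x, hx, hne⟩ := hu
    by_contra hE
    exact hne (hx () hE)
  | succ n ih =>
    rw [pow_succ']
    exact hf.comp ih h0 (pow_le_one₀ h0 h1)

/-- transport of the labels along a bijection -/
def labF {A' : Type} (e : A ≃ A') (f : (ι → A') → A') (x : ι → A) : A := e.symm (f fun i => e (x i))

theorem SCorr.label [Fintype U] {A' : Type} (e : A ≃ A') {f : (ι → A') → A'} {nb : ι → U → U}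
    {C : Set (U → A')} {r0 θ : ℝ} (h : SCorr f nb C r0 θ) :
    SCorr (labF e f) nb {w : U → A | (fun u => e (w u)) ∈ C} r0 θ := by
  intro E hE
  refine (frac_mono fun u hu => ?_).trans (h E hE)
  obtain ⟨w, hw, x, hx, hne⟩ := hu
  refine ⟨_, hw, fun i => e (x i), fun i hi => congrArg e (hx i hi), fun he => hne ?_⟩
  unfold labF
  rw [he, Equiv.symm_apply_apply]

/-- finitely many registers with their own rules on the same units -/
def piF {J : Type} {ιj : J → Type} {Aj : J → Type} (f : ∀ j, (ιj j → Aj j) → Aj j)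
    (x : (Σ j, ιj j) → ∀ j, Aj j) : ∀ j, Aj j := fun j => f j fun i => x ⟨j, i⟩ j

theorem SCorr.pi [Fintype U] {J : Type} [Fintype J] {ιj : J → Type} {Aj : J → Type}
    {f : ∀ j, (ιj j → Aj j) → Aj j} {nb : ∀ j, ιj j → U → U} {C : ∀ j, Set (U → Aj j)} {r0 : ℝ}
    {θ : J → ℝ} (h : ∀ j, SCorr (f j) (nb j) (C j) r0 (θ j)) :
    SCorr (piF f) (fun p : Σ j, ιj j => nb p.1 p.2)
      {w : U → ∀ j, Aj j | ∀ j, (fun u => w u j) ∈ C j} r0 (∑ j, θ j) := by
  intro E hE
  refine le_trans (frac_mono (q := fun u => ∃ j, BadC (f j) (nb j) (C j) E u) ?_) ?_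
  · rintro u ⟨w, hw, x, hx, hne⟩
    obtain ⟨j, hj⟩ := Function.ne_iff.1 hne
    exact ⟨j, _, hw j, fun i => x ⟨j, i⟩ j, fun i hi => congrFun (hx ⟨j, i⟩ hi) j, hj⟩
  · refine (Word508.frac_exists _).trans ?_
    rw [Finset.sum_mul]
    exact Finset.sum_le_sum fun j _ => h j E hE

/-- a bundle of words of the same code with componentwise correction: the same factor -/
def bunF (κ : Type) (f : (ι → A) → A) (x : ι → κ → A) : κ → A := fun k => f fun i => x i k

theorem SCorr.bundle [Fintype U] (κ : Type) {f : (ι → A) → A} {nb : ι → U → U}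
    {C : Set (U → A)} {r0 θ : ℝ} (h : SCorr f nb C r0 θ) :
    SCorr (bunF κ f) nb {w : U → κ → A | ∀ k, (fun u => w u k) ∈ C} r0 θ := by
  intro E hE
  refine (frac_mono fun u hu => ?_).trans (h E hE)
  obtain ⟨w, hw, x, hx, hne⟩ := hu
  obtain ⟨k, hk⟩ := Function.ne_iff.1 hne
  exact ⟨_, hw k, fun i => x i k, fun i hi => congrFun (hx i hi) k, hk⟩

end calculus

/-! ### products of unit sets -/

section product
variable {ι κ U1 U2 A : Type} [Fintype U1] [Fintype U2]

/-- move in the first factor -/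
def nbL (nb : ι → U1 → U1) (i : ι) (u : U1 × U2) : U1 × U2 := (nb i u.1, u.2)

/-- move in the second factor -/
def nbR (nb : ι → U2 → U2) (i : ι) (u : U1 × U2) : U1 × U2 := (u.1, nb i u.2)

omit [Fintype U1] [Fintype U2] in
theorem nbL_inj {nb : ι → U1 → U1} (h : ∀ i, Function.Injective (nb i)) (i : ι) :
    Function.Injective (nbL (U2 := U2) nb i) := fun _ _ e =>
  Prod.ext (h i (Prod.mk.inj e).1) (Prod.mk.inj e).2

omit [Fintype U1] [Fintype U2] in
theorem nbR_inj {nb : ι → U2 → U2} (h : ∀ i, Function.Injective (nb i)) (i : ι) :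
    Function.Injective (nbR (U1 := U1) nb i) := fun _ _ e =>
  Prod.ext (Prod.mk.inj e).1 (h i (Prod.mk.inj e).2)

open Classical in
/-- an error set as an array with labels `Unit` -/
noncomputable def mkO {U : Type} (E : U → Prop) (u : U) : Option Unit := if E u then none else some ()

theorem mkO_ne {U : Type} (E : U → Prop) (u : U) : mkO E u ≠ some () ↔ E u := by
  unfold mkO
  split_ifs with h <;> simp [h]

theorem dist_mkO {U : Type} [Fintype U] (E : U → Prop) :
    DefD.dist (mkO E) (fun _ => ()) = frac E := by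
  unfold DefD.dist
  congr 1
  funext u
  exact propext (mkO_ne E u)

/-- **product correction**: rows first, columns second -/
theorem scorr_prod [Nonempty U1] [Nonempty U2] {f1 : (ι → A) → A} {nb1 : ι → U1 → U1}
    {C1 : Set (U1 → A)} {ρ1 κ1 : ℝ} {f2 : (κ → A) → A} {nb2 : κ → U2 → U2} {C2 : Set (U2 → A)}
    {ρ2 κ2 : ℝ} (h1 : SCorr f1 nb1 C1 ρ1 κ1) (h2 : SCorr f2 nb2 C2 ρ2 κ2)
    (hρ1 : 0 < ρ1) (hρ2 : 0 < ρ2) (hκ1 : 0 ≤ κ1) (hκ2 : 0 ≤ κ2) :
    SCorr (compF f1 f2) (compNb (nbL (U2 := U2) nb1) (nbR nb2))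
      {w | (∀ v, (fun u => w (u, v)) ∈ C1) ∧ ∀ u, (fun v => w (u, v)) ∈ C2}
      (ρ1 * ρ2 / 2) (κ1 / ρ2 + κ1 * κ2 + 2 * κ2 / ρ1) := by
  intro E hE
  have hc := contr_prod (Γ := Unit)
    (fun _ X => mkO (BadC f1 nb1 C1 fun u => X u ≠ some ()))
    (fun _ X => mkO (BadC f2 nb2 C2 fun v => X v ≠ some ()))
    (fun _ => ()) ρ1 ρ2 κ1 κ2 hρ1 hρ2 hκ1 hκ2
    (fun v X hX => by
      rw [dist_mkO]
      exact h1 _ hX)
    (fun u X hX => by
      rw [dist_mkO]
      exact h2 _ hX)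
    (mkO E) (by rw [dist_mkO]; exact hE)
  rw [dist_mkO] at hc
  refine le_trans (frac_mono fun u hu => ?_) hc
  obtain ⟨w, hw, hb⟩ := hu
  have h3 := bad_comp hb
  obtain ⟨u1, u2⟩ := u
  unfold colOp
  rw [mkO_ne]
  obtain ⟨x, hx, hne⟩ := h3
  refine ⟨_, hw.1 u2, x, fun i hi => hx i fun hb => hi ?_, hne⟩
  obtain ⟨y, hy, hne'⟩ := hb
  exact (mkO_ne _ _).2
    ⟨_, hw.2 _, y, fun j hj => hy j fun hE' => hj ((mkO_ne E _).2 hE'), hne'⟩

/-- **product correction** with factor `1/4` -/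
theorem scorr_prod_quarter [Nonempty U1] [Nonempty U2] {f1 : (ι → A) → A} {nb1 : ι → U1 → U1}
    {C1 : Set (U1 → A)} {ρ1 κ1 : ℝ} {f2 : (κ → A) → A} {nb2 : κ → U2 → U2} {C2 : Set (U2 → A)}
    {ρ2 κ2 θ : ℝ} (h1 : SCorr f1 nb1 C1 ρ1 κ1) (h2 : SCorr f2 nb2 C2 ρ2 κ2)
    (hρ1 : 0 < ρ1) (hρ2 : 0 < ρ2) (hρ1' : ρ1 ≤ 1) (hρ2' : ρ2 ≤ 1) (hκ1 : 0 ≤ κ1) (hκ2 : 0 ≤ κ2)
    (hθ : θ ≤ 1) (hk1 : κ1 ≤ θ * ρ2 / 4) (hk2 : κ2 ≤ θ * ρ1 / 4) :
    SCorr (compF f1 f2) (compNb (nbL (U2 := U2) nb1) (nbR nb2))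
      {w | (∀ v, (fun u => w (u, v)) ∈ C1) ∧ ∀ u, (fun v => w (u, v)) ∈ C2}
      (ρ1 * ρ2 / 2) θ := by
  refine (scorr_prod h1 h2 hρ1 hρ2 hκ1 hκ2).mono subset_rfl le_rfl ?_
  have hθ0 : 0 ≤ θ := by
    by_contra hneg
    push Not at hneg
    have : θ * ρ2 / 4 < 0 := by nlinarith
    linarith
  have a1 : κ1 / ρ2 ≤ θ / 4 := by rw [div_le_iff₀ hρ2]; linarith
  have a2 : κ2 / ρ1 ≤ θ / 4 := by rw [div_le_iff₀ hρ1]; linarith
  have a3 : κ1 * κ2 ≤ θ / 4 := by
    have b1 : κ1 ≤ θ / 4 := by nlinarith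
    have b2 : κ2 ≤ 1 := by nlinarith
    calc κ1 * κ2 ≤ (θ / 4) * 1 := mul_le_mul b1 b2 hκ2 (by linarith)
      _ = θ / 4 := by ring
  have a4 : 2 * κ2 / ρ1 = 2 * (κ2 / ρ1) := by ring
  rw [a4]
  linarith

end product

/-! ### the one-sided Tanner leaf -/

section tanner
variable {U U' I B B' κ : Type} [Fintype U] [Fintype U'] [Fintype I]

omit [Fintype U'] in
theorem frac_eq_cnt (p : U → Prop) : frac p = (cnt p : ℝ) / Fintype.card U := rfl

/-- the rule of `Tan846` on total labels -/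
noncomputable def tanF (R0 R1 : Set (I → B)) (d : ℕ) (dflt : I → B) (x : I × I → I → B) : I → B :=
  (rule R0 R1 d fun z z' => some (x (z, z'))).getD dflt

/-- the slots: `(pi z')⁻¹ (pi z u)` -/
def tanNb (pi : I → U ≃ U') (p : I × I) (u : U) : U := (pi p.2).symm (pi p.1 u)

omit [Fintype U] [Fintype U'] [Fintype I] in
theorem tanNb_inj (pi : I → U ≃ U') (p : I × I) : Function.Injective (tanNb pi p) :=
  fun _ _ e => (pi p.1).injective ((pi p.2).symm.injective e)

omit [Fintype U] [Fintype U'] in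
theorem rule_eq {R0 R1 : Set (I → B)} {d t : ℕ} (ht : 2 * t ≤ d + 1) (h0 : Dist R0 d)
    (h1 : Dist R1 d) (nb : I → I → Option (I → B)) {c : I → B} (hc : c ∈ R0) (y : I → I → B)
    (hy : ∀ z, y z ∈ R1) (hcy : ∀ z, y z z = c z)
    (h : cnt (fun z => t ≤ cnt fun z' => (nb z z').map (fun g => g z') ≠ some (y z z')) < t) :
    rule R0 R1 d nb = some c := by
  unfold rule
  refine dec_eq h0 hc ?_
  have hle : cnt (fun z => ((dec R1 d fun z' => (nb z z').map (fun g => g z')).map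
      (fun c => c z)) ≠ some (c z)) ≤
      cnt (fun z => t ≤ cnt fun z' => (nb z z').map (fun g => g z') ≠ some (y z z')) := by
    refine cnt_le fun z hz => ?_
    by_contra hb
    apply hz
    rw [dec_eq (l := fun z' => (nb z z').map (fun g => g z')) h1 (hy z) (by omega)]
    simp [hcy]
  omega

/-- local correction by the x-lines (or y-lines), factor `1/4`, adversarial form -/
theorem scorr_tan [Nonempty U] {pi : I → U ≃ U'} {lam r0 : ℝ}
    (hE : Ex pi (Fintype.card U) lam) (hE' : Ex (fun z => (pi z).symm) (Fintype.card U) lam)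
    {R0 R1 : Set (I → B)} {d : ℕ} (hd : 0 < d) (h0 : Dist R0 d) (h1 : Dist R1 d)
    (hlam : 8 * (Fintype.card I : ℝ) ^ 2 * (r0 + lam ^ 2) ≤ (d : ℝ) ^ 2) (dflt : I → B) :
    SCorr (tanF R0 R1 d dflt) (tanNb pi) (Tan pi R0 R1) r0 (1 / 4) := by
  intro E hEr
  obtain ⟨N, hNdef⟩ : ∃ N : ℝ, N = (Fintype.card U : ℝ) := ⟨_, rfl⟩
  have hN : 0 < N := by rw [hNdef]; exact_mod_cast Fintype.card_pos
  rw [frac_eq_cnt, ← hNdef, div_le_iff₀ hN] at hEr
  rw [← hNdef] at hE hE'
  obtain ⟨n, hn⟩ : ∃ n : ℝ, n = (Fintype.card I : ℝ) := ⟨_, rfl⟩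
  obtain ⟨t, ht⟩ : ∃ t : ℕ, t = (d + 1) / 2 := ⟨_, rfl⟩
  rw [← hn] at hlam
  have hdt : (d : ℝ) ≤ 2 * t := by
    have : d ≤ 2 * t := by omega
    exact_mod_cast this
  have hd' : (0 : ℝ) < (d : ℝ) ^ 2 := by positivity
  have est : ∀ (x y : ℕ), (x : ℝ) * (t : ℝ) ^ 2 ≤ n ^ 2 * ((y : ℝ) ^ 2 / N + lam ^ 2 * y) →
      (y : ℝ) ≤ r0 * N → (x : ℝ) ≤ y / 2 := by
    intro x y hxy hy
    have h2 : (y : ℝ) ^ 2 / N ≤ r0 * y := by
      rw [div_le_iff₀ hN]
      nlinarith [(Nat.cast_nonneg y : (0 : ℝ) ≤ y)]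
    have h3 : (x : ℝ) * d ^ 2 ≤ 4 * (x * t ^ 2) := by
      have h4 : (d : ℝ) ^ 2 ≤ 4 * t ^ 2 := by nlinarith [(Nat.cast_nonneg d : (0 : ℝ) ≤ d)]
      nlinarith [(Nat.cast_nonneg x : (0 : ℝ) ≤ x)]
    have h5 : (x : ℝ) * d ^ 2 ≤ (y / 2) * d ^ 2 := by
      calc (x : ℝ) * d ^ 2 ≤ 4 * (x * t ^ 2) := h3
        _ ≤ 4 * (n ^ 2 * ((y : ℝ) ^ 2 / N + lam ^ 2 * y)) := by linarith
        _ ≤ 4 * (n ^ 2 * (r0 * y + lam ^ 2 * y)) := by
            have := mul_le_mul_of_nonneg_left h2 (by positivity : (0:ℝ) ≤ n ^ 2)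
            nlinarith
        _ = (y / 2) * (8 * n ^ 2 * (r0 + lam ^ 2)) := by ring
        _ ≤ (y / 2) * d ^ 2 := mul_le_mul_of_nonneg_left hlam (by positivity)
    exact le_of_mul_le_mul_right h5 hd'
  have f1 := few hE E t
  rw [← hn] at f1
  have hH1 := est _ _ f1 hEr
  have hW0 : (0 : ℝ) ≤ (cnt E : ℝ) := by positivity
  have f2 := few hE' (fun h : U' => t ≤ cnt (fun z : I => E ((pi z).symm h))) t
  rw [← hn] at f2
  have hH2 := est _ _ f2 (by linarith)
  have hsub : cnt (BadC (tanF R0 R1 d dflt) (tanNb pi) (Tan pi R0 R1) E) ≤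
      cnt (fun u : U => t ≤ cnt (fun z : I => t ≤ cnt (fun z' : I =>
        E ((pi z').symm (((pi z).symm).symm u))))) := by
    refine cnt_le fun u hu => ?_
    by_contra hc
    push Not at hc
    obtain ⟨Y, hY, x, hx, hne⟩ := hu
    apply hne
    have := rule_eq (t := t) (by omega) h0 h1 (fun z z' => some (x (z, z'))) (hY.1 u)
      (fun z z' => Y ((pi z').symm (pi z u)) z') (fun z => hY.2 (pi z u)) (fun z => by simp)
      (lt_of_le_of_lt (cnt_le fun z hz => hz.trans (cnt_le fun z' hz' => by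
        by_contra hE''
        apply hz'
        rw [hx (z, z') hE'']
        rfl)) hc)
    unfold tanF
    rw [this]
    rfl
  have hsub' : (cnt (BadC (tanF R0 R1 d dflt) (tanNb pi) (Tan pi R0 R1) E) : ℝ) ≤
      (cnt (fun u : U => t ≤ cnt (fun z : I => t ≤ cnt (fun z' : I =>
        E ((pi z').symm (((pi z).symm).symm u))))) : ℝ) := by
    exact_mod_cast hsub
  rw [frac_eq_cnt, frac_eq_cnt, ← hNdef, ← mul_div_assoc]
  apply div_le_div_of_nonneg_right _ hN.le
  linarith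

/-- bundle of (different) local codes -/
def bun (φ : κ → B' → B) (R : κ → Set (I → B)) : Set (I → B') :=
  {c | ∀ k, (fun z => φ k (c z)) ∈ R k}

omit [Fintype U] [Fintype U'] in
theorem dist_bun {φ : κ → B' → B} (hφ : ∀ b b', (∀ k, φ k b = φ k b') → b = b')
    {R : κ → Set (I → B)} {d : ℕ} (h : ∀ k, Dist (R k) d) : Dist (bun φ R) d := by
  intro c hc c' hc' hne
  obtain ⟨z, hz⟩ := Function.ne_iff.1 hne
  have : ∃ k, φ k (c z) ≠ φ k (c' z) := by
    by_contra hcon
    push Not at hcon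
    exact hz (hφ _ _ hcon)
  obtain ⟨k, hk⟩ := this
  refine le_trans (h k _ (hc k) _ (hc' k) fun he => hk (congrFun he z)) (cnt_le fun y hy he => hy ?_)
  rw [he]

omit [Fintype U] [Fintype U'] [Fintype I] in
theorem mem_tan_bun {pi : I → U ≃ U'} {φ : κ → B' → B} {R0 R1 : κ → Set (I → B)}
    {Y : U → I → B'} (h : ∀ k, (fun u z => φ k (Y u z)) ∈ Tan pi (R0 k) (R1 k)) :
    Y ∈ Tan pi (bun φ R0) (bun φ R1) :=
  ⟨fun u k => (h k).1 u, fun v k => (h k).2 v⟩

end tanner

/-! ### the majority leaf -/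

section majority
variable {U U' I A : Type} [Fintype U] [Fintype U'] [Fintype I]

open Classical in
/-- the value of more than half of the slots -/
noncomputable def majF (dflt : A) (x : I → A) : A :=
  if h : ∃ a, Fintype.card I < 2 * cnt (fun z => x z = a) then h.choose else dflt

omit [Fintype U] in
theorem majF_eq (dflt : A) (x : I → A) (a : A) (h : 2 * cnt (fun z => x z ≠ a) < Fintype.card I) :
    majF dflt x = a := by
  classical
  have key : ∀ p : I → Prop, cnt p + cnt (fun z => ¬ p z) = Fintype.card I := by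
    intro p
    unfold cnt
    rw [← Finset.card_univ, ← Finset.card_filter_add_card_filter_not (s := univ) p]
    congr!
  have h1 : Fintype.card I < 2 * cnt (fun z => x z = a) := by
    have := key (fun z => x z = a)
    have h2 : cnt (fun z => ¬ x z = a) = cnt (fun z => x z ≠ a) := rfl
    omega
  have hex : ∃ a, Fintype.card I < 2 * cnt (fun z => x z = a) := ⟨a, h1⟩
  unfold majF
  rw [dif_pos hex]
  by_contra hne
  have h3 := hex.choose_spec
  have h4 : cnt (fun z => x z = hex.choose) ≤ cnt (fun z => ¬ x z = a) :=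
    cnt_le fun z hz he => hne (hz.symm.trans he)
  have := key (fun z => x z = a)
  omega

/-- majority along the steps `pi z` corrects the constant words -/
theorem scorr_maj [Nonempty U] [Nonempty I] {pi : I → U ≃ U} {lam r0 : ℝ}
    (hE : Ex pi (Fintype.card U) lam) (dflt : A) :
    SCorr (majF dflt) (fun z => (pi z).symm) {w : U → A | ∃ a, ∀ u, w u = a} r0
      (4 * (r0 + lam ^ 2)) := by
  intro E hEr
  obtain ⟨N, hNdef⟩ : ∃ N : ℝ, N = (Fintype.card U : ℝ) := ⟨_, rfl⟩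
  have hN : 0 < N := by rw [hNdef]; exact_mod_cast Fintype.card_pos
  rw [frac_eq_cnt, ← hNdef, div_le_iff₀ hN] at hEr
  rw [← hNdef] at hE
  obtain ⟨n, hn⟩ : ∃ n : ℝ, n = (Fintype.card I : ℝ) := ⟨_, rfl⟩
  have hn0 : 0 < n := by rw [hn]; exact_mod_cast Fintype.card_pos
  obtain ⟨t, ht⟩ : ∃ t : ℕ, t = (Fintype.card I + 1) / 2 := ⟨_, rfl⟩
  have hnt : n ≤ 2 * t := by
    have : Fintype.card I ≤ 2 * t := by omega
    rw [hn]
    exact_mod_cast this
  have f1 := few hE E t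
  rw [← hn] at f1
  have hsub : cnt (BadC (majF dflt) (fun z => (pi z).symm) {w : U → A | ∃ a, ∀ u, w u = a} E) ≤
      cnt (fun h : U => t ≤ cnt (fun z : I => E ((pi z).symm h))) := by
    refine cnt_le fun u hu => ?_
    by_contra hc
    push Not at hc
    obtain ⟨w, ⟨a, ha⟩, x, hx, hne⟩ := hu
    apply hne
    rw [ha u]
    apply majF_eq
    have : cnt (fun z => x z ≠ a) ≤ cnt (fun z : I => E ((pi z).symm u)) := by
      refine cnt_le fun z hz => ?_
      by_contra hE'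
      exact hz ((hx z hE').trans (ha _))
    omega
  have hsub' : (cnt (BadC (majF dflt) (fun z => (pi z).symm)
      {w : U → A | ∃ a, ∀ u, w u = a} E) : ℝ) ≤
      (cnt (fun h : U => t ≤ cnt (fun z : I => E ((pi z).symm h))) : ℝ) := by
    exact_mod_cast hsub
  obtain ⟨y, hy⟩ : ∃ y : ℝ, y = (cnt E : ℝ) := ⟨_, rfl⟩
  obtain ⟨b, hb⟩ : ∃ b : ℝ, b = (cnt (fun h : U => t ≤ cnt (fun z : I => E ((pi z).symm h))) : ℝ) :=
    ⟨_, rfl⟩
  rw [← hy, ← hb] at f1
  rw [← hb] at hsub'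
  rw [← hy] at hEr
  have hy0 : 0 ≤ y := by rw [hy]; positivity
  have hb0 : 0 ≤ b := by rw [hb]; positivity
  have h2 : y ^ 2 / N ≤ r0 * y := by
    rw [div_le_iff₀ hN]
    nlinarith
  have h3 : b * n ^ 2 ≤ 4 * (b * (t : ℝ) ^ 2) := by
    have h4 : n ^ 2 ≤ 4 * (t : ℝ) ^ 2 := by nlinarith
    nlinarith
  have h5 : b * n ^ 2 ≤ (4 * (r0 + lam ^ 2) * y) * n ^ 2 := by
    calc b * n ^ 2 ≤ 4 * (b * (t : ℝ) ^ 2) := h3
      _ ≤ 4 * (n ^ 2 * (y ^ 2 / N + lam ^ 2 * y)) := by linarith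
      _ ≤ 4 * (n ^ 2 * (r0 * y + lam ^ 2 * y)) := by
          have := mul_le_mul_of_nonneg_left h2 (by positivity : (0:ℝ) ≤ n ^ 2)
          nlinarith
      _ = (4 * (r0 + lam ^ 2) * y) * n ^ 2 := by ring
  have h6 : b ≤ 4 * (r0 + lam ^ 2) * y := le_of_mul_le_mul_right h5 (by positivity)
  rw [frac_eq_cnt, frac_eq_cnt, ← hNdef, ← hy, ← mul_div_assoc]
  apply div_le_div_of_nonneg_right _ hN.le
  linarith

end majority

/-! ### test part + correction part = `CAx` -/

section cax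
open Word508 (CRules CAx NbMult)
variable {ι ι' U A P : Type} [Fintype U]

/-- rules with the test on the slots `ι` and the correction on the slots `ι'` -/
def partRules (viol : (ι → A) → P → Prop) (f : (ι' → A) → A) : CRules (ι ⊕ ι') A P where
  viol x p := viol (fun i => x (Sum.inl i)) p
  corr x _ := f fun i => x (Sum.inr i)

/-- **test part + correction part** -/
theorem cax_of_parts {viol : (ι → A) → P → Prop} {f : (ι' → A) → A} {nb : ι → U → U}
    {nb' : ι' → U → U} {pub : U → P} {C : Set (U → A)} {m zs r0 d0 c θ : ℝ}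
    (hm : NbMult nb m) (hm' : NbMult nb' m)
    (sep : ∀ v ∈ C, ∀ w ∈ C, v ≠ w → d0 ≤ distW v w)
    (sound : ∀ X : U → A, frac (fun u => viol (fun i => X (nb i u)) (pub u)) ≤ zs →
      ∃ w ∈ C, distW X w ≤ c * frac (fun u => viol (fun i => X (nb i u)) (pub u)))
    (compl : ∀ w ∈ C, ∀ u, ¬ viol (fun i => w (nb i u)) (pub u))
    (corr : SCorr f nb' C r0 θ) :
    CAx (partRules viol f) (Sum.elim nb nb') pub C m zs r0 d0 c θ where
  mult := by
    rintro (i | i) E
    · exact hm i E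
    · exact hm' i E
  sep := sep
  sound := sound
  compl := compl
  corr := by
    intro w hw E hE
    refine le_trans (frac_mono fun u hu => ?_) (corr.corr w hw E hE)
    obtain ⟨x, hx, hne⟩ := hu
    exact ⟨fun i => x (Sum.inr i), fun i hi => hx (Sum.inr i) hi, hne⟩

/-- a `CAx` gives an `SCorr` for single words -/
theorem scorr_of_cax {R : CRules ι A P} {nb : ι → U → U} {pub : U → P} {C : Set (U → A)}
    {m zs r0 d0 c θ : ℝ} (h : CAx R nb pub C m zs r0 d0 c θ) (p0 : P) (hp : ∀ u, pub u = p0)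
    {w : U → A} (hw : w ∈ C) : SCorr (fun x => R.corr x p0) nb {w} r0 θ := by
  intro E hE
  refine le_trans (frac_mono fun u hu => ?_) (h.corr w hw E hE)
  obtain ⟨w', rfl, x, hx, hne⟩ := hu
  exact ⟨x, hx, by rw [hp u]; exact hne⟩

end cax

end Crest.Agent.R289.CorrLab974
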