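import Crest.Agent.R289.Word_508

/-!
Row 289, seam B/C: linear unit codes, exits and small constructions (helper443), on the structure
`LU` of helper846 (#6122):

* `LU.toCAx`  : all registers of one type together are a `Word508.CAx`;
* `LU.comp`, `LU.iter` : iterated correction;
* `LU.rep`    : constant words on an expander.
-/

set_option autoImplicit false
set_option linter.unusedSectionVars false

namespace Crest.Agent.R289.LUb443

open Finset Crest.Agent.R289.DefD Crest.Agent.R289.Word508

/-- linear unit code (copy of the structure of #6122) -/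
structure LU {U ι ι' Lam K : Type} [Fintype U] [Field K] (C : Submodule K (U → Lam → K))
    (nb : ι → U → U) (N : Submodule K (ι → Lam → K)) (nb' : ι' → U → U)
    (cr : (ι' → Lam → K) → Lam → K) (m zs r0 d0 c th : ℝ) : Prop where
  mem : ∀ X, X ∈ C ↔ ∀ u, (fun i => X (nb i u)) ∈ N
  sep : ∀ w ∈ C, w ≠ 0 → d0 ≤ frac fun u => w u ≠ 0
  sound : ∀ (β : Type) [Fintype β] (X : U → Lam → β → K),
    frac (fun u => ∃ b, (fun i s => X (nb i u) s b) ∉ N) ≤ zs →
      ∃ Y : U → Lam → β → K, (∀ b, (fun u s => Y u s b) ∈ C) ∧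
        frac (fun u => X u ≠ Y u) ≤ c * frac fun u => ∃ b, (fun i s => X (nb i u) s b) ∉ N
  corr : ∀ E : U → Prop, frac E ≤ r0 → ∃ B : U → Prop, frac B ≤ th * frac E ∧
    ∀ w ∈ C, ∀ u, ¬ B u → ∀ x, (∀ i, ¬ E (nb' i u) → x i = w (nb' i u)) → cr x = w u
  mult : NbMult nb m
  mult' : NbMult nb' m

section exit
variable {U ι ι' Lam K : Type} [Fintype U] [Field K] {C : Submodule K (U → Lam → K)}
    {nb : ι → U → U} {N : Submodule K (ι → Lam → K)} {nb' : ι' → U → U}
    {cr : (ι' → Lam → K) → Lam → K} {m zs r0 d0 c th : ℝ}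

/-- rules of a bundle of registers `κ` of one type; slots `ι ⊕ ι'` -/
def rules (N : Submodule K (ι → Lam → K)) (cr : (ι' → Lam → K) → Lam → K) (κ P : Type) :
    CRules (ι ⊕ ι') (Lam → κ → K) P where
  viol x _ := ∃ b : κ, (fun (i : ι) s => x (Sum.inl i) s b) ∉ N
  corr x _ := fun s b => cr (fun i s' => x (Sum.inr i) s' b) s

/-- words: every register is a code word -/
def bun (C : Submodule K (U → Lam → K)) (κ : Type) : Set (U → Lam → κ → K) :=
  {w | ∀ b, (fun u s => w u s b) ∈ C}

/-- **exit**: a bundle of registers is a `CAx` -/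
theorem LU.toCAx (h : LU C nb N nb' cr m zs r0 d0 c th) (κ P : Type) [Fintype κ] (pub : U → P) :
    CAx (rules N cr κ P) (Sum.elim nb nb') pub (bun C κ) m zs r0 d0 c th where
  mult := by
    intro i E
    cases i with
    | inl i => exact h.mult i E
    | inr i => exact h.mult' i E
  sep := by
    intro v hv w hw hne
    have : ∃ b, (fun u s => v u s b) ≠ fun u s => w u s b := by
      by_contra hc
      push Not at hc
      apply hne
      funext u s b
      exact congrFun (congrFun (hc b) u) s
    obtain ⟨b, hb⟩ := this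
    have h1 := h.sep ((fun u s => v u s b) - fun u s => w u s b) (C.sub_mem (hv b) (hw b))
      (sub_ne_zero.2 hb)
    refine h1.trans (frac_mono fun u hu he => hu ?_)
    simp only [Pi.sub_apply]
    rw [he, sub_self]
  sound := by
    intro X hX
    obtain ⟨Y, hY, hd⟩ := h.sound κ X hX
    exact ⟨Y, hY, hd⟩
  compl := by
    rintro w hw u ⟨b, hb⟩
    exact hb ((h.mem _).1 (hw b) u)
  corr := by
    intro w hw E hE
    obtain ⟨B, hB, hcor⟩ := h.corr E hE
    refine le_trans (frac_mono ?_) hB
    rintro u ⟨x, hx, hne⟩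
    by_contra hu
    apply hne
    funext s b
    have h1 := hcor _ (hw b) u hu (fun i s' => x (Sum.inr i) s' b) (fun i hi => by
      funext s'
      have := hx (Sum.inr i) hi
      exact congrFun (congrFun this s') b)
    exact congrFun h1 s

end exit

/-! ### weakening, iteration -/

section iter
variable {U ι ι' ι'' Lam K : Type} [Fintype U] [Field K] {C : Submodule K (U → Lam → K)}
    {nb : ι → U → U} {N : Submodule K (ι → Lam → K)} {nb' : ι' → U → U} {nb'' : ι'' → U → U}
    {cr : (ι' → Lam → K) → Lam → K} {cr' : (ι'' → Lam → K) → Lam → K}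
    {m m' zs r0 r0' d0 c th th' : ℝ}

theorem nbMult_mono {ι : Type} {nb : ι → U → U} (h : NbMult nb m) (hm : m ≤ m') :
    NbMult nb m' := fun i E =>
  (h i E).trans (mul_le_mul_of_nonneg_right hm (frac_nonneg _))

theorem nbMult_comp {nb' : ι' → U → U} {nb'' : ι'' → U → U} (h : NbMult nb' m)
    (h' : NbMult nb'' m') (hm : 0 ≤ m) :
    NbMult (fun (i : ι' × ι'') u => nb'' i.2 (nb' i.1 u)) (m * m') := by
  intro i E
  refine (h i.1 fun u => E (nb'' i.2 u)).trans ?_
  rw [mul_assoc]
  exact mul_le_mul_of_nonneg_left (h' i.2 E) hm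

/-- two corrections, one after the other -/
theorem LU.comp (h : LU C nb N nb' cr m zs r0 d0 c th) (h' : LU C nb N nb'' cr' m' zs r0' d0 c th')
    (hm : 1 ≤ m) (hm' : 1 ≤ m') (hth : 0 ≤ th) (hr : th' * r0' ≤ r0) (hr' : 0 ≤ th')
    (r1 : ℝ) (hr1 : r1 ≤ r0') :
    LU C nb N (fun (i : ι' × ι'') u => nb'' i.2 (nb' i.1 u))
      (fun x => cr fun i => cr' fun j => x (i, j)) (m * m') zs r1 d0 c (th * th') where
  mem := h.mem
  sep := h.sep
  sound := h.sound
  mult := nbMult_mono h.mult (by nlinarith)
  mult' := nbMult_comp h.mult' h'.mult' (by linarith)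
  corr := by
    intro E hE
    obtain ⟨B1, hB1, hc1⟩ := h'.corr E (hE.trans hr1)
    have hb : frac B1 ≤ r0 :=
      hB1.trans ((mul_le_mul_of_nonneg_left (hE.trans hr1) hr').trans hr)
    obtain ⟨B2, hB2, hc2⟩ := h.corr B1 hb
    refine ⟨B2, ?_, ?_⟩
    · calc frac B2 ≤ th * frac B1 := hB2
        _ ≤ th * (th' * frac E) := mul_le_mul_of_nonneg_left hB1 hth
        _ = _ := by ring
    · intro w hw u hu x hx
      refine hc2 w hw u hu _ fun i hi => ?_
      exact hc1 w hw _ hi _ fun j hj => hx (i, j) hj

/-- slots of `r + 1` rounds -/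
def Slots (ι' : Type) : ℕ → Type
  | 0 => ι'
  | r + 1 => ι' × Slots ι' r

instance instFintypeSlots (ι' : Type) [Fintype ι'] : ∀ r, Fintype (Slots ι' r)
  | 0 => inferInstanceAs (Fintype ι')
  | r + 1 => by
    haveI := instFintypeSlots ι' r
    exact inferInstanceAs (Fintype (ι' × Slots ι' r))

/-- neighbours of `r + 1` rounds -/
def nbIt (nb' : ι' → U → U) : ∀ r, Slots ι' r → U → U
  | 0 => nb'
  | r + 1 => fun (i : ι' × Slots ι' r) u => nbIt nb' r i.2 (nb' i.1 u)

/-- rule of `r + 1` rounds -/
def crIt (cr : (ι' → Lam → K) → Lam → K) : ∀ r, (Slots ι' r → Lam → K) → Lam → K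
  | 0 => cr
  | r + 1 => fun x => cr fun i => crIt cr r fun j => x (i, j)

/-- `r + 1` rounds of correction: factor `th ^ (r + 1)` -/
theorem LU.iter (h : LU C nb N nb' cr m zs r0 d0 c th) (hm : 1 ≤ m) (hth : 0 ≤ th)
    (hth1 : th ≤ 1) (hr0 : 0 ≤ r0) (r : ℕ) :
    LU C nb N (nbIt nb' r) (crIt cr r) (m ^ (r + 1)) zs r0 d0 c (th ^ (r + 1)) := by
  induction r with
  | zero =>
    simp only [zero_add, pow_one]
    exact h
  | succ r ih =>
    have h1 := LU.comp h ih hm (one_le_pow₀ hm) hth
      (by
        have : th ^ (r + 1) ≤ 1 := pow_le_one₀ hth hth1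
        nlinarith) (by positivity) r0 le_rfl
    rw [pow_succ' m, pow_succ' th]
    exact h1

end iter

/-! ### repetition code -/

section rep
variable {U ι Lam K : Type} [Fintype U] [Fintype ι] [Field K]

/-- second moment inequality of the wiring `ga` -/
def MixU (ga : ι → U → U) (lam : ℝ) : Prop :=
  ∀ f : U → ℝ, (∀ u, 0 ≤ f u) →
    ∑ u, (∑ i, f (ga i u)) ^ 2 ≤
      (Fintype.card ι : ℝ) ^ 2 * ((∑ u, f u) ^ 2 / (Fintype.card U : ℝ) + lam ^ 2 * ∑ u, f u ^ 2)

/-- constant words -/
def repC (U Lam K : Type) [Field K] : Submodule K (U → Lam → K) where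
  carrier := {X | ∀ u v, X u = X v}
  add_mem' := by
    intro a b ha hb u v
    simp only [Pi.add_apply]
    rw [ha u v, hb u v]
  zero_mem' := fun _ _ => rfl
  smul_mem' := by
    intro c a ha u v
    simp only [Pi.smul_apply]
    rw [ha u v]

/-- local condition: all neighbours have the label of the unit -/
def repN (ι Lam K : Type) [Field K] : Submodule K (Option ι → Lam → K) where
  carrier := {x | ∀ i : ι, x (some i) = x none}
  add_mem' := by
    intro a b ha hb i
    simp only [Pi.add_apply]
    rw [ha i, hb i]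
  zero_mem' := fun _ => rfl
  smul_mem' := by
    intro c a ha i
    simp only [Pi.smul_apply]
    rw [ha i]

/-- neighbours: the unit itself and its images -/
def repNb (ga : ι → U → U) : Option ι → U → U
  | none => id
  | some i => ga i

open Classical in
/-- majority -/
noncomputable def maj {A : Type} [Nonempty A] (x : ι → A) : A :=
  if h : ∃ a, Fintype.card ι < 2 * (univ.filter fun i => x i = a).card then h.choose else Classical.arbitrary A

theorem maj_eq {A : Type} [Nonempty A] {x : ι → A} {a : A} {p : ι → Prop}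
    (hx : ∀ i, ¬ p i → x i = a)
    (h : 2 * Nat.card {i // p i} < Fintype.card ι) : maj x = a := by
  classical
  have hcard : Nat.card {i // p i} = (univ.filter p).card := by
    rw [Nat.card_eq_fintype_card, Fintype.card_subtype]
  rw [hcard] at h
  have h1 : (univ.filter fun i => ¬ x i = a).card ≤ (univ.filter p).card :=
    card_le_card fun i hi => by
      simp only [mem_filter, mem_univ, true_and] at hi ⊢
      by_contra hc
      exact hi (hx i hc)
  have h2 := card_filter_add_card_filter_not (s := (univ : Finset ι)) (fun i => x i = a)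
  rw [card_univ] at h2
  have hex : ∃ a, Fintype.card ι < 2 * (univ.filter fun i => x i = a).card := ⟨a, by omega⟩
  unfold maj
  rw [dif_pos hex]
  by_contra hne
  have h3 := hex.choose_spec
  have h4 : (univ.filter fun i => x i = hex.choose).card ≤
      (univ.filter fun i => ¬ x i = a).card :=
    card_le_card fun i hi => by
      simp only [mem_filter, mem_univ, true_and] at hi ⊢
      rw [hi]
      exact hne
  omega

theorem frac_mul_card [Nonempty U] (p : U → Prop) [DecidablePred p] :
    frac p * Fintype.card U = ((univ.filter p).card : ℝ) := by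
  have hU : (0 : ℝ) < Fintype.card U := by exact_mod_cast Fintype.card_pos
  unfold frac
  rw [div_mul_cancel₀ _ hU.ne']
  congr!

open Classical in
/-- mixing for a set, lower tail: units with at least `t` of their neighbours in `A` -/
theorem many_le [Nonempty U] {ga : ι → U → U} {lam : ℝ} (h : MixU ga lam) (A : U → Prop) (t : ℝ)
    (ht : 0 ≤ t) :
    t ^ 2 * ((univ.filter fun u => t ≤ ((univ.filter fun i => A (ga i u)).card : ℝ)).card : ℝ) ≤
      (Fintype.card ι : ℝ) ^ 2 * (((univ.filter A).card : ℝ) ^ 2 / (Fintype.card U : ℝ) +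
        lam ^ 2 * ((univ.filter A).card : ℝ)) := by
  have h1 := h (fun u => if A u then 1 else 0) (fun u => by split_ifs <;> norm_num)
  have e1 : ∑ u, (if A u then (1 : ℝ) else 0) = ((univ.filter A).card : ℝ) := by simp
  have e2 : ∑ u, (if A u then (1 : ℝ) else 0) ^ 2 = ((univ.filter A).card : ℝ) := by
    rw [← e1]
    refine Finset.sum_congr rfl fun u _ => ?_
    split_ifs <;> norm_num
  have e3 : ∀ u, ∑ i, (if A (ga i u) then (1 : ℝ) else 0) =
      ((univ.filter fun i => A (ga i u)).card : ℝ) := fun u => by simp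
  rw [e1, e2] at h1
  simp only [e3] at h1
  refine le_trans ?_ h1
  rw [mul_comm, ← nsmul_eq_mul, ← Finset.sum_const]
  refine le_trans (Finset.sum_le_sum (g := fun u =>
    ((univ.filter fun i => A (ga i u)).card : ℝ) ^ 2) ?_) ?_
  · intro u hu
    exact pow_le_pow_left₀ ht (mem_filter.1 hu).2 2
  · exact Finset.sum_le_sum_of_subset_of_nonneg (filter_subset _ _) fun _ _ _ => by positivity

open Classical in
/-- a union of fibres of `X` of size at most one half contains many violated units -/
theorem union_viol [Nonempty U] [Nonempty ι] {B : Type} {ga : ι → U → U} {lam : ℝ}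
    (h : MixU ga lam) (hl : lam ^ 2 ≤ 1 / 8) (X : U → B) (S : Finset U)
    (hS : ∀ u ∈ S, ∀ v, X v = X u → v ∈ S)
    (hhalf : ∀ u ∈ S, 2 * (univ.filter fun v => X v = X u).card ≤ Fintype.card U) :
    3 * (S.card : ℝ) ≤ 8 * ((univ.filter fun u => ∃ i, X (ga i u) ≠ X u).card : ℝ) := by
  have hU : (0 : ℝ) < Fintype.card U := by exact_mod_cast Fintype.card_pos
  have hI : (0 : ℝ) < Fintype.card ι := by exact_mod_cast Fintype.card_pos
  set G : Finset U := S.filter fun u => ¬ ∃ i, X (ga i u) ≠ X u with hG
  -- good units inside one fibre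
  have key : ∀ u0 ∈ S, ((G.filter fun u => X u = X u0).card : ℝ) ≤
      5 / 8 * ((S.filter fun u => X u = X u0).card : ℝ) := by
    intro u0 hu0
    have hfib : S.filter (fun u => X u = X u0) = univ.filter fun u => X u = X u0 := by
      ext v
      simp only [mem_filter, mem_univ, true_and]
      exact ⟨fun hv => hv.2, fun hv => ⟨hS u0 hu0 v hv, hv⟩⟩
    rw [hfib]
    have h1 := many_le h (fun u => X u = X u0) (Fintype.card ι) hI.le
    set a : ℝ := ((univ.filter fun u => X u = X u0).card : ℝ) with ha
    have ha0 : 0 ≤ a := Nat.cast_nonneg _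
    have ha2 : a ≤ Fintype.card U / 2 := by
      have h2 := hhalf u0 hu0
      have h3 : (2 : ℝ) * a ≤ Fintype.card U := by
        rw [ha]
        exact_mod_cast h2
      linarith
    have h2 : ((G.filter fun u => X u = X u0).card : ℝ) ≤
        ((univ.filter fun u => (Fintype.card ι : ℝ) ≤
          ((univ.filter fun i => X (ga i u) = X u0).card : ℝ)).card : ℝ) := by
      refine Nat.cast_le.2 (card_le_card fun u hu => ?_)
      simp only [hG, mem_filter, mem_univ, true_and, not_exists, not_not] at hu ⊢
      obtain ⟨⟨_, hu1⟩, hu2⟩ := hu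
      have : (univ.filter fun i => X (ga i u) = X u0) = univ := by
        refine filter_true_of_mem fun i _ => ?_
        rw [hu1 i, hu2]
      rw [this, card_univ]
    have h3 : (Fintype.card ι : ℝ) ^ 2 * ((G.filter fun u => X u = X u0).card : ℝ) ≤
        (Fintype.card ι : ℝ) ^ 2 * (a ^ 2 / (Fintype.card U : ℝ) + lam ^ 2 * a) :=
      (mul_le_mul_of_nonneg_left h2 (by positivity)).trans h1
    have h4 := le_of_mul_le_mul_left h3 (by positivity)
    have h5 : a ^ 2 / (Fintype.card U : ℝ) ≤ a / 2 := by
      rw [div_le_iff₀ hU]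
      nlinarith
    nlinarith
  have hGS : (G.card : ℝ) ≤ 5 / 8 * (S.card : ℝ) := by
    have h1 : G.card = ∑ b ∈ S.image X, (G.filter fun u => X u = b).card :=
      card_eq_sum_card_fiberwise fun u hu => by
        have : u ∈ S := (mem_filter.1 (mem_coe.1 hu)).1
        exact mem_coe.2 (mem_image_of_mem X this)
    have h2 : S.card = ∑ b ∈ S.image X, (S.filter fun u => X u = b).card :=
      card_eq_sum_card_fiberwise fun u hu => mem_coe.2 (mem_image_of_mem X (mem_coe.1 hu))
    rw [h1, h2]
    push_cast
    rw [mul_sum]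
    refine sum_le_sum fun b hb => ?_
    obtain ⟨u0, hu0, rfl⟩ := mem_image.1 hb
    exact key u0 hu0
  have h3 : (S.card : ℝ) ≤ G.card +
      ((univ.filter fun u => ∃ i, X (ga i u) ≠ X u).card : ℝ) := by
    have h4 := card_filter_add_card_filter_not (s := S) (fun u => ∃ i, X (ga i u) ≠ X u)
    have h5 : (S.filter fun u => ∃ i, X (ga i u) ≠ X u).card ≤
        (univ.filter fun u => ∃ i, X (ga i u) ≠ X u).card :=
      card_le_card (filter_subset_filter _ (subset_univ _))
    have h6 : S.card ≤ G.card + (univ.filter fun u => ∃ i, X (ga i u) ≠ X u).card := by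
      rw [hG]
      omega
    exact_mod_cast h6
  linarith

/-- the repetition code is testable: constant `3`, no threshold -/
theorem rep_sound [Nonempty U] [Nonempty ι] {B : Type} {ga : ι → U → U} {lam : ℝ}
    (h : MixU ga lam) (hl : lam ^ 2 ≤ 1 / 8) (X : U → B) :
    ∃ b : B, frac (fun u => X u ≠ b) ≤ 3 * frac fun u => ∃ i, X (ga i u) ≠ X u := by
  classical
  have hU : (0 : ℝ) < Fintype.card U := by exact_mod_cast Fintype.card_pos
  by_cases hbig : ∃ u0, Fintype.card U < 2 * (univ.filter fun v => X v = X u0).card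
  · obtain ⟨u0, hu0⟩ := hbig
    refine ⟨X u0, ?_⟩
    have h1 := union_viol h hl X (univ.filter fun u => X u ≠ X u0)
      (fun u hu v hv => by
        simp only [mem_filter, mem_univ, true_and] at hu ⊢
        rwa [hv])
      (fun u hu => by
        simp only [mem_filter, mem_univ, true_and] at hu
        have h2 : (univ.filter fun v => X v = X u).card ≤
            (univ.filter fun v => ¬ X v = X u0).card :=
          card_le_card fun v hv => by
            simp only [mem_filter, mem_univ, true_and] at hv ⊢
            rw [hv]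
            exact hu
        have h3 := card_filter_add_card_filter_not (s := (univ : Finset U)) (fun v => X v = X u0)
        rw [card_univ] at h3
        omega)
    have h2 : frac (fun u => X u ≠ X u0) * Fintype.card U ≤
        (3 * frac fun u => ∃ i, X (ga i u) ≠ X u) * Fintype.card U := by
      rw [mul_assoc, frac_mul_card, frac_mul_card]
      have : (0 : ℝ) ≤ ((univ.filter fun u => ∃ i, X (ga i u) ≠ X u).card : ℝ) := by positivity
      linarith
    exact le_of_mul_le_mul_right h2 hU
  · push Not at hbig
    refine ⟨X (Classical.arbitrary U), ?_⟩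
    have h1 := union_viol h hl X univ (fun _ _ v _ => mem_univ v) (fun u _ => hbig u)
    rw [card_univ] at h1
    have h2 : frac (fun u => X u ≠ X (Classical.arbitrary U)) * Fintype.card U ≤
        (3 * frac fun u => ∃ i, X (ga i u) ≠ X u) * Fintype.card U := by
      rw [mul_assoc, frac_mul_card, frac_mul_card]
      have h3 : ((univ.filter fun u => X u ≠ X (Classical.arbitrary U)).card : ℝ) ≤
          Fintype.card U := by exact_mod_cast card_le_univ _
      linarith
    exact le_of_mul_le_mul_right h2 hU

/-- majority is right except on a small set -/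
theorem maj_bad [Nonempty U] [Nonempty ι] {ga : ι → U → U} {lam r0 th : ℝ}
    (h : MixU ga lam) (hth : 4 * (r0 + lam ^ 2) ≤ th) (E : U → Prop) (hE : frac E ≤ r0) :
    frac (fun u => Fintype.card ι ≤ 2 * Nat.card {i // E (ga i u)}) ≤ th * frac E := by
  classical
  have hU : (0 : ℝ) < Fintype.card U := by exact_mod_cast Fintype.card_pos
  have hI : (0 : ℝ) < Fintype.card ι := by exact_mod_cast Fintype.card_pos
  have h1 := many_le h E (Fintype.card ι / 2) (by positivity)
  have hEc := frac_mul_card E
  rw [← hEc] at h1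
  have e1 : (univ.filter fun u => (Fintype.card ι / 2 : ℝ) ≤
      ((univ.filter fun i => E (ga i u)).card : ℝ)) =
      univ.filter fun u => Fintype.card ι ≤ 2 * Nat.card {i // E (ga i u)} := by
    ext u
    simp only [mem_filter, mem_univ, true_and]
    rw [Nat.card_eq_fintype_card, Fintype.card_subtype]
    rw [div_le_iff₀ (by norm_num : (0 : ℝ) < 2)]
    constructor
    · intro hh
      have : (Fintype.card ι : ℝ) ≤ ((2 * (univ.filter fun i => E (ga i u)).card : ℕ) : ℝ) := by
        push_cast
        linarith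
      exact_mod_cast this
    · intro hh
      have : (Fintype.card ι : ℝ) ≤ ((2 * (univ.filter fun i => E (ga i u)).card : ℕ) : ℝ) := by
        exact_mod_cast hh
      push_cast at this
      linarith
  rw [e1, ← frac_mul_card] at h1
  set x := frac fun u => Fintype.card ι ≤ 2 * Nat.card {i // E (ga i u)} with hx
  set y := frac E with hy
  have hy0 : 0 ≤ y := frac_nonneg _
  have h2 : (Fintype.card ι : ℝ) ^ 2 * (x * Fintype.card U) ≤
      (Fintype.card ι : ℝ) ^ 2 * ((4 * (y + lam ^ 2) * y) * Fintype.card U) := by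
    have e2 : (y * Fintype.card U) ^ 2 / (Fintype.card U : ℝ) = y ^ 2 * Fintype.card U := by
      field_simp
    rw [e2] at h1
    nlinarith
  have h3 := le_of_mul_le_mul_left h2 (by positivity)
  have h4 := le_of_mul_le_mul_right h3 hU
  refine h4.trans (mul_le_mul_of_nonneg_right ?_ hy0)
  linarith

/-- **the repetition code** on an expander -/
theorem LU.rep [Nonempty U] [Nonempty ι] {ga : ι → U → U} {lam r0 th : ℝ}
    (h : MixU ga lam) (hl : lam ^ 2 ≤ 1 / 8) (hinj : ∀ i, Function.Injective (ga i))
    (hth : 4 * (r0 + lam ^ 2) ≤ th) (zs : ℝ) :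
    LU (repC U Lam K) (repNb ga) (repN ι Lam K) ga maj 1 zs r0 1 3 th where
  mem := by
    intro X
    constructor
    · intro hX u i
      exact hX _ _
    · intro hX
      obtain ⟨b, hb⟩ := rep_sound h hl X
      have h0 : frac (fun u => ∃ i, X (ga i u) ≠ X u) = 0 :=
        frac_eq_zero fun u => by
          push Not
          exact fun i => hX u i
      rw [h0, mul_zero] at hb
      have hall : ∀ u, X u = b := by
        intro u
        by_contra hu
        have hU : (0 : ℝ) < Fintype.card U := by exact_mod_cast Fintype.card_pos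
        classical
        have h1 := frac_mul_card fun u => X u ≠ b
        have h2 : 0 < (univ.filter fun u => X u ≠ b).card :=
          card_pos.2 ⟨u, mem_filter.2 ⟨mem_univ _, hu⟩⟩
        have h3 : (0 : ℝ) < ((univ.filter fun u => X u ≠ b).card : ℝ) := by exact_mod_cast h2
        nlinarith
      intro u v
      rw [hall u, hall v]
  sep := by
    intro w hw hne
    obtain ⟨u0, hu0⟩ := Function.ne_iff.1 hne
    have : ∀ u, w u ≠ 0 := fun u hu => hu0 (by rw [hw u0 u, hu]; rfl)
    have h1 : frac (fun u => w u ≠ 0) = 1 := by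
      classical
      have hU : (0 : ℝ) < Fintype.card U := by exact_mod_cast Fintype.card_pos
      have h2 := frac_mul_card fun u => w u ≠ 0
      rw [filter_true_of_mem (fun u _ => this u), card_univ] at h2
      exact mul_right_cancel₀ hU.ne' (by rw [h2, one_mul])
    rw [h1]
  sound := by
    intro β _ X _
    obtain ⟨b, hb⟩ := rep_sound h hl X
    refine ⟨fun _ => b, fun b' u v => rfl, ?_⟩
    refine hb.trans (mul_le_mul_of_nonneg_left (frac_mono ?_) (by norm_num))
    rintro u ⟨i, hi⟩
    obtain ⟨s, hs⟩ := Function.ne_iff.1 hi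
    obtain ⟨t, ht⟩ := Function.ne_iff.1 hs
    refine ⟨t, fun hc => ht ?_⟩
    exact congrFun (hc i) s
  corr := by
    intro E hE
    refine ⟨fun u => Fintype.card ι ≤ 2 * Nat.card {i // E (ga i u)}, maj_bad h hth E hE, ?_⟩
    intro w hw u hu x hx
    refine maj_eq (p := fun i => E (ga i u)) (fun i hi => ?_) (by omega)
    rw [hx i hi, hw _ u]
  mult := by
    refine nbMult_of_injective _ fun i => ?_
    cases i with
    | none => exact Function.injective_id
    | some i => exact hinj i
  mult' := nbMult_of_injective _ hinj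

end rep

end Crest.Agent.R289.LUb443
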