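import Crest.Agent.R289.LU_846
import Crest.Agent.R289.LUb_443
import Crest.Agent.R289.CorrLab_974
import Crest.Agent.R289.AsmObj_12

/-!
# Row 289, seam B/C: the two-place code as a linear unit code (`LU` of LU_846)

* `CM D xc yc` : the two-place code as a submodule of `P → I × I → K`;
* `nbV D`, `NV L M xc yc` : test slots (the squares at the four vertices of a unit) and the linear
  local condition, which mentions only the label maps and the edge codes (the same at all levels);
* `nbW D`, `crW M yc d` : correction slots `u * a z * (a z')⁻¹` and the rule (the same at all levels);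
* `LU_ofTP` : `LU (CM D xc yc) (nbV D) (NV ..) (nbW D) (crW ..) 1 1 zs r0 d0 c (1/4)`;
* `lu_obj` : the instance for `Asm12.Obj.OK`.
-/

set_option autoImplicit false
set_option linter.unusedSectionVars false

namespace Crest.Agent.R289.LUofTP239

open Finset Crest.Agent.R289.DefD Crest.Agent.R289.Word508 Crest.Agent.R289.TP846
  Crest.Agent.R289.Tan846 Crest.Agent.R289.CorrLab974

section general
variable {K P I : Type} [Field K] [Group P]

/-- slots of the test: vertex type `(i, j)`, square `(l, m)` -/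
abbrev VS (I : Type) : Type := Bool × Bool × I × I

/-- label of the x-edge -/
def xl (L : I → I → I) (j : Bool) (l m : I) : I := if j then L l m else l

/-- label of the y-edge -/
def yl (M : I → I → I) (i : Bool) (l m : I) : I := if i then M l m else m

/-- **the local condition** (the same for all levels) -/
def NV (L M : I → I → I) (xc yc : Bool → I → Submodule K (I → K)) :
    Submodule K (VS I → I × I → K) where
  carrier := {x | ∀ i j,
    (∀ z (f : I → I), (∀ m, xl L j (f m) m = z) →
      (fun m => x (i, j, f m, m) (f m, m)) ∈ xc j z) ∧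
    ∀ w (f : I → I), (∀ l, yl M i l (f l) = w) →
      (fun l => x (i, j, l, f l) (l, f l)) ∈ yc i w}
  add_mem' := by
    intro a b ha hb i j
    exact ⟨fun z f hf => (xc j z).add_mem ((ha i j).1 z f hf) ((hb i j).1 z f hf),
      fun w f hf => (yc i w).add_mem ((ha i j).2 w f hf) ((hb i j).2 w f hf)⟩
  zero_mem' := fun i j => ⟨fun z _ _ => (xc j z).zero_mem, fun w _ _ => (yc i w).zero_mem⟩
  smul_mem' := by
    intro c a ha i j
    exact ⟨fun z f hf => (xc j z).smul_mem c ((ha i j).1 z f hf),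
      fun w f hf => (yc i w).smul_mem c ((ha i j).2 w f hf)⟩

variable (D : TP P I)

/-- edge codes as sets -/
def sx (xc : Bool → I → Submodule K (I → K)) : Bool → I → Set (I → K) := fun j z => (xc j z : Set _)

/-- bundles of edge codes -/
def bx (β : Type) (xc : Bool → I → Submodule K (I → K)) : Bool → I → Set (I → β → K) :=
  fun j z => {c | ∀ b, (fun m => c m b) ∈ xc j z}

/-- **the two-place code** on `P → I × I → K` -/
def CM (xc yc : Bool → I → Submodule K (I → K)) : Submodule K (P → I × I → K) where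
  carrier := {X | (fun g l m => X g (l, m)) ∈ D.Code (sx xc) (sx yc)}
  add_mem' := by
    intro a b ha hb
    exact ⟨fun j h z => (xc j z).add_mem (ha.1 j h z) (hb.1 j h z),
      fun i h w => (yc i w).add_mem (ha.2 i h w) (hb.2 i h w)⟩
  zero_mem' := ⟨fun j _ z => (xc j z).zero_mem, fun i _ w => (yc i w).zero_mem⟩
  smul_mem' := by
    intro c a ha
    exact ⟨fun j h z => (xc j z).smul_mem c (ha.1 j h z),
      fun i h w => (yc i w).smul_mem c (ha.2 i h w)⟩

theorem mem_CM {xc yc : Bool → I → Submodule K (I → K)} {X : P → I × I → K} :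
    X ∈ CM D xc yc ↔ (fun g l m => X g (l, m)) ∈ D.Code (sx xc) (sx yc) := Iff.rfl

/-- test slots -/
def nbV (t : VS I) (u : P) : P := u * (D.st t.1 t.2.1 t.2.2.1 t.2.2.2)⁻¹

theorem nbV_inj (t : VS I) : Function.Injective (nbV D t) := fun _ _ h => mul_right_cancel h

variable [Fintype P] [Fintype I]

/-- the view at a vertex by slots -/
theorem mem_LC {A : Type} {xc yc : Bool → I → Set (I → A)} {X : P → I → I → A} {i j : Bool}
    {v : P} : TP.sq X ∈ D.LC xc yc i j v ↔
      (∀ z (f : I → I), (∀ m, xl D.L j (f m) m = z) →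
        (fun m => X (nbV D (i, j, f m, m) v) (f m) m) ∈ xc j z) ∧
      ∀ w (f : I → I), (∀ l, yl D.M i l (f l) = w) →
        (fun l => X (nbV D (i, j, l, f l) v) l (f l)) ∈ yc i w := by
  constructor
  · rintro ⟨h1, h2⟩
    refine ⟨fun z f hf => ?_, fun w f hf => ?_⟩
    · have hf' : ∀ m, D.li j m z = f m := fun m => by
        rw [← hf m]; exact D.li_xl j (f m) m
      have := h1 z
      simp only [D.sqX_eq_at i j, hf'] at this
      exact this
    · have hf' : ∀ l, D.mi i l w = f l := fun l => by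
        rw [← hf l]; exact D.mi_yl i l (f l)
      have := h2 w
      simp only [D.sqY_eq_at i j, hf'] at this
      exact this
  · rintro ⟨h1, h2⟩
    refine ⟨fun z => ?_, fun w => ?_⟩
    · simp only [D.sqX_eq_at i j]
      exact h1 z (fun m => D.li j m z) fun m => D.xl_li j m z
    · simp only [D.sqY_eq_at i j]
      exact h2 w (fun l => D.mi i l w) fun l => D.yl_mi i l w

theorem mem_iff {xc yc : Bool → I → Submodule K (I → K)} (X : P → I × I → K) :
    X ∈ CM D xc yc ↔ ∀ u, (fun t => X (nbV D t u)) ∈ NV D.L D.M xc yc := by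
  rw [mem_CM, D.code_iff]
  constructor
  · intro h u i j
    exact (mem_LC D).1 (h i j u)
  · intro h i j v
    exact (mem_LC D).2 (h v i j)

/-- bundles: violated units -/
theorem viol_iff {β : Type} {xc yc : Bool → I → Submodule K (I → K)} (X : P → I × I → β → K)
    (u : P) : (∃ b, (fun t s => X (nbV D t u) s b) ∉ NV D.L D.M xc yc) ↔
      D.viol (bx β xc) (bx β yc) (fun g l m => X g (l, m)) u := by
  unfold TP.viol
  rw [← not_iff_not]
  push Not
  constructor
  · intro h i j
    rw [mem_LC]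
    exact ⟨fun z f hf b => (h b i j).1 z f hf, fun w f hf b => (h b i j).2 w f hf⟩
  · intro h b i j
    have := (mem_LC D).1 (h i j)
    exact ⟨fun z f hf => this.1 z f hf b, fun w f hf => this.2 w f hf b⟩

/-! ### correction -/

/-- code at the odd-even vertices, written with the label map -/
def R1' (M : I → I → I) (yc : Bool → I → Submodule K (I → K)) : Set (I → I → K) :=
  {c | ∀ w (f : I → I), (∀ l, M l (f l) = w) → (fun l => c l (f l)) ∈ yc true w}

theorem R1'_eq (yc : Bool → I → Submodule K (I → K)) : R1' D.M yc = D.R1 (sx yc) := by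
  ext c
  constructor
  · intro h w
    exact h w (fun l => D.mi true l w) fun l => D.yl_mi true l w
  · intro h w f hf
    have hf' : ∀ l, D.mi true l w = f l := fun l => by
      rw [← hf l]; exact D.mi_yl true l (f l)
    have := h w
    simp only [hf'] at this
    exact this

/-- correction slots -/
def nbW (p : I × I) (u : P) : P := u * D.a p.1 * (D.a p.2)⁻¹

theorem nbW_inj (p : I × I) : Function.Injective (nbW D p) := fun _ _ h =>
  mul_right_cancel (mul_right_cancel h)

/-- **the correction rule** (the same for all levels) -/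
noncomputable def crW (M : I → I → I) (yc : Bool → I → Submodule K (I → K)) (d : ℕ)
    (x : I × I → I × I → K) : I × I → K :=
  fun s => tanF (TP.R0 (sx yc)) (R1' M yc) d 0 (fun p l m => x p (l, m)) s.1 s.2

theorem corr_ok {xc yc : Bool → I → Submodule K (I → K)} {lam r0 : ℝ} {d : ℕ}
    (ha : Exp D.a lam) (ha' : Exp (fun z => (D.a z)⁻¹) lam) (hd0 : 0 < d)
    (hd : ∀ i w, Dist (sx yc i w) d)
    (hlam : 8 * (Fintype.card I : ℝ) ^ 2 * (r0 + lam ^ 2) ≤ (d : ℝ) ^ 2)
    (E : P → Prop) (hE : frac E ≤ r0) :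
    ∃ B : P → Prop, frac B ≤ 1 / 4 * frac E ∧
      ∀ w ∈ CM D xc yc, ∀ u, ¬ B u → ∀ x : I × I → I × I → K,
        (∀ i, ¬ E (nbW D i u) → x i = w (nbW D i u)) → crW D.M yc d x = w u := by
  have h := scorr_tan (pi := D.pi) (D.ex ha') (D.ex' ha) hd0 (TP.dist_R0 hd) (D.dist_R1 hd)
    hlam (0 : I → I → K) E hE
  refine ⟨_, h, ?_⟩
  intro w hw u hu x hx
  have h1 := not_badC hu (D.mem_Tan hw) (fun p l m => x p (l, m)) (fun p hp => by
    funext l m
    exact congrFun (hx p hp) (l, m))
  funext s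
  unfold crW
  rw [R1'_eq, h1]

/-! ### the linear unit code -/

theorem frac_ge {p : P → Prop} {r : ℝ} (h : r * Fintype.card P ≤ (cnt p : ℝ)) : r ≤ frac p := by
  have hP : (0 : ℝ) < Fintype.card P := by exact_mod_cast Fintype.card_pos
  rw [frac_eq_cnt, le_div_iff₀ hP]
  exact h

/-- **two-place code ⇒ linear unit code** -/
theorem LU_ofTP [Nonempty I] {xc yc : Bool → I → Submodule K (I → K)} {Kr lam r0 d0 zs : ℝ} {d : ℕ}
    (hK : 0 ≤ Kr) (hl : 4 * Kr ^ 2 * lam ^ 2 ≤ 1)
    (hR : ∀ (β : Type) [Fintype β] i j, D.Rob (bx β xc) (bx β yc) i j Kr)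
    (ha : Exp D.a lam) (ha' : Exp (fun z => (D.a z)⁻¹) lam)
    (hb : Exp D.b lam) (hb' : Exp (fun z => (D.b z)⁻¹) lam)
    (hd1 : 0 < d) (hd : ∀ i w, Dist (sx yc i w) d)
    (hlam : 8 * (Fintype.card I : ℝ) ^ 2 * (r0 + lam ^ 2) ≤ (d : ℝ) ^ 2)
    (hd0 : (d0 + lam ^ 2) * (Fintype.card I : ℝ) ^ 2 ≤ (d : ℝ) ^ 2)
    (hzs : 32 * Kr ^ 2 * Fintype.card I * zs < 1) :
    LU846.LU (CM D xc yc) (nbV D) (NV D.L D.M xc yc) (nbW D) (crW D.M yc d) 1 1 zs r0 d0
      (4 * (Fintype.card I : ℝ) ^ 2 * (4 * Fintype.card I + 1)) (1 / 4) where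
  mult := nbMult_of_injective _ (nbV_inj D)
  mult' := nbMult_of_injective _ (nbW_inj D)
  mem := mem_iff D
  sep := by
    intro w hw hne
    have hI : (0 : ℝ) < Fintype.card I := by exact_mod_cast Fintype.card_pos
    have h1 := D.sep (Y := fun g l m => w g (l, m)) (Y' := fun _ _ _ => 0) ha' hd hw
      (CM D xc yc).zero_mem (fun h => hne (by
        funext g s
        exact congrFun (congrFun (congrFun h g) s.1) s.2))
    apply frac_ge
    have hP : (0 : ℝ) < Fintype.card P := by exact_mod_cast Fintype.card_pos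
    have h2 : cnt (fun u => (fun l m => w u (l, m)) ≠ fun (_ : I) (_ : I) => (0 : K)) ≤
        cnt (fun u => w u ≠ 0) := cnt_le fun u hu he => hu (by
          funext l m
          rw [he]; rfl)
    have h3 : ((cnt (fun u => (fun l m => w u (l, m)) ≠ fun (_ : I) (_ : I) => (0 : K)) : ℕ) : ℝ) ≤
        (cnt (fun u => w u ≠ 0) : ℝ) := by exact_mod_cast h2
    have h4 : (d : ℝ) ^ 2 * Fintype.card P ≤ (Fintype.card I : ℝ) ^ 2 *
        ((cnt (fun u => w u ≠ 0) : ℝ) + lam ^ 2 * Fintype.card P) := by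
      refine h1.trans ?_
      apply mul_le_mul_of_nonneg_left _ (by positivity)
      linarith
    have h5 : (d0 + lam ^ 2) * (Fintype.card I : ℝ) ^ 2 * Fintype.card P ≤
        (Fintype.card I : ℝ) ^ 2 *
        ((cnt (fun u => w u ≠ 0) : ℝ) + lam ^ 2 * Fintype.card P) :=
      (mul_le_mul_of_nonneg_right hd0 hP.le).trans h4
    have h6 : (Fintype.card I : ℝ) ^ 2 * (d0 * Fintype.card P) ≤
        (Fintype.card I : ℝ) ^ 2 * (cnt (fun u => w u ≠ 0) : ℝ) := by nlinarith
    exact le_of_mul_le_mul_left h6 (by positivity)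
  sound := by
    intro β _ X hX
    have hP : (0 : ℝ) < Fintype.card P := by exact_mod_cast Fintype.card_pos
    have hI : (0 : ℝ) < Fintype.card I := by exact_mod_cast Fintype.card_pos
    set X' : P → I → I → β → K := fun g l m => X g (l, m) with hX'
    have hv : (fun u => ∃ b, (fun t s => X (nbV D t u) s b) ∉ NV D.L D.M xc yc) =
        D.viol (bx β xc) (bx β yc) X' := by
      funext u
      exact propext (viol_iff D X u)
    rw [hv] at hX ⊢
    obtain ⟨Y, hY, hYc⟩ := D.sound (xc := bx β xc) (yc := bx β yc) hK hl (hR β) ha ha' hb hb'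
      (fun i j v => ⟨fun _ _ => 0, fun z b => (xc j z).zero_mem, fun w b => (yc i w).zero_mem⟩) X'
      (by
        rw [frac_eq_cnt, div_le_iff₀ hP] at hX
        have h1 : 32 * Kr ^ 2 * (Fintype.card I : ℝ) * cnt (D.viol (bx β xc) (bx β yc) X') ≤
            32 * Kr ^ 2 * (Fintype.card I : ℝ) * (zs * Fintype.card P) :=
          mul_le_mul_of_nonneg_left hX (by positivity)
        nlinarith)
    refine ⟨fun g s b => Y g s.1 s.2 b, fun b => ?_, ?_⟩
    · exact ⟨fun j h z => hY.1 j h z b, fun i h w => hY.2 i h w b⟩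
    · rw [frac_eq_cnt, frac_eq_cnt, ← mul_div_assoc]
      apply div_le_div_of_nonneg_right _ hP.le
      have h1 : cnt (fun u => X u ≠ fun s b => Y u s.1 s.2 b) ≤ cnt (fun u => X' u ≠ Y u) :=
        cnt_le fun u hu he => hu (by
          funext s b
          exact congrFun (congrFun (congrFun he s.1) s.2) b)
      have h2 : ((cnt (fun u => X u ≠ fun s b => Y u s.1 s.2 b) : ℕ) : ℝ) ≤
          ((4 * (Fintype.card I) ^ 2 * (4 * Fintype.card I + 1) *
            cnt (D.viol (bx β xc) (bx β yc) X') : ℕ) : ℝ) := by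
        exact_mod_cast h1.trans hYc
      push_cast at h2
      exact h2
  corr := fun E hE => corr_ok D ha ha' hd1 hd hlam E hE

end general

/-! ### conversion between the two copies of the structure -/

theorem to443 {U S ι ι' K : Type} [Fintype U] [Field K] {C : Submodule K (U → S → K)}
    {nb : ι → U → U} {N : Submodule K (ι → S → K)} {nb' : ι' → U → U}
    {cr : (ι' → S → K) → S → K} {m zs r0 d0 c θ : ℝ}
    (h : LU846.LU C nb N nb' cr m m zs r0 d0 c θ) : LUb443.LU C nb N nb' cr m zs r0 d0 c θ where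
  mem := h.mem
  sep := h.sep
  sound := h.sound
  corr := h.corr
  mult := h.mult
  mult' := h.mult'

theorem of443 {U S ι ι' K : Type} [Fintype U] [Field K] {C : Submodule K (U → S → K)}
    {nb : ι → U → U} {N : Submodule K (ι → S → K)} {nb' : ι' → U → U}
    {cr : (ι' → S → K) → S → K} {m zs r0 d0 c θ : ℝ}
    (h : LUb443.LU C nb N nb' cr m zs r0 d0 c θ) : LU846.LU C nb N nb' cr m m zs r0 d0 c θ where
  mem := h.mem
  sep := h.sep
  sound := h.sound
  corr := h.corr
  mult := h.mult
  mult' := h.mult'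

/-! ### the object -/

section obj
open Crest.Agent.R289.Asm12

variable (D : Obj)

/-- labels of a unit -/
abbrev OI : Type := Option D.K × Option D.K

/-- the code of degree `d` at level `k` -/
def CP (k d : ℕ) : Submodule D.K (D.P k → OI D → D.K) := CM (D.tp k) (D.X d) (D.Y d)

theorem mem_CP (k d : ℕ) (X : D.P k → OI D → D.K) :
    X ∈ CP D k d ↔ (fun g l m => X g (l, m)) ∈ D.C k d := Iff.rfl

/-- local condition, the same for all levels -/
def NP (d : ℕ) : Submodule D.K (VS (Option D.K) → OI D → D.K) := NV D.L D.M (D.X d) (D.Y d)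

/-- correction rule, the same for all levels; `n` = distance of the edge codes -/
noncomputable def crP (d n : ℕ) : (OI D → OI D → D.K) → OI D → D.K := crW D.M (D.Y d) n

/-- test slots -/
def nbP (k : ℕ) : VS (Option D.K) → D.P k → D.P k := nbV (D.tp k)

/-- correction slots -/
def nbP' (k : ℕ) : OI D → D.P k → D.P k := nbW (D.tp k)

/-- soundness range -/
noncomputable def zsP (Kr : ℝ) : ℝ := 1 / (32 * Kr ^ 2 * Fintype.card (Option D.K) + 1)

/-- soundness constant -/
noncomputable def cP : ℝ :=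
  4 * (Fintype.card (Option D.K) : ℝ) ^ 2 * (4 * Fintype.card (Option D.K) + 1)

/-- **the object delivers linear unit codes, the same constants and rules at all levels** -/
theorem lu_obj {M0 : ℕ} {lam0 Kr : ℝ} (h : D.OK M0 lam0 Kr) (hK : 0 ≤ Kr) (hl0 : lam0 ≤ 1 / 8) :
    ∃ n : ℕ, ∀ d ≤ M0, ∀ k, LU846.LU (CP D k d) (nbP D k) (NP D d) (nbP' D k) (crP D d n) 1 1
      (zsP D Kr) (1 / 20) (1 / 2) (cP D) (1 / 4) := by
  obtain ⟨lam, hlam0, hlam1, hlam2, hexp⟩ := h.exp
  obtain ⟨n, hn, hX, hY⟩ := h.dist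
  refine ⟨n, fun d hd k => ?_⟩
  have hI : (1 : ℝ) ≤ Fintype.card (Option D.K) := by
    exact_mod_cast Fintype.card_pos
  have hn' : 3 * (Fintype.card (Option D.K) : ℝ) ≤ 4 * n := by exact_mod_cast hn
  have hlam : lam ^ 2 ≤ 1 / 64 := by nlinarith
  have hn0 : 0 < n := by
    rcases Nat.eq_zero_or_pos n with h0 | h0
    · exfalso
      rw [h0] at hn'
      push_cast at hn'
      linarith
    · exact h0
  have hsq : 9 * (Fintype.card (Option D.K) : ℝ) ^ 2 ≤ 16 * (n : ℝ) ^ 2 := by nlinarith
  have hx := LU_ofTP (D.tp k) (xc := D.X d) (yc := D.Y d) (Kr := Kr) (lam := lam) (r0 := 1 / 20)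
    (d0 := 1 / 2) (zs := zsP D Kr) (d := n) hK hlam2
    (fun β _ i j => h.rob β (fun _ => d) (fun _ => hd) k i j)
    (hexp k).1 (hexp k).2.1 (hexp k).2.2.1 (hexp k).2.2.2 hn0 (fun i w => hY d hd i w)
    (by nlinarith) (by nlinarith)
    (by
      unfold zsP
      have h0 : (0 : ℝ) ≤ 32 * Kr ^ 2 * Fintype.card (Option D.K) := by positivity
      rw [mul_one_div, div_lt_one (by linarith)]
      linarith)
  rw [h.L_eq k, h.M_eq k] at hx
  exact hx

/-- the same on 443's copy of the structure -/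
theorem lu_obj443 {M0 : ℕ} {lam0 Kr : ℝ} (h : D.OK M0 lam0 Kr) (hK : 0 ≤ Kr)
    (hl0 : lam0 ≤ 1 / 8) :
    ∃ n : ℕ, ∀ d ≤ M0, ∀ k, LUb443.LU (CP D k d) (nbP D k) (NP D d) (nbP' D k) (crP D d n) 1
      (zsP D Kr) (1 / 20) (1 / 2) (cP D) (1 / 4) := by
  obtain ⟨n, hn⟩ := lu_obj D h hK hl0
  exact ⟨n, fun d hd k => to443 (hn d hd k)⟩

end obj

end Crest.Agent.R289.LUofTP239
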