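import Crest.Agent.R289.RegsFac_335
import Crest.Agent.R289.LUofTP_239
import Crest.Agent.R289.InsObj_576

/-!
Row 289, joint I4 (helper335): the register tuple of the label for the object `Asm12.Obj` and the
constants `InsObj576.cst h W`.

* `fac_obj` : the three factors (`RegsFac335.Fac`) from `Obj.OK`;
* `cR`, `cX`, `cZ` : codes of the content, record and mirror registers on `(P kP × P kR) × P kT`;
* `labRO`, `labNbO`, `labCO` : rules, neighbours, code of the label;
* **`lab_obj`** : the `CAx` of the label with `θ = 1/4`, `m = 1`, constants and rules independent of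
  the levels.
-/

set_option autoImplicit false
set_option linter.unusedSectionVars false

namespace Crest.Agent.R289.RegsObj335

open Finset Crest.Agent.R289.DefD Crest.Agent.R289.Word508 Crest.Agent.R289.Asm12
open Crest.Agent.R289.LUb443 (rules bun MixU repC repN repNb Slots nbIt crIt)
open Crest.Agent.R289.LU846 (LU tens nbT NT nbC crT)
open Crest.Agent.R289.LU745 (zsT cT)
open Crest.Agent.R289.DefI Crest.Agent.R289.Compile827 Crest.Agent.R289.RegCAx335
open Crest.Agent.R289.LabCAx335 Crest.Agent.R289.RegsFac335 Crest.Agent.R289.LUofTP239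
open Crest.Agent.R289.InsObj576 (cst SG CG)

variable (D : Obj)

/-- the walk of a factor -/
def gaw (k : ℕ) (z : Option D.K) (v : D.P k) : D.P k := v * (D.tp k).a z

/-- **the factors** -/
theorem fac_obj {M0 : ℕ} {lam0 Kr : ℝ} (h : D.OK M0 lam0 Kr) (hK : 0 ≤ Kr) (h4 : 4 ≤ M0)
    (hl0 : lam0 ≤ 1 / 64) :
    ∃ n : ℕ, Fac (CP D) (nbP D) (NP D) (nbP' D) (fun d => crP D d n) (gaw D) (zsP D Kr) (cP D) := by
  obtain ⟨n, hn⟩ := lu_obj D h hK (hl0.trans (by norm_num))
  refine ⟨n, ⟨fun d hd k => hn d (hd.trans h4) k, fun k => ?_, fun k i => ?_, ?_, ?_⟩⟩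
  · obtain ⟨lam, hlam0, hlam1, -, hexp⟩ := h.exp
    refine MixU.mono (mixU_exp (hexp k).1) ?_
    have : lam ≤ 1 / 64 := hlam1.trans hl0
    nlinarith
  · exact mul_left_injective _
  · unfold zsP
    positivity
  · unfold cP
    positivity

/-! ### codes -/

/-- content registers -/
def cR (kP kR kT : ℕ) : Submodule D.K ((D.P kP × D.P kR) × D.P kT → SG D × Unit → D.K) :=
  tens (gC (CP D) kP kR 1) (repC (D.P kT) Unit D.K)

/-- record registers -/
def cX (kP kR kT : ℕ) : Submodule D.K ((D.P kP × D.P kR) × D.P kT → SG D × OI D → D.K) :=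
  tens (gC (CP D) kP kR 4) (CP D kT 1)

/-- mirror registers -/
def cZ (kP kR kT : ℕ) : Submodule D.K ((D.P kP × D.P kR) × D.P kT → SG D × OI D → D.K) :=
  tens (gC (CP D) kP kR 4) (CP D kT 2)

/-! ### slots and rules -/

/-- slots of the letter -/
abbrev Sl : Type := (Option D.K × Option D.K) × Option D.K
/-- test slots on `P × T_r` -/
abbrev Sg : Type := VS (Option D.K) ⊕ VS (Option D.K)
/-- correction slots on `P × T_r` -/
abbrev Sg' : Type := Slots (Option D.K × Option D.K) 9 × Slots (Option D.K × Option D.K) 9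
/-- all slots -/
abbrev SO (ιc : Type) : Type :=
  LabI (Sl D) (ItI 2 ιc) (Sg D ⊕ Option (Option D.K)) (Sg' D × Slots (Option D.K) 9)
    (Sg D ⊕ VS (Option D.K)) (Sg' D × Slots (Option D.K × Option D.K) 9)
    (Sg D ⊕ VS (Option D.K)) (Sg' D × Slots (Option D.K × Option D.K) 9)

/-- neighbours -/
def labNbO {kP kR kT : ℕ} {ιc : Type}
    (nbc : ιc → (D.P kP × D.P kR) × D.P kT → (D.P kP × D.P kR) × D.P kT) :
    SO D ιc → (D.P kP × D.P kR) × D.P kT → (D.P kP × D.P kR) × D.P kT :=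
  labNb (gl (gaw D) kP kR kT) (inb nbc 2)
    (nbT (gNb (nbP D) kP kR) (repNb (gaw D kT))) (nbC (gNb' (nbP' D) kP kR) (nbIt (gaw D kT) 9))
    (nbT (gNb (nbP D) kP kR) (nbP D kT)) (nbC (gNb' (nbP' D) kP kR) (nbIt (nbP' D kT) 9))
    (nbT (gNb (nbP D) kP kR) (nbP D kT)) (nbC (gNb' (nbP' D) kP kR) (nbIt (nbP' D kT) 9))

/-- the trivial public data of the iterated clock -/
instance subItP {ι : Type} : ∀ s, Subsingleton (ItP s ι Unit)
  | 0 => inferInstanceAs (Subsingleton Unit)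
  | s + 1 => by
    have := subItP (ι := ι) s
    exact inferInstanceAs (Subsingleton (ItP s ι Unit × (ItI s ι → ItP s ι Unit)))

/-- rules of the clock after two doublings, over any public type -/
noncomputable def ckR {ιc Ck P : Type} (Rc : CRules ιc Ck Unit) : CRules (ItI 2 ιc) Ck P :=
  (Rc.iter 2).extend id fun _ => Classical.choice (nonemptyItP 2)

theorem ck_CAx {U ιc Ck P : Type} [Fintype U] {Rc : CRules ιc Ck Unit} {nbc : ιc → U → U}
    {Cc : Set (U → Ck)} {zc rc dc cc : ℝ} (pub : U → P)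
    (h : CAx Rc nbc (fun _ => ()) Cc 1 zc rc dc cc (1 / 4)) :
    CAx (ckR (P := P) Rc) (inb nbc 2) pub Cc 1 zc rc dc cc (1 / 256) := by
  have h1 := h.iter le_rfl (by norm_num) (by norm_num) 2
  have e1 : ((1 : ℝ) / 4) ^ (2 ^ 2) = 1 / 256 := by norm_num
  rw [one_pow, e1] at h1
  exact h1.extend id (fun _ => Classical.choice (nonemptyItP 2)) (inb nbc 2) pub
    (fun _ _ => rfl) (fun u => Subsingleton.elim _ _) h1.mult

section main
variable {D} {M0 : ℕ} {lam0 Kr : ℝ} (h : D.OK M0 lam0 Kr) (W : ℕ)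

instance nonLet : Nonempty (Letter (cst h W).A.Tr × (cst h W).A.Stg × (cst h W).A.Stg) :=
  ⟨(Letter.boot, (BootC515.SgB.e, BootC515.SgB.e))⟩

/-- rules of the label -/
noncomputable def labRO (n : ℕ) {ιc Ck P : Type} (Rc : CRules ιc Ck Unit) :
    CRules (SO D ιc) ((cst h W).Lab Ck) P :=
  labR (c := cst h W) (ιl := Sl D) (ckR Rc)
    (NT (gN (NP D) 1) (repN (Option D.K) Unit D.K)) (crT (gCr (fun d => crP D d n) 1)
      (crIt LUb443.maj 9))
    (NT (gN (NP D) 4) (NP D 1)) (crT (gCr (fun d => crP D d n) 4) (crIt (crP D 1 n) 9))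
    (NT (gN (NP D) 4) (NP D 2)) (crT (gCr (fun d => crP D d n) 4) (crIt (crP D 2 n) 9))

/-- code of the label -/
def labCO (kP kR kT : ℕ) {Ck : Type} (Cc : Set ((D.P kP × D.P kR) × D.P kT → Ck)) :
    Set ((D.P kP × D.P kR) × D.P kT → (cst h W).Lab Ck) :=
  labC (c := cst h W) Cc (cR D kP kR kT) (cX D kP kR kT) (cZ D kP kR kT)

/-- **THE REGISTER TUPLE OF THE INSTANCE**: constants and rules independent of the levels -/
theorem lab_obj (hK : 0 ≤ Kr) (h4 : 4 ≤ M0) (hl0 : lam0 ≤ 1 / 64) :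
    ∃ n : ℕ, ∀ (W kP kR kT : ℕ) (ιc Ck P : Type) (Rc : CRules ιc Ck Unit)
      (nbc : ιc → (D.P kP × D.P kR) × D.P kT → (D.P kP × D.P kR) × D.P kT)
      (Cc : Set ((D.P kP × D.P kR) × D.P kT → Ck)) (pub : (D.P kP × D.P kR) × D.P kT → P)
      (zc rc dc cc : ℝ), 0 < zc → CAx Rc nbc (fun _ => ()) Cc 1 zc rc dc cc (1 / 4) →
      CAx (labRO h W n (P := P) Rc) (labNbO D nbc) pub (labCO h W kP kR kT Cc) 1
        (ZS (VS (Option D.K)) (zsP D Kr) (cP D) zc) (RS rc) (DS dc)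
        (5 * CS (VS (Option D.K)) (zsP D Kr) (cP D) cc) (1 / 4) := by
  obtain ⟨n, F⟩ := fac_obj D h hK h4 hl0
  refine ⟨n, fun W kP kR kT ιc Ck P Rc nbc Cc pub zc rc dc cc hz hc => ?_⟩
  have hZ0 : ZS (VS (Option D.K)) (zsP D Kr) (cP D) zc ≤ zc := min_le_left _ _
  have hZ1 := (min_le_right zc _).trans
    (min_le_left (zsT (Fintype.card (VS (Option D.K) ⊕ VS (Option D.K))) 1
      (zG (VS (Option D.K)) (zsP D Kr) (cP D)) (1 / 2) (zsP D Kr) (cP D))
      (zsT (Fintype.card (VS (Option D.K) ⊕ VS (Option D.K))) 1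
        (zG (VS (Option D.K)) (zsP D Kr) (cP D)) 1 1 3))
  have hZ2 := (min_le_right zc _).trans
    (min_le_right (zsT (Fintype.card (VS (Option D.K) ⊕ VS (Option D.K))) 1
      (zG (VS (Option D.K)) (zsP D Kr) (cP D)) (1 / 2) (zsP D Kr) (cP D))
      (zsT (Fintype.card (VS (Option D.K) ⊕ VS (Option D.K))) 1
        (zG (VS (Option D.K)) (zsP D Kr) (cP D)) 1 1 3))
  have hR0 : RS rc ≤ rc := min_le_left _ _
  have hR1 : RS rc ≤ 1 / 32000 := min_le_right _ _
  have hD0 : DS dc ≤ dc := min_le_left _ _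
  have hD1 : DS dc ≤ 1 / 8 := min_le_right _ _
  have hC0 : cc ≤ CS (VS (Option D.K)) (zsP D Kr) (cP D) cc :=
    (le_max_right _ _).trans (le_max_left _ _)
  have hC1 := (le_max_left (cT (Fintype.card (VS (Option D.K) ⊕ VS (Option D.K))) 1
    (cG (VS (Option D.K)) (zsP D Kr) (cP D)) (1 / 2) (zsP D Kr) (cP D))
    (cT (Fintype.card (VS (Option D.K) ⊕ VS (Option D.K))) 1
      (cG (VS (Option D.K)) (zsP D Kr) (cP D)) 1 1 3)).trans (le_max_right (max 3 cc) _)
  have hC2 := (le_max_right (cT (Fintype.card (VS (Option D.K) ⊕ VS (Option D.K))) 1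
    (cG (VS (Option D.K)) (zsP D Kr) (cP D)) (1 / 2) (zsP D Kr) (cP D))
    (cT (Fintype.card (VS (Option D.K) ⊕ VS (Option D.K))) 1
      (cG (VS (Option D.K)) (zsP D Kr) (cP D)) 1 1 3)).trans (le_max_right (max 3 cc) _)
  have hR := LUc443.mono (F.constReg kP kR kT) le_rfl le_rfl hZ2 hR1
    (hD1.trans (by norm_num)) hC2 le_rfl
  have hX := LUc443.mono (F.prodReg (d := 4) (d' := 1) le_rfl (by norm_num) kP kR kT) le_rfl
    le_rfl hZ1 hR1 hD1 hC1 le_rfl
  have hZ := LUc443.mono (F.prodReg (d := 4) (d' := 2) le_rfl (by norm_num) kP kR kT) le_rfl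
    le_rfl hZ1 hR1 hD1 hC1 le_rfl
  have hck := (ck_CAx pub hc).mono le_rfl hZ0 hR0 hD0 hC0 (by norm_num : (1 : ℝ) / 256 ≤ 1 / 20)
  have hfin := lab_CAx (c := cst h W) pub le_rfl (hD1.trans (by norm_num))
    (three_le_CS (VS (Option D.K)) (zsP D Kr) (cP D) cc) (F.mixL kP kR kT) (by norm_num)
    (gl_inj F kP kR kT) (by linarith) hck hR hX hZ
  have e5 : (5 * (1 / 20) : ℝ) = 1 / 4 := by norm_num
  rw [e5] at hfin
  exact hfin

end main

end Crest.Agent.R289.RegsObj335
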