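import Crest.Agent.R289.DefC_143

/-!
# Row 289: uniform locality calculus

`UL mv pub F` : the map `F i : (U i → A) → U i → B` on words of the units `U i` of the instance `i` is
given by ONE local formula (the same for all instances `i`): it reads the labels and the public data
at the units reached by words of at most `n` steps.  `mv i s` = the unit map of the step letter `s`.

Closed under constants, the label, the public datum, finite functions, steps, composition, finite
families, sums, case distinctions, `DefC.PE` expressions.  `UL.common`: finitely many `UL` maps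
have local formulas over one common slot type (this is what `Word508` rules need).
-/

set_option autoImplicit false

namespace Crest.Agent.R289.ULoc406

/-- unit reached along a word of steps -/
def walk {St V : Type} (mv : St → V → V) : List St → V → V
  | [], u => u
  | s :: w, u => walk mv w (mv s u)

theorem walk_append {St V : Type} (mv : St → V → V) (w w' : List St) (u : V) :
    walk mv (w ++ w') u = walk mv w' (walk mv w u) := by
  induction w generalizing u with
  | nil => rfl
  | cons s w ih => exact ih _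

/-- slots: words of at most `n` steps -/
abbrev Sl (St : Type) (n : ℕ) : Type := {w : List St // w.length ≤ n}

instance (St : Type) (n : ℕ) [Finite St] : Finite (Sl St n) :=
  (List.finite_length_le St n).to_subtype

instance (St : Type) (n : ℕ) : Nonempty (Sl St n) := ⟨⟨[], Nat.zero_le _⟩⟩

/-- the slot of the unit itself -/
def Sl.nil (St : Type) (n : ℕ) : Sl St n := ⟨[], Nat.zero_le _⟩

/-- the neighbour maps of the slots -/
def nbS {St V : Type} (mv : St → V → V) (n : ℕ) (s : Sl St n) (u : V) : V := walk mv s.1 u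

@[simp] theorem nbS_nil {St V : Type} (mv : St → V → V) (n : ℕ) (u : V) :
    nbS mv n (Sl.nil St n) u = u := rfl

/-- multiplicity of the neighbour maps: injective steps -/
theorem nbS_injective {St V : Type} {mv : St → V → V} (h : ∀ s, Function.Injective (mv s)) (n : ℕ)
    (s : Sl St n) : Function.Injective (nbS mv n s) := by
  obtain ⟨w, hw⟩ := s
  unfold nbS
  simp only
  clear hw
  induction w with
  | nil => exact fun _ _ h => h
  | cons s w ih => exact fun x y hxy => h s (ih hxy)

/-- change of radius -/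
def Sl.cast {St : Type} {n m : ℕ} (h : n ≤ m) (s : Sl St n) : Sl St m := ⟨s.1, s.2.trans h⟩

section calculus

variable {Inst St : Type} {U : Inst → Type} {P : Type}
  (mv : ∀ i, St → U i → U i) (pub : ∀ i, U i → P)

/-- uniformly local maps -/
def UL {A B : Type} (F : ∀ i, (U i → A) → U i → B) : Prop :=
  ∃ n, ∃ f : (Sl St n → A) → (Sl St n → P) → B, ∀ i w u,
    F i w u = f (fun s => w (nbS (mv i) n s u)) (fun s => pub i (nbS (mv i) n s u))

/-- local with radius `n` -/
def ULn (n : ℕ) {A B : Type} (F : ∀ i, (U i → A) → U i → B) : Prop :=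
  ∃ f : (Sl St n → A) → (Sl St n → P) → B, ∀ i w u,
    F i w u = f (fun s => w (nbS (mv i) n s u)) (fun s => pub i (nbS (mv i) n s u))

variable {mv pub} {A B C D E : Type}

theorem ULn.mono {n m : ℕ} (h : n ≤ m) {F : ∀ i, (U i → A) → U i → B} (hF : ULn mv pub n F) :
    ULn mv pub m F := by
  obtain ⟨f, hf⟩ := hF
  exact ⟨fun x p => f (fun s => x (s.cast h)) (fun s => p (s.cast h)), fun i w u => hf i w u⟩

theorem ul_iff {F : ∀ i, (U i → A) → U i → B} : UL mv pub F ↔ ∃ n, ULn mv pub n F := Iff.rfl

theorem UL.const (b : B) : UL mv pub (fun i (_ : U i → A) _ => b) :=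
  ⟨0, fun _ _ => b, fun _ _ _ => rfl⟩

/-- the label of the unit -/
theorem UL.here : UL mv pub (fun i (w : U i → A) u => w u) :=
  ⟨0, fun x _ => x (Sl.nil St 0), fun _ _ _ => rfl⟩

/-- the public datum of the unit -/
theorem UL.publ : UL mv pub (fun i (_ : U i → A) u => pub i u) :=
  ⟨0, fun _ p => p (Sl.nil St 0), fun _ _ _ => rfl⟩

theorem UL.congr {F G : ∀ i, (U i → A) → U i → B} (h : UL mv pub F) (e : ∀ i w u, G i w u = F i w u) :
    UL mv pub G := by
  obtain ⟨n, f, hf⟩ := h
  exact ⟨n, f, fun i w u => (e i w u).trans (hf i w u)⟩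

theorem UL.map (g : B → C) {F : ∀ i, (U i → A) → U i → B} (h : UL mv pub F) :
    UL mv pub (fun i w u => g (F i w u)) := by
  obtain ⟨n, f, hf⟩ := h
  exact ⟨n, fun x p => g (f x p), fun i w u => congrArg g (hf i w u)⟩

/-- a family of maps, common radius -/
theorem UL.common {J : Type} [Finite J] {B : J → Type} {F : ∀ j, ∀ i, (U i → A) → U i → B j}
    (h : ∀ j, UL mv pub (F j)) :
    ∃ n, ∃ f : ∀ j, (Sl St n → A) → (Sl St n → P) → B j, ∀ j i w u,
      F j i w u = f j (fun s => w (nbS (mv i) n s u)) (fun s => pub i (nbS (mv i) n s u)) := by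
  choose r hr using fun j => ul_iff.1 (h j)
  obtain ⟨n, hn⟩ : ∃ n, ∀ j, r j ≤ n := by
    obtain ⟨n, hn⟩ := (Set.finite_range r).bddAbove
    exact ⟨n, fun j => hn ⟨j, rfl⟩⟩
  choose f hf using fun j => (hr j).mono (hn j)
  exact ⟨n, f, hf⟩

theorem UL.pi {J : Type} [Finite J] {B : J → Type} {F : ∀ j, ∀ i, (U i → A) → U i → B j}
    (h : ∀ j, UL mv pub (F j)) : UL mv pub (fun i w u j => F j i w u) := by
  obtain ⟨n, f, hf⟩ := UL.common h
  exact ⟨n, fun x p j => f j x p, fun i w u => funext fun j => hf j i w u⟩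

theorem UL.prod {F : ∀ i, (U i → A) → U i → B} {G : ∀ i, (U i → A) → U i → C}
    (hF : UL mv pub F) (hG : UL mv pub G) : UL mv pub (fun i w u => (F i w u, G i w u)) := by
  obtain ⟨n, hn⟩ := ul_iff.1 hF
  obtain ⟨m, hm⟩ := ul_iff.1 hG
  obtain ⟨f, hf⟩ := hn.mono (le_max_left n m)
  obtain ⟨g, hg⟩ := hm.mono (le_max_right n m)
  exact ⟨max n m, fun x p => (f x p, g x p), fun i w u => Prod.ext (hf i w u) (hg i w u)⟩

theorem UL.map₂ (g : B → C → D) {F : ∀ i, (U i → A) → U i → B} {G : ∀ i, (U i → A) → U i → C}
    (hF : UL mv pub F) (hG : UL mv pub G) : UL mv pub (fun i w u => g (F i w u) (G i w u)) :=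
  (hF.prod hG).map fun x => g x.1 x.2

theorem UL.map₃ (g : B → C → D → E) {F : ∀ i, (U i → A) → U i → B}
    {G : ∀ i, (U i → A) → U i → C} {H : ∀ i, (U i → A) → U i → D}
    (hF : UL mv pub F) (hG : UL mv pub G) (hH : UL mv pub H) :
    UL mv pub (fun i w u => g (F i w u) (G i w u) (H i w u)) :=
  ((hF.prod hG).prod hH).map fun x => g x.1.1 x.1.2 x.2

/-- case distinction over a finite value -/
theorem UL.bind [Finite C] {G : ∀ i, (U i → A) → U i → C} {H : C → ∀ i, (U i → A) → U i → B}
    (hG : UL mv pub G) (hH : ∀ c, UL mv pub (H c)) :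
    UL mv pub (fun i w u => H (G i w u) i w u) :=
  (hG.prod (UL.pi hH)).map fun x => x.2 x.1

/-- case distinction by a local condition -/
theorem UL.ite {c : ∀ i, (U i → A) → U i → Prop} [∀ i w u, Decidable (c i w u)]
    {F G : ∀ i, (U i → A) → U i → B} (hc : UL mv pub c) (hF : UL mv pub F) (hG : UL mv pub G) :
    UL mv pub (fun i w u => if c i w u then F i w u else G i w u) := by
  classical
  refine (UL.map₃ (fun (p : Prop) a b => if p then a else b) hc hF hG).congr fun i w u => ?_
  by_cases h : c i w u <;> simp [h]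

theorem UL.and {c d : ∀ i, (U i → A) → U i → Prop} (hc : UL mv pub c) (hd : UL mv pub d) :
    UL mv pub (fun i w u => c i w u ∧ d i w u) := UL.map₂ And hc hd

theorem UL.or {c d : ∀ i, (U i → A) → U i → Prop} (hc : UL mv pub c) (hd : UL mv pub d) :
    UL mv pub (fun i w u => c i w u ∨ d i w u) := UL.map₂ Or hc hd

theorem UL.not {c : ∀ i, (U i → A) → U i → Prop} (hc : UL mv pub c) :
    UL mv pub (fun i w u => ¬ c i w u) := UL.map Not hc

theorem UL.imp {c d : ∀ i, (U i → A) → U i → Prop} (hc : UL mv pub c) (hd : UL mv pub d) :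
    UL mv pub (fun i w u => c i w u → d i w u) := UL.map₂ (fun a b : Prop => a → b) hc hd

theorem UL.all {J : Type} [Finite J] {c : J → ∀ i, (U i → A) → U i → Prop}
    (hc : ∀ j, UL mv pub (c j)) : UL mv pub (fun i w u => ∀ j, c j i w u) :=
  (UL.pi (B := fun _ => Prop) hc).map fun x => ∀ j, x j

theorem UL.ex {J : Type} [Finite J] {c : J → ∀ i, (U i → A) → U i → Prop}
    (hc : ∀ j, UL mv pub (c j)) : UL mv pub (fun i w u => ∃ j, c j i w u) :=
  (UL.pi (B := fun _ => Prop) hc).map fun x => ∃ j, x j

theorem UL.eq {F G : ∀ i, (U i → A) → U i → B} (hF : UL mv pub F) (hG : UL mv pub G) :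
    UL mv pub (fun i w u => F i w u = G i w u) := UL.map₂ (fun a b => a = b) hF hG

open Classical in
theorem UL.decide {c : ∀ i, (U i → A) → U i → Prop} (hc : UL mv pub c) :
    UL mv pub (fun i w u => Decidable.decide (c i w u)) :=
  hc.map fun p => Decidable.decide p

/-- one step -/
theorem UL.step (s : St) {F : ∀ i, (U i → A) → U i → B} (h : UL mv pub F) :
    UL mv pub (fun i w u => F i w (mv i s u)) := by
  obtain ⟨n, f, hf⟩ := h
  exact ⟨n + 1, fun x p => f (fun t => x ⟨s :: t.1, Nat.succ_le_succ t.2⟩)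
    (fun t => p ⟨s :: t.1, Nat.succ_le_succ t.2⟩), fun i w u => hf i w _⟩

theorem UL.walk (l : List St) {F : ∀ i, (U i → A) → U i → B} (h : UL mv pub F) :
    UL mv pub (fun i w u => F i w (ULoc406.walk (mv i) l u)) := by
  induction l with
  | nil => exact h
  | cons s l ih => exact UL.step s ih

/-- composition: a local map applied to a local map -/
theorem UL.comp {G : ∀ i, (U i → A) → U i → B} {F : ∀ i, (U i → B) → U i → C}
    (hF : UL mv pub F) (hG : UL mv pub G) : UL mv pub (fun i w u => F i (G i w) u) := by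
  obtain ⟨n, f, hf⟩ := hF
  obtain ⟨m, g, hg⟩ := hG
  refine ⟨n + m, fun x p => f
    (fun t => g (fun s => x ⟨t.1 ++ s.1, by
        rw [List.length_append]; exact Nat.add_le_add t.2 s.2⟩)
      (fun s => p ⟨t.1 ++ s.1, by rw [List.length_append]; exact Nat.add_le_add t.2 s.2⟩))
    (fun t => p ⟨t.1, t.2.trans (Nat.le_add_right _ _)⟩), fun i w u => ?_⟩
  refine (hf i (G i w) u).trans ?_
  have h1 : (fun t => G i w (nbS (mv i) n t u)) = fun t : Sl St n =>
      g (fun s => w (nbS (mv i) (n + m) ⟨t.1 ++ s.1, by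
        rw [List.length_append]; exact Nat.add_le_add t.2 s.2⟩ u))
      (fun s => pub i (nbS (mv i) (n + m) ⟨t.1 ++ s.1, by
        rw [List.length_append]; exact Nat.add_le_add t.2 s.2⟩ u)) := by
    funext t
    refine (hg i w _).trans ?_
    simp only [nbS, walk_append]
  rw [h1]
  rfl

/-- the word read through a local map (special case of `comp`) -/
theorem UL.precomp (g : A → B) {F : ∀ i, (U i → B) → U i → C} (hF : UL mv pub F) :
    UL mv pub (fun i (w : U i → A) u => F i (fun v => g (w v)) u) :=
  hF.comp (UL.map g UL.here)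

section alg
variable {K : Type}

theorem UL.add [Add K] {F G : ∀ i, (U i → A) → U i → K} (hF : UL mv pub F) (hG : UL mv pub G) :
    UL mv pub (fun i w u => F i w u + G i w u) := UL.map₂ (· + ·) hF hG

theorem UL.sub [Sub K] {F G : ∀ i, (U i → A) → U i → K} (hF : UL mv pub F) (hG : UL mv pub G) :
    UL mv pub (fun i w u => F i w u - G i w u) := UL.map₂ (· - ·) hF hG

theorem UL.mul [Mul K] {F G : ∀ i, (U i → A) → U i → K} (hF : UL mv pub F) (hG : UL mv pub G) :
    UL mv pub (fun i w u => F i w u * G i w u) := UL.map₂ (· * ·) hF hG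

theorem UL.neg [Neg K] {F : ∀ i, (U i → A) → U i → K} (hF : UL mv pub F) :
    UL mv pub (fun i w u => - F i w u) := UL.map (fun x => -x) hF

theorem UL.smul {R : Type} [SMul R K] {F : ∀ i, (U i → A) → U i → R}
    {G : ∀ i, (U i → A) → U i → K} (hF : UL mv pub F) (hG : UL mv pub G) :
    UL mv pub (fun i w u => F i w u • G i w u) := UL.map₂ (· • ·) hF hG

theorem UL.sum [AddCommMonoid K] {J : Type} (s : Finset J) {F : J → ∀ i, (U i → A) → U i → K}
    (h : ∀ j, UL mv pub (F j)) : UL mv pub (fun i w u => ∑ j ∈ s, F j i w u) := by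
  classical
  induction s using Finset.induction_on with
  | empty => exact (UL.const 0).congr fun i w u => by simp
  | insert a s ha ih =>
    exact ((h a).add ih).congr fun i w u => by rw [Finset.sum_insert ha]

end alg

/-- **expressions of `DefC_143` are uniformly local.** `pt i u` = the point of the word attached to the
unit (one fixed symbol), `act`-steps are steps of the units. -/
theorem UL.evalC {K R B' G : Type} [CommRing K] {Ω : Inst → Type}
    (act : ∀ i, G → Equiv.Perm (Ω i)) (pt : ∀ i, U i → Ω i) (lt li : G → List St)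
    (hlt : ∀ i g u, act i g (pt i u) = pt i (ULoc406.walk (mv i) (lt g) u))
    (hli : ∀ i g u, (act i g).symm (pt i u) = pt i (ULoc406.walk (mv i) (li g) u))
    (b : ∀ i, (U i → A) → B' → Ω i → K) (r : ∀ i, (U i → A) → R → Ω i → K)
    (hb : ∀ j, UL mv pub (fun i w u => b i w j (pt i u)))
    (hr : ∀ j, UL mv pub (fun i w u => r i w j (pt i u)))
    (e : DefC.PE K R B' G) :
    UL mv pub (fun i w u => e.evalC (act i) (b i w) (r i w) (pt i u)) := by
  induction e with
  | zero => exact UL.const 0
  | reg j => exact hr j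
  | pub j => exact hb j
  | smul c e ih => exact ih.map fun x => c * x
  | add e f ihe ihf => exact ihe.add ihf
  | mul e f ihe ihf => exact ihe.mul ihf
  | tr g e ih =>
    refine (ih.walk (lt g)).congr fun i w u => ?_
    simp only [DefC.PE.evalC, hlt]
  | ti g e ih =>
    refine (ih.walk (li g)).congr fun i w u => ?_
    simp only [DefC.PE.evalC, hli]

end calculus

end Crest.Agent.R289.ULoc406
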