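import Crest.Agent.R289.ULoc_209
import Crest.Agent.R289.ULoc_406

/-!
# Row 289: the two calculi of uniform locality are equivalent

`ULoc209.ULoc` (equal views give equal values) and `ULoc406.UL` (one local formula) are the same
notion: `ul_of_uloc`, `uloc_of_ul`.
-/

set_option autoImplicit false

namespace Crest.Agent.R289.ULBridge25

open Crest.Agent.R289.ULoc209 Crest.Agent.R289.ULoc406 Crest.Agent.R289.Word508

/-- list of the letters of a word of moves -/
def ls {ι : Type} : ∀ R : ℕ, Wd R ι → List ι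
  | 0, _ => []
  | R + 1, s => (match s 0 with | none => [] | some a => [a]) ++ ls R (fun j => s j.succ)

theorem ls_length {ι : Type} : ∀ (R : ℕ) (s : Wd R ι), (ls R s).length ≤ R
  | 0, _ => Nat.le_refl 0
  | R + 1, s => by
    have h := ls_length R (fun j => s j.succ)
    unfold ls
    rw [List.length_append]
    cases s 0 with
    | none => simp only [List.length_nil]; omega
    | some a => simp only [List.length_cons, List.length_nil]; omega

theorem walk_ls {ι V : Type} (mv : ι → V → V) : ∀ (R : ℕ) (s : Wd R ι) (u : V),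
    walk mv (ls R s) u = mvw mv R s u
  | 0, _, _ => rfl
  | R + 1, s, u => by
    unfold ls mvw
    rw [walk_append, walk_ls mv R]
    cases s 0 with
    | none => rfl
    | some a => rfl

/-- the word of moves of a list -/
def ofL {ι : Type} : ∀ R : ℕ, List ι → Wd R ι
  | 0, _ => fun j => j.elim0
  | _ + 1, [] => fun _ => none
  | R + 1, a :: l => Fin.cons (some a) (ofL R l)

theorem mvw_ofL {ι V : Type} (mv : ι → V → V) : ∀ (R : ℕ) (l : List ι) (u : V), l.length ≤ R →
    mvw mv R (ofL R l) u = walk mv l u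
  | 0, [], _, _ => rfl
  | 0, a :: l, _, h => by simp at h
  | R + 1, [], u, _ => mvw_none mv (R + 1) u
  | R + 1, a :: l, u, h => by
    have h' : l.length ≤ R := by simpa using h
    show mvw mv R (fun j => (Fin.cons (some a) (ofL R l) : Wd (R + 1) ι) j.succ)
      (onb mv ((Fin.cons (some a) (ofL R l) : Wd (R + 1) ι) 0) u) = _
    simp only [Fin.cons_succ, Fin.cons_zero]
    exact mvw_ofL mv R l (mv a u) h'

variable {ι P : Type} {A B : Type}

/-- **equal views ⇒ one formula** -/
theorem ul_of_uloc {F : UF ι P} [Nonempty B] {R : ℕ} {f : ∀ i, (F.U i → A) → F.U i → B}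
    (h : ULoc F R f) : UL F.nb F.pub f := by
  obtain ⟨d⟩ := ‹Nonempty B›
  refine ⟨R, fun x p => rule F R d f (fun s => x ⟨ls R s, ls_length R s⟩)
    (fun s => p ⟨ls R s, ls_length R s⟩), fun i w u => ?_⟩
  have h1 := rule_eq d h i w u
  rw [← h1]
  congr 1
  · funext s
    show w (mvw (F.nb i) R s u) = w (walk (F.nb i) (ls R s) u)
    rw [walk_ls]
  · funext s
    show F.pub i (mvw (F.nb i) R s u) = F.pub i (walk (F.nb i) (ls R s) u)
    rw [walk_ls]

/-- **one formula ⇒ equal views** -/
theorem uloc_of_ul {F : UF ι P} {f : ∀ i, (F.U i → A) → F.U i → B}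
    (h : UL F.nb F.pub f) : ∃ R, ULoc F R f := by
  obtain ⟨n, g, hg⟩ := h
  refine ⟨n, fun i i' w w' u u' hv => ?_⟩
  rw [hg, hg]
  congr 1
  · funext s
    have := hv.1 (ofL n s.1)
    rw [mvw_ofL _ n s.1 u s.2, mvw_ofL _ n s.1 u' s.2] at this
    exact this
  · funext s
    have := hv.2 (ofL n s.1)
    rw [mvw_ofL _ n s.1 u s.2, mvw_ofL _ n s.1 u' s.2] at this
    exact this

/-- the family of 209 from the data of 406 -/
def uf {Inst St P' : Type} {U : Inst → Type} (mv : ∀ i, St → U i → U i) (pub : ∀ i, U i → P') :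
    UF St P' where
  I := Inst
  U := U
  nb := mv
  pub := pub

theorem ul_iff_uloc {Inst St P' : Type} {U : Inst → Type} (mv : ∀ i, St → U i → U i)
    (pub : ∀ i, U i → P') [Nonempty B] (f : ∀ i, (U i → A) → U i → B) :
    UL mv pub f ↔ ∃ R, ULoc (uf mv pub) R f :=
  ⟨fun h => uloc_of_ul (F := uf mv pub) h, fun ⟨_, h⟩ => ul_of_uloc (F := uf mv pub) h⟩

end Crest.Agent.R289.ULBridge25
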