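import Crest.Agent.R289.Sampler2_56
import Crest.Agent.R289.Word_508

/-!
# Row 289: multiplicity of the sampler maps

The sample maps `nbF hn t` of `Sampler2_56` (torus walk of side `sqrt n + 1`, folded mod `n`) are at
most 4-to-one: `NbMult (nbF hn t) 4`, as needed by `Word508.asm_Ax`. Packaged with `D3` and
transported to any finite unit type.
-/

set_option autoImplicit false

namespace Crest.Agent.R289.SampMult497

open Finset Crest.Agent.R289.DefD Crest.Agent.R289.Sampler56 Crest.Agent.R289.Word508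

lemma sig_inj (N t : ℕ) : ∀ j, Function.Injective (sig N t j) := by
  induction t with
  | zero => intro j x y h; exact h
  | succ t ih =>
    intro j x y h
    exact (tau N (j % 16)).injective (ih (j / 16) h)

lemma cz_inj {N : ℕ} {z z' : ℕ × ℕ} (h1 : z.1 < N) (h2 : z.2 < N) (h1' : z'.1 < N)
    (h2' : z'.2 < N) (h : cz N z = cz N z') : z = z' := by
  have hN : 0 < N := lt_of_le_of_lt (Nat.zero_le _) h1
  have : NeZero N := ⟨hN.ne'⟩
  have e1 := congrArg (fun w : ZMod N × ZMod N => w.1.val) h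
  have e2 := congrArg (fun w : ZMod N × ZMod N => w.2.val) h
  simp only [cz, ZMod.val_natCast_of_lt h1, ZMod.val_natCast_of_lt h1',
    ZMod.val_natCast_of_lt h2, ZMod.val_natCast_of_lt h2'] at e1 e2
  exact Prod.ext e1 e2

/-- the unfolded sample, a number below `N ^ 2` -/
def flat (N t j u : ℕ) : ℕ :=
  (sigN N t j (u / N, u % N)).1 * N + (sigN N t j (u / N, u % N)).2

lemma flat_inj {N M : ℕ} (hN : 0 < N) (hMN : M ≤ N ^ 2) (t j : ℕ) {u u' : ℕ} (hu : u < M)
    (hu' : u' < M) (h : flat N t j u = flat N t j u') : u = u' := by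
  have d1 : u / N < N := by
    rw [Nat.div_lt_iff_lt_mul hN, ← sq]; exact hu.trans_le hMN
  have d1' : u' / N < N := by
    rw [Nat.div_lt_iff_lt_mul hN, ← sq]; exact hu'.trans_le hMN
  have d2 : u % N < N := Nat.mod_lt _ hN
  have d2' : u' % N < N := Nat.mod_lt _ hN
  obtain ⟨a1, a2⟩ := sigN_lt hN t j (u / N, u % N) d1 d2
  obtain ⟨b1, b2⟩ := sigN_lt hN t j (u' / N, u' % N) d1' d2'
  unfold flat at h
  have e1 : (sigN N t j (u / N, u % N)).1 = (sigN N t j (u' / N, u' % N)).1 := by
    have := congrArg (· / N) h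
    simpa [mul_comm _ N, Nat.mul_add_div hN, Nat.div_eq_of_lt a2, Nat.div_eq_of_lt b2] using this
  have e2 : (sigN N t j (u / N, u % N)).2 = (sigN N t j (u' / N, u' % N)).2 := by
    rw [e1] at h; exact Nat.add_left_cancel h
  have e3 : sigN N t j (u / N, u % N) = sigN N t j (u' / N, u' % N) := Prod.ext e1 e2
  have e4 : cz N (u / N, u % N) = cz N (u' / N, u' % N) := by
    apply sig_inj N t j
    rw [← cz_sigN hN t j _ d1 d2, ← cz_sigN hN t j _ d1' d2', e3]
  have e5 := cz_inj (N := N) d1 d2 d1' d2' e4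
  have e6 := congrArg Prod.fst e5
  have e7 := congrArg Prod.snd e5
  simp only at e6 e7
  rw [← Nat.div_add_mod u N, ← Nat.div_add_mod u' N, e6, e7]

lemma flat_lt {N M : ℕ} (hN : 0 < N) (hMN : M ≤ N ^ 2) (t j : ℕ) {u : ℕ} (hu : u < M) :
    flat N t j u < N ^ 2 := by
  have d1 : u / N < N := by
    rw [Nat.div_lt_iff_lt_mul hN, ← sq]; exact hu.trans_le hMN
  obtain ⟨a1, a2⟩ := sigN_lt hN t j (u / N, u % N) d1 (Nat.mod_lt _ hN)
  unfold flat
  nlinarith

lemma side2_sq_le {M : ℕ} (hM : 0 < M) : side2 M ^ 2 ≤ 4 * M := by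
  unfold side2
  have h1 : Nat.sqrt M * Nat.sqrt M ≤ M := Nat.sqrt_le M
  have h2 : Nat.sqrt M ≤ M := Nat.sqrt_le_self M
  nlinarith

/-- **every sample map is at most 4-to-one** -/
theorem nbF_mult {n : ℕ} (hn : 0 < n) (t : ℕ) : NbMult (nbF hn t) 4 := by
  classical
  have key := nbMult_of_fiber (nbF hn t) 4 (fun i v => by
    have hN : 0 < side2 n := Nat.succ_pos _
    have hMN := le_side2_sq n
    have h4 := side2_sq_le hn
    refine le_trans (card_le_card_of_injOn (t := range 4)
      (fun u : Fin n => flat (side2 n) t i u / n) ?_ ?_) (le_of_eq (card_range 4))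
    · intro u hu
      have := flat_lt hN hMN t i u.2
      rw [mem_coe, mem_range]
      rw [Nat.div_lt_iff_lt_mul hn]
      omega
    · intro u hu u' hu' he
      have h1 := (mem_filter.1 (mem_coe.1 hu)).2
      have h2 := (mem_filter.1 (mem_coe.1 hu')).2
      have e1 : flat (side2 n) t i u % n = (v : ℕ) := congrArg Fin.val h1
      have e2 : flat (side2 n) t i u' % n = (v : ℕ) := congrArg Fin.val h2
      apply Fin.ext
      apply flat_inj hN hMN t i u.2 u'.2
      simp only at he
      rw [← Nat.div_add_mod (flat (side2 n) t i u) n,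
        ← Nat.div_add_mod (flat (side2 n) t i u') n, he, e1, e2])
  simpa using key

/-- sampler maps with bounded multiplicity, all sizes `≥ n0` -/
theorem exists_sampler {e γ : ℝ} (he : 0 < e) (hγ : 0 < γ) : ∃ t n0 : ℕ, ∀ n, n0 ≤ n →
    ∀ hn : 0 < n, Sampler (16 ^ t) (nbF hn t) e γ ∧ NbMult (nbF hn t) 4 := by
  obtain ⟨t0, n0, h⟩ := D3 he hγ
  exact ⟨t0, n0, fun n hnn hn => ⟨h t0 le_rfl n hnn hn, nbF_mult hn t0⟩⟩

/-! ### transport to any finite unit type -/

section transport
variable {U V : Type} [Fintype U] [Fintype V]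

lemma frac_equiv (f : U ≃ V) (p : V → Prop) : frac (fun u => p (f u)) = frac p := by
  classical
  unfold frac
  rw [Fintype.card_congr f]
  congr 2
  refine card_bij (fun u _ => f u) ?_ ?_ ?_
  · intro u hu
    simpa using hu
  · intro a _ b _ h
    exact f.injective h
  · intro v hv
    exact ⟨f.symm v, by simpa using hv, by simp⟩

/-- transported maps -/
def tr {ι : Type} (f : U ≃ V) (nb : ι → V → V) : ι → U → U := fun i u => f.symm (nb i (f u))

theorem nbMult_tr {ι : Type} (f : U ≃ V) {nb : ι → V → V} {m : ℝ} (h : NbMult nb m) :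
    NbMult (tr f nb) m := by
  intro i E
  have h1 := h i (fun v => E (f.symm v))
  have e1 : frac (fun u => E (tr f nb i u)) = frac (fun v => E (f.symm (nb i v))) :=
    frac_equiv f (fun v => E (f.symm (nb i v)))
  have e2 : frac (fun v => E (f.symm v)) = frac E := frac_equiv f.symm E
  rw [e1, ← e2]
  exact h1

theorem sampler_tr (f : U ≃ V) {d : ℕ} {nb : Fin d → V → V} {e γ : ℝ}
    (h : Sampler d nb e γ) : Sampler d (tr f nb) e γ := by
  intro y hy
  have h1 := h (fun v => y (f.symm v)) (fun v => hy _)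
  have e1 : (∑ v, y (f.symm v)) = ∑ u, y u := f.symm.sum_comp y
  rw [e1, ← Fintype.card_congr f] at h1
  refine le_trans (le_of_eq ?_) h1
  exact frac_equiv f (fun v => ¬ |(∑ i, y (f.symm (nb i v))) / (d : ℝ) -
    (∑ u, y u) / (Fintype.card U : ℝ)| ≤ e)

/-- **sample maps on any finite unit type** numbered by `f : U ≃ Fin n`, `n ≥ n0`: the number of the
unit `tr f (nbF hn t) i u` is `samp2 n t i (f u)` -/
theorem exists_sampler_on {e γ : ℝ} (he : 0 < e) (hγ : 0 < γ) : ∃ t n0 : ℕ, ∀ n, n0 ≤ n →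
    ∀ (hn : 0 < n) (U : Type) [Fintype U] (f : U ≃ Fin n),
      Sampler (16 ^ t) (tr f (nbF hn t)) e γ ∧ NbMult (tr f (nbF hn t)) 4 ∧
        ∀ i u, ((f (tr f (nbF hn t) i u) : Fin n) : ℕ) = samp2 n t i (f u) := by
  obtain ⟨t, n0, h⟩ := exists_sampler he hγ
  refine ⟨t, n0, fun n hnn hn U _ f => ?_⟩
  obtain ⟨h1, h2⟩ := h n hnn hn
  refine ⟨sampler_tr f h1, nbMult_tr f h2, fun i u => ?_⟩
  simp [tr, nbF]

end transport

end Crest.Agent.R289.SampMult497
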