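import Mathlib
import Crest.Agent.R289.Word_508

/-!
# Row 289: combinators for local codes (second part of leaf (iv) of post 5715)

* `CAx.mono`, `CAx.extend` : weaker constants, larger slot set / public data;
* `CAx.double`, `CAx.iter` : iterated correction;
* `CAx.prod` : finitely many registers on the same units, each with its own code;
* `rep_CAx` : the control letter (constant words);
* `read_ok`, `SStep` : sampled coherent reads.
-/

set_option autoImplicit false

namespace Crest.Agent.R289.Word508

open Finset Crest.Agent.R289.DefD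

/-! ### monotonicity and extension -/

theorem CAx.mono {ι U A P : Type} [Fintype U] {R : CRules ι A P} {nb : ι → U → U} {pub : U → P}
    {C : Set (U → A)} {m zs r0 d0 c θ m' zs' r0' d0' c' θ' : ℝ}
    (h : CAx R nb pub C m zs r0 d0 c θ) (hm : m ≤ m') (hzs : zs' ≤ zs) (hr : r0' ≤ r0)
    (hd : d0' ≤ d0) (hc : c ≤ c') (hθ : θ ≤ θ') :
    CAx R nb pub C m' zs' r0' d0' c' θ' where
  mult i E := (h.mult i E).trans (mul_le_mul_of_nonneg_right hm (frac_nonneg _))
  sep v hv w hw hne := hd.trans (h.sep v hv w hw hne)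
  sound X hX := by
    obtain ⟨w, hw, hle⟩ := h.sound X (hX.trans hzs)
    exact ⟨w, hw, hle.trans (mul_le_mul_of_nonneg_right hc (frac_nonneg _))⟩
  compl := h.compl
  corr w hw E hE := (h.corr w hw E (hE.trans hr)).trans
    (mul_le_mul_of_nonneg_right hθ (frac_nonneg _))

/-- the same rules with more slots and more public data -/
def CRules.extend {ι ι' A P P' : Type} (R : CRules ι A P) (σ : ι → ι') (π : P' → P) :
    CRules ι' A P' where
  viol x p := R.viol (fun i => x (σ i)) (π p)
  corr x p := R.corr (fun i => x (σ i)) (π p)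

theorem CAx.extend {ι ι' U A P P' : Type} [Fintype U] {R : CRules ι A P} {nb : ι → U → U}
    {pub : U → P} {C : Set (U → A)} {m m' zs r0 d0 c θ : ℝ}
    (h : CAx R nb pub C m zs r0 d0 c θ) (σ : ι → ι') (π : P' → P) (nb' : ι' → U → U)
    (pub' : U → P') (hσ : ∀ i u, nb' (σ i) u = nb i u) (hπ : ∀ u, π (pub' u) = pub u)
    (hm : NbMult nb' m') : CAx (R.extend σ π) nb' pub' C m' zs r0 d0 c θ := by
  have hv : ∀ (X : U → A) (u : U), (R.extend σ π).viol (fun i => X (nb' i u)) (pub' u) ↔
      R.viol (fun i => X (nb i u)) (pub u) := by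
    intro X u
    show R.viol (fun i => X (nb' (σ i) u)) (π (pub' u)) ↔ _
    rw [hπ]
    have : (fun i => X (nb' (σ i) u)) = fun i => X (nb i u) := by
      funext i; rw [hσ]
    rw [this]
  refine ⟨hm, h.sep, ?_, ?_, ?_⟩
  · intro X hX
    have he : frac (fun u => (R.extend σ π).viol (fun i => X (nb' i u)) (pub' u)) =
        frac (fun u => R.viol (fun i => X (nb i u)) (pub u)) := by
      congr 1; funext u; exact propext (hv X u)
    rw [he] at hX ⊢
    exact h.sound X hX
  · intro w hw u hu
    exact h.compl w hw u ((hv w u).mp hu)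
  · intro w hw E hE
    refine (frac_mono ?_).trans (h.corr w hw E hE)
    rintro u ⟨x, hx, hne⟩
    refine ⟨fun i => x (σ i), fun i hi => ?_, ?_⟩
    · show x (σ i) = w (nb i u)
      rw [hx (σ i) (by rw [hσ]; exact hi), hσ]
    · have h2 : (R.extend σ π).corr x (pub' u) = R.corr (fun i => x (σ i)) (pub u) := by
        show R.corr (fun i => x (σ i)) (π (pub' u)) = _
        rw [hπ]
      rwa [h2] at hne

/-! ### iterated correction -/

/-- two rounds of correction -/
def CRules.double {ι A P : Type} (R : CRules ι A P) : CRules (ι ⊕ ι × ι) A (P × (ι → P)) where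
  viol x p := R.viol (fun i => x (Sum.inl i)) p.1
  corr x p := R.corr (fun i => R.corr (fun j => x (Sum.inr (i, j))) (p.2 i)) p.1

/-- slots of two rounds -/
def dnb {ι U : Type} (nb : ι → U → U) : ι ⊕ ι × ι → U → U
  | Sum.inl i, u => nb i u
  | Sum.inr (i, j), u => nb j (nb i u)

/-- public data of two rounds -/
def dpub {ι U P : Type} (nb : ι → U → U) (pub : U → P) (u : U) : P × (ι → P) :=
  (pub u, fun i => pub (nb i u))

lemma NbMult.dnb {ι U : Type} [Fintype U] {nb : ι → U → U} {m : ℝ} (h : NbMult nb m)
    (hm : 1 ≤ m) : NbMult (dnb nb) (m * m) := by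
  intro i E
  rcases i with i | ⟨i, j⟩
  · refine (h i E).trans (mul_le_mul_of_nonneg_right ?_ (frac_nonneg _))
    nlinarith
  · refine (h i (fun v => E (nb j v))).trans ?_
    rw [mul_assoc]
    exact mul_le_mul_of_nonneg_left (h j E) (by linarith)

theorem CAx.double {ι U A P : Type} [Fintype U] {R : CRules ι A P} {nb : ι → U → U}
    {pub : U → P} {C : Set (U → A)} {m zs r0 d0 c θ : ℝ}
    (h : CAx R nb pub C m zs r0 d0 c θ) (hm : 1 ≤ m) (h0 : 0 ≤ θ) (h1 : θ ≤ 1) :
    CAx R.double (dnb nb) (dpub nb pub) C (m * m) zs r0 d0 c (θ * θ) where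
  mult := h.mult.dnb hm
  sep := h.sep
  sound := h.sound
  compl := h.compl
  corr w hw E hE := by
    set E' : U → Prop := fun v => ∃ x : ι → A, (∀ i, ¬ E (nb i v) → x i = w (nb i v)) ∧
      R.corr x (pub v) ≠ w v with hE'
    have h2 : frac E' ≤ θ * frac E := h.corr w hw E hE
    have h3 : frac E' ≤ r0 := by
      have := frac_nonneg E
      nlinarith
    have h4 := h.corr w hw E' h3
    refine (frac_mono ?_).trans (h4.trans ?_)
    · rintro u ⟨x, hx, hne⟩
      refine ⟨fun i => R.corr (fun j => x (Sum.inr (i, j))) (pub (nb i u)), ?_, hne⟩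
      intro i hi
      by_contra hcon
      exact hi ⟨fun j => x (Sum.inr (i, j)), fun j hj => hx (Sum.inr (i, j)) hj, hcon⟩
    · rw [mul_assoc]
      exact mul_le_mul_of_nonneg_left h2 h0

/-- slot type after `s` doublings -/
def ItI : ℕ → Type → Type
  | 0, ι => ι
  | s + 1, ι => ItI s ι ⊕ ItI s ι × ItI s ι

/-- type of the public data after `s` doublings -/
def ItP : ℕ → Type → Type → Type
  | 0, _, P => P
  | s + 1, ι, P => ItP s ι P × (ItI s ι → ItP s ι P)

/-- finiteness of the slot type -/
@[instance_reducible]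
noncomputable def fintypeItI {ι : Type} [Fintype ι] : ∀ s, Fintype (ItI s ι)
  | 0 => inferInstanceAs (Fintype ι)
  | s + 1 => by
    letI := fintypeItI (ι := ι) s
    exact inferInstanceAs (Fintype (ItI s ι ⊕ ItI s ι × ItI s ι))

noncomputable instance {ι : Type} [Fintype ι] (s : ℕ) : Fintype (ItI s ι) := fintypeItI s

lemma finiteItP {ι P : Type} [Finite ι] [Finite P] : ∀ s, Finite (ItP s ι P)
  | 0 => inferInstanceAs (Finite P)
  | s + 1 => by
    have := finiteItP (ι := ι) (P := P) s
    have : Fintype ι := Fintype.ofFinite ι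
    exact inferInstanceAs (Finite (ItP s ι P × (ItI s ι → ItP s ι P)))

instance {ι P : Type} [Finite ι] [Finite P] (s : ℕ) : Finite (ItP s ι P) := finiteItP s

lemma nonemptyItP {ι P : Type} [Nonempty P] : ∀ s, Nonempty (ItP s ι P)
  | 0 => inferInstanceAs (Nonempty P)
  | s + 1 => by
    have := nonemptyItP (ι := ι) (P := P) s
    exact inferInstanceAs (Nonempty (ItP s ι P × (ItI s ι → ItP s ι P)))

instance {ι P : Type} [Nonempty P] (s : ℕ) : Nonempty (ItP s ι P) := nonemptyItP s

/-- the rules with `2 ^ s` rounds of correction -/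
def CRules.iter {ι A P : Type} (R : CRules ι A P) : ∀ s, CRules (ItI s ι) A (ItP s ι P)
  | 0 => R
  | s + 1 => (R.iter s).double

/-- neighbour maps of `2 ^ s` rounds -/
def inb {ι U : Type} (nb : ι → U → U) : ∀ s, ItI s ι → U → U
  | 0 => nb
  | s + 1 => dnb (inb nb s)

/-- public data of `2 ^ s` rounds -/
def ipub {ι U P : Type} (nb : ι → U → U) (pub : U → P) : ∀ s, U → ItP s ι P
  | 0 => pub
  | s + 1 => dpub (inb nb s) (ipub nb pub s)

/-- ITERATED CORRECTION: contraction `θ ^ (2 ^ s)` -/
theorem CAx.iter {ι U A P : Type} [Fintype U] {R : CRules ι A P} {nb : ι → U → U}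
    {pub : U → P} {C : Set (U → A)} {m zs r0 d0 c θ : ℝ}
    (h : CAx R nb pub C m zs r0 d0 c θ) (hm : 1 ≤ m) (h0 : 0 ≤ θ) (h1 : θ ≤ 1) :
    ∀ s : ℕ, CAx (R.iter s) (inb nb s) (ipub nb pub s) C (m ^ (2 ^ s)) zs r0 d0 c (θ ^ (2 ^ s))
  | 0 => by
    rw [pow_zero, pow_one, pow_one]
    exact h
  | s + 1 => by
    have := (CAx.iter h hm h0 h1 s).double (one_le_pow₀ hm) (pow_nonneg h0 _)
      (pow_le_one₀ h0 h1)
    have e1 : ∀ a : ℝ, a ^ (2 ^ (s + 1)) = a ^ (2 ^ s) * a ^ (2 ^ s) := by
      intro a; rw [← pow_add]; congr 1; ring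
    rw [e1, e1]
    exact this

/-! ### product of registers -/

/-- finitely many registers -/
def CRules.prod {J : Type} {ι A P : J → Type} (R : ∀ j, CRules (ι j) (A j) (P j)) :
    CRules (Σ j, ι j) (∀ j, A j) (∀ j, P j) where
  viol x p := ∃ j, (R j).viol (fun i => x ⟨j, i⟩ j) (p j)
  corr x p := fun j => (R j).corr (fun i => x ⟨j, i⟩ j) (p j)

/-- PRODUCT THEOREM -/
theorem CAx.prod {J U : Type} [Fintype J] [Fintype U] {ι A P : J → Type}
    {R : ∀ j, CRules (ι j) (A j) (P j)} {nb : ∀ j, ι j → U → U} {pub : ∀ j, U → P j}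
    {C : ∀ j, Set (U → A j)} {m zs r0 d0 c θ : ℝ} (hc : 0 ≤ c)
    (h : ∀ j, CAx (R j) (nb j) (pub j) (C j) m zs r0 d0 c θ) :
    CAx (CRules.prod R) (fun i u => nb i.1 i.2 u) (fun u j => pub j u)
      {w | ∀ j, (fun u => w u j) ∈ C j} m zs r0 d0 (Fintype.card J * c)
      (Fintype.card J * θ) where
  mult i E := (h i.1).mult i.2 E
  sep v hv w hw hne := by
    have : ∃ j, (fun u => v u j) ≠ fun u => w u j := by
      by_contra hcon
      push Not at hcon
      apply hne
      funext u j
      exact congrFun (hcon j) u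
    obtain ⟨j, hj⟩ := this
    refine ((h j).sep _ (hv j) _ (hw j) hj).trans (frac_mono ?_)
    intro u hu heq
    exact hu (congrFun heq j)
  sound X hX := by
    set V := frac (fun u => (CRules.prod R).viol (fun i => X (nb i.1 i.2 u))
      (fun j => pub j u)) with hV
    have hj : ∀ j, frac (fun u => (R j).viol (fun i => X (nb j i u) j) (pub j u)) ≤ V :=
      fun j => frac_mono fun u hu => ⟨j, hu⟩
    choose w hw hle using fun j => (h j).sound (fun u => X u j) ((hj j).trans hX)
    refine ⟨fun u j => w j u, hw, ?_⟩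
    have h1 : distW X (fun u j => w j u) ≤ ∑ j, distW (fun u => X u j) (w j) := by
      refine (frac_mono (q := fun u => ∃ j, X u j ≠ w j u) ?_).trans (frac_exists _)
      intro u hu
      by_contra hcon
      push Not at hcon
      exact hu (funext hcon)
    have h2 : ∀ j, distW (fun u => X u j) (w j) ≤ c * V := fun j =>
      (hle j).trans (mul_le_mul_of_nonneg_left (hj j) hc)
    calc distW X (fun u j => w j u) ≤ ∑ j, distW (fun u => X u j) (w j) := h1
      _ ≤ ∑ _j : J, c * V := sum_le_sum fun j _ => h2 j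
      _ = Fintype.card J * c * V := by
        rw [sum_const, nsmul_eq_mul, card_univ]; ring
  compl w hw u := by
    rintro ⟨j, hj⟩
    exact (h j).compl _ (hw j) u hj
  corr w hw E hE := by
    have h1 := fun j => (h j).corr _ (hw j) E hE
    refine (frac_mono (q := fun u => ∃ j, ∃ x : ι j → A j,
      (∀ i, ¬ E (nb j i u) → x i = w (nb j i u) j) ∧
        (R j).corr x (pub j u) ≠ w u j) ?_).trans ?_
    · rintro u ⟨x, hx, hne⟩
      have : ∃ j, (CRules.prod R).corr x (fun j => pub j u) j ≠ w u j := by
        by_contra hcon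
        push Not at hcon
        exact hne (funext hcon)
      obtain ⟨j, hj⟩ := this
      refine ⟨j, fun i => x ⟨j, i⟩ j, fun i hi => ?_, hj⟩
      exact congrFun (hx ⟨j, i⟩ hi) j
    · refine (frac_exists _).trans ((sum_le_sum fun j _ => h1 j).trans ?_)
      rw [sum_const, nsmul_eq_mul, card_univ, mul_assoc]

/-! ### the control letter -/

/-- vertex/edge expansion of the slot maps -/
def Expands {κ U : Type} [Fintype U] (nb : κ → U → U) (h : ℝ) : Prop :=
  ∀ E : U → Prop, frac E ≤ 1 / 2 → h * frac E ≤ frac fun u => ∃ i, ¬ (E (nb i u) ↔ E u)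

open Classical in
/-- majority contraction of the slot maps -/
def MajC {κ U : Type} [Fintype κ] [Fintype U] (nb : κ → U → U) (r0 θ : ℝ) : Prop :=
  ∀ E : U → Prop, frac E ≤ r0 →
    frac (fun u => Fintype.card κ ≤ 2 * (univ.filter fun i => E (nb i u)).card) ≤ θ * frac E

open Classical in
/-- strict majority value of a finite family (if any) -/
noncomputable def maj {κ A : Type} [Fintype κ] [Nonempty A] (x : κ → A) : A :=
  if h : ∃ a, Fintype.card κ < 2 * (univ.filter fun i => x i = a).card then h.choose
  else Classical.arbitrary A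

open Classical in
lemma maj_eq {κ A : Type} [Fintype κ] [Nonempty A] (x : κ → A) (a : A)
    (h : 2 * (univ.filter fun i => x i ≠ a).card < Fintype.card κ) : maj x = a := by
  have hsum : (univ.filter fun i => x i = a).card + (univ.filter fun i => ¬ x i = a).card =
      Fintype.card κ := by
    rw [card_filter_add_card_filter_not, card_univ]
  have ha : Fintype.card κ < 2 * (univ.filter fun i => x i = a).card := by
    have h' : 2 * (univ.filter fun i => ¬ x i = a).card < Fintype.card κ := h
    omega
  have hex : ∃ a, Fintype.card κ < 2 * (univ.filter fun i => x i = a).card := ⟨a, ha⟩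
  unfold maj
  rw [dif_pos hex]
  by_contra hne
  have hb := hex.choose_spec
  have hsub : (univ.filter fun i => x i = hex.choose) ⊆ univ.filter fun i => ¬ x i = a := by
    intro i hi
    simp only [mem_filter, mem_univ, true_and] at hi ⊢
    rw [hi]; exact hne
  have := card_le_card hsub
  omega

/-- rules of the control letter: slots `Option κ`, `none` = the unit itself -/
noncomputable def repRules (κ A : Type) [Fintype κ] [Nonempty A] : CRules (Option κ) A Unit where
  viol x _ := ∃ i, x (some i) ≠ x none
  corr x _ := maj fun i => x (some i)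

/-- slot maps with the unit itself -/
def onb {κ U : Type} (nb : κ → U → U) : Option κ → U → U
  | none, u => u
  | some i, u => nb i u

lemma NbMult.onb {κ U : Type} [Fintype U] {nb : κ → U → U} {m : ℝ} (h : NbMult nb m)
    (hm : 1 ≤ m) : NbMult (onb nb) m := by
  rintro (_ | i) E
  · have := frac_nonneg E
    show frac E ≤ _
    nlinarith
  · exact h i E

/-- CONTROL LETTER: the constant words form a local code -/
theorem rep_CAx {κ A U : Type} [Fintype κ] [Fintype A] [Nonempty A] [Fintype U] [Nonempty U]
    (nb : κ → U → U) {m h r0 θ : ℝ} (hm : 1 ≤ m) (hmult : NbMult nb m) (hh : 0 < h)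
    (hexp : Expands nb h) (hmaj : MajC nb r0 θ) :
    CAx (repRules κ A) (onb nb) (fun _ => ()) {w : U → A | ∃ a, w = fun _ => a} m
      (h / 5) r0 1 h⁻¹ θ where
  mult := hmult.onb hm
  sep := by
    rintro _ ⟨a, rfl⟩ _ ⟨b, rfl⟩ hne
    have hab : a ≠ b := fun hab => hne (by rw [hab])
    have hU : (Fintype.card U : ℝ) ≠ 0 := by
      exact_mod_cast Fintype.card_ne_zero
    have : distW (fun _ : U => a) (fun _ => b) = 1 := by
      classical
      unfold distW frac
      simp only [ne_eq, hab, not_false_eq_true, filter_true, card_univ]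
      field_simp
    rw [this]
  sound X hX := by
    classical
    set V := frac (fun u => (repRules κ A).viol (fun i => X (onb nb i u)) ()) with hV
    -- every union of level sets
    have key : ∀ S : Finset A, frac (fun u => X u ∈ S) ≤ 1 / 2 →
        h * frac (fun u => X u ∈ S) ≤ V := by
      intro S hS
      refine (hexp _ hS).trans (frac_mono ?_)
      rintro u ⟨i, hi⟩
      refine ⟨i, fun heq => hi ?_⟩
      have : X (nb i u) = X u := heq
      rw [this]
    have keyc : ∀ S : Finset A, frac (fun u => ¬ X u ∈ S) ≤ 1 / 2 →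
        h * frac (fun u => ¬ X u ∈ S) ≤ V := by
      intro S hS
      refine (hexp _ hS).trans (frac_mono ?_)
      rintro u ⟨i, hi⟩
      refine ⟨i, fun heq => hi ?_⟩
      have : X (nb i u) = X u := heq
      rw [this]
    have hU : (Fintype.card U : ℝ) ≠ 0 := by
      exact_mod_cast Fintype.card_ne_zero
    have hcompl : ∀ S : Finset A, frac (fun u => X u ∈ S) + frac (fun u => ¬ X u ∈ S) = 1 := by
      intro S
      unfold frac
      rw [← add_div, ← Nat.cast_add, card_filter_add_card_filter_not, card_univ]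
      field_simp
    obtain ⟨S, hS1, hS2⟩ : ∃ S : Finset A, frac (fun u => X u ∈ S) ≤ 1 / 2 ∧
        ∀ T : Finset A, frac (fun u => X u ∈ T) ≤ 1 / 2 → T.card ≤ S.card := by
      have hne : ((univ : Finset (Finset A)).filter
          fun S => frac (fun u => X u ∈ S) ≤ 1 / 2).Nonempty :=
        ⟨∅, by simp [frac_false]⟩
      obtain ⟨S, hS, hmax⟩ := exists_max_image _ (fun S : Finset A => S.card) hne
      simp only [mem_filter, mem_univ, true_and] at hS hmax
      exact ⟨S, hS, hmax⟩
    have hS3 : frac (fun u => X u ∈ S) < 1 / 4 := by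
      by_contra hcon
      push Not at hcon
      have := key S hS1
      nlinarith
    have hSne : ∃ a, a ∉ S := by
      by_contra hcon
      push Not at hcon
      have h0 : frac (fun u => ¬ X u ∈ S) = 0 := frac_eq_zero fun u hu => hu (hcon _)
      have := hcompl S
      linarith
    obtain ⟨a, ha⟩ := hSne
    have h2 : 1 / 2 < frac (fun u => X u ∈ insert a S) := by
      by_contra hcon
      push Not at hcon
      have := hS2 _ hcon
      rw [card_insert_of_notMem ha] at this
      omega
    have h3 : 1 / 4 < frac (fun u => X u ∈ ({a} : Finset A)) := by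
      have : frac (fun u => X u ∈ insert a S) ≤
          frac (fun u => X u ∈ ({a} : Finset A)) + frac (fun u => X u ∈ S) := by
        refine (frac_mono ?_).trans (frac_or _ _)
        intro u hu
        rcases mem_insert.mp hu with hu | hu
        · left; rw [hu]; exact mem_singleton_self a
        · exact Or.inr hu
      linarith
    have h4 : 1 / 2 < frac (fun u => X u ∈ ({a} : Finset A)) := by
      by_contra hcon
      push Not at hcon
      have := key _ hcon
      nlinarith
    have h5 : frac (fun u => ¬ X u ∈ ({a} : Finset A)) ≤ 1 / 2 := by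
      have := hcompl {a}
      linarith
    have h6 := keyc _ h5
    refine ⟨fun _ => a, ⟨a, rfl⟩, ?_⟩
    have h7 : distW X (fun _ => a) = frac (fun u => ¬ X u ∈ ({a} : Finset A)) := by
      unfold distW
      congr 1
      funext u
      simp
    rw [h7]
    calc frac (fun u => ¬ X u ∈ ({a} : Finset A))
        = h⁻¹ * (h * frac (fun u => ¬ X u ∈ ({a} : Finset A))) := by
          field_simp
      _ ≤ h⁻¹ * V := mul_le_mul_of_nonneg_left h6 (inv_nonneg.mpr hh.le)
  compl := by
    rintro _ ⟨a, rfl⟩ u ⟨i, hi⟩
    exact hi rfl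
  corr := by
    rintro _ ⟨a, rfl⟩ E hE
    classical
    refine (frac_mono ?_).trans (hmaj E hE)
    rintro u ⟨x, hx, hne⟩
    by_contra hcon
    push Not at hcon
    apply hne
    apply maj_eq
    refine lt_of_le_of_lt (Nat.mul_le_mul_left 2 (card_le_card ?_)) hcon
    intro i hi
    simp only [mem_filter, mem_univ, true_and] at hi ⊢
    by_contra hE'
    exact hi (hx (some i) hE')

/-! ### sampled coherent reads -/

open Classical in
/-- any defined value -/
noncomputable def pick {κ V : Type} (y : κ → Option V) : Option V :=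
  if h : ∃ i v, y i = some v then some h.choose_spec.choose else none

lemma pick_eq_some {κ V : Type} {y : κ → Option V} {v : V}
    (hcoh : ∀ i v', y i = some v' → v' = v) (hex : ∃ i, y i ≠ none) : pick y = some v := by
  have h : ∃ i v, y i = some v := by
    obtain ⟨i, hi⟩ := hex
    obtain ⟨v', hv'⟩ := Option.ne_none_iff_exists'.mp hi
    exact ⟨i, v', hv'⟩
  unfold pick
  rw [dif_pos h]
  congr 1
  exact hcoh _ _ h.choose_spec.choose_spec

lemma pick_eq_none {κ V : Type} {y : κ → Option V} (h : ∀ i, y i = none) : pick y = none := by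
  unfold pick
  rw [dif_neg]
  rintro ⟨i, v, hv⟩
  rw [h i] at hv
  cases hv

/-- a coherent field: all defined values are equal, and it is defined nowhere or on `≥ ρ` -/
structure Coh {U V : Type} [Fintype U] (y : U → Option V) (ρ : ℝ) : Prop where
  coh : ∀ u v a b, y u = some a → y v = some b → a = b
  dense : (∀ u, y u = none) ∨ ρ ≤ frac fun u => y u ≠ none

/-- READ: the sampled value is the global value at all but `γ` of the units -/
theorem read_ok {U V : Type} [Fintype U] {d : ℕ} {nb : Fin d → U → U} {e γ ρ : ℝ}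
    (hs : Sampler d nb e γ) (he : e < ρ) (hγ : 0 ≤ γ) (y : U → Option V) (hy : Coh y ρ) :
    frac (fun u => pick (fun i => y (nb i u)) ≠ pick y) ≤ γ := by
  classical
  rcases hy.dense with h0 | hρ
  · have : ∀ u, ¬ (pick (fun i => y (nb i u)) ≠ pick y) := by
      intro u hu
      exact hu (by rw [pick_eq_none h0, pick_eq_none fun i => h0 _])
    rw [frac_eq_zero this]
    exact hγ
  · refine (frac_mono ?_).trans (hs (fun u => if y u ≠ none then 1 else 0) ?_)
    · intro u hu hcon
      -- some sample is defined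
      have hmean : (∑ v, (if y v ≠ none then (1 : ℝ) else 0)) / (Fintype.card U : ℝ) =
          frac fun u => y u ≠ none := by
        unfold frac
        rw [sum_ite, sum_const_zero, add_zero, sum_const, nsmul_eq_mul, mul_one]
        congr!
      rw [hmean] at hcon
      have hpos : 0 < (∑ i, (if y (nb i u) ≠ none then (1 : ℝ) else 0)) / (d : ℝ) := by
        have := abs_le.mp hcon
        linarith [this.1]
      have hex : ∃ i, y (nb i u) ≠ none := by
        by_contra hno
        push Not at hno
        have : (∑ i, (if y (nb i u) ≠ none then (1 : ℝ) else 0)) = 0 :=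
          sum_eq_zero fun i _ => by simp [hno i]
        rw [this] at hpos
        simp at hpos
      obtain ⟨i, hi⟩ := hex
      obtain ⟨v, hv⟩ := Option.ne_none_iff_exists'.mp hi
      apply hu
      have h1 : pick (fun i => y (nb i u)) = some v :=
        pick_eq_some (fun j v' hj => hy.coh _ _ _ _ hj hv) ⟨i, hi⟩
      have h2 : pick y = some v :=
        pick_eq_some (fun j v' hj => hy.coh _ _ _ _ hj hv) ⟨nb i u, hi⟩
      rw [h1, h2]
    · intro u
      split_ifs <;> norm_num

/-! ### step rules with sampled reads -/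

/-- a step rule with finitely many reads: `val j` = what a unit knows about the `j`-th read from its
near view and public data, `F` = the new label from the near view, the public data and the reads -/
structure SRule (ι A P J : Type) (V : J → Type) where
  val : ∀ j, (ι → A) → P → Option (V j)
  F : (ι → A) → P → (∀ j, Option (V j)) → A

/-- the global value of a read on a word -/
noncomputable def SRule.gval {ι U A P J : Type} {V : J → Type} (S : SRule ι A P J V)
    (nb : ι → U → U) (pub : U → P) (w : U → A) (j : J) : Option (V j) :=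
  pick fun u => S.val j (fun i => w (nb i u)) (pub u)

/-- the global map defined by the rule -/
noncomputable def SRule.glob {ι U A P J : Type} {V : J → Type} (S : SRule ι A P J V)
    (nb : ι → U → U) (pub : U → P) (w : U → A) : U → A :=
  fun u => S.F (fun i => w (nb i u)) (pub u) (S.gval nb pub w)

/-- slots with `d` samples: `inl i` = near slot, `inr (a, i)` = near slot `i` of sample `a` -/
def snb {ι U : Type} {d : ℕ} (nb : ι → U → U) (sm : Fin d → U → U) : ι ⊕ Fin d × ι → U → U
  | Sum.inl i, u => nb i u
  | Sum.inr (a, i), u => nb i (sm a u)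

/-- public data with `d` samples -/
def spub {U P : Type} {d : ℕ} (pub : U → P) (sm : Fin d → U → U) (u : U) : P × (Fin d → P) :=
  (pub u, fun a => pub (sm a u))

/-- the local map with `d` samples -/
noncomputable def SRule.loc {ι A P J : Type} {V : J → Type} {d : ℕ} (S : SRule ι A P J V)
    (x : ι ⊕ Fin d × ι → A) (p : P × (Fin d → P)) : A :=
  S.F (fun i => x (Sum.inl i)) p.1 fun j =>
    pick fun a => S.val j (fun i => x (Sum.inr (a, i))) (p.2 a)

/-- SAMPLED STEP: on a word on which all reads are coherent, the local map is the global map at all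
but `#J γ` of the units -/
theorem SRule.loc_ok {ι U A P J : Type} [Fintype J] [Fintype U] {V : J → Type} {d : ℕ}
    (S : SRule ι A P J V) (nb : ι → U → U) (pub : U → P) (sm : Fin d → U → U) {e γ ρ : ℝ}
    (hs : Sampler d sm e γ) (he : e < ρ) (hγ : 0 ≤ γ) (w : U → A)
    (hw : ∀ j, Coh (fun u => S.val j (fun i => w (nb i u)) (pub u)) ρ) :
    frac (fun u => S.loc (fun i => w (snb nb sm i u)) (spub pub sm u) ≠ S.glob nb pub w u) ≤
      Fintype.card J * γ := by
  refine (frac_mono (q := fun u => ∃ j,
    pick (fun a => S.val j (fun i => w (nb i (sm a u))) (pub (sm a u))) ≠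
      pick fun u => S.val j (fun i => w (nb i u)) (pub u)) ?_).trans ?_
  · intro u hu
    by_contra hcon
    push Not at hcon
    apply hu
    show S.F _ _ _ = S.F _ _ _
    congr 1
    funext j
    exact hcon j
  · refine (frac_exists _).trans ((sum_le_sum fun j _ => read_ok hs he hγ _ (hw j)).trans ?_)
    rw [sum_const, nsmul_eq_mul, card_univ]

lemma NbMult.snb {ι U : Type} [Fintype U] {d : ℕ} {nb : ι → U → U} {sm : Fin d → U → U} {m m' : ℝ}
    (h : NbMult nb m) (h' : NbMult sm m') (hm : 1 ≤ m) (hm' : 1 ≤ m') :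
    NbMult (snb nb sm) (m * m') := by
  rintro (i | ⟨a, i⟩) E
  · refine (h i E).trans (mul_le_mul_of_nonneg_right ?_ (frac_nonneg _))
    nlinarith
  · refine (h' a (fun v => E (nb i v))).trans ?_
    have := mul_le_mul_of_nonneg_left (h i E) (by linarith : (0 : ℝ) ≤ m')
    calc m' * frac (fun u => E (nb i u)) ≤ m' * (m * frac E) := this
      _ = m * m' * frac E := by ring

/-! ### the assembled theorem -/

/-- rules of the assembled machine: a code, relations, two step rules, `d` samples -/
noncomputable def asmRules {ι A P Jr J J' : Type} {V : J → Type} {V' : J' → Type} (d : ℕ)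
    (R : CRules ι A P) (rel : Jr → (ι → A) → P → Prop) (S : SRule ι A P J V)
    (S' : SRule ι A P J' V') : MRules (ι ⊕ Fin d × ι) A (P × (Fin d → P)) where
  toCRules := (R.restrict rel).extend Sum.inl Prod.fst
  Nu := S.loc
  Mu := S'.loc

/-- ASSEMBLED THEOREM. `C` = local code, `rel` = pointwise relations with a gap, `S`, `S'` = step
rules with sampled reads, `N`, `M` = exact maps given by the rules on legal words. -/
theorem asm_Ax {ι U A P Jr J J' : Type} [Fintype ι] [Fintype J] [Fintype J'] [Fintype U]
    [Nonempty A] [Nonempty P] {V : J → Type} {V' : J' → Type} {d k l r : ℕ}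
    (R : CRules ι A P) (rel : Jr → (ι → A) → P → Prop) (S : SRule ι A P J V)
    (S' : SRule ι A P J' V') (nb : ι → U → U) (pub : U → P) (C : Set (U → A))
    (sm : Fin d → U → U) {m ms zs r0 d0 c θ g e γ ρ : ℝ}
    (h : CAx R nb pub C m zs r0 d0 c θ) (hm : 1 ≤ m) (hms : NbMult sm ms) (hms1 : 1 ≤ ms)
    (hc : 0 ≤ c) (hg : 0 < g)
    (gap : ∀ w ∈ C, (¬ ∀ j u, rel j (fun i => w (nb i u)) (pub u)) →
      ∃ j, g ≤ frac fun u => ¬ rel j (fun i => w (nb i u)) (pub u))
    (hs : Sampler d sm e γ) (he : e < ρ) (hγ : 0 ≤ γ)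
    (w0 : U → A) (N M : (U → A) → (U → A))
    (w0_mem : w0 ∈ restrictC nb pub C rel)
    (N_mem : ∀ w ∈ restrictC nb pub C rel, N w ∈ restrictC nb pub C rel)
    (M_mem : ∀ w ∈ restrictC nb pub C rel, M w ∈ restrictC nb pub C rel)
    (MN : ∀ w ∈ restrictC nb pub C rel, N w ≠ w → M (N w) = w)
    (NM : ∀ w ∈ restrictC nb pub C rel, M w ≠ w → N (M w) = w)
    (M_w0 : M w0 = w0) (N_w0 : N w0 ≠ w0)
    (N_eq : ∀ w ∈ restrictC nb pub C rel, N w = S.glob nb pub w)
    (M_eq : ∀ w ∈ restrictC nb pub C rel, M w = S'.glob nb pub w)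
    (cohN : ∀ w ∈ restrictC nb pub C rel, ∀ j,
      Coh (fun u => S.val j (fun i => w (nb i u)) (pub u)) ρ)
    (cohM : ∀ w ∈ restrictC nb pub C rel, ∀ j,
      Coh (fun u => S'.val j (fun i => w (nb i u)) (pub u)) ρ)
    (i0 : ι) (hi0 : ∀ u, nb i0 u = u) (hθ : θ ≤ 1 / 4)
    (eq : (ι ⊕ Fin d × ι) ≃ Fin k) (enc : A → (Fin l → Bool)) (henc : Function.Injective enc)
    (encP : P × (Fin d → P) → (Fin r → Bool)) (hencP : Function.Injective encP)
    (K : MConst) (hzs : K.zs ≤ min zs (g / (2 * (1 + Fintype.card ι * m * c))))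
    (hr0 : K.r0 ≤ r0) (hd0 : K.d0 ≤ d0) (hcK : c + 1 ≤ K.c)
    (hcm : ((d : ℝ) + 1) * Fintype.card ι * (m * ms) ≤ K.c)
    (hγN : Fintype.card J * γ ≤ K.γ) (hγM : Fintype.card J' * γ ≤ K.γ) :
    (((asmRules d R rel S S').toL eq enc encP).data (fun i => snb nb sm (eq.symm i))
      (fun u => encP (spub pub sm u))
      {X | ∃ w ∈ restrictC nb pub C rel, X = fun u => enc (w u)} (fun u => enc (w0 u))
      (liftMap enc N) (liftMap enc M)).Ax K := by
  have hC := (h.restrict rel hg (by linarith) hc gap).extend (m' := m * ms)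
    (Sum.inl : ι → ι ⊕ Fin d × ι) (Prod.fst : P × (Fin d → P) → P) (snb nb sm) (spub pub sm)
    (fun i u => rfl) (fun u => rfl) (h.mult.snb hms hm hms1)
  have hS : StepAx (asmRules d R rel S S') (snb nb sm) (spub pub sm) (restrictC nb pub C rel)
      w0 N M K.γ :=
    { w0_mem := w0_mem
      N_mem := N_mem
      M_mem := M_mem
      MN := MN
      NM := NM
      M_w0 := M_w0
      N_w0 := N_w0
      N_loc := fun w hw => by
        rw [N_eq w hw]
        exact (S.loc_ok nb pub sm hs he hγ w (cohN w hw)).trans hγN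
      M_loc := fun w hw => by
        rw [M_eq w hw]
        exact (S'.loc_ok nb pub sm hs he hγ w (cohM w hw)).trans hγM }
  refine mach_Ax (asmRules d R rel S S') (snb nb sm) (spub pub sm) _ w0 N M hC hS
    (Sum.inl i0) hi0 hθ eq enc henc encP hencP K hzs hr0 hd0 hcK ?_ le_rfl
  have hcard : (Fintype.card (ι ⊕ Fin d × ι) : ℝ) = ((d : ℝ) + 1) * Fintype.card ι := by
    rw [Fintype.card_sum, Fintype.card_prod, Fintype.card_fin]
    push_cast; ring
  rw [hcard]
  exact hcm

end Crest.Agent.R289.Word508
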