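import Mathlib
import Crest.Agent.R289.Word2_508

/-!
# Row 289: uniform locality (helper209)

A family of unit sets with common base slots `ι` and public type `P`; `ULoc F R f`: the value of the word
functional `f` at a unit is determined by the labels and public data within `R` moves, in the same way for
all instances.  Calculus of local functionals; extraction of instance-independent rules; the machine theorem
`asm_uloc` from a word-level machine with local relations, flags and step maps.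
-/

set_option autoImplicit false
set_option linter.unusedVariables false

namespace Crest.Agent.R289.ULoc209

open Finset Crest.Agent.R289.DefD Crest.Agent.R289.Word508

/-- a family of unit sets with slot maps and public data -/
structure UF (ι P : Type) where
  /-- instances -/
  I : Type
  /-- units -/
  U : I → Type
  /-- base slots -/
  nb : ∀ i, ι → U i → U i
  /-- public data -/
  pub : ∀ i, U i → P

/-- words of at most `R` moves -/
abbrev Wd (R : ℕ) (ι : Type) : Type := Fin R → Option ι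

/-- move along a word (first letter first) -/
def mvw {ι U : Type} (nb : ι → U → U) : ∀ R : ℕ, Wd R ι → U → U
  | 0, _, u => u
  | R + 1, s, u => mvw nb R (fun j => s j.succ) (onb nb (s 0) u)

theorem mvw_none {ι U : Type} (nb : ι → U → U) (R : ℕ) (u : U) : mvw nb R (fun _ => none) u = u := by
  induction R with
  | zero => rfl
  | succ R ih => exact ih

/-- one move -/
def one {ι : Type} (R : ℕ) (o : Option ι) : Wd (R + 1) ι := Fin.cons o fun _ => none

theorem mvw_one {ι U : Type} (nb : ι → U → U) (R : ℕ) (o : Option ι) (u : U) :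
    mvw nb (R + 1) (one R o) u = onb nb o u := by
  show mvw nb R (fun j => one R o j.succ) (onb nb (one R o 0) u) = _
  have h1 : (fun j : Fin R => one R o j.succ) = fun _ => none := by
    funext j
    simp [one]
  rw [h1, mvw_none]
  rfl

theorem mvw_append {ι U : Type} (nb : ι → U → U) : ∀ (R1 R2 : ℕ) (s1 : Wd R1 ι) (s2 : Wd R2 ι),
    ∃ s : Wd (R1 + R2) ι, (∀ (V : Type) (nb' : ι → V → V) (u : V),
      mvw nb' (R1 + R2) s u = mvw nb' R2 s2 (mvw nb' R1 s1 u))
  | 0, R2, _, s2 => by
    rw [Nat.zero_add]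
    exact ⟨s2, fun _ _ _ => rfl⟩
  | R1 + 1, R2, s1, s2 => by
    obtain ⟨s, hs⟩ := mvw_append nb R1 R2 (fun j => s1 j.succ) s2
    have e : R1 + 1 + R2 = (R1 + R2) + 1 := by omega
    rw [e]
    refine ⟨Fin.cons (s1 0) s, ?_⟩
    intro V nb' u
    show mvw nb' (R1 + R2) (fun j => (Fin.cons (s1 0) s : Wd (R1 + R2 + 1) ι) j.succ)
      (onb nb' ((Fin.cons (s1 0) s : Wd (R1 + R2 + 1) ι) 0) u) = _
    simp only [Fin.cons_succ, Fin.cons_zero]
    exact hs V nb' _

/-- a word of moves is a word of more moves -/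
theorem mvw_mono {ι : Type} {R R' : ℕ} (h : R ≤ R') (s : Wd R ι) :
    ∃ s' : Wd R' ι, ∀ (V : Type) (nb : ι → V → V) (u : V), mvw nb R' s' u = mvw nb R s u := by
  obtain ⟨k, rfl⟩ := Nat.exists_eq_add_of_le h
  obtain ⟨s', hs'⟩ := mvw_append (ι := ι) (U := Unit) (fun _ _ => ()) R k s (fun _ => none)
  refine ⟨s', fun V nb u => ?_⟩
  rw [hs' V nb u, mvw_none]

/-- two words of moves, one after the other -/
theorem mvw_comp {ι : Type} {R1 R2 : ℕ} (s1 : Wd R1 ι) (s2 : Wd R2 ι) :
    ∃ s : Wd (R1 + R2) ι, ∀ (V : Type) (nb : ι → V → V) (u : V),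
      mvw nb (R1 + R2) s u = mvw nb R2 s2 (mvw nb R1 s1 u) :=
  mvw_append (ι := ι) (U := Unit) (fun _ _ => ()) R1 R2 s1 s2

section calculus

variable {ι P : Type} {F : UF ι P} {A B B' B'' : Type}

/-- equal views of radius `R` -/
def SameView (F : UF ι P) {A : Type} (R : ℕ) (i i' : F.I) (w : F.U i → A) (w' : F.U i' → A)
    (u : F.U i) (u' : F.U i') : Prop :=
  (∀ s : Wd R ι, w (mvw (F.nb i) R s u) = w' (mvw (F.nb i') R s u')) ∧
    ∀ s : Wd R ι, F.pub i (mvw (F.nb i) R s u) = F.pub i' (mvw (F.nb i') R s u')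

theorem SameView.mono {R R' : ℕ} (h : R ≤ R') {i i' : F.I} {w : F.U i → A} {w' : F.U i' → A}
    {u : F.U i} {u' : F.U i'} (hv : SameView F R' i i' w w' u u') : SameView F R i i' w w' u u' := by
  refine ⟨fun s => ?_, fun s => ?_⟩
  · obtain ⟨s', hs'⟩ := mvw_mono h s
    rw [← hs', ← hs']
    exact hv.1 s'
  · obtain ⟨s', hs'⟩ := mvw_mono h s
    rw [← hs', ← hs']
    exact hv.2 s'

theorem SameView.shift {R1 R2 : ℕ} {i i' : F.I} {w : F.U i → A} {w' : F.U i' → A}
    {u : F.U i} {u' : F.U i'} (hv : SameView F (R1 + R2) i i' w w' u u') (s1 : Wd R1 ι) :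
    SameView F R2 i i' w w' (mvw (F.nb i) R1 s1 u) (mvw (F.nb i') R1 s1 u') := by
  refine ⟨fun s2 => ?_, fun s2 => ?_⟩
  · obtain ⟨s, hs⟩ := mvw_comp s1 s2
    rw [← hs, ← hs]
    exact hv.1 s
  · obtain ⟨s, hs⟩ := mvw_comp s1 s2
    rw [← hs, ← hs]
    exact hv.2 s

theorem SameView.label {R : ℕ} {i i' : F.I} {w : F.U i → A} {w' : F.U i' → A}
    {u : F.U i} {u' : F.U i'} (hv : SameView F R i i' w w' u u') : w u = w' u' := by
  have := hv.1 (fun _ => none)
  rwa [mvw_none, mvw_none] at this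

theorem SameView.pub {R : ℕ} {i i' : F.I} {w : F.U i → A} {w' : F.U i' → A}
    {u : F.U i} {u' : F.U i'} (hv : SameView F R i i' w w' u u') : F.pub i u = F.pub i' u' := by
  have := hv.2 (fun _ => none)
  rwa [mvw_none, mvw_none] at this

theorem SameView.move {R : ℕ} {i i' : F.I} {w : F.U i → A} {w' : F.U i' → A}
    {u : F.U i} {u' : F.U i'} (hv : SameView F (R + 1) i i' w w' u u') (k : ι) :
    SameView F R i i' w w' (F.nb i k u) (F.nb i' k u') := by
  have e : R + 1 = 1 + R := by omega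
  rw [e] at hv
  have := hv.shift (R1 := 1) (one 0 (some k))
  rwa [mvw_one, mvw_one] at this

/-- **uniform locality**: the value at `u` is determined by the view of radius `R`, in the same way in
all instances -/
def ULoc (F : UF ι P) {A B : Type} (R : ℕ) (f : ∀ i, (F.U i → A) → F.U i → B) : Prop :=
  ∀ (i i' : F.I) (w : F.U i → A) (w' : F.U i' → A) (u : F.U i) (u' : F.U i'),
    SameView F R i i' w w' u u' → f i w u = f i' w' u'

theorem ULoc.mono {R R' : ℕ} {f : ∀ i, (F.U i → A) → F.U i → B} (h : ULoc F R f) (hR : R ≤ R') :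
    ULoc F R' f := fun i i' w w' u u' hv => h i i' w w' u u' (hv.mono hR)

theorem ULoc.const (b : B) : ULoc F 0 (fun i (_ : F.U i → A) (_ : F.U i) => b) :=
  fun _ _ _ _ _ _ _ => rfl

/-- the label of the unit -/
theorem ULoc.label : ULoc F 0 (fun i (w : F.U i → A) (u : F.U i) => w u) :=
  fun _ _ _ _ _ _ hv => hv.label

/-- the public data of the unit -/
theorem ULoc.pub : ULoc F 0 (fun i (_ : F.U i → A) (u : F.U i) => F.pub i u) :=
  fun _ _ _ _ _ _ hv => hv.pub

theorem ULoc.map {R : ℕ} {f : ∀ i, (F.U i → A) → F.U i → B} (h : ULoc F R f) (g : B → B') :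
    ULoc F R (fun i w u => g (f i w u)) := fun i i' w w' u u' hv => by
  show g _ = g _
  rw [h i i' w w' u u' hv]

theorem ULoc.map2 {R : ℕ} {f : ∀ i, (F.U i → A) → F.U i → B} {f' : ∀ i, (F.U i → A) → F.U i → B'}
    (h : ULoc F R f) (h' : ULoc F R f') (g : B → B' → B'') :
    ULoc F R (fun i w u => g (f i w u) (f' i w u)) := fun i i' w w' u u' hv => by
  show g _ _ = g _ _
  rw [h i i' w w' u u' hv, h' i i' w w' u u' hv]

theorem ULoc.pi {R : ℕ} {J : Type} {β : J → Type} {f : ∀ j : J, ∀ i, (F.U i → A) → F.U i → β j}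
    (h : ∀ j, ULoc F R (f j)) : ULoc F R (fun i w u j => f j i w u) :=
  fun i i' w w' u u' hv => funext fun j => h j i i' w w' u u' hv

theorem ULoc.app {R : ℕ} {J : Type} {β : J → Type} {f : ∀ i, (F.U i → A) → F.U i → ∀ j, β j}
    (h : ULoc F R f) (j : J) : ULoc F R (fun i w u => f i w u j) :=
  fun i i' w w' u u' hv => congrFun (h i i' w w' u u' hv) j

theorem ULoc.sum {R : ℕ} {J : Type} (s : Finset J) [AddCommMonoid B]
    {f : J → ∀ i, (F.U i → A) → F.U i → B} (h : ∀ j ∈ s, ULoc F R (f j)) :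
    ULoc F R (fun i w u => ∑ j ∈ s, f j i w u) := fun i i' w w' u u' hv =>
  Finset.sum_congr rfl fun j hj => h j hj i i' w w' u u' hv

/-- dependent case distinction by a value -/
theorem ULoc.bind {R : ℕ} {f : ∀ i, (F.U i → A) → F.U i → B} (h : ULoc F R f)
    {g : B → ∀ i, (F.U i → A) → F.U i → B'} (hg : ∀ b, ULoc F R (g b)) :
    ULoc F R (fun i w u => g (f i w u) i w u) := fun i i' w w' u u' hv => by
  show g _ _ _ _ = g _ _ _ _
  rw [h i i' w w' u u' hv]
  exact hg _ i i' w w' u u' hv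

open Classical in
theorem ULoc.ite {R : ℕ} {p : ∀ i, (F.U i → A) → F.U i → Prop}
    {f g : ∀ i, (F.U i → A) → F.U i → B} (hp : ULoc F R p) (hf : ULoc F R f) (hg : ULoc F R g) :
    ULoc F R (fun i w u => if p i w u then f i w u else g i w u) := fun i i' w w' u u' hv => by
  have h1 := hp i i' w w' u u' hv
  have h2 := hf i i' w w' u u' hv
  have h3 := hg i i' w w' u u' hv
  show (if p i w u then f i w u else g i w u) = if p i' w' u' then f i' w' u' else g i' w' u'
  rw [h1, h2, h3]

/-- the value at a neighbour -/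
theorem ULoc.nb {R : ℕ} {f : ∀ i, (F.U i → A) → F.U i → B} (h : ULoc F R f) (k : ι) :
    ULoc F (R + 1) (fun i w u => f i w (F.nb i k u)) := fun i i' w w' u u' hv =>
  h i i' w w' _ _ (hv.move k)

/-- the value at a neighbour chosen by a local value -/
theorem ULoc.nbOf {R : ℕ} {f : ∀ i, (F.U i → A) → F.U i → B} (h : ULoc F R f)
    {κ : ∀ i, (F.U i → A) → F.U i → ι} (hκ : ULoc F (R + 1) κ) :
    ULoc F (R + 1) (fun i w u => f i w (F.nb i (κ i w u) u)) := fun i i' w w' u u' hv => by
  show f i w (F.nb i (κ i w u) u) = f i' w' (F.nb i' (κ i' w' u') u')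
  rw [hκ i i' w w' u u' hv]
  exact h i i' w w' _ _ (hv.move _)

/-- composition of word functionals -/
theorem ULoc.comp {R1 R2 : ℕ} {h : ∀ i, (F.U i → B) → F.U i → B'}
    {f : ∀ i, (F.U i → A) → F.U i → B} (hh : ULoc F R1 h) (hf : ULoc F R2 f) :
    ULoc F (R1 + R2) (fun i w => h i (f i w)) := fun i i' w w' u u' hv => by
  apply hh
  refine ⟨fun s => ?_, fun s => ?_⟩
  · exact hf i i' w w' _ _ (hv.shift s)
  · exact (hv.mono (Nat.le_add_right _ _)).2 s

/-- equal functionals -/
theorem ULoc.congr {R : ℕ} {f g : ∀ i, (F.U i → A) → F.U i → B} (h : ULoc F R f)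
    (e : ∀ i w u, g i w u = f i w u) : ULoc F R g := fun i i' w w' u u' hv => by
  rw [e, e]
  exact h i i' w w' u u' hv

theorem ULoc.and {R : ℕ} {p q : ∀ i, (F.U i → A) → F.U i → Prop} (hp : ULoc F R p)
    (hq : ULoc F R q) : ULoc F R (fun i w u => p i w u ∧ q i w u) := hp.map2 hq And

theorem ULoc.or {R : ℕ} {p q : ∀ i, (F.U i → A) → F.U i → Prop} (hp : ULoc F R p)
    (hq : ULoc F R q) : ULoc F R (fun i w u => p i w u ∨ q i w u) := hp.map2 hq Or

theorem ULoc.imp {R : ℕ} {p q : ∀ i, (F.U i → A) → F.U i → Prop} (hp : ULoc F R p)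
    (hq : ULoc F R q) : ULoc F R (fun i w u => p i w u → q i w u) :=
  hp.map2 hq fun a b => a → b

theorem ULoc.not {R : ℕ} {p : ∀ i, (F.U i → A) → F.U i → Prop} (hp : ULoc F R p) :
    ULoc F R (fun i w u => ¬ p i w u) := hp.map Not

theorem ULoc.all {R : ℕ} {J : Type} {p : J → ∀ i, (F.U i → A) → F.U i → Prop}
    (hp : ∀ j, ULoc F R (p j)) : ULoc F R (fun i w u => ∀ j, p j i w u) :=
  (ULoc.pi hp).map fun q => ∀ j, q j

theorem ULoc.ex {R : ℕ} {J : Type} {p : J → ∀ i, (F.U i → A) → F.U i → Prop}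
    (hp : ∀ j, ULoc F R (p j)) : ULoc F R (fun i w u => ∃ j, p j i w u) :=
  (ULoc.pi hp).map fun q => ∃ j, q j

theorem ULoc.eq {R : ℕ} {f g : ∀ i, (F.U i → A) → F.U i → B} (hf : ULoc F R f) (hg : ULoc F R g) :
    ULoc F R (fun i w u => f i w u = g i w u) := hf.map2 hg Eq

/-- a local functional of a part of the label -/
theorem ULoc.precomp {R : ℕ} {A' : Type} {f : ∀ i, (F.U i → A) → F.U i → B} (h : ULoc F R f)
    (g : A' → A) : ULoc F R (fun i (w : F.U i → A') u => f i (fun v => g (w v)) u) :=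
  fun i i' w w' u u' hv => h i i' _ _ u u' ⟨fun s => congrArg g (hv.1 s), hv.2⟩

/-! ### extraction of rules -/

/-- view of radius `R` -/
def view (F : UF ι P) (R : ℕ) (i : F.I) (w : F.U i → A) (u : F.U i) : Wd R ι → A :=
  fun s => w (mvw (F.nb i) R s u)

/-- public view of radius `R` -/
def pview (F : UF ι P) (R : ℕ) (i : F.I) (u : F.U i) : Wd R ι → P :=
  fun s => F.pub i (mvw (F.nb i) R s u)

open Classical in
/-- the rule of a local functional -/
noncomputable def rule (F : UF ι P) (R : ℕ) (d : B) (f : ∀ i, (F.U i → A) → F.U i → B)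
    (x : Wd R ι → A) (p : Wd R ι → P) : B :=
  if h : ∃ (i : F.I) (w : F.U i → A) (u : F.U i), view F R i w u = x ∧ pview F R i u = p
  then f h.choose h.choose_spec.choose h.choose_spec.choose_spec.choose else d

theorem rule_eq {R : ℕ} (d : B) {f : ∀ i, (F.U i → A) → F.U i → B} (hf : ULoc F R f) (i : F.I)
    (w : F.U i → A) (u : F.U i) : rule F R d f (view F R i w u) (pview F R i u) = f i w u := by
  have h : ∃ (i' : F.I) (w' : F.U i' → A) (u' : F.U i'), view F R i' w' u' = view F R i w u ∧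
      pview F R i' u' = pview F R i u := ⟨i, w, u, rfl, rfl⟩
  unfold rule
  rw [dif_pos h]
  have hs := h.choose_spec.choose_spec.choose_spec
  exact hf _ _ _ _ _ _ ⟨fun s => congrFun hs.1 s, fun s => congrFun hs.2 s⟩

end calculus

end Crest.Agent.R289.ULoc209
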