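import Mathlib
import Crest.Agent.R289.ULoc_209
import Crest.Agent.R289.SampMult_497

/-!
# Row 289: word-level machines over a family with uniform locality (helper209)

`WMach F A`: a code, relations, flags and step maps as WORD functionals, for every instance of the family
`F`.  `WMach.Loc`: all of them are uniformly local.  `WMach.Exact`: the exact facts, the gap of the
relations, the density of the flags.  `rules`: ONE system of instance-independent rules; `cax`, `stepax`:
the word-level axioms of `Word_508` for every instance, with `d` samples.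
-/

set_option autoImplicit false
set_option linter.unusedVariables false
set_option linter.unusedSectionVars false

namespace Crest.Agent.R289.UMach209

open Finset Crest.Agent.R289.DefD Crest.Agent.R289.Word508 Crest.Agent.R289.ULoc209

/-- word-level machine over a family of unit sets -/
structure WMach {ι P : Type} (F : UF ι P) (A : Type) where
  /-- code -/
  C : ∀ i, Set (F.U i → A)
  /-- names of the relations -/
  Jr : Type
  /-- relations -/
  Rel : Jr → ∀ i, (F.U i → A) → F.U i → Prop
  /-- names of the flags of the forward step -/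
  J : Type
  /-- names of the flags of the backward step -/
  J' : Type
  /-- flags: `Fl j i w u` = the unit `u` sees the event `j` -/
  Fl : J → ∀ i, (F.U i → A) → F.U i → Prop
  Fl' : J' → ∀ i, (F.U i → A) → F.U i → Prop
  /-- forward step, given which events are seen somewhere -/
  SN : (J → Prop) → ∀ i, (F.U i → A) → F.U i → A
  /-- backward step, given which events are seen somewhere -/
  SM : (J' → Prop) → ∀ i, (F.U i → A) → F.U i → A
  /-- start word -/
  w0 : ∀ i, F.U i → A

namespace WMach

variable {ι P A : Type} {F : UF ι P} (m : WMach F A)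

/-- legal words -/
def Legal (i : F.I) : Set (F.U i → A) := {w | w ∈ m.C i ∧ ∀ j u, m.Rel j i w u}

/-- forward map -/
def N (i : F.I) (w : F.U i → A) : F.U i → A := m.SN (fun j => ∃ u, m.Fl j i w u) i w

/-- backward map -/
def M (i : F.I) (w : F.U i → A) : F.U i → A := m.SM (fun j => ∃ u, m.Fl' j i w u) i w

/-- everything is uniformly local -/
structure Loc (R : ℕ) : Prop where
  rel : ∀ j, ULoc F R (m.Rel j)
  fl : ∀ j, ULoc F R (m.Fl j)
  fl' : ∀ j, ULoc F R (m.Fl' j)
  sn : ∀ b, ULoc F R (m.SN b)
  sm : ∀ b, ULoc F R (m.SM b)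

/-- exact facts, gap, density of flags -/
structure Exact [∀ i, Fintype (F.U i)] (g ρ : ℝ) : Prop where
  w0_mem : ∀ i, m.w0 i ∈ m.Legal i
  N_mem : ∀ i, ∀ w ∈ m.Legal i, m.N i w ∈ m.Legal i
  M_mem : ∀ i, ∀ w ∈ m.Legal i, m.M i w ∈ m.Legal i
  MN : ∀ i, ∀ w ∈ m.Legal i, m.N i w ≠ w → m.M i (m.N i w) = w
  NM : ∀ i, ∀ w ∈ m.Legal i, m.M i w ≠ w → m.N i (m.M i w) = w
  M_w0 : ∀ i, m.M i (m.w0 i) = m.w0 i
  N_w0 : ∀ i, m.N i (m.w0 i) ≠ m.w0 i
  gap : ∀ i, ∀ w ∈ m.C i, (¬ ∀ j u, m.Rel j i w u) → ∃ j, g ≤ frac fun u => ¬ m.Rel j i w u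
  dense : ∀ i, ∀ w ∈ m.Legal i, ∀ j, (∀ u, ¬ m.Fl j i w u) ∨ ρ ≤ frac fun u => m.Fl j i w u
  dense' : ∀ i, ∀ w ∈ m.Legal i, ∀ j, (∀ u, ¬ m.Fl' j i w u) ∨ ρ ≤ frac fun u => m.Fl' j i w u

/-! ### the rules -/

/-- slots of radius `R + 1` -/
abbrev Sl (R : ℕ) (ι : Type) : Type := Wd (R + 1) ι

/-- slot maps of radius `R + 1` -/
def nbR (F : UF ι P) (R : ℕ) (i : F.I) : Sl R ι → F.U i → F.U i := mvw (F.nb i) (R + 1)

/-- public data of radius `R + 1` -/
def pubR (F : UF ι P) (R : ℕ) (i : F.I) (u : F.U i) : Sl R ι → P := pview F (R + 1) i u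

/-- code rules with the slots of radius `R + 1` -/
def codeR (R0 : CRules ι A P) (R : ℕ) : CRules (Sl R ι) A (Sl R ι → P) :=
  R0.extend (fun k => one R (some k)) fun p => p fun _ => none

/-- relations as rules -/
def relR (R : ℕ) : m.Jr → (Sl R ι → A) → (Sl R ι → P) → Prop :=
  fun j => rule F (R + 1) True (m.Rel j)

open Classical in
/-- forward step rule -/
noncomputable def stepR (R : ℕ) (a0 : A) : SRule (Sl R ι) A (Sl R ι → P) m.J (fun _ => Unit) where
  val j x p := if rule F (R + 1) False (m.Fl j) x p then some () else none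
  F x p y := rule F (R + 1) a0 (m.SN fun j => y j ≠ none) x p

open Classical in
/-- backward step rule -/
noncomputable def stepR' (R : ℕ) (a0 : A) :
    SRule (Sl R ι) A (Sl R ι → P) m.J' (fun _ => Unit) where
  val j x p := if rule F (R + 1) False (m.Fl' j) x p then some () else none
  F x p y := rule F (R + 1) a0 (m.SM fun j => y j ≠ none) x p

/-- **the rules of the machine**, the same for all instances -/
noncomputable def rules (R0 : CRules ι A P) (R : ℕ) (a0 : A) (d : ℕ) :
    MRules (Sl R ι ⊕ Fin d × Sl R ι) A ((Sl R ι → P) × (Fin d → (Sl R ι → P))) :=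
  asmRules d (codeR R0 R) (m.relR R) (m.stepR R a0) (m.stepR' R a0)

/-- slot maps of the machine -/
def nbM (F : UF ι P) (R : ℕ) {d : ℕ} (i : F.I) (sm : Fin d → F.U i → F.U i) :
    Sl R ι ⊕ Fin d × Sl R ι → F.U i → F.U i := snb (nbR F R i) sm

/-- public data of the machine -/
def pubM (F : UF ι P) (R : ℕ) {d : ℕ} (i : F.I) (sm : Fin d → F.U i → F.U i) (u : F.U i) :
    (Sl R ι → P) × (Fin d → (Sl R ι → P)) := spub (pubR F R i) sm u

theorem nbMult_mvw {U : Type} [Fintype U] {nb : ι → U → U} {c : ℝ} (h : NbMult nb c)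
    (hc : 1 ≤ c) : ∀ R : ℕ, NbMult (mvw nb R) (c ^ R)
  | 0 => by
    intro s E
    rw [pow_zero, one_mul]
    exact le_rfl
  | R + 1 => by
    intro s E
    have h1 := h.onb hc (s 0) (fun v => E (mvw nb R (fun j => s j.succ) v))
    have h2 := nbMult_mvw h hc R (fun j => s j.succ) E
    have h3 : frac (fun u => E (mvw nb (R + 1) s u)) =
        frac (fun u => E (mvw nb R (fun j => s j.succ) (onb nb (s 0) u))) := rfl
    rw [h3, pow_succ']
    refine h1.trans ?_
    rw [mul_assoc]
    exact mul_le_mul_of_nonneg_left h2 (by linarith)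

section ax

variable {R : ℕ} {R0 : CRules ι A P} {mm zs r0 d0 c θ g ρ : ℝ} (a0 : A)

theorem rel_eq (hL : m.Loc R) (j : m.Jr) (i : F.I) (w : F.U i → A) (u : F.U i) :
    m.relR R j (fun s => w (nbR F R i s u)) (pubR F R i u) = m.Rel j i w u :=
  rule_eq True ((hL.rel j).mono (Nat.le_succ R)) i w u

theorem restrict_eq (hL : m.Loc R) (i : F.I) :
    restrictC (nbR F R i) (pubR F R i) (m.C i) (m.relR R) = m.Legal i := by
  ext w
  unfold restrictC Legal
  simp only [Set.mem_ofPred_eq]
  refine and_congr_right fun _ => forall_congr' fun j => forall_congr' fun u => ?_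
  rw [m.rel_eq hL]

variable [∀ i, Fintype (F.U i)]

theorem cax_code {i : F.I} (h : CAx R0 (F.nb i) (F.pub i) (m.C i) mm zs r0 d0 c θ) (hm : 1 ≤ mm) :
    CAx (codeR R0 R) (nbR F R i) (pubR F R i) (m.C i) (mm ^ (R + 1)) zs r0 d0 c θ := by
  refine h.extend (fun k => one R (some k)) (fun p => p fun _ => none) (nbR F R i) (pubR F R i)
    (fun k u => ?_) (fun u => ?_) (nbMult_mvw h.mult hm (R + 1))
  · exact mvw_one _ _ _ _
  · show F.pub i (mvw (F.nb i) (R + 1) (fun _ => none) u) = F.pub i u
    rw [mvw_none]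

/-- **the code axioms of the machine** -/
theorem cax [Fintype ι] (hL : m.Loc R) (hE : m.Exact g ρ) {i : F.I}
    (h : CAx R0 (F.nb i) (F.pub i) (m.C i) mm zs r0 d0 c θ) (hm : 1 ≤ mm) (hc : 0 ≤ c)
    (hg : 0 < g) {d : ℕ} {sm : Fin d → F.U i → F.U i} {ms : ℝ} (hms : NbMult sm ms)
    (hms1 : 1 ≤ ms) :
    CAx (m.rules R0 R a0 d).toCRules (nbM F R i sm) (pubM F R i sm) (m.Legal i)
      (mm ^ (R + 1) * ms)
      (min zs (g / (2 * (1 + Fintype.card (Sl R ι) * mm ^ (R + 1) * c)))) r0 d0 c θ := by
  have h1 := m.cax_code (R := R) h hm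
  have hgap : ∀ w ∈ m.C i, (¬ ∀ j u, m.relR R j (fun s => w (nbR F R i s u)) (pubR F R i u)) →
      ∃ j, g ≤ frac fun u => ¬ m.relR R j (fun s => w (nbR F R i s u)) (pubR F R i u) := by
    intro w hw hne
    simp only [m.rel_eq hL] at hne ⊢
    exact hE.gap i w hw hne
  have hmR : (1 : ℝ) ≤ mm ^ (R + 1) := one_le_pow₀ hm
  have h2 := (h1.restrict (m.relR R) hg (by linarith) hc hgap).extend
    (m' := mm ^ (R + 1) * ms) (Sum.inl : Sl R ι → Sl R ι ⊕ Fin d × Sl R ι)
    (Prod.fst : (Sl R ι → P) × (Fin d → (Sl R ι → P)) → (Sl R ι → P)) (nbM F R i sm)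
    (pubM F R i sm) (fun _ _ => rfl) (fun _ => rfl) (h1.mult.snb hms hmR hms1)
  rw [m.restrict_eq hL] at h2
  exact h2

theorem pick_flag {U : Type} (p : U → Prop) [∀ u, Decidable (p u)] :
    (pick (fun u => if p u then some () else none) ≠ none) = ∃ u, p u := by
  apply propext
  constructor
  · intro h
    by_contra hno
    push Not at hno
    exact h (pick_eq_none fun u => if_neg (hno u))
  · rintro ⟨u, hu⟩
    rw [pick_eq_some (v := ()) (fun _ _ _ => rfl) ⟨u, by rw [if_pos hu]; simp⟩]
    simp

theorem glob_eq (hL : m.Loc R) (i : F.I) (w : F.U i → A) :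
    (m.stepR R a0).glob (nbR F R i) (pubR F R i) w = m.N i w := by
  classical
  funext u
  have h1 : ∀ j, ((m.stepR R a0).gval (nbR F R i) (pubR F R i) w j ≠ none) =
      ∃ u, m.Fl j i w u := by
    intro j
    have h2 : (m.stepR R a0).gval (nbR F R i) (pubR F R i) w j =
        pick fun u => if m.Fl j i w u then some () else none := by
      unfold SRule.gval stepR
      congr 1
      funext u
      have := rule_eq (R := R + 1) False ((hL.fl j).mono (Nat.le_succ R)) i w u
      simp only
      change (if rule F (R + 1) False (m.Fl j) (view F (R + 1) i w u) (pview F (R + 1) i u)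
        then some () else none) = _
      simp only [this]
    rw [h2]
    exact pick_flag _
  show rule F (R + 1) a0 (m.SN fun j => (m.stepR R a0).gval (nbR F R i) (pubR F R i) w j ≠ none)
    (view F (R + 1) i w u) (pview F (R + 1) i u) = _
  have h3 : (fun j => (m.stepR R a0).gval (nbR F R i) (pubR F R i) w j ≠ none) =
      fun j => ∃ u, m.Fl j i w u := funext h1
  rw [h3, rule_eq a0 ((hL.sn _).mono (Nat.le_succ R))]
  rfl

theorem glob_eq' (hL : m.Loc R) (i : F.I) (w : F.U i → A) :
    (m.stepR' R a0).glob (nbR F R i) (pubR F R i) w = m.M i w := by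
  classical
  funext u
  have h1 : ∀ j, ((m.stepR' R a0).gval (nbR F R i) (pubR F R i) w j ≠ none) =
      ∃ u, m.Fl' j i w u := by
    intro j
    have h2 : (m.stepR' R a0).gval (nbR F R i) (pubR F R i) w j =
        pick fun u => if m.Fl' j i w u then some () else none := by
      unfold SRule.gval stepR'
      congr 1
      funext u
      have := rule_eq (R := R + 1) False ((hL.fl' j).mono (Nat.le_succ R)) i w u
      simp only
      change (if rule F (R + 1) False (m.Fl' j) (view F (R + 1) i w u) (pview F (R + 1) i u)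
        then some () else none) = _
      simp only [this]
    rw [h2]
    exact pick_flag _
  show rule F (R + 1) a0 (m.SM fun j => (m.stepR' R a0).gval (nbR F R i) (pubR F R i) w j ≠ none)
    (view F (R + 1) i w u) (pview F (R + 1) i u) = _
  have h3 : (fun j => (m.stepR' R a0).gval (nbR F R i) (pubR F R i) w j ≠ none) =
      fun j => ∃ u, m.Fl' j i w u := funext h1
  rw [h3, rule_eq a0 ((hL.sm _).mono (Nat.le_succ R))]
  rfl

theorem coh_flag {U : Type} [Fintype U] (p : U → Prop) [∀ u, Decidable (p u)] {ρ : ℝ}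
    (h : (∀ u, ¬ p u) ∨ ρ ≤ frac p) :
    Coh (fun u => if p u then some () else none) ρ where
  coh _ _ _ _ _ _ := rfl
  dense := by
    rcases h with h | h
    · exact Or.inl fun u => if_neg (h u)
    · refine Or.inr (h.trans (frac_mono fun u hu => ?_))
      rw [if_pos hu]
      simp

/-- **the step axioms of the machine** -/
theorem stepax [Fintype m.J] [Fintype m.J'] (hL : m.Loc R) (hE : m.Exact g ρ) {i : F.I} {d : ℕ}
    {sm : Fin d → F.U i → F.U i} {e γ γ' : ℝ} (hs : Sampler d sm e γ) (he : e < ρ)
    (hγ : 0 ≤ γ) (h1 : Fintype.card m.J * γ ≤ γ') (h2 : Fintype.card m.J' * γ ≤ γ') :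
    StepAx (m.rules R0 R a0 d) (nbM F R i sm) (pubM F R i sm) (m.Legal i) (m.w0 i) (m.N i) (m.M i)
      γ' where
  w0_mem := hE.w0_mem i
  N_mem := hE.N_mem i
  M_mem := hE.M_mem i
  MN := hE.MN i
  NM := hE.NM i
  M_w0 := hE.M_w0 i
  N_w0 := hE.N_w0 i
  N_loc w hw := by
    classical
    refine le_trans ?_ h1
    have hco : ∀ j, Coh (fun u => (m.stepR R a0).val j (fun s => w (nbR F R i s u))
        (pubR F R i u)) ρ := by
      intro j
      have h3 : (fun u => (m.stepR R a0).val j (fun s => w (nbR F R i s u)) (pubR F R i u)) =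
          fun u => if m.Fl j i w u then some () else none := by
        funext u
        have := rule_eq (R := R + 1) False ((hL.fl j).mono (Nat.le_succ R)) i w u
        change (if rule F (R + 1) False (m.Fl j) (view F (R + 1) i w u) (pview F (R + 1) i u)
          then some () else none) = _
        simp only [this]
      rw [h3]
      exact coh_flag _ (hE.dense i w hw j)
    have := (m.stepR R a0).loc_ok (nbR F R i) (pubR F R i) sm hs he hγ w hco
    rw [m.glob_eq a0 hL i w] at this
    exact this
  M_loc w hw := by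
    classical
    refine le_trans ?_ h2
    have hco : ∀ j, Coh (fun u => (m.stepR' R a0).val j (fun s => w (nbR F R i s u))
        (pubR F R i u)) ρ := by
      intro j
      have h3 : (fun u => (m.stepR' R a0).val j (fun s => w (nbR F R i s u)) (pubR F R i u)) =
          fun u => if m.Fl' j i w u then some () else none := by
        funext u
        have := rule_eq (R := R + 1) False ((hL.fl' j).mono (Nat.le_succ R)) i w u
        change (if rule F (R + 1) False (m.Fl' j) (view F (R + 1) i w u) (pview F (R + 1) i u)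
          then some () else none) = _
        simp only [this]
      rw [h3]
      exact coh_flag _ (hE.dense' i w hw j)
    have := (m.stepR' R a0).loc_ok (nbR F R i) (pubR F R i) sm hs he hγ w hco
    rw [m.glob_eq' a0 hL i w] at this
    exact this

end ax

end WMach

end Crest.Agent.R289.UMach209
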