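import Crest.Agent.R289.ULAsm_406
import Crest.Agent.R289.UMach_209
import Crest.Agent.R289.ULBridge_25

/-!
# Row 289: enlarging the steps and the public data of a uniformly local map (helper579)

The steps of the frame of `DefI_306` (left multiplications, clock moves) do not contain the slots of the
label code (right multiplications, samples).  `UL.change`: a map that is uniformly local over steps `mv`
and public data `pub` is uniformly local over any steps `mv'` and public data `pub'` in which `mv` are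
words and `pub` is local.  Corollaries for `Sum.elim mv nb0`, `(pub, pub0)`, for `Sem.Loc`, `Real`, for a
change of the family of instances, and for the calculus `ULoc` of `ULoc_209`.
-/

set_option autoImplicit false

namespace Crest.Agent.R289.ULSteps579

open Crest.Agent.R289.Word508 Crest.Agent.R289.ULoc406 Crest.Agent.R289.ULAsm406

section change

variable {Inst St St' : Type} {U : Inst → Type} {P P' A B : Type}
  {mv : ∀ i, St → U i → U i} {mv' : ∀ i, St' → U i → U i} {pub : ∀ i, U i → P}
  {pub' : ∀ i, U i → P'}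

theorem walk_flatMap {V : Type} {m : St → V → V} {m' : St' → V → V} (l : St → List St')
    (h : ∀ s u, m s u = walk m' (l s) u) (t : List St) (u : V) :
    walk m t u = walk m' (t.flatMap l) u := by
  induction t generalizing u with
  | nil => rfl
  | cons s t ih =>
    rw [List.flatMap_cons, walk_append]
    show walk m t (m s u) = _
    rw [ih, h]

/-- **change of steps and public data** -/
theorem UL.change [Finite St] (hs : ∀ s, ∃ l : List St', ∀ i u, mv i s u = walk (mv' i) l u)
    (hp : UL mv' pub' (fun i (_ : U i → A) u => pub i u))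
    {F : ∀ i, (U i → A) → U i → B} (h : UL mv pub F) : UL mv' pub' F := by
  obtain ⟨n, f, hf⟩ := h
  choose l hl using hs
  have hw : ∀ (t : Sl St n) i u, nbS (mv i) n t u = walk (mv' i) (t.1.flatMap l) u :=
    fun t i u => walk_flatMap l (fun s u => hl s i u) t.1 u
  have h1 : UL mv' pub' (fun i (w : U i → A) u (t : Sl St n) => w (nbS (mv i) n t u)) :=
    UL.pi fun t => (UL.walk (t.1.flatMap l) UL.here).congr fun i w u => by rw [hw]
  have h2 : UL mv' pub' (fun i (_ : U i → A) u (t : Sl St n) => pub i (nbS (mv i) n t u)) :=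
    UL.pi fun t => (UL.walk (t.1.flatMap l) hp).congr fun i w u => by rw [hw]
  exact ((h1.prod h2).map fun x => f x.1 x.2).congr fun i w u => hf i w u

/-- change of steps only -/
theorem UL.steps [Finite St] (hs : ∀ s, ∃ l : List St', ∀ i u, mv i s u = walk (mv' i) l u)
    {F : ∀ i, (U i → A) → U i → B} (h : UL mv pub F) : UL mv' pub F :=
  UL.change hs UL.publ h

/-- change of public data only -/
theorem UL.publ_map [Finite St] (π : P' → P) (hπ : ∀ i u, pub i u = π (pub' i u))
    {F : ∀ i, (U i → A) → U i → B} (h : UL mv pub F) : UL mv pub' F :=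
  UL.change (fun s => ⟨[s], fun _ _ => rfl⟩)
    (((UL.publ (A := A)).map π).congr fun i _ u => hπ i u) h

/-- change of the family of instances -/
theorem UL.reindex {Inst' : Type} (r : Inst' → Inst) {F : ∀ i, (U i → A) → U i → B}
    (h : UL mv pub F) :
    UL (U := fun i => U (r i)) (fun i => mv (r i)) (fun i => pub (r i)) (fun i => F (r i)) := by
  obtain ⟨n, f, hf⟩ := h
  exact ⟨n, f, fun i w u => hf (r i) w u⟩

end change

/-! ### frame steps and code slots together -/

section sum

variable {Inst St ι0 : Type} {U : Inst → Type} {P P0 A B : Type} {mv : ∀ i, St → U i → U i}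
  {pub : ∀ i, U i → P} {nb0 : ∀ i, ι0 → U i → U i} {pub0 : ∀ i, U i → P0}

/-- frame steps and code slots -/
def mvS (mv : ∀ i, St → U i → U i) (nb0 : ∀ i, ι0 → U i → U i) (i : Inst) :
    St ⊕ ι0 → U i → U i := Sum.elim (mv i) (nb0 i)

/-- public data of the frame and of the code -/
def pubS2 (pub : ∀ i, U i → P) (pub0 : ∀ i, U i → P0) (i : Inst) (u : U i) : P × P0 :=
  (pub i u, pub0 i u)

theorem UL.inl [Finite St] {F : ∀ i, (U i → A) → U i → B} (h : UL mv pub F) :
    UL (mvS mv nb0) (pubS2 pub pub0) F :=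
  UL.change (fun s => ⟨[Sum.inl s], fun _ _ => rfl⟩)
    (((UL.publ (A := A)).map Prod.fst).congr fun _ _ _ => rfl) h

theorem Real.inr : Real (mvS mv nb0) (pubS2 pub pub0) nb0 pub0 where
  nb j := ⟨[Sum.inr j], fun _ _ => rfl⟩
  pub := ⟨0, fun p => (p (Sl.nil _ 0)).2, fun _ _ => rfl⟩

/-- slots with a part that is already made of words of steps -/
theorem Real.mono {St' P' : Type} {mv' : ∀ i, St' → U i → U i} {pub' : ∀ i, U i → P'}
    (h : Real mv pub nb0 pub0)
    (hs : ∀ s, ∃ l : List St', ∀ i u, mv i s u = walk (mv' i) l u)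
    (π : P' → P) (hπ : ∀ i u, pub i u = π (pub' i u)) [Finite St] :
    Real mv' pub' nb0 pub0 := by
  choose l hl using hs
  have hw : ∀ (t : List St) i u, walk (mv i) t u = walk (mv' i) (t.flatMap l) u :=
    fun t i u => walk_flatMap l (fun s u => hl s i u) t u
  refine ⟨fun j => ?_, ?_⟩
  · obtain ⟨t, ht⟩ := h.nb j
    exact ⟨t.flatMap l, fun i u => (ht i u).trans (hw t i u)⟩
  · obtain ⟨n, ρ, hρ⟩ := h.pub
    obtain ⟨m, hm⟩ : ∃ m, ∀ t : Sl St n, (t.1.flatMap l).length ≤ m := by
      obtain ⟨m, hm⟩ := (Set.finite_range fun t : Sl St n => (t.1.flatMap l).length).bddAbove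
      exact ⟨m, fun t => hm ⟨t, rfl⟩⟩
    refine ⟨m, fun p => ρ fun t => π (p ⟨t.1.flatMap l, hm t⟩), fun i u => ?_⟩
    refine (hρ i u).trans (congrArg ρ (funext fun t => ?_))
    show pub i (walk (mv i) t.1 u) = π (pub' i (walk (mv' i) (t.1.flatMap l) u))
    rw [hw, hπ]

variable {Jr J J' : Type} {V : J → Type} {V' : J' → Type} {D : Sem Inst U A Jr J J' V V'}

/-- semantic data local over the frame are local over frame + code slots -/
theorem Sem.Loc.inl [Finite St] (h : D.Loc mv pub) : D.Loc (mvS mv nb0) (pubS2 pub pub0) where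
  rel j := UL.inl (h.rel j)
  vl j := UL.inl (h.vl j)
  F y := UL.inl (h.F y)
  vl' j := UL.inl (h.vl' j)
  F' y := UL.inl (h.F' y)

theorem Sem.Loc.change {St' P' : Type} {mv' : ∀ i, St' → U i → U i} {pub' : ∀ i, U i → P'}
    [Finite St] (hs : ∀ s, ∃ l : List St', ∀ i u, mv i s u = walk (mv' i) l u)
    (hp : UL mv' pub' (fun i (_ : U i → A) u => pub i u)) (h : D.Loc mv pub) :
    D.Loc mv' pub' where
  rel j := UL.change hs hp (h.rel j)
  vl j := UL.change hs hp (h.vl j)
  F y := UL.change hs hp (h.F y)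
  vl' j := UL.change hs hp (h.vl' j)
  F' y := UL.change hs hp (h.F' y)

/-- multiplicity of frame steps and code slots -/
theorem nbMult_mvS {i : Inst} [Fintype (U i)] {m : ℝ} (h : NbMult (mv i) m)
    (h0 : NbMult (nb0 i) m) : NbMult (mvS mv nb0 i) m := by
  rintro (s | s) E
  · exact h s E
  · exact h0 s E

/-- **existence of the rules** for semantic data local over the frame and any code slots -/
theorem exists_rules' [Finite St] [Finite ι0] [Finite Jr] [Finite J] [Finite J']
    [∀ j, Finite (V j)] [∀ j, Finite (V' j)] (hD : D.Loc mv pub) :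
    ∃ n, ∀ m, n ≤ m → Nonempty (Rules D (mvS mv nb0) (pubS2 pub pub0) nb0 pub0 m) :=
  exists_rules Real.inr (Sem.Loc.inl hD)

end sum

/-! ### the same for `ULoc_209` -/

section uloc

open Crest.Agent.R289.ULoc209 Crest.Agent.R289.UMach209 Crest.Agent.R289.ULBridge25

variable {Inst St ι0 : Type} {U : Inst → Type} {P P0 A B : Type} {mv : ∀ i, St → U i → U i}
  {pub : ∀ i, U i → P} {nb0 : ∀ i, ι0 → U i → U i} {pub0 : ∀ i, U i → P0}

theorem ULoc.inl [Finite St] [Nonempty B] {R : ℕ} {f : ∀ i, (U i → A) → U i → B}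
    (h : ULoc (uf mv pub) R f) : ∃ R', ULoc (uf (mvS mv nb0) (pubS2 pub pub0)) R' f :=
  uloc_of_ul (F := uf (mvS mv nb0) (pubS2 pub pub0)) (UL.inl (ul_of_uloc (F := uf mv pub) h))

/-- a machine over other slots and public data -/
def reslot {St' P' : Type} (mv' : ∀ i, St' → U i → U i) (pub' : ∀ i, U i → P')
    (m : WMach (uf mv pub) A) : WMach (uf mv' pub') A where
  C := m.C
  Jr := m.Jr
  Rel := m.Rel
  J := m.J
  J' := m.J'
  Fl := m.Fl
  Fl' := m.Fl'
  SN := m.SN
  SM := m.SM
  w0 := m.w0

/-- **a machine local over the frame is local over frame + code slots** -/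
theorem loc_reslot [Finite St] [Nonempty A] (m : WMach (uf mv pub) A) [Finite m.Jr] [Finite m.J]
    [Finite m.J'] {R : ℕ} (h : m.Loc R) :
    ∃ R', (reslot (mvS mv nb0) (pubS2 pub pub0) m).Loc R' := by
  choose a ha using fun j => ULoc.inl (nb0 := nb0) (pub0 := pub0) (h.rel j)
  choose b hb using fun j => ULoc.inl (nb0 := nb0) (pub0 := pub0) (h.fl j)
  choose c hc using fun j => ULoc.inl (nb0 := nb0) (pub0 := pub0) (h.fl' j)
  choose d hd using fun j => ULoc.inl (nb0 := nb0) (pub0 := pub0) (h.sn j)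
  choose e he using fun j => ULoc.inl (nb0 := nb0) (pub0 := pub0) (h.sm j)
  have bd : ∀ {J : Type} [Finite J] (g : J → ℕ), ∃ n, ∀ j, g j ≤ n := by
    intro J _ g
    obtain ⟨n, hn⟩ := (Set.finite_range g).bddAbove
    exact ⟨n, fun j => hn ⟨j, rfl⟩⟩
  obtain ⟨a', ha'⟩ := bd a
  obtain ⟨b', hb'⟩ := bd b
  obtain ⟨c', hc'⟩ := bd c
  obtain ⟨d', hd'⟩ := bd d
  obtain ⟨e', he'⟩ := bd e
  refine ⟨a' + b' + c' + d' + e', ⟨fun j => ?_, fun j => ?_, fun j => ?_, fun j => ?_, fun j => ?_⟩⟩
  · exact (ha j).mono ((ha' j).trans (by omega))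
  · exact (hb j).mono ((hb' j).trans (by omega))
  · exact (hc j).mono ((hc' j).trans (by omega))
  · exact (hd j).mono ((hd' j).trans (by omega))
  · exact (he j).mono ((he' j).trans (by omega))

theorem exact_reslot {St' P' : Type} {mv' : ∀ i, St' → U i → U i} {pub' : ∀ i, U i → P'}
    [fU : ∀ i, Fintype ((uf mv pub).U i)] (m : WMach (uf mv pub) A) {g ρ : ℝ}
    (h : m.Exact g ρ) : @WMach.Exact _ _ _ (uf mv' pub') (reslot mv' pub' m) fU g ρ := by
  let _ : ∀ i, Fintype ((uf mv' pub').U i) := fU
  obtain ⟨h1, h2, h3, h4, h5, h6, h7, h8, h9, h10⟩ := h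
  exact ⟨h1, h2, h3, h4, h5, h6, h7, h8, h9, h10⟩

end uloc

end Crest.Agent.R289.ULSteps579
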