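import Crest.Agent.R289.Mem_12
import Crest.Agent.R289.HypObj_146
import Crest.Agent.R289.RegsObj_335
import Crest.Agent.R289.ULSteps_579
import Crest.Agent.R289.DecC_589

/-!
# Row 289: the word-level data of one member of the family (helper12)

Definitions shared by the uniform part (TopU) and the table part (TopH) of `fam_of_obj`:
frame moves `mvF`, public data `pubF`, slots of the label code `nb0`, all steps `mv`, labelled
machine `lm`, label word `word` of a configuration, start word `w0`.
-/

set_option autoImplicit false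

namespace Crest.Agent.R289.Mem12.Mem

open Crest.Agent.R289.Asm12 Crest.Agent.R289.DefC Crest.Agent.R289.DefI
  Crest.Agent.R289.InsObj576 Crest.Agent.R289.ClockE698 Crest.Agent.R289.ClkTD766
  Crest.Agent.R289.ClockU698 Crest.Agent.R289.RegsObj335 Crest.Agent.R289.Compile827

variable {D : Obj} {M0 : ℕ} {lam0 Kr : ℝ} {h : D.OK M0 lam0 Kr} {W c0 : ℕ} (i : Mem h W c0)

/-- moves of the frame of `DefI_306` -/
noncomputable def mvF (g : (cst h W).Gen (CG (cst h W))) (u : i.I.U) : i.I.U :=
  (i.I.frame i.mc (fun _ => ())).act g u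

/-- public data of the frame -/
noncomputable def pubF (u : i.I.U) : (cst h W).PD × Unit := (i.I.pd u, ())

/-- slots of the clock register -/
noncomputable def nbc : Clock425.Slot (SJ 3) → i.I.U → i.I.U :=
  nbU i.siz (D.ix i.kP) (D.ix i.kR) (D.ix i.kT)

/-- slots of the label code -/
noncomputable def nb0 : SO D (Clock425.Slot (SJ 3)) → i.I.U → i.I.U := labNbO D i.nbc

/-- all steps -/
noncomputable def mv :
    (cst h W).Gen (CG (cst h W)) ⊕ SO D (Clock425.Slot (SJ 3)) → i.I.U → i.I.U :=
  Sum.elim i.mvF i.nb0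

/-- all public data -/
noncomputable def pub (u : i.I.U) : ((cst h W).PD × Unit) × Unit := (i.pubF u, ())

/-- the labelled machine -/
noncomputable def lm : LM (LMI827.XS i.I (InsObj576.CG D i.kP i.kR))
    (LMI827.ZS i.I (InsObj576.CG D i.kP i.kR) (HypObj146.CT D i.kT)) (cst h W).A.Tr :=
  HypObj146.lmO h i.P i.lay i.ok i.h0

/-- label word of a configuration -/
noncomputable def word (f : Conf (LMI827.XS i.I (InsObj576.CG D i.kP i.kR))
    (LMI827.ZS i.I (InsObj576.CG D i.kP i.kR) (HypObj146.CT D i.kT)) (cst h W).A.Tr) :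
    i.I.U → (cst h W).Lab (ZMod 3) :=
  i.I.labE i.cw (DecL589.mp Subtype.val Subtype.val f)

/-- start word -/
noncomputable def w0 : i.I.U → (cst h W).Lab (ZMod 3) := i.word i.lm.c0

/-- label code -/
noncomputable def C : Set (i.I.U → (cst h W).Lab (ZMod 3)) :=
  labCO h W i.kP i.kR i.kT (Clock425.clkC i.e)

theorem w0_eq : i.w0 = i.I.labE i.cw ⟨.boot, 0, i.I.xz, i.I.zz, i.I.xs, i.I.ent i.I.xs⟩ := rfl

end Crest.Agent.R289.Mem12.Mem
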