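import Crest.Agent.R289.ProdCorr_782

/-!
# Row 289: local calculus

`Frame Gen Pub` = units, finitely many generator moves, public data of a unit.
`LMap Gen Pub Γ Δ` = a UNIFORM local rule: finite index type, address words in the generators, a
function of the labels and public data found at these addresses.  `run` = its value on a total
array, `krun` = its Kleene value (forced by the readable neighbours) on a partial array.
Local maps compose (`comp`, `iter`, `pair`, `map`, `mapGen`), and `krun` of a composition is at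
least as defined as the composition of the `krun`s, so contraction statements proved for
compositions of `krun`s hold for the single rule.  `Rules.toLRules` turns four local maps into
the `DefD.LRules` with the corresponding neighbour and public tables; the rule does not depend on
the frame, so it is the same for all instances.
-/

set_option autoImplicit false

namespace Crest.Agent.R289.Local782

open Finset Crest.Agent.R289.DefD Crest.Agent.R289.ProdCorr782

/-- units, generator moves (arbitrary maps), public data -/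
structure Frame (Gen Pub : Type) where
  U : Type
  act : Gen → U → U
  pub : U → Pub

namespace Frame
variable {Gen Pub : Type}

/-- the unit at an address word (first letter first) -/
def go (F : Frame Gen Pub) : List Gen → F.U → F.U
  | [], u => u
  | g :: l, u => go F l (F.act g u)

@[simp] theorem go_nil (F : Frame Gen Pub) (u : F.U) : F.go [] u = u := rfl

@[simp] theorem go_cons (F : Frame Gen Pub) (g : Gen) (l : List Gen) (u : F.U) :
    F.go (g :: l) u = F.go l (F.act g u) := rfl

@[simp] theorem go_append (F : Frame Gen Pub) (l m : List Gen) (u : F.U) :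
    F.go (l ++ m) u = F.go m (F.go l u) := by
  induction l generalizing u with
  | nil => rfl
  | cons g l ih => simp [ih]

/-- every generator is at most `m`-to-one -/
def MultLe (F : Frame Gen Pub) [Fintype F.U] (m : ℕ) : Prop :=
  ∀ (g : Gen) (S : Finset F.U), (by classical exact
    (univ.filter fun u => F.act g u ∈ S).card) ≤ m * S.card

end Frame

/-- a uniform local rule -/
structure LMap (Gen Pub Γ Δ : Type) where
  ι : Type
  [fin : Fintype ι]
  adr : ι → List Gen
  f : (ι → Γ) → (ι → Pub) → Δ

attribute [instance] LMap.fin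

namespace LMap
variable {Gen Pub Γ Δ E : Type}

/-- value on a total array -/
def run (A : LMap Gen Pub Γ Δ) (F : Frame Gen Pub) (X : F.U → Γ) (u : F.U) : Δ :=
  A.f (fun i => X (F.go (A.adr i) u)) (fun i => F.pub (F.go (A.adr i) u))

/-- `x` is consistent with the readable neighbours -/
def Cons (A : LMap Gen Pub Γ Δ) (F : Frame Gen Pub) (X : F.U → Option Γ) (u : F.U)
    (x : A.ι → Γ) : Prop :=
  ∀ i y, X (F.go (A.adr i) u) = some y → x i = y

open Classical in
/-- Kleene value on a partial array -/
noncomputable def krun (A : LMap Gen Pub Γ Δ) (F : Frame Gen Pub) (X : F.U → Option Γ)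
    (u : F.U) : Option Δ :=
  if h : ∃ g : Δ, ∀ x : A.ι → Γ, A.Cons F X u x →
      A.f x (fun i => F.pub (F.go (A.adr i) u)) = g
  then some h.choose else none

theorem exists_cons [Nonempty Γ] (A : LMap Gen Pub Γ Δ) (F : Frame Gen Pub)
    (X : F.U → Option Γ) (u : F.U) : ∃ x, A.Cons F X u x := by
  refine ⟨fun i => (X (F.go (A.adr i) u)).getD (Classical.arbitrary Γ), fun i y h => ?_⟩
  simp [h]

theorem krun_eq_some_iff [Nonempty Γ] (A : LMap Gen Pub Γ Δ) (F : Frame Gen Pub)
    (X : F.U → Option Γ) (u : F.U) (g : Δ) :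
    A.krun F X u = some g ↔
      ∀ x, A.Cons F X u x → A.f x (fun i => F.pub (F.go (A.adr i) u)) = g := by
  classical
  unfold krun
  constructor
  · intro h
    split_ifs at h with h1
    have h2 := h1.choose_spec
    rw [Option.some.injEq] at h
    rw [← h]
    exact h2
  · intro h
    have h1 : ∃ g : Δ, ∀ x : A.ι → Γ, A.Cons F X u x →
        A.f x (fun i => F.pub (F.go (A.adr i) u)) = g := ⟨g, h⟩
    rw [dif_pos h1]
    obtain ⟨x, hx⟩ := exists_cons A F X u
    rw [Option.some.injEq, ← h x hx, h1.choose_spec x hx]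

theorem krun_congr_iff [Nonempty Γ] {Gen' Pub' Γ' : Type} [Nonempty Γ'] (A : LMap Gen Pub Γ Δ)
    (F : Frame Gen Pub) (X : F.U → Option Γ) (u : F.U) (B : LMap Gen' Pub' Γ' Δ)
    (G : Frame Gen' Pub') (Y : G.U → Option Γ') (v : G.U)
    (h : ∀ g, A.krun F X u = some g ↔ B.krun G Y v = some g) : A.krun F X u = B.krun G Y v :=
  Option.ext h

/-- on total arrays the Kleene value is the value -/
theorem krun_some [Nonempty Γ] (A : LMap Gen Pub Γ Δ) (F : Frame Gen Pub) (X : F.U → Γ)
    (u : F.U) : A.krun F (fun v => some (X v)) u = some (A.run F X u) := by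
  rw [krun_eq_some_iff]
  intro x hx
  unfold run
  congr 1
  funext i
  exact hx i _ rfl

/-- if all neighbours are readable the Kleene value is the value -/
theorem krun_of_readable [Nonempty Γ] (A : LMap Gen Pub Γ Δ) (F : Frame Gen Pub)
    (X : F.U → Option Γ) (w : F.U → Γ) (u : F.U)
    (h : ∀ i, X (F.go (A.adr i) u) = some (w (F.go (A.adr i) u))) :
    A.krun F X u = some (A.run F w u) := by
  rw [krun_eq_some_iff]
  intro x hx
  unfold run
  congr 1
  funext i
  exact hx i _ (h i)

/-- monotonicity in the array -/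
theorem krun_mono [Nonempty Γ] (A : LMap Gen Pub Γ Δ) (F : Frame Gen Pub)
    (X Y : F.U → Option Γ) (hXY : ∀ v y, X v = some y → Y v = some y) (u : F.U) (g : Δ)
    (h : A.krun F X u = some g) : A.krun F Y u = some g := by
  rw [krun_eq_some_iff] at h ⊢
  intro x hx
  exact h x (fun i y hy => hx i y (hXY _ y hy))

/-- identity -/
def idm (Gen Pub Γ : Type) : LMap Gen Pub Γ Γ where
  ι := Unit
  adr := fun _ => []
  f := fun x _ => x ()

theorem krun_idm [Nonempty Γ] (F : Frame Gen Pub) (X : F.U → Option Γ) (u : F.U) (g : Γ)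
    (h : X u = some g) : (idm Gen Pub Γ).krun F X u = some g := by
  rw [krun_eq_some_iff]
  intro x hx
  exact hx () g h

@[simp] theorem run_idm (F : Frame Gen Pub) (X : F.U → Γ) (u : F.U) :
    (idm Gen Pub Γ).run F X u = X u := rfl

/-- composition: first `B`, then `A` -/
def comp (A : LMap Gen Pub Δ E) (B : LMap Gen Pub Γ Δ) : LMap Gen Pub Γ E where
  ι := A.ι × Option B.ι
  adr := fun p => match p.2 with
    | none => A.adr p.1
    | some j => A.adr p.1 ++ B.adr j
  f := fun x pb => A.f (fun i => B.f (fun j => x (i, some j)) (fun j => pb (i, some j)))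
    (fun i => pb (i, none))

theorem run_comp (A : LMap Gen Pub Δ E) (B : LMap Gen Pub Γ Δ) (F : Frame Gen Pub)
    (X : F.U → Γ) : (A.comp B).run F X = A.run F (B.run F X) := by
  funext u
  simp [run, comp]

/-- the Kleene value of a composition is at least as defined as the composition of the Kleene
values -/
theorem krun_comp [Nonempty Γ] [Nonempty Δ] (A : LMap Gen Pub Δ E) (B : LMap Gen Pub Γ Δ)
    (F : Frame Gen Pub) (X : F.U → Option Γ) (u : F.U) (g : E)
    (h : A.krun F (B.krun F X) u = some g) : (A.comp B).krun F X u = some g := by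
  rw [krun_eq_some_iff] at h ⊢
  intro x hx
  have h1 := h (fun i => B.f (fun j => x (i, some j))
    (fun j => F.pub (F.go (B.adr j) (F.go (A.adr i) u)))) (by
      intro i y hy
      rw [krun_eq_some_iff] at hy
      apply hy
      intro j z hz
      apply hx (i, some j) z
      simpa [comp] using hz)
  rw [← h1]
  simp [comp]

/-- `m`-fold composition -/
def iter (A : LMap Gen Pub Γ Γ) : ℕ → LMap Gen Pub Γ Γ
  | 0 => idm Gen Pub Γ
  | m + 1 => A.comp (iter A m)

theorem run_iter (A : LMap Gen Pub Γ Γ) (F : Frame Gen Pub) (m : ℕ) (X : F.U → Γ) :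
    (A.iter m).run F X = (A.run F)^[m] X := by
  induction m with
  | zero => rfl
  | succ m ih => rw [iter, run_comp, ih, Function.iterate_succ_apply']

theorem krun_iter [Nonempty Γ] (A : LMap Gen Pub Γ Γ) (F : Frame Gen Pub) (m : ℕ)
    (X : F.U → Option Γ) (u : F.U) (g : Γ) (h : ((A.krun F)^[m] X) u = some g) :
    (A.iter m).krun F X u = some g := by
  induction m generalizing u g with
  | zero => exact krun_idm F X u g h
  | succ m ih =>
    rw [Function.iterate_succ_apply'] at h
    exact krun_comp _ _ F X u g (krun_mono _ F _ _ ih u g h)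

/-- post-composition with a function -/
def map (h : Δ → E) (A : LMap Gen Pub Γ Δ) : LMap Gen Pub Γ E where
  ι := A.ι
  adr := A.adr
  f := fun x pb => h (A.f x pb)

@[simp] theorem run_map (h : Δ → E) (A : LMap Gen Pub Γ Δ) (F : Frame Gen Pub) (X : F.U → Γ)
    (u : F.U) : (A.map h).run F X u = h (A.run F X u) := rfl

theorem krun_map [Nonempty Γ] (h : Δ → E) (A : LMap Gen Pub Γ Δ) (F : Frame Gen Pub)
    (X : F.U → Option Γ) (u : F.U) (g : Δ) (hg : A.krun F X u = some g) :
    (A.map h).krun F X u = some (h g) := by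
  rw [krun_eq_some_iff] at hg ⊢
  intro x hx
  exact congrArg h (hg x hx)

/-- pre-composition: only a part of the label is read -/
def comap {Γ' : Type} (h : Γ' → Γ) (A : LMap Gen Pub Γ Δ) : LMap Gen Pub Γ' Δ where
  ι := A.ι
  adr := A.adr
  f := fun x pb => A.f (fun i => h (x i)) pb

@[simp] theorem run_comap {Γ' : Type} (h : Γ' → Γ) (A : LMap Gen Pub Γ Δ) (F : Frame Gen Pub)
    (X : F.U → Γ') (u : F.U) : (A.comap h).run F X u = A.run F (fun v => h (X v)) u := rfl

theorem krun_comap {Γ' : Type} [Nonempty Γ] [Nonempty Γ'] (h : Γ' → Γ) (A : LMap Gen Pub Γ Δ)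
    (F : Frame Gen Pub) (X : F.U → Option Γ') (u : F.U) (g : Δ)
    (hg : A.krun F (fun v => (X v).map h) u = some g) : (A.comap h).krun F X u = some g := by
  rw [krun_eq_some_iff] at hg ⊢
  intro x hx
  apply hg (fun i => h (x i))
  intro i y hy
  rw [Option.map_eq_some_iff] at hy
  obtain ⟨z, hz, rfl⟩ := hy
  exact congrArg h (hx i z hz)

/-- two rules in parallel -/
def pair (A : LMap Gen Pub Γ Δ) (B : LMap Gen Pub Γ E) : LMap Gen Pub Γ (Δ × E) where
  ι := A.ι ⊕ B.ι
  adr := Sum.elim A.adr B.adr
  f := fun x pb => (A.f (fun i => x (Sum.inl i)) (fun i => pb (Sum.inl i)),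
    B.f (fun i => x (Sum.inr i)) (fun i => pb (Sum.inr i)))

@[simp] theorem run_pair (A : LMap Gen Pub Γ Δ) (B : LMap Gen Pub Γ E) (F : Frame Gen Pub)
    (X : F.U → Γ) (u : F.U) : (A.pair B).run F X u = (A.run F X u, B.run F X u) := rfl

theorem krun_pair [Nonempty Γ] (A : LMap Gen Pub Γ Δ) (B : LMap Gen Pub Γ E)
    (F : Frame Gen Pub) (X : F.U → Option Γ) (u : F.U) (g : Δ) (e : E)
    (hA : A.krun F X u = some g) (hB : B.krun F X u = some e) :
    (A.pair B).krun F X u = some (g, e) := by
  rw [krun_eq_some_iff] at hA hB ⊢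
  intro x hx
  have h1 := hA (fun i => x (Sum.inl i)) (fun i y hy => hx (Sum.inl i) y hy)
  have h2 := hB (fun i => x (Sum.inr i)) (fun i y hy => hx (Sum.inr i) y hy)
  show (A.f _ _, B.f _ _) = (g, e)
  rw [← h1, ← h2]
  rfl

/-- finitely many rules in parallel -/
def pi {J : Type} [Fintype J] {Δ : J → Type} (A : ∀ j, LMap Gen Pub Γ (Δ j)) :
    LMap Gen Pub Γ (∀ j, Δ j) where
  ι := Σ j, (A j).ι
  adr := fun p => (A p.1).adr p.2
  f := fun x pb j => (A j).f (fun i => x ⟨j, i⟩) (fun i => pb ⟨j, i⟩)

@[simp] theorem run_pi {J : Type} [Fintype J] {Δ : J → Type} (A : ∀ j, LMap Gen Pub Γ (Δ j))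
    (F : Frame Gen Pub) (X : F.U → Γ) (u : F.U) :
    (pi A).run F X u = fun j => (A j).run F X u := rfl

theorem krun_pi [Nonempty Γ] {J : Type} [Fintype J] {Δ : J → Type}
    (A : ∀ j, LMap Gen Pub Γ (Δ j)) (F : Frame Gen Pub) (X : F.U → Option Γ) (u : F.U)
    (g : ∀ j, Δ j) (h : ∀ j, (A j).krun F X u = some (g j)) :
    (pi A).krun F X u = some g := by
  rw [krun_eq_some_iff]
  intro x hx
  funext j
  have h1 := h j
  rw [krun_eq_some_iff] at h1
  exact h1 (fun i => x ⟨j, i⟩) (fun i y hy => hx ⟨j, i⟩ y hy)

/-- case distinction by a local value: `sel` chooses which rule is applied -/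
def cases {J : Type} [Fintype J] (sel : LMap Gen Pub Γ J) (A : J → LMap Gen Pub Γ Δ) :
    LMap Gen Pub Γ Δ where
  ι := sel.ι ⊕ Σ j, (A j).ι
  adr := Sum.elim sel.adr (fun p => (A p.1).adr p.2)
  f := fun x pb =>
    let j := sel.f (fun i => x (Sum.inl i)) (fun i => pb (Sum.inl i))
    (A j).f (fun i => x (Sum.inr ⟨j, i⟩)) (fun i => pb (Sum.inr ⟨j, i⟩))

@[simp] theorem run_cases {J : Type} [Fintype J] (sel : LMap Gen Pub Γ J)
    (A : J → LMap Gen Pub Γ Δ) (F : Frame Gen Pub) (X : F.U → Γ) (u : F.U) :
    (cases sel A).run F X u = (A (sel.run F X u)).run F X u := rfl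

theorem krun_cases [Nonempty Γ] {J : Type} [Fintype J] (sel : LMap Gen Pub Γ J)
    (A : J → LMap Gen Pub Γ Δ) (F : Frame Gen Pub) (X : F.U → Option Γ) (u : F.U) (j : J) (g : Δ)
    (hj : sel.krun F X u = some j) (hg : (A j).krun F X u = some g) :
    (cases sel A).krun F X u = some g := by
  rw [krun_eq_some_iff] at hj hg ⊢
  intro x hx
  have h1 := hj (fun i => x (Sum.inl i)) (fun i y hy => hx (Sum.inl i) y hy)
  have h2 := hg (fun i => x (Sum.inr ⟨j, i⟩)) (fun i y hy => hx (Sum.inr ⟨j, i⟩) y hy)
  show (A (sel.f _ _)).f _ _ = g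
  have h3 : sel.f (fun i => x (Sum.inl i))
      (fun i => F.pub (F.go (Sum.elim sel.adr (fun p : Σ j, (A j).ι => (A p.1).adr p.2)
        (Sum.inl i)) u)) = j := h1
  have key : ∀ j', j' = j → (A j').f (fun i => x (Sum.inr ⟨j', i⟩))
      (fun i => F.pub (F.go ((A j').adr i) u)) = g := by
    rintro _ rfl
    exact h2
  exact key _ h3

/-- change of the generators -/
def mapGen {Gen' : Type} (h : Gen → Gen') (A : LMap Gen Pub Γ Δ) : LMap Gen' Pub Γ Δ where
  ι := A.ι
  adr := fun i => (A.adr i).map h
  f := A.f

/-- a rule on a sub-frame: if `φ` maps the units of `G` to those of `F`, intertwines the moves and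
the public data, then the rule seen from `F` is the rule on `G` -/
theorem krun_mapGen [Nonempty Γ] {Gen' : Type} (h : Gen → Gen') (A : LMap Gen Pub Γ Δ)
    (F : Frame Gen' Pub) (G : Frame Gen Pub) (φ : G.U → F.U)
    (hact : ∀ g u, F.act (h g) (φ u) = φ (G.act g u)) (hpub : ∀ u, F.pub (φ u) = G.pub u)
    (X : F.U → Option Γ) (u : G.U) :
    (A.mapGen h).krun F X (φ u) = A.krun G (fun v => X (φ v)) u := by
  have hgo : ∀ (l : List Gen) (u : G.U), F.go (l.map h) (φ u) = φ (G.go l u) := by
    intro l
    induction l with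
    | nil => intro u; rfl
    | cons g l ih => intro u; simp [hact, ih]
  apply Option.ext
  intro g
  rw [krun_eq_some_iff, krun_eq_some_iff]
  have h1 : ∀ x, (A.mapGen h).Cons F X (φ u) x ↔ A.Cons G (fun v => X (φ v)) u x := by
    intro x
    unfold Cons
    have : ∀ i, F.go ((A.mapGen h).adr i) (φ u) = φ (G.go (A.adr i) u) := fun i => hgo _ _
    simp only [this]
    exact Iff.rfl
  have h2 : (fun i => F.pub (F.go ((A.mapGen h).adr i) (φ u))) =
      fun i => G.pub (G.go (A.adr i) u) := by
    funext i
    have : F.go ((A.mapGen h).adr i) (φ u) = φ (G.go (A.adr i) u) := hgo _ _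
    rw [this, hpub]
  rw [h2]
  constructor
  · intro H x hx
    exact H x ((h1 x).2 hx)
  · intro H x hx
    exact H x ((h1 x).1 hx)

end LMap

/-! ### distances -/

theorem dist_le_of_def {U Γ : Type} [Fintype U] (X Y : U → Option Γ) (w : U → Γ)
    (h : ∀ u g, X u = some g → Y u = some g) : DefD.dist Y w ≤ DefD.dist X w := by
  unfold DefD.dist
  apply frac_mono
  intro u hu hX
  exact hu (h u _ hX)

/-- moves that are at most `m`-to-one: fraction of the units whose `g`-neighbour is in a set -/
theorem frac_act_le {Gen Pub : Type} (F : Frame Gen Pub) [Fintype F.U] (m : ℕ)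
    (hm : ∀ (g : Gen) (v : F.U), (by classical exact
      (univ.filter fun u => F.act g u = v).card) ≤ m)
    (p : F.U → Prop) (g : Gen) : frac (fun u => p (F.act g u)) ≤ m * frac p := by
  classical
  rw [frac_eq, frac_eq, ← mul_div_assoc]
  apply div_le_div_of_nonneg_right _ (by positivity)
  have h1 : (univ.filter fun u => p (F.act g u)) =
      (univ.filter p).biUnion fun v => univ.filter fun u => F.act g u = v := by
    ext u; simp
  have h2 : ((univ.filter fun u => p (F.act g u)).card) ≤ m * (univ.filter p).card := by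
    rw [h1, mul_comm]
    refine card_biUnion_le_card_mul _ _ m ?_
    intro v _
    convert hm g v
  exact_mod_cast h2

theorem frac_go_le {Gen Pub : Type} (F : Frame Gen Pub) [Fintype F.U] (m : ℕ)
    (hm : ∀ (g : Gen) (v : F.U), (by classical exact
      (univ.filter fun u => F.act g u = v).card) ≤ m)
    (p : F.U → Prop) (l : List Gen) :
    frac (fun u => p (F.go l u)) ≤ (m : ℝ) ^ l.length * frac p := by
  induction l generalizing p with
  | nil => simp
  | cons g l ih =>
    have h1 := frac_act_le F m hm (fun v => p (F.go l v)) g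
    have h2 := ih p
    simp only [Frame.go_cons, List.length_cons, pow_succ]
    refine h1.trans ?_
    have hm0 : (0 : ℝ) ≤ m := Nat.cast_nonneg m
    calc (m : ℝ) * frac (fun v => p (F.go l v)) ≤ m * ((m : ℝ) ^ l.length * frac p) :=
          mul_le_mul_of_nonneg_left h2 hm0
      _ = (m : ℝ) ^ l.length * m * frac p := by ring

theorem frac_sum_le {U J : Type} [Fintype U] [Fintype J] (p : J → U → Prop) :
    frac (fun u => ∃ j, p j u) ≤ ∑ j, frac (p j) := by
  classical
  have h1 : ∀ s : Finset J, frac (fun u => ∃ j ∈ s, p j u) ≤ ∑ j ∈ s, frac (p j) := by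
    intro s
    induction s using Finset.induction_on with
    | empty =>
      simp only [sum_empty, Finset.notMem_empty, false_and, exists_false]
      rw [frac_eq]
      simp
    | insert a s ha ih =>
      rw [sum_insert ha]
      refine le_trans ?_ ((frac_or_le (p a) (fun u => ∃ j ∈ s, p j u)).trans
        (add_le_add le_rfl ih))
      apply frac_mono
      rintro u ⟨j, hj, h⟩
      rcases Finset.mem_insert.1 hj with rfl | hj
      · exact Or.inl h
      · exact Or.inr ⟨j, hj, h⟩
  refine le_trans (frac_mono ?_) (h1 univ)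
  rintro u ⟨j, h⟩
  exact ⟨j, mem_univ j, h⟩

/-- constant of a local map: sum over the addresses of `m ^ length` -/
def LMap.wt {Gen Pub Γ Δ : Type} (A : LMap Gen Pub Γ Δ) (m : ℕ) : ℝ :=
  ∑ i : A.ι, (m : ℝ) ^ (A.adr i).length

/-- Lipschitz bound: the Kleene value agrees with the value on the word up to `wt * dist` -/
theorem LMap.krun_dist {Gen Pub Γ Δ : Type} [Nonempty Γ] (A : LMap Gen Pub Γ Δ)
    (F : Frame Gen Pub) [Fintype F.U] (m : ℕ)
    (hm : ∀ (g : Gen) (v : F.U), (by classical exact
      (univ.filter fun u => F.act g u = v).card) ≤ m)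
    (X : F.U → Option Γ) (w : F.U → Γ) :
    DefD.dist (A.krun F X) (A.run F w) ≤ A.wt m * DefD.dist X w := by
  have h1 : DefD.dist (A.krun F X) (A.run F w) ≤
      frac (fun u => ∃ i, X (F.go (A.adr i) u) ≠ some (w (F.go (A.adr i) u))) := by
    unfold DefD.dist
    apply frac_mono
    intro u hu
    by_contra hne
    push Not at hne
    exact hu (A.krun_of_readable F X w u hne)
  refine h1.trans ((frac_sum_le _).trans ?_)
  rw [LMap.wt, Finset.sum_mul]
  apply sum_le_sum
  intro i _
  exact frac_go_le F m hm (fun v => X v ≠ some (w v)) (A.adr i)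

/-- the same with an arbitrary target word that agrees with the rule up to `γ` -/
theorem LMap.krun_dist' {Gen Pub Γ Δ : Type} [Nonempty Γ] (A : LMap Gen Pub Γ Δ)
    (F : Frame Gen Pub) [Fintype F.U] (m : ℕ)
    (hm : ∀ (g : Gen) (v : F.U), (by classical exact
      (univ.filter fun u => F.act g u = v).card) ≤ m)
    (X : F.U → Option Γ) (w : F.U → Γ) (w' : F.U → Δ) (γ : ℝ)
    (hγ : frac (fun u => A.run F w u ≠ w' u) ≤ γ) :
    DefD.dist (A.krun F X) w' ≤ A.wt m * DefD.dist X w + γ := by
  refine le_trans ?_ (add_le_add (A.krun_dist F m hm X w) hγ)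
  refine le_trans ?_ (frac_or_le _ _)
  unfold DefD.dist
  apply frac_mono
  intro u hu
  by_cases h : A.krun F X u = some (A.run F w u)
  · right
    intro h'
    exact hu (h.trans (congrArg some h'))
  · exact Or.inl h

/-! ### conversion to `DefD.LRules` -/

/-- four local maps on labels of `l` bits with `r` public bits -/
structure Rules (Gen : Type) (l r : ℕ) where
  corr : LMap Gen (Fin r → Bool) (Fin l → Bool) (Fin l → Bool)
  Nu : LMap Gen (Fin r → Bool) (Fin l → Bool) (Fin l → Bool)
  Mu : LMap Gen (Fin r → Bool) (Fin l → Bool) (Fin l → Bool)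
  viol : LMap Gen (Fin r → Bool) (Fin l → Bool) Bool

namespace Rules
variable {Gen : Type} {l r : ℕ}

/-- all addresses -/
abbrev Idx (R : Rules Gen l r) : Type := (R.corr.ι ⊕ R.Nu.ι) ⊕ (R.Mu.ι ⊕ R.viol.ι)

/-- number of neighbours -/
def k (R : Rules Gen l r) : ℕ := Fintype.card R.Idx

/-- enumeration of the addresses -/
noncomputable def e (R : Rules Gen l r) : R.Idx ≃ Fin R.k := Fintype.equivFin _

/-- address word of the `i`-th neighbour -/
noncomputable def adr (R : Rules Gen l r) (i : Fin R.k) : List Gen :=
  Sum.elim (Sum.elim R.corr.adr R.Nu.adr) (Sum.elim R.Mu.adr R.viol.adr) (R.e.symm i)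

/-- neighbour table -/
noncomputable def nb (R : Rules Gen l r) (F : Frame Gen (Fin r → Bool)) (i : Fin R.k) (u : F.U) :
    F.U := F.go (R.adr i) u

/-- public bits: the public bits of all neighbours -/
noncomputable def pub (R : Rules Gen l r) (F : Frame Gen (Fin r → Bool)) (u : F.U)
    (p : Fin (R.k * r)) : Bool :=
  F.pub (R.nb F (finProdFinEquiv.symm p).1 u) (finProdFinEquiv.symm p).2

/-- public bits of the `i`-th neighbour -/
def sel (R : Rules Gen l r) (pb : Fin (R.k * r) → Bool) (i : Fin R.k) : Fin r → Bool :=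
  fun j => pb (finProdFinEquiv (i, j))

theorem sel_pub (R : Rules Gen l r) (F : Frame Gen (Fin r → Bool)) (u : F.U) (i : Fin R.k) :
    R.sel (R.pub F u) i = F.pub (R.nb F i u) := by
  funext j
  simp [sel, pub]

/-- **the uniform finite rule** -/
noncomputable def toLRules (R : Rules Gen l r) : LRules R.k l (R.k * r) where
  corr := fun x pb => R.corr.f (fun i => x (R.e (Sum.inl (Sum.inl i))))
    (fun i => R.sel pb (R.e (Sum.inl (Sum.inl i))))
  Nu := fun x pb => R.Nu.f (fun i => x (R.e (Sum.inl (Sum.inr i))))
    (fun i => R.sel pb (R.e (Sum.inl (Sum.inr i))))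
  Mu := fun x pb => R.Mu.f (fun i => x (R.e (Sum.inr (Sum.inl i))))
    (fun i => R.sel pb (R.e (Sum.inr (Sum.inl i))))
  viol := fun x pb => R.viol.f (fun i => x (R.e (Sum.inr (Sum.inr i))))
    (fun i => R.sel pb (R.e (Sum.inr (Sum.inr i))))

theorem klift_eq_some_iff {U β : Type} {k l r : ℕ}
    (f : (Fin k → Fin l → Bool) → (Fin r → Bool) → β) (nb : Fin k → U → U)
    (pub : U → Fin r → Bool) (X : U → Option (Fin l → Bool)) (u : U) (g : β) :
    klift f nb pub X u = some g ↔
      ∀ x : Fin k → Fin l → Bool, (∀ i y, X (nb i u) = some y → x i = y) → f x (pub u) = g := by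
  classical
  unfold klift
  constructor
  · intro h
    split_ifs at h with h1
    have h2 := h1.choose_spec
    rw [Option.some.injEq] at h
    rw [← h]
    exact h2
  · intro h
    have h1 : ∃ g : β, ∀ x : Fin k → Fin l → Bool,
      (∀ i y, X (nb i u) = some y → x i = y) → f x (pub u) = g := ⟨g, h⟩
    rw [dif_pos h1, Option.some.injEq]
    have hx : ∀ i y, X (nb i u) = some y →
        (fun i => (X (nb i u)).getD fun _ => false) i = y := fun i y hy => by simp [hy]
    rw [← h _ hx, h1.choose_spec _ hx]

/-- general transfer: a rule that reads the neighbours `c i` only -/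
theorem klift_eq_krun (R : Rules Gen l r) (F : Frame Gen (Fin r → Bool)) {β : Type}
    (A : LMap Gen (Fin r → Bool) (Fin l → Bool) β) (c : A.ι → Fin R.k)
    (hinj : Function.Injective c) (hc : ∀ i, R.adr (c i) = A.adr i)
    (X : F.U → Option (Fin l → Bool)) (u : F.U) :
    klift (fun x pb => A.f (fun i => x (c i)) (fun i => R.sel pb (c i))) (R.nb F) (R.pub F) X u =
      A.krun F X u := by
  classical
  apply Option.ext
  intro g
  rw [klift_eq_some_iff, LMap.krun_eq_some_iff]
  have hp : (fun i => R.sel (R.pub F u) (c i)) = fun i => F.pub (F.go (A.adr i) u) := by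
    funext i
    rw [sel_pub]
    unfold nb
    rw [hc]
  rw [hp]
  constructor
  · intro H x hx
    have h1 := H (fun j => if h : ∃ i, c i = j then x h.choose
      else (X (R.nb F j u)).getD fun _ => false) (by
        intro j y hy
        by_cases h : ∃ i, c i = j
        · simp only [dif_pos h]
          apply hx
          rw [← hc h.choose, h.choose_spec]
          exact hy
        · simp only [dif_neg h]
          rw [hy]; rfl)
    rw [← h1]
    congr 1
    funext i
    have h2 : ∃ i', c i' = c i := ⟨i, rfl⟩
    simp only [dif_pos h2]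
    rw [hinj h2.choose_spec]
  · intro H x hx
    apply H
    intro i y hy
    apply hx
    unfold nb
    rw [hc]
    exact hy

theorem klift_corr (R : Rules Gen l r) (F : Frame Gen (Fin r → Bool))
    (X : F.U → Option (Fin l → Bool)) (u : F.U) :
    klift R.toLRules.corr (R.nb F) (R.pub F) X u = R.corr.krun F X u :=
  R.klift_eq_krun F R.corr (fun i => R.e (Sum.inl (Sum.inl i)))
    (fun a b h => by simpa using h) (fun i => by simp [adr]) X u

theorem klift_Nu (R : Rules Gen l r) (F : Frame Gen (Fin r → Bool))
    (X : F.U → Option (Fin l → Bool)) (u : F.U) :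
    klift R.toLRules.Nu (R.nb F) (R.pub F) X u = R.Nu.krun F X u :=
  R.klift_eq_krun F R.Nu (fun i => R.e (Sum.inl (Sum.inr i)))
    (fun a b h => by simpa using h) (fun i => by simp [adr]) X u

theorem klift_Mu (R : Rules Gen l r) (F : Frame Gen (Fin r → Bool))
    (X : F.U → Option (Fin l → Bool)) (u : F.U) :
    klift R.toLRules.Mu (R.nb F) (R.pub F) X u = R.Mu.krun F X u :=
  R.klift_eq_krun F R.Mu (fun i => R.e (Sum.inr (Sum.inl i)))
    (fun a b h => by simpa using h) (fun i => by simp [adr]) X u

/-- the violation flag: some neighbour is unreadable, or the test fails -/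
theorem viol_iff (R : Rules Gen l r) (F : Frame Gen (Fin r → Bool))
    (X : F.U → Option (Fin l → Bool)) (u : F.U) :
    (lift R.toLRules.viol (R.nb F) (R.pub F) X u).getD true = true ↔
      (∃ i, X (R.nb F i u) = none) ∨
        ∃ w : F.U → Fin l → Bool, (∀ i, X (R.nb F i u) = some (w (R.nb F i u))) ∧
          R.viol.run F w u = true := by
  classical
  unfold lift
  by_cases h : ∃ x : Fin R.k → Fin l → Bool, ∀ i, X (R.nb F i u) = some (x i)
  · rw [dif_pos h]
    have h1 := h.choose_spec
    have hne : ¬ ∃ i, X (R.nb F i u) = none := by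
      rintro ⟨i, hi⟩
      rw [h1 i] at hi
      exact Option.some_ne_none _ hi
    have hrun : ∀ w : F.U → Fin l → Bool, (∀ i, X (R.nb F i u) = some (w (R.nb F i u))) →
        R.toLRules.viol h.choose (R.pub F u) = R.viol.run F w u := by
      intro w hw
      have h2 : ∀ i, h.choose i = w (R.nb F i u) := by
        intro i
        have := h1 i
        rw [hw i] at this
        exact (Option.some.inj this).symm
      show R.viol.f _ _ = R.viol.f _ _
      have hadr : ∀ i, R.nb F (R.e (Sum.inr (Sum.inr i))) u = F.go (R.viol.adr i) u := by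
        intro i
        unfold nb adr
        simp
      congr 1
      · funext i
        rw [h2, hadr]
      · funext i
        rw [sel_pub, hadr]
    constructor
    · intro hv
      right
      have h3 : ∀ i, X (R.nb F i u) = some ((fun v => (X v).getD fun _ => false) (R.nb F i u)) := by
        intro i
        simp only [h1 i, Option.getD_some]
      refine ⟨fun v => (X v).getD fun _ => false, h3, ?_⟩
      rw [← hrun _ h3]
      simpa using hv
    · rintro (h' | ⟨w, hw, hv⟩)
      · exact absurd h' hne
      · rw [Option.getD_some, hrun w hw, hv]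
  · rw [dif_neg h]
    have : ∃ i, X (R.nb F i u) = none := by
      by_contra hne
      apply h
      push Not at hne
      refine ⟨fun i => (X (R.nb F i u)).getD fun _ => false, fun i => ?_⟩
      obtain ⟨y, hy⟩ := Option.ne_none_iff_exists'.1 (hne i)
      simp only [hy, Option.getD_some]
    simp [this]

end Rules

end Crest.Agent.R289.Local782
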