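import Mathlib
import Crest.Agent.R289.DefC_143
import Crest.Agent.R289.Compile_827
import Crest.Agent.R289.Level_492
import Crest.Agent.R289.Mirror_545
import Crest.Agent.R289.Local_782

/-!
# Row 289, joint I2: label alphabet, words and local rules of the compiled machine (definitions)

* `Cst K` : absolute constants (content machine `A : PMach K G`, symbol sets `S`, `S'` of a P-unit
  and a T-unit, cascade coefficients `lam`, mirror coefficients `bet`, clock alphabet `Ck`).
* `Ins c` : one instance (unit sets `Γ`, `T`, moves, public words, clock words).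
* exact words: `XW` (stage + register words on `Γ × S`), `AW` (bundles of P-words), `ZW` (record and
  mirror words on `T × S'`), `Q`, `push`, `pop`, `ent`, `Rec`, `St`, `En`, `Bk`.
* `Bank`, `Lab` : labels of the units `Γ × T`; `labE` : label word of a `Compile827.Conf`.
-/

set_option autoImplicit false

namespace Crest.Agent.R289.DefI

open Finset DefC Compile827

/-- absolute constants -/
structure Cst (K : Type) [Field K] where
  G : Type
  A : PMach K G
  S : Type
  s0 : S
  S' : Type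
  s0' : S'
  r : ℕ
  Jc : Type
  lam : Jc → Fin (r + 1) → Fin (r + 1) → K
  J1 : Type
  J2 : Type
  JT : Type
  [fG : Fintype G]
  [fReg : Fintype A.Reg]
  [fPub : Fintype A.Pub]
  [fComp : Fintype A.Comp]
  [fIdl : Fintype A.Idl]
  [fStg : Fintype A.Stg]
  [fTr : Fintype A.Tr]
  [fS : Fintype S]
  [dS : DecidableEq S]
  [fS' : Fintype S']
  [dS' : DecidableEq S']
  [fJc : Fintype Jc]
  [fJ1 : Fintype J1]
  [fJ2 : Fintype J2]
  [fJT : Fintype JT]
  bet : {s : S' // s ≠ s0'} → S' → JT → K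

attribute [instance] Cst.fG Cst.fReg Cst.fPub Cst.fComp Cst.fIdl Cst.fStg Cst.fTr Cst.fS Cst.dS
  Cst.fS' Cst.dS' Cst.fJc Cst.fJ1 Cst.fJ2 Cst.fJT

namespace Cst
variable {K : Type} [Field K] (c : Cst K)

/-- index of the mirror words -/
abbrev C : Type := {s : c.S' // s ≠ c.s0'}

/-- values of the bundles (cascade index, component) -/
abbrev V : Type := Fin (c.r + 1) → c.A.Comp → K

/-- data that depend on the clock value and on the T-unit: flags `t = 0`, `t = L`, the words
`D_t`, `D_(t-1)`, `D_(t+1)`, the push tables `A_t`, `B_t`, the pop tables `A_(t-1)`, `B_(t-1)` -/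
structure TD where
  fst : Bool
  lst : Bool
  D : c.S' → K
  Dm : c.S' → K
  Dp : c.S' → K
  A : c.C → c.S' → K
  B : c.C → c.S' → K
  Am : c.C → c.S' → K
  Bm : c.C → c.S' → K

/-- public data of a unit -/
structure PD where
  /-- public P-words -/
  b : c.A.Pub → c.S → K
  /-- start registers -/
  x0 : c.A.Reg → c.S → K
  /-- word of `V_T` with content 1 -/
  one : c.S' → K
  E1 : c.J1 → c.S' → K
  E2 : c.J2 → c.S' → K
  D0 : c.S' → K
  A0 : c.C → c.S' → K
  B0 : c.C → c.S' → K
  /-- the clock data at `t = L` -/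
  tdL : c.TD

/-- moves -/
inductive Gen (Gc : Type) : Type
  | fwd : c.G → Gen Gc
  | bwd : c.G → Gen Gc
  | cas : c.Jc → Gen Gc
  | t1 : c.J1 → Gen Gc
  | t2 : c.J2 → Gen Gc
  | tm : c.JT → Gen Gc
  | ck : Gc → Gen Gc

/-- part of a label belonging to one bank -/
@[ext] structure Bank where
  stg : c.A.Stg
  R : c.A.Reg → c.S → K
  X : c.S' → c.S → c.V
  Xm : c.S' → c.S → c.V
  Z : c.C → c.S' → c.S → c.V
  Zm : c.C → c.S' → c.S → c.V

/-- labels; `Ck` = clock symbols -/
@[ext] structure Lab (Ck : Type) where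
  l : Letter c.A.Tr
  ck : Ck
  b1 : c.Bank
  b2 : c.Bank

end Cst

/-- one instance (without the clock) -/
structure Ins {K : Type} [Field K] (c : Cst K) where
  Γ : Type
  T : Type
  [fΓ : Fintype Γ]
  [dΓ : DecidableEq Γ]
  [fT : Fintype T]
  [dT : DecidableEq T]
  [gT : Group T]
  act : c.G → Equiv.Perm Γ
  mv : c.Jc → Equiv.Perm Γ
  pubP : c.A.Pub → Γ × c.S → K
  stg0 : c.A.Stg
  stgz : c.A.Stg
  x0 : c.A.Reg → Γ × c.S → K
  h1 : c.J1 → T
  h2 : c.J2 → T
  gam : c.JT → T
  one : T × c.S' → K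
  E1 : c.J1 → T × c.S' → K
  E2 : c.J2 → T × c.S' → K
  L : ℕ
  D : ℕ → T × c.S' → K
  A : ℕ → c.C → T × c.S' → K
  B : ℕ → c.C → T × c.S' → K
  A0 : c.C → T × c.S' → K
  B0 : c.C → T × c.S' → K

attribute [instance] Ins.fΓ Ins.dΓ Ins.fT Ins.dT Ins.gT

namespace Ins
variable {K : Type} [Field K] {c : Cst K} (I : Ins c)

/-- points of the P-side -/
abbrev Om : Type := I.Γ × c.S

/-- points of the T-side -/
abbrev n : Type := I.T × c.S'

/-- bundles of P-side words -/
abbrev AW : Type := I.Om → c.V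

/-- content words of a bank: stage and registers -/
abbrev XW : Type := c.A.Stg × (c.A.Reg → I.Om → K)

/-- certificate words of a bank: record, previous record, mirror words of both residuals -/
@[ext] structure ZW where
  X : I.n → I.AW
  Xm : I.n → I.AW
  Z : c.C → I.n → I.AW
  Zm : c.C → I.n → I.AW

/-- P-side permutation acting on points -/
def pm (e : Equiv.Perm I.Γ) : Equiv.Perm I.Om := Equiv.prodCongr e (Equiv.refl _)

/-- word value of an expression -/
def evalW (e : PE K c.A.Reg c.A.Pub c.G) (x : c.A.Reg → I.Om → K) : I.Om → K :=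
  e.evalC (fun g => I.pm (I.act g)) I.pubP x

/-- vector of all components (in the first place of the cascade index) -/
def wv (x : c.A.Reg → I.Om → K) : I.AW := fun ω a m =>
  if a = 0 then I.evalW (c.A.comp m) x ω else 0

/-- the cascade operator -/
def Lam : I.AW →ₗ[K] I.AW where
  toFun y := fun ω a m => ∑ j, ∑ b, c.lam j a b * y (I.pm (I.mv j) ω) b m
  map_add' y z := by
    funext ω a m
    simp only [Pi.add_apply, mul_add, sum_add_distrib]
  map_smul' k y := by
    funext ω a m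
    simp only [Pi.smul_apply, smul_eq_mul, RingHom.id_apply, mul_sum]
    exact sum_congr rfl fun j _ => sum_congr rfl fun b _ => by ring

/-- T-side operators as matrices -/
def mU : Matrix I.n I.n K := Matrix.diagonal I.one

def mN1 : Matrix I.n I.n K := fun p q =>
  ∑ j, if q = (I.h1 j * p.1, p.2) then I.E1 j p else 0

def mN2 : Matrix I.n I.n K := fun p q =>
  ∑ j, if q = (I.h2 j * p.1, p.2) then I.E2 j p else 0

/-- `D_(t-1)` -/
def Dm (t : ℕ) : I.n → K := Level492.Dm I.D t

/-- residual word of the record `X` of `w` at the clock word `E` -/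
def Q (w : I.AW) (E : I.n → K) (X : I.n → I.AW) : I.n → I.AW :=
  Level492.Q I.Lam I.mU I.mN1 I.mN2 w E X

/-- mirror relation between words of the T-side -/
def Mir (q : I.n → I.AW) (U : c.C → I.n → I.AW) : Prop :=
  Mirror545.MirRel c.s0' c.bet I.gam (fun τ s' => q (τ, s')) (fun s τ s' => U s (τ, s'))

/-- the mirror relation for scalar words (used for the public tables) -/
def MirK (q : I.n → K) (U : c.C → I.n → K) : Prop :=
  Mirror545.MirRel c.s0' c.bet I.gam (fun τ s' => q (τ, s')) (fun s τ s' => U s (τ, s'))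

/-- pointwise relations of a certificate of depth `t` -/
def Rec (t : ℕ) (x : I.XW) (z : I.ZW) : Prop :=
  I.Mir (I.Q (I.wv x.2) (I.D t) z.X) z.Z ∧
  I.Mir (I.Q (I.wv x.2) (I.Dm t) z.Xm) z.Zm ∧
  (∀ τ, I.Q (I.wv x.2) (I.D t) z.X (τ, c.s0') = 0) ∧
  (∀ τ, I.Q (I.wv x.2) (I.Dm t) z.Xm (τ, c.s0') = 0) ∧
  (∀ s τ, z.Z s (τ, c.s0') = 0) ∧
  (∀ s τ, z.Zm s (τ, c.s0') = 0)

/-- pure tensor `w ⊗ D` -/
def ten (E : I.n → K) (w : I.AW) : I.n → I.AW := Level492.ten E w

/-- push from depth `t` to depth `t + 1` -/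
def push (t : ℕ) (x : I.XW) (z : I.ZW) : I.ZW where
  X := fun p => I.Lam (z.X p) + z.Xm p + I.ten (I.D (t + 1)) (I.wv x.2) p
  Xm := z.X
  Z := fun s p => I.Lam (z.Z s p) + z.Zm s p + I.ten (I.A t s) (I.Lam (I.wv x.2)) p
    + I.ten (I.B t s) (I.wv x.2) p
  Zm := z.Z

/-- pop from depth `t + 1` to depth `t` -/
def pop (t : ℕ) (x : I.XW) (z : I.ZW) : I.ZW where
  X := z.Xm
  Xm := fun p => z.X p - I.Lam (z.Xm p) - I.ten (I.D (t + 1)) (I.wv x.2) p
  Z := z.Zm
  Zm := fun s p => z.Z s p - I.Lam (z.Zm s p) - I.ten (I.A t s) (I.Lam (I.wv x.2)) p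
    - I.ten (I.B t s) (I.wv x.2) p

/-- certificate of depth `0` -/
def ent (x : I.XW) : I.ZW where
  X := I.ten (I.D 0) (I.wv x.2)
  Xm := 0
  Z := fun s p => I.ten (I.A0 s) (I.Lam (I.wv x.2)) p + I.ten (I.B0 s) (I.wv x.2) p
  Zm := 0

/-- blank certificate -/
def zz : I.ZW := ⟨0, 0, 0, 0⟩

/-- blank content word -/
def xz : I.XW := (I.stgz, 0)

/-- start content word -/
def xs : I.XW := (I.stg0, I.x0)

/-- component `m` is shown to vanish by the full record -/
def CZ (z : I.ZW) (m : c.A.Comp) : Prop := ∀ p g a, z.X p (g, c.s0) a m = 0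

/-- identity `i` holds -/
def IZ (x : I.XW) (i : c.A.Idl) : Prop := ∀ ω, I.evalW (c.A.idl i) x.2 ω = 0

/-- static zero claims of a full bank -/
def St (x : I.XW) (z : I.ZW) : Prop :=
  (∀ m, c.A.leg x.1 m → I.CZ z m) ∧ ∀ i, c.A.legI x.1 i → I.IZ x i

/-- zero claims of the label `ρ`, forward -/
def En (ρ : c.A.Tr) (x : I.XW) (z : I.ZW) : Prop :=
  x.1 = c.A.src ρ ∧ (∀ m, c.A.en ρ m → I.CZ z m) ∧ ∀ i, c.A.enI ρ i → I.IZ x i

/-- zero claims of the label `ρ`, backward -/
def Bk (ρ : c.A.Tr) (x : I.XW) (z : I.ZW) : Prop :=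
  x.1 = c.A.tgt ρ ∧ (∀ m, c.A.bk ρ m → I.CZ z m) ∧ ∀ i, c.A.bkI ρ i → I.IZ x i

/-- update of the content words -/
def up (ρ : c.A.Tr) (x : I.XW) : I.XW := (c.A.tgt ρ, fun i => I.evalW (c.A.up ρ i) x.2)

def dn (ρ : c.A.Tr) (x : I.XW) : I.XW := (c.A.src ρ, fun i => I.evalW (c.A.dn ρ i) x.2)

/-- contents of the register words -/
def con (x : I.XW) : c.A.Reg → I.Γ → K := fun i g => x.2 i (g, c.s0)

/-- contents of the public words -/
def pubC (b : c.A.Pub) (g : I.Γ) : K := I.pubP b (g, c.s0)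

/-! ### label words -/

/-- units -/
abbrev U : Type := I.Γ × I.T

/-- bank part of the label word -/
def bankE (x : I.XW) (z : I.ZW) (u : I.U) : c.Bank where
  stg := x.1
  R := fun i s => x.2 i (u.1, s)
  X := fun s' s => z.X (u.2, s') (u.1, s)
  Xm := fun s' s => z.Xm (u.2, s') (u.1, s)
  Z := fun q s' s => z.Z q (u.2, s') (u.1, s)
  Zm := fun q s' s => z.Zm q (u.2, s') (u.1, s)

/-- label word of a configuration; `cw t` = clock word of the value `t` -/
def labE {Ck : Type} (cw : ℕ → I.U → Ck) (f : Conf I.XW I.ZW c.A.Tr) (u : I.U) : c.Lab Ck where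
  l := f.l
  ck := cw f.t u
  b1 := I.bankE f.x1 f.z1 u
  b2 := I.bankE f.x2 f.z2 u

/-- clock data of the value `t` at the T-unit `τ` -/
def td (t : ℕ) (τ : I.T) : c.TD where
  fst := decide (t = 0)
  lst := decide (t = I.L)
  D := fun s' => I.D t (τ, s')
  Dm := fun s' => I.Dm t (τ, s')
  Dp := fun s' => I.D (t + 1) (τ, s')
  A := fun s s' => I.A t s (τ, s')
  B := fun s s' => I.B t s (τ, s')
  Am := fun s s' => I.A (t - 1) s (τ, s')
  Bm := fun s s' => I.B (t - 1) s (τ, s')

/-- public data of a unit -/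
def pd (u : I.U) : c.PD where
  b := fun b s => I.pubP b (u.1, s)
  x0 := fun i s => I.x0 i (u.1, s)
  one := fun s' => I.one (u.2, s')
  E1 := fun j s' => I.E1 j (u.2, s')
  E2 := fun j s' => I.E2 j (u.2, s')
  D0 := fun s' => I.D 0 (u.2, s')
  A0 := fun s s' => I.A0 s (u.2, s')
  B0 := fun s s' => I.B0 s (u.2, s')
  tdL := I.td I.L u.2

/-- the frame of the units; `mc` = clock moves, `pc` = public data of the clock -/
def frame {Gc Pc : Type} (mc : Gc → I.U → I.U) (pc : I.U → Pc) :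
    Local782.Frame (c.Gen Gc) (c.PD × Pc) where
  U := I.U
  act
    | .fwd g, u => (I.act g u.1, u.2)
    | .bwd g, u => ((I.act g).symm u.1, u.2)
    | .cas j, u => (I.mv j u.1, u.2)
    | .t1 j, u => (u.1, I.h1 j * u.2)
    | .t2 j, u => (u.1, I.h2 j * u.2)
    | .tm j, u => (u.1, (I.gam j)⁻¹ * u.2)
    | .ck g, u => mc g u
  pub := fun u => (I.pd u, pc u)

end Ins

end Crest.Agent.R289.DefI
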