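import Crest.Agent.R289.LU_846
import Crest.Agent.R289.LUb_443

/-!
Row 289, seam B/C (helper443): exits and small constructions for the official structure
`LU846.LU` of LU_846:

* `toCAx`        : a bundle of registers of one type is a `Word508.CAx`;
* `mono`         : change of constants;
* `comp`, `iter` : iterated correction;
* `rep`          : constant words on an expander.
-/

set_option autoImplicit false
set_option linter.unusedSectionVars false

namespace Crest.Agent.R289.LUc443

open Finset Crest.Agent.R289.DefD Crest.Agent.R289.Word508 Crest.Agent.R289.LU846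
open Crest.Agent.R289.LUb443 (rules bun nbMult_mono nbMult_comp Slots nbIt crIt MixU repC repN repNb
  maj rep_sound maj_bad maj_eq)

variable {K : Type} [Field K] {U S ι ι' ι'' : Type} [Fintype U] {C : Submodule K (U → S → K)}
  {nb : ι → U → U} {N : Submodule K (ι → S → K)} {nb' : ι' → U → U} {nb'' : ι'' → U → U}
  {cr : (ι' → S → K) → S → K} {cr' : (ι'' → S → K) → S → K}
  {m m' m'' zs r0 d0 c θ : ℝ}

/-- change of constants -/
theorem mono (h : LU C nb N nb' cr m m' zs r0 d0 c θ) {m₁ m₁' zs₁ r0₁ d0₁ c₁ θ₁ : ℝ}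
    (hm : m ≤ m₁) (hm' : m' ≤ m₁') (hz : zs₁ ≤ zs) (hr : r0₁ ≤ r0) (hd : d0₁ ≤ d0) (hc : c ≤ c₁)
    (hθ : θ ≤ θ₁) : LU C nb N nb' cr m₁ m₁' zs₁ r0₁ d0₁ c₁ θ₁ where
  mult := nbMult_mono h.mult hm
  mult' := nbMult_mono h.mult' hm'
  mem := h.mem
  sep w hw hne := hd.trans (h.sep w hw hne)
  sound β _ X hX := by
    obtain ⟨Y, hY, hd⟩ := h.sound β X (hX.trans hz)
    exact ⟨Y, hY, hd.trans (mul_le_mul_of_nonneg_right hc (frac_nonneg _))⟩
  corr E hE := by
    obtain ⟨B, hB, hcor⟩ := h.corr E (hE.trans hr)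
    exact ⟨B, hB.trans (mul_le_mul_of_nonneg_right hθ (frac_nonneg _)), hcor⟩

/-- **exit**: a bundle of registers is a `CAx` -/
theorem toCAx (h : LU C nb N nb' cr m m' zs r0 d0 c θ) (κ P : Type) [Fintype κ] (pub : U → P) :
    CAx (rules N cr κ P) (Sum.elim nb nb') pub (bun C κ) (max m m') zs r0 d0 c θ where
  mult := by
    intro i E
    cases i with
    | inl i =>
      exact (h.mult i E).trans (mul_le_mul_of_nonneg_right (le_max_left _ _) (frac_nonneg _))
    | inr i =>
      exact (h.mult' i E).trans (mul_le_mul_of_nonneg_right (le_max_right _ _) (frac_nonneg _))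
  sep := by
    intro v hv w hw hne
    have : ∃ b, (fun u s => v u s b) ≠ fun u s => w u s b := by
      by_contra hc
      push Not at hc
      apply hne
      funext u s b
      exact congrFun (congrFun (hc b) u) s
    obtain ⟨b, hb⟩ := this
    have h1 := h.sep ((fun u s => v u s b) - fun u s => w u s b) (C.sub_mem (hv b) (hw b))
      (sub_ne_zero.2 hb)
    refine h1.trans (frac_mono fun u hu he => hu ?_)
    simp only [Pi.sub_apply]
    rw [he, sub_self]
  sound := by
    intro X hX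
    obtain ⟨Y, hY, hd⟩ := h.sound κ X hX
    exact ⟨Y, hY, hd⟩
  compl := by
    rintro w hw u ⟨b, hb⟩
    exact hb ((h.mem _).1 (hw b) u)
  corr := by
    intro w hw E hE
    obtain ⟨B, hB, hcor⟩ := h.corr E hE
    refine le_trans (frac_mono ?_) hB
    rintro u ⟨x, hx, hne⟩
    by_contra hu
    apply hne
    funext s b
    have h1 := hcor _ (hw b) u hu (fun i s' => x (Sum.inr i) s' b) (fun i hi => by
      funext s'
      have := hx (Sum.inr i) hi
      exact congrFun (congrFun this s') b)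
    exact congrFun h1 s

/-- two corrections, one after the other -/
theorem comp {r0' θ' r1 : ℝ} {ms zs' c' d0' : ℝ} (h : LU C nb N nb' cr m m' zs r0 d0 c θ)
    (h' : LU C nb N nb'' cr' ms m'' zs' r0' d0' c' θ') (hm : 0 ≤ m') (hθ : 0 ≤ θ)
    (hr : θ' * r1 ≤ r0) (hθ' : 0 ≤ θ') (hr1 : r1 ≤ r0') :
    LU C nb N (fun (i : ι' × ι'') u => nb'' i.2 (nb' i.1 u))
      (fun x => cr fun i => cr' fun j => x (i, j)) m (m' * m'') zs r1 d0 c (θ * θ') where
  mem := h.mem
  sep := h.sep
  sound := h.sound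
  mult := h.mult
  mult' := nbMult_comp h.mult' h'.mult' hm
  corr := by
    intro E hE
    obtain ⟨B1, hB1, hc1⟩ := h'.corr E (hE.trans hr1)
    have hb : frac B1 ≤ r0 :=
      hB1.trans ((mul_le_mul_of_nonneg_left hE hθ').trans hr)
    obtain ⟨B2, hB2, hc2⟩ := h.corr B1 hb
    refine ⟨B2, ?_, ?_⟩
    · calc frac B2 ≤ θ * frac B1 := hB2
        _ ≤ θ * (θ' * frac E) := mul_le_mul_of_nonneg_left hB1 hθ
        _ = _ := by ring
    · intro w hw u hu x hx
      refine hc2 w hw u hu _ fun i hi => ?_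
      exact hc1 w hw _ hi _ fun j hj => hx (i, j) hj

/-- `r + 1` rounds of correction: factor `θ ^ (r + 1)`, slots `Slots ι' r` -/
theorem iter (h : LU C nb N nb' cr m m' zs r0 d0 c θ) (hm : 0 ≤ m') (hθ : 0 ≤ θ)
    (hθ1 : θ ≤ 1) (hr0 : 0 ≤ r0) (r : ℕ) :
    LU C nb N (nbIt nb' r) (crIt cr r) m (m' ^ (r + 1)) zs r0 d0 c (θ ^ (r + 1)) := by
  induction r with
  | zero =>
    simp only [zero_add, pow_one]
    exact h
  | succ r ih =>
    have h1 := comp h ih hm hθ
      (by
        have : θ ^ (r + 1) ≤ 1 := pow_le_one₀ hθ hθ1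
        nlinarith : θ ^ (r + 1) * r0 ≤ r0) (by positivity) le_rfl
    rw [pow_succ' m', pow_succ' θ]
    exact h1

/-- **the repetition code** on an expander: constant `3`, no threshold -/
theorem rep (K : Type) [Field K] {U ι : Type} (S : Type) [Fintype U] [Fintype ι] [Nonempty U]
    [Nonempty ι] {ga : ι → U → U} {lam r0 θ : ℝ}
    (h : MixU ga lam) (hl : lam ^ 2 ≤ 1 / 8) (hinj : ∀ i, Function.Injective (ga i))
    (hth : 4 * (r0 + lam ^ 2) ≤ θ) (zs : ℝ) :
    LU (repC U S K) (repNb ga) (repN ι S K) ga maj 1 1 zs r0 1 3 θ :=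
  have h0 := LUb443.LU.rep (K := K) (Lam := S) h hl hinj hth zs
  { mult := h0.mult
    mult' := h0.mult'
    mem := h0.mem
    sep := h0.sep
    sound := h0.sound
    corr := h0.corr }

end Crest.Agent.R289.LUc443
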