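import Crest.Agent.R289.RegCAx_335
import Crest.Agent.R289.LUc_443
import Crest.Agent.R289.DefI_306

/-!
Row 289, joint I2/I4 (helper335): the register tuple of the label `DefI.Cst.Lab` as one `CAx`.

Five kinds of registers: control letter (letter and both stages, constant words), clock, content
registers of both banks (P-only words), record words, mirror words.
-/

set_option autoImplicit false
set_option linter.unusedSectionVars false

namespace Crest.Agent.R289.LabCAx335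

open Finset Crest.Agent.R289.DefD Crest.Agent.R289.Word508
open Crest.Agent.R289.LUb443 (rules bun MixU repC repN repNb)
open Crest.Agent.R289.DefI Crest.Agent.R289.Compile827 Crest.Agent.R289.RegCAx335

variable {K : Type} [Field K] (c : Cst K) (Ck : Type)

/-- kinds of registers -/
inductive K5 | lt | ck | rg | rx | rz
  deriving DecidableEq

instance : Fintype K5 := ⟨{.lt, .ck, .rg, .rx, .rz}, by intro k; cases k <;> decide⟩

theorem card_K5 : Fintype.card K5 = 5 := rfl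

/-- indices of the content registers of both banks -/
abbrev KR : Type := Bool × c.A.Reg
/-- indices of the record words (bank, current / previous, cascade index, component) -/
abbrev KX : Type := Bool × Bool × Fin (c.r + 1) × c.A.Comp
/-- indices of the mirror words -/
abbrev KZ : Type := Bool × Bool × c.C × Fin (c.r + 1) × c.A.Comp

/-- alphabets -/
def A5 : K5 → Type
  | .lt => Letter c.A.Tr × c.A.Stg × c.A.Stg
  | .ck => Ck
  | .rg => c.S × Unit → KR c → K
  | .rx => c.S × c.S' → KX c → K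
  | .rz => c.S × c.S' → KZ c → K

variable {c Ck}

/-- bank part of the label from the registers -/
def bank (a : ∀ j, A5 c Ck j) (b : Bool) : c.Bank where
  stg := if b then (show Letter c.A.Tr × c.A.Stg × c.A.Stg from a .lt).2.2
    else (show Letter c.A.Tr × c.A.Stg × c.A.Stg from a .lt).2.1
  R := fun i s => (show c.S × Unit → KR c → K from a .rg) (s, ()) (b, i)
  X := fun s' s f m => (show c.S × c.S' → KX c → K from a .rx) (s, s') (b, false, f, m)
  Xm := fun s' s f m => (show c.S × c.S' → KX c → K from a .rx) (s, s') (b, true, f, m)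
  Z := fun q s' s f m => (show c.S × c.S' → KZ c → K from a .rz) (s, s') (b, false, q, f, m)
  Zm := fun q s' s f m => (show c.S × c.S' → KZ c → K from a .rz) (s, s') (b, true, q, f, m)

/-- bank `b` of a label -/
def bk (w : c.Lab Ck) (b : Bool) : c.Bank := if b then w.b2 else w.b1

variable (c Ck)

/-- the label and its registers -/
def labEquiv : (∀ j, A5 c Ck j) ≃ c.Lab Ck where
  toFun a := ⟨(show Letter c.A.Tr × c.A.Stg × c.A.Stg from a .lt).1, a .ck, bank a false,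
    bank a true⟩
  invFun w := fun j => match j with
    | .lt => (w.l, w.b1.stg, w.b2.stg)
    | .ck => w.ck
    | .rg => fun s i => (bk w i.1).R i.2 s.1
    | .rx => fun s i => if i.2.1 then (bk w i.1).Xm s.2 s.1 i.2.2.1 i.2.2.2
        else (bk w i.1).X s.2 s.1 i.2.2.1 i.2.2.2
    | .rz => fun s i => if i.2.1 then (bk w i.1).Zm i.2.2.1 s.2 s.1 i.2.2.2.1 i.2.2.2.2
        else (bk w i.1).Z i.2.2.1 s.2 s.1 i.2.2.2.1 i.2.2.2.2
  left_inv a := by
    funext j
    cases j with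
    | lt => rfl
    | ck => rfl
    | rg =>
      funext s i
      obtain ⟨s, ⟨⟩⟩ := s
      obtain ⟨b, i⟩ := i
      cases b <;> rfl
    | rx =>
      funext s i
      obtain ⟨s, s'⟩ := s
      obtain ⟨b, b', f, m⟩ := i
      cases b <;> cases b' <;> rfl
    | rz =>
      funext s i
      obtain ⟨s, s'⟩ := s
      obtain ⟨b, b', q, f, m⟩ := i
      cases b <;> cases b' <;> rfl
  right_inv w := by
    obtain ⟨l, ck, b1, b2⟩ := w
    obtain ⟨s1, R1, X1, Xm1, Z1, Zm1⟩ := b1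
    obtain ⟨s2, R2, X2, Xm2, Z2, Zm2⟩ := b2
    rfl

variable {c Ck}

section main
variable {U : Type} [Fintype U]

/-- all registers are words of their codes -/
def labC (Cc : Set (U → Ck)) (CR : Submodule K (U → c.S × Unit → K))
    (CX CZ : Submodule K (U → c.S × c.S' → K)) : Set (U → c.Lab Ck) :=
  {w | (∃ l s1 s2, ∀ u, (w u).l = l ∧ (w u).b1.stg = s1 ∧ (w u).b2.stg = s2) ∧
    (fun u => (w u).ck) ∈ Cc ∧
    ∀ b, (∀ i, (fun u s => (bk (w u) b).R i s.1) ∈ CR) ∧
      (∀ f m, (fun u s => (bk (w u) b).X s.2 s.1 f m) ∈ CX) ∧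
      (∀ f m, (fun u s => (bk (w u) b).Xm s.2 s.1 f m) ∈ CX) ∧
      (∀ q f m, (fun u s => (bk (w u) b).Z q s.2 s.1 f m) ∈ CZ) ∧
      (∀ q f m, (fun u s => (bk (w u) b).Zm q s.2 s.1 f m) ∈ CZ)}

variable {ιl ιc ιR ιR' ιX ιX' ιZ ιZ' P : Type}

/-- slots -/
def I5 (ιl ιc ιR ιR' ιX ιX' ιZ ιZ' : Type) : K5 → Type
  | .lt => Option ιl
  | .ck => ιc
  | .rg => ιR ⊕ ιR'
  | .rx => ιX ⊕ ιX'
  | .rz => ιZ ⊕ ιZ'

/-- rules of the registers -/
noncomputable def R5 [Fintype ιl] [Nonempty (Letter c.A.Tr × c.A.Stg × c.A.Stg)]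
    (Rc : CRules ιc Ck P) (NR : Submodule K (ιR → c.S × Unit → K))
    (crR : (ιR' → c.S × Unit → K) → c.S × Unit → K)
    (NX : Submodule K (ιX → c.S × c.S' → K)) (crX : (ιX' → c.S × c.S' → K) → c.S × c.S' → K)
    (NZ : Submodule K (ιZ → c.S × c.S' → K)) (crZ : (ιZ' → c.S × c.S' → K) → c.S × c.S' → K) :
    ∀ j, CRules (I5 ιl ιc ιR ιR' ιX ιX' ιZ ιZ' j) (A5 c Ck j) P
  | .lt => letR ιl (Letter c.A.Tr × c.A.Stg × c.A.Stg) P
  | .ck => Rc
  | .rg => rules NR crR (KR c) P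
  | .rx => rules NX crX (KX c) P
  | .rz => rules NZ crZ (KZ c) P

/-- neighbours of the registers -/
def nb5 (gl : ιl → U → U) (nbc : ιc → U → U) (nbR : ιR → U → U) (nbR' : ιR' → U → U)
    (nbX : ιX → U → U) (nbX' : ιX' → U → U) (nbZ : ιZ → U → U) (nbZ' : ιZ' → U → U) :
    ∀ j, I5 ιl ιc ιR ιR' ιX ιX' ιZ ιZ' j → U → U
  | .lt => repNb gl
  | .ck => nbc
  | .rg => Sum.elim nbR nbR'
  | .rx => Sum.elim nbX nbX'
  | .rz => Sum.elim nbZ nbZ'

/-- codes of the registers -/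
def C5 (Cc : Set (U → Ck)) (CR : Submodule K (U → c.S × Unit → K))
    (CX CZ : Submodule K (U → c.S × c.S' → K)) : ∀ j, Set (U → A5 c Ck j)
  | .lt => {w | ∃ a, w = fun _ => a}
  | .ck => Cc
  | .rg => bun CR (KR c)
  | .rx => bun CX (KX c)
  | .rz => bun CZ (KZ c)

/-- all slots of the label -/
abbrev LabI (ιl ιc ιR ιR' ιX ιX' ιZ ιZ' : Type) : Type :=
  Σ j, I5 ιl ιc ιR ιR' ιX ιX' ιZ ιZ' j

/-- neighbours of the label -/
def labNb (gl : ιl → U → U) (nbc : ιc → U → U) (nbR : ιR → U → U) (nbR' : ιR' → U → U)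
    (nbX : ιX → U → U) (nbX' : ιX' → U → U) (nbZ : ιZ → U → U) (nbZ' : ιZ' → U → U)
    (i : LabI ιl ιc ιR ιR' ιX ιX' ιZ ιZ') : U → U :=
  nb5 gl nbc nbR nbR' nbX nbX' nbZ nbZ' i.1 i.2

/-- rules of the label -/
noncomputable def labR [Fintype ιl] [Nonempty (Letter c.A.Tr × c.A.Stg × c.A.Stg)]
    (Rc : CRules ιc Ck P) (NR : Submodule K (ιR → c.S × Unit → K))
    (crR : (ιR' → c.S × Unit → K) → c.S × Unit → K)
    (NX : Submodule K (ιX → c.S × c.S' → K)) (crX : (ιX' → c.S × c.S' → K) → c.S × c.S' → K)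
    (NZ : Submodule K (ιZ → c.S × c.S' → K)) (crZ : (ιZ' → c.S × c.S' → K) → c.S × c.S' → K) :
    CRules (LabI ιl ιc ιR ιR' ιX ιX' ιZ ιZ') (c.Lab Ck) P :=
  ((CRules.prod (R5 (ιl := ιl) Rc NR crR NX crX NZ crZ)).extend id (fun p _ => p)).alph
    (labEquiv c Ck)

theorem mem_labC_iff (Cc : Set (U → Ck)) (CR : Submodule K (U → c.S × Unit → K))
    (CX CZ : Submodule K (U → c.S × c.S' → K)) (w : U → c.Lab Ck) :
    (∀ j, (fun u => (labEquiv c Ck).symm (w u) j) ∈ C5 Cc CR CX CZ j) ↔ w ∈ labC Cc CR CX CZ := by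
  constructor
  · intro h
    refine ⟨?_, h .ck, fun b => ⟨fun i => h .rg (b, i), fun f m => ?_, fun f m => ?_,
      fun q f m => ?_, fun q f m => ?_⟩⟩
    · obtain ⟨⟨l, s1, s2⟩, ha⟩ := h .lt
      refine ⟨l, s1, s2, fun u => ?_⟩
      have h1 : ((w u).l, (w u).b1.stg, (w u).b2.stg) = (l, s1, s2) := congrFun ha u
      simp only [Prod.mk.injEq] at h1
      exact h1
    · exact h .rx (b, false, f, m)
    · exact h .rx (b, true, f, m)
    · exact h .rz (b, false, q, f, m)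
    · exact h .rz (b, true, q, f, m)
  · rintro ⟨⟨l, s1, s2, hl⟩, hc, hb⟩ j
    cases j with
    | lt =>
      refine ⟨(l, s1, s2), funext fun u => ?_⟩
      show ((w u).l, (w u).b1.stg, (w u).b2.stg) = (l, s1, s2)
      rw [(hl u).1, (hl u).2.1, (hl u).2.2]
    | ck => exact hc
    | rg => exact fun i => (hb i.1).1 i.2
    | rx =>
      rintro ⟨b, b', f, m⟩
      cases b'
      · exact (hb b).2.1 f m
      · exact (hb b).2.2.1 f m
    | rz =>
      rintro ⟨b, b', q, f, m⟩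
      cases b'
      · exact (hb b).2.2.2.1 q f m
      · exact (hb b).2.2.2.2 q f m

/-- **THE REGISTER TUPLE** of `DefI.Cst.Lab` -/
theorem lab_CAx [Fintype ιl] [Nonempty ιl] [Nonempty (Letter c.A.Tr × c.A.Stg × c.A.Stg)]
    [Nonempty U] {Rc : CRules ιc Ck P}
    {NR : Submodule K (ιR → c.S × Unit → K)} {crR : (ιR' → c.S × Unit → K) → c.S × Unit → K}
    {NX : Submodule K (ιX → c.S × c.S' → K)} {crX : (ιX' → c.S × c.S' → K) → c.S × c.S' → K}
    {NZ : Submodule K (ιZ → c.S × c.S' → K)} {crZ : (ιZ' → c.S × c.S' → K) → c.S × c.S' → K}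
    {gl : ιl → U → U} {nbc : ιc → U → U} {nbR : ιR → U → U} {nbR' : ιR' → U → U}
    {nbX : ιX → U → U} {nbX' : ιX' → U → U} {nbZ : ιZ → U → U} {nbZ' : ιZ' → U → U}
    {Cc : Set (U → Ck)} {CR : Submodule K (U → c.S × Unit → K)}
    {CX CZ : Submodule K (U → c.S × c.S' → K)} (pub : U → P)
    {m zs r0 d0 cc th lam : ℝ} (hm : 1 ≤ m) (hd : d0 ≤ 1) (hcc : 3 ≤ cc)
    (hlet : MixU gl lam) (hl8 : lam ^ 2 ≤ 1 / 8) (hinj : ∀ i, Function.Injective (gl i))
    (hlth : 4 * (r0 + lam ^ 2) ≤ th)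
    (hck : CAx Rc nbc pub Cc m zs r0 d0 cc th)
    (hR : LU846.LU CR nbR NR nbR' crR m m zs r0 d0 cc th)
    (hX : LU846.LU CX nbX NX nbX' crX m m zs r0 d0 cc th)
    (hZ : LU846.LU CZ nbZ NZ nbZ' crZ m m zs r0 d0 cc th) :
    CAx (labR (ιl := ιl) Rc NR crR NX crX NZ crZ)
      (labNb gl nbc nbR nbR' nbX nbX' nbZ nbZ') pub (labC Cc CR CX CZ) m zs r0 d0
      (5 * cc) (5 * th) := by
  have h5 : ∀ j, CAx (R5 (ιl := ιl) Rc NR crR NX crX NZ crZ j)
      (nb5 gl nbc nbR nbR' nbX nbX' nbZ nbZ' j) pub (C5 Cc CR CX CZ j) m zs r0 d0 cc th := by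
    intro j
    cases j with
    | lt => exact (letter_CAx (A := Letter c.A.Tr × c.A.Stg × c.A.Stg) hlet hl8 hinj hlth pub
        zs).mono hm le_rfl le_rfl hd hcc le_rfl
    | ck => exact hck
    | rg =>
      exact (LUc443.toCAx hR (KR c) P pub).mono (max_self m).le le_rfl le_rfl le_rfl le_rfl le_rfl
    | rx =>
      exact (LUc443.toCAx hX (KX c) P pub).mono (max_self m).le le_rfl le_rfl le_rfl le_rfl le_rfl
    | rz =>
      exact (LUc443.toCAx hZ (KZ c) P pub).mono (max_self m).le le_rfl le_rfl le_rfl le_rfl le_rfl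
  have hp := CAx.prod (by linarith : (0 : ℝ) ≤ cc) h5
  have he := (hp.extend id (fun (p : P) (_ : K5) => p)
    (labNb gl nbc nbR nbR' nbX nbX' nbZ nbZ') pub (fun _ _ => rfl) (fun _ => rfl)
    hp.mult).alph (labEquiv c Ck)
  have hc5 : (Fintype.card K5 : ℝ) = 5 := by rw [card_K5]; norm_num
  rw [hc5] at he
  have hset : {w : U → c.Lab Ck | (fun u => (labEquiv c Ck).symm (w u)) ∈
      {w : U → ∀ j, A5 c Ck j | ∀ j, (fun u => w u j) ∈ C5 Cc CR CX CZ j}} =
      labC Cc CR CX CZ := by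
    ext w
    exact mem_labC_iff Cc CR CX CZ w
  rw [hset] at he
  exact he

end main

end Crest.Agent.R289.LabCAx335
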