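import Crest.Agent.R289.LabCAx_560
import Crest.Agent.R289.LabCAx_335
import Crest.Agent.R289.LMI_827

/-!
Row 289 (S0434), joint I4: the two forms of the register code are equal, and its words are the
configurations of `LMI_827` (content words `XS`, certificates `ZS`).
-/

set_option autoImplicit false

namespace Crest.Agent.R289.LabCAx560

open Finset Crest.Agent.R289.DefD Crest.Agent.R289.Word508 Crest.Agent.R289.DefI
open Crest.Agent.R289.LU846 (LU tens)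
open Crest.Agent.R289.LUb443 (rules bun repC)
open Crest.Agent.R289.Compile827 (Letter Conf)
open Crest.Agent.R289.LMI827 (XS ZS InPC InZ)

section eq335

variable {K : Type} [Field K] {c : Cst K} (I : Ins c) {Ck : Type}
  (VG CG : Submodule K (I.Γ → c.S → K)) (VT CT : Submodule K (I.T → c.S' → K))

/-- the code of `LabCAx_335` is the code of `LabCAx_560` -/
theorem labC_eq (CC : Set (I.U → Ck)) :
    LabCAx335.labC CC (tens VG (repC I.T Unit K)) (tens CG VT) (tens CG CT) =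
      LabCode I VG CG VT CT CC := by
  ext w
  constructor
  · rintro ⟨⟨l, s1, s2, hl⟩, hC, hb⟩
    let xw : Bool → c.A.Stg → I.XW := fun β st =>
      (st, fun i ω => (LabCAx335.bk (w (ω.1, 1)) β).R i ω.2)
    let zw : Bool → I.ZW := fun β =>
      { X := fun p ω a m => (LabCAx335.bk (w (ω.1, p.1)) β).X p.2 ω.2 a m
        Xm := fun p ω a m => (LabCAx335.bk (w (ω.1, p.1)) β).Xm p.2 ω.2 a m
        Z := fun q p ω a m => (LabCAx335.bk (w (ω.1, p.1)) β).Z q p.2 ω.2 a m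
        Zm := fun q p ω a m => (LabCAx335.bk (w (ω.1, p.1)) β).Zm q p.2 ω.2 a m }
    have hxok : ∀ β st, XOK I VG (xw β st) := fun β st i => ((hb β).1 i).1 1 ()
    have hzok : ∀ β, ZOK I CG VT CT (zw β) := fun β =>
      ⟨⟨fun τ s' a m => ((hb β).2.1 a m).1 τ s', fun g s a m => ((hb β).2.1 a m).2 g s⟩,
        ⟨fun τ s' a m => ((hb β).2.2.1 a m).1 τ s', fun g s a m => ((hb β).2.2.1 a m).2 g s⟩,
        fun q => ⟨fun τ s' a m => ((hb β).2.2.2.1 q a m).1 τ s',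
          fun g s a m => ((hb β).2.2.2.1 q a m).2 g s⟩,
        fun q => ⟨fun τ s' a m => ((hb β).2.2.2.2 q a m).1 τ s',
          fun g s a m => ((hb β).2.2.2.2 q a m).2 g s⟩⟩
    have hR : ∀ β i g s τ τ', (LabCAx335.bk (w (g, τ)) β).R i s =
        (LabCAx335.bk (w (g, τ')) β).R i s := fun β i g s τ τ' =>
      congrFun (((hb β).1 i).2 g s τ τ') ()
    refine ⟨l, fun u => (w u).ck, xw false s1, zw false, xw true s2, zw true, hC,
      hxok _ _, hzok _, hxok _ _, hzok _, ?_⟩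
    funext u
    obtain ⟨h1, h2, h3⟩ := hl u
    refine Cst.Lab.ext h1 rfl (Cst.Bank.ext h2 ?_ rfl rfl rfl rfl)
      (Cst.Bank.ext h3 ?_ rfl rfl rfl rfl)
    · funext i s
      exact hR false i u.1 s u.2 1
    · funext i s
      exact hR true i u.1 s u.2 1
  · rintro ⟨l, t, x1, z1, x2, z2, ht, hx1, hz1, hx2, hz2, rfl⟩
    refine ⟨⟨l, x1.1, x2.1, fun u => ⟨rfl, rfl, rfl⟩⟩, ht, ?_⟩
    intro b
    cases b
    · exact ⟨fun i => ⟨fun τ _ => hx1 i, fun g s τ τ' => rfl⟩,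
        fun a m => ⟨fun τ s' => hz1.1.1 τ s' a m, fun g s => hz1.1.2 g s a m⟩,
        fun a m => ⟨fun τ s' => hz1.2.1.1 τ s' a m, fun g s => hz1.2.1.2 g s a m⟩,
        fun q a m => ⟨fun τ s' => (hz1.2.2.1 q).1 τ s' a m, fun g s => (hz1.2.2.1 q).2 g s a m⟩,
        fun q a m => ⟨fun τ s' => (hz1.2.2.2 q).1 τ s' a m, fun g s => (hz1.2.2.2 q).2 g s a m⟩⟩
    · exact ⟨fun i => ⟨fun τ _ => hx2 i, fun g s τ τ' => rfl⟩,
        fun a m => ⟨fun τ s' => hz2.1.1 τ s' a m, fun g s => hz2.1.2 g s a m⟩,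
        fun a m => ⟨fun τ s' => hz2.2.1.1 τ s' a m, fun g s => hz2.2.1.2 g s a m⟩,
        fun q a m => ⟨fun τ s' => (hz2.2.2.1 q).1 τ s' a m, fun g s => (hz2.2.2.1 q).2 g s a m⟩,
        fun q a m => ⟨fun τ s' => (hz2.2.2.2 q).1 τ s' a m, fun g s => (hz2.2.2.2 q).2 g s a m⟩⟩

end eq335

/-! ### words of the code = configurations over `XS`, `ZS` -/

section conf

variable {K : Type} [Field K]

/-- curried form of a code on the points `A × B` -/
def cur {A B : Type} (C : Submodule K (A × B → K)) : Submodule K (A → B → K) where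
  carrier := {f | (fun p : A × B => f p.1 p.2) ∈ C}
  add_mem' ha hb := C.add_mem ha hb
  zero_mem' := C.zero_mem
  smul_mem' k _ ha := C.smul_mem k ha

lemma mem_cur {A B : Type} (C : Submodule K (A × B → K)) (f : A → B → K) :
    f ∈ cur C ↔ (fun p : A × B => f p.1 p.2) ∈ C := Iff.rfl

/-- every submodule of `A → B → K` is a curried one -/
def unc {A B : Type} (C : Submodule K (A → B → K)) : Submodule K (A × B → K) where
  carrier := {f | (fun a b => f (a, b)) ∈ C}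
  add_mem' ha hb := C.add_mem ha hb
  zero_mem' := C.zero_mem
  smul_mem' k _ ha := C.smul_mem k ha

lemma cur_unc {A B : Type} (C : Submodule K (A → B → K)) : cur (unc C) = C := rfl

lemma unc_cur {A B : Type} (C : Submodule K (A × B → K)) : unc (cur C) = C := rfl

variable {c : Cst K} (I : Ins c) {Ck : Type}
  (CG : ℕ → Submodule K (I.Om → K)) (CT : ℕ → Submodule K (I.n → K))

lemma xok_iff (x : I.XW) : XOK I (cur (CG 1)) x ↔ ∀ i, x.2 i ∈ CG 1 := Iff.rfl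

lemma bok_iff (d e : ℕ) (F : I.n → I.AW) :
    BOK I (cur (CG d)) (cur (CT e)) F ↔ InPC I CG CT d e F :=
  ⟨fun h => ⟨fun p a m => h.1 p.1 p.2 a m, fun ω a m => h.2 ω.1 ω.2 a m⟩,
    fun h => ⟨fun τ s' a m => h.1 (τ, s') a m, fun g s a m => h.2 (g, s) a m⟩⟩

lemma zok_iff (z : I.ZW) :
    ZOK I (cur (CG 4)) (cur (CT 1)) (cur (CT 2)) z ↔ InZ I CG CT z :=
  ⟨fun h => ⟨⟨(bok_iff I CG CT 4 1 _).1 h.1, (bok_iff I CG CT 4 1 _).1 h.2.1⟩,
      ⟨fun s => (bok_iff I CG CT 4 2 _).1 (h.2.2.1 s), fun s => (bok_iff I CG CT 4 2 _).1 (h.2.2.2 s)⟩⟩,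
    fun h => ⟨(bok_iff I CG CT 4 1 _).2 h.1.1, (bok_iff I CG CT 4 1 _).2 h.1.2,
      fun s => (bok_iff I CG CT 4 2 _).2 (h.2.1 s), fun s => (bok_iff I CG CT 4 2 _).2 (h.2.2 s)⟩⟩

/-- **the words of the register code are the configurations of `LMI_827`** (with any clock word) -/
theorem LabCode_conf (CC : Set (I.U → Ck)) :
    LabCode I (cur (CG 1)) (cur (CG 4)) (cur (CT 1)) (cur (CT 2)) CC =
      {w | ∃ (l : Letter c.A.Tr) (t : I.U → Ck) (x1 : XS I CG) (z1 : ZS I CG CT) (x2 : XS I CG)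
        (z2 : ZS I CG CT), t ∈ CC ∧ w = labOf I l t x1.1 z1.1 x2.1 z2.1} := by
  ext w
  constructor
  · rintro ⟨l, t, x1, z1, x2, z2, ht, hx1, hz1, hx2, hz2, rfl⟩
    exact ⟨l, t, ⟨x1, hx1⟩, ⟨z1, (zok_iff I CG CT z1).1 hz1⟩, ⟨x2, hx2⟩,
      ⟨z2, (zok_iff I CG CT z2).1 hz2⟩, ht, rfl⟩
  · rintro ⟨l, t, x1, z1, x2, z2, ht, rfl⟩
    exact ⟨l, t, x1.1, z1.1, x2.1, z2.1, ht, x1.2, (zok_iff I CG CT z1.1).2 z1.2, x2.2,
      (zok_iff I CG CT z2.1).2 z2.2, rfl⟩

/-- the label word of a configuration over `XS`, `ZS` -/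
def labS (cw : ℕ → I.U → Ck) (f : Conf (XS I CG) (ZS I CG CT) c.A.Tr) : I.U → c.Lab Ck :=
  I.labE cw ⟨f.l, f.t, f.x1.1, f.z1.1, f.x2.1, f.z2.1⟩

/-- with the clock code `{cw t | t ≤ L}` the words of the register code are the label words of the
configurations with `t ≤ L` -/
theorem LabCode_labS (cw : ℕ → I.U → Ck) (L : ℕ) :
    LabCode I (cur (CG 1)) (cur (CG 4)) (cur (CT 1)) (cur (CT 2)) {t | ∃ i, i ≤ L ∧ t = cw i} =
      {w | ∃ f : Conf (XS I CG) (ZS I CG CT) c.A.Tr, f.t ≤ L ∧ w = labS I CG CT cw f} := by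
  rw [LabCode_conf]
  ext w
  constructor
  · rintro ⟨l, t, x1, z1, x2, z2, ⟨i, hi, rfl⟩, rfl⟩
    exact ⟨⟨l, i, x1, z1, x2, z2⟩, hi, rfl⟩
  · rintro ⟨f, hf, rfl⟩
    exact ⟨f.l, cw f.t, f.x1, f.z1, f.x2, f.z2, ⟨f.t, hf, rfl⟩, rfl⟩

/-- the label word determines the configuration (injective clock words) -/
theorem labS_inj [Nonempty I.U] (cw : ℕ → I.U → Ck) (L : ℕ)
    (hcw : ∀ s t, s ≤ L → t ≤ L → cw s = cw t → s = t)
    (f g : Conf (XS I CG) (ZS I CG CT) c.A.Tr) (hf : f.t ≤ L) (hg : g.t ≤ L)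
    (h : labS I CG CT cw f = labS I CG CT cw g) : f = g := by
  have hu : ∀ u : I.U, labS I CG CT cw f u = labS I CG CT cw g u := fun u => congrFun h u
  obtain ⟨u0⟩ := ‹Nonempty I.U›
  have hx : ∀ (x y : XS I CG) (z z' : ZS I CG CT),
      (∀ u, I.bankE x.1 z.1 u = I.bankE y.1 z'.1 u) → x = y ∧ z = z' := by
    intro x y z z' hb
    constructor
    · apply Subtype.ext
      refine Prod.ext (congrArg Cst.Bank.stg (hb u0)) ?_
      funext i ω
      exact congrFun (congrFun (congrArg Cst.Bank.R (hb (ω.1, u0.2))) i) ω.2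
    · apply Subtype.ext
      refine Ins.ZW.ext ?_ ?_ ?_ ?_
      · funext p ω
        exact congrFun (congrFun (congrArg Cst.Bank.X (hb (ω.1, p.1))) p.2) ω.2
      · funext p ω
        exact congrFun (congrFun (congrArg Cst.Bank.Xm (hb (ω.1, p.1))) p.2) ω.2
      · funext q p ω
        exact congrFun (congrFun (congrFun (congrArg Cst.Bank.Z (hb (ω.1, p.1))) q) p.2) ω.2
      · funext q p ω
        exact congrFun (congrFun (congrFun (congrArg Cst.Bank.Zm (hb (ω.1, p.1))) q) p.2) ω.2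
  obtain ⟨e1, e2⟩ := hx f.x1 g.x1 f.z1 g.z1 fun u => congrArg Cst.Lab.b1 (hu u)
  obtain ⟨e3, e4⟩ := hx f.x2 g.x2 f.z2 g.z2 fun u => congrArg Cst.Lab.b2 (hu u)
  exact Conf.ext (congrArg Cst.Lab.l (hu u0))
    (hcw _ _ hf hg (funext fun u => congrArg Cst.Lab.ck (hu u))) e1 e2 e3 e4

end conf

end Crest.Agent.R289.LabCAx560
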