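import Crest.Agent.R289.Clock_311
import Crest.Agent.R289.DefI_306

/-!
# Row 289, seam (s5): the clock interface of `DefI_306`

* `CG c = c.TD ⊕ Fin 3` : clock moves (indicator read of every possible value of the clock data,
  zero read, rotation, inverse rotation); `mcE` : the moves as permutations of the units.
* `cw t` : clock word (period `L + 1`), `rdTD` : value of the clock data from the symbols read,
  `rdTD_eq`, `cw_up`, `cw_dn`, `cw_period`, flags, separation.
* the same as local maps over `I.frame`.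
-/

set_option autoImplicit false
set_option linter.unusedSectionVars false

namespace Crest.Agent.R289.ClkTD766

open Finset DefC Compile827 DefI Clock311 Local782

/-! ### the finite type of the clock data -/

section TD
variable {K : Type} [Field K] (c : Cst K)

instance TD.instNonempty : Nonempty c.TD :=
  ⟨⟨false, false, 0, 0, 0, 0, 0, 0, 0⟩⟩

instance TD.instFinite [Finite K] : Finite c.TD := by
  refine Finite.of_injective
    (fun d : c.TD => (d.fst, d.lst, d.D, d.Dm, d.Dp, d.A, d.B, d.Am, d.Bm)) ?_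
  rintro ⟨a1, a2, a3, a4, a5, a6, a7, a8, a9⟩ ⟨b1, b2, b3, b4, b5, b6, b7, b8, b9⟩ h
  simp only [Prod.mk.injEq] at h
  obtain ⟨rfl, rfl, rfl, rfl, rfl, rfl, rfl, rfl, rfl⟩ := h
  rfl

noncomputable instance TD.instFintype [Finite K] : Fintype c.TD := Fintype.ofFinite _

/-- clock moves: indicator reads, zero read, rotation, inverse rotation -/
abbrev CG : Type := c.TD ⊕ Fin 3

end TD

/-! ### clock words and moves -/

/-- clock value as a position, period `L + 1` -/
def pos (L t : ℕ) : Fin (L + 1) := ⟨t % (L + 1), Nat.mod_lt _ (Nat.succ_pos _)⟩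

theorem pos_val {L t : ℕ} (h : t ≤ L) : (pos L t : ℕ) = t := Nat.mod_eq_of_lt (Nat.lt_succ_of_le h)

theorem pos_succ (L t : ℕ) : pos L (t + 1) = pos L t + 1 := by
  ext
  simp [pos, Fin.val_add, Nat.add_mod]

theorem pos_period (L : ℕ) : pos L (L + 1) = pos L 0 := by
  ext
  simp [pos]

theorem pos_inj {L t t' : ℕ} (h : t ≤ L) (h' : t' ≤ L) (he : pos L t = pos L t') : t = t' := by
  rw [← pos_val h, ← pos_val h', he]

section clock
variable {K : Type} [Field K] {c : Cst K} (I : Ins c) {p : ℕ} {Q : Type}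
  (e : I.U ≃ Clock311.U p (I.L + 1) Q) (tq : Q → I.T)

/-- clock word -/
def cw (t : ℕ) (u : I.U) : ZMod p := clk (pos I.L t) (e u)

open Classical in
/-- indicator table of the value `b` of the clock data -/
noncomputable def phi (p : ℕ) (b : c.TD) (q : Q) : V p (I.L + 1) :=
  fun t => if I.td t (tq q) = b then 1 else 0

/-- the move of the clock coordinates -/
noncomputable def mv0 (p : ℕ) : CG c → Equiv.Perm (Clock311.U p (I.L + 1) Q)
  | .inl b => Wrd (phi I tq p b)
  | .inr 0 => Wrd 0
  | .inr 1 => Wrot (Equiv.addRight 1)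
  | .inr 2 => Wrot (Equiv.addRight (1 : Fin (I.L + 1))).symm

/-- the clock moves as permutations of the units -/
noncomputable def mcE (g : CG c) : Equiv.Perm I.U := (e.trans (mv0 I tq p g)).trans e.symm

/-- the clock moves -/
noncomputable def mc (g : CG c) (u : I.U) : I.U := mcE I e tq g u

theorem mc_injective (g : CG c) : Function.Injective (mc I e tq g) := (mcE I e tq g).injective

@[simp] theorem e_mc (g : CG c) (u : I.U) : e (mc I e tq g u) = mv0 I tq p g (e u) := by
  simp [mc, mcE]

open Classical in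
/-- value of the clock data from the symbols read -/
noncomputable def rdTD {p : ℕ} (s : CG c → ZMod p) : c.TD :=
  Classical.epsilon fun b => s (.inl b) - s (.inr 0) = 1

/-- rotation: next clock symbol -/
theorem cw_up (t : ℕ) (u : I.U) : cw I e (t + 1) u = cw I e t (mc I e tq (.inr 1) u) := by
  simp only [cw, e_mc, mv0, pos_succ]
  rfl

/-- inverse rotation: previous clock symbol -/
theorem cw_dn (t : ℕ) (u : I.U) : cw I e t u = cw I e (t + 1) (mc I e tq (.inr 2) u) := by
  simp only [cw, e_mc, mv0, pos_succ, clk, Wrot_apply, Function.comp]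
  exact congrArg (e u).1 ((Equiv.addRight (1 : Fin (I.L + 1))).symm_apply_apply _).symm

/-- the clock word has period `L + 1` -/
theorem cw_period : cw I e (I.L + 1) = cw I e 0 := by
  funext u
  simp [cw, pos_period]

/-- the zero position is reached from the top by one rotation -/
theorem cw_zero (u : I.U) : cw I e 0 u = cw I e I.L (mc I e tq (.inr 1) u) := by
  rw [← cw_up, cw_period]

theorem cw_top (u : I.U) : cw I e I.L u = cw I e 0 (mc I e tq (.inr 2) u) := by
  rw [← cw_period]
  exact cw_dn I e tq _ _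

variable [Fact p.Prime]

theorem read_phi (b : c.TD) (t : ℕ) (u : I.U) :
    cw I e t (mc I e tq (.inl b) u) - cw I e t (mc I e tq (.inr 0) u) =
      phi I tq p b (e u).2.2.2 (pos I.L t) := by
  simp [cw, mv0, clk]

/-- **READ OF THE CLOCK DATA** -/
theorem rdTD_eq (ht : ∀ u, u.2 = tq (e u).2.2.2) {t : ℕ} (h : t ≤ I.L) (u : I.U) :
    rdTD (fun g => cw I e t (mc I e tq g u)) = I.td t u.2 := by
  have key : ∀ b : c.TD, (cw I e t (mc I e tq (.inl b) u) - cw I e t (mc I e tq (.inr 0) u) = 1 ↔
      I.td t u.2 = b) := by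
    intro b
    rw [read_phi, phi, pos_val h, ← ht]
    split_ifs with h1
    · simp [h1]
    · simp [h1]
  have hex : ∃ b : c.TD,
      cw I e t (mc I e tq (.inl b) u) - cw I e t (mc I e tq (.inr 0) u) = 1 :=
    ⟨_, (key _).2 rfl⟩
  have := Classical.epsilon_spec hex
  exact ((key _).1 this).symm

/-- flag `t = 0` of the value read -/
theorem fst_iff (ht : ∀ u, u.2 = tq (e u).2.2.2) {t : ℕ} (h : t ≤ I.L) (u : I.U) :
    (rdTD (fun g => cw I e t (mc I e tq g u)) : c.TD).fst = true ↔ t = 0 := by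
  rw [rdTD_eq I e tq ht h]
  simp [Ins.td]

/-- flag `t = L` of the value read -/
theorem lst_iff (ht : ∀ u, u.2 = tq (e u).2.2.2) {t : ℕ} (h : t ≤ I.L) (u : I.U) :
    (rdTD (fun g => cw I e t (mc I e tq g u)) : c.TD).lst = true ↔ t = I.L := by
  rw [rdTD_eq I e tq ht h]
  simp [Ins.td]

/-- separation of the clock words -/
theorem cw_sep [Finite Q] [Nonempty Q] {t t' : ℕ} (h : t ≤ I.L) (h' : t' ≤ I.L) (hne : t ≠ t') :
    1 / 2 ≤ DefD.distW (cw I e t) (cw I e t') := by
  have := Fintype.ofFinite Q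
  have hp : pos I.L t ≠ pos I.L t' := fun he => hne (pos_inj h h' he)
  have h1 := sep_frac (p := p) (Q := Q) hp
  refine h1.trans (le_of_eq ?_)
  unfold DefD.distW DefD.frac
  have hc : Fintype.card (Clock311.U p (I.L + 1) Q) = Fintype.card I.U :=
    (Fintype.card_congr e).symm
  rw [hc]
  congr 2
  refine (Finset.card_bij (fun u _ => e u) ?_ ?_ ?_).symm
  · intro u hu
    simpa [cw] using hu
  · intro u _ v _ huv
    exact e.injective huv
  · intro v hv
    refine ⟨e.symm v, ?_, by simp⟩
    simpa [cw] using hv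

theorem cw_inj [Finite Q] [Nonempty Q] {t t' : ℕ} (h : t ≤ I.L) (h' : t' ≤ I.L)
    (he : cw I e t = cw I e t') : t = t' := by
  by_contra hne
  have := cw_sep I e h h' hne
  rw [he] at this
  have h0 : DefD.distW (cw I e t') (cw I e t') = 0 := by
    unfold DefD.distW DefD.frac
    simp
  linarith

end clock

/-! ### the same as local maps over `I.frame` -/

section local_maps
variable {K : Type} [Field K] [Finite K] {c : Cst K} {p : ℕ} (Pc : Type)

/-- the clock data, read from the clock symbols -/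
noncomputable def rdM (c : Cst K) (p : ℕ) (Pc : Type) :
    LMap (c.Gen (CG c)) (c.PD × Pc) (ZMod p) c.TD where
  ι := CG c
  adr := fun g => [.ck g]
  f := fun x _ => rdTD x

/-- the next clock symbol -/
def upM (c : Cst K) (p : ℕ) (Pc : Type) :
    LMap (c.Gen (CG c)) (c.PD × Pc) (ZMod p) (ZMod p) where
  ι := Unit
  adr := fun _ => [.ck (.inr 1)]
  f := fun x _ => x ()

/-- the previous clock symbol -/
def dnM (c : Cst K) (p : ℕ) (Pc : Type) :
    LMap (c.Gen (CG c)) (c.PD × Pc) (ZMod p) (ZMod p) where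
  ι := Unit
  adr := fun _ => [.ck (.inr 2)]
  f := fun x _ => x ()

variable {Pc} (I : Ins c) {Q : Type} (e : I.U ≃ Clock311.U p (I.L + 1) Q) (tq : Q → I.T)
  (pc : I.U → Pc)

theorem run_rdM [Fact p.Prime] (ht : ∀ u, u.2 = tq (e u).2.2.2) {t : ℕ} (h : t ≤ I.L)
    (u : I.U) :
    (rdM c p Pc).run (I.frame (mc I e tq) pc) (cw I e t) u = I.td t u.2 :=
  rdTD_eq I e tq ht h u

theorem run_upM (t : ℕ) (u : I.U) :
    (upM c p Pc).run (I.frame (mc I e tq) pc) (cw I e t) u = cw I e (t + 1) u :=
  (cw_up I e tq t u).symm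

theorem run_dnM (t : ℕ) (u : I.U) :
    (dnM c p Pc).run (I.frame (mc I e tq) pc) (cw I e (t + 1)) u = cw I e t u :=
  (cw_dn I e tq t u).symm

/-- top to zero (boot phase to rest) -/
theorem run_upM_top (u : I.U) :
    (upM c p Pc).run (I.frame (mc I e tq) pc) (cw I e I.L) u = cw I e 0 u :=
  (cw_zero I e tq u).symm

/-- zero to top (rest to boot phase) -/
theorem run_dnM_zero (u : I.U) :
    (dnM c p Pc).run (I.frame (mc I e tq) pc) (cw I e 0) u = cw I e I.L u :=
  (cw_top I e tq u).symm

/-- clock data from the labels -/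
noncomputable def rdL (c : Cst K) (p : ℕ) (Pc : Type) :
    LMap (c.Gen (CG c)) (c.PD × Pc) (c.Lab (ZMod p)) c.TD := (rdM c p Pc).comap Cst.Lab.ck

/-- next clock symbol from the labels -/
def upL (c : Cst K) (p : ℕ) (Pc : Type) :
    LMap (c.Gen (CG c)) (c.PD × Pc) (c.Lab (ZMod p)) (ZMod p) := (upM c p Pc).comap Cst.Lab.ck

/-- previous clock symbol from the labels -/
def dnL (c : Cst K) (p : ℕ) (Pc : Type) :
    LMap (c.Gen (CG c)) (c.PD × Pc) (c.Lab (ZMod p)) (ZMod p) := (dnM c p Pc).comap Cst.Lab.ck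

theorem run_rdL [Fact p.Prime] (ht : ∀ u, u.2 = tq (e u).2.2.2)
    {f : Conf I.XW I.ZW c.A.Tr} (h : f.t ≤ I.L) (u : I.U) :
    (rdL c p Pc).run (I.frame (mc I e tq) pc) (I.labE (cw I e) f) u = I.td f.t u.2 :=
  rdTD_eq I e tq ht h u

theorem run_upL (f : Conf I.XW I.ZW c.A.Tr) (u : I.U) :
    (upL c p Pc).run (I.frame (mc I e tq) pc) (I.labE (cw I e) f) u = cw I e (f.t + 1) u :=
  (cw_up I e tq f.t u).symm

theorem run_dnL (f : Conf I.XW I.ZW c.A.Tr) (h : 0 < f.t) (u : I.U) :
    (dnL c p Pc).run (I.frame (mc I e tq) pc) (I.labE (cw I e) f) u = cw I e (f.t - 1) u := by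
  have := (cw_dn I e tq (f.t - 1) u).symm
  rw [Nat.sub_add_cancel h] at this
  exact this

theorem run_upL_top (f : Conf I.XW I.ZW c.A.Tr) (h : f.t = I.L) (u : I.U) :
    (upL c p Pc).run (I.frame (mc I e tq) pc) (I.labE (cw I e) f) u = cw I e 0 u := by
  rw [run_upL, h, cw_period]

theorem run_dnL_zero (f : Conf I.XW I.ZW c.A.Tr) (h : f.t = 0) (u : I.U) :
    (dnL c p Pc).run (I.frame (mc I e tq) pc) (I.labE (cw I e) f) u = cw I e I.L u := by
  have h1 : (dnL c p Pc).run (I.frame (mc I e tq) pc) (I.labE (cw I e) f) u =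
      cw I e f.t (mc I e tq (.inr 2) u) := rfl
  rw [h1, h]
  exact (cw_top I e tq u).symm

end local_maps

end Crest.Agent.R289.ClkTD766
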