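import Crest.Agent.R289.Sampler_56
import Crest.Agent.Lib.PT.Arith
import Crest.Agent.Lib.PT.ArithMore

/-!
Row 289: the sampler maps are polynomial time.
-/

set_option autoImplicit false

namespace Crest.Agent.R289.Sampler56

open Crest.Agent.Lib.PT

variable {α : Type} [PTCode α]

theorem ptf_side {M : α → ℕ} (hM : PTF M) : PTF (fun a => side (M a)) := by
  unfold side
  have h1 : PTF (fun a => (Nat.size (M a) + 1) / 2) := by fun_prop
  have h2 : PTU (fun a => (Nat.size (M a) + 1) / 2) := by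
    refine PTU.of_eq (PTF.natMinUn h1 (PTU.succ (PTF.natSizeUn hM))) fun a => ?_
    exact min_eq_left (Nat.div_le_self _ _)
  exact PTF.natTwoPow h2

theorem ptf_stepN {N i : α → ℕ} {z : α → ℕ × ℕ} (hN : PTF N) (hi : PTF i) (hz : PTF z) :
    PTF (fun a => stepN (N a) (i a) (z a)) := by
  unfold stepN
  have h1 : PTF (fun a => (z a).1) := PTF.comp PTF.fst hz
  have h2 : PTF (fun a => (z a).2) := PTF.comp PTF.snd hz
  refine PTF.ite (PTPred.natEq hi (PTF.const 0)) (by fun_prop) ?_
  refine PTF.ite (PTPred.natEq hi (PTF.const 1)) (by fun_prop) ?_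
  refine PTF.ite (PTPred.natEq hi (PTF.const 2)) (by fun_prop) ?_
  refine PTF.ite (PTPred.natEq hi (PTF.const 3)) (by fun_prop) ?_
  refine PTF.ite (PTPred.natEq hi (PTF.const 4)) (by fun_prop) ?_
  refine PTF.ite (PTPred.natEq hi (PTF.const 5)) (by fun_prop) ?_
  refine PTF.ite (PTPred.natEq hi (PTF.const 6)) (by fun_prop) ?_
  refine PTF.ite (PTPred.natEq hi (PTF.const 7)) (by fun_prop) hz

theorem ptf_sigN (t : ℕ) : ∀ {N j : α → ℕ} {z : α → ℕ × ℕ}, PTF N → PTF j → PTF z →
    PTF (fun a => sigN (N a) t (j a) (z a)) := by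
  induction t with
  | zero => intro N j z _ _ hz; exact hz
  | succ t ih =>
    intro N j z hN hj hz
    exact ih hN (PTF.natDiv hj (PTF.const 16))
      (ptf_stepN hN (PTF.natMod hj (PTF.const 16)) hz)

theorem ptf_samp (t : ℕ) {M j u : α → ℕ} (hM : PTF M) (hj : PTF j) (hu : PTF u) :
    PTF (fun a => samp (M a) t (j a) (u a)) := by
  unfold samp
  have hs := ptf_side hM
  have hz : PTF (fun a => sigN (side (M a)) t (j a) (u a / side (M a), u a % side (M a))) :=
    ptf_sigN t hs hj (PTF.prodMk (PTF.natDiv hu hs) (PTF.natMod hu hs))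
  exact PTF.natMod (PTF.natAdd (PTF.natMul (PTF.comp PTF.fst hz) hs) (PTF.comp PTF.snd hz)) hM

end Crest.Agent.R289.Sampler56
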