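import Crest.Agent.R289.YIdx_901
import Crest.Agent.R289.SamplerPT_56

/-!
# Row 289, block E: index maps of the clock register (helper484)

The clock symbol lives on the units through an exact bijection with `CU F m R = G × G × G × R`,
`G = Fin m → F` (form of post 6002; `F = ZMod p`).

* `eC F m e : CU F m R ≃ Fin (qK F ^ m * (qK F ^ m * (qK F ^ m * ρ)))`, value
  `mk n ρ x y z r`, `n = qK F ^ m`; the coordinates of an index are `cX`, `cY`, `cZ`, `cR`.
* `recode h e` : the same for any unit set numbered by `Fin N`, `N = n * (n * (n * ρ))`.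
* index functions of all maps of the clock (forms of `Clock_311` and `Clock_698`): `swI`, `smI`,
  `rdI` (public read of any vector `q x y r`), `shI` / `shI'` (cyclic shift of the first
  coordinate), `wkI` (walk in the fibre, `Sampler56.sig`); `_spec` and PTF in
  `(m unary, ρ, N, index)`; compositions by `PTF.comp`.
-/

set_option autoImplicit false
set_option linter.dupNamespace false

namespace Crest.Agent.R289.ClockPT484

open Crest.Agent.Lib.PT Crest.Agent.R289.GkIdx594 Crest.Agent.R289.YIdx901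

/-- positions of the clock block: `(x; (y, z, r))` -/
abbrev CU (F : Type) (m : ℕ) (R : Type) : Type :=
  (Fin m → F) × (Fin m → F) × (Fin m → F) × R

/-! ### indices of quadruples -/

section quad

/-- index of a quadruple (`n` vectors) -/
def mk (n ρ x y z r : ℕ) : ℕ := pI (n * (n * ρ)) x (pI (n * ρ) y (pI ρ z r))

/-- first coordinate of an index -/
def cX (n ρ w : ℕ) : ℕ := w / (n * (n * ρ))

/-- second coordinate of an index -/
def cY (n ρ w : ℕ) : ℕ := w % (n * (n * ρ)) / (n * ρ)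

/-- third coordinate of an index -/
def cZ (n ρ w : ℕ) : ℕ := w % (n * (n * ρ)) % (n * ρ) / ρ

/-- last coordinate of an index -/
def cR (n ρ w : ℕ) : ℕ := w % (n * (n * ρ)) % (n * ρ) % ρ

variable {n ρ x y z r : ℕ}

theorem mk_lt (hx : x < n) (hy : y < n) (hz : z < n) (hr : r < ρ) :
    mk n ρ x y z r < n * (n * (n * ρ)) := pI_lt hx (pI_lt hy (pI_lt hz hr))

theorem cX_mk (hy : y < n) (hz : z < n) (hr : r < ρ) : cX n ρ (mk n ρ x y z r) = x :=
  div_pI (pI_lt hy (pI_lt hz hr))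

theorem cY_mk (hy : y < n) (hz : z < n) (hr : r < ρ) : cY n ρ (mk n ρ x y z r) = y := by
  rw [cY, mk, mod_pI (pI_lt hy (pI_lt hz hr)), div_pI (pI_lt hz hr)]

theorem cZ_mk (hy : y < n) (hz : z < n) (hr : r < ρ) : cZ n ρ (mk n ρ x y z r) = z := by
  rw [cZ, mk, mod_pI (pI_lt hy (pI_lt hz hr)), mod_pI (pI_lt hz hr), div_pI hr]

theorem cR_mk (hy : y < n) (hz : z < n) (hr : r < ρ) : cR n ρ (mk n ρ x y z r) = r := by
  rw [cR, mk, mod_pI (pI_lt hy (pI_lt hz hr)), mod_pI (pI_lt hz hr), mod_pI hr]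

theorem cX_lt {w : ℕ} (hw : w < n * (n * (n * ρ))) : cX n ρ w < n := by
  unfold cX
  exact Nat.div_lt_of_lt_mul (by rwa [Nat.mul_comm] at hw)

theorem pos_of_lt {w : ℕ} (hw : w < n * (n * (n * ρ))) : 0 < n ∧ 0 < ρ := by
  refine ⟨?_, ?_⟩
  · rcases Nat.eq_zero_or_pos n with h0 | h0
    · simp [h0] at hw
    · exact h0
  · rcases Nat.eq_zero_or_pos ρ with h0 | h0
    · simp [h0] at hw
    · exact h0

theorem cY_lt {w : ℕ} (hw : w < n * (n * (n * ρ))) : cY n ρ w < n := by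
  obtain ⟨hn, hρ⟩ := pos_of_lt hw
  have h : w % (n * (n * ρ)) < n * (n * ρ) := Nat.mod_lt _ (by positivity)
  unfold cY
  exact Nat.div_lt_of_lt_mul (by rw [Nat.mul_comm (n * ρ) n]; exact h)

theorem cZ_lt {w : ℕ} (hw : w < n * (n * (n * ρ))) : cZ n ρ w < n := by
  obtain ⟨hn, hρ⟩ := pos_of_lt hw
  have h : w % (n * (n * ρ)) % (n * ρ) < n * ρ := Nat.mod_lt _ (by positivity)
  unfold cZ
  exact Nat.div_lt_of_lt_mul (by rw [Nat.mul_comm ρ n]; exact h)

theorem cR_lt {w : ℕ} (hw : w < n * (n * (n * ρ))) : cR n ρ w < ρ :=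
  Nat.mod_lt _ (pos_of_lt hw).2

theorem mk_cXYZR {w : ℕ} (n ρ : ℕ) : mk n ρ (cX n ρ w) (cY n ρ w) (cZ n ρ w) (cR n ρ w) = w := by
  unfold mk cX cY cZ cR pI
  rw [Nat.mod_add_div, Nat.mod_add_div, Nat.mod_add_div]

end quad

/-! ### the numbering -/

section num

variable (F : Type) [Finite F] [Inhabited F] (m : ℕ) {R : Type} {ρ : ℕ}

/-- numbering of the positions -/
noncomputable def eC (e : R ≃ Fin ρ) :
    CU F m R ≃ Fin (qK F ^ m * (qK F ^ m * (qK F ^ m * ρ))) :=
  eP (eY F m) (eP (eY F m) (eP (eY F m) e))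

/-- numbering of a vector -/
noncomputable def iV (x : Fin m → F) : ℕ := (eY F m x : Fin _)

theorem iV_lt (x : Fin m → F) : iV F m x < qK F ^ m := (eY F m x).2

theorem eC_val (e : R ≃ Fin ρ) (u : CU F m R) :
    ((eC F m e u : Fin _) : ℕ) =
      mk (qK F ^ m) ρ (iV F m u.1) (iV F m u.2.1) (iV F m u.2.2.1) (e u.2.2.2 : Fin _) := rfl

theorem cX_eC (e : R ≃ Fin ρ) (u : CU F m R) :
    cX (qK F ^ m) ρ ((eC F m e u : Fin _) : ℕ) = iV F m u.1 := by
  rw [eC_val]; exact cX_mk (iV_lt F m _) (iV_lt F m _) (e _).2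

theorem cY_eC (e : R ≃ Fin ρ) (u : CU F m R) :
    cY (qK F ^ m) ρ ((eC F m e u : Fin _) : ℕ) = iV F m u.2.1 := by
  rw [eC_val]; exact cY_mk (iV_lt F m _) (iV_lt F m _) (e _).2

theorem cZ_eC (e : R ≃ Fin ρ) (u : CU F m R) :
    cZ (qK F ^ m) ρ ((eC F m e u : Fin _) : ℕ) = iV F m u.2.2.1 := by
  rw [eC_val]; exact cZ_mk (iV_lt F m _) (iV_lt F m _) (e _).2

theorem cR_eC (e : R ≃ Fin ρ) (u : CU F m R) :
    cR (qK F ^ m) ρ ((eC F m e u : Fin _) : ℕ) = (e u.2.2.2 : Fin _) := by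
  rw [eC_val]; exact cR_mk (iV_lt F m _) (iV_lt F m _) (e _).2

variable {U : Type} {N : ℕ}

/-- unit set numbered by `Fin N` in clock coordinates (`R = Fin ρ`) -/
noncomputable def recode (h : N = qK F ^ m * (qK F ^ m * (qK F ^ m * ρ))) (ix : U ≃ Fin N) :
    U ≃ CU F m (Fin ρ) :=
  (ix.trans (finCongr h)).trans (eC F m (Equiv.refl (Fin ρ))).symm

theorem recode_val (h : N = qK F ^ m * (qK F ^ m * (qK F ^ m * ρ))) (ix : U ≃ Fin N) (u : U) :
    ((eC F m (Equiv.refl (Fin ρ)) (recode F m h ix u) : Fin _) : ℕ) = (ix u : Fin _) := by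
  simp [recode]

/-- a map of the clock coordinates, as a map of the units -/
noncomputable def mv (h : N = qK F ^ m * (qK F ^ m * (qK F ^ m * ρ))) (ix : U ≃ Fin N)
    (π : CU F m (Fin ρ) → CU F m (Fin ρ)) (u : U) : U :=
  (recode F m h ix).symm (π (recode F m h ix u))

/-- **transfer**: an index function of `π` is the index function of `mv π` -/
theorem mv_spec (h : N = qK F ^ m * (qK F ^ m * (qK F ^ m * ρ))) (ix : U ≃ Fin N)
    (π : CU F m (Fin ρ) → CU F m (Fin ρ)) (g : ℕ → ℕ)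
    (hg : ∀ u, g ((eC F m (Equiv.refl (Fin ρ)) u : Fin _) : ℕ) =
      ((eC F m (Equiv.refl (Fin ρ)) (π u) : Fin _) : ℕ)) (u : U) :
    g ((ix u : Fin _) : ℕ) = ((ix (mv F m h ix π u) : Fin _) : ℕ) := by
  have h1 := hg (recode F m h ix u)
  rw [recode_val] at h1
  rw [h1, ← recode_val F m h ix (mv F m h ix π u), mv, Equiv.apply_symm_apply]

/-- the public last coordinate and the vectors of a unit, from its number -/
theorem coords (h : N = qK F ^ m * (qK F ^ m * (qK F ^ m * ρ))) (ix : U ≃ Fin N) (u : U) :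
    cX (qK F ^ m) ρ (ix u : Fin _) = iV F m (recode F m h ix u).1 ∧
    cY (qK F ^ m) ρ (ix u : Fin _) = iV F m (recode F m h ix u).2.1 ∧
    cZ (qK F ^ m) ρ (ix u : Fin _) = iV F m (recode F m h ix u).2.2.1 ∧
    cR (qK F ^ m) ρ (ix u : Fin _) = ((recode F m h ix u).2.2.2 : Fin _) := by
  rw [← recode_val F m h ix u]
  exact ⟨cX_eC F m _ _, cY_eC F m _ _, cZ_eC F m _ _, cR_eC F m _ _⟩

end num

/-! ### the maps of the clock -/

section maps

variable {F : Type} {m : ℕ} {R : Type}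

/-- entry `i` of the shifted vector is entry `i - 1` (cyclic) -/
def sh {m : ℕ} (x : Fin m → F) : Fin m → F := x ∘ (finRotate m).symm

/-- entry `i` of the shifted vector is entry `i + 1` (cyclic) -/
def sh' {m : ℕ} (x : Fin m → F) : Fin m → F := x ∘ finRotate m

theorem sh_sh' (x : Fin m → F) : sh (sh' x) = x := by
  funext i
  exact congrArg x ((finRotate m).apply_symm_apply i)

theorem sh'_sh (x : Fin m → F) : sh' (sh x) = x := by
  funext i
  exact congrArg x ((finRotate m).symm_apply_apply i)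

/-- `(y; (x, z, r))` -/
def swC (u : CU F m R) : CU F m R := (u.2.1, u.1, u.2.2.1, u.2.2.2)

/-- `(x + y; (y, z, r))` -/
def smC [Add F] (u : CU F m R) : CU F m R := (u.1 + u.2.1, u.2.1, u.2.2.1, u.2.2.2)

/-- `(q x y r + z; (x, y, r))` -/
def rdC [Add F] (q : (Fin m → F) → (Fin m → F) → R → Fin m → F) (u : CU F m R) : CU F m R :=
  (q u.1 u.2.1 u.2.2.2 + u.2.2.1, u.1, u.2.1, u.2.2.2)

/-- a map of the first coordinate -/
def fsC (g : (Fin m → F) → Fin m → F) (u : CU F m R) : CU F m R := (g u.1, u.2)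

/-- a map of the fibre -/
def fbC (σ : (Fin m → F) × (Fin m → F) × R → (Fin m → F) × (Fin m → F) × R) (u : CU F m R) :
    CU F m R := (u.1, σ u.2)

theorem ofFn_sh (x : Fin m → F) :
    List.ofFn (sh x) = (List.ofFn x).drop (m - 1) ++ (List.ofFn x).take (m - 1) := by
  rcases m with _ | m
  · simp
  · apply List.ext_getElem
    · simp
      try omega
    · intro i h1 h2
      simp only [List.length_ofFn] at h1
      rw [List.getElem_ofFn]
      rcases Nat.eq_zero_or_pos i with h0 | h0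
      · subst h0
        rw [List.getElem_append_left (by simp)]
        simp only [List.getElem_drop, List.getElem_ofFn, sh, Function.comp]
        refine congrArg x ?_
        rw [Equiv.symm_apply_eq]
        refine (finRotate_last (n := m)).symm.trans (congrArg _ (Fin.ext ?_))
        simp
      · rw [List.getElem_append_right (by simp; omega)]
        simp only [List.getElem_take, List.getElem_ofFn, sh, Function.comp]
        congr 1
        rw [Equiv.symm_apply_eq]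
        apply Fin.ext
        rw [coe_finRotate_of_ne_last]
        · simp
          try omega
        · intro h
          have := congrArg Fin.val h
          simp at this
          omega

theorem ofFn_sh' (x : Fin m → F) :
    List.ofFn (sh' x) = (List.ofFn x).drop 1 ++ (List.ofFn x).take 1 := by
  rcases m with _ | m
  · simp
  · apply List.ext_getElem
    · simp
    · intro i h1 h2
      simp only [List.length_ofFn] at h1
      rw [List.getElem_ofFn]
      rcases Nat.lt_or_ge i m with h0 | h0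
      · rw [List.getElem_append_left (by simpa using h0)]
        simp only [List.getElem_drop, List.getElem_ofFn, sh', Function.comp]
        congr 1
        apply Fin.ext
        rw [coe_finRotate_of_ne_last]
        · simp
          try omega
        · intro h
          have := congrArg Fin.val h
          simp at this
          omega
      · have h3 : i = m := by omega
        subst h3
        rw [List.getElem_append_right (by simp)]
        simp only [List.getElem_take, List.getElem_ofFn, sh', Function.comp]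
        congr 1
        rw [show (⟨i, h1⟩ : Fin (i + 1)) = Fin.last i from rfl, finRotate_last]
        apply Fin.ext
        simp

end maps

/-! ### vectors: indices -/

section vec

variable {F : Type} [Finite F] [Inhabited F] {m : ℕ}

/-- index of the shifted vector -/
noncomputable def rtI (F : Type) [Finite F] [Inhabited F] (m i : ℕ) : ℕ :=
  idx ((digs F m i).drop (m - 1) ++ (digs F m i).take (m - 1))

/-- index of the inversely shifted vector -/
noncomputable def rtI' (F : Type) [Finite F] [Inhabited F] (m i : ℕ) : ℕ :=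
  idx ((digs F m i).drop 1 ++ (digs F m i).take 1)

/-- index of the vector of a function of the coordinate -/
noncomputable def tbI (F : Type) [Finite F] [Inhabited F] (f : ℕ → F) (m : ℕ) : ℕ :=
  idx ((List.range m).map f)

theorem rtI_spec (x : Fin m → F) : rtI F m (iV F m x) = iV F m (sh x) :=
  idx1_spec (g := sh) (G := fun l => l.drop (m - 1) ++ l.take (m - 1)) ofFn_sh x

theorem rtI'_spec (x : Fin m → F) : rtI' F m (iV F m x) = iV F m (sh' x) :=
  idx1_spec (g := sh') (G := fun l => l.drop 1 ++ l.take 1) ofFn_sh' x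

theorem tbI_spec (f : ℕ → F) : tbI F f m = iV F m (fun t => f t) := by
  unfold tbI iV
  rw [eY_val]
  congr 1
  apply List.ext_getElem
  · simp
  · intro i h1 h2
    simp

theorem add_spec [Add F] (x y : Fin m → F) :
    zipI F (· + ·) m (iV F m x) (iV F m y) = iV F m (x + y) := addI_spec x y

theorem sub_spec [Sub F] (x y : Fin m → F) :
    zipI F (· - ·) m (iV F m x) (iV F m y) = iV F m (x - y) := subI_spec x y

theorem mul_spec [Mul F] (x y : Fin m → F) :
    zipI F (· * ·) m (iV F m x) (iV F m y) = iV F m (x * y) := mulI_spec x y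

theorem one_spec [One F] : tbI F (fun _ => 1) m = iV F m 1 := tbI_spec _

theorem iV_inj {x y : Fin m → F} : iV F m x = iV F m y ↔ x = y := by
  constructor
  · intro h
    exact (eY F m).injective (Fin.ext h)
  · rintro rfl; rfl

end vec

/-! ### index functions of the maps -/

section idxmaps

variable {F : Type} [Finite F] [Inhabited F] {m : ℕ} {R : Type} {ρ : ℕ}

/-- index function of `swC` -/
def swI (n ρ w : ℕ) : ℕ := mk n ρ (cY n ρ w) (cX n ρ w) (cZ n ρ w) (cR n ρ w)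

/-- index function of `smC` -/
noncomputable def smI (F : Type) [Finite F] [Inhabited F] [Add F] (m ρ w : ℕ) : ℕ :=
  mk (qK F ^ m) ρ (zipI F (· + ·) m (cX (qK F ^ m) ρ w) (cY (qK F ^ m) ρ w))
    (cY (qK F ^ m) ρ w) (cZ (qK F ^ m) ρ w) (cR (qK F ^ m) ρ w)

/-- index function of `rdC` -/
noncomputable def rdI (F : Type) [Finite F] [Inhabited F] [Add F] (Q : ℕ → ℕ → ℕ → ℕ)
    (m ρ w : ℕ) : ℕ :=
  mk (qK F ^ m) ρ (zipI F (· + ·) m
      (Q (cX (qK F ^ m) ρ w) (cY (qK F ^ m) ρ w) (cR (qK F ^ m) ρ w)) (cZ (qK F ^ m) ρ w))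
    (cX (qK F ^ m) ρ w) (cY (qK F ^ m) ρ w) (cR (qK F ^ m) ρ w)

/-- index function of `fsC` -/
def fsI (g : ℕ → ℕ) (n ρ w : ℕ) : ℕ := mk n ρ (g (cX n ρ w)) (cY n ρ w) (cZ n ρ w) (cR n ρ w)

variable (e : R ≃ Fin ρ)

theorem swI_spec (u : CU F m R) :
    swI (qK F ^ m) ρ ((eC F m e u : Fin _) : ℕ) = ((eC F m e (swC u) : Fin _) : ℕ) := by
  rw [swI, cX_eC, cY_eC, cZ_eC, cR_eC, eC_val]; rfl

theorem smI_spec [Add F] (u : CU F m R) :
    smI F m ρ ((eC F m e u : Fin _) : ℕ) = ((eC F m e (smC u) : Fin _) : ℕ) := by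
  rw [smI, cX_eC, cY_eC, cZ_eC, cR_eC, add_spec, eC_val]; rfl

theorem rdI_spec [Add F] {Q : ℕ → ℕ → ℕ → ℕ} {q : (Fin m → F) → (Fin m → F) → R → Fin m → F}
    (hQ : ∀ x y r, Q (iV F m x) (iV F m y) (e r : Fin _) = iV F m (q x y r)) (u : CU F m R) :
    rdI F Q m ρ ((eC F m e u : Fin _) : ℕ) = ((eC F m e (rdC q u) : Fin _) : ℕ) := by
  rw [rdI, cX_eC, cY_eC, cZ_eC, cR_eC, hQ, add_spec, eC_val]; rfl

theorem fsI_spec {g : ℕ → ℕ} {G : (Fin m → F) → Fin m → F}
    (hg : ∀ x, g (iV F m x) = iV F m (G x)) (u : CU F m R) :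
    fsI g (qK F ^ m) ρ ((eC F m e u : Fin _) : ℕ) = ((eC F m e (fsC G u) : Fin _) : ℕ) := by
  rw [fsI, cX_eC, cY_eC, cZ_eC, cR_eC, hg, eC_val]; rfl

/-- index function of `fbC` -/
def fbI (g : ℕ → ℕ) (n ρ w : ℕ) : ℕ := l2 (n * (n * ρ)) g w

/-- numbering of the fibre -/
noncomputable def eS (F : Type) [Finite F] [Inhabited F] (m : ℕ) (e : R ≃ Fin ρ) :
    (Fin m → F) × (Fin m → F) × R ≃ Fin (qK F ^ m * (qK F ^ m * ρ)) :=
  eP (eY F m) (eP (eY F m) e)

theorem fbI_spec {g : ℕ → ℕ}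
    {σ : (Fin m → F) × (Fin m → F) × R → (Fin m → F) × (Fin m → F) × R}
    (hg : ∀ s, g (eS F m e s : Fin _) = (eS F m e (σ s) : Fin _)) (u : CU F m R) :
    fbI g (qK F ^ m) ρ ((eC F m e u : Fin _) : ℕ) = ((eC F m e (fbC σ u) : Fin _) : ℕ) :=
  l2_spec (eY F m) (eS F m e) (G := σ) hg u.1 u.2

end idxmaps

/-! ### the walk -/

section walk

open Crest.Agent.R289.Sampler56 (sig sigN sigN_lt cz cz_sigN ptf_sigN)

variable {S : Type} {M N : ℕ} [NeZero N]

/-- pairs of residues, numbered by `Fin (N * N)` -/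
def eZ (N : ℕ) [NeZero N] : Fin (N * N) ≃ ZMod N × ZMod N :=
  finProdFinEquiv.symm.trans
    (Equiv.prodCongr (ZMod.finEquiv N).toEquiv (ZMod.finEquiv N).toEquiv)

theorem finEquiv_nat (a : Fin N) : ZMod.finEquiv N a = ((a : ℕ) : ZMod N) := by
  obtain _ | n := N
  · exact absurd rfl (NeZero.ne 0)
  · apply ZMod.val_injective
    rw [ZMod.val_natCast, Nat.mod_eq_of_lt a.2]
    rfl

theorem eZ_val (i : Fin (N * N)) : eZ N i = cz N ((i : ℕ) / N, (i : ℕ) % N) := by
  have h1 : finProdFinEquiv.symm i = (i.divNat, i.modNat) := rfl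
  simp only [eZ, Equiv.trans_apply, h1, Equiv.prodCongr_apply, Prod.map, cz]
  rw [Prod.mk.injEq]
  exact ⟨finEquiv_nat _, finEquiv_nat _⟩

omit [NeZero N] in
theorem cz_inj {z w : ℕ × ℕ} (h1 : z.1 < N) (h2 : z.2 < N) (h3 : w.1 < N) (h4 : w.2 < N)
    (h : cz N z = cz N w) : z = w := by
  unfold cz at h
  rw [Prod.mk.injEq] at h
  apply Prod.ext
  · have := congrArg ZMod.val h.1
    rwa [ZMod.val_natCast, ZMod.val_natCast, Nat.mod_eq_of_lt h1, Nat.mod_eq_of_lt h3] at this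
  · have := congrArg ZMod.val h.2
    rwa [ZMod.val_natCast, ZMod.val_natCast, Nat.mod_eq_of_lt h2, Nat.mod_eq_of_lt h4] at this

/-- the bijection of a numbered set of `N ^ 2` points with the torus -/
noncomputable def eW (h : M = N * N) (e : S ≃ Fin M) : S ≃ ZMod N × ZMod N :=
  (e.trans (finCongr h)).trans (eZ N)

theorem eW_val (h : M = N * N) (e : S ≃ Fin M) (s : S) :
    eW h e s = cz N (((e s : Fin _) : ℕ) / N, ((e s : Fin _) : ℕ) % N) := by
  simp only [eW, Equiv.trans_apply, eZ_val, finCongr_apply, Fin.val_cast]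

/-- index function of the walk -/
def wkI (N t j w : ℕ) : ℕ :=
  (sigN N t j (w / N, w % N)).2 + N * (sigN N t j (w / N, w % N)).1

theorem wkI_spec (h : M = N * N) (e : S ≃ Fin M) (t j : ℕ) (s : S) :
    wkI N t j ((e s : Fin _) : ℕ) =
      ((e ((eW h e).symm (sig N t j (eW h e s))) : Fin _) : ℕ) := by
  have hN : 0 < N := Nat.pos_of_ne_zero (NeZero.ne N)
  set s' := (eW h e).symm (sig N t j (eW h e s)) with hs'
  have h1 : eW h e s' = sig N t j (eW h e s) := by rw [hs', Equiv.apply_symm_apply]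
  have hb : ∀ r : S, ((e r : Fin _) : ℕ) / N < N := fun r =>
    Nat.div_lt_of_lt_mul (lt_of_lt_of_eq (e r).2 h)
  have hm : ∀ r : S, ((e r : Fin _) : ℕ) % N < N := fun r => Nat.mod_lt _ hN
  rw [eW_val, eW_val, ← cz_sigN hN t j _ (hb s) (hm s)] at h1
  obtain ⟨h2, h3⟩ := sigN_lt hN t j (((e s : Fin _) : ℕ) / N, ((e s : Fin _) : ℕ) % N) (hb s) (hm s)
  have h4 := cz_inj (hb s') (hm s') h2 h3 h1
  unfold wkI
  rw [← h4]
  simp only
  exact Nat.mod_add_div _ _

end walk

/-! ### polynomial time -/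

section ptf

variable {F : Type} [Finite F] [Inhabited F] [PTCode F] {α : Type} [PTCode α]

theorem ptf_mk {n ρ x y z r : α → ℕ} (hn : PTF n) (hρ : PTF ρ) (hx : PTF x) (hy : PTF y)
    (hz : PTF z) (hr : PTF r) : PTF (fun a => mk (n a) (ρ a) (x a) (y a) (z a) (r a)) :=
  ptf_pI (PTF.natMul hn (PTF.natMul hn hρ)) hx (ptf_pI (PTF.natMul hn hρ) hy (ptf_pI hρ hz hr))

theorem ptf_cX {n ρ w : α → ℕ} (hn : PTF n) (hρ : PTF ρ) (hw : PTF w) :
    PTF (fun a => cX (n a) (ρ a) (w a)) :=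
  PTF.natDiv hw (PTF.natMul hn (PTF.natMul hn hρ))

theorem ptf_cY {n ρ w : α → ℕ} (hn : PTF n) (hρ : PTF ρ) (hw : PTF w) :
    PTF (fun a => cY (n a) (ρ a) (w a)) :=
  PTF.natDiv (PTF.natMod hw (PTF.natMul hn (PTF.natMul hn hρ))) (PTF.natMul hn hρ)

theorem ptf_cZ {n ρ w : α → ℕ} (hn : PTF n) (hρ : PTF ρ) (hw : PTF w) :
    PTF (fun a => cZ (n a) (ρ a) (w a)) :=
  PTF.natDiv (PTF.natMod (PTF.natMod hw (PTF.natMul hn (PTF.natMul hn hρ)))
    (PTF.natMul hn hρ)) hρ

theorem ptf_cR {n ρ w : α → ℕ} (hn : PTF n) (hρ : PTF ρ) (hw : PTF w) :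
    PTF (fun a => cR (n a) (ρ a) (w a)) :=
  PTF.natMod (PTF.natMod (PTF.natMod hw (PTF.natMul hn (PTF.natMul hn hρ)))
    (PTF.natMul hn hρ)) hρ

theorem ptf_swI {n ρ w : α → ℕ} (hn : PTF n) (hρ : PTF ρ) (hw : PTF w) :
    PTF (fun a => swI (n a) (ρ a) (w a)) :=
  ptf_mk hn hρ (ptf_cY hn hρ hw) (ptf_cX hn hρ hw) (ptf_cZ hn hρ hw) (ptf_cR hn hρ hw)

/-- `q ^ m`, `m` unary -/
theorem ptf_pw (F : Type) [Finite F] [Inhabited F] {m : α → ℕ} (hm : PTU m) :
    PTF (fun a => qK F ^ m a) := PTF.natPow (PTF.const _) hm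

theorem ptf_smI [Add F] {m ρ w : α → ℕ} (hm : PTU m) (hρ : PTF ρ) (hw : PTF w) :
    PTF (fun a => smI F (m a) (ρ a) (w a)) := by
  have hn := ptf_pw (α := α) F hm
  exact ptf_mk hn hρ (ptf_zipI _ hm (ptf_cX hn hρ hw) (ptf_cY hn hρ hw)) (ptf_cY hn hρ hw)
    (ptf_cZ hn hρ hw) (ptf_cR hn hρ hw)

theorem ptf_rdI [Add F] {m ρ w : α → ℕ} {Q : α → ℕ → ℕ → ℕ → ℕ} (hm : PTU m) (hρ : PTF ρ)
    (hw : PTF w)
    (hQ : PTF (fun a => Q a (cX (qK F ^ m a) (ρ a) (w a)) (cY (qK F ^ m a) (ρ a) (w a))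
      (cR (qK F ^ m a) (ρ a) (w a)))) :
    PTF (fun a => rdI F (Q a) (m a) (ρ a) (w a)) := by
  have hn := ptf_pw (α := α) F hm
  exact ptf_mk hn hρ (ptf_zipI _ hm hQ (ptf_cZ hn hρ hw)) (ptf_cX hn hρ hw)
    (ptf_cY hn hρ hw) (ptf_cR hn hρ hw)

theorem ptf_fsI {n ρ w : α → ℕ} {g : α → ℕ → ℕ} (hn : PTF n) (hρ : PTF ρ) (hw : PTF w)
    (hg : PTF (fun a => g a (cX (n a) (ρ a) (w a)))) :
    PTF (fun a => fsI (g a) (n a) (ρ a) (w a)) :=
  ptf_mk hn hρ hg (ptf_cY hn hρ hw) (ptf_cZ hn hρ hw) (ptf_cR hn hρ hw)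

theorem ptf_rtI {m i : α → ℕ} (hm : PTU m) (hi : PTF i) : PTF (fun a => rtI F (m a) (i a)) := by
  have h := ptf_digs (K := F) hm hi
  have h1 : PTU (fun a => m a - 1) := PTU.sub hm (PTU.const 1)
  exact ptf_idx (PTF.append (PTF.drop h1 h) (PTF.take h1 h))

theorem ptf_rtI' {m i : α → ℕ} (hm : PTU m) (hi : PTF i) : PTF (fun a => rtI' F (m a) (i a)) := by
  have h := ptf_digs (K := F) hm hi
  exact ptf_idx (PTF.append (PTF.drop (PTU.const 1) h) (PTF.take (PTU.const 1) h))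

theorem ptf_tbI {m : α → ℕ} {f : α → ℕ → F} (hm : PTU m) (hf : PTF₂ f) :
    PTF (fun a => tbI F (f a) (m a)) := by
  refine ptf_idx (PTF.map (PTF.range hm) ?_)
  exact hf

theorem ptf_fbI {n ρ w : α → ℕ} {g : α → ℕ → ℕ} (hn : PTF n) (hρ : PTF ρ) (hw : PTF w)
    (hg : PTF₂ g) : PTF (fun a => fbI (g a) (n a) (ρ a) (w a)) :=
  ptf_l2 (PTF.natMul hn (PTF.natMul hn hρ)) hw hg

theorem ptf_wkI (t : ℕ) {N j w : α → ℕ} (hN : PTF N) (hj : PTF j) (hw : PTF w) :
    PTF (fun a => wkI (N a) t (j a) (w a)) := by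
  have h := Crest.Agent.R289.Sampler56.ptf_sigN t hN hj
    (PTF.prodMk (PTF.natDiv hw hN) (PTF.natMod hw hN))
  exact PTF.natAdd (PTF.comp PTF.snd h) (PTF.natMul hN (PTF.comp PTF.fst h))

end ptf

end Crest.Agent.R289.ClockPT484
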