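import Crest.Agent.R289.Clock_311
import Crest.Agent.R289.Word2_508

/-!
# Row 289, clock register: `CAx` form (owner helper425; core = `Clock_311` of helper311)

Units: ANY finite type `Un` with an explicit bijection `e : Un ≃ Clock311.U p n Q`
(`U p n Q = V × V × V × Q`, `V = Fin n → ZMod p`), `p` prime, `n` = number of clock positions.

* `slot`, `cnbr e σ` : slots (test `Fin 6 ⊕ J`, correction `Bool × (J × J)`) and neighbour maps;
* `clkRules` : rules, alphabet `ZMod p`, no public data;
* `clkW e t` : the clock word `t`;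
* `clk_CAx` : `CAx` with `m = 1, zs = 1/205, r0 = 1/8, d0 = 1/2, c = 16, θ = 1/4`;
  `clk_CAx_iter` : `θ = (1/4)^(2^s)`;
* `nbRd e φ`, `nbRd0 e`, `read_exact` : public functions `φ : Q → V` of the clock, exact on
  clock words; `read_field` : `K`-valued public functions, `K` any finite-dimensional
  `ZMod p`-algebra; `flag` : `t = t0`;
* `nbRot e ρ`, `rot_word` : the shift.
-/

set_option autoImplicit false
set_option linter.unusedSectionVars false

namespace Crest.Agent.R289.Clock425

open Finset LCodeS152 Clock311 Word508 DefD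

/-! ### transport of `cnt` and `frac` -/

lemma cnt_equiv {α β : Type} [Fintype α] [Fintype β] (e : α ≃ β) (P : β → Prop) :
    cnt (fun a => P (e a)) = cnt P := by
  classical
  unfold cnt
  refine card_bij (fun a _ => e a) ?_ ?_ ?_
  · intro a ha
    simpa using ha
  · intro a _ b _ h
    exact e.injective h
  · intro b hb
    exact ⟨e.symm b, by simpa using hb, by simp⟩

lemma frac_equiv {α β : Type} [Fintype α] [Fintype β] (e : α ≃ β) (P : β → Prop) :
    frac (fun a => P (e a)) = frac P := by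
  rw [frac_eq, frac_eq, cnt_equiv e P, Fintype.card_congr e]

section conj

variable {p n : ℕ} {Q Un : Type}

/-- conjugation of a permutation of the model by the numbering of the units -/
def cj (e : Un ≃ U p n Q) (π : Equiv.Perm (U p n Q)) : Equiv.Perm Un :=
  (e.trans π).trans e.symm

@[simp] lemma e_cj (e : Un ≃ U p n Q) (π : Equiv.Perm (U p n Q)) (u : Un) :
    e (cj e π u) = π (e u) := by simp [cj]

lemma cj_symm (e : Un ≃ U p n Q) (π : Equiv.Perm (U p n Q)) (u : Un) :
    cj e π.symm (cj e π u) = u := by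
  apply e.injective; simp

lemma cj_symm' (e : Un ≃ U p n Q) (π : Equiv.Perm (U p n Q)) (u : Un) :
    cj e π (cj e π.symm u) = u := by
  apply e.injective; simp

end conj

section main

variable {p n : ℕ} [Fact p.Prime] {Q Un J : Type} [Fintype Q] [Fintype J]

/-- slots: the test, and the corrector -/
abbrev Slot (J : Type) := (Fin 6 ⊕ J) ⊕ (Bool × (J × J))

/-- the permutation of a slot -/
def sperm (σ : J → Equiv.Perm (R p n Q)) : Slot J → Equiv.Perm (U p n Q)
  | .inl i => tnb σ i
  | .inr i => cnb σ i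

/-- the neighbour maps -/
def cnbr (e : Un ≃ U p n Q) (σ : J → Equiv.Perm (R p n Q)) (i : Slot J) : Un → Un :=
  cj e (sperm σ i)

/-- the first test slot is the unit itself -/
lemma cnbr_self (e : Un ≃ U p n Q) (σ : J → Equiv.Perm (R p n Q)) (u : Un) :
    cnbr e σ (.inl (.inl 0)) u = u := by
  apply e.injective
  simp [cnbr, sperm, tnb]

/-- the rules of the clock register -/
noncomputable def clkRules (p : ℕ) [Fact p.Prime] (J : Type) [Fintype J] :
    CRules (Slot J) (ZMod p) Unit where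
  viol x _ := ¬ tok (p := p) (J := J) fun i => some (x (.inl i))
  corr x _ := (cfun (p := p) (J := J) fun i => some (x (.inr i))).getD 0

/-- the clock word `t` -/
def clkW (e : Un ≃ U p n Q) (t : Fin n) (u : Un) : ZMod p := clk t (e u)

/-- the clock code -/
def clkC (e : Un ≃ U p n Q) : Set (Un → ZMod p) := {w | ∃ t : Fin n, w = clkW e t}

lemma clkW_mem (e : Un ≃ U p n Q) (t : Fin n) : clkW e t ∈ clkC e := ⟨t, rfl⟩

variable [Nonempty Q] [Fintype Un] [Nonempty J]

lemma clkW_dist (e : Un ≃ U p n Q) {t t' : Fin n} (h : t ≠ t') :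
    1 / 2 ≤ distW (clkW e t) (clkW e t') := by
  have h1 := sep_frac (p := p) (Q := Q) h
  unfold distW at h1 ⊢
  exact h1.trans_eq (frac_equiv e (fun u : U p n Q => clk t u ≠ clk t' u)).symm

lemma clkW_inj (e : Un ≃ U p n Q) : Function.Injective (clkW (p := p) e) := by
  intro t t' h
  by_contra hne
  have h1 := clkW_dist e hne
  rw [h] at h1
  have h2 : distW (clkW e t') (clkW e t') = 0 := by
    unfold distW
    exact frac_eq_zero fun u hu => hu rfl
  rw [h2] at h1
  norm_num at h1

lemma clk_sound (e : Un ≃ U p n Q) {σ : J → Equiv.Perm (R p n Q)} {lam : ℝ}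
    (h : Mixes σ lam) (hl : lam ≤ 1 / 2048) (X : Un → ZMod p)
    (hX : frac (fun u => (clkRules p J).viol (fun i => X (cnbr e σ i u)) ()) ≤ 1 / 205) :
    ∃ w ∈ clkC e, distW X w ≤
      16 * frac (fun u => (clkRules p J).viol (fun i => X (cnbr e σ i u)) ()) := by
  set X' : U p n Q → Option (ZMod p) := fun v => some (X (e.symm v)) with hX'
  have hb : frac (fun u => (clkRules p J).viol (fun i => X (cnbr e σ i u)) ()) =
      frac (bad σ X') := by
    rw [← frac_equiv e (bad σ X')]
    rfl
  rw [hb] at hX ⊢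
  obtain ⟨t, ht⟩ := sound_frac h (by linarith) X' (by linarith)
  refine ⟨clkW e t, ⟨t, rfl⟩, ?_⟩
  refine le_trans (le_of_eq ?_) ht
  unfold distW DefD.dist
  rw [← frac_equiv e (fun v => X' v ≠ some (clk t v))]
  congr 1
  funext u
  apply propext
  rw [hX']
  simp [clkW]

lemma clk_compl (e : Un ≃ U p n Q) (σ : J → Equiv.Perm (R p n Q)) (t : Fin n) (u : Un) :
    ¬ (clkRules p J).viol (fun i => clkW e t (cnbr e σ i u)) () := by
  intro hu
  apply hu
  refine ⟨fun i => clk t (tnb σ (.inl i) (e u)), fun i => ?_, fun j => ?_, ?_, ?_, ?_⟩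
  · simp [clkW, cnbr, sperm]
  · simp [clkW, cnbr, sperm, tnb, clk]
  · simp [tnb, clk]
  · simp [tnb, clk]
  · simp [tnb, clk]

/-- a unit with a majority of good pairs is corrected -/
lemma corr_good (e : Un ≃ U p n Q) (σ : J → Equiv.Perm (R p n Q)) (t : Fin n)
    (E : Un → Prop) (E' : Finset (U p n Q)) (hE' : ∀ v, E (e.symm v) → v ∈ E')
    (u : Un) (x : Slot J → ZMod p)
    (hx : ∀ i, ¬ E (cnbr e σ i u) → x i = clkW e t (cnbr e σ i u))
    (hlt : 2 * cnt (fun q : J × J =>
      step2 σ Wadd q (e u) ∈ E' ∨ step2 σ Wsw q (e u) ∈ E') < Fintype.card J ^ 2) :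
    (clkRules p J).corr x () = clkW e t u := by
  have h1 : cnt (fun q : J × J => step2 σ Wadd q (e u) ∈ E' ∨ step2 σ Wsw q (e u) ∈ E') +
      cnt (fun q : J × J => ¬ (step2 σ Wadd q (e u) ∈ E' ∨ step2 σ Wsw q (e u) ∈ E')) =
      Fintype.card (J × J) := by
    classical
    rw [cnt_eq_filter, cnt_eq_filter, card_filter_add_card_filter_not, card_univ]
  have h3 : cnt (fun q : J × J =>
      ¬ (step2 σ Wadd q (e u) ∈ E' ∨ step2 σ Wsw q (e u) ∈ E')) ≤
      cnt (fun q : J × J => osub (some (x (.inr (false, q)))) (some (x (.inr (true, q)))) =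
        some (clkW e t u)) := by
    refine cnt_mono fun q hq => ?_
    push Not at hq
    obtain ⟨hq1, hq2⟩ := hq
    have g1 : ¬ E (cnbr e σ (.inr (false, q)) u) := fun hc => hq1 (hE' _ hc)
    have g2 : ¬ E (cnbr e σ (.inr (true, q)) u) := fun hc => hq2 (hE' _ hc)
    rw [hx _ g1, hx _ g2]
    change some _ = some _
    congr 1
    simp [clkW, cnbr, sperm, cnb, clk]
  have h4 : Fintype.card (J × J) = Fintype.card J ^ 2 := by rw [Fintype.card_prod, sq]
  have h5 : Fintype.card (J × J) < 2 * cnt (fun q : J × J =>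
      osub (some (x (.inr (false, q)))) (some (x (.inr (true, q)))) =
        some (clkW e t u)) := by omega
  have hmaj : cfun (p := p) (J := J) (fun i => some (x (.inr i))) =
      some (clkW e t u) := maj_eq h5
  change (cfun (p := p) (J := J) fun i => some (x (.inr i))).getD 0 = _
  rw [hmaj]
  rfl

lemma clk_corr (e : Un ≃ U p n Q) {σ : J → Equiv.Perm (R p n Q)} {lam : ℝ}
    (h : Mixes σ lam) (h0 : 0 ≤ lam) (hl : lam ≤ 1 / 2048) (t : Fin n)
    (E : Un → Prop) (hE : frac E ≤ 1 / 8) :
    frac (fun u => ∃ x : Slot J → ZMod p,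
      (∀ i, ¬ E (cnbr e σ i u) → x i = clkW e t (cnbr e σ i u)) ∧
        (clkRules p J).corr x () ≠ clkW e t u) ≤ 1 / 4 * frac E := by
  classical
  set E' : Finset (U p n Q) := univ.filter fun v => E (e.symm v) with hE'
  have hEc : cnt E = E'.card := by
    rw [hE', ← cnt_eq_filter]
    rw [← cnt_equiv e (fun v => E (e.symm v))]
    simp
  have hU : (0 : ℝ) < Fintype.card Un := by
    have : Nonempty Un := ⟨e.symm (Classical.arbitrary _)⟩
    exact_mod_cast Fintype.card_pos
  have hcard : Fintype.card Un = Fintype.card (U p n Q) := Fintype.card_congr e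
  have hE8 : 8 * E'.card ≤ Fintype.card (U p n Q) := by
    rw [frac_eq, hEc, div_le_iff₀ hU, hcard] at hE
    have : (8 : ℝ) * E'.card ≤ Fintype.card (U p n Q) := by linarith
    exact_mod_cast this
  have hv := vote_contract h h0 hl (mixesX_add (p := p) (n := n) (Q := Q)) mixesX_sw E' hE8
  have hv' : 4 * cnt (fun v : U p n Q => Fintype.card J ^ 2 ≤ 2 * cnt (fun q : J × J =>
      step2 σ Wadd q v ∈ E' ∨ step2 σ Wsw q v ∈ E')) ≤ E'.card := by
    refine le_trans (Nat.mul_le_mul_left 4 ?_) hv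
    rw [cnt_eq_filter]
    refine card_le_card fun v hw => ?_
    rw [mem_filter] at hw ⊢
    refine ⟨mem_univ _, ?_⟩
    have h9 := hw.2
    rw [cnt_eq_filter] at h9
    convert h9
  clear hv
  have hsub : cnt (fun u => ∃ x : Slot J → ZMod p,
      (∀ i, ¬ E (cnbr e σ i u) → x i = clkW e t (cnbr e σ i u)) ∧
        (clkRules p J).corr x () ≠ clkW e t u) ≤
      cnt (fun v : U p n Q => Fintype.card J ^ 2 ≤ 2 * cnt (fun q : J × J =>
        step2 σ Wadd q v ∈ E' ∨ step2 σ Wsw q v ∈ E')) := by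
    rw [← cnt_equiv e (fun v : U p n Q => Fintype.card J ^ 2 ≤ 2 * cnt (fun q : J × J =>
      step2 σ Wadd q v ∈ E' ∨ step2 σ Wsw q v ∈ E'))]
    refine cnt_mono ?_
    rintro u ⟨x, hx, hne⟩
    by_contra hlt
    push Not at hlt
    refine hne (corr_good e σ t E E' (fun v hv' => ?_) u x hx hlt)
    rw [hE', mem_filter]
    exact ⟨mem_univ _, hv'⟩
  have h6 := (Nat.mul_le_mul_left 4 hsub).trans hv'
  rw [frac_eq, frac_eq, hEc]
  generalize cnt (fun u => ∃ x : Slot J → ZMod p,
      (∀ i, ¬ E (cnbr e σ i u) → x i = clkW e t (cnbr e σ i u)) ∧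
        (clkRules p J).corr x () ≠ clkW e t u) = A at h6 ⊢
  generalize E'.card = B at h6 ⊢
  rw [← mul_div_assoc]
  refine div_le_div_of_nonneg_right ?_ hU.le
  have h7 : (4 : ℝ) * A ≤ B := by exact_mod_cast h6
  linarith

/-- **THE CLOCK REGISTER IS A LOCAL CODE** -/
theorem clk_CAx (e : Un ≃ U p n Q) {σ : J → Equiv.Perm (R p n Q)} {lam : ℝ}
    (h : Mixes σ lam) (h0 : 0 ≤ lam) (hl : lam ≤ 1 / 2048) :
    CAx (clkRules p J) (cnbr e σ) (fun _ => ()) (clkC e) 1 (1 / 205) (1 / 8) (1 / 2) 16
      (1 / 4) where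
  mult := nbMult_of_injective _ fun i => (cj e (sperm σ i)).injective
  sep := by
    rintro _ ⟨t, rfl⟩ _ ⟨t', rfl⟩ hne
    exact clkW_dist e fun ht => hne (by rw [ht])
  sound X hX := clk_sound e h hl X hX
  compl := by
    rintro _ ⟨t, rfl⟩ u
    exact clk_compl e σ t u
  corr := by
    rintro _ ⟨t, rfl⟩ E hE
    exact clk_corr e h h0 hl t E hE

/-- the same with a correction factor as small as required -/
theorem clk_CAx_iter (e : Un ≃ U p n Q) {σ : J → Equiv.Perm (R p n Q)} {lam : ℝ}
    (h : Mixes σ lam) (h0 : 0 ≤ lam) (hl : lam ≤ 1 / 2048) (s : ℕ) :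
    CAx ((clkRules p J).iter s) (inb (cnbr e σ) s) (ipub (cnbr e σ) (fun _ => ()) s) (clkC e)
      1 (1 / 205) (1 / 8) (1 / 2) 16 ((1 / 4) ^ (2 ^ s)) := by
  have h1 := (clk_CAx e h h0 hl).iter (le_refl 1) (by norm_num) (by norm_num) s
  rwa [one_pow] at h1

end main

/-! ### reads of public functions of the clock -/

section reads

variable {p n : ℕ} {Q Un : Type}

/-- the public part of a unit -/
def pubQ (e : Un ≃ U p n Q) (u : Un) : Q := (e u).2.2.2

/-- slot of the read of `φ` -/
def nbRd (e : Un ≃ U p n Q) (φ : Q → V p n) : Equiv.Perm Un := cj e (Wrd φ)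

/-- **READ**: exact on clock words; `φ = 0` is the common second slot -/
theorem read_exact (e : Un ≃ U p n Q) (φ : Q → V p n) (t : Fin n) (u : Un) :
    clkW e t (nbRd e φ u) - clkW e t (nbRd e 0 u) = φ (pubQ e u) t := by
  simp [clkW, nbRd, clk, pubQ]

/-- the flag `t = t0` -/
theorem flag_exact [Fact p.Prime] (e : Un ≃ U p n Q) (t0 t : Fin n) (u : Un) :
    (clkW e t (nbRd e (fun _ => Pi.single t0 1) u) - clkW e t (nbRd e 0 u) = 1) ↔ t = t0 := by
  rw [read_exact]
  have h01 : (0 : ZMod p) ≠ 1 := zero_ne_one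
  by_cases h : t = t0
  · subst h
    simp
  · simp [h]

/-- the digits of a public function with values in a finite-dimensional algebra -/
noncomputable def digit {K ι : Type} [Field K] [Algebra (ZMod p) K] [Fact p.Prime]
    (b : Module.Basis ι (ZMod p) K) (A : Q → Fin n → K) (i : ι) (q : Q) : V p n :=
  fun t => b.repr (A q t) i

/-- **READ of a `K`-valued public function** `A : Q → Fin n → K` -/
theorem read_field {K ι : Type} [Fintype ι] [Field K] [Fact p.Prime] [Algebra (ZMod p) K]
    (b : Module.Basis ι (ZMod p) K) (e : Un ≃ U p n Q) (A : Q → Fin n → K) (t : Fin n) (u : Un) :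
    ∑ i, (clkW e t (nbRd e (digit b A i) u) - clkW e t (nbRd e 0 u)) • b i =
      A (pubQ e u) t := by
  have h1 : ∀ i, clkW e t (nbRd e (digit b A i) u) - clkW e t (nbRd e 0 u) =
      b.repr (A (pubQ e u) t) i := fun i => read_exact e (digit b A i) t u
  simp only [h1]
  exact b.sum_repr (A (pubQ e u) t)

/-- slot of the shift -/
def nbRot (e : Un ≃ U p n Q) (ρ : Equiv.Perm (Fin n)) : Equiv.Perm Un := cj e (Wrot ρ)

/-- **SHIFT**: the clock word `ρ t` is the clock word `t` read in the slot `nbRot e ρ` -/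
theorem rot_word (e : Un ≃ U p n Q) (ρ : Equiv.Perm (Fin n)) (t : Fin n) (u : Un) :
    clkW e t (nbRot e ρ u) = clkW e (ρ t) u := by
  simp [clkW, nbRot, clk]

/-- the backward shift -/
theorem rot_word_symm (e : Un ≃ U p n Q) (ρ : Equiv.Perm (Fin n)) (t : Fin n) (u : Un) :
    clkW e t (nbRot e ρ.symm u) = clkW e (ρ.symm t) u := rot_word e ρ.symm t u

/-- the public part does not change under the shift -/
lemma pubQ_rot (e : Un ≃ U p n Q) (ρ : Equiv.Perm (Fin n)) (u : Un) :
    pubQ e (nbRot e ρ u) = pubQ e u := by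
  simp [pubQ, nbRot]

lemma pubQ_rd (e : Un ≃ U p n Q) (φ : Q → V p n) (u : Un) :
    pubQ e (nbRd e φ u) = pubQ e u := by
  simp [pubQ, nbRd]

end reads

end Crest.Agent.R289.Clock425
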