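import Crest.Agent.R289.ClockU_698
import Crest.Agent.R289.ClockPT_484
import Crest.Agent.R289.Clock_425

/-!
# Row 289: the clock on the concrete units `(P × R) × T` (helper698)

`Siz p n` : sizes `nP = p ^ a`, `nR = p ^ b`, `nT = p ^ t` with `3 * n ≤ a` (`n` = number of clock
positions).  From numberings `iP iR iT` of the three factors:

* `ixU` : the numbering of the units (901's `eP`), `eU : (P × R) × T ≃ Clock311.U p n (Fin s.rho)` the
  clock coordinates (484's `recode`), `tq` : the `T`-component from the public coordinate (`tq_eU`);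
* `fib` : numbering of the fibre by `Fin (N * N * c)`, `sg` : the walk, `mixes_sg`;
* `clkU_CAx`, `clkU_CAx_iter` : the clock register on `(P × R) × T`;
* index functions: `fibI`, `sg_val`, `wfI_spec`; PTF.
-/

set_option autoImplicit false
set_option linter.unusedSectionVars false

namespace Crest.Agent.R289.ClockE698

open Finset LCodeS152 Clock311 YIdx901 GkIdx594 ClockPT484 ClockU698 Clock425 Word508
open Crest.Agent.Lib.PT

/-- sizes of the three factors -/
structure Siz (p n : ℕ) where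
  nP : ℕ
  nR : ℕ
  nT : ℕ
  a : ℕ
  b : ℕ
  t : ℕ
  hP : nP = p ^ a
  hR : nR = p ^ b
  hT : nT = p ^ t
  hn : 3 * n ≤ a

namespace Siz

variable {p n : ℕ} (s : Siz p n)

/-- number of units -/
def nU : ℕ := s.nP * s.nR * s.nT

/-- number of values of the public coordinate -/
def rho : ℕ := p ^ (s.a - 3 * n) * s.nR * s.nT

/-- exponent of the fibre -/
def m : ℕ := s.a - n + s.b + s.t

/-- side of the torus -/
def N : ℕ := p ^ (s.m / 2)

/-- the small factor -/
def c : ℕ := p ^ (s.m % 2)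

instance [NeZero p] : NeZero s.N := ⟨pow_ne_zero _ (NeZero.ne p)⟩
instance [NeZero p] : NeZero s.c := ⟨pow_ne_zero _ (NeZero.ne p)⟩

theorem c_eq : s.c = 1 ∨ s.c = p := by
  unfold c
  rcases Nat.mod_two_eq_zero_or_one s.m with h | h
  · left; rw [h, pow_zero]
  · right; rw [h, pow_one]

theorem qK_zmod [NeZero p] : qK (ZMod p) = p := by
  rw [qK_eq_card, Nat.card_eq_fintype_card, ZMod.card]

theorem nU_eq [NeZero p] : s.nU = qK (ZMod p) ^ n * (qK (ZMod p) ^ n * (qK (ZMod p) ^ n * s.rho)) := by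
  have h : p ^ s.a = p ^ n * (p ^ n * (p ^ n * p ^ (s.a - 3 * n))) := by
    rw [← pow_add, ← pow_add, ← pow_add]
    congr 1
    have := s.hn
    omega
  rw [qK_zmod, nU, rho, s.hP, h]
  ring

theorem fib_eq [NeZero p] : qK (ZMod p) ^ n * (qK (ZMod p) ^ n * s.rho) = s.N * s.N * s.c := by
  rw [qK_zmod, rho, N, c, s.hR, s.hT]
  simp only [← pow_add]
  congr 1
  unfold m
  have := s.hn
  omega

theorem rho_pos [NeZero p] : 0 < s.rho := by
  have : 0 < p := Nat.pos_of_ne_zero (NeZero.ne p)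
  rw [rho, s.hR, s.hT]
  positivity

theorem nT_pos [NeZero p] : 0 < s.nT := by
  have : 0 < p := Nat.pos_of_ne_zero (NeZero.ne p)
  rw [s.hT]
  positivity

instance [NeZero p] : Nonempty (Fin s.rho) := ⟨⟨0, s.rho_pos⟩⟩
instance [NeZero p] : NeZero s.rho := ⟨s.rho_pos.ne'⟩

end Siz

section units

variable {p n : ℕ} [NeZero p] (s : Siz p n) {P R T : Type}
  (iP : P ≃ Fin s.nP) (iR : R ≃ Fin s.nR) (iT : T ≃ Fin s.nT)

/-- numbering of the units -/
def ixU : (P × R) × T ≃ Fin s.nU := eP (eP iP iR) iT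

/-- clock coordinates of the units -/
noncomputable def eU : (P × R) × T ≃ Clock311.U p n (Fin s.rho) :=
  recode (ZMod p) n s.nU_eq (ixU s iP iR iT)

/-- the `T`-component from the public coordinate -/
def tq (r : Fin s.rho) : T := iT.symm ⟨(r : ℕ) % s.nT, Nat.mod_lt _ s.nT_pos⟩

theorem ixU_mod (u : (P × R) × T) : ((ixU s iP iR iT u : Fin _) : ℕ) % s.nT = (iT u.2 : Fin _) :=
  eP_mod (eP iP iR) iT u.1 u.2

omit [NeZero p] in
theorem cR_mod (N w : ℕ) : cR N s.rho w % s.nT = w % s.nT := by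
  have h1 : s.nT ∣ s.rho := ⟨p ^ (s.a - 3 * n) * s.nR, by rw [Siz.rho, Nat.mul_comm]⟩
  unfold cR
  rw [Nat.mod_mod_of_dvd _ h1, Nat.mod_mod_of_dvd _ (h1.trans (Dvd.intro_left _ rfl)),
    Nat.mod_mod_of_dvd _ ((h1.trans (Dvd.intro_left _ rfl)).trans (Dvd.intro_left _ rfl))]

/-- **the `T`-component is read from the public coordinate** -/
theorem tq_eU (u : (P × R) × T) : u.2 = tq s iT (eU s iP iR iT u).2.2.2 := by
  have h := (coords (ZMod p) n s.nU_eq (ixU s iP iR iT) u).2.2.2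
  have h2 : (((eU s iP iR iT u).2.2.2 : Fin _) : ℕ) % s.nT = (iT u.2 : Fin _) := by
    have h3 : (((eU s iP iR iT u).2.2.2 : Fin _) : ℕ) =
      (((recode (ZMod p) n s.nU_eq (ixU s iP iR iT) u).2.2.2 : Fin _) : ℕ) := rfl
    rw [h3, ← h, cR_mod, ixU_mod]
  unfold tq
  rw [eq_comm, Equiv.symm_apply_eq]
  exact Fin.ext h2

/-- numbering of the fibre -/
noncomputable def fib : Clock311.R p n (Fin s.rho) ≃ Fin (s.N * s.N * s.c) :=
  (eS (ZMod p) n (Equiv.refl (Fin s.rho))).trans (finCongr s.fib_eq)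

/-- the walk in the fibre -/
noncomputable def sg : SJ p → Equiv.Perm (Clock311.R p n (Fin s.rho)) := walk p (fib s)

theorem mixes_sg : Mixes (sg s) (1 / 2048) := mixes_walk s.c_eq (fib s)

theorem sg_val (q : SJ p) (r : Clock311.R p n (Fin s.rho)) :
    walkN s.N s.c q.1 q.2 (eS (ZMod p) n (Equiv.refl (Fin s.rho)) r : Fin _) =
      (eS (ZMod p) n (Equiv.refl (Fin s.rho)) (sg s q r) : Fin _) := by
  have h := walk_val (fib s) q r
  exact h.symm

/-- index function of a fibre slot on the clock coordinates -/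
theorem wf_val (q : SJ p) (u : Clock311.U p n (Fin s.rho)) :
    fbI (walkN s.N s.c q.1 q.2) (qK (ZMod p) ^ n) s.rho
      ((eC (ZMod p) n (Equiv.refl (Fin s.rho)) u : Fin _) : ℕ) =
      ((eC (ZMod p) n (Equiv.refl (Fin s.rho)) (Wf (sg s) q u) : Fin _) : ℕ) := by
  have hg := sg_val s q
  generalize walkN s.N s.c q.1 q.2 = g at hg ⊢
  rw [Wf_apply]
  generalize sg s q = σ at hg ⊢
  have h2 := fbI_spec (F := ZMod p) (m := n) (Equiv.refl (Fin s.rho)) (g := g)
    (σ := fun r => σ r) (fun r => hg r) u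
  exact h2

end units

section cax

variable {p n : ℕ} [Fact p.Prime] (s : Siz p n) {P R T : Type} [Fintype P] [Fintype R] [Fintype T]
  (iP : P ≃ Fin s.nP) (iR : R ≃ Fin s.nR) (iT : T ≃ Fin s.nT)

/-- neighbour maps of the clock register on the units -/
noncomputable def nbU : Clock425.Slot (SJ p) → (P × R) × T → (P × R) × T :=
  cnbr (eU s iP iR iT) (sg s)

theorem clkU_CAx : CAx (clkRules p (SJ p)) (nbU s iP iR iT) (fun _ => ())
    (clkC (eU s iP iR iT)) 1 (1 / 205) (1 / 8) (1 / 2) 16 (1 / 4) :=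
  clk_CAx (eU s iP iR iT) (mixes_sg s) (by norm_num) le_rfl

theorem clkU_CAx_iter (k : ℕ) : CAx ((clkRules p (SJ p)).iter k) (inb (nbU s iP iR iT) k)
    (ipub (nbU s iP iR iT) (fun _ => ()) k) (clkC (eU s iP iR iT)) 1 (1 / 205) (1 / 8) (1 / 2) 16
    ((1 / 4) ^ (2 ^ k)) :=
  clk_CAx_iter (eU s iP iR iT) (mixes_sg s) (by norm_num) le_rfl k

end cax

end Crest.Agent.R289.ClockE698
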