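import Crest.Agent.R289.Size2_954

/-!
# Row 289, E24: size windows of the frozen machine

`Gam = P × T_r`, `T` = walk factor, `L` = number of layers of the second order chain (growth
factor `≥ 16` per layer), clock over `F_2^(L+1)` with triples of positions on the units of `P`.

* `Ly G = clog 16 G` and `Lg G = log 16 G + 1`: layers; `G ≤ 16^L`; both are `≤ cl`, polylog (`PL`)
  for quasi-linear `G`, and unary computable.
* `clock_window`: `2^24 R^3 ≤ P → 2^(3 (L+1)) ≤ P` for `L` = layers of `P * R`.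
* `exists_room`: constants `c, e` with `c N (clog N)^e ≤ P → C R^r ≤ P` for polylog `R`.
* `total`: `|P| |T_r| |T|` is quasi-linear.
-/

set_option autoImplicit false
set_option linter.unusedSectionVars false

namespace Crest.Agent.R289.Window954

open Crest.Agent.Lib.PT Crest.Agent.Lib.PT.Arith
open Crest.Agent.R289.Size954

/-- number of layers, `clog` form -/
def Ly (G : ℕ) : ℕ := Nat.clog 16 G

/-- number of layers, `log` form -/
def Lg (G : ℕ) : ℕ := Nat.log 16 G + 1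

theorem le_pow_Ly (G : ℕ) : G ≤ 16 ^ Ly G := Nat.le_pow_clog (by norm_num) G

theorem lt_pow_Lg (G : ℕ) : G < 16 ^ Lg G := Nat.lt_pow_succ_log_self (by norm_num) G

theorem pow_Ly_le {G : ℕ} (hG : 1 ≤ G) : 16 ^ Ly G ≤ 16 * G := pow_clog_le (by norm_num) hG

theorem pow_Lg_le {G : ℕ} (hG : 1 ≤ G) : 16 ^ Lg G ≤ 16 * G := by
  unfold Lg
  rw [pow_succ, mul_comm]
  exact Nat.mul_le_mul_left _ (Nat.pow_log_le_self 16 (by omega))

theorem clock_of_pow {G L : ℕ} (hL : 16 ^ L ≤ 16 * G) : (2 ^ (3 * (L + 1))) ^ 4 ≤ 2 ^ 24 * G ^ 3 := by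
  have h1 : (2 ^ (3 * (L + 1))) ^ 4 = 2 ^ 12 * (16 ^ L) ^ 3 := by
    rw [show (16 : ℕ) = 2 ^ 4 by norm_num, ← pow_mul, ← pow_mul, ← pow_mul, ← pow_add]
    congr 1
    ring
  rw [h1]
  calc 2 ^ 12 * (16 ^ L) ^ 3 ≤ 2 ^ 12 * (16 * G) ^ 3 :=
        Nat.mul_le_mul_left _ (Nat.pow_le_pow_left hL 3)
    _ = 2 ^ 24 * G ^ 3 := by ring

theorem clock_aux {P R L : ℕ} (h : 2 ^ 24 * R ^ 3 ≤ P) (hL : 16 ^ L ≤ 16 * (P * R)) :
    2 ^ (3 * (L + 1)) ≤ P := by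
  have h1 := clock_of_pow hL
  have h2 : 2 ^ 24 * (P * R) ^ 3 ≤ P ^ 4 := by
    calc 2 ^ 24 * (P * R) ^ 3 = (2 ^ 24 * R ^ 3) * P ^ 3 := by ring
      _ ≤ P * P ^ 3 := Nat.mul_le_mul_right _ h
      _ = P ^ 4 := by ring
  exact (Nat.pow_le_pow_iff_left (by norm_num : (4 : ℕ) ≠ 0)).1 (h1.trans h2)

/-- **clock window**: the triples of clock positions fit on the units of `P` -/
theorem clock_window {P R : ℕ} (hP : 1 ≤ P) (hR : 1 ≤ R) (h : 2 ^ 24 * R ^ 3 ≤ P) :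
    2 ^ (3 * (Ly (P * R) + 1)) ≤ P := clock_aux h (pow_Ly_le (Nat.mul_pos hP hR))

theorem clock_window' {P R : ℕ} (hP : 1 ≤ P) (hR : 1 ≤ R) (h : 2 ^ 24 * R ^ 3 ≤ P) :
    2 ^ (3 * (Lg (P * R) + 1)) ≤ P := clock_aux h (pow_Lg_le (Nat.mul_pos hP hR))

theorem Ly_le_cl (G : ℕ) : Ly G ≤ cl G :=
  ((Nat.clog_anti_left (b := 16) (c := 2) (by norm_num) (by norm_num)).trans
    (Nat.clog_mono_right 2 (Nat.le_add_right _ 2)))

theorem Lg_le_cl (G : ℕ) : Lg G ≤ cl G := by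
  unfold Lg
  have h1 : Nat.log 16 G ≤ Nat.log 2 G := Nat.log_anti_left (by norm_num) (by norm_num)
  have h2 : 2 ^ Nat.log 2 G ≤ G + 1 := by
    rcases Nat.eq_zero_or_pos G with rfl | h
    · simp
    · exact (Nat.pow_log_le_self 2 (by omega)).trans (Nat.le_succ _)
  have h3 : Nat.log 2 G < cl G := by
    have h4 : 2 ^ Nat.log 2 G < 2 ^ cl G := by
      have := lt_two_pow_cl G
      omega
    exact (Nat.pow_lt_pow_iff_right (by norm_num)).1 h4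
  omega

theorem Ly_mono {G G' : ℕ} (h : G ≤ G') : Ly G ≤ Ly G' := Nat.clog_mono_right 16 h

theorem Lg_mono {G G' : ℕ} (h : G ≤ G') : Lg G ≤ Lg G' :=
  Nat.succ_le_succ (Nat.log_mono_right h)

section growth

variable {α : Type} {g G R P T : α → ℕ}

theorem PL_cl (hG : BL G g) : PL (fun a => cl (G a)) g := PL.trans (PL.clog G) hG

theorem PL_Ly (hG : BL G g) : PL (fun a => Ly (G a)) g :=
  (PL_cl hG).mono_left fun a => Ly_le_cl (G a)

theorem PL_Lg (hG : BL G g) : PL (fun a => Lg (G a)) g :=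
  (PL_cl hG).mono_left fun a => Lg_le_cl (G a)

/-- room: a polylogarithmic quantity (to any power, times any constant) is below `P` once the
request `c N (clog N)^e` is -/
theorem exists_room (C r : ℕ) (hR : PL R g) (hg : ∀ a, 1 ≤ g a) :
    ∃ c e, 1 ≤ c ∧ ∀ c' e', c ≤ c' → e ≤ e' → ∀ a P, c' * g a * cl (g a) ^ e' ≤ P →
      C * R a ^ r ≤ P := by
  obtain ⟨A, b, h⟩ := (PL.const C g).mul (hR.pow r)
  refine ⟨A + 1, b, Nat.succ_le_succ (Nat.zero_le _), fun c' e' hc he a P hP => ?_⟩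
  have h1 : C * R a ^ r ≤ A * cl (g a) ^ b := h a
  refine h1.trans (le_trans ?_ hP)
  calc A * cl (g a) ^ b ≤ c' * cl (g a) ^ e' :=
        Nat.mul_le_mul (by omega) (cl_pow_mono le_rfl he)
    _ ≤ (c' * g a) * cl (g a) ^ e' :=
        Nat.mul_le_mul_right _ (Nat.le_mul_of_pos_right _ (hg a))
    _ = c' * g a * cl (g a) ^ e' := rfl

/-- number of units -/
theorem total (hP : BL P g) (hR : PL R g) (hT : PL T g) :
    ∃ A b : ℕ, ∀ a, P a * R a * T a ≤ A * g a * (Nat.clog 2 (g a + 2)) ^ b :=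
  ((hP.mul_PL hR).mul_PL hT).elim

end growth

section PT

variable {α : Type} [PTCode α] {G : α → ℕ}

theorem ptu_Ly (hG : PTF G) : PTU (fun a => Ly (G a)) := by
  refine (ptf_clog (PTF.const 16) hG).toPTU ?_
  exact (PB_cl hG).mono fun a => Ly_le_cl (G a)

theorem ptu_Lg (hG : PTF G) : PTU (fun a => Lg (G a)) := by
  have h : PTF (fun a => Lg (G a)) := by unfold Lg; fun_prop
  exact h.toPTU ((PB_cl hG).mono fun a => Lg_le_cl (G a))

end PT

/-! ### clock over `F_p`: growth `p^4` per layer, clock positions `p^(3 (L+1))` (post #6335) -/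

section base

variable {p : ℕ} (hp : 2 ≤ p)

/-- number of layers with growth `p^4` -/
def LyP (p G : ℕ) : ℕ := Nat.clog (p ^ 4) G

/-- number of layers with growth `p^4`, `log` form (`RevChain123.growthG` with `m = p^4`) -/
def LgP (p G : ℕ) : ℕ := Nat.log (p ^ 4) G + 1

include hp

theorem one_lt_pow4 : 1 < p ^ 4 := Nat.one_lt_pow (by norm_num) (by omega)

theorem le_pow_LyP (G : ℕ) : G ≤ (p ^ 4) ^ LyP p G := Nat.le_pow_clog (one_lt_pow4 hp) G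

theorem lt_pow_LgP (G : ℕ) : G < (p ^ 4) ^ LgP p G := Nat.lt_pow_succ_log_self (one_lt_pow4 hp) G

theorem pow_LyP_le {G : ℕ} (hG : 1 ≤ G) : (p ^ 4) ^ LyP p G ≤ p ^ 4 * G :=
  pow_clog_le (one_lt_pow4 hp) hG

theorem pow_LgP_le {G : ℕ} (hG : 1 ≤ G) : (p ^ 4) ^ LgP p G ≤ p ^ 4 * G := by
  unfold LgP
  rw [pow_succ, mul_comm]
  exact Nat.mul_le_mul_left _ (Nat.pow_log_le_self _ (by omega))

theorem clock_auxP {P R L : ℕ} (h : p ^ 24 * R ^ 3 ≤ P) (hL : (p ^ 4) ^ L ≤ p ^ 4 * (P * R)) :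
    p ^ (3 * (L + 1)) ≤ P := by
  have h1 : (p ^ (3 * (L + 1))) ^ 4 = p ^ 12 * ((p ^ 4) ^ L) ^ 3 := by
    rw [← pow_mul, ← pow_mul, ← pow_mul, ← pow_add]
    congr 1
    ring
  have h2 : (p ^ (3 * (L + 1))) ^ 4 ≤ P ^ 4 := by
    rw [h1]
    calc p ^ 12 * ((p ^ 4) ^ L) ^ 3 ≤ p ^ 12 * (p ^ 4 * (P * R)) ^ 3 :=
          Nat.mul_le_mul_left _ (Nat.pow_le_pow_left hL 3)
      _ = (p ^ 24 * R ^ 3) * P ^ 3 := by ring
      _ ≤ P * P ^ 3 := Nat.mul_le_mul_right _ h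
      _ = P ^ 4 := by ring
  exact (Nat.pow_le_pow_iff_left (by norm_num : (4 : ℕ) ≠ 0)).1 h2

/-- **clock window** over `F_p`; `(p^4)^L ≥ |Gam|`, `Gam = P × T_r` -/
theorem clock_windowP {P R : ℕ} (hP : 1 ≤ P) (hR : 1 ≤ R) (h : p ^ 24 * R ^ 3 ≤ P) :
    p ^ (3 * (LyP p (P * R) + 1)) ≤ P := clock_auxP hp h (pow_LyP_le hp (Nat.mul_pos hP hR))

theorem clock_windowP' {P R : ℕ} (hP : 1 ≤ P) (hR : 1 ≤ R) (h : p ^ 24 * R ^ 3 ≤ P) :
    p ^ (3 * (LgP p (P * R) + 1)) ≤ P := clock_auxP hp h (pow_LgP_le hp (Nat.mul_pos hP hR))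

/-- divisibility form: for `|P|` a power of `p` the triples of clock positions divide `|P|` -/
theorem clock_exp {a R L : ℕ} (h : p ^ 24 * R ^ 3 ≤ p ^ a)
    (hL : (p ^ 4) ^ L ≤ p ^ 4 * (p ^ a * R)) : 3 * (L + 1) ≤ a :=
  (Nat.pow_le_pow_iff_right (by omega : 1 < p)).1 (clock_auxP hp h hL)

theorem clock_exp_LyP {a R : ℕ} (hR : 1 ≤ R) (h : p ^ 24 * R ^ 3 ≤ p ^ a) :
    3 * (LyP p (p ^ a * R) + 1) ≤ a :=
  clock_exp hp h (pow_LyP_le hp (Nat.mul_pos (Nat.pow_pos (by omega)) hR))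

theorem clock_exp_LgP {a R : ℕ} (hR : 1 ≤ R) (h : p ^ 24 * R ^ 3 ≤ p ^ a) :
    3 * (LgP p (p ^ a * R) + 1) ≤ a :=
  clock_exp hp h (pow_LgP_le hp (Nat.mul_pos (Nat.pow_pos (by omega)) hR))

theorem LyP_le_cl (G : ℕ) : LyP p G ≤ cl G :=
  ((Nat.clog_anti_left (b := p ^ 4) (c := 2) (by norm_num) (one_lt_pow4 hp)).trans
    (Nat.clog_mono_right 2 (Nat.le_add_right _ 2)))

theorem LgP_le_cl (G : ℕ) : LgP p G ≤ cl G := by
  unfold LgP
  have h1 : Nat.log (p ^ 4) G ≤ Nat.log 2 G := Nat.log_anti_left (by norm_num) (one_lt_pow4 hp)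
  have h2 : 2 ^ Nat.log 2 G ≤ G + 1 := by
    rcases Nat.eq_zero_or_pos G with rfl | h
    · simp
    · exact (Nat.pow_log_le_self 2 (by omega)).trans (Nat.le_succ _)
  have h3 : Nat.log 2 G < cl G := by
    have h4 : 2 ^ Nat.log 2 G < 2 ^ cl G := by
      have := lt_two_pow_cl G
      omega
    exact (Nat.pow_lt_pow_iff_right (by norm_num)).1 h4
  omega

variable {α : Type} {g G : α → ℕ}

theorem PL_LyP (hG : BL G g) : PL (fun a => LyP p (G a)) g :=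
  (PL_cl hG).mono_left fun a => LyP_le_cl hp (G a)

theorem PL_LgP (hG : BL G g) : PL (fun a => LgP p (G a)) g :=
  (PL_cl hG).mono_left fun a => LgP_le_cl hp (G a)

theorem ptu_LyP [PTCode α] (hG : PTF G) : PTU (fun a => LyP p (G a)) := by
  refine (ptf_clog (PTF.const (p ^ 4)) hG).toPTU ?_
  exact (PB_cl hG).mono fun a => LyP_le_cl hp (G a)

theorem ptu_LgP [PTCode α] (hG : PTF G) : PTU (fun a => LgP p (G a)) := by
  have h : PTF (fun a => LgP p (G a)) := by unfold LgP; fun_prop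
  exact h.toPTU ((PB_cl hG).mono fun a => LgP_le_cl hp (G a))

end base

/-! ### general growth `B = p^r` per layer, `r ≥ 4`, and `c0` extra layers (captain #6347: `B = 3^5`) -/

section general

/-- number of layers: least `L` with `G < B^L`, plus `c0` -/
def LB (B c0 G : ℕ) : ℕ := Nat.log B G + 1 + c0

theorem lt_pow_LB {B : ℕ} (hB : 1 < B) (c0 G : ℕ) : G < B ^ LB B c0 G :=
  (Nat.lt_pow_succ_log_self hB G).trans_le
    (Nat.pow_le_pow_right (by omega) (Nat.le_add_right _ c0))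

theorem pow_LB_le (B c0 : ℕ) {G : ℕ} (hG : 1 ≤ G) : B ^ LB B c0 G ≤ B ^ (c0 + 1) * G := by
  have h : LB B c0 G = (c0 + 1) + Nat.log B G := by unfold LB; omega
  rw [h, pow_add]
  exact Nat.mul_le_mul_left _ (Nat.pow_log_le_self _ (by omega))

theorem LB_mono {B c0 G G' : ℕ} (h : G ≤ G') : LB B c0 G ≤ LB B c0 G' := by
  unfold LB
  have := Nat.log_mono_right (b := B) h
  omega

theorem LB_pos (B c0 G : ℕ) : 1 ≤ LB B c0 G := by unfold LB; omega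

theorem clock_gen {p r P R L C : ℕ} (hr : 4 ≤ r) (hP : 1 ≤ P)
    (h : p ^ (3 * r) * C ^ 3 * R ^ 3 ≤ P) (hL : (p ^ r) ^ L ≤ C * (P * R)) :
    p ^ (3 * (L + 1)) ≤ P := by
  have h1 : (p ^ (3 * (L + 1))) ^ r = p ^ (3 * r) * ((p ^ r) ^ L) ^ 3 := by
    rw [← pow_mul, ← pow_mul, ← pow_mul, ← pow_add]
    congr 1
    ring
  have h2 : (p ^ (3 * (L + 1))) ^ r ≤ P ^ r := by
    rw [h1]
    calc p ^ (3 * r) * ((p ^ r) ^ L) ^ 3 ≤ p ^ (3 * r) * (C * (P * R)) ^ 3 :=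
          Nat.mul_le_mul_left _ (Nat.pow_le_pow_left hL 3)
      _ = (p ^ (3 * r) * C ^ 3 * R ^ 3) * P ^ 3 := by ring
      _ ≤ P * P ^ 3 := Nat.mul_le_mul_right _ h
      _ = P ^ 4 := by ring
      _ ≤ P ^ r := Nat.pow_le_pow_right hP hr
  exact (Nat.pow_le_pow_iff_left (by omega : r ≠ 0)).1 h2

/-- **clock window**: growth `p^r` per layer, `c0` extra layers, `Gam = P × T_r` -/
theorem clock_LB {p r P R : ℕ} (c0 : ℕ) (hr : 4 ≤ r) (hP : 1 ≤ P) (hR : 1 ≤ R)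
    (h : p ^ (3 * r) * ((p ^ r) ^ (c0 + 1)) ^ 3 * R ^ 3 ≤ P) :
    p ^ (3 * (LB (p ^ r) c0 (P * R) + 1)) ≤ P :=
  clock_gen hr hP h (pow_LB_le _ _ (Nat.mul_pos hP hR))

/-- divisibility form: `|P| = p^a` -/
theorem clock_exp_LB {p r a R : ℕ} (c0 : ℕ) (hp : 2 ≤ p) (hr : 4 ≤ r) (hR : 1 ≤ R)
    (h : p ^ (3 * r) * ((p ^ r) ^ (c0 + 1)) ^ 3 * R ^ 3 ≤ p ^ a) :
    3 * (LB (p ^ r) c0 (p ^ a * R) + 1) ≤ a :=
  (Nat.pow_le_pow_iff_right (by omega : 1 < p)).1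
    (clock_LB c0 hr (Nat.pow_pos (by omega)) hR h)

theorem LB_le_cl {B : ℕ} (hB : 1 < B) (c0 G : ℕ) : LB B c0 G ≤ (c0 + 1) * cl G := by
  have h1 : Nat.log B G ≤ Nat.log 2 G := Nat.log_anti_left (by norm_num) hB
  have h2 : 2 ^ Nat.log 2 G ≤ G + 1 := by
    rcases Nat.eq_zero_or_pos G with rfl | h
    · simp
    · exact (Nat.pow_log_le_self 2 (by omega)).trans (Nat.le_succ _)
  have h3 : Nat.log 2 G < cl G := by
    have h4 : 2 ^ Nat.log 2 G < 2 ^ cl G := by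
      have := lt_two_pow_cl G
      omega
    exact (Nat.pow_lt_pow_iff_right (by norm_num)).1 h4
  have h5 : c0 ≤ c0 * cl G := Nat.le_mul_of_pos_right _ (one_le_cl G)
  have h6 : (c0 + 1) * cl G = c0 * cl G + cl G := by ring
  rw [h6]
  unfold LB
  omega

variable {α : Type} {g G : α → ℕ}

theorem PL_LB {B : ℕ} (hB : 1 < B) (c0 : ℕ) (hG : BL G g) : PL (fun a => LB B c0 (G a)) g :=
  ((PL.const (c0 + 1) g).mul (PL_cl hG)).mono_left fun a => LB_le_cl hB c0 (G a)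

theorem ptu_LB [PTCode α] {B : ℕ} (hB : 1 < B) (c0 : ℕ) (hG : PTF G) :
    PTU (fun a => LB B c0 (G a)) := by
  have h : PTF (fun a => LB B c0 (G a)) := by unfold LB; fun_prop
  exact h.toPTU (((PB.const (c0 + 1)).mul (PB_cl hG)).mono fun a => LB_le_cl hB c0 (G a))

end general

/-! ### choice of `L` with prescribed parity (post #6480) -/

section parity

/-- `L0 = log B G + 1` (least with `G < B^L0`) or `L0 + 1`, with `L + 1 = c mod 2` -/
def Lpar (B G c : ℕ) : ℕ := LB B ((Nat.log B G + 2 + c) % 2) G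

theorem Lpar_eq (B G c : ℕ) : Lpar B G c = Nat.log B G + 1 + (Nat.log B G + 2 + c) % 2 := rfl

theorem Lpar_mod (B G c : ℕ) : (Lpar B G c + 1) % 2 = c % 2 := by
  rw [Lpar_eq]; omega

theorem LB_le_Lpar (B G c : ℕ) : LB B 0 G ≤ Lpar B G c := by
  rw [Lpar_eq]; unfold LB; omega

theorem Lpar_le_LB (B G c : ℕ) : Lpar B G c ≤ LB B 1 G := by
  rw [Lpar_eq]; unfold LB; omega

theorem lt_pow_Lpar {B : ℕ} (hB : 1 < B) (G c : ℕ) : G < B ^ Lpar B G c := lt_pow_LB hB _ G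

theorem Lpar_pos (B G c : ℕ) : 1 ≤ Lpar B G c := LB_pos _ _ _

theorem pow_Lpar_le {B : ℕ} (hB : 1 ≤ B) {G : ℕ} (hG : 1 ≤ G) (c : ℕ) :
    B ^ Lpar B G c ≤ B ^ 2 * G :=
  (Nat.pow_le_pow_right hB (Lpar_le_LB B G c)).trans (pow_LB_le B 1 hG)

/-- clock window for `Lpar`, growth `p^r`, `Gam = P × T_r` -/
theorem clock_Lpar {p r P R : ℕ} (c : ℕ) (hp : 2 ≤ p) (hr : 4 ≤ r) (hP : 1 ≤ P) (hR : 1 ≤ R)
    (h : p ^ (9 * r) * R ^ 3 ≤ P) : p ^ (3 * (Lpar (p ^ r) (P * R) c + 1)) ≤ P := by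
  refine clock_gen hr hP ?_
    (pow_Lpar_le (Nat.one_le_pow _ _ (by omega)) (Nat.mul_pos hP hR) c)
  refine le_trans (le_of_eq ?_) h
  rw [← pow_mul, ← pow_mul, ← pow_add]
  congr 2
  ring

/-- **the numbers of the clock**: `|P| = p^a`, `|T_r| = p^b`, `|T| = p^t`, growth `p^r` per layer,
`L = Lpar`, `n = L + 1` clock positions: the `3 n` digits fit in `a`, the rest has an even number
of digits, `|P| |T_r| < (p^r)^L` -/
theorem clock_numbers {p r a b t : ℕ} (hp : 2 ≤ p) (hr : 4 ≤ r)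
    (h : p ^ (9 * r) * (p ^ b) ^ 3 ≤ p ^ a) :
    p ^ (a + b) < (p ^ r) ^ Lpar (p ^ r) (p ^ (a + b)) (a + b + t) ∧
    3 * (Lpar (p ^ r) (p ^ (a + b)) (a + b + t) + 1) ≤ a ∧
    ∃ m, a + b + t = 3 * (Lpar (p ^ r) (p ^ (a + b)) (a + b + t) + 1) + 2 * m := by
  have hB : 1 < p ^ r := Nat.one_lt_pow (by omega) (by omega)
  have h1 : 3 * (Lpar (p ^ r) (p ^ (a + b)) (a + b + t) + 1) ≤ a := by
    have h2 := clock_Lpar (p := p) (r := r) (P := p ^ a) (R := p ^ b) (a + b + t) hp hr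
      (Nat.pow_pos (by omega)) (Nat.pow_pos (by omega)) h
    rw [← pow_add] at h2
    exact (Nat.pow_le_pow_iff_right (by omega : 1 < p)).1 h2
  refine ⟨lt_pow_Lpar hB _ _, h1, ?_⟩
  have h3 := Lpar_mod (p ^ r) (p ^ (a + b)) (a + b + t)
  refine ⟨(a + b + t - 3 * (Lpar (p ^ r) (p ^ (a + b)) (a + b + t) + 1)) / 2, ?_⟩
  omega

variable {α : Type} {g G : α → ℕ}

theorem PL_Lpar {B : ℕ} (hB : 1 < B) (c : α → ℕ) (hG : BL G g) :
    PL (fun a => Lpar B (G a) (c a)) g :=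
  (PL_LB hB 1 hG).mono_left fun a => Lpar_le_LB B (G a) (c a)

theorem ptu_Lpar [PTCode α] {B : ℕ} (hB : 1 < B) {c : α → ℕ} (hc : PTF c) (hG : PTF G) :
    PTU (fun a => Lpar B (G a) (c a)) := by
  have h : PTF (fun a => Lpar B (G a) (c a)) := by
    simp only [Lpar_eq]
    fun_prop
  exact h.toPTU (((PB.const (1 + 1)).mul (PB_cl hG)).mono fun a =>
    (Lpar_le_LB B (G a) (c a)).trans (LB_le_cl hB 1 (G a)))

end parity

end Crest.Agent.R289.Window954
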