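import Crest.Agent.R289.InsObj_576
import Crest.Agent.R289.ClkTD_766
import Crest.Agent.R289.ClockE_698
import Crest.Agent.R289.Window_954

/-!
# Row 289: the family of machines over a fixed object (helper12)

`Mem h W c0` : one member = levels of the three factors, path in `T`, layout of the two circuits,
number of layers `LB (3 ^ 5) c0 |Γ|`, sizes of the clock.
`Mem.I` = the instance `InsObj576.ins`; `Mem.e` = clock coordinates of the units (`ClockE698.eU`),
`Mem.tq`, `Mem.cw`, `Mem.mc` = clock words and clock moves of `ClkTD_766`.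
-/

set_option autoImplicit false

namespace Crest.Agent.R289.Mem12

open Crest.Agent.R289.Asm12 Crest.Agent.R289.DefC Crest.Agent.R289.DefI
  Crest.Agent.R289.InsObj576 Crest.Agent.R289.ClockE698 Crest.Agent.R289.ClkTD766

/-- one member of the family -/
structure Mem {D : Obj} {M0 : ℕ} {lam0 Kr : ℝ} (h : D.OK M0 lam0 Kr) (W c0 : ℕ) where
  kP : ℕ
  kR : ℕ
  kT : ℕ
  /-- path in `T` -/
  P : TSide492.Path (D.P kT) (Fin W) (Fin W × Fin W)
  /-- layout of the two circuits on the content group -/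
  lay : Layout (D.P kP × D.P kR) (G D) (Fin 28) 128
  ok : lay.OK (act D kP kR) (26 : Fin 28)
  h0 : BootC515.H0 (act D kP kR) (26 : Fin 28) lay
  /-- number of layers -/
  L_eq : P.L = Window954.LB (3 ^ 5) c0 (D.Q ^ (kP + kR))
  /-- the orders of the factors are powers of 3 -/
  a : ℕ
  b : ℕ
  t : ℕ
  hP : D.Q ^ kP = 3 ^ a
  hR : D.Q ^ kR = 3 ^ b
  hT : D.Q ^ kT = 3 ^ t
  /-- window of the clock -/
  hn : 3 * (P.L + 1) ≤ a
  /-- large content group -/
  big : 4096 ≤ D.Q ^ (kP + kR)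

namespace Mem

variable {D : Obj} {M0 : ℕ} {lam0 Kr : ℝ} {h : D.OK M0 lam0 Kr} {W c0 : ℕ} (i : Mem h W c0)

/-- the instance -/
noncomputable def I : Ins (cst h W) := ins h W i.kP i.kR i.kT i.P i.lay

/-- units -/
abbrev U : Type := (D.P i.kP × D.P i.kR) × D.P i.kT

theorem U_eq : i.I.U = i.U := rfl

/-- sizes of the clock -/
def siz : Siz 3 (i.P.L + 1) := ⟨D.Q ^ i.kP, D.Q ^ i.kR, D.Q ^ i.kT, i.a, i.b, i.t, i.hP, i.hR,
  i.hT, i.hn⟩

/-- clock coordinates of the units -/
noncomputable def e : i.I.U ≃ Clock311.U 3 (i.I.L + 1) (Fin i.siz.rho) :=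
  eU i.siz (D.ix i.kP) (D.ix i.kR) (D.ix i.kT)

/-- `T`-component of the public coordinate -/
def tq : Fin i.siz.rho → i.I.T := ClockE698.tq i.siz (D.ix i.kT)

theorem tq_e (u : i.I.U) : u.2 = i.tq (i.e u).2.2.2 :=
  tq_eU i.siz (D.ix i.kP) (D.ix i.kR) (D.ix i.kT) u

/-- clock words -/
noncomputable def cw (t : ℕ) : i.I.U → ZMod 3 := ClkTD766.cw i.I i.e t

/-- clock moves -/
noncomputable def mc (g : CG (cst h W)) : i.I.U → i.I.U := ClkTD766.mc i.I i.e i.tq g

noncomputable instance : Fintype i.I.U := inferInstanceAs (Fintype i.U)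

instance : Nonempty i.I.Γ := inferInstanceAs (Nonempty (D.P i.kP × D.P i.kR))

instance : Nonempty i.I.U := inferInstanceAs (Nonempty i.U)

end Mem

end Crest.Agent.R289.Mem12
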