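import Crest.Agent.R289.RegsObj_335
import Crest.Agent.R289.LabEq_560
import Crest.Agent.R289.HypObj_146
import Crest.Agent.R289.Mem_12

/-!
Row 289, joint I4 (helper335): the local code of the labels on a member of the family `Mem_12`.

* `cur_CG`, `cur_CT` : the codes of `InsObj_576` / `HypObj_146` in curried form are the codes of the
  registers;
* `clkC_mem` : the clock code = the clock words `cw t`, `t ≤ L`;
* `labCO_eq`, `labCO_mem` : the code of `RegsObj_335` = label words of the configurations of `LMI_827`;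
* **`cax_mem`** : the `CAx` of the labels, constants and rules independent of the member.
-/

set_option autoImplicit false
set_option linter.unusedSectionVars false

namespace Crest.Agent.R289.RegsMem335

open Finset Crest.Agent.R289.DefD Crest.Agent.R289.Word508 Crest.Agent.R289.Asm12
open Crest.Agent.R289.LU846 (tens)
open Crest.Agent.R289.LUb443 (repC)
open Crest.Agent.R289.DefI Crest.Agent.R289.Compile827 Crest.Agent.R289.LMI827
open Crest.Agent.R289.LabCAx560 Crest.Agent.R289.LUofTP239 Crest.Agent.R289.RegsFac335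
open Crest.Agent.R289.RegsObj335 Crest.Agent.R289.InsObj576 Crest.Agent.R289.HypObj146
open Crest.Agent.R289.Mem12 Crest.Agent.R289.Clock425 Crest.Agent.R289.ClockE698 Crest.Agent.R289.DefC

section codes
variable (D : Obj)

theorem cur_CG (kP kR d : ℕ) : cur (InsObj576.CG D kP kR d) = tens (CP D kP d) (CP D kR d) := rfl

theorem cur_CT (k d : ℕ) : cur (HypObj146.CT D k d) = CP D k d := rfl

end codes

section main
variable {D : Obj} {M0 : ℕ} {lam0 Kr : ℝ} (h : D.OK M0 lam0 Kr)

/-- the code of `RegsObj_335` is the code of `LabCAx_560` on the instance -/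
theorem labCO_eq (W kP kR kT : ℕ) (P : TSide492.Path (D.P kT) (Fin W) (Fin W × Fin W))
    (lay : Layout (D.P kP × D.P kR) (G D) (Fin 28) 128) {Ck : Type}
    (Cc : Set ((D.P kP × D.P kR) × D.P kT → Ck)) :
    labCO h W kP kR kT Cc = LabCode (ins h W kP kR kT P lay)
      (cur (InsObj576.CG D kP kR 1)) (cur (InsObj576.CG D kP kR 4))
      (cur (HypObj146.CT D kT 1)) (cur (HypObj146.CT D kT 2)) Cc :=
  labC_eq (ins h W kP kR kT P lay) (cur (InsObj576.CG D kP kR 1)) (cur (InsObj576.CG D kP kR 4))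
    (cur (HypObj146.CT D kT 1)) (cur (HypObj146.CT D kT 2)) Cc

variable {h} {W c0 : ℕ} (i : Mem h W c0)

/-- the clock code consists of the clock words -/
theorem clkC_mem : clkC i.e = {t | ∃ j, j ≤ i.I.L ∧ t = i.cw j} := by
  ext w
  constructor
  · rintro ⟨t, rfl⟩
    refine ⟨t, Nat.lt_succ_iff.1 t.2, ?_⟩
    funext u
    have : ClkTD766.pos i.I.L (t : ℕ) = t := Fin.ext (ClkTD766.pos_val (Nat.lt_succ_iff.1 t.2))
    show Clock311.clk t (i.e u) = Clock311.clk (ClkTD766.pos i.I.L t) (i.e u)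
    rw [this]
  · rintro ⟨j, -, rfl⟩
    exact ⟨ClkTD766.pos i.I.L j, rfl⟩

/-- the content codes of the member -/
abbrev mCG : ℕ → Submodule D.K (i.I.Om → D.K) := InsObj576.CG D i.kP i.kR
/-- the codes of the member on `T` -/
abbrev mCT : ℕ → Submodule D.K (i.I.n → D.K) := HypObj146.CT D i.kT

/-- words of the code = label words of the configurations -/
theorem labCO_mem : labCO h W i.kP i.kR i.kT (clkC i.e) =
    {w | ∃ f : Conf (XS i.I (mCG i)) (ZS i.I (mCG i) (mCT i)) (cst h W).A.Tr, f.t ≤ i.I.L ∧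
      w = labS i.I (mCG i) (mCT i) i.cw f} := by
  have h1 := labCO_eq h W i.kP i.kR i.kT i.P i.lay (clkC i.e)
  have h2 := LabCode_labS i.I (mCG i) (mCT i) i.cw i.I.L
  rw [← clkC_mem i] at h2
  exact h1.trans h2

/-- neighbours of the label on the member -/
noncomputable def nbM : SO D (Slot (ClockU698.SJ 3)) → i.I.U → i.I.U :=
  labNbO D (nbU i.siz (D.ix i.kP) (D.ix i.kR) (D.ix i.kT))

/-- code of the label on the member: label words of the configurations of the machine -/
def codM : Set (i.I.U → (cst h W).Lab (ZMod 3)) :=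
  {w | ∃ f : Conf (XS i.I (mCG i)) (ZS i.I (mCG i) (mCT i)) (cst h W).A.Tr, f.t ≤ i.I.L ∧
      w = labS i.I (mCG i) (mCT i) i.cw f}

end main

instance fact3 : Fact (Nat.Prime 3) := ⟨by norm_num⟩

theorem finI5 {ιl ιc ιR ιR' ιX ιX' ιZ ιZ' : Type} [Finite ιl] [Finite ιc] [Finite ιR] [Finite ιR']
    [Finite ιX] [Finite ιX'] [Finite ιZ] [Finite ιZ'] :
    ∀ a, Finite (LabCAx335.I5 ιl ιc ιR ιR' ιX ιX' ιZ ιZ' a)
  | .lt => inferInstanceAs (Finite (Option ιl))
  | .ck => inferInstanceAs (Finite ιc)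
  | .rg => inferInstanceAs (Finite (ιR ⊕ ιR'))
  | .rx => inferInstanceAs (Finite (ιX ⊕ ιX'))
  | .rz => inferInstanceAs (Finite (ιZ ⊕ ιZ'))

/-- the set of slots is finite -/
theorem finSO (D : Obj) (ιc : Type) [Fintype ιc] : Finite (SO D ιc) := by
  have e1 : Finite (Sl D) := inferInstance
  have e2 : Finite (ItI 2 ιc) := inferInstance
  have e3 : Finite (Sg D ⊕ Option (Option D.K)) := inferInstance
  have e4 : Finite (Sg' D × LUb443.Slots (Option D.K) 9) := inferInstance
  have e5 : Finite (Sg D ⊕ VS (Option D.K)) := inferInstance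
  have e6 : Finite (Sg' D × LUb443.Slots (Option D.K × Option D.K) 9) := inferInstance
  have e7 := @finI5 _ _ _ _ _ _ _ _ e1 e2 e3 e4 e5 e6 e5 e6
  exact @Finite.instSigma _ _ _ e7

theorem finSM (D : Obj) : Finite (SO D (Slot (ClockU698.SJ 3))) := finSO D _

/-- **THE LOCAL CODE OF THE LABELS OF ONE MEMBER**: constants and rules independent of the member -/
theorem cax_mem {D : Obj} {M0 : ℕ} {lam0 Kr : ℝ} (h : D.OK M0 lam0 Kr) (hK : 0 ≤ Kr)
    (h4 : 4 ≤ M0) (hl0 : lam0 ≤ 1 / 64) :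
    ∃ (n : ℕ) (zs r0 d0 c : ℝ), 0 < zs ∧ 0 < r0 ∧ 0 < d0 ∧ 0 ≤ c ∧
      ∀ (W c0 : ℕ) (i : Mem h W c0) (P : Type) (pub : i.I.U → P),
        CAx (labRO h W n (P := P) (clkRules 3 (ClockU698.SJ 3))) (nbM i) pub (codM i) 1
          zs r0 d0 c (1 / 4) := by
  obtain ⟨n, hn⟩ := lab_obj h hK h4 hl0
  refine ⟨n, ZS (VS (Option D.K)) (zsP D Kr) (cP D) (1 / 205), RS (1 / 8), DS (1 / 2),
    5 * CS (VS (Option D.K)) (zsP D Kr) (cP D) 16, ?_, RS_pos (by norm_num), DS_pos (by norm_num),
    ?_, fun W c0 i P pub => ?_⟩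
  · obtain ⟨n', F⟩ := fac_obj D h hK h4 hl0
    exact ZS_pos F (by norm_num)
  · have := three_le_CS (VS (Option D.K)) (zsP D Kr) (cP D) 16
    linarith
  · have h1 := hn W i.kP i.kR i.kT (Slot (ClockU698.SJ 3)) (ZMod 3) P
      (clkRules 3 (ClockU698.SJ 3)) (nbU i.siz (D.ix i.kP) (D.ix i.kR) (D.ix i.kT)) (clkC i.e) pub
      (1 / 205) (1 / 8) (1 / 2) 16 (by norm_num)
      (clkU_CAx i.siz (D.ix i.kP) (D.ix i.kR) (D.ix i.kT))
    rw [labCO_mem i] at h1
    exact h1

end Crest.Agent.R289.RegsMem335
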