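import Crest.Agent.R289.LMI_827
import Crest.Agent.R289.ULoc_406

/-!
# Row 289, leaf C_SEM (step half, helper844)

Step maps of the compiled machine as functionals of LABEL WORDS over the literal `DefI_306` instance.

* unit forms `evU`, `wvU`, `LamU`, `pushU`, `popU`, `entU`, `updU`, `dndU`, `EnU`, `BkU`, `X0U` of the
  functions of `DefI`, with their values on `bankE x z`;
* `SNE`, `SME` : step maps of label words, given the set of enabled labels; `FlN`, `FlM` : flags;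
* exactness on the words of the configurations of `LMI827.lmI` : `N = stepN`, `M = stepM`;
* the facts `N_mem .. NM`, start, dead ends on `W = {labE cw (conf a)}`.
-/

set_option autoImplicit false
set_option linter.unusedSectionVars false
set_option linter.unusedVariables false

namespace Crest.Agent.R289.SemN844

open Finset DefC DefI Compile827 LMI827

variable {K : Type} [Field K] {c : Cst K} (I : Ins c)

/-! ### unit forms -/

/-- value of an expression on a bank word -/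
def evU (B : I.U → c.Bank) : PE K c.A.Reg c.A.Pub c.G → I.U → c.S → K
  | .zero => fun _ _ => 0
  | .reg i => fun u s => (B u).R i s
  | .pub b => fun u s => I.pubP b (u.1, s)
  | .smul k e => fun u s => k * evU B e u s
  | .add e f => fun u s => evU B e u s + evU B f u s
  | .mul e f => fun u s => evU B e u s * evU B f u s
  | .tr g e => fun u s => evU B e (I.act g u.1, u.2) s
  | .ti g e => fun u s => evU B e ((I.act g).symm u.1, u.2) s

theorem evU_bankE (x : I.XW) (z : I.ZW) (e : PE K c.A.Reg c.A.Pub c.G) (u : I.U) (s : c.S) :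
    evU I (I.bankE x z) e u s = I.evalW e x.2 (u.1, s) := by
  induction e generalizing u with
  | zero => rfl
  | reg i => rfl
  | pub b => rfl
  | smul k e ih => simp only [evU, ih]; rfl
  | add e f ihe ihf => simp only [evU, ihe, ihf]; rfl
  | mul e f ihe ihf => simp only [evU, ihe, ihf]; rfl
  | tr g e ih => simp only [evU, ih]; rfl
  | ti g e ih => simp only [evU, ih]; rfl

/-- bundle of the components -/
def wvU (B : I.U → c.Bank) (u : I.U) : c.S → c.V := fun s a m =>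
  if a = 0 then evU I B (c.A.comp m) u s else 0

theorem wvU_bankE (x : I.XW) (z : I.ZW) :
    wvU I (I.bankE x z) = fun u s => I.wv x.2 (u.1, s) := by
  funext u s a m
  simp only [wvU, evU_bankE]
  rfl

/-- cascade operator on unit words -/
def LamU (Y : I.U → c.S → c.V) (u : I.U) : c.S → c.V := fun s a m =>
  ∑ j, ∑ b, c.lam j a b * Y (I.mv j u.1, u.2) s b m

/-- push of a bank word; `T` = clock data of the unit -/
def pushU (T : c.TD) (B : I.U → c.Bank) (u : I.U) : c.Bank where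
  stg := (B u).stg
  R := (B u).R
  X := fun s' s => LamU I (fun v => (B v).X s') u s + (B u).Xm s' s + T.Dp s' • wvU I B u s
  Xm := (B u).X
  Z := fun q s' s => LamU I (fun v => (B v).Z q s') u s + (B u).Zm q s' s
    + T.A q s' • LamU I (wvU I B) u s + T.B q s' • wvU I B u s
  Zm := (B u).Z

/-- pop of a bank word; `T` = clock data of the unit -/
def popU (T : c.TD) (B : I.U → c.Bank) (u : I.U) : c.Bank where
  stg := (B u).stg
  R := (B u).R
  X := (B u).Xm
  Xm := fun s' s => (B u).X s' s - LamU I (fun v => (B v).Xm s') u s - T.D s' • wvU I B u s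
  Z := (B u).Zm
  Zm := fun q s' s => (B u).Z q s' s - LamU I (fun v => (B v).Zm q s') u s
    - T.Am q s' • LamU I (wvU I B) u s - T.Bm q s' • wvU I B u s

/-- certificate of depth zero -/
def entU (B : I.U → c.Bank) (u : I.U) : c.Bank where
  stg := (B u).stg
  R := (B u).R
  X := fun s' s => I.D 0 (u.2, s') • wvU I B u s
  Xm := fun _ _ => 0
  Z := fun q s' s => I.A0 q (u.2, s') • LamU I (wvU I B) u s + I.B0 q (u.2, s') • wvU I B u s
  Zm := fun _ _ _ => 0

/-- forward update of the registers -/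
def updU (ρ : c.A.Tr) (B : I.U → c.Bank) (u : I.U) : c.Bank where
  stg := c.A.tgt ρ
  R := fun i => evU I B (c.A.up ρ i) u
  X := 0
  Xm := 0
  Z := 0
  Zm := 0

/-- backward update of the registers -/
def dndU (ρ : c.A.Tr) (B : I.U → c.Bank) (u : I.U) : c.Bank where
  stg := c.A.src ρ
  R := fun i => evU I B (c.A.dn ρ i) u
  X := 0
  Xm := 0
  Z := 0
  Zm := 0

/-- blank bank -/
def blankB (c : Cst K) (st : c.A.Stg) : c.Bank := ⟨st, 0, 0, 0, 0, 0⟩

theorem blank_eq (u : I.U) : I.bankE I.xz I.zz u = blankB c I.stgz := rfl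

theorem pushU_bankE (t : ℕ) (x : I.XW) (z : I.ZW) (u : I.U) :
    pushU I (I.td t u.2) (I.bankE x z) u = I.bankE x (I.push t x z) u := by
  unfold pushU
  rw [wvU_bankE]
  rfl

theorem popU_bankE (t : ℕ) (x : I.XW) (z : I.ZW) (u : I.U) :
    popU I (I.td (t + 1) u.2) (I.bankE x z) u = I.bankE x (I.pop t x z) u := by
  unfold popU
  rw [wvU_bankE]
  rfl

theorem entU_of (B : I.U → c.Bank) (x : I.XW) (z : I.ZW)
    (h1 : ∀ u, (B u).stg = x.1) (h2 : ∀ u i s, (B u).R i s = x.2 i (u.1, s)) (u : I.U) :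
    entU I B u = I.bankE x (I.ent x) u := by
  have he : ∀ (e : PE K c.A.Reg c.A.Pub c.G) (u : I.U) (s : c.S),
      evU I B e u s = I.evalW e x.2 (u.1, s) := by
    intro e
    induction e with
    | zero => intro u s; rfl
    | reg i => intro u s; exact h2 u i s
    | pub b => intro u s; rfl
    | smul k e ih => intro u s; simp only [evU, ih]; rfl
    | add e f ihe ihf => intro u s; simp only [evU, ihe, ihf]; rfl
    | mul e f ihe ihf => intro u s; simp only [evU, ihe, ihf]; rfl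
    | tr g e ih => intro u s; simp only [evU, ih]; rfl
    | ti g e ih => intro u s; simp only [evU, ih]; rfl
  have hw : wvU I B = fun u s => I.wv x.2 (u.1, s) := by
    funext u s a m
    simp only [wvU, he]
    rfl
  have hR : (B u).R = fun i s => x.2 i (u.1, s) := by
    funext i s; exact h2 u i s
  unfold entU
  rw [hw, h1 u, hR]
  rfl

theorem ent_upd (ρ : c.A.Tr) (x : I.XW) (z : I.ZW) (u : I.U) :
    entU I (updU I ρ (I.bankE x z)) u = I.bankE (I.up ρ x) (I.ent (I.up ρ x)) u :=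
  entU_of I _ (I.up ρ x) z (fun _ => rfl) (fun v i s => evU_bankE I x z _ v s) u

theorem ent_dnd (ρ : c.A.Tr) (x : I.XW) (z : I.ZW) (u : I.U) :
    entU I (dndU I ρ (I.bankE x z)) u = I.bankE (I.dn ρ x) (I.ent (I.dn ρ x)) u :=
  entU_of I _ (I.dn ρ x) z (fun _ => rfl) (fun v i s => evU_bankE I x z _ v s) u

/-- claims of the label `ρ` at a unit, forward -/
def EnU (ρ : c.A.Tr) (B : I.U → c.Bank) (u : I.U) : Prop :=
  (B u).stg = c.A.src ρ ∧ (∀ m, c.A.en ρ m → ∀ s' a, (B u).X s' c.s0 a m = 0) ∧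
    ∀ i, c.A.enI ρ i → ∀ s, evU I B (c.A.idl i) u s = 0

/-- claims of the label `ρ` at a unit, backward -/
def BkU (ρ : c.A.Tr) (B : I.U → c.Bank) (u : I.U) : Prop :=
  (B u).stg = c.A.tgt ρ ∧ (∀ m, c.A.bk ρ m → ∀ s' a, (B u).X s' c.s0 a m = 0) ∧
    ∀ i, c.A.bkI ρ i → ∀ s, evU I B (c.A.idl i) u s = 0

/-- the registers of the bank are the start registers at the unit -/
def X0U (B : I.U → c.Bank) (u : I.U) : Prop :=
  (B u).stg = I.stg0 ∧ ∀ i s, (B u).R i s = I.x0 i (u.1, s)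

theorem enU_iff [Nonempty I.Γ] (ρ : c.A.Tr) (x : I.XW) (z : I.ZW) :
    (∀ u, EnU I ρ (I.bankE x z) u) ↔ I.En ρ x z := by
  constructor
  · intro h
    obtain ⟨g0⟩ := ‹Nonempty I.Γ›
    refine ⟨(h (g0, 1)).1, fun m hm p g a => (h (g, p.1)).2.1 m hm p.2 a, fun i hi ω => ?_⟩
    have := (h (ω.1, 1)).2.2 i hi ω.2
    rw [evU_bankE] at this
    exact this
  · rintro ⟨h1, h2, h3⟩ u
    refine ⟨h1, fun m hm s' a => h2 m hm (u.2, s') u.1 a, fun i hi s => ?_⟩
    rw [evU_bankE]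
    exact h3 i hi _

theorem bkU_iff [Nonempty I.Γ] (ρ : c.A.Tr) (x : I.XW) (z : I.ZW) :
    (∀ u, BkU I ρ (I.bankE x z) u) ↔ I.Bk ρ x z := by
  constructor
  · intro h
    obtain ⟨g0⟩ := ‹Nonempty I.Γ›
    refine ⟨(h (g0, 1)).1, fun m hm p g a => (h (g, p.1)).2.1 m hm p.2 a, fun i hi ω => ?_⟩
    have := (h (ω.1, 1)).2.2 i hi ω.2
    rw [evU_bankE] at this
    exact this
  · rintro ⟨h1, h2, h3⟩ u
    refine ⟨h1, fun m hm s' a => h2 m hm (u.2, s') u.1 a, fun i hi s => ?_⟩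
    rw [evU_bankE]
    exact h3 i hi _

theorem x0U_iff [Nonempty I.Γ] (x : I.XW) (z : I.ZW) :
    (∀ u, X0U I (I.bankE x z) u) ↔ x = I.xs := by
  constructor
  · intro h
    obtain ⟨g0⟩ := ‹Nonempty I.Γ›
    refine Prod.ext (h (g0, 1)).1 ?_
    funext i ω
    exact (h (ω.1, 1)).2 i ω.2
  · rintro rfl u
    exact ⟨rfl, fun i s => rfl⟩

/-! ### step maps of label words -/

section step

variable {Ck Gc : Type} (mc : Gc → I.U → I.U) (rd : (Gc → Ck) → c.TD) (cup cdn : (Gc → Ck) → Ck)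

/-- clock view -/
def ckr (w : I.U → c.Lab Ck) (u : I.U) : Gc → Ck := fun g => (w (mc g u)).ck

open Classical in
/-- forward step at a unit whose letter is `l`; `e` = set of enabled labels -/
noncomputable def SNl (e : c.A.Tr → Prop) (l : Letter c.A.Tr) (w : I.U → c.Lab Ck) (u : I.U) :
    c.Lab Ck :=
  match l with
  | .boot => if (rd (ckr I mc w u)).lst = true
      then ⟨.rest, cup (ckr I mc w u), (w u).b2, blankB c I.stgz⟩
      else ⟨.boot, cup (ckr I mc w u), (w u).b1,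
        pushU I (rd (ckr I mc w u)) (fun v => (w v).b2) u⟩
  | .rest => if h : ∃ ρ, e ρ
      then ⟨.fw h.choose, (w u).ck, (w u).b1, entU I (updU I h.choose fun v => (w v).b1) u⟩
      else w u
  | .fw ρ => if (rd (ckr I mc w u)).lst = true
      then ⟨.bw ρ, (w u).ck, (w u).b1, (w u).b2⟩
      else ⟨.fw ρ, cup (ckr I mc w u), (w u).b1,
        pushU I (rd (ckr I mc w u)) (fun v => (w v).b2) u⟩
  | .bw ρ => if (rd (ckr I mc w u)).fst = true
      then ⟨.rest, (w u).ck, (w u).b2, blankB c I.stgz⟩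
      else ⟨.bw ρ, cdn (ckr I mc w u), popU I (rd (ckr I mc w u)) (fun v => (w v).b1) u,
        (w u).b2⟩

/-- forward step of label words -/
noncomputable def SNE (e : c.A.Tr → Prop) (w : I.U → c.Lab Ck) (u : I.U) : c.Lab Ck :=
  SNl I mc rd cup cdn e (w u).l w u

open Classical in
/-- backward step at a unit whose letter is `l`; `e` = set of enabled labels, `e0` = the registers
of bank 1 are the start registers -/
noncomputable def SMl (e : c.A.Tr → Prop) (e0 : Prop) (l : Letter c.A.Tr) (w : I.U → c.Lab Ck)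
    (u : I.U) : c.Lab Ck :=
  match l with
  | .boot => if (rd (ckr I mc w u)).fst = true then w u
      else ⟨.boot, cdn (ckr I mc w u), (w u).b1,
        popU I (rd (ckr I mc w u)) (fun v => (w v).b2) u⟩
  | .rest => if h : ∃ ρ, e ρ
      then ⟨.bw h.choose, (w u).ck, entU I (dndU I h.choose fun v => (w v).b1) u, (w u).b1⟩
      else if e0 then ⟨.boot, cdn (ckr I mc w u), blankB c I.stgz, (w u).b1⟩ else w u
  | .fw ρ => if (rd (ckr I mc w u)).fst = true
      then ⟨.rest, (w u).ck, (w u).b1, blankB c I.stgz⟩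
      else ⟨.fw ρ, cdn (ckr I mc w u), (w u).b1,
        popU I (rd (ckr I mc w u)) (fun v => (w v).b2) u⟩
  | .bw ρ => if (rd (ckr I mc w u)).lst = true
      then ⟨.fw ρ, (w u).ck, (w u).b1, (w u).b2⟩
      else ⟨.bw ρ, cup (ckr I mc w u), pushU I (rd (ckr I mc w u)) (fun v => (w v).b1) u,
        (w u).b2⟩

/-- backward step of label words -/
noncomputable def SME (e : c.A.Tr → Prop) (e0 : Prop) (w : I.U → c.Lab Ck) (u : I.U) :
    c.Lab Ck :=
  SMl I mc rd cup cdn e e0 (w u).l w u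

/-- flag of the label `ρ`: some forward claim is violated at the unit -/
def FlN (ρ : c.A.Tr) (w : I.U → c.Lab Ck) (u : I.U) : Prop :=
  (w u).l = .rest ∧ ¬ EnU I ρ (fun v => (w v).b1) u

/-- flags of the backward step: a backward claim of `ρ` is violated; the registers differ from the
start registers -/
def FlM (j : Option c.A.Tr) (w : I.U → c.Lab Ck) (u : I.U) : Prop :=
  (w u).l = .rest ∧
    match j with
    | some ρ => ¬ BkU I ρ (fun v => (w v).b1) u
    | none => ¬ X0U I (fun v => (w v).b1) u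

/-- forward step, given which flags are seen somewhere -/
noncomputable def SN (b : c.A.Tr → Prop) (w : I.U → c.Lab Ck) (u : I.U) : c.Lab Ck :=
  SNE I mc rd cup cdn (fun ρ => ¬ b ρ) w u

/-- backward step, given which flags are seen somewhere -/
noncomputable def SM (b : Option c.A.Tr → Prop) (w : I.U → c.Lab Ck) (u : I.U) : c.Lab Ck :=
  SME I mc rd cup cdn (fun ρ => ¬ b (some ρ)) (¬ b none) w u

/-- forward map of label words -/
noncomputable def N (w : I.U → c.Lab Ck) : I.U → c.Lab Ck :=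
  SN I mc rd cup cdn (fun ρ => ∃ u, FlN I ρ w u) w

/-- backward map of label words -/
noncomputable def M (w : I.U → c.Lab Ck) : I.U → c.Lab Ck :=
  SM I mc rd cup cdn (fun j => ∃ u, FlM I j w u) w

/-- the clock: reads and moves on the exact clock words -/
structure Clk (cw : ℕ → I.U → Ck) : Prop where
  rd : ∀ t, t ≤ I.L → ∀ u, rd (fun g => cw t (mc g u)) = I.td t u.2
  up : ∀ t, t < I.L → ∀ u, cup (fun g => cw t (mc g u)) = cw (t + 1) u
  top : ∀ u, cup (fun g => cw I.L (mc g u)) = cw 0 u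
  dn : ∀ t, t + 1 ≤ I.L → ∀ u, cdn (fun g => cw (t + 1) (mc g u)) = cw t u
  zero : ∀ u, cdn (fun g => cw 0 (mc g u)) = cw I.L u
  inj : ∀ t t', t ≤ I.L → t' ≤ I.L → cw t = cw t' → t = t'

variable {CG : ℕ → Submodule K (I.Om → K)} {CT : ℕ → Submodule K (I.n → K)} {tt : ℕ → I.T}

/-- underlying raw configuration -/
def vl {I : Ins c} {CG : ℕ → Submodule K (I.Om → K)} {CT : ℕ → Submodule K (I.n → K)}
    (f : Conf (XS I CG) (ZS I CG CT) c.A.Tr) : Conf I.XW I.ZW c.A.Tr :=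
  ⟨f.l, f.t, f.x1.1, f.z1.1, f.x2.1, f.z2.1⟩

theorem vl_inj {I : Ins c} {CG : ℕ → Submodule K (I.Om → K)} {CT : ℕ → Submodule K (I.n → K)}
    {f g : Conf (XS I CG) (ZS I CG CT) c.A.Tr} (h : vl f = vl g) : f = g := by
  have h1 := congrArg Conf.l h
  have h2 := congrArg Conf.t h
  have h3 := congrArg Conf.x1 h
  have h4 := congrArg Conf.z1 h
  have h5 := congrArg Conf.x2 h
  have h6 := congrArg Conf.z2 h
  exact Conf.ext h1 h2 (Subtype.ext h3) (Subtype.ext h4) (Subtype.ext h5) (Subtype.ext h6)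

theorem bankE_inj [Nonempty I.Γ] {x x' : I.XW} {z z' : I.ZW}
    (h : I.bankE x z = I.bankE x' z') : x = x' ∧ z = z' := by
  obtain ⟨g0⟩ := ‹Nonempty I.Γ›
  constructor
  · refine Prod.ext (congrArg Cst.Bank.stg (congrFun h (g0, 1))) ?_
    funext i ω
    exact congrFun (congrFun (congrArg Cst.Bank.R (congrFun h (ω.1, 1))) i) ω.2
  · refine Ins.ZW.ext ?_ ?_ ?_ ?_
    · funext p ω
      exact congrFun (congrFun (congrArg Cst.Bank.X (congrFun h (ω.1, p.1))) p.2) ω.2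
    · funext p ω
      exact congrFun (congrFun (congrArg Cst.Bank.Xm (congrFun h (ω.1, p.1))) p.2) ω.2
    · funext q p ω
      exact congrFun (congrFun (congrFun (congrArg Cst.Bank.Z (congrFun h (ω.1, p.1))) q) p.2) ω.2
    · funext q p ω
      exact congrFun (congrFun (congrFun (congrArg Cst.Bank.Zm (congrFun h (ω.1, p.1))) q) p.2) ω.2

theorem labE_inj [Nonempty I.Γ] {cw : ℕ → I.U → Ck}
    (hcw : ∀ t t', t ≤ I.L → t' ≤ I.L → cw t = cw t' → t = t')
    {f g : Conf I.XW I.ZW c.A.Tr} (hf : f.t ≤ I.L) (hg : g.t ≤ I.L)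
    (h : I.labE cw f = I.labE cw g) : f = g := by
  have hl : f.l = g.l := by
    obtain ⟨g0⟩ := ‹Nonempty I.Γ›
    exact congrArg Cst.Lab.l (congrFun h (g0, 1))
  have ht : f.t = g.t := hcw _ _ hf hg (by
    funext u
    exact congrArg Cst.Lab.ck (congrFun h u))
  have h1 := bankE_inj I (x := f.x1) (x' := g.x1) (z := f.z1) (z' := g.z1) (by
    funext u
    exact congrArg Cst.Lab.b1 (congrFun h u))
  have h2 := bankE_inj I (x := f.x2) (x' := g.x2) (z := f.z2) (z' := g.z2) (by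
    funext u
    exact congrArg Cst.Lab.b2 (congrFun h u))
  exact Conf.ext hl ht h1.1 h1.2 h2.1 h2.2

/-! ### values on the words of configurations -/

open Classical in
/-- forward step of raw configurations with the enabled set `e` -/
noncomputable def stR (e : c.A.Tr → Prop) (f : Conf I.XW I.ZW c.A.Tr) : Conf I.XW I.ZW c.A.Tr :=
  match f.l with
  | .boot => if f.t < I.L then ⟨.boot, f.t + 1, f.x1, f.z1, f.x2, I.push f.t f.x2 f.z2⟩
      else ⟨.rest, 0, f.x2, f.z2, I.xz, I.zz⟩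
  | .rest => if h : ∃ ρ, e ρ then
      ⟨.fw h.choose, 0, f.x1, f.z1, I.up h.choose f.x1, I.ent (I.up h.choose f.x1)⟩ else f
  | .fw ρ => if f.t < I.L then ⟨.fw ρ, f.t + 1, f.x1, f.z1, f.x2, I.push f.t f.x2 f.z2⟩
      else ⟨.bw ρ, f.t, f.x1, f.z1, f.x2, f.z2⟩
  | .bw ρ => if 0 < f.t then ⟨.bw ρ, f.t - 1, f.x1, I.pop (f.t - 1) f.x1 f.z1, f.x2, f.z2⟩
      else ⟨.rest, 0, f.x2, f.z2, I.xz, I.zz⟩

open Classical in
/-- backward step of raw configurations -/
noncomputable def stB (e : c.A.Tr → Prop) (e0 : Prop) (f : Conf I.XW I.ZW c.A.Tr) :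
    Conf I.XW I.ZW c.A.Tr :=
  match f.l with
  | .boot => if 0 < f.t then ⟨.boot, f.t - 1, f.x1, f.z1, f.x2, I.pop (f.t - 1) f.x2 f.z2⟩ else f
  | .rest => if h : ∃ ρ, e ρ then
      ⟨.bw h.choose, 0, I.dn h.choose f.x1, I.ent (I.dn h.choose f.x1), f.x1, f.z1⟩
      else if e0 then ⟨.boot, I.L, I.xz, I.zz, f.x1, f.z1⟩ else f
  | .fw ρ => if 0 < f.t then ⟨.fw ρ, f.t - 1, f.x1, f.z1, f.x2, I.pop (f.t - 1) f.x2 f.z2⟩
      else ⟨.rest, 0, f.x1, f.z1, I.xz, I.zz⟩
  | .bw ρ => if f.t < I.L then ⟨.bw ρ, f.t + 1, f.x1, I.push f.t f.x1 f.z1, f.x2, f.z2⟩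
      else ⟨.fw ρ, f.t, f.x1, f.z1, f.x2, f.z2⟩

variable {mc rd cup cdn} {cw : ℕ → I.U → Ck}

theorem rd_labE (hC : Clk I mc rd cup cdn cw) (f : Conf I.XW I.ZW c.A.Tr) (ht : f.t ≤ I.L)
    (u : I.U) : rd (ckr I mc (I.labE cw f) u) = I.td f.t u.2 := hC.rd f.t ht u

theorem SNE_labE (hC : Clk I mc rd cup cdn cw) (e : c.A.Tr → Prop) (f : Conf I.XW I.ZW c.A.Tr)
    (ht : f.t ≤ I.L) (hr : f.l = .rest → f.t = 0) (u : I.U) :
    SNE I mc rd cup cdn e (I.labE cw f) u = I.labE cw (stR I e f) u := by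
  have hrd := rd_labE I hC f ht u
  obtain ⟨l, t, x1, z1, x2, z2⟩ := f
  simp only at ht hr hrd
  cases l with
  | boot =>
    show SNl I mc rd cup cdn e .boot _ u = _
    simp only [SNl, stR, hrd]
    rcases lt_or_eq_of_le ht with h | h
    · have h1 : (I.td t u.2).lst ≠ true := by
        simp [Ins.td, h.ne]
      rw [if_neg h1, if_pos h]
      refine Cst.Lab.ext rfl (hC.up t h u) rfl ?_
      exact pushU_bankE I t x2 z2 u
    · subst h
      have h1 : (I.td I.L u.2).lst = true := by simp [Ins.td]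
      rw [if_pos h1, if_neg (lt_irrefl _)]
      exact Cst.Lab.ext rfl (hC.top u) rfl rfl
  | rest =>
    have ht0 : t = 0 := hr rfl
    subst ht0
    show SNl I mc rd cup cdn e .rest _ u = _
    simp only [SNl, stR]
    by_cases h : ∃ ρ, e ρ
    · rw [dif_pos h, dif_pos h]
      refine Cst.Lab.ext rfl rfl rfl ?_
      exact ent_upd I _ x1 z1 u
    · rw [dif_neg h, dif_neg h]
  | fw ρ =>
    show SNl I mc rd cup cdn e (.fw ρ) _ u = _
    simp only [SNl, stR, hrd]
    rcases lt_or_eq_of_le ht with h | h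
    · have h1 : (I.td t u.2).lst ≠ true := by
        simp [Ins.td, h.ne]
      rw [if_neg h1, if_pos h]
      refine Cst.Lab.ext rfl (hC.up t h u) rfl ?_
      exact pushU_bankE I t x2 z2 u
    · subst h
      have h1 : (I.td I.L u.2).lst = true := by simp [Ins.td]
      rw [if_pos h1, if_neg (lt_irrefl _)]
      rfl
  | bw ρ =>
    show SNl I mc rd cup cdn e (.bw ρ) _ u = _
    simp only [SNl, stR, hrd]
    cases t with
    | zero =>
      have h1 : (I.td 0 u.2).fst = true := by simp [Ins.td]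
      rw [if_pos h1, if_neg (lt_irrefl _)]
      rfl
    | succ t =>
      have h1 : (I.td (t + 1) u.2).fst ≠ true := by simp [Ins.td]
      rw [if_neg h1, if_pos (Nat.succ_pos _)]
      refine Cst.Lab.ext rfl (hC.dn t ht u) ?_ rfl
      exact popU_bankE I t x1 z1 u

theorem SME_labE (hC : Clk I mc rd cup cdn cw) (e : c.A.Tr → Prop) (e0 : Prop)
    (f : Conf I.XW I.ZW c.A.Tr) (ht : f.t ≤ I.L) (hr : f.l = .rest → f.t = 0) (u : I.U) :
    SME I mc rd cup cdn e e0 (I.labE cw f) u = I.labE cw (stB I e e0 f) u := by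
  have hrd := rd_labE I hC f ht u
  obtain ⟨l, t, x1, z1, x2, z2⟩ := f
  simp only at ht hr hrd
  cases l with
  | boot =>
    show SMl I mc rd cup cdn e e0 .boot _ u = _
    simp only [SMl, stB, hrd]
    cases t with
    | zero =>
      have h1 : (I.td 0 u.2).fst = true := by simp [Ins.td]
      rw [if_pos h1, if_neg (lt_irrefl _)]
    | succ t =>
      have h1 : (I.td (t + 1) u.2).fst ≠ true := by simp [Ins.td]
      rw [if_neg h1, if_pos (Nat.succ_pos _)]
      refine Cst.Lab.ext rfl (hC.dn t ht u) rfl ?_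
      exact popU_bankE I t x2 z2 u
  | rest =>
    have ht0 : t = 0 := hr rfl
    subst ht0
    show SMl I mc rd cup cdn e e0 .rest _ u = _
    simp only [SMl, stB]
    by_cases h : ∃ ρ, e ρ
    · rw [dif_pos h, dif_pos h]
      refine Cst.Lab.ext rfl rfl ?_ rfl
      exact ent_dnd I _ x1 z1 u
    · rw [dif_neg h, dif_neg h]
      by_cases h0 : e0
      · rw [if_pos h0, if_pos h0]
        exact Cst.Lab.ext rfl (hC.zero u) rfl rfl
      · rw [if_neg h0, if_neg h0]
  | fw ρ =>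
    show SMl I mc rd cup cdn e e0 (.fw ρ) _ u = _
    simp only [SMl, stB, hrd]
    cases t with
    | zero =>
      have h1 : (I.td 0 u.2).fst = true := by simp [Ins.td]
      rw [if_pos h1, if_neg (lt_irrefl _)]
      rfl
    | succ t =>
      have h1 : (I.td (t + 1) u.2).fst ≠ true := by simp [Ins.td]
      rw [if_neg h1, if_pos (Nat.succ_pos _)]
      refine Cst.Lab.ext rfl (hC.dn t ht u) rfl ?_
      exact popU_bankE I t x2 z2 u
  | bw ρ =>
    show SMl I mc rd cup cdn e e0 (.bw ρ) _ u = _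
    simp only [SMl, stB, hrd]
    rcases lt_or_eq_of_le ht with h | h
    · have h1 : (I.td t u.2).lst ≠ true := by
        simp [Ins.td, h.ne]
      rw [if_neg h1, if_pos h]
      refine Cst.Lab.ext rfl (hC.up t h u) ?_ rfl
      exact pushU_bankE I t x1 z1 u
    · subst h
      have h1 : (I.td I.L u.2).lst = true := by simp [Ins.td]
      rw [if_pos h1, if_neg (lt_irrefl _)]
      rfl

end step

/-! ### the steps of the labelled machine -/

section lm

variable {I} {Ck Gc : Type} {mc : Gc → I.U → I.U} {rd : (Gc → Ck) → c.TD}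
  {cup cdn : (Gc → Ck) → Ck} {cw : ℕ → I.U → Ck}
  {CG : ℕ → Submodule K (I.Om → K)} {CT : ℕ → Submodule K (I.n → K)} {tt : ℕ → I.T}
  (h : Hyp I CG CT tt) (hx0 : c.A.Legal I.act I.pubC I.stg0 (I.con I.xs))
  (hb0 : ∀ ρ, ¬ (I.stg0 = c.A.tgt ρ ∧ c.A.Bk I.act I.pubC ρ (I.con I.xs)))

theorem vl_stepN (f : Conf (XS I CG) (ZS I CG CT) c.A.Tr) :
    vl ((lmI h hx0 hb0).stepN f) = stR I (fun ρ => I.En ρ f.x1.1 f.z1.1) (vl f) := by
  obtain ⟨l, t, x1, z1, x2, z2⟩ := f
  cases l with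
  | boot =>
    simp only [LM.stepN, stR, vl]
    by_cases ht : t < I.L
    · have ht' : t < (lmI h hx0 hb0).L := ht
      rw [if_pos ht, if_pos ht']
      rfl
    · have ht' : ¬ t < (lmI h hx0 hb0).L := ht
      rw [if_neg ht, if_neg ht']
      rfl
  | rest =>
    simp only [LM.stepN, stR, vl]
    by_cases he : ∃ ρ, I.En ρ x1.1 z1.1
    · have he' : ∃ ρ, (lmI h hx0 hb0).En ρ x1 z1 := he
      rw [dif_pos he, dif_pos he']
      rfl
    · have he' : ¬ ∃ ρ, (lmI h hx0 hb0).En ρ x1 z1 := he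
      rw [dif_neg he, dif_neg he']
  | fw ρ =>
    simp only [LM.stepN, stR, vl]
    by_cases ht : t < I.L
    · have ht' : t < (lmI h hx0 hb0).L := ht
      rw [if_pos ht, if_pos ht']
      rfl
    · have ht' : ¬ t < (lmI h hx0 hb0).L := ht
      rw [if_neg ht, if_neg ht']
  | bw ρ =>
    simp only [LM.stepN, stR, vl]
    by_cases ht : 0 < t
    · rw [if_pos ht, if_pos ht]
      rfl
    · rw [if_neg ht, if_neg ht]
      rfl

theorem vl_stepM (f : Conf (XS I CG) (ZS I CG CT) c.A.Tr) :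
    vl ((lmI h hx0 hb0).stepM f) =
      stB I (fun ρ => I.Bk ρ f.x1.1 f.z1.1) (f.x1.1 = I.xs) (vl f) := by
  obtain ⟨l, t, x1, z1, x2, z2⟩ := f
  cases l with
  | boot =>
    simp only [LM.stepM, stB, vl]
    by_cases ht : 0 < t
    · rw [if_pos ht, if_pos ht]
      rfl
    · rw [if_neg ht, if_neg ht]
  | rest =>
    simp only [LM.stepM, stB, vl]
    by_cases he : ∃ ρ, I.Bk ρ x1.1 z1.1
    · have he' : ∃ ρ, (lmI h hx0 hb0).Bk ρ x1 z1 := he
      rw [dif_pos he, dif_pos he']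
      rfl
    · have he' : ¬ ∃ ρ, (lmI h hx0 hb0).Bk ρ x1 z1 := he
      rw [dif_neg he, dif_neg he']
      by_cases h0 : x1.1 = I.xs
      · have h0' : x1 = (lmI h hx0 hb0).x0 := Subtype.ext h0
        rw [if_pos h0, if_pos h0']
        rfl
      · have h0' : ¬ x1 = (lmI h hx0 hb0).x0 := fun he => h0 (congrArg Subtype.val he)
        rw [if_neg h0, if_neg h0']
  | fw ρ =>
    simp only [LM.stepM, stB, vl]
    by_cases ht : 0 < t
    · rw [if_pos ht, if_pos ht]
      rfl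
    · rw [if_neg ht, if_neg ht]
      rfl
  | bw ρ =>
    simp only [LM.stepM, stB, vl]
    by_cases ht : t < I.L
    · have ht' : t < (lmI h hx0 hb0).L := ht
      rw [if_pos ht, if_pos ht']
      rfl
    · have ht' : ¬ t < (lmI h hx0 hb0).L := ht
      rw [if_neg ht, if_neg ht']

theorem conf_t (a : (lmI h hx0 hb0).CSt) : ((lmI h hx0 hb0).conf a).t ≤ I.L := by
  cases a with
  | boot t ht => exact ht
  | rest x hx => exact Nat.zero_le _
  | fw ρ x hx he t ht => exact ht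
  | bw ρ x hx he t ht => exact ht

theorem conf_rest (a : (lmI h hx0 hb0).CSt) (hl : ((lmI h hx0 hb0).conf a).l = .rest) :
    ((lmI h hx0 hb0).conf a).t = 0 := by
  cases a with
  | boot t ht => cases hl
  | rest x hx => rfl
  | fw ρ x hx he t ht => cases hl
  | bw ρ x hx he t ht => cases hl

/-- word of a state -/
def wd (cw : ℕ → I.U → Ck) (a : (lmI h hx0 hb0).CSt) : I.U → c.Lab Ck :=
  I.labE cw (vl ((lmI h hx0 hb0).conf a))

/-- a forward flag is seen somewhere iff the state rests and the label is not enabled -/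
theorem flN_iff [Nonempty I.Γ] (a : (lmI h hx0 hb0).CSt) (ρ : c.A.Tr)
    (hl : ((lmI h hx0 hb0).conf a).l = .rest) :
    (¬ ∃ u, FlN I ρ (wd h hx0 hb0 cw a) u) ↔
      I.En ρ ((lmI h hx0 hb0).conf a).x1.1 ((lmI h hx0 hb0).conf a).z1.1 := by
  rw [← enU_iff]
  constructor
  · intro hn u
    by_contra hc
    exact hn ⟨u, hl, hc⟩
  · rintro hE ⟨u, -, hu⟩
    exact hu (hE u)

theorem flM_iff [Nonempty I.Γ] (a : (lmI h hx0 hb0).CSt) (ρ : c.A.Tr)
    (hl : ((lmI h hx0 hb0).conf a).l = .rest) :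
    (¬ ∃ u, FlM I (some ρ) (wd h hx0 hb0 cw a) u) ↔
      I.Bk ρ ((lmI h hx0 hb0).conf a).x1.1 ((lmI h hx0 hb0).conf a).z1.1 := by
  rw [← bkU_iff]
  constructor
  · intro hn u
    by_contra hc
    exact hn ⟨u, hl, hc⟩
  · rintro hE ⟨u, -, hu⟩
    exact hu (hE u)

theorem flM_none [Nonempty I.Γ] (a : (lmI h hx0 hb0).CSt)
    (hl : ((lmI h hx0 hb0).conf a).l = .rest) :
    (¬ ∃ u, FlM I none (wd h hx0 hb0 cw a) u) ↔ ((lmI h hx0 hb0).conf a).x1.1 = I.xs := by
  rw [← x0U_iff I _ ((lmI h hx0 hb0).conf a).z1.1]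
  constructor
  · intro hn u
    by_contra hc
    exact hn ⟨u, hl, hc⟩
  · rintro hE ⟨u, -, hu⟩
    exact hu (hE u)

/-- steps from a letter other than `rest` do not use the enabled set -/
theorem SNE_irrel (e e' : c.A.Tr → Prop) (w : I.U → c.Lab Ck) (u : I.U) (hl : (w u).l ≠ .rest) :
    SNE I mc rd cup cdn e w u = SNE I mc rd cup cdn e' w u := by
  unfold SNE
  cases hw : (w u).l with
  | boot => rfl
  | rest => exact absurd hw hl
  | fw ρ => rfl
  | bw ρ => rfl

theorem SME_irrel (e e' : c.A.Tr → Prop) (e0 e0' : Prop) (w : I.U → c.Lab Ck) (u : I.U)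
    (hl : (w u).l ≠ .rest) :
    SME I mc rd cup cdn e e0 w u = SME I mc rd cup cdn e' e0' w u := by
  unfold SME
  cases hw : (w u).l with
  | boot => rfl
  | rest => exact absurd hw hl
  | fw ρ => rfl
  | bw ρ => rfl

/-- **`N` is the forward step** -/
theorem N_wd [Nonempty I.Γ] (hC : Clk I mc rd cup cdn cw) (a : (lmI h hx0 hb0).CSt) :
    N I mc rd cup cdn (wd h hx0 hb0 cw a) =
      I.labE cw (vl ((lmI h hx0 hb0).stepN ((lmI h hx0 hb0).conf a))) := by
  funext u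
  rw [vl_stepN, ← SNE_labE I hC _ _ (conf_t h hx0 hb0 a) (conf_rest h hx0 hb0 a)]
  show SNE I mc rd cup cdn _ (wd h hx0 hb0 cw a) u = SNE I mc rd cup cdn _ (wd h hx0 hb0 cw a) u
  by_cases hl : ((lmI h hx0 hb0).conf a).l = .rest
  · congr 1
    funext ρ
    exact propext (flN_iff h hx0 hb0 a ρ hl)
  · exact SNE_irrel _ _ _ _ hl

/-- **`M` is the backward step** -/
theorem M_wd [Nonempty I.Γ] (hC : Clk I mc rd cup cdn cw) (a : (lmI h hx0 hb0).CSt) :
    M I mc rd cup cdn (wd h hx0 hb0 cw a) =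
      I.labE cw (vl ((lmI h hx0 hb0).stepM ((lmI h hx0 hb0).conf a))) := by
  funext u
  rw [vl_stepM, ← SME_labE I hC _ _ _ (conf_t h hx0 hb0 a) (conf_rest h hx0 hb0 a)]
  show SME I mc rd cup cdn _ _ (wd h hx0 hb0 cw a) u =
    SME I mc rd cup cdn _ _ (wd h hx0 hb0 cw a) u
  by_cases hl : ((lmI h hx0 hb0).conf a).l = .rest
  · have h1 : (fun ρ => ¬ (∃ u, FlM I (some ρ) (wd h hx0 hb0 cw a) u)) =
        fun ρ => I.Bk ρ ((lmI h hx0 hb0).conf a).x1.1 ((lmI h hx0 hb0).conf a).z1.1 := by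
      funext ρ
      exact propext (flM_iff h hx0 hb0 a ρ hl)
    have h2 : (¬ (∃ u, FlM I none (wd h hx0 hb0 cw a) u)) =
        (((lmI h hx0 hb0).conf a).x1.1 = I.xs) := propext (flM_none h hx0 hb0 a hl)
    simp only [h1, h2]
  · exact SME_irrel _ _ _ _ _ _ hl

/-- the legal words -/
def W (cw : ℕ → I.U → Ck) : Set (I.U → c.Lab Ck) := {w | ∃ a, w = wd h hx0 hb0 cw a}

theorem mem_W_iff (cw : ℕ → I.U → Ck) (w : I.U → c.Lab Ck) :
    w ∈ W h hx0 hb0 cw ↔ ∃ f, (lmI h hx0 hb0).Legal f ∧ w = I.labE cw (vl f) := by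
  constructor
  · rintro ⟨a, rfl⟩
    exact ⟨_, (lmI h hx0 hb0).legal_conf a, rfl⟩
  · rintro ⟨f, hf, rfl⟩
    obtain ⟨a, rfl⟩ := ((lmI h hx0 hb0).legal_iff f).1 hf
    exact ⟨a, rfl⟩

theorem N_mem [Nonempty I.Γ] (hC : Clk I mc rd cup cdn cw) :
    ∀ w ∈ W h hx0 hb0 cw, N I mc rd cup cdn w ∈ W h hx0 hb0 cw := by
  rintro _ ⟨a, rfl⟩
  rw [N_wd h hx0 hb0 hC, mem_W_iff]
  exact ⟨_, (lmI h hx0 hb0).legal_stepN ((lmI h hx0 hb0).legal_conf a), rfl⟩

theorem M_mem [Nonempty I.Γ] (hC : Clk I mc rd cup cdn cw) :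
    ∀ w ∈ W h hx0 hb0 cw, M I mc rd cup cdn w ∈ W h hx0 hb0 cw := by
  rintro _ ⟨a, rfl⟩
  rw [M_wd h hx0 hb0 hC, mem_W_iff]
  exact ⟨_, (lmI h hx0 hb0).legal_stepM ((lmI h hx0 hb0).legal_conf a), rfl⟩

theorem MN [Nonempty I.Γ] (hC : Clk I mc rd cup cdn cw) :
    ∀ w ∈ W h hx0 hb0 cw, N I mc rd cup cdn w ≠ w →
      M I mc rd cup cdn (N I mc rd cup cdn w) = w := by
  rintro _ ⟨a, rfl⟩ hne
  have hf := (lmI h hx0 hb0).legal_conf a
  have hn : (lmI h hx0 hb0).stepN ((lmI h hx0 hb0).conf a) ≠ (lmI h hx0 hb0).conf a := by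
    intro he
    apply hne
    rw [N_wd h hx0 hb0 hC, he]
    rfl
  obtain ⟨b, hb⟩ := ((lmI h hx0 hb0).legal_iff _).1 ((lmI h hx0 hb0).legal_stepN hf)
  rw [N_wd h hx0 hb0 hC, hb]
  show M I mc rd cup cdn (wd h hx0 hb0 cw b) = _
  rw [M_wd h hx0 hb0 hC, ← hb, (lmI h hx0 hb0).stepM_stepN hf hn]
  rfl

theorem NM [Nonempty I.Γ] (hC : Clk I mc rd cup cdn cw) :
    ∀ w ∈ W h hx0 hb0 cw, M I mc rd cup cdn w ≠ w →
      N I mc rd cup cdn (M I mc rd cup cdn w) = w := by
  rintro _ ⟨a, rfl⟩ hne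
  have hf := (lmI h hx0 hb0).legal_conf a
  have hn : (lmI h hx0 hb0).stepM ((lmI h hx0 hb0).conf a) ≠ (lmI h hx0 hb0).conf a := by
    intro he
    apply hne
    rw [M_wd h hx0 hb0 hC, he]
    rfl
  obtain ⟨b, hb⟩ := ((lmI h hx0 hb0).legal_iff _).1 ((lmI h hx0 hb0).legal_stepM hf)
  rw [M_wd h hx0 hb0 hC, hb]
  show N I mc rd cup cdn (wd h hx0 hb0 cw b) = _
  rw [N_wd h hx0 hb0 hC, ← hb, (lmI h hx0 hb0).stepN_stepM hf hn]
  rfl

/-- start word -/
def w0 (I : Ins c) {Ck : Type} (cw : ℕ → I.U → Ck) : I.U → c.Lab Ck :=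
  I.labE cw ⟨.boot, 0, I.xz, I.zz, I.xs, I.ent I.xs⟩

theorem w0_eq : w0 I cw = wd h hx0 hb0 cw (.boot 0 (Nat.zero_le _)) := by
  have := (lmI h hx0 hb0).c0_eq
  unfold wd
  rw [← this]
  rfl

theorem w0_mem : w0 I cw ∈ W h hx0 hb0 cw := ⟨_, w0_eq h hx0 hb0⟩

include h hx0 hb0 in
theorem M_w0 [Nonempty I.Γ] (hC : Clk I mc rd cup cdn cw) :
    M I mc rd cup cdn (w0 I cw) = w0 I cw := by
  rw [w0_eq h hx0 hb0, M_wd h hx0 hb0 hC]
  unfold wd
  rw [(lmI h hx0 hb0).stepM_boot_zero]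

theorem wd_ne [Nonempty I.Γ] (hC : Clk I mc rd cup cdn cw)
    {f g : Conf (XS I CG) (ZS I CG CT) c.A.Tr} (hf : f.t ≤ I.L) (hg : g.t ≤ I.L)
    (he : I.labE cw (vl f) = I.labE cw (vl g)) : f = g :=
  vl_inj (labE_inj I hC.inj hf hg he)

theorem legal_t {f : Conf (XS I CG) (ZS I CG CT) c.A.Tr} (hf : (lmI h hx0 hb0).Legal f) :
    f.t ≤ I.L := by
  obtain ⟨a, rfl⟩ := ((lmI h hx0 hb0).legal_iff f).1 hf
  exact conf_t h hx0 hb0 a

include h hx0 hb0 in
theorem N_w0 [Nonempty I.Γ] (hC : Clk I mc rd cup cdn cw) :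
    N I mc rd cup cdn (w0 I cw) ≠ w0 I cw := by
  intro he
  rw [w0_eq h hx0 hb0, N_wd h hx0 hb0 hC] at he
  have hl := (lmI h hx0 hb0).legal_conf (.boot 0 (Nat.zero_le _))
  have h1 := wd_ne hC (legal_t h hx0 hb0 ((lmI h hx0 hb0).legal_stepN hl))
    (legal_t h hx0 hb0 hl) he
  rw [← (lmI h hx0 hb0).c0_eq] at h1
  exact (lmI h hx0 hb0).stepN_c0 h1

/-- **dead ends of `N`** -/
theorem N_eq_self [Nonempty I.Γ] (hC : Clk I mc rd cup cdn cw) (w : I.U → c.Lab Ck)
    (hw : w ∈ W h hx0 hb0 cw) (he : N I mc rd cup cdn w = w) :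
    ∃ x, ∃ hx : (lmI h hx0 hb0).IsL x, w = wd h hx0 hb0 cw (.rest x hx) ∧
      ∀ ρ, ¬ (lmI h hx0 hb0).en ρ x := by
  obtain ⟨a, rfl⟩ := hw
  have hl := (lmI h hx0 hb0).legal_conf a
  rw [N_wd h hx0 hb0 hC] at he
  have h1 := wd_ne hC (legal_t h hx0 hb0 ((lmI h hx0 hb0).legal_stepN hl))
    (legal_t h hx0 hb0 hl) he
  obtain ⟨x, hx, h2, h3⟩ := ((lmI h hx0 hb0).stepN_eq_self hl).1 h1
  exact ⟨x, hx, by unfold wd; rw [h2], h3⟩

/-- **dead ends of `M`** -/
theorem M_eq_self [Nonempty I.Γ] (hC : Clk I mc rd cup cdn cw) (w : I.U → c.Lab Ck)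
    (hw : w ∈ W h hx0 hb0 cw) (he : M I mc rd cup cdn w = w) (hne : w ≠ w0 I cw) :
    ∃ x, ∃ hx : (lmI h hx0 hb0).IsL x, w = wd h hx0 hb0 cw (.rest x hx) ∧
      (∀ ρ, ¬ (lmI h hx0 hb0).bk ρ x) ∧ x.1 ≠ I.xs := by
  obtain ⟨a, rfl⟩ := hw
  have hl := (lmI h hx0 hb0).legal_conf a
  rw [M_wd h hx0 hb0 hC] at he
  have h1 := wd_ne hC (legal_t h hx0 hb0 ((lmI h hx0 hb0).legal_stepM hl))
    (legal_t h hx0 hb0 hl) he
  rcases (lmI h hx0 hb0).stepM_cases a with ⟨b, hb, -, h3⟩ | ⟨x, hx, h2, h3, h4, -⟩ | ⟨h2, -⟩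
  · exact absurd (hb.symm.trans h1) h3
  · exact ⟨x, hx, by rw [h2], h3, fun hc => h4 (Subtype.ext hc)⟩
  · exfalso
    apply hne
    unfold wd
    rw [h2]
    rfl

end lm

end Crest.Agent.R289.SemN844
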