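import Crest.Agent.R289.DecD_950

/-!
# Row 289, block E, leaf E21 (helper589): the candidate functions of `Fam289`

`cReg l g ad len (x, A)` reads the bits `g (label)` at the units `ad (x, 0), ad (x, 1), ...`
(`len x` of them) and returns the one candidate list.  It is poly-time and contains `List.ofFn v`
as soon as the labels of the exact word at these units carry the bits `v i`.
-/

set_option autoImplicit false
set_option linter.dupNamespace false

namespace Crest.Agent.R289.Cand589

open Crest.Agent.Lib.PT Crest.Agent.R289 Crest.Agent.R289.DefD Crest.Agent.R289.Dec589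
open Crest.Agent.R289.DecD950

variable {γ : Type} [PTCode γ]

/-- the value of a finite function of one label, read from a row of bits -/
def rowVal (l : ℕ) (g : (Fin l → Bool) → Bool) (row : List Bool) : Bool :=
  g fun j => row.getD j false

theorem ptf_rowVal (l : ℕ) (g : (Fin l → Bool) → Bool) {row : γ → List Bool} (hr : PTF row) :
    PTF (fun c => rowVal l g (row c)) :=
  ptf_boolFn l g (fun j c => (row c).getD j false) fun _ => getDN (PTF.const _) hr (PTF.const _)

theorem rowVal_ofFn (l : ℕ) (g : (Fin l → Bool) → Bool) (x : Fin l → Bool) :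
    rowVal l g (List.ofFn x) = g x := by
  unfold rowVal
  congr 1
  funext j
  simp [List.getD_eq_getElem?_getD]

/-- the list of candidates: one list, read off the labels at the units `ad (x, i)` -/
def cReg (l : ℕ) (g : (Fin l → Bool) → Bool) (ad : γ × ℕ → ℕ) (len : γ → ℕ)
    (x : γ × List (List Bool)) : List (List Bool) :=
  [(List.range (len x.1)).map fun i => rowVal l g (x.2.getD (ad (x.1, i)) [])]

theorem ptf_cReg (l : ℕ) (g : (Fin l → Bool) → Bool) {ad : γ × ℕ → ℕ} {len : γ → ℕ}
    (had : PTF ad) (hlen : PTU len) : PTF (cReg l g ad len) := by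
  unfold cReg
  have h1 : PTF (fun x : γ × List (List Bool) =>
      (List.range (len x.1)).map fun i => rowVal l g (x.2.getD (ad (x.1, i)) [])) := by
    refine PTF.map (f := fun (x : γ × List (List Bool)) (i : ℕ) =>
      rowVal l g (x.2.getD (ad (x.1, i)) [])) ?_ ?_
    · exact PTF.range (hlen.comp PTF.fst)
    · refine ptf_rowVal l g ?_
      refine getDN ?_ ?_ (PTF.const _)
      · exact PTF.comp (f := fun y : (γ × List (List Bool)) × ℕ => (y.1.1, y.2)) had (by fun_prop)
      · fun_prop
  fun_prop

omit [PTCode γ] in
theorem mem_cReg {l n : ℕ} (g : (Fin l → Bool) → Bool) (ad : γ × ℕ → ℕ) (len : γ → ℕ) (c : γ)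
    (w : Fin n → Fin l → Bool) (v : Fin (len c) → Bool)
    (h : ∀ i : Fin (len c), ∃ u : Fin n, (u : ℕ) = ad (c, i) ∧ g (w u) = v i) :
    List.ofFn v ∈ cReg l g ad len (c, tabW w) := by
  unfold cReg
  rw [List.mem_singleton]
  apply List.ext_getElem
  · simp
  · intro i h1 h2
    have hi : i < len c := by simpa using h1
    obtain ⟨u, hu, hv⟩ := h ⟨i, hi⟩
    simp only [List.getElem_ofFn, List.getElem_map, List.getElem_range]
    have e := tabW_getD w u
    rw [show ad (c, i) = (u : ℕ) from hu.symm]
    show v ⟨i, hi⟩ = rowVal l g ((tabW w).getD (u : ℕ) [])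
    rw [e, rowVal_ofFn, hv]

end Crest.Agent.R289.Cand589
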