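import Crest.Agent.R289.DefD_721

/-!
# Row 289: change of unit set and of label alphabet for `MData.Ax` / `LRules.data`

* `push e D` : machine data transported along `e : U ≃ V`; `push_Ax`, `push_data`.
* `reindex` : `(R.data nb pub W w0 N M).Ax kc` on `U` gives the same on `V` (e.g. `V = Fin n`).
* `GRules k Γ Q` : local rules over arbitrary finite label type `Γ` and public type `Q`;
  `GRules.toL`, `relabel` : the same machine with labels coded by bits satisfies `Ax` with the
  same constants.
-/

set_option autoImplicit false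

namespace Crest.Agent.R289.Reidx790

open Finset Crest.Agent.R289.DefD

section basic
variable {U V Γ : Type} [Fintype U] [Fintype V]

open Classical in
theorem frac_comp (e : U ≃ V) (p : V → Prop) : frac (fun u => p (e u)) = frac p := by
  unfold frac
  have h1 : Fintype.card U = Fintype.card V := Fintype.card_congr e
  have h2 : (univ.filter fun u => p (e u)).card = (univ.filter p).card := by
    refine Finset.card_bij (fun u _ => e u) ?_ ?_ ?_
    · intro u hu
      simpa using hu
    · intro a _ b _ h
      exact e.injective h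
    · intro v hv
      refine ⟨e.symm v, ?_, by simp⟩
      simpa using hv
  rw [h1, h2]

theorem frac_congr' {p q : U → Prop} (h : ∀ u, p u ↔ q u) : frac p = frac q := by
  have : p = q := funext fun u => propext (h u)
  rw [this]

open Classical in
theorem frac_mono {p q : U → Prop} (h : ∀ u, p u → q u) : frac p ≤ frac q := by
  unfold frac
  refine div_le_div_of_nonneg_right ?_ (Nat.cast_nonneg _)
  exact_mod_cast Finset.card_le_card fun u hu => by
    simp only [mem_filter, mem_univ, true_and] at hu ⊢
    exact h u hu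

theorem dist_comp (e : U ≃ V) (X : V → Option Γ) (w : V → Γ) :
    DefD.dist (fun u => X (e u)) (fun u => w (e u)) = DefD.dist X w := by
  unfold DefD.dist
  exact frac_comp e fun v => X v ≠ some (w v)

theorem distW_comp (e : U ≃ V) (v w : V → Γ) :
    distW (fun u => v (e u)) (fun u => w (e u)) = distW v w := by
  unfold distW
  exact frac_comp e fun x => v x ≠ w x

end basic

/-! ### transport of machine data along an equivalence of units -/

/-- machine data on `V` obtained from machine data on `U` -/
def push {U V Γ : Type} (e : U ≃ V) (D : MData U Γ) : MData V Γ where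
  W := {w | (fun u => w (e u)) ∈ D.W}
  w0 := fun v => D.w0 (e.symm v)
  N := fun w v => D.N (fun u => w (e u)) (e.symm v)
  M := fun w v => D.M (fun u => w (e u)) (e.symm v)
  corr := fun X v => D.corr (fun u => X (e u)) (e.symm v)
  Nu := fun X v => D.Nu (fun u => X (e u)) (e.symm v)
  Mu := fun X v => D.Mu (fun u => X (e u)) (e.symm v)
  viol := fun X v => D.viol (fun u => X (e u)) (e.symm v)

theorem funext_equiv {U V : Type} (e : U ≃ V) {α : Type} {f g : V → α} (h : ∀ u, f (e u) = g (e u)) :
    f = g := by
  funext v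
  have := h (e.symm v)
  simpa using this

section pushEq
variable {U V Γ : Type}

theorem push_N_eq (e : U ≃ V) (D : MData U Γ) (w : V → Γ) :
    (push e D).N w = w ↔ D.N (fun u => w (e u)) = fun u => w (e u) := by
  constructor
  · intro h
    funext u
    have := congrFun h (e u)
    simpa [push] using this
  · intro h
    apply funext_equiv e
    intro u
    have := congrFun h u
    simpa [push] using this

theorem push_M_eq (e : U ≃ V) (D : MData U Γ) (w : V → Γ) :
    (push e D).M w = w ↔ D.M (fun u => w (e u)) = fun u => w (e u) := by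
  constructor
  · intro h
    funext u
    have := congrFun h (e u)
    simpa [push] using this
  · intro h
    apply funext_equiv e
    intro u
    have := congrFun h u
    simpa [push] using this

theorem push_w0_eq (e : U ≃ V) (D : MData U Γ) (w : V → Γ) :
    w = (push e D).w0 ↔ (fun u => w (e u)) = D.w0 := by
  constructor
  · intro h
    funext u
    rw [h]
    simp [push]
  · intro h
    apply funext_equiv e
    intro u
    have := congrFun h u
    simpa [push] using this

end pushEq

section pushAx
variable {U V Γ : Type} [Fintype U] [Fintype V]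

theorem push_Ax (e : U ≃ V) (D : MData U Γ) (k : MConst) (h : D.Ax k) : (push e D).Ax k := by
  have hfr : ∀ p : U → Prop, frac (fun v => p (e.symm v)) = frac p := fun p =>
    frac_comp e.symm p
  have hds : ∀ (X : U → Option Γ) (w : V → Γ),
      DefD.dist (fun v => X (e.symm v)) w = DefD.dist X (fun u => w (e u)) := by
    intro X w
    rw [← dist_comp e]
    simp
  have hds' : ∀ (X : V → Option Γ) (w : U → Γ),
      DefD.dist (fun u => X (e u)) w = DefD.dist X (fun v => w (e.symm v)) := by
    intro X w
    rw [← dist_comp e X]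
    simp
  have hds2 : ∀ (X : U → Option Γ) (w : U → Γ),
      DefD.dist (fun v => X (e.symm v)) (fun v => w (e.symm v)) = DefD.dist X w := fun X w =>
    dist_comp e.symm X w
  constructor
  · simpa [push] using h.w0_mem
  · intro w hw
    simpa [push] using h.N_mem _ hw
  · intro w hw
    simpa [push] using h.M_mem _ hw
  · intro w hw hne
    have h1 : D.N (fun u => w (e u)) ≠ fun u => w (e u) := fun hh =>
      hne ((push_N_eq e D w).2 hh)
    have h2 := h.MN _ hw h1
    apply funext_equiv e
    intro u
    have h3 := congrFun h2 u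
    simpa [push] using h3
  · intro w hw hne
    have h1 : D.M (fun u => w (e u)) ≠ fun u => w (e u) := fun hh =>
      hne ((push_M_eq e D w).2 hh)
    have h2 := h.NM _ hw h1
    apply funext_equiv e
    intro u
    have h3 := congrFun h2 u
    simpa [push] using h3
  · rw [push_M_eq]
    simpa [push] using h.M_w0
  · intro hh
    rw [push_N_eq] at hh
    apply h.N_w0
    simpa [push] using hh
  · intro v hv w hw hne
    have h1 : (fun u => v (e u)) ≠ fun u => w (e u) := fun hh =>
      hne (funext_equiv e fun u => congrFun hh u)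
    have := h.sep _ hv _ hw h1
    rwa [distW_comp] at this
  · intro X hX
    have e1 : frac (fun v => (push e D).viol X v = true) =
        frac (fun u => D.viol (fun u => X (e u)) u = true) :=
      hfr fun u => D.viol (fun u => X (e u)) u = true
    rw [e1] at hX
    obtain ⟨w, hw, hd⟩ := h.sound _ hX
    refine ⟨fun v => w (e.symm v), by simpa [push] using hw, ?_⟩
    rw [e1, ← hds' X w]
    exact hd
  · intro w hw X
    have e1 : frac (fun v => (push e D).viol X v = true) =
        frac (fun u => D.viol (fun u => X (e u)) u = true) :=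
      hfr fun u => D.viol (fun u => X (e u)) u = true
    rw [e1, ← dist_comp e X w]
    exact h.compl _ hw _
  · intro w hw X hX
    rw [← dist_comp e X w] at hX ⊢
    have := h.corr_le _ hw _ hX
    have e2 : DefD.dist ((push e D).corr X) w = DefD.dist (D.corr fun u => X (e u)) (fun u => w (e u)) :=
      hds _ _
    rw [e2]
    exact this
  · intro w hw X hX
    rw [← dist_comp e X w] at hX ⊢
    have := h.Nu_le _ hw _ hX
    have e2 : DefD.dist ((push e D).Nu X) ((push e D).N w) =
        DefD.dist (D.Nu fun u => X (e u)) (D.N fun u => w (e u)) := hds2 _ _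
    rw [e2]
    exact this
  · intro w hw X hX
    rw [← dist_comp e X w] at hX ⊢
    have := h.Mu_le _ hw _ hX
    have e2 : DefD.dist ((push e D).Mu X) ((push e D).M w) =
        DefD.dist (D.Mu fun u => X (e u)) (D.M fun u => w (e u)) := hds2 _ _
    rw [e2]
    exact this

end pushAx

/-! ### local rules -/

open Classical in
/-- an element with property `P` if there is one -/
noncomputable def ex {β : Type} (P : β → Prop) : Option β :=
  if h : ∃ g : β, P g then some h.choose else none

section localrules
variable {U V : Type} {k l r : ℕ}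

theorem lift_comp {β : Type} (e : U ≃ V) (f : (Fin k → Fin l → Bool) → (Fin r → Bool) → β)
    (nb : Fin k → U → U) (nb' : Fin k → V → V) (hnb : ∀ i u, nb' i (e u) = e (nb i u))
    (pub : U → Fin r → Bool) (pub' : V → Fin r → Bool) (hpub : ∀ u, pub' (e u) = pub u)
    (X : V → Option (Fin l → Bool)) (v : V) :
    lift f nb' pub' X v = lift f nb pub (fun u => X (e u)) (e.symm v) := by
  obtain ⟨u, rfl⟩ := e.surjective v
  unfold lift
  simp only [hnb, hpub, Equiv.symm_apply_apply]

theorem klift_comp {β : Type} (e : U ≃ V) (f : (Fin k → Fin l → Bool) → (Fin r → Bool) → β)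
    (nb : Fin k → U → U) (nb' : Fin k → V → V) (hnb : ∀ i u, nb' i (e u) = e (nb i u))
    (pub : U → Fin r → Bool) (pub' : V → Fin r → Bool) (hpub : ∀ u, pub' (e u) = pub u)
    (X : V → Option (Fin l → Bool)) (v : V) :
    klift f nb' pub' X v = klift f nb pub (fun u => X (e u)) (e.symm v) := by
  obtain ⟨u, rfl⟩ := e.surjective v
  rw [Equiv.symm_apply_apply]
  have h1 : klift f nb' pub' X (e u) = ex (fun g : β => ∀ x : Fin k → Fin l → Bool,
      (∀ i y, X (nb' i (e u)) = some y → x i = y) → f x (pub' (e u)) = g) := rfl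
  have h2 : klift f nb pub (fun u => X (e u)) u = ex (fun g : β => ∀ x : Fin k → Fin l → Bool,
      (∀ i y, X (e (nb i u)) = some y → x i = y) → f x (pub u) = g) := rfl
  rw [h1, h2]
  simp only [hnb, hpub]

theorem push_data (e : U ≃ V) (R : LRules k l r)
    (nb : Fin k → U → U) (nb' : Fin k → V → V) (hnb : ∀ i u, nb' i (e u) = e (nb i u))
    (pub : U → Fin r → Bool) (pub' : V → Fin r → Bool) (hpub : ∀ u, pub' (e u) = pub u)
    (W : Set (U → Fin l → Bool)) (w0 : U → Fin l → Bool)
    (N M : (U → Fin l → Bool) → (U → Fin l → Bool)) :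
    push e (R.data nb pub W w0 N M) =
      R.data nb' pub' {w | (fun u => w (e u)) ∈ W} (fun v => w0 (e.symm v))
        (fun w v => N (fun u => w (e u)) (e.symm v))
        (fun w v => M (fun u => w (e u)) (e.symm v)) := by
  have h1 : ∀ f : (Fin k → Fin l → Bool) → (Fin r → Bool) → Fin l → Bool,
      (fun (X : V → Option (Fin l → Bool)) v => klift f nb pub (fun u => X (e u)) (e.symm v)) =
        klift f nb' pub' := by
    intro f
    funext X v
    rw [klift_comp e f nb nb' hnb pub pub' hpub]
  have h2 : (fun (X : V → Option (Fin l → Bool)) v =>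
      (lift R.viol nb pub (fun u => X (e u)) (e.symm v)).getD true) =
        fun X v => (lift R.viol nb' pub' X v).getD true := by
    funext X v
    rw [lift_comp e R.viol nb nb' hnb pub pub' hpub]
  unfold push LRules.data
  simp only [h1, h2]

/-- **reindexing of units** -/
theorem reindex [Fintype U] [Fintype V] (e : U ≃ V) (R : LRules k l r)
    (nb : Fin k → U → U) (nb' : Fin k → V → V) (hnb : ∀ i u, nb' i (e u) = e (nb i u))
    (pub : U → Fin r → Bool) (pub' : V → Fin r → Bool) (hpub : ∀ u, pub' (e u) = pub u)
    (W : Set (U → Fin l → Bool)) (w0 : U → Fin l → Bool)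
    (N M : (U → Fin l → Bool) → (U → Fin l → Bool)) (kc : MConst)
    (h : (R.data nb pub W w0 N M).Ax kc) :
    (R.data nb' pub' {w | (fun u => w (e u)) ∈ W} (fun v => w0 (e.symm v))
        (fun w v => N (fun u => w (e u)) (e.symm v))
        (fun w v => M (fun u => w (e u)) (e.symm v))).Ax kc := by
  rw [← push_data e R nb nb' hnb pub pub' hpub W w0 N M]
  exact push_Ax e _ kc h

/-- the form needed for the ends: reindexed words, their blocked states and their predicates -/
theorem reindex_ends (e : U ≃ V)
    (W : Set (U → Fin l → Bool)) (w0 : U → Fin l → Bool)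
    (N M : (U → Fin l → Bool) → (U → Fin l → Bool))
    (PN PM : (V → Fin l → Bool) → Prop)
    (hN : ∀ w ∈ W, N w = w → PN (fun v => w (e.symm v)))
    (hM : ∀ w ∈ W, M w = w → w ≠ w0 → PM (fun v => w (e.symm v))) :
    (∀ w ∈ {w : V → Fin l → Bool | (fun u => w (e u)) ∈ W},
        (fun v => N (fun u => w (e u)) (e.symm v)) = w → PN w) ∧
    (∀ w ∈ {w : V → Fin l → Bool | (fun u => w (e u)) ∈ W},
        (fun v => M (fun u => w (e u)) (e.symm v)) = w → w ≠ (fun v => w0 (e.symm v)) →
          PM w) := by
  constructor
  · intro w hw h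
    have h1 : N (fun u => w (e u)) = fun u => w (e u) := by
      funext u
      have := congrFun h (e u)
      simpa using this
    have h2 := hN _ hw h1
    simpa using h2
  · intro w hw h hne
    have h1 : M (fun u => w (e u)) = fun u => w (e u) := by
      funext u
      have := congrFun h (e u)
      simpa using this
    have h3 : (fun u => w (e u)) ≠ w0 := by
      intro hh
      apply hne
      funext v
      have := congrFun hh (e.symm v)
      simpa using this
    have h2 := hM _ hw h1 h3
    simpa using h2

end localrules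

/-! ### arbitrary finite label alphabets -/

/-- local rules over a label type `Γ` and a public type `Q` -/
structure GRules (k : ℕ) (Γ Q : Type) where
  corr : (Fin k → Γ) → Q → Γ
  Nu : (Fin k → Γ) → Q → Γ
  Mu : (Fin k → Γ) → Q → Γ
  viol : (Fin k → Γ) → Q → Bool

open Classical in
/-- defined iff all neighbours are readable -/
noncomputable def glift {U Γ Q β : Type} {k : ℕ} (f : (Fin k → Γ) → Q → β)
    (nb : Fin k → U → U) (pub : U → Q) (X : U → Option Γ) (u : U) : Option β :=
  if h : ∃ x : Fin k → Γ, ∀ i, X (nb i u) = some (x i) then some (f h.choose (pub u)) else none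

open Classical in
/-- forced value -/
noncomputable def gklift {U Γ Q β : Type} {k : ℕ} (f : (Fin k → Γ) → Q → β)
    (nb : Fin k → U → U) (pub : U → Q) (X : U → Option Γ) (u : U) : Option β :=
  if h : ∃ g : β, ∀ x : Fin k → Γ, (∀ i y, X (nb i u) = some y → x i = y) → f x (pub u) = g
  then some h.choose else none

/-- the machine defined by rules over `Γ` -/
noncomputable def GRules.data {U Γ Q : Type} {k : ℕ} (R : GRules k Γ Q) (nb : Fin k → U → U)
    (pub : U → Q) (W : Set (U → Γ)) (w0 : U → Γ) (N M : (U → Γ) → (U → Γ)) : MData U Γ where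
  W := W
  w0 := w0
  N := N
  M := M
  corr := gklift R.corr nb pub
  Nu := gklift R.Nu nb pub
  Mu := gklift R.Mu nb pub
  viol := fun X u => (glift R.viol nb pub X u).getD true

theorem glift_eq {U Γ Q β : Type} {k : ℕ} (f : (Fin k → Γ) → Q → β)
    (nb : Fin k → U → U) (pub : U → Q) (X : U → Option Γ) (u : U) (x : Fin k → Γ)
    (h : ∀ i, X (nb i u) = some (x i)) : glift f nb pub X u = some (f x (pub u)) := by
  unfold glift
  have hx : ∃ x : Fin k → Γ, ∀ i, X (nb i u) = some (x i) := ⟨x, h⟩
  rw [dif_pos hx]
  have : hx.choose = x := by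
    funext i
    have h1 := hx.choose_spec i
    rw [h i] at h1
    exact (Option.some.inj h1).symm
  rw [this]

theorem glift_none {U Γ Q β : Type} {k : ℕ} (f : (Fin k → Γ) → Q → β)
    (nb : Fin k → U → U) (pub : U → Q) (X : U → Option Γ) (u : U) (i : Fin k)
    (h : X (nb i u) = none) : glift f nb pub X u = none := by
  unfold glift
  rw [dif_neg]
  rintro ⟨x, hx⟩
  rw [hx i] at h
  cases h

theorem lift_eq {U β : Type} {k l r : ℕ} (f : (Fin k → Fin l → Bool) → (Fin r → Bool) → β)
    (nb : Fin k → U → U) (pub : U → Fin r → Bool) (X : U → Option (Fin l → Bool)) (u : U)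
    (x : Fin k → Fin l → Bool)
    (h : ∀ i, X (nb i u) = some (x i)) : lift f nb pub X u = some (f x (pub u)) := by
  unfold lift
  have hx : ∃ x : Fin k → Fin l → Bool, ∀ i, X (nb i u) = some (x i) := ⟨x, h⟩
  rw [dif_pos hx]
  have : hx.choose = x := by
    funext i
    have h1 := hx.choose_spec i
    rw [h i] at h1
    exact (Option.some.inj h1).symm
  rw [this]

theorem lift_none {U β : Type} {k l r : ℕ} (f : (Fin k → Fin l → Bool) → (Fin r → Bool) → β)
    (nb : Fin k → U → U) (pub : U → Fin r → Bool) (X : U → Option (Fin l → Bool)) (u : U)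
    (i : Fin k) (h : X (nb i u) = none) : lift f nb pub X u = none := by
  unfold lift
  rw [dif_neg]
  rintro ⟨x, hx⟩
  rw [hx i] at h
  cases h

/-- the array `X` completed by a default label -/
def fillD {U Γ : Type} (g0 : Γ) (X : U → Option Γ) (u : U) : Γ := (X u).getD g0

theorem fillD_spec {U Γ : Type} (g0 : Γ) (X : U → Option Γ) (u : U) (y : Γ)
    (h : X u = some y) : fillD g0 X u = y := by
  unfold fillD
  rw [h]
  rfl

theorem gklift_some {U Γ Q β : Type} {k : ℕ} (g0 : Γ) (f : (Fin k → Γ) → Q → β)
    (nb : Fin k → U → U) (pub : U → Q) (X : U → Option Γ) (u : U) (g : β)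
    (h : ∀ x : Fin k → Γ, (∀ i y, X (nb i u) = some y → x i = y) → f x (pub u) = g) :
    gklift f nb pub X u = some g := by
  unfold gklift
  have hx : ∃ g : β, ∀ x : Fin k → Γ, (∀ i y, X (nb i u) = some y → x i = y) →
      f x (pub u) = g := ⟨g, h⟩
  rw [dif_pos hx]
  congr 1
  have hxx : ∀ i y, X (nb i u) = some y → fillD g0 X (nb i u) = y := fun i y hy =>
    fillD_spec g0 X _ y hy
  rw [← hx.choose_spec (fun i => fillD g0 X (nb i u)) hxx, h _ hxx]

theorem gklift_spec {U Γ Q β : Type} {k : ℕ} (f : (Fin k → Γ) → Q → β)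
    (nb : Fin k → U → U) (pub : U → Q) (X : U → Option Γ) (u : U) (g : β)
    (h : gklift f nb pub X u = some g) :
    ∀ x : Fin k → Γ, (∀ i y, X (nb i u) = some y → x i = y) → f x (pub u) = g := by
  unfold gklift at h
  by_cases hx : ∃ g : β, ∀ x : Fin k → Γ, (∀ i y, X (nb i u) = some y → x i = y) →
      f x (pub u) = g
  · rw [dif_pos hx] at h
    have := Option.some.inj h
    rw [← this]
    exact hx.choose_spec
  · rw [dif_neg hx] at h
    cases h

theorem klift_some {U β : Type} {k l r : ℕ} (f : (Fin k → Fin l → Bool) → (Fin r → Bool) → β)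
    (nb : Fin k → U → U) (pub : U → Fin r → Bool) (X : U → Option (Fin l → Bool)) (u : U) (g : β)
    (h : ∀ x : Fin k → Fin l → Bool, (∀ i y, X (nb i u) = some y → x i = y) →
      f x (pub u) = g) :
    klift f nb pub X u = some g :=
  gklift_some (fun _ => false) f nb pub X u g h

/-! codes of labels -/

/-- `cd : Γ → bits` with decoder `dc` -/
structure Coding (Γ : Type) (l : ℕ) where
  cd : Γ → Fin l → Bool
  dc : (Fin l → Bool) → Option Γ
  dc_cd : ∀ g, dc (cd g) = some g
  cd_dc : ∀ b g, dc b = some g → cd g = b

/-- every finite type has a coding -/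
theorem exists_coding (Γ : Type) [Finite Γ] : ∃ l, Nonempty (Coding Γ l) := by
  classical
  have := Fintype.ofFinite Γ
  refine ⟨Fintype.card Γ, ⟨?_⟩⟩
  let e := Fintype.equivFin Γ
  let cd : Γ → Fin (Fintype.card Γ) → Bool := fun g i => decide (e g = i)
  have hinj : Function.Injective cd := by
    intro g g' h
    have h1 := congrFun h (e g)
    simp only [cd, decide_true] at h1
    have h2 : e g' = e g := by
      simpa using h1.symm
    exact (e.injective h2).symm
  exact
    { cd := cd
      dc := fun b => if h : ∃ g, cd g = b then some h.choose else none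
      dc_cd := by
        intro g
        have hx : ∃ g', cd g' = cd g := ⟨g, rfl⟩
        rw [dif_pos hx]
        congr 1
        exact hinj hx.choose_spec
      cd_dc := by
        intro b g h
        by_cases hx : ∃ g, cd g = b
        · rw [dif_pos hx] at h
          rw [← Option.some.inj h]
          exact hx.choose_spec
        · rw [dif_neg hx] at h
          cases h }

namespace Coding
variable {Γ : Type} {l : ℕ} (c : Coding Γ l)

theorem cd_inj {g g' : Γ} (h : c.cd g = c.cd g') : g = g' := by
  have h1 := c.dc_cd g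
  rw [h, c.dc_cd] at h1
  exact (Option.some.inj h1).symm

/-- total decoder -/
def dt (g0 : Γ) (b : Fin l → Bool) : Γ := (c.dc b).getD g0

theorem dt_cd (g0 g : Γ) : c.dt g0 (c.cd g) = g := by
  unfold dt
  rw [c.dc_cd]
  rfl

/-- decoded array -/
def arr {U : Type} (X : U → Option (Fin l → Bool)) (u : U) : Option Γ := (X u).bind c.dc

/-- coded word -/
def cw {U : Type} (w : U → Γ) (u : U) : Fin l → Bool := c.cd (w u)

theorem arr_eq_iff {U : Type} (X : U → Option (Fin l → Bool)) (u : U) (g : Γ) :
    c.arr X u = some g ↔ X u = some (c.cd g) := by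
  unfold arr
  constructor
  · intro h
    obtain ⟨b, hb, hg⟩ := Option.bind_eq_some_iff.1 h
    rw [hb, c.cd_dc b g hg]
  · intro h
    rw [h]
    simpa using c.dc_cd g

theorem dist_cw {U : Type} [Fintype U] (X : U → Option (Fin l → Bool)) (w : U → Γ) :
    DefD.dist X (c.cw w) = DefD.dist (c.arr X) w := by
  unfold DefD.dist
  exact frac_congr' fun u => not_congr (c.arr_eq_iff X u (w u)).symm

theorem distW_cw {U : Type} [Fintype U] (v w : U → Γ) :
    distW (c.cw v) (c.cw w) = distW v w := by
  unfold distW
  exact frac_congr' fun u => not_congr ⟨fun h => c.cd_inj h, fun h => congrArg c.cd h⟩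

theorem cw_inj {U : Type} {v w : U → Γ} (h : c.cw v = c.cw w) : v = w := by
  funext u
  exact c.cd_inj (congrFun h u)

end Coding

section toL
variable {Γ Q : Type} {k l r : ℕ}

open Classical in
/-- the Boolean rules: decode the neighbours (default `g0`), apply the rule, code the result;
`viol` is true if some neighbour is not a code -/
noncomputable def GRules.toL (R : GRules k Γ Q) (c : Coding Γ l) (cq : Coding Q r) (g0 : Γ)
    (q0 : Q) : LRules k l r where
  corr := fun x p => c.cd (R.corr (fun i => c.dt g0 (x i)) (cq.dt q0 p))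
  Nu := fun x p => c.cd (R.Nu (fun i => c.dt g0 (x i)) (cq.dt q0 p))
  Mu := fun x p => c.cd (R.Mu (fun i => c.dt g0 (x i)) (cq.dt q0 p))
  viol := fun x p => if ∀ i, ∃ g, c.dc (x i) = some g then
    R.viol (fun i => c.dt g0 (x i)) (cq.dt q0 p) else true

variable {U : Type}

theorem klift_code (c : Coding Γ l) (cq : Coding Q r) (g0 : Γ) (q0 : Q)
    (f : (Fin k → Γ) → Q → Γ) (nb : Fin k → U → U) (q : U → Q)
    (X : U → Option (Fin l → Bool)) (u : U) (g : Γ)
    (h : gklift f nb q (c.arr X) u = some g) :
    klift (fun x p => c.cd (f (fun i => c.dt g0 (x i)) (cq.dt q0 p))) nb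
      (fun u => cq.cd (q u)) X u = some (c.cd g) := by
  apply klift_some
  intro x hx
  have h1 := gklift_spec f nb q (c.arr X) u g h (fun i => c.dt g0 (x i)) ?_
  · simp only [Coding.dt_cd]
    rw [h1]
  · intro i y hy
    have h2 := (c.arr_eq_iff X (nb i u) y).1 hy
    have h3 := hx i _ h2
    show c.dt g0 (x i) = y
    rw [h3, c.dt_cd]

theorem dist_klift_le [Fintype U] (c : Coding Γ l) (cq : Coding Q r) (g0 : Γ) (q0 : Q)
    (f : (Fin k → Γ) → Q → Γ) (nb : Fin k → U → U) (q : U → Q)
    (X : U → Option (Fin l → Bool)) (w : U → Γ) :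
    DefD.dist (klift (fun x p => c.cd (f (fun i => c.dt g0 (x i)) (cq.dt q0 p))) nb
      (fun u => cq.cd (q u)) X) (c.cw w) ≤ DefD.dist (gklift f nb q (c.arr X)) w := by
  unfold DefD.dist
  apply frac_mono
  intro u hu hg
  exact hu (klift_code c cq g0 q0 f nb q X u (w u) hg)

theorem viol_code (c : Coding Γ l) (cq : Coding Q r) (g0 : Γ) (q0 : Q)
    (R : GRules k Γ Q) (nb : Fin k → U → U) (q : U → Q)
    (X : U → Option (Fin l → Bool)) (u : U) :
    (lift (R.toL c cq g0 q0).viol nb (fun u => cq.cd (q u)) X u).getD true =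
      (glift R.viol nb q (c.arr X) u).getD true := by
  by_cases h : ∀ i, ∃ b, X (nb i u) = some b
  · choose b hb using h
    rw [lift_eq _ nb _ X u b hb]
    by_cases h2 : ∀ i, ∃ g, c.dc (b i) = some g
    · choose g hg using h2
      have h3 : ∀ i, c.arr X (nb i u) = some (g i) := by
        intro i
        unfold Coding.arr
        rw [hb i]
        exact hg i
      rw [glift_eq _ nb _ (c.arr X) u g h3]
      have h4 : (fun i => c.dt g0 (b i)) = g := by
        funext i
        unfold Coding.dt
        rw [hg i]
        rfl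
      have h5 : ∀ i, ∃ g, c.dc (b i) = some g := fun i => ⟨g i, hg i⟩
      simp only [GRules.toL, if_pos h5, h4, Coding.dt_cd, Option.getD_some]
    · have h5 := h2
      push Not at h2
      obtain ⟨i, hi⟩ := h2
      have h6 : c.dc (b i) = none := by
        cases hc : c.dc (b i) with
        | none => rfl
        | some g => exact absurd hc (hi g)
      have h7 : c.arr X (nb i u) = none := by
        unfold Coding.arr
        rw [hb i]
        exact h6
      rw [glift_none _ nb _ (c.arr X) u i h7]
      simp only [GRules.toL, if_neg h5, Option.getD_some, Option.getD_none]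
  · push Not at h
    obtain ⟨i, hi⟩ := h
    have h6 : X (nb i u) = none := by
      cases hc : X (nb i u) with
      | none => rfl
      | some b => exact absurd hc (hi b)
    have h7 : c.arr X (nb i u) = none := by
      unfold Coding.arr
      rw [h6]
      rfl
    rw [lift_none _ nb _ X u i h6, glift_none _ nb _ (c.arr X) u i h7]

open Classical in
/-- coded step map: on coded words the old map, elsewhere the identity -/
noncomputable def cmap (c : Coding Γ l) (F : (U → Γ) → (U → Γ)) (w : U → Fin l → Bool) :
    U → Fin l → Bool :=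
  if h : ∃ v : U → Γ, c.cw v = w then c.cw (F h.choose) else w

theorem cmap_cw (c : Coding Γ l) (F : (U → Γ) → (U → Γ)) (v : U → Γ) :
    cmap c F (c.cw v) = c.cw (F v) := by
  unfold cmap
  have hx : ∃ v' : U → Γ, c.cw v' = c.cw v := ⟨v, rfl⟩
  rw [dif_pos hx]
  rw [c.cw_inj hx.choose_spec]

/-- **coding of the labels**: rules over arbitrary finite types give Boolean rules with the same
constants -/
theorem relabel [Fintype U] (c : Coding Γ l) (cq : Coding Q r) (g0 : Γ) (q0 : Q)
    (R : GRules k Γ Q) (nb : Fin k → U → U) (q : U → Q) (W : Set (U → Γ)) (w0 : U → Γ)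
    (N M : (U → Γ) → (U → Γ)) (kc : MConst) (h : (R.data nb q W w0 N M).Ax kc) :
    ((R.toL c cq g0 q0).data nb (fun u => cq.cd (q u)) {w | ∃ v ∈ W, c.cw v = w} (c.cw w0)
      (cmap c N) (cmap c M)).Ax kc := by
  constructor
  · exact ⟨w0, h.w0_mem, rfl⟩
  · rintro w ⟨v, hv, rfl⟩
    refine ⟨N v, h.N_mem v hv, ?_⟩
    exact (cmap_cw c N v).symm
  · rintro w ⟨v, hv, rfl⟩
    refine ⟨M v, h.M_mem v hv, ?_⟩
    exact (cmap_cw c M v).symm
  · rintro w ⟨v, hv, rfl⟩ hne
    have h1 : N v ≠ v := by
      intro hh
      apply hne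
      show cmap c N (c.cw v) = c.cw v
      rw [cmap_cw, hh]
    have h2 := h.MN v hv h1
    show cmap c M (cmap c N (c.cw v)) = c.cw v
    rw [cmap_cw, cmap_cw]
    exact congrArg c.cw h2
  · rintro w ⟨v, hv, rfl⟩ hne
    have h1 : M v ≠ v := by
      intro hh
      apply hne
      show cmap c M (c.cw v) = c.cw v
      rw [cmap_cw, hh]
    have h2 := h.NM v hv h1
    show cmap c N (cmap c M (c.cw v)) = c.cw v
    rw [cmap_cw, cmap_cw]
    exact congrArg c.cw h2
  · show cmap c M (c.cw w0) = c.cw w0
    rw [cmap_cw]
    exact congrArg c.cw h.M_w0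
  · intro hh
    have h1 : cmap c N (c.cw w0) = c.cw w0 := hh
    rw [cmap_cw] at h1
    exact h.N_w0 (c.cw_inj h1)
  · rintro v ⟨v', hv, rfl⟩ w ⟨w', hw, rfl⟩ hne
    rw [c.distW_cw]
    exact h.sep v' hv w' hw fun hh => hne (congrArg c.cw hh)
  · intro X hX
    have e1 : ∀ X, frac (fun u => ((R.toL c cq g0 q0).data nb (fun u => cq.cd (q u))
        {w | ∃ v ∈ W, c.cw v = w} (c.cw w0) (cmap c N) (cmap c M)).viol X u = true) =
        frac (fun u => (R.data nb q W w0 N M).viol (c.arr X) u = true) := by
      intro X
      apply frac_congr'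
      intro u
      have := viol_code c cq g0 q0 R nb q X u
      show (lift (R.toL c cq g0 q0).viol nb (fun u => cq.cd (q u)) X u).getD true = true ↔
        (glift R.viol nb q (c.arr X) u).getD true = true
      rw [this]
    rw [e1] at hX
    obtain ⟨v, hv, hd⟩ := h.sound _ hX
    refine ⟨c.cw v, ⟨v, hv, rfl⟩, ?_⟩
    rw [e1, c.dist_cw]
    exact hd
  · rintro w ⟨v, hv, rfl⟩ X
    have e1 : frac (fun u => ((R.toL c cq g0 q0).data nb (fun u => cq.cd (q u))
        {w | ∃ v ∈ W, c.cw v = w} (c.cw w0) (cmap c N) (cmap c M)).viol X u = true) =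
        frac (fun u => (R.data nb q W w0 N M).viol (c.arr X) u = true) := by
      apply frac_congr'
      intro u
      have := viol_code c cq g0 q0 R nb q X u
      show (lift (R.toL c cq g0 q0).viol nb (fun u => cq.cd (q u)) X u).getD true = true ↔
        (glift R.viol nb q (c.arr X) u).getD true = true
      rw [this]
    rw [e1, c.dist_cw]
    exact h.compl v hv _
  · rintro w ⟨v, hv, rfl⟩ X hX
    rw [c.dist_cw] at hX
    have h1 := dist_klift_le c cq g0 q0 R.corr nb q X v
    have h2 := h.corr_le v hv _ hX
    rw [← c.dist_cw] at h2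
    exact le_trans h1 h2
  · rintro w ⟨v, hv, rfl⟩ X hX
    rw [c.dist_cw] at hX ⊢
    have h1 := dist_klift_le c cq g0 q0 R.Nu nb q X (N v)
    have h2 := h.Nu_le v hv _ hX
    show DefD.dist _ (cmap c N (c.cw v)) ≤ _
    rw [cmap_cw]
    exact le_trans h1 h2
  · rintro w ⟨v, hv, rfl⟩ X hX
    rw [c.dist_cw] at hX ⊢
    have h1 := dist_klift_le c cq g0 q0 R.Mu nb q X (M v)
    have h2 := h.Mu_le v hv _ hX
    show DefD.dist _ (cmap c M (c.cw v)) ≤ _
    rw [cmap_cw]
    exact le_trans h1 h2

/-- the ends after coding of the labels -/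
theorem relabel_ends (c : Coding Γ l) (W : Set (U → Γ)) (w0 : U → Γ)
    (N M : (U → Γ) → (U → Γ)) (PN PM : (U → Fin l → Bool) → Prop)
    (hN : ∀ v ∈ W, N v = v → PN (c.cw v))
    (hM : ∀ v ∈ W, M v = v → v ≠ w0 → PM (c.cw v)) :
    (∀ w ∈ {w : U → Fin l → Bool | ∃ v ∈ W, c.cw v = w}, cmap c N w = w → PN w) ∧
    (∀ w ∈ {w : U → Fin l → Bool | ∃ v ∈ W, c.cw v = w}, cmap c M w = w → w ≠ c.cw w0 →
      PM w) := by
  constructor
  · rintro w ⟨v, hv, rfl⟩ h
    rw [cmap_cw] at h
    exact hN v hv (c.cw_inj h)
  · rintro w ⟨v, hv, rfl⟩ h hne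
    rw [cmap_cw] at h
    exact hM v hv (c.cw_inj h) fun hh => hne (congrArg c.cw hh)

end toL

end Crest.Agent.R289.Reidx790
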