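import Crest.Agent.R289.FamPub_715
import Crest.Agent.R289.Asm_12
import Crest.Agent.R289.Reidx_790
import Crest.Agent.R289.Cand_589

/-!
# Row 289, assembly: from the word-level machine to `Fam289` (helper715)

`FamT ι A P` : the polynomial-time tables of a family of machines with slots `ι`, labels `A` and
public data `P` (all arbitrary finite types): number of units, slots, public data and start labels
as functions of the instance and of the unit number, units where the candidates are read.
`FamT.Real` : on the instance `I` the tables describe a machine on an abstract finite set of units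
`U ≃ Fin n` whose encoded form satisfies `MData.Ax` (= literally the conclusion of `Word508.mach_Ax`
and, with the slots `snb` / public data `spub`, of `Word508.asm_Ax`), and every blocked exact word
carries a solution at the units `adN` (`adM`).
`fam289_of` : such a family gives `Asm12.Fam289`.
-/

set_option autoImplicit false
set_option linter.dupNamespace false

namespace Crest.Agent.R289.FamGlue715

open Crest.PPADPCP Crest.Agent.Lib.PT Crest.Agent.R289 Crest.Agent.R289.DefD
open Crest.Agent.R289.FamComb715 Crest.Agent.R289.FamPub715 Crest.Agent.R289.Asm12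
open Crest.Agent.R289.Word508

/-- polynomial-time tables of a family of machines -/
structure FamT (ι A P : Type) where
  /-- number of units -/
  n : EI → ℕ
  /-- slots -/
  nb : ι → EI → ℕ → ℕ
  /-- public data -/
  pub : EI → ℕ → P
  /-- start labels -/
  w0 : EI → ℕ → A
  /-- length of the solutions -/
  len : EI → ℕ
  /-- units where a word blocked forwards carries its solution -/
  adN : EI × ℕ → ℕ
  /-- units where a word blocked backwards carries its solution -/
  adM : EI × ℕ → ℕ

/-- the tables are computable in polynomial time -/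
structure FamT.PT {ι A P : Type} (D : FamT ι A P) : Prop where
  n : PTF D.n
  nb : ∀ s, PTF₂ (D.nb s)
  pub : FP₂ D.pub
  w0 : FP₂ D.w0
  len : PTU D.len
  adN : PTF D.adN
  adM : PTF D.adM

/-- the tables describe a machine on the instance `I` -/
def FamT.Real {ι A P : Type} [Nonempty A] [Nonempty P] {k l r : ℕ} (D : FamT ι A P)
    (R : MRules ι A P) (e : ι ≃ Fin k) (enc : A → (Fin l → Bool)) (encP : P → (Fin r → Bool))
    (K : MConst) (gN gM : A → Bool) (I : EOL) : Prop :=
  ∃ (U : Type) (_ : Fintype U) (eU : U ≃ Fin (D.n (raw I))) (nb : ι → U → U) (pub : U → P)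
    (W : Set (U → A)) (w0 : U → A) (N M : (U → A) → (U → A)),
    (∀ s u, D.nb s (raw I) (eU u : Fin (D.n (raw I))) = (eU (nb s u) : Fin (D.n (raw I)))) ∧
    (∀ u, D.pub (raw I) (eU u : Fin (D.n (raw I))) = pub u) ∧
    (∀ u, D.w0 (raw I) (eU u : Fin (D.n (raw I))) = w0 u) ∧
    ((R.toL e enc encP).data (fun i => nb (e.symm i)) (fun u => encP (pub u))
      {X | ∃ w ∈ W, X = fun u => enc (w u)} (fun u => enc (w0 u))
      (liftMap enc N) (liftMap enc M)).Ax K ∧
    (∀ w ∈ W, N w = w → ∃ v : Fin I.n → Bool, I.IsSolution v ∧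
      ∀ i : Fin I.n, ∃ u : U, ((eU u : Fin (D.n (raw I))) : ℕ) = D.adN (raw I, (i : ℕ)) ∧
        gN (w u) = v i) ∧
    (∀ w ∈ W, M w = w → w ≠ w0 → ∃ v : Fin I.n → Bool, I.IsSolution v ∧
      ∀ i : Fin I.n, ∃ u : U, ((eU u : Fin (D.n (raw I))) : ℕ) = D.adM (raw I, (i : ℕ)) ∧
        gM (w u) = v i)

/-- equality of candidates of different types of length -/
theorem ofFn_cast {m n : ℕ} (h : m = n) (v : Fin n → Bool) :
    List.ofFn (fun i : Fin m => v (Fin.cast h i)) = List.ofFn v := by
  subst h
  rfl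

/-- the clause of one instance -/
theorem real_clause {ι A P : Type} [Nonempty A] [Nonempty P] {k l r : ℕ} (D : FamT ι A P)
    (R : MRules ι A P) (e : ι ≃ Fin k) (enc : A → (Fin l → Bool)) (he : Function.Injective enc)
    (encP : P → (Fin r → Bool)) (K : MConst) (gN gM : A → Bool) (I : EOL)
    (hlen : D.len (raw I) = I.n) (H : D.Real R e enc encP K gN gM I) :
    (∀ i < k, ∀ u < D.n (raw I), nbN e D.nb (raw I, i, u) < D.n (raw I)) ∧
    ∃ (W : Set (Fin (D.n (raw I)) → Fin l → Bool))
      (N M : (Fin (D.n (raw I)) → Fin l → Bool) → (Fin (D.n (raw I)) → Fin l → Bool)),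
      (famData (R.toL e enc encP) (D.n (raw I)) (fun i u => nbN e D.nb (raw I, i, u))
        (fun u j => bitN encP D.pub (raw I, u, j)) (fun u j => bitN enc D.w0 (raw I, u, j))
        W N M).Ax K ∧
      (∀ w ∈ W, N w = w → ∃ v : Fin I.n → Bool, I.IsSolution v ∧
        List.ofFn v ∈ Cand589.cReg l (fun x => gN (dec enc x)) D.adN D.len (raw I, tabOf w)) ∧
      (∀ w ∈ W, M w = w →
        w ≠ (fun (u : Fin (D.n (raw I))) (j : Fin l) => bitN enc D.w0 (raw I, (u : ℕ), (j : ℕ))) →
        ∃ v : Fin I.n → Bool, I.IsSolution v ∧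
          List.ofFn v ∈ Cand589.cReg l (fun x => gM (dec enc x)) D.adM D.len
            (raw I, tabOf w)) := by
  obtain ⟨U, fU, eU, nb, pub, W, w0, N, M, hnb, hpub, hw0, hax, hN, hM⟩ := H
  have hlt := nbN_lt_of_spec e (g := D.nb) (a := raw I) eU (G := nb) hnb
  refine ⟨hlt, ?_⟩
  -- reindexed neighbour maps
  have h1 : ∀ (i : Fin k) (u : U),
      toF (D.n (raw I)) (fun u => nbN e D.nb (raw I, (i : ℕ), u)) (eU u) =
        eU (nb (e.symm i) u) := by
    intro i u
    have h2 : nbN e D.nb (raw I, (i : ℕ), ((eU u : Fin (D.n (raw I))) : ℕ)) =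
        (eU (nb (e.symm i) u) : Fin (D.n (raw I))) := by
      rw [nbN_fin, hnb]
    unfold toF
    rw [dif_pos (lt_of_eq_of_lt h2 (eU _).2)]
    exact Fin.ext h2
  have h3 : ∀ u : U, (fun j : Fin r => bitN encP D.pub (raw I, ((eU u : Fin (D.n (raw I))) : ℕ),
      (j : ℕ))) = encP (pub u) := by
    intro u
    funext j
    rw [bitN_fin, hpub]
  have h4 : (fun v : Fin (D.n (raw I)) => enc (w0 (eU.symm v))) =
      fun (u : Fin (D.n (raw I))) (j : Fin l) => bitN enc D.w0 (raw I, (u : ℕ), (j : ℕ)) := by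
    funext v j
    have h5 := hw0 (eU.symm v)
    rw [Equiv.apply_symm_apply] at h5
    rw [bitN_fin, h5]
  have hre := Reidx790.reindex eU (R.toL e enc encP) (fun i => nb (e.symm i))
    (fun i => toF (D.n (raw I)) (fun u => nbN e D.nb (raw I, (i : ℕ), u))) h1
    (fun u => encP (pub u))
    (fun (v : Fin (D.n (raw I))) (j : Fin r) => bitN encP D.pub (raw I, (v : ℕ), (j : ℕ))) h3
    {X | ∃ w ∈ W, X = fun u => enc (w u)} (fun u => enc (w0 u)) (liftMap enc N) (liftMap enc M)
    K hax
  rw [h4] at hre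
  refine ⟨_, _, _, hre, ?_, ?_⟩
  · rintro w ⟨w', hw', hww⟩ hfix
    have hNw : N w' = w' := by
      have h6 : liftMap enc N (fun u => w (eU u)) = fun u => w (eU u) := by
        funext u
        have := congrFun hfix (eU u)
        simpa using this
      rw [hww, liftMap_enc he] at h6
      exact enc_comp_inj he h6
    obtain ⟨v, hv, hread⟩ := hN w' hw' hNw
    refine ⟨v, hv, ?_⟩
    rw [← ofFn_cast hlen v]
    refine Cand589.mem_cReg _ _ _ (raw I) w _ fun i => ?_
    obtain ⟨u, hu, hg⟩ := hread (Fin.cast hlen i)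
    refine ⟨eU u, by simpa using hu, ?_⟩
    rw [← hg, show w (eU u) = enc (w' u) from congrFun hww u, dec_enc he]
  · rintro w ⟨w', hw', hww⟩ hfix hne
    have hMw : M w' = w' := by
      have h6 : liftMap enc M (fun u => w (eU u)) = fun u => w (eU u) := by
        funext u
        have := congrFun hfix (eU u)
        simpa using this
      rw [hww, liftMap_enc he] at h6
      exact enc_comp_inj he h6
    have hne' : w' ≠ w0 := by
      rintro rfl
      apply hne
      rw [← h4]
      funext v
      have := congrFun hww (eU.symm v)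
      simpa using this
    obtain ⟨v, hv, hread⟩ := hM w' hw' hMw hne'
    refine ⟨v, hv, ?_⟩
    rw [← ofFn_cast hlen v]
    refine Cand589.mem_cReg _ _ _ (raw I) w _ fun i => ?_
    obtain ⟨u, hu, hg⟩ := hread (Fin.cast hlen i)
    refine ⟨eU u, by simpa using hu, ?_⟩
    rw [← hg, show w (eU u) = enc (w' u) from congrFun hww u, dec_enc he]

/-- **from the word-level machine to `Fam289`** -/
theorem fam289_of {ι A P : Type} [Nonempty A] [Nonempty P] {k l r : ℕ}
    (R : MRules ι A P) (e : ι ≃ Fin k) (enc : A → (Fin l → Bool)) (he : Function.Injective enc)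
    (encP : P → (Fin r → Bool)) (K : MConst) (gN gM : A → Bool)
    (hK1 : 5 * K.γ < K.r0) (hK2 : 5 * K.γ < K.d0)
    (H : ∀ n0 : ℕ, ∃ (D : FamT ι A P) (a b : ℕ), D.PT ∧ ∀ I : EOL, I.WF →
      n0 ≤ D.n (raw I) ∧ 0 < D.n (raw I) ∧
      D.n (raw I) ≤ a * I.encode.length * (Nat.clog 2 (I.encode.length + 2)) ^ b ∧
      D.len (raw I) = I.n ∧ D.Real R e enc encP K gN gM I) : Fam289 := by
  refine ⟨k, l, r, R.toL e enc encP, K, hK1, hK2, fun n0 => ?_⟩
  obtain ⟨D, a, b, hPT, hD⟩ := H n0
  refine ⟨a, b, D.n, nbN e D.nb, bitN encP D.pub, bitN enc D.w0,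
    Cand589.cReg l (fun x => gN (dec enc x)) D.adN D.len,
    Cand589.cReg l (fun x => gM (dec enc x)) D.adM D.len, hPT.n, ptf_nbN e hPT.nb,
    FP₂.bitN encP hPT.pub, FP₂.bitN enc hPT.w0, Cand589.ptf_cReg _ _ hPT.adN hPT.len,
    Cand589.ptf_cReg _ _ hPT.adM hPT.len, fun I hI => ?_⟩
  obtain ⟨h1, h2, h3, h4, h5⟩ := hD I hI
  obtain ⟨h6, W, N, M, h7, h8, h9⟩ := real_clause D R e enc he encP K gN gM I h4 h5
  exact ⟨h1, h2, h3, h6, W, N, M, h7, h8, h9⟩

end Crest.Agent.R289.FamGlue715
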