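import Crest.Agent.R289.Sampler_56
import Crest.Agent.R289.SamplerPT_56
import Crest.Agent.R289.DefD_721

/-!
Row 289, D3: the explicit sampler with the uniform mean (`DefD.Sampler`), for all `n ≥ n0(e, γ)`.
-/

set_option autoImplicit false

namespace Crest.Agent.R289.Sampler56

open Finset Crest.Agent.Lib.PT

/-! ### generic folding -/

section gen

variable (N M : ℕ) [NeZero N]

/-- sample `j` of unit `u`, side `N`, `M` units -/
def sampG (N M t j u : ℕ) : ℕ :=
  ((sigN N t j (u / N, u % N)).1 * N + (sigN N t j (u / N, u % N)).2) % M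

/-- folded function -/
def foldG (N M : ℕ) (f : ℕ → ℝ) (z : ZMod N × ZMod N) : ℝ :=
  f ((z.1.val * N + z.2.val) % M)

lemma sampG_fold (hMN : M ≤ N ^ 2) (t j u : ℕ) (hu : u < M) (f : ℕ → ℝ) :
    f (sampG N M t j u) = foldG N M f (sig N t j (cz N (u / N, u % N))) := by
  have hN : 0 < N := Nat.pos_of_ne_zero (NeZero.ne N)
  have h1 : u / N < N := by
    rw [Nat.div_lt_iff_lt_mul hN, ← sq]
    exact hu.trans_le hMN
  have h2 : u % N < N := Nat.mod_lt _ hN
  rw [← cz_sigN hN t j _ h1 h2]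
  obtain ⟨h3, h4⟩ := sigN_lt hN t j (u / N, u % N) h1 h2
  unfold foldG cz sampG
  simp only
  rw [ZMod.val_natCast_of_lt h3, ZMod.val_natCast_of_lt h4]

lemma sum_foldG (f : ℕ → ℝ) : ∑ z, foldG N M f z = ∑ w ∈ range (N ^ 2), f (w % M) :=
  sum_torus N (fun w => f (w % M))

lemma sum_range_le_torusG (hMN : M ≤ N ^ 2) (g : ZMod N × ZMod N → ℝ) (hg : ∀ z, 0 ≤ g z) :
    ∑ u ∈ range M, g (cz N (u / N, u % N)) ≤ ∑ z : ZMod N × ZMod N, g z := by
  have hN : 0 < N := Nat.pos_of_ne_zero (NeZero.ne N)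
  have h := sum_torus N (fun w => g (cz N (w / N, w % N)))
  have e : ∀ z : ZMod N × ZMod N,
      g (cz N ((z.1.val * N + z.2.val) / N, (z.1.val * N + z.2.val) % N)) = g z := by
    rintro ⟨a, b⟩
    have h1 := ZMod.val_lt a
    have h2 := ZMod.val_lt b
    have e1 : (a.val * N + b.val) / N = a.val := by
      rw [mul_comm, Nat.mul_add_div hN, Nat.div_eq_of_lt h2, add_zero]
    have e2 : (a.val * N + b.val) % N = b.val := by
      rw [mul_comm, Nat.mul_add_mod, Nat.mod_eq_of_lt h2]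
    simp only [cz, e1, e2, ZMod.natCast_val, ZMod.cast_id', id]
  simp only [e] at h
  rw [h]
  exact Finset.sum_le_sum_of_subset_of_nonneg
    (Finset.range_subset_range.2 hMN) fun _ _ _ => hg _

/-- variance form with the mean over the torus -/
theorem sampG_var (hMN : M ≤ N ^ 2) (t : ℕ) (f : ℕ → ℝ) (h0 : ∀ v, 0 ≤ f v) (h1 : ∀ v, f v ≤ 1) :
    ∑ u ∈ range M, ((∑ j ∈ range (16 ^ t), f (sampG N M t j u)) / 16 ^ t -
      (∑ w ∈ range (N ^ 2), f (w % M)) / (N : ℝ) ^ 2) ^ 2 ≤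
        ((0.96 : ℝ) ^ 2) ^ t * (N : ℝ) ^ 2 := by
  have hw := walk_var N t (foldG N M f)
  have hle := sum_range_le_torusG N M hMN (fun z => ((1 / 16 ^ t) *
    ∑ j ∈ range (16 ^ t), foldG N M f (sig N t j z) -
      (∑ x, foldG N M f x) / (N : ℝ) ^ 2) ^ 2) (fun z => sq_nonneg _)
  have hsq : ∑ x, foldG N M f x ^ 2 ≤ (N : ℝ) ^ 2 := by
    calc ∑ x, foldG N M f x ^ 2 ≤ ∑ _x : ZMod N × ZMod N, (1 : ℝ) :=
          Finset.sum_le_sum fun x _ => by
            have := h0 ((x.1.val * N + x.2.val) % M)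
            have := h1 ((x.1.val * N + x.2.val) % M)
            unfold foldG
            nlinarith
      _ = (N : ℝ) ^ 2 := by
          rw [Finset.sum_const, Finset.card_univ, Fintype.card_prod, ZMod.card, nsmul_eq_mul]
          push_cast
          ring
  have e2 : ∑ u ∈ range M, ((∑ j ∈ range (16 ^ t), f (sampG N M t j u)) / 16 ^ t -
      (∑ w ∈ range (N ^ 2), f (w % M)) / (N : ℝ) ^ 2) ^ 2 =
      ∑ u ∈ range M, ((1 / 16 ^ t) * ∑ j ∈ range (16 ^ t), foldG N M f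
        (sig N t j (cz N (u / N, u % N))) - (∑ x, foldG N M f x) / (N : ℝ) ^ 2) ^ 2 := by
    refine Finset.sum_congr rfl fun u hu => ?_
    have hu' := Finset.mem_range.1 hu
    have : ∑ j ∈ range (16 ^ t), f (sampG N M t j u) = ∑ j ∈ range (16 ^ t), foldG N M f
        (sig N t j (cz N (u / N, u % N))) :=
      Finset.sum_congr rfl fun j _ => sampG_fold N M hMN t j u hu' f
    rw [this, sum_foldG]
    congr 2
    ring
  rw [e2]
  exact hle.trans (hw.trans (mul_le_mul_of_nonneg_left hsq (by positivity)))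

end gen

/-! ### uniform mean -/

/-- side -/
def side2 (M : ℕ) : ℕ := Nat.sqrt M + 1

instance side2_neZero (M : ℕ) : NeZero (side2 M) := ⟨Nat.succ_ne_zero _⟩

lemma le_side2_sq (M : ℕ) : M ≤ side2 M ^ 2 := by
  unfold side2; exact (Nat.lt_succ_sqrt' M).le

/-- the sample `j` of unit `u` -/
def samp2 (M t j u : ℕ) : ℕ := sampG (side2 M) M t j u

lemma samp2_lt {M : ℕ} (hM : 0 < M) (t j u : ℕ) : samp2 M t j u < M := Nat.mod_lt _ hM

lemma mean_close {M : ℕ} (hM : 0 < M) (f : ℕ → ℝ) (h0 : ∀ v, 0 ≤ f v) (h1 : ∀ v, f v ≤ 1) :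
    |(∑ w ∈ range (side2 M ^ 2), f (w % M)) / (side2 M : ℝ) ^ 2 - (∑ v ∈ range M, f v) / M| ≤
      3 / Real.sqrt M := by
  have hM' : (0 : ℝ) < M := by exact_mod_cast hM
  set S : ℝ := ∑ v ∈ range M, f v with hS
  set T : ℝ := ∑ w ∈ range (side2 M ^ 2), f (w % M) with hT
  set Q : ℝ := (side2 M : ℝ) ^ 2 with hQ
  have hQM : (M : ℝ) ≤ Q := by
    rw [hQ]; exact_mod_cast le_side2_sq M
  have hQ0 : 0 < Q := lt_of_lt_of_le hM' hQM
  have hS0 : 0 ≤ S := Finset.sum_nonneg fun v _ => h0 v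
  have hSM : S ≤ M := by
    calc S ≤ ∑ _v ∈ range M, (1 : ℝ) := Finset.sum_le_sum fun v _ => h1 v
      _ = M := by simp
  have hsplit : T = S + ∑ w ∈ range (side2 M ^ 2) \ range M, f (w % M) := by
    have hsub : range M ⊆ range (side2 M ^ 2) := Finset.range_subset_range.2 (le_side2_sq M)
    rw [hT, ← Finset.sum_sdiff hsub, add_comm]
    congr 1
    exact Finset.sum_congr rfl fun v hv => by rw [Nat.mod_eq_of_lt (Finset.mem_range.1 hv)]
  have hD0 : 0 ≤ ∑ w ∈ range (side2 M ^ 2) \ range M, f (w % M) :=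
    Finset.sum_nonneg fun v _ => h0 _
  have hD1 : ∑ w ∈ range (side2 M ^ 2) \ range M, f (w % M) ≤ Q - M := by
    have hsub : range M ⊆ range (side2 M ^ 2) := Finset.range_subset_range.2 (le_side2_sq M)
    calc ∑ w ∈ range (side2 M ^ 2) \ range M, f (w % M) ≤
        ∑ _w ∈ range (side2 M ^ 2) \ range M, (1 : ℝ) := Finset.sum_le_sum fun v _ => h1 _
      _ = ((range (side2 M ^ 2) \ range M).card : ℝ) := by simp
      _ = Q - M := by
          rw [Finset.card_sdiff_of_subset hsub, Finset.card_range, Finset.card_range,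
            Nat.cast_sub (le_side2_sq M)]
          push_cast
          rfl
  have hsq : Real.sqrt M * Real.sqrt M = M := Real.mul_self_sqrt hM'.le
  have hs0 : 0 < Real.sqrt M := Real.sqrt_pos.2 hM'
  have hs1 : 1 ≤ Real.sqrt M := by
    rw [Real.one_le_sqrt]; exact_mod_cast hM
  have hns : (Nat.sqrt M : ℝ) ≤ Real.sqrt M := Real.nat_sqrt_le_real_sqrt
  have hQ1 : Q - M ≤ 3 * Real.sqrt M := by
    have e : Q = (Nat.sqrt M : ℝ) ^ 2 + 2 * Nat.sqrt M + 1 := by
      rw [hQ]; unfold side2; push_cast; ring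
    have h2 : (Nat.sqrt M : ℝ) ^ 2 ≤ M := by exact_mod_cast Nat.sqrt_le' M
    linarith
  have key : 3 / Real.sqrt M = 3 * Real.sqrt M / M := by
    rw [div_eq_div_iff hs0.ne' hM'.ne']
    nlinarith
  rw [key, abs_le]
  constructor
  · -- lower bound
    have h3 : S / Q ≤ T / Q := div_le_div_of_nonneg_right (by linarith) hQ0.le
    have h4 : S / M - S / Q ≤ (Q - M) / M := by
      rw [div_sub_div _ _ hM'.ne' hQ0.ne', div_le_div_iff₀ (by positivity) hM']
      nlinarith [mul_nonneg (mul_nonneg hM'.le (sub_nonneg.2 hQM)) (sub_nonneg.2 (hSM.trans hQM))]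
    have h5 : (Q - M) / M ≤ 3 * Real.sqrt M / M := div_le_div_of_nonneg_right hQ1 hM'.le
    linarith
  · have h3 : T / Q ≤ T / M := div_le_div_of_nonneg_left (by linarith) hM' hQM
    have h4 : T / M ≤ S / M + (Q - M) / M := by
      rw [← add_div]
      exact div_le_div_of_nonneg_right (by linarith) hM'.le
    have h5 : (Q - M) / M ≤ 3 * Real.sqrt M / M := div_le_div_of_nonneg_right hQ1 hM'.le
    linarith

/-- **Sampler with uniform mean.** -/
theorem samp2_unif {e γ : ℝ} (he : 0 < e) (hγ : 0 < γ) : ∃ t0 n0 : ℕ, ∀ t, t0 ≤ t → ∀ M, n0 ≤ M →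
    0 < M → ∀ f : ℕ → ℝ, (∀ v, 0 ≤ f v) → (∀ v, f v ≤ 1) → ∀ B : ℕ → Prop, [DecidablePred B] →
      (∀ u, B u → ¬ |(∑ j ∈ range (16 ^ t), f (samp2 M t j u)) / 16 ^ t -
        (∑ v ∈ range M, f v) / M| ≤ e) →
      (((range M).filter B).card : ℝ) ≤ γ * M := by
  obtain ⟨t0, ht0⟩ := exists_len (lam := γ * e ^ 2 / 4) (by positivity)
  obtain ⟨n0, hn0⟩ := exists_nat_ge (36 / e ^ 2)
  refine ⟨t0, n0 + 1, fun t ht M hMn hM f h0 h1 B _ hB => ?_⟩
  have hM' : (0 : ℝ) < M := by exact_mod_cast hM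
  have htt : 4 * ((0.96 : ℝ) ^ 2) ^ t ≤ γ * e ^ 2 / 4 := by
    refine le_trans (mul_le_mul_of_nonneg_left ?_ (by norm_num)) ht0
    exact pow_le_pow_of_le_one (by norm_num) (by norm_num) ht
  have hs0 : 0 < Real.sqrt M := Real.sqrt_pos.2 hM'
  have hbig : 6 / e ≤ Real.sqrt M := by
    have : (6 / e) ^ 2 ≤ (M : ℝ) := by
      calc (6 / e) ^ 2 = 36 / e ^ 2 := by ring
        _ ≤ (n0 : ℝ) := hn0
        _ ≤ (M : ℝ) := by exact_mod_cast (by omega : n0 ≤ M)
    exact Real.le_sqrt_of_sq_le this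
  have hmc := mean_close hM f h0 h1
  have h36 : 3 / Real.sqrt M ≤ e / 2 := by
    rw [div_le_div_iff₀ hs0 (by norm_num)]
    have := mul_le_mul_of_nonneg_left hbig he.le
    have e1 : e * (6 / e) = 6 := by field_simp
    linarith
  have hv := sampG_var (side2 M) M (le_side2_sq M) t f h0 h1
  set m0 : ℝ := (∑ w ∈ range (side2 M ^ 2), f (w % M)) / (side2 M : ℝ) ^ 2 with hm0
  have hQ4 : (side2 M : ℝ) ^ 2 ≤ 4 * M := by
    have h2 : (Nat.sqrt M) ^ 2 ≤ M := Nat.sqrt_le' M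
    have h3 : 1 ≤ Nat.sqrt M := by
      rw [Nat.le_sqrt]; omega
    have : side2 M ^ 2 ≤ 4 * M := by
      unfold side2; nlinarith
    exact_mod_cast this
  have h4 : (((range M).filter B).card : ℝ) * (e / 2) ^ 2 ≤
      ∑ u ∈ range M, ((∑ j ∈ range (16 ^ t), f (sampG (side2 M) M t j u)) / 16 ^ t - m0) ^ 2 := by
    calc (((range M).filter B).card : ℝ) * (e / 2) ^ 2 = ∑ u ∈ (range M).filter B, (e / 2) ^ 2 := by
          rw [Finset.sum_const, nsmul_eq_mul]
      _ ≤ ∑ u ∈ (range M).filter B,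
          ((∑ j ∈ range (16 ^ t), f (sampG (side2 M) M t j u)) / 16 ^ t - m0) ^ 2 := by
          refine Finset.sum_le_sum fun u hu => ?_
          have hu' := hB u (Finset.mem_filter.1 hu).2
          have e0 : ∑ j ∈ range (16 ^ t), f (samp2 M t j u) =
            ∑ j ∈ range (16 ^ t), f (sampG (side2 M) M t j u) := rfl
          rw [e0] at hu'
          rw [not_le] at hu'
          have h5 : e / 2 ≤ |(∑ j ∈ range (16 ^ t), f (sampG (side2 M) M t j u)) / 16 ^ t - m0| := by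
            have h6 := abs_sub_le ((∑ j ∈ range (16 ^ t), f (sampG (side2 M) M t j u)) / 16 ^ t) m0
              ((∑ v ∈ range M, f v) / M)
            linarith
          rw [← sq_abs ((∑ j ∈ range (16 ^ t), f (sampG (side2 M) M t j u)) / 16 ^ t - m0)]
          exact pow_le_pow_left₀ (by positivity) h5 2
      _ ≤ _ := Finset.sum_le_sum_of_subset_of_nonneg (Finset.filter_subset _ _)
          fun _ _ _ => sq_nonneg _
  have h7 : (((range M).filter B).card : ℝ) * (e / 2) ^ 2 ≤ γ * e ^ 2 / 4 * M := by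
    refine h4.trans (hv.trans ?_)
    calc ((0.96 : ℝ) ^ 2) ^ t * (side2 M : ℝ) ^ 2 ≤ ((0.96 : ℝ) ^ 2) ^ t * (4 * M) :=
          mul_le_mul_of_nonneg_left hQ4 (by positivity)
      _ = 4 * ((0.96 : ℝ) ^ 2) ^ t * M := by ring
      _ ≤ γ * e ^ 2 / 4 * M := mul_le_mul_of_nonneg_right htt hM'.le
  have h8 : (0 : ℝ) < e ^ 2 / 4 := by positivity
  refine le_of_mul_le_mul_right ?_ h8
  calc (((range M).filter B).card : ℝ) * (e ^ 2 / 4) =
      (((range M).filter B).card : ℝ) * (e / 2) ^ 2 := by ring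
    _ ≤ γ * e ^ 2 / 4 * M := h7
    _ = γ * M * (e ^ 2 / 4) := by ring

/-- the neighbour maps on `Fin n` -/
def nbF {n : ℕ} (hn : 0 < n) (t : ℕ) (i : Fin (16 ^ t)) (u : Fin n) : Fin n :=
  ⟨samp2 n t i u, samp2_lt hn t i u⟩

/-- **D3**: for all `e, γ > 0` there is a walk length `t` such that for all `n ≥ n0` the `16 ^ t`
explicit maps form a sampler. -/
theorem D3 {e γ : ℝ} (he : 0 < e) (hγ : 0 < γ) : ∃ t0 n0 : ℕ, ∀ t, t0 ≤ t → ∀ n, n0 ≤ n →
    ∀ hn : 0 < n, DefD.Sampler (16 ^ t) (nbF hn t) e γ := by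
  classical
  obtain ⟨t0, n0, h⟩ := samp2_unif he hγ
  refine ⟨t0, n0, fun t ht n hnn hn y hy => ?_⟩
  have hn' : (0 : ℝ) < n := by exact_mod_cast hn
  set f : ℕ → ℝ := fun v => if hv : v < n then y ⟨v, hv⟩ else 0 with hf
  have hf0 : ∀ v, 0 ≤ f v := fun v => by
    simp only [hf]; split_ifs
    · exact (hy _).1
    · exact le_refl _
  have hf1 : ∀ v, f v ≤ 1 := fun v => by
    simp only [hf]; split_ifs
    · exact (hy _).2
    · norm_num
  have hfy : ∀ u : Fin n, f u = y u := fun u => by simp [hf]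
  have hsum : ∑ v ∈ range n, f v = ∑ v : Fin n, y v := by
    rw [Finset.sum_range]
    exact Finset.sum_congr rfl fun v _ => hfy v
  have hs : ∀ u : Fin n, ∑ j ∈ range (16 ^ t), f (samp2 n t j u) =
      ∑ i : Fin (16 ^ t), y (nbF hn t i u) := fun u => by
    rw [Finset.sum_range]
    exact Finset.sum_congr rfl fun i _ => hfy (nbF hn t i u)
  set B : ℕ → Prop := fun u => ∃ hu : u < n,
    ¬ |(∑ i, y (nbF hn t i ⟨u, hu⟩)) / (((16 ^ t : ℕ)) : ℝ) -
      (∑ v, y v) / (Fintype.card (Fin n) : ℝ)| ≤ e with hB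
  have key := h t ht n hnn hn f hf0 hf1 B (by
    rintro u ⟨hu, hbu⟩
    have e1 := hs ⟨u, hu⟩
    simp only at e1
    rw [e1, hsum]
    simpa using hbu)
  unfold DefD.frac
  have hcard : ((Finset.univ.filter fun u : Fin n =>
      ¬ |(∑ i, y (nbF hn t i u)) / (((16 ^ t : ℕ)) : ℝ) -
        (∑ v, y v) / (Fintype.card (Fin n) : ℝ)| ≤ e).card : ℝ) ≤ γ * n := by
    refine le_trans ?_ key
    norm_cast
    refine Finset.card_le_card_of_injOn (fun u : Fin n => (u : ℕ)) ?_ ?_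
    · intro u hu
      have hu' := (Finset.mem_filter.1 hu).2
      exact Finset.mem_coe.2 (Finset.mem_filter.2 ⟨Finset.mem_range.2 u.2, u.2, hu'⟩)
    · intro a _ b _ hab
      exact Fin.ext hab
  rw [div_le_iff₀ (by rw [Fintype.card_fin]; exact hn')]
  simp only [Fintype.card_fin] at hcard ⊢
  convert hcard

/-! ### poly-time -/

theorem ptf_sampG (t : ℕ) {α : Type} [PTCode α] {N M j u : α → ℕ} (hN : PTF N) (hM : PTF M)
    (hj : PTF j) (hu : PTF u) : PTF (fun a => sampG (N a) (M a) t (j a) (u a)) := by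
  unfold sampG
  have hz : PTF (fun a => sigN (N a) t (j a) (u a / N a, u a % N a)) :=
    ptf_sigN t hN hj (PTF.prodMk (PTF.natDiv hu hN) (PTF.natMod hu hN))
  exact PTF.natMod (PTF.natAdd (PTF.natMul (PTF.comp PTF.fst hz) hN) (PTF.comp PTF.snd hz)) hM

theorem ptf_samp2 (t : ℕ) {α : Type} [PTCode α] {M j u : α → ℕ} (hM : PTF M) (hj : PTF j)
    (hu : PTF u) : PTF (fun a => samp2 (M a) t (j a) (u a)) :=
  ptf_sampG t (PTF.natAdd (PTF.natSqrt hM) (PTF.const 1)) hM hj hu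

end Crest.Agent.R289.Sampler56
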