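import Crest.Agent.R289.Word2_508
import Crest.Agent.R289.Sampler2_56

/-!
Row 289 (S0434), block C, I4: the sample maps on any unit set.

For the maps of `Sampler2_56` on `Fin n` (`16 ^ t` samples, walk length `t`), `n` large:
* `nbF_mult`    : multiplicity `2` (`Word508.NbMult`);
* `nbF_expands` : `Word508.Expands _ (1 / 2)`;
* `nbF_majC`    : `Word508.MajC _ (1 / 8) θ`, `θ` as small as desired;
* `uS` : transport to any `U ≃ Fin n`, with the same facts and `DefD.Sampler`;
* `letter_CAx` : the control letter on `U` as a literal `Word508.CAx`.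
-/

set_option autoImplicit false

namespace Crest.Agent.R289.SampU560

open Finset Crest.Agent.R289.DefD Crest.Agent.R289.Word508 Crest.Agent.R289.Sampler56

/-! ### folding -/

lemma sig_bij (N t j : ℕ) : Function.Bijective (sig N t j) := by
  induction t generalizing j with
  | zero => exact Function.bijective_id
  | succ t ih => exact (ih (j / 16)).comp (tau N (j % 16)).bijective

lemma side2_sq_le {n : ℕ} (hn : 6 ≤ n) : side2 n ^ 2 ≤ 2 * n := by
  have h2 : (Nat.sqrt n) ^ 2 ≤ n := Nat.sqrt_le' n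
  have h3 : 2 * Nat.sqrt n + 1 ≤ n := by
    rcases Nat.lt_or_ge (Nat.sqrt n) 3 with h | h
    · omega
    · nlinarith
  unfold side2
  nlinarith

lemma fold_sum_le {n : ℕ} (hn : 6 ≤ n) (f : ℕ → ℝ) (hf : ∀ v, 0 ≤ f v) :
    ∑ z, foldG (side2 n) n f z ≤ 2 * ∑ v ∈ range n, f v := by
  rw [sum_foldG]
  calc ∑ w ∈ range (side2 n ^ 2), f (w % n) ≤ ∑ w ∈ range (2 * n), f (w % n) :=
        Finset.sum_le_sum_of_subset_of_nonneg
          (Finset.range_subset_range.2 (side2_sq_le hn)) fun _ _ _ => hf _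
    _ = 2 * ∑ v ∈ range n, f v := by
        have := sum_mod n 2 f
        simpa using this

/-- number of units with a given property at a sample -/
lemma sum_samp2_le {n : ℕ} (hn : 6 ≤ n) (t j : ℕ) (f : ℕ → ℝ) (hf : ∀ v, 0 ≤ f v) :
    ∑ u ∈ range n, f (samp2 n t j u) ≤ 2 * ∑ v ∈ range n, f v := by
  have h1 : ∑ u ∈ range n, f (samp2 n t j u) =
      ∑ u ∈ range n, foldG (side2 n) n f (sig (side2 n) t j
        (cz (side2 n) (u / side2 n, u % side2 n))) := by
    refine Finset.sum_congr rfl fun u hu => ?_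
    exact sampG_fold (side2 n) n (le_side2_sq n) t j u (Finset.mem_range.1 hu) f
  rw [h1]
  calc ∑ u ∈ range n, foldG (side2 n) n f (sig (side2 n) t j
        (cz (side2 n) (u / side2 n, u % side2 n)))
      ≤ ∑ z, foldG (side2 n) n f (sig (side2 n) t j z) :=
        sum_range_le_torusG (side2 n) n (le_side2_sq n)
          (fun z => foldG (side2 n) n f (sig (side2 n) t j z)) fun z => hf _
    _ = ∑ z, foldG (side2 n) n f z :=
        (sig_bij (side2 n) t j).sum_comp (fun z => foldG (side2 n) n f z)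
    _ ≤ _ := fold_sum_le hn f hf

/-- variance form for fields with values in `{0, 1}` -/
lemma samp2_var {n : ℕ} (hn : 6 ≤ n) (t : ℕ) (f : ℕ → ℝ) (hf : ∀ v, f v = 0 ∨ f v = 1) :
    ∑ u ∈ range n, ((∑ j ∈ range (16 ^ t), f (samp2 n t j u)) / 16 ^ t -
      (∑ w ∈ range (side2 n ^ 2), f (w % n)) / (side2 n : ℝ) ^ 2) ^ 2 ≤
        ((0.96 : ℝ) ^ 2) ^ t * (2 * ∑ v ∈ range n, f v) := by
  have h0 : ∀ v, 0 ≤ f v := fun v => by rcases hf v with h | h <;> rw [h]; norm_num
  have hw := walk_var (side2 n) t (foldG (side2 n) n f)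
  have hle := sum_range_le_torusG (side2 n) n (le_side2_sq n) (fun z => ((1 / 16 ^ t) *
    ∑ j ∈ range (16 ^ t), foldG (side2 n) n f (sig (side2 n) t j z) -
      (∑ x, foldG (side2 n) n f x) / (side2 n : ℝ) ^ 2) ^ 2) (fun z => sq_nonneg _)
  have hsq : ∑ x, foldG (side2 n) n f x ^ 2 ≤ 2 * ∑ v ∈ range n, f v := by
    have : ∀ x, foldG (side2 n) n f x ^ 2 = foldG (side2 n) n f x := fun x => by
      unfold foldG
      rcases hf ((x.1.val * side2 n + x.2.val) % n) with h | h <;> rw [h] <;> norm_num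
    simp only [this]
    exact fold_sum_le hn f h0
  have e2 : ∑ u ∈ range n, ((∑ j ∈ range (16 ^ t), f (samp2 n t j u)) / 16 ^ t -
      (∑ w ∈ range (side2 n ^ 2), f (w % n)) / (side2 n : ℝ) ^ 2) ^ 2 =
      ∑ u ∈ range n, ((1 / 16 ^ t) * ∑ j ∈ range (16 ^ t), foldG (side2 n) n f
        (sig (side2 n) t j (cz (side2 n) (u / side2 n, u % side2 n))) -
        (∑ x, foldG (side2 n) n f x) / (side2 n : ℝ) ^ 2) ^ 2 := by
    refine Finset.sum_congr rfl fun u hu => ?_
    have hu' := Finset.mem_range.1 hu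
    have : ∑ j ∈ range (16 ^ t), f (samp2 n t j u) =
        ∑ j ∈ range (16 ^ t), foldG (side2 n) n f
        (sig (side2 n) t j (cz (side2 n) (u / side2 n, u % side2 n))) :=
      Finset.sum_congr rfl fun j _ => sampG_fold (side2 n) n (le_side2_sq n) t j u hu' f
    rw [this, sum_foldG]
    congr 2
    ring
  rw [e2]
  exact hle.trans (hw.trans (mul_le_mul_of_nonneg_left hsq (by positivity)))

/-! ### facts on `Fin n` -/

section fin

variable {n : ℕ}

open Classical in
/-- extension of the indicator to `ℕ` -/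
noncomputable def ext (E : Fin n → Prop) (v : ℕ) : ℝ :=
  if h : v < n then (if E ⟨v, h⟩ then 1 else 0) else 0

lemma ext_01 (E : Fin n → Prop) (v : ℕ) : ext E v = 0 ∨ ext E v = 1 := by
  unfold ext; split_ifs <;> simp

lemma ext_nonneg (E : Fin n → Prop) (v : ℕ) : 0 ≤ ext E v := by
  rcases ext_01 E v with h | h <;> rw [h]; norm_num

open Classical in
lemma ext_fin (E : Fin n → Prop) (u : Fin n) : ext E u = if E u then 1 else 0 := by
  unfold ext
  rw [dif_pos u.2]

lemma sum_ext (E : Fin n → Prop) : ∑ v ∈ range n, ext E v = n * frac E := by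
  classical
  rw [Finset.sum_range]
  have : ∀ u : Fin n, ext E u = if E u then 1 else 0 := ext_fin E
  simp only [this]
  unfold frac
  rw [Fintype.card_fin, Finset.sum_ite, Finset.sum_const_zero, add_zero, Finset.sum_const,
    nsmul_eq_mul, mul_one]
  rcases Nat.eq_zero_or_pos n with h | h
  · subst h; simp
  · have : (n : ℝ) ≠ 0 := by exact_mod_cast h.ne'
    field_simp

lemma nbF_mult (hn : 0 < n) (h6 : 6 ≤ n) (t : ℕ) : NbMult (nbF hn t) 2 := by
  classical
  intro i E
  have h := sum_samp2_le h6 t i (ext E) (ext_nonneg E)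
  have hn' : (0 : ℝ) < n := by exact_mod_cast hn
  have h1 : ∑ u ∈ range n, ext E (samp2 n t i u) = n * frac (fun u => E (nbF hn t i u)) := by
    rw [← sum_ext, Finset.sum_range, Finset.sum_range]
    refine Finset.sum_congr rfl fun u _ => ?_
    have e1 : ext E (samp2 n t i u) = ext E (nbF hn t i u : Fin n) := rfl
    rw [e1, ext_fin, ext_fin]
  rw [h1, sum_ext] at h
  have : (n : ℝ) * frac (fun u => E (nbF hn t i u)) ≤ n * (2 * frac E) := by linarith
  exact le_of_mul_le_mul_left this hn'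

/-- the basic estimate: averages `≥ b` when the mean is `≤ a` -/
lemma nbF_avg (hn : 0 < n) (h6 : 6 ≤ n) (t : ℕ) (E : Fin n → Prop) {a b : ℝ} (hab : a < b)
    (ha : frac E + 3 / Real.sqrt n ≤ a) :
    frac (fun u => b ≤ (∑ i : Fin (16 ^ t), ext E (nbF hn t i u : Fin n)) / 16 ^ t) *
      (b - a) ^ 2 ≤ ((0.96 : ℝ) ^ 2) ^ t * (2 * frac E) := by
  classical
  have hn' : (0 : ℝ) < n := by exact_mod_cast hn
  have hv := samp2_var h6 t (ext E) (ext_01 E)
  have hm := mean_close hn (ext E) (ext_nonneg E) (fun v => by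
    rcases ext_01 E v with h | h <;> rw [h]; norm_num)
  rw [sum_ext] at hm hv
  set μ := (∑ w ∈ range (side2 n ^ 2), ext E (w % n)) / (side2 n : ℝ) ^ 2 with hμ
  have hμa : μ ≤ a := by
    have h1 := (abs_le.1 hm).2
    have h2 : (n : ℝ) * frac E / n = frac E := by field_simp
    rw [h2] at h1
    linarith
  set B := fun u : Fin n =>
    b ≤ (∑ i : Fin (16 ^ t), ext E (nbF hn t i u : Fin n)) / 16 ^ t with hB
  have hs : ∀ u : Fin n, ∑ j ∈ range (16 ^ t), ext E (samp2 n t j u) =
      ∑ i : Fin (16 ^ t), ext E (nbF hn t i u : Fin n) := fun u => by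
    rw [Finset.sum_range]
    rfl
  have h1 : (n : ℝ) * frac B * (b - a) ^ 2 ≤
      ∑ u ∈ range n, ((∑ j ∈ range (16 ^ t), ext E (samp2 n t j u)) / 16 ^ t - μ) ^ 2 := by
    rw [← sum_ext, Finset.sum_mul]
    refine Finset.sum_le_sum fun u hu => ?_
    have hu' := Finset.mem_range.1 hu
    by_cases hb : B ⟨u, hu'⟩
    · have e1 : ext B u = 1 := by
        have := ext_fin B ⟨u, hu'⟩
        rw [if_pos hb] at this
        exact this
      rw [e1, one_mul]
      have h2 : b ≤ (∑ j ∈ range (16 ^ t), ext E (samp2 n t j u)) / 16 ^ t := by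
        have := hs ⟨u, hu'⟩
        simp only at this
        rw [this]
        exact hb
      apply pow_le_pow_left₀ (by linarith)
      linarith
    · have e1 : ext B u = 0 := by
        have := ext_fin B ⟨u, hu'⟩
        rw [if_neg hb] at this
        exact this
      rw [e1, zero_mul]
      exact sq_nonneg _
  have h2 : (n : ℝ) * (frac B * (b - a) ^ 2) ≤
      n * (((0.96 : ℝ) ^ 2) ^ t * (2 * frac E)) := by
    have := h1.trans hv
    nlinarith
  exact le_of_mul_le_mul_left h2 hn'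

open Classical in
lemma sum_ext_nbF (hn : 0 < n) (t : ℕ) (E : Fin n → Prop) (u : Fin n) :
    ∑ i : Fin (16 ^ t), ext E (nbF hn t i u : Fin n) =
      ((univ.filter fun i : Fin (16 ^ t) => E (nbF hn t i u)).card : ℝ) := by
  have : ∀ i : Fin (16 ^ t), ext E (nbF hn t i u : Fin n) =
      if E (nbF hn t i u) then 1 else 0 := fun i => ext_fin E _
  simp only [this]
  rw [Finset.sum_ite, Finset.sum_const_zero, add_zero, Finset.sum_const, nsmul_eq_mul, mul_one]

lemma sqrt_big {c : ℝ} (hc : 0 < c) {n : ℕ} (hn : 9 / c ^ 2 ≤ (n : ℝ)) (hn0 : 0 < n) :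
    3 / Real.sqrt n ≤ c := by
  have hn' : (0 : ℝ) < n := by exact_mod_cast hn0
  have hs0 : 0 < Real.sqrt n := Real.sqrt_pos.2 hn'
  have h1 : 3 / c ≤ Real.sqrt n := by
    apply Real.le_sqrt_of_sq_le
    have e : (3 / c) ^ 2 = 9 / c ^ 2 := by
      rw [div_pow]; norm_num
    rw [e]
    exact hn
  rw [div_le_iff₀ hs0]
  have := mul_le_mul_of_nonneg_left h1 hc.le
  have e : c * (3 / c) = 3 := by field_simp
  linarith

/-- majority contraction of the sample maps -/
lemma nbF_majC (hn : 0 < n) (hbig : 576 ≤ n) (t : ℕ) :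
    MajC (nbF hn t) (1 / 8) (32 * ((0.96 : ℝ) ^ 2) ^ t) := by
  classical
  intro E hE
  have h3 : 3 / Real.sqrt n ≤ 1 / 8 := sqrt_big (by norm_num) (by
    have h576 : (576 : ℝ) ≤ n := by exact_mod_cast hbig
    have e : (9 : ℝ) / (1 / 8) ^ 2 = 576 := by norm_num
    rw [e]
    exact h576) hn
  have h := nbF_avg hn (by omega) t E (a := 1 / 4) (b := 1 / 2) (by norm_num) (by linarith)
  have h4 : frac (fun u => Fintype.card (Fin (16 ^ t)) ≤
      2 * (univ.filter fun i => E (nbF hn t i u)).card) ≤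
      frac (fun u => 1 / 2 ≤ (∑ i : Fin (16 ^ t), ext E (nbF hn t i u : Fin n)) / 16 ^ t) := by
    apply frac_mono
    intro u hu
    rw [sum_ext_nbF, le_div_iff₀ (by positivity)]
    rw [Fintype.card_fin] at hu
    have hu' : ((16 ^ t : ℕ) : ℝ) ≤
        ((2 * (univ.filter fun i => E (nbF hn t i u)).card : ℕ) : ℝ) := by
      exact_mod_cast hu
    push_cast at hu'
    linarith
  have h5 : 0 ≤ frac (fun u => 1 / 2 ≤
    (∑ i : Fin (16 ^ t), ext E (nbF hn t i u : Fin n)) / 16 ^ t) := frac_nonneg _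
  have h6 : ((1 : ℝ) / 2 - 1 / 4) ^ 2 = 1 / 16 := by norm_num
  rw [h6] at h
  linarith

/-- edge expansion of the sample maps -/
lemma nbF_expands (hn : 0 < n) (hbig : 576 ≤ n) (t : ℕ)
    (ht : ((0.96 : ℝ) ^ 2) ^ t ≤ 9 / 256) : Expands (nbF hn t) (1 / 2) := by
  classical
  intro E hE
  have h3 : 3 / Real.sqrt n ≤ 1 / 8 := sqrt_big (by norm_num) (by
    have h576 : (576 : ℝ) ≤ n := by exact_mod_cast hbig
    have e : (9 : ℝ) / (1 / 8) ^ 2 = 576 := by norm_num
    rw [e]
    exact h576) hn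
  have h := nbF_avg hn (by omega) t E (a := 5 / 8) (b := 1) (by norm_num) (by linarith)
  have hE0 : 0 ≤ frac E := frac_nonneg E
  set B := fun u : Fin n => 1 ≤ (∑ i : Fin (16 ^ t), ext E (nbF hn t i u : Fin n)) / 16 ^ t with hB
  have h6 : ((1 : ℝ) - 5 / 8) ^ 2 = 9 / 64 := by norm_num
  rw [h6] at h
  have h7 : frac B ≤ 1 / 2 * frac E := by
    have := mul_le_mul_of_nonneg_right ht (by linarith : (0 : ℝ) ≤ 2 * frac E)
    linarith
  have h8 : frac E ≤ frac (fun u => ∃ i, ¬ (E (nbF hn t i u) ↔ E u)) + frac B := by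
    refine (frac_mono ?_).trans (frac_or _ _)
    intro u hu
    by_cases hex : ∃ i, ¬ (E (nbF hn t i u) ↔ E u)
    · exact Or.inl hex
    · right
      have hall : ∀ i, E (nbF hn t i u) := fun i => by
        by_contra hi
        exact hex ⟨i, fun h => hi (h.2 hu)⟩
      show 1 ≤ _
      rw [sum_ext_nbF, Finset.filter_true_of_mem fun i _ => hall i, Finset.card_univ,
        Fintype.card_fin]
      push_cast
      rw [div_self (by positivity)]
  linarith

end fin

/-! ### transport to any unit set -/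

section transport

variable {U : Type} [Fintype U] {n : ℕ}

lemma frac_equiv (e : U ≃ Fin n) (p : Fin n → Prop) : frac (fun u => p (e u)) = frac p := by
  classical
  unfold frac
  rw [Fintype.card_congr e]
  congr 2
  apply Finset.card_bij (fun u _ => e u)
  · intro u hu
    simp only [mem_filter, mem_univ, true_and] at hu ⊢
    exact hu
  · intro a _ b _ hab
    exact e.injective hab
  · intro v hv
    simp only [mem_filter, mem_univ, true_and] at hv ⊢
    exact ⟨e.symm v, by simpa using hv, by simp⟩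

/-- the sample maps on `U` -/
def uS (e : U ≃ Fin n) (hn : 0 < n) (t : ℕ) (i : Fin (16 ^ t)) (u : U) : U :=
  e.symm (nbF hn t i (e u))

lemma uS_mult (e : U ≃ Fin n) (hn : 0 < n) (h6 : 6 ≤ n) (t : ℕ) : NbMult (uS e hn t) 2 := by
  intro i E
  have h := nbF_mult hn h6 t i (fun v => E (e.symm v))
  have e1 := frac_equiv e (fun v => E (e.symm (nbF hn t i v)))
  have e2 := frac_equiv e (fun v => E (e.symm v))
  simp only [Equiv.symm_apply_apply] at e2
  rw [← e1, ← e2] at h
  exact h

lemma uS_majC (e : U ≃ Fin n) (hn : 0 < n) (hbig : 576 ≤ n) (t : ℕ) :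
    MajC (uS e hn t) (1 / 8) (32 * ((0.96 : ℝ) ^ 2) ^ t) := by
  classical
  intro E hE
  have e2 := frac_equiv e (fun v => E (e.symm v))
  simp only [Equiv.symm_apply_apply] at e2
  have h := nbF_majC hn hbig t (fun v => E (e.symm v)) (by rw [← e2]; exact hE)
  have e1 := frac_equiv e (fun v => Fintype.card (Fin (16 ^ t)) ≤
      2 * (univ.filter fun i => E (e.symm (nbF hn t i v))).card)
  rw [← e1, ← e2] at h
  exact h

lemma uS_expands (e : U ≃ Fin n) (hn : 0 < n) (hbig : 576 ≤ n) (t : ℕ)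
    (ht : ((0.96 : ℝ) ^ 2) ^ t ≤ 9 / 256) : Expands (uS e hn t) (1 / 2) := by
  classical
  intro E hE
  have e2 := frac_equiv e (fun v => E (e.symm v))
  simp only [Equiv.symm_apply_apply] at e2
  have h := nbF_expands hn hbig t ht (fun v => E (e.symm v)) (by rw [← e2]; exact hE)
  have e1 := frac_equiv e (fun v => ∃ i, ¬ (E (e.symm (nbF hn t i v)) ↔ E (e.symm v)))
  simp only [Equiv.symm_apply_apply] at e1
  rw [← e1, ← e2] at h
  exact h

lemma uS_sampler (e : U ≃ Fin n) (hn : 0 < n) (t : ℕ) {e1 γ : ℝ}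
    (h : Sampler (16 ^ t) (nbF hn t) e1 γ) : Sampler (16 ^ t) (uS e hn t) e1 γ := by
  classical
  intro y hy
  have h1 := h (fun v => y (e.symm v)) fun v => hy _
  have e2 := frac_equiv e (fun v => ¬ |(∑ i, y (e.symm (nbF hn t i v))) / ((16 ^ t : ℕ) : ℝ) -
    (∑ v, y (e.symm v)) / (Fintype.card (Fin n) : ℝ)| ≤ e1)
  rw [← e2] at h1
  have e3 : ∑ v, y (e.symm v) = ∑ u, y u := Equiv.sum_comp e.symm y
  have e4 : (Fintype.card (Fin n) : ℝ) = Fintype.card U := by rw [Fintype.card_congr e]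
  rw [e3, e4] at h1
  exact h1

/-- **The control letter**: for every finite alphabet `A` and every `θ > 0` there is a walk length
`t` such that on every large unit set the constant words form a local code. -/
theorem letter_CAx {θ : ℝ} (hθ : 0 < θ) : ∃ t0 n0 : ℕ, ∀ t, t0 ≤ t →
    ∀ (A U : Type) [Fintype A] [Nonempty A] [Fintype U] (n : ℕ) (e : U ≃ Fin n) (hn : 0 < n),
      n0 ≤ n →
      CAx (repRules (Fin (16 ^ t)) A) (onb (uS e hn t)) (fun _ => ())
        {w : U → A | ∃ a, w = fun _ => a} 2 (1 / 10) (1 / 8) 1 2 θ := by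
  obtain ⟨t0, ht0⟩ := exists_pow_lt_of_lt_one (x := min (θ / 32) (9 / 256))
    (by positivity) (by norm_num : ((0.96 : ℝ) ^ 2) < 1)
  refine ⟨t0, 576, fun t ht A U _ _ _ n e hn hbig => ?_⟩
  have : Nonempty U := ⟨e.symm ⟨0, hn⟩⟩
  have hpow : ((0.96 : ℝ) ^ 2) ^ t ≤ min (θ / 32) (9 / 256) :=
    (pow_le_pow_of_le_one (by norm_num) (by norm_num) ht).trans ht0.le
  have h := rep_CAx (A := A) (uS e hn t) (m := 2) (by norm_num) (uS_mult e hn (by omega) t)
    (h := 1 / 2) (by norm_num) (uS_expands e hn hbig t (hpow.trans (min_le_right _ _)))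
    (uS_majC e hn hbig t)
  refine h.mono le_rfl (by norm_num) le_rfl le_rfl (by norm_num) ?_
  have := hpow.trans (min_le_left _ _)
  linarith

/-- all facts about the sample maps at once: sampler, multiplicity, expansion, majority -/
theorem samples {θ e1 γ : ℝ} (hθ : 0 < θ) (he : 0 < e1) (hγ : 0 < γ) :
    ∃ t0 n0 : ℕ, ∀ t, t0 ≤ t → ∀ (U : Type) [Fintype U] (n : ℕ) (e : U ≃ Fin n) (hn : 0 < n),
      n0 ≤ n → Sampler (16 ^ t) (uS e hn t) e1 γ ∧ NbMult (uS e hn t) 2 ∧
        Expands (uS e hn t) (1 / 2) ∧ MajC (uS e hn t) (1 / 8) θ := by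
  obtain ⟨t1, n1, h1⟩ := D3 he hγ
  obtain ⟨t0, ht0⟩ := exists_pow_lt_of_lt_one (x := min (θ / 32) (9 / 256))
    (by positivity) (by norm_num : ((0.96 : ℝ) ^ 2) < 1)
  refine ⟨max t0 t1, max 576 n1, fun t ht U _ n e hn hbig => ?_⟩
  have hpow : ((0.96 : ℝ) ^ 2) ^ t ≤ min (θ / 32) (9 / 256) :=
    (pow_le_pow_of_le_one (by norm_num) (by norm_num) ((le_max_left _ _).trans ht)).trans ht0.le
  have hb : 576 ≤ n := (le_max_left _ _).trans hbig
  refine ⟨uS_sampler e hn t (h1 t ((le_max_right _ _).trans ht) n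
    ((le_max_right _ _).trans hbig) hn), uS_mult e hn (by omega) t,
    uS_expands e hn hb t (hpow.trans (min_le_right _ _)), ?_⟩
  intro E hE
  refine (uS_majC e hn hb t E hE).trans (mul_le_mul_of_nonneg_right ?_ (frac_nonneg _))
  have := hpow.trans (min_le_left _ _)
  linarith

end transport

end Crest.Agent.R289.SampU560
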