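import Crest.Agent.R289.ULAsm_406
import Crest.Agent.R289.SampU_560
import Crest.Agent.R289.FamGlue_715

/-!
# Row 289: from a semantic machine with uniformly local maps to `Fam289` (helper715)

`fam289_of_sem` : a family of unit sets `U i` with finitely many step maps `mv i` and public data
`pub i`, a local code over these steps, semantic data `ULAsm406.Sem` (relations, reads, step maps) that
are uniformly local (`Sem.Loc`), the exact facts `Exact` (gap, closure, inverse maps, coherent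
reads) for every member of the family, and polynomial-time tables of the STEPS, of the public data and
of the start labels (`BaseT`) for the instances of `EOL` give `Asm12.Fam289`.
Slots of the rules = words of steps, samples = `SampU560.uS`; everything else (codings, constants,
reindexing, decoders, composite slots) is inside.
-/

set_option autoImplicit false
set_option linter.dupNamespace false

namespace Crest.Agent.R289.UFam715

open Crest.PPADPCP Crest.Agent.Lib.PT Crest.Agent.R289 Crest.Agent.R289.DefD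
open Crest.Agent.R289.FamComb715 Crest.Agent.R289.FamPub715 Crest.Agent.R289.FamGlue715
open Crest.Agent.R289.Asm12 Crest.Agent.R289.Word508 Crest.Agent.R289.ULoc406
open Crest.Agent.R289.ULAsm406 Crest.Agent.R289.SampU560 Crest.Agent.R289.Sampler56

/-! ### words of steps: multiplicity, index functions -/

theorem nbMult_walk {St U : Type} [Fintype U] {mv : St → U → U} {m : ℝ} (h : NbMult mv m)
    (hm : 0 ≤ m) (w : List St) (E : U → Prop) :
    frac (fun u => E (walk mv w u)) ≤ m ^ w.length * frac E := by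
  induction w with
  | nil => simp [walk]
  | cons s w ih =>
    have h1 := h s (fun v => E (walk mv w v))
    calc frac (fun u => E (walk mv (s :: w) u)) ≤ m * frac (fun v => E (walk mv w v)) := h1
      _ ≤ m * (m ^ w.length * frac E) := mul_le_mul_of_nonneg_left ih hm
      _ = m ^ (s :: w).length * frac E := by rw [List.length_cons, pow_succ]; ring

theorem nbMult_nbS {St U : Type} [Fintype U] {mv : St → U → U} {m : ℝ} (h : NbMult mv m)
    (hm : 1 ≤ m) (n : ℕ) : NbMult (nbS mv n) (m ^ n) := by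
  intro s E
  refine (nbMult_walk h (by linarith) s.1 E).trans ?_
  exact mul_le_mul_of_nonneg_right (pow_le_pow_right₀ hm s.2) (frac_nonneg _)

section comm

variable {St P U V : Type} {mv : St → U → U} {mv' : St → V → V} {pub : U → P} {pub' : V → P}
  {φ : U → V}

theorem walk_comm (h : ∀ s u, φ (mv s u) = mv' s (φ u)) (w : List St) (u : U) :
    φ (walk mv w u) = walk mv' w (φ u) := by
  induction w generalizing u with
  | nil => rfl
  | cons s w ih =>
    show φ (walk mv w (mv s u)) = walk mv' w (mv' s (φ u))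
    rw [ih, h]

theorem nbS_comm (h : ∀ s u, φ (mv s u) = mv' s (φ u)) (n : ℕ) (s : Sl St n) (u : U) :
    φ (nbS mv n s u) = nbS mv' n s (φ u) := walk_comm h s.1 u

theorem pubS_comm (h : ∀ s u, φ (mv s u) = mv' s (φ u)) (hp : ∀ u, pub' (φ u) = pub u) (n : ℕ)
    (u : U) : pubS mv' pub' n (φ u) = pubS mv pub n u := by
  funext s
  show pub' (nbS mv' n s (φ u)) = pub (nbS mv n s u)
  rw [← nbS_comm h, hp]

end comm

section ptf

variable {α : Type} [PTCode α] {St P : Type} {g : St → α → ℕ → ℕ} {p : α → ℕ → P}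

theorem ptf_walk (hg : ∀ s, PTF₂ (g s)) (w : List St) :
    PTF₂ (fun a u => walk (fun s => g s a) w u) := by
  induction w with
  | nil => exact ptf₂_id
  | cons s w ih =>
    exact ptf₂_comp (g := fun a u => walk (fun s => g s a) w u) (h := g s) ih (hg s)

theorem ptf_nbS (hg : ∀ s, PTF₂ (g s)) (n : ℕ) (s : Sl St n) :
    PTF₂ (fun a u => nbS (fun s => g s a) n s u) := ptf_walk hg s.1

theorem fp_pubS [Finite St] [Finite P] (hg : ∀ s, PTF₂ (g s)) (hp : FP₂ p) (n : ℕ) :
    FP₂ (fun a u => pubS (fun s => g s a) (p a) n u) :=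
  FP₂.pi (v := fun (s : Sl St n) a u => p a (nbS (fun s => g s a) n s u)) fun s =>
    FP₂.slot hp (ptf_nbS hg n s)

end ptf

/-- one-hot coding -/
theorem exists_enc (A : Type) [Finite A] : ∃ (l : ℕ) (enc : A → Fin l → Bool),
    Function.Injective enc := by
  obtain ⟨l, ⟨e⟩⟩ := Finite.exists_equiv_fin A
  refine ⟨l, fun a j => decide (e a = j), fun a b h => ?_⟩
  have h1 := congrFun h (e a)
  have h2 : b = a := by simpa using h1.symm
  exact h2.symm

/-! ### base tables -/

/-- tables of the steps, of the public data, of the start labels -/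
structure BaseT (St A P : Type) where
  n : EI → ℕ
  mv : St → EI → ℕ → ℕ
  pub : EI → ℕ → P
  w0 : EI → ℕ → A
  len : EI → ℕ
  adN : EI × ℕ → ℕ
  adM : EI × ℕ → ℕ

structure BaseT.PT {St A P : Type} (T : BaseT St A P) : Prop where
  n : PTF T.n
  mv : ∀ s, PTF₂ (T.mv s)
  pub : FP₂ T.pub
  w0 : FP₂ T.w0
  len : PTU T.len
  adN : PTF T.adN
  adM : PTF T.adM

/-- the tables describe the units `U` on the instance `I`; `W`, `N`, `M` = legal words and exact
steps; a blocked word carries a solution -/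
structure BaseT.On {St A P : Type} (T : BaseT St A P) (I : EOL) {U : Type} (mv : St → U → U)
    (pub : U → P) (w0 : U → A) (W : Set (U → A)) (N M : (U → A) → U → A) (gN gM : A → Bool)
    (n0 a b : ℕ) : Prop where
  n_ge : n0 ≤ T.n (raw I)
  n_pos : 0 < T.n (raw I)
  n_le : T.n (raw I) ≤ a * I.encode.length * (Nat.clog 2 (I.encode.length + 2)) ^ b
  len_eq : T.len (raw I) = I.n
  ex : ∃ eU : U ≃ Fin (T.n (raw I)),
    (∀ s u, T.mv s (raw I) (eU u : Fin (T.n (raw I))) = (eU (mv s u) : Fin (T.n (raw I)))) ∧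
    (∀ u, T.pub (raw I) (eU u : Fin (T.n (raw I))) = pub u) ∧
    (∀ u, T.w0 (raw I) (eU u : Fin (T.n (raw I))) = w0 u) ∧
    (∀ w ∈ W, N w = w → ∃ v : Fin I.n → Bool, I.IsSolution v ∧
      ∀ i : Fin I.n, ∃ u : U, ((eU u : Fin (T.n (raw I))) : ℕ) = T.adN (raw I, (i : ℕ)) ∧
        gN (w u) = v i) ∧
    (∀ w ∈ W, M w = w → w ≠ w0 → ∃ v : Fin I.n → Bool, I.IsSolution v ∧
      ∀ i : Fin I.n, ∃ u : U, ((eU u : Fin (T.n (raw I))) : ℕ) = T.adM (raw I, (i : ℕ)) ∧
        gM (w u) = v i)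

/-! ### exact facts -/

/-- exact facts about the semantic machine of one member of the family -/
structure Exact {Inst : Type} {U : Inst → Type} {A Jr J J' : Type} {V : J → Type} {V' : J' → Type}
    (D : Sem Inst U A Jr J J' V V') (i : Inst) [Fintype (U i)] (C : Set (U i → A)) (w0 : U i → A)
    (g ρ : ℝ) : Prop where
  gap : ∀ w ∈ C, (¬ ∀ j u, D.rel j i w u) → ∃ j, g ≤ frac fun u => ¬ D.rel j i w u
  w0_mem : w0 ∈ D.W i C
  N_mem : ∀ w ∈ D.W i C, D.N i w ∈ D.W i C
  M_mem : ∀ w ∈ D.W i C, D.M i w ∈ D.W i C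
  MN : ∀ w ∈ D.W i C, D.N i w ≠ w → D.M i (D.N i w) = w
  NM : ∀ w ∈ D.W i C, D.M i w ≠ w → D.N i (D.M i w) = w
  M_w0 : D.M i w0 = w0
  N_w0 : D.N i w0 ≠ w0
  cohN : ∀ w ∈ D.W i C, ∀ j, Coh (D.vl j i w) ρ
  cohM : ∀ w ∈ D.W i C, ∀ j, Coh (D.vl' j i w) ρ

section main

variable {Inst St : Type} {U : Inst → Type} {A P ι0 P0 Jr J J' : Type} {V : J → Type}
    {V' : J' → Type} {D : Sem Inst U A Jr J J' V V'} {mv : ∀ i, St → U i → U i}
    {pub : ∀ i, U i → P} {nb0 : ∀ i, ι0 → U i → U i} {pub0 : ∀ i, U i → P0}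

/-- the axioms of the machine of one member, literal form over the slots `words of steps` plus
samples of such words -/
theorem ax_of_exact [Finite St] [Fintype J] [Fintype J'] [Nonempty A] [Nonempty P] {n : ℕ}
    (R : Rules D mv pub nb0 pub0 n) {R0 : CRules ι0 A P0} (i : Inst) [Fintype (U i)]
    {C : Set (U i → A)} {w0 : U i → A} {m mm zs r0 d0 c θ g ρ e1 γ1 : ℝ}
    (hcode : CAx R0 (nb0 i) (pub0 i) C m zs r0 d0 c θ) (hmv : NbMult (mv i) mm) (hmm : 1 ≤ mm)
    (hc : 0 ≤ c) (hθ : θ ≤ 1 / 4) (hg : 0 < g) (hex : Exact D i C w0 g ρ)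
    {d : ℕ} (sm : Fin d → U i → U i) (hsm : NbMult sm 2) (hs : Sampler d sm e1 γ1) (he : e1 < ρ)
    (hγ1 : 0 ≤ γ1) [Fintype (Sl St n)] {k l r : ℕ} (eq : (Sl St n ⊕ Fin d × Sl St n) ≃ Fin k)
    (enc : A → (Fin l → Bool)) (henc : Function.Injective enc)
    (encP : (Sl St n → P) × (Fin d → (Sl St n → P)) → (Fin r → Bool))
    (hencP : Function.Injective encP)
    (K : MConst) (hzs : K.zs ≤ min zs (g / (2 * (1 + Fintype.card (Sl St n) * mm ^ n * c))))
    (hr0 : K.r0 ≤ r0) (hd0 : K.d0 ≤ d0) (hcK : c + 1 ≤ K.c)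
    (hcm : ((d : ℝ) + 1) * Fintype.card (Sl St n) * (mm ^ n * 2) ≤ K.c)
    (hγN : Fintype.card J * γ1 ≤ K.γ) (hγM : Fintype.card J' * γ1 ≤ K.γ) :
    (((asmRules d (R.code R0) R.rel R.S R.S').toL eq enc encP).data
      (fun j => snb (nbS (mv i) n) sm (eq.symm j))
      (fun u => encP (spub (pubS (mv i) (pub i) n) sm u))
      {X | ∃ w ∈ D.W i C, X = fun u => enc (w u)} (fun u => enc (w0 u))
      (liftMap enc (D.N i)) (liftMap enc (D.M i))).Ax K := by
  have hM := nbMult_nbS hmv hmm n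
  have hM1 : (1 : ℝ) ≤ mm ^ n := one_le_pow₀ hmm
  have hW := R.restrictC_eq i C
  have h := asm_Ax (R.code R0) R.rel R.S R.S' (nbS (mv i) n) (pubS (mv i) (pub i) n) C sm
    (R.cax hcode hM) hM1 hsm (by norm_num) hc hg (R.gap hex.gap) hs he hγ1 w0 (D.N i) (D.M i)
    (by rw [hW]; exact hex.w0_mem) (by rw [hW]; exact hex.N_mem) (by rw [hW]; exact hex.M_mem)
    (by rw [hW]; exact hex.MN) (by rw [hW]; exact hex.NM) hex.M_w0 hex.N_w0
    (fun w _ => (R.glob_eq i w).symm) (fun w _ => (R.glob_eq' i w).symm)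
    (by rw [hW]; exact fun w hw j => R.coh w j (hex.cohN w hw j))
    (by rw [hW]; exact fun w hw j => R.coh' w j (hex.cohM w hw j))
    (Sl.nil St n) (fun u => rfl) hθ eq enc henc encP hencP K hzs hr0 hd0 hcK hcm hγN hγM
  rw [hW] at h
  exact h

/-- **SEMANTIC MACHINE → `Fam289`** -/
theorem fam289_of_sem [Finite St] [Finite A] [Nonempty A] [Finite P] [Nonempty P] [Finite ι0]
    [Finite Jr] [Finite J] [Finite J'] [∀ j, Finite (V j)] [∀ j, Finite (V' j)]
    [∀ i, Fintype (U i)]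
    (hreal : Real mv pub nb0 pub0) (hD : D.Loc mv pub) {R0 : CRules ι0 A P0}
    {C : ∀ i, Set (U i → A)} {w0 : ∀ i, U i → A} {m mm zs r0 d0 c θ g ρ : ℝ}
    (hcode : ∀ i, CAx R0 (nb0 i) (pub0 i) (C i) m zs r0 d0 c θ)
    (hmv : ∀ i, NbMult (mv i) mm) (hmm : 1 ≤ mm) (hzs : 0 < zs) (hr0 : 0 < r0) (hd0 : 0 < d0)
    (hc : 0 ≤ c) (hθ : θ ≤ 1 / 4) (hg : 0 < g) (hρ : 0 < ρ)
    (hex : ∀ i, Exact D i (C i) (w0 i) g ρ) (gN gM : A → Bool)
    (H : ∀ n0 : ℕ, ∃ (T : BaseT St A P) (a b : ℕ), T.PT ∧ ∀ I : EOL, I.WF →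
      ∃ i : Inst, T.On I (mv i) (pub i) (w0 i) (D.W i (C i)) (D.N i) (D.M i) gN gM n0 a b) :
    Fam289 := by
  classical
  obtain ⟨n, hn⟩ := exists_rules hreal hD
  obtain ⟨R⟩ := hn n le_rfl
  have : Fintype J := Fintype.ofFinite J
  have : Fintype J' := Fintype.ofFinite J'
  have : Fintype (Sl St n) := Fintype.ofFinite _
  -- constants
  set γ : ℝ := min r0 d0 / 6 with hγdef
  have hγ0 : 0 < γ := by rw [hγdef]; have := lt_min hr0 hd0; positivity
  set γ1 : ℝ := γ / (1 + Fintype.card J + Fintype.card J') with hγ1def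
  have hden : (0 : ℝ) < 1 + Fintype.card J + Fintype.card J' := by positivity
  have hγ1 : 0 < γ1 := div_pos hγ0 hden
  have hJ : (Fintype.card J : ℝ) * γ1 ≤ γ := by
    rw [hγ1def, mul_div_assoc', div_le_iff₀ hden]
    nlinarith [(Nat.cast_nonneg (Fintype.card J') : (0 : ℝ) ≤ _)]
  have hJ' : (Fintype.card J' : ℝ) * γ1 ≤ γ := by
    rw [hγ1def, mul_div_assoc', div_le_iff₀ hden]
    nlinarith [(Nat.cast_nonneg (Fintype.card J) : (0 : ℝ) ≤ _)]
  obtain ⟨t, n1, hsamp⟩ := samples (θ := 1) (e1 := ρ / 2) (γ := γ1) one_pos (by positivity) hγ1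
  have hM1 : (1 : ℝ) ≤ mm ^ n := one_le_pow₀ hmm
  set zs' : ℝ := min zs (g / (2 * (1 + Fintype.card (Sl St n) * mm ^ n * c))) with hzs'
  have hzs'0 : 0 < zs' := by
    refine lt_min hzs (div_pos hg ?_)
    have : (0 : ℝ) ≤ Fintype.card (Sl St n) * mm ^ n * c := by positivity
    linarith
  set cc : ℝ := c + 1 + ((16 ^ t : ℕ) + 1 : ℝ) * Fintype.card (Sl St n) * (mm ^ n * 2) with hcc
  have hextra : (0 : ℝ) ≤ ((16 ^ t : ℕ) + 1 : ℝ) * Fintype.card (Sl St n) * (mm ^ n * 2) := by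
    positivity
  set K : MConst := mconst zs' r0 d0 cc γ hzs'0 hr0 hd0 (by rw [hcc]; linarith) hγ0.le with hK
  have hd := min_le_left r0 d0
  have hd' := min_le_right r0 d0
  -- codings
  obtain ⟨l, enc, henc⟩ := exists_enc A
  obtain ⟨r, encP, hencP⟩ := exists_enc ((Sl St n → P) × (Fin (16 ^ t) → (Sl St n → P)))
  refine fam289_of (asmRules (16 ^ t) (R.code R0) R.rel R.S R.S')
    (Fintype.equivFin (Sl St n ⊕ Fin (16 ^ t) × Sl St n)) enc henc encP K gN gM
    (by show 5 * γ < r0; rw [hγdef]; linarith [hr0])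
    (by show 5 * γ < d0; rw [hγdef]; linarith [hd0]) fun n0 => ?_
  obtain ⟨T, a, b, hT, hI⟩ := H (max n0 n1)
  refine ⟨⟨T.n, fun s x u => snb (nbS (fun s => T.mv s x) n)
      (fun j : Fin (16 ^ t) => samp2 (T.n x) t j) s u,
      fun x u => spub (pubS (fun s => T.mv s x) (T.pub x) n)
        (fun j : Fin (16 ^ t) => samp2 (T.n x) t j) u,
      T.w0, T.len, T.adN, T.adM⟩, a, b, ⟨hT.n, ?_, ?_, hT.w0, hT.len, hT.adN, hT.adM⟩, ?_⟩
  · intro s
    exact ptf_snb (g := fun s x u => nbS (fun s => T.mv s x) n s u)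
      (sm := fun j x u => samp2 (T.n x) t j u) (fun s => ptf_nbS hT.mv n s)
      (fun j => ptf_samp2 t (PTF.comp hT.n PTF.fst) (PTF.const _) PTF.snd) s
  · exact fp_spub (p := fun x u => pubS (fun s => T.mv s x) (T.pub x) n u)
      (sm := fun j x u => samp2 (T.n x) t j u) (fp_pubS hT.mv hT.pub n)
      (fun j => ptf_samp2 t (PTF.comp hT.n PTF.fst) (PTF.const _) PTF.snd)
  · intro I hWF
    obtain ⟨i, hi⟩ := hI I hWF
    obtain ⟨eU, hmvT, hpubT, hw0T, hN, hM⟩ := hi.ex
    have hnn : n1 ≤ T.n (raw I) := (le_max_right _ _).trans hi.n_ge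
    obtain ⟨hs, hmult, -, -⟩ := hsamp t le_rfl (U i) (T.n (raw I)) eU hi.n_pos hnn
    refine ⟨(le_max_left _ _).trans hi.n_ge, hi.n_pos, hi.n_le, hi.len_eq, ?_⟩
    refine ⟨U i, inferInstance, eU, snb (nbS (mv i) n) (uS eU hi.n_pos t),
      spub (pubS (mv i) (pub i) n) (uS eU hi.n_pos t), D.W i (C i), w0 i, D.N i, D.M i, ?_, ?_,
      hw0T, ?_, hN, hM⟩
    · intro s u
      exact (snb_comm (φ := fun u => ((eU u : Fin (T.n (raw I))) : ℕ))
        (nb' := nbS (fun s => T.mv s (raw I)) n)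
        (sm' := fun j : Fin (16 ^ t) => samp2 (T.n (raw I)) t j)
        (fun s u => nbS_comm (φ := fun u => ((eU u : Fin (T.n (raw I))) : ℕ))
          (mv' := fun s => T.mv s (raw I)) (fun s u => (hmvT s u).symm) n s u)
        (fun j u => by
          show ((eU (eU.symm (nbF hi.n_pos t j (eU u))) : Fin (T.n (raw I))) : ℕ) = _
          rw [Equiv.apply_symm_apply]
          rfl) s u).symm
    · intro u
      exact spub_comm (φ := fun u => ((eU u : Fin (T.n (raw I))) : ℕ))
        (sm' := fun j : Fin (16 ^ t) => samp2 (T.n (raw I)) t j)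
        (pub' := pubS (fun s => T.mv s (raw I)) (T.pub (raw I)) n)
        (fun j u => by
          show ((eU (eU.symm (nbF hi.n_pos t j (eU u))) : Fin (T.n (raw I))) : ℕ) = _
          rw [Equiv.apply_symm_apply]
          rfl)
        (fun u => pubS_comm (φ := fun u => ((eU u : Fin (T.n (raw I))) : ℕ))
          (mv' := fun s => T.mv s (raw I)) (fun s u => (hmvT s u).symm) hpubT n u) u
    · exact ax_of_exact R i (hcode i) (hmv i) hmm hc hθ hg (hex i) (uS eU hi.n_pos t) hmult hs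
        (by linarith) hγ1.le _ enc henc encP hencP K le_rfl le_rfl le_rfl
        (by show c + 1 ≤ cc; rw [hcc]; linarith)
        (by show _ ≤ cc; rw [hcc]; push_cast at hextra ⊢; linarith) hJ hJ'

end main

end Crest.Agent.R289.UFam715
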