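import Crest.Agent.R289.SemDef_406
import Crest.Agent.R289.SemN_844
import Crest.Agent.R289.UFam_715

/-!
# Row 289, leaf C_SEM (helper844): the semantic machine `semI` of SemDef_406 on exact words

For `h : LMI827.Hyp I CG CT tt` and clock words `k.OK`: on the words of the configurations of
`lmI h hx0 hb0` the step maps of `semI` are `stepN`, `stepM`; closure, inverse maps, start word, dead
ends; `exact_of` : the structure `UFam715.Exact` from the description of the legal words, the gap and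
the densities of the flags.
-/

set_option autoImplicit false
set_option linter.unusedSectionVars false
set_option linter.unusedVariables false

namespace Crest.Agent.R289.SemEx844

open Finset DefC DefI Compile827 LMI827 SemI406 ULocI880 Word508 SemN844

variable {K : Type} [Field K] {c : Cst K}

section one

variable {I : Ins c} {Ck : Type} (k : Clk I Ck)

/-- forward map of `semI` -/
noncomputable def Nw (w : I.U → c.Lab Ck) : I.U → c.Lab Ck := fun u =>
  StpN I k (fun ρ => pick (FlN I ρ w)) w u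

/-- backward map of `semI` -/
noncomputable def Mw (w : I.U → c.Lab Ck) : I.U → c.Lab Ck := fun u =>
  StpM I k (fun j => pick (FlM I j w)) w u

variable {k}

theorem dW_labE (hk : k.OK) (f : Conf I.XW I.ZW c.A.Tr) (ht : f.t ≤ I.L) :
    dW I k (I.labE k.cw f) = fun u => I.td f.t u.2 := by
  funext u
  exact hk.rd f.t ht u

theorem StpN_labE (hk : k.OK) (y : c.A.Tr → Option Unit) (f : Conf I.XW I.ZW c.A.Tr)
    (ht : f.t ≤ I.L) (hr : f.l = .rest → f.t = 0) (u : I.U) :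
    StpN I k y (I.labE k.cw f) u = I.labE k.cw (stR I (fun ρ => y ρ = none) f) u := by
  have hrd := dW_labE hk f ht
  obtain ⟨l, t, x1, z1, x2, z2⟩ := f
  simp only at ht hr hrd
  cases l with
  | boot =>
    show NL I k y _ u .boot = _
    simp only [NL, stR, hrd]
    rcases lt_or_eq_of_le ht with h | h
    · have h1 : (I.td t u.2).lst ≠ true := by
        simp [Ins.td, h.ne]
      rw [if_neg h1, if_pos h]
      exact Cst.Lab.ext rfl (hk.up t h u) rfl rfl
    · subst h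
      have h1 : (I.td I.L u.2).lst = true := by simp [Ins.td]
      rw [if_pos h1, if_neg (lt_irrefl _)]
      exact Cst.Lab.ext rfl (hk.top u) rfl rfl
  | rest =>
    have ht0 : t = 0 := hr rfl
    subst ht0
    show NL I k y _ u .rest = _
    simp only [NL, stR]
    by_cases h : ∃ ρ, y ρ = none
    · rw [dif_pos h, dif_pos h]
      rfl
    · rw [dif_neg h, dif_neg h]
  | fw ρ =>
    show NL I k y _ u (.fw ρ) = _
    simp only [NL, stR, hrd]
    rcases lt_or_eq_of_le ht with h | h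
    · have h1 : (I.td t u.2).lst ≠ true := by
        simp [Ins.td, h.ne]
      rw [if_neg h1, if_pos h]
      exact Cst.Lab.ext rfl (hk.up t h u) rfl rfl
    · subst h
      have h1 : (I.td I.L u.2).lst = true := by simp [Ins.td]
      rw [if_pos h1, if_neg (lt_irrefl _)]
      rfl
  | bw ρ =>
    show NL I k y _ u (.bw ρ) = _
    simp only [NL, stR, hrd]
    cases t with
    | zero =>
      have h1 : (I.td 0 u.2).fst = true := by simp [Ins.td]
      rw [if_pos h1, if_neg (lt_irrefl _)]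
      rfl
    | succ t =>
      have h1 : (I.td (t + 1) u.2).fst ≠ true := by simp [Ins.td]
      rw [if_neg h1, if_pos (Nat.succ_pos _)]
      exact Cst.Lab.ext rfl (hk.dn t ht u) rfl rfl

theorem StpM_labE (hk : k.OK) (y : Option c.A.Tr → Option Unit) (f : Conf I.XW I.ZW c.A.Tr)
    (ht : f.t ≤ I.L) (hr : f.l = .rest → f.t = 0) (u : I.U) :
    StpM I k y (I.labE k.cw f) u =
      I.labE k.cw (stB I (fun ρ => y (some ρ) = none) (y none = none) f) u := by
  have hrd := dW_labE hk f ht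
  obtain ⟨l, t, x1, z1, x2, z2⟩ := f
  simp only at ht hr hrd
  cases l with
  | boot =>
    show ML I k y _ u .boot = _
    simp only [ML, stB, hrd]
    cases t with
    | zero =>
      have h1 : (I.td 0 u.2).fst = true := by simp [Ins.td]
      rw [if_pos h1, if_neg (lt_irrefl _)]
    | succ t =>
      have h1 : (I.td (t + 1) u.2).fst ≠ true := by simp [Ins.td]
      rw [if_neg h1, if_pos (Nat.succ_pos _)]
      exact Cst.Lab.ext rfl (hk.dn t ht u) rfl rfl
  | rest =>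
    have ht0 : t = 0 := hr rfl
    subst ht0
    show ML I k y _ u .rest = _
    simp only [ML, stB]
    by_cases h : ∃ ρ : c.A.Tr, y (some ρ) = none
    · rw [dif_pos h, dif_pos h]
      rfl
    · rw [dif_neg h, dif_neg h]
      by_cases h0 : y none = none
      · rw [if_pos h0, if_pos h0]
        exact Cst.Lab.ext rfl (hk.bot u) rfl rfl
      · rw [if_neg h0, if_neg h0]
  | fw ρ =>
    show ML I k y _ u (.fw ρ) = _
    simp only [ML, stB, hrd]
    cases t with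
    | zero =>
      have h1 : (I.td 0 u.2).fst = true := by simp [Ins.td]
      rw [if_pos h1, if_neg (lt_irrefl _)]
      rfl
    | succ t =>
      have h1 : (I.td (t + 1) u.2).fst ≠ true := by simp [Ins.td]
      rw [if_neg h1, if_pos (Nat.succ_pos _)]
      exact Cst.Lab.ext rfl (hk.dn t ht u) rfl rfl
  | bw ρ =>
    show ML I k y _ u (.bw ρ) = _
    simp only [ML, stB, hrd]
    rcases lt_or_eq_of_le ht with h | h
    · have h1 : (I.td t u.2).lst ≠ true := by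
        simp [Ins.td, h.ne]
      rw [if_neg h1, if_pos h]
      exact Cst.Lab.ext rfl (hk.up t h u) rfl rfl
    · subst h
      have h1 : (I.td I.L u.2).lst = true := by simp [Ins.td]
      rw [if_pos h1, if_neg (lt_irrefl _)]
      rfl

/-! ### flags -/

theorem pick_none_iff {U : Type} (p : U → Prop) [∀ u, Decidable (p u)] :
    pick (fun u => if p u then some () else none) = none ↔ ¬ ∃ u, p u := by
  constructor
  · rintro h ⟨u, hu⟩
    have := pick_eq_some (y := fun u => if p u then some () else none) (v := ())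
      (fun _ _ _ => rfl) ⟨u, by simp [hu]⟩
    rw [h] at this
    cases this
  · intro h
    exact pick_eq_none fun u => if_neg fun hu => h ⟨u, hu⟩

theorem pickN_iff (w : I.U → c.Lab Ck) (ρ : c.A.Tr) :
    pick (FlN I ρ w) = none ↔ ¬ ∃ u, (w u).l = .rest ∧ ¬ EnB I ρ (B1 I w) u := by
  classical
  exact pick_none_iff fun u => (w u).l = .rest ∧ ¬ EnB I ρ (B1 I w) u

theorem pickM_iff (w : I.U → c.Lab Ck) (ρ : c.A.Tr) :
    pick (FlM I (some ρ) w) = none ↔ ¬ ∃ u, (w u).l = .rest ∧ ¬ BkB I ρ (B1 I w) u := by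
  classical
  exact pick_none_iff fun u => (w u).l = .rest ∧ ¬ BkB I ρ (B1 I w) u

theorem pickM0_iff (w : I.U → c.Lab Ck) :
    pick (FlM I none w) = none ↔ ¬ ∃ u, (w u).l = .rest ∧ ¬ StartB I (B1 I w) u := by
  classical
  exact pick_none_iff fun u => (w u).l = .rest ∧ ¬ StartB I (B1 I w) u

theorem enB_iff [Nonempty I.Γ] (ρ : c.A.Tr) (x : I.XW) (z : I.ZW) :
    (∀ u, EnB I ρ (I.bankE x z) u) ↔ I.En ρ x z := by
  constructor
  · intro h
    obtain ⟨g0⟩ := ‹Nonempty I.Γ›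
    exact ⟨(h (g0, 1)).1, fun m hm p g a => (h (g, p.1)).2.1 m hm p.2 a,
      fun i hi ω => (h (ω.1, 1)).2.2 i hi ω.2⟩
  · rintro ⟨h1, h2, h3⟩ u
    exact ⟨h1, fun m hm s' a => h2 m hm (u.2, s') u.1 a, fun i hi s => h3 i hi _⟩

theorem bkB_iff [Nonempty I.Γ] (ρ : c.A.Tr) (x : I.XW) (z : I.ZW) :
    (∀ u, BkB I ρ (I.bankE x z) u) ↔ I.Bk ρ x z := by
  constructor
  · intro h
    obtain ⟨g0⟩ := ‹Nonempty I.Γ›
    exact ⟨(h (g0, 1)).1, fun m hm p g a => (h (g, p.1)).2.1 m hm p.2 a,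
      fun i hi ω => (h (ω.1, 1)).2.2 i hi ω.2⟩
  · rintro ⟨h1, h2, h3⟩ u
    exact ⟨h1, fun m hm s' a => h2 m hm (u.2, s') u.1 a, fun i hi s => h3 i hi _⟩

theorem startB_iff [Nonempty I.Γ] (x : I.XW) (z : I.ZW) :
    (∀ u, StartB I (I.bankE x z) u) ↔ x = I.xs := by
  constructor
  · intro h
    obtain ⟨g0⟩ := ‹Nonempty I.Γ›
    refine Prod.ext (h (g0, 1)).1 ?_
    funext i ω
    exact congrFun (congrFun (h (ω.1, 1)).2 i) ω.2
  · rintro rfl u
    exact ⟨rfl, rfl⟩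

end one

/-! ### the words of the labelled machine -/

section lm

variable {I : Ins c} {Ck : Type} {k : Clk I Ck}
  {CG : ℕ → Submodule K (I.Om → K)} {CT : ℕ → Submodule K (I.n → K)} {tt : ℕ → I.T}
  (h : Hyp I CG CT tt) (hx0 : c.A.Legal I.act I.pubC I.stg0 (I.con I.xs))
  (hb0 : ∀ ρ, ¬ (I.stg0 = c.A.tgt ρ ∧ c.A.Bk I.act I.pubC ρ (I.con I.xs)))

theorem StpN_irrel (k : Clk I Ck) (y y' : c.A.Tr → Option Unit) (w : I.U → c.Lab Ck) (u : I.U)
    (hl : (w u).l ≠ .rest) : StpN I k y w u = StpN I k y' w u := by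
  unfold StpN
  cases hw : (w u).l with
  | boot => rfl
  | rest => exact absurd hw hl
  | fw ρ => rfl
  | bw ρ => rfl

theorem StpM_irrel (k : Clk I Ck) (y y' : Option c.A.Tr → Option Unit) (w : I.U → c.Lab Ck)
    (u : I.U) (hl : (w u).l ≠ .rest) : StpM I k y w u = StpM I k y' w u := by
  unfold StpM
  cases hw : (w u).l with
  | boot => rfl
  | rest => exact absurd hw hl
  | fw ρ => rfl
  | bw ρ => rfl

theorem stR_irrel (e e' : c.A.Tr → Prop) (f : Conf I.XW I.ZW c.A.Tr) (hl : f.l ≠ .rest) :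
    stR I e f = stR I e' f := by
  obtain ⟨l, t, x1, z1, x2, z2⟩ := f
  cases l with
  | boot => rfl
  | rest => exact absurd rfl hl
  | fw ρ => rfl
  | bw ρ => rfl

theorem stB_irrel (e e' : c.A.Tr → Prop) (e0 e0' : Prop) (f : Conf I.XW I.ZW c.A.Tr)
    (hl : f.l ≠ .rest) : stB I e e0 f = stB I e' e0' f := by
  obtain ⟨l, t, x1, z1, x2, z2⟩ := f
  cases l with
  | boot => rfl
  | rest => exact absurd rfl hl
  | fw ρ => rfl
  | bw ρ => rfl

/-- **`N` is the forward step** -/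
theorem Nw_wd [Nonempty I.Γ] (hk : k.OK) (a : (lmI h hx0 hb0).CSt) :
    Nw k (wd h hx0 hb0 k.cw a) =
      I.labE k.cw (vl ((lmI h hx0 hb0).stepN ((lmI h hx0 hb0).conf a))) := by
  funext u
  rw [vl_stepN]
  show StpN I k _ (I.labE k.cw (vl ((lmI h hx0 hb0).conf a))) u = _
  rw [StpN_labE hk _ _ (conf_t h hx0 hb0 a) (conf_rest h hx0 hb0 a)]
  by_cases hl : ((lmI h hx0 hb0).conf a).l = .rest
  · have h1 : (fun ρ => pick (FlN I ρ (wd h hx0 hb0 k.cw a)) = none) =
        fun ρ => I.En ρ ((lmI h hx0 hb0).conf a).x1.1 ((lmI h hx0 hb0).conf a).z1.1 := by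
      funext ρ
      rw [pickN_iff, ← enB_iff]
      apply propext
      constructor
      · intro hn u
        by_contra hc
        exact hn ⟨u, hl, hc⟩
      · rintro hE ⟨u, -, hu⟩
        exact hu (hE u)
    rw [h1]
  · rw [stR_irrel _ _ _ hl]

/-- **`M` is the backward step** -/
theorem Mw_wd [Nonempty I.Γ] (hk : k.OK) (a : (lmI h hx0 hb0).CSt) :
    Mw k (wd h hx0 hb0 k.cw a) =
      I.labE k.cw (vl ((lmI h hx0 hb0).stepM ((lmI h hx0 hb0).conf a))) := by
  funext u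
  rw [vl_stepM]
  show StpM I k _ (I.labE k.cw (vl ((lmI h hx0 hb0).conf a))) u = _
  rw [StpM_labE hk _ _ (conf_t h hx0 hb0 a) (conf_rest h hx0 hb0 a)]
  by_cases hl : ((lmI h hx0 hb0).conf a).l = .rest
  · have h1 : (fun ρ => pick (FlM I (some ρ) (wd h hx0 hb0 k.cw a)) = none) =
        fun ρ => I.Bk ρ ((lmI h hx0 hb0).conf a).x1.1 ((lmI h hx0 hb0).conf a).z1.1 := by
      funext ρ
      rw [pickM_iff, ← bkB_iff]
      apply propext
      constructor
      · intro hn u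
        by_contra hc
        exact hn ⟨u, hl, hc⟩
      · rintro hE ⟨u, -, hu⟩
        exact hu (hE u)
    have h2 : (pick (FlM I none (wd h hx0 hb0 k.cw a)) = none) =
        (((lmI h hx0 hb0).conf a).x1.1 = I.xs) := by
      rw [pickM0_iff, ← startB_iff _ ((lmI h hx0 hb0).conf a).z1.1]
      apply propext
      constructor
      · intro hn u
        by_contra hc
        exact hn ⟨u, hl, hc⟩
      · rintro hE ⟨u, -, hu⟩
        exact hu (hE u)
    rw [h1, h2]
  · rw [stB_irrel _ _ _ _ _ hl]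

theorem Nw_mem [Nonempty I.Γ] (hk : k.OK) :
    ∀ w ∈ W h hx0 hb0 k.cw, Nw k w ∈ W h hx0 hb0 k.cw := by
  rintro _ ⟨a, rfl⟩
  rw [Nw_wd h hx0 hb0 hk, mem_W_iff]
  exact ⟨_, (lmI h hx0 hb0).legal_stepN ((lmI h hx0 hb0).legal_conf a), rfl⟩

theorem Mw_mem [Nonempty I.Γ] (hk : k.OK) :
    ∀ w ∈ W h hx0 hb0 k.cw, Mw k w ∈ W h hx0 hb0 k.cw := by
  rintro _ ⟨a, rfl⟩
  rw [Mw_wd h hx0 hb0 hk, mem_W_iff]
  exact ⟨_, (lmI h hx0 hb0).legal_stepM ((lmI h hx0 hb0).legal_conf a), rfl⟩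

theorem MNw [Nonempty I.Γ] (hk : k.OK) :
    ∀ w ∈ W h hx0 hb0 k.cw, Nw k w ≠ w → Mw k (Nw k w) = w := by
  rintro _ ⟨a, rfl⟩ hne
  have hf := (lmI h hx0 hb0).legal_conf a
  have hn : (lmI h hx0 hb0).stepN ((lmI h hx0 hb0).conf a) ≠ (lmI h hx0 hb0).conf a := by
    intro he
    apply hne
    rw [Nw_wd h hx0 hb0 hk, he]
    rfl
  obtain ⟨b, hb⟩ := ((lmI h hx0 hb0).legal_iff _).1 ((lmI h hx0 hb0).legal_stepN hf)
  rw [Nw_wd h hx0 hb0 hk, hb]
  show Mw k (wd h hx0 hb0 k.cw b) = _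
  rw [Mw_wd h hx0 hb0 hk, ← hb, (lmI h hx0 hb0).stepM_stepN hf hn]
  rfl

theorem NMw [Nonempty I.Γ] (hk : k.OK) :
    ∀ w ∈ W h hx0 hb0 k.cw, Mw k w ≠ w → Nw k (Mw k w) = w := by
  rintro _ ⟨a, rfl⟩ hne
  have hf := (lmI h hx0 hb0).legal_conf a
  have hn : (lmI h hx0 hb0).stepM ((lmI h hx0 hb0).conf a) ≠ (lmI h hx0 hb0).conf a := by
    intro he
    apply hne
    rw [Mw_wd h hx0 hb0 hk, he]
    rfl
  obtain ⟨b, hb⟩ := ((lmI h hx0 hb0).legal_iff _).1 ((lmI h hx0 hb0).legal_stepM hf)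
  rw [Mw_wd h hx0 hb0 hk, hb]
  show Nw k (wd h hx0 hb0 k.cw b) = _
  rw [Nw_wd h hx0 hb0 hk, ← hb, (lmI h hx0 hb0).stepN_stepM hf hn]
  rfl

include h hx0 hb0 in
theorem Mw_w0 [Nonempty I.Γ] (hk : k.OK) : Mw k (w0 I k.cw) = w0 I k.cw := by
  rw [w0_eq h hx0 hb0, Mw_wd h hx0 hb0 hk]
  unfold wd
  rw [(lmI h hx0 hb0).stepM_boot_zero]

theorem labE_vl_inj [Nonempty I.Γ] (hk : k.OK) {f g : Conf (XS I CG) (ZS I CG CT) c.A.Tr}
    (hf : f.t ≤ I.L) (hg : g.t ≤ I.L) (he : I.labE k.cw (vl f) = I.labE k.cw (vl g)) : f = g :=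
  vl_inj (labE_inj I hk.inj hf hg he)

include h hx0 hb0 in
theorem Nw_w0 [Nonempty I.Γ] (hk : k.OK) : Nw k (w0 I k.cw) ≠ w0 I k.cw := by
  intro he
  rw [w0_eq h hx0 hb0, Nw_wd h hx0 hb0 hk] at he
  have hl := (lmI h hx0 hb0).legal_conf (.boot 0 (Nat.zero_le _))
  have h1 := labE_vl_inj hk (legal_t h hx0 hb0 ((lmI h hx0 hb0).legal_stepN hl))
    (legal_t h hx0 hb0 hl) he
  rw [← (lmI h hx0 hb0).c0_eq] at h1
  exact (lmI h hx0 hb0).stepN_c0 h1

/-- **dead ends of `N`** -/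
theorem Nw_eq_self [Nonempty I.Γ] (hk : k.OK) (w : I.U → c.Lab Ck)
    (hw : w ∈ W h hx0 hb0 k.cw) (he : Nw k w = w) :
    ∃ x, ∃ hx : (lmI h hx0 hb0).IsL x, w = wd h hx0 hb0 k.cw (.rest x hx) ∧
      ∀ ρ, ¬ (lmI h hx0 hb0).en ρ x := by
  obtain ⟨a, rfl⟩ := hw
  have hl := (lmI h hx0 hb0).legal_conf a
  rw [Nw_wd h hx0 hb0 hk] at he
  have h1 := labE_vl_inj hk (legal_t h hx0 hb0 ((lmI h hx0 hb0).legal_stepN hl))
    (legal_t h hx0 hb0 hl) he
  obtain ⟨x, hx, h2, h3⟩ := ((lmI h hx0 hb0).stepN_eq_self hl).1 h1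
  exact ⟨x, hx, by unfold wd; rw [h2], h3⟩

/-- **dead ends of `M`** -/
theorem Mw_eq_self [Nonempty I.Γ] (hk : k.OK) (w : I.U → c.Lab Ck)
    (hw : w ∈ W h hx0 hb0 k.cw) (he : Mw k w = w) (hne : w ≠ w0 I k.cw) :
    ∃ x, ∃ hx : (lmI h hx0 hb0).IsL x, w = wd h hx0 hb0 k.cw (.rest x hx) ∧
      (∀ ρ, ¬ (lmI h hx0 hb0).bk ρ x) ∧ x.1 ≠ I.xs := by
  obtain ⟨a, rfl⟩ := hw
  have hl := (lmI h hx0 hb0).legal_conf a
  rw [Mw_wd h hx0 hb0 hk] at he
  have h1 := labE_vl_inj hk (legal_t h hx0 hb0 ((lmI h hx0 hb0).legal_stepM hl))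
    (legal_t h hx0 hb0 hl) he
  rcases (lmI h hx0 hb0).stepM_cases a with ⟨b, hb, -, h3⟩ | ⟨x, hx, h2, h3, h4, -⟩ | ⟨h2, -⟩
  · exact absurd (hb.symm.trans h1) h3
  · exact ⟨x, hx, by rw [h2], h3, fun hc => h4 (Subtype.ext hc)⟩
  · exfalso
    apply hne
    unfold wd
    rw [h2]
    rfl

end lm

end Crest.Agent.R289.SemEx844
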