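import Crest.Agent.R289.SemDef_406

/-!
# Row 289, C_SEM: the machine of `SemDef_406` is uniformly local

`semI_loc : (semI J k).Loc (mvF J mc) (pubF J pc)` from the locality of the three reads of the clock
(`ClkUL`) and stages `stg0`, `stgz` which do not depend on the instance.
-/

set_option autoImplicit false

namespace Crest.Agent.R289.SemI406

open Finset DefC DefI Compile827 ULoc406 ULocI880

/-- letters are finite -/
theorem finite_letter (R : Type) [Finite R] : Finite (Letter R) := by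
  refine Finite.of_injective (β := Option (Option (R ⊕ R))) (fun l => match l with
    | .boot => none
    | .rest => some none
    | .fw ρ => some (some (Sum.inl ρ))
    | .bw ρ => some (some (Sum.inr ρ))) ?_
  intro a b h
  cases a <;> cases b <;> simp_all

section family

variable {K : Type} [Field K] {c : Cst K} {Inst : Type} {J : Inst → Ins c} {Gc Pc : Type}
  {mc : ∀ i, Gc → (J i).U → (J i).U} {pc : ∀ i, (J i).U → Pc} {A : Type}

section rels

variable {B : ∀ i, ((J i).U → A) → (J i).U → c.Bank}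

theorem ul_QB {E : ∀ i, ((J i).U → A) → (J i).U → c.S' → K}
    {X : ∀ i, ((J i).U → A) → (J i).U → c.S' → c.S → c.V}
    (hE : UL (mvF J mc) (pubF J pc) E) (hB : UL (mvF J mc) (pubF J pc) B)
    (hX : UL (mvF J mc) (pubF J pc) X) :
    UL (mvF J mc) (pubF J pc) (fun i w u => QB (J i) (E i w) (B i w) (X i w) u) := by
  have hw := ul_wB hB
  refine UL.pi fun s' => UL.pi fun s => ?_
  refine UL.sub (UL.sub (UL.sub ?_ ?_) ?_) ?_
  · exact UL.smul ((UL.publ (A := A)).map fun p : c.PD × Pc => p.1.one s') (hX.map fun x => x s' s)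
  · have h1 : UL (mvF J mc) (pubF J pc) (fun i w v s =>
        ∑ j, (J i).E1 j (v.2, s') • X i w (v.1, (J i).h1 j * v.2) s' s) := by
      refine UL.pi fun s => UL.sum _ fun j => ?_
      exact UL.smul ((UL.publ (A := A)).map fun p : c.PD × Pc => p.1.E1 j s')
        ((UL.step (mv := mvF J mc) (Cst.Gen.t1 (Gc := Gc) j) hX).map fun x => x s' s)
    exact (ul_lamF h1).map fun y => y s
  · refine UL.sum _ fun j => ?_
    exact UL.smul ((UL.publ (A := A)).map fun p : c.PD × Pc => p.1.E2 j s')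
      ((UL.step (mv := mvF J mc) (Cst.Gen.t2 (Gc := Gc) j) hX).map fun x => x s' s)
  · exact UL.smul (UL.mul ((UL.publ (A := A)).map fun p : c.PD × Pc => p.1.one s')
      (hE.map fun x => x s')) (hw.map fun x => x s)

theorem ul_MirB {q : ∀ i, ((J i).U → A) → (J i).U → c.S' → c.S → c.V}
    {Z : ∀ i, ((J i).U → A) → (J i).U → c.C → c.S' → c.S → c.V}
    (hq : UL (mvF J mc) (pubF J pc) q) (hZ : UL (mvF J mc) (pubF J pc) Z) :
    UL (mvF J mc) (pubF J pc) (fun i w u => MirB (J i) (q i w) (Z i w) u) := by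
  refine UL.all fun a => UL.all fun s' => UL.all fun s => UL.eq ?_ (UL.const 0)
  refine UL.sum _ fun s1 => UL.sum _ fun j => ?_
  have h1 := (UL.step (mv := mvF J mc) (Cst.Gen.tm (Gc := Gc) j) (hq.prod hZ)).map
    fun x => c.bet a s1 j • Mirror545.ext c.s0' (x.1 s' s) (fun b => x.2 b s' s) s1
  exact h1

theorem ul_RecB {d : ∀ i, ((J i).U → A) → (J i).U → c.TD} (hd : UL (mvF J mc) (pubF J pc) d)
    (hB : UL (mvF J mc) (pubF J pc) B) :
    UL (mvF J mc) (pubF J pc) (fun i w u => RecB (J i) (d i w) (B i w) u) := by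
  have h1 := ul_QB (hd.map fun d => d.D) hB (hB.map fun b => b.X)
  have h2 := ul_QB (hd.map fun d => d.Dm) hB (hB.map fun b => b.Xm)
  refine UL.and (ul_MirB h1 (hB.map fun b => b.Z)) (UL.and (ul_MirB h2 (hB.map fun b => b.Zm))
    (UL.and ?_ (UL.and ?_ (UL.and ?_ ?_))))
  · exact UL.all fun s => UL.eq (h1.map fun x => x c.s0' s) (UL.const 0)
  · exact UL.all fun s => UL.eq (h2.map fun x => x c.s0' s) (UL.const 0)
  · exact hB.map fun b : c.Bank => ∀ a s, b.Z a c.s0' s = 0
  · exact hB.map fun b : c.Bank => ∀ a s, b.Zm a c.s0' s = 0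

theorem ul_CZB (hB : UL (mvF J mc) (pubF J pc) B) (m : c.A.Comp) :
    UL (mvF J mc) (pubF J pc) (fun i w u => CZB (J i) (B i w) m u) :=
  hB.map fun b : c.Bank => ∀ (s' : c.S') (a : Fin (c.r + 1)), b.X s' c.s0 a m = 0

theorem ul_IZB (hB : UL (mvF J mc) (pubF J pc) B) (j : c.A.Idl) :
    UL (mvF J mc) (pubF J pc) (fun i w u => IZB (J i) (B i w) j u) :=
  UL.all fun s => UL.eq (ul_eval hB (c.A.idl j) s) (UL.const 0)

theorem ul_StB (hB : UL (mvF J mc) (pubF J pc) B) :
    UL (mvF J mc) (pubF J pc) (fun i w u => StB (J i) (B i w) u) :=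
  UL.and (UL.all fun m => UL.imp (hB.map fun b => c.A.leg b.stg m) (ul_CZB hB m))
    (UL.all fun j => UL.imp (hB.map fun b => c.A.legI b.stg j) (ul_IZB hB j))

theorem ul_EnB (ρ : c.A.Tr) (hB : UL (mvF J mc) (pubF J pc) B) :
    UL (mvF J mc) (pubF J pc) (fun i w u => EnB (J i) ρ (B i w) u) :=
  UL.and (hB.map fun b => b.stg = c.A.src ρ)
    (UL.and (UL.all fun m => UL.imp (UL.const (c.A.en ρ m)) (ul_CZB hB m))
      (UL.all fun j => UL.imp (UL.const (c.A.enI ρ j)) (ul_IZB hB j)))

theorem ul_BkB (ρ : c.A.Tr) (hB : UL (mvF J mc) (pubF J pc) B) :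
    UL (mvF J mc) (pubF J pc) (fun i w u => BkB (J i) ρ (B i w) u) :=
  UL.and (hB.map fun b => b.stg = c.A.tgt ρ)
    (UL.and (UL.all fun m => UL.imp (UL.const (c.A.bk ρ m)) (ul_CZB hB m))
      (UL.all fun j => UL.imp (UL.const (c.A.bkI ρ j)) (ul_IZB hB j)))

theorem ul_StartB {g0 : c.A.Stg} (h0 : ∀ i, (J i).stg0 = g0) (hB : UL (mvF J mc) (pubF J pc) B) :
    UL (mvF J mc) (pubF J pc) (fun i w u => StartB (J i) (B i w) u) := by
  refine UL.and ((hB.map fun b => b.stg = g0).congr fun i w u => ?_) ?_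
  · rw [h0 i]
  · exact UL.eq (hB.map fun b => b.R) ((UL.publ (A := A)).map fun p : c.PD × Pc => p.1.x0)

end rels

section labels

variable {Ck : Type} {k : ∀ i, Clk (J i) Ck}

variable (mc pc) in
/-- the reads of the clock are uniformly local -/
structure ClkUL (k : ∀ i, Clk (J i) Ck) : Prop where
  rd : UL (mvF J mc) (pubF J pc) (fun i (w : (J i).U → Ck) u => (k i).rd w u)
  up : UL (mvF J mc) (pubF J pc) (fun i (w : (J i).U → Ck) u => (k i).up w u)
  dn : UL (mvF J mc) (pubF J pc) (fun i (w : (J i).U → Ck) u => (k i).dn w u)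

/-- labels from their parts -/
theorem ul_lab {l : ∀ i, ((J i).U → A) → (J i).U → Letter c.A.Tr}
    {x : ∀ i, ((J i).U → A) → (J i).U → Ck} {b b' : ∀ i, ((J i).U → A) → (J i).U → c.Bank}
    (hl : UL (mvF J mc) (pubF J pc) l) (hx : UL (mvF J mc) (pubF J pc) x)
    (hb : UL (mvF J mc) (pubF J pc) b) (hb' : UL (mvF J mc) (pubF J pc) b') :
    UL (mvF J mc) (pubF J pc) (fun i w u =>
      (⟨l i w u, x i w u, b i w u, b' i w u⟩ : c.Lab Ck)) :=
  (((hl.prod hx).prod hb).prod hb').map fun x => (⟨x.1.1.1, x.1.1.2, x.1.2, x.2⟩ : c.Lab Ck)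

variable (hk : ClkUL mc pc k)

theorem ul_B1 : UL (mvF J mc) (pubF J pc) (fun i (w : (J i).U → c.Lab Ck) u => B1 (J i) w u) :=
  UL.here.map fun a : c.Lab Ck => a.b1

theorem ul_B2 : UL (mvF J mc) (pubF J pc) (fun i (w : (J i).U → c.Lab Ck) u => B2 (J i) w u) :=
  UL.here.map fun a : c.Lab Ck => a.b2

theorem ul_dL : UL (mvF J mc) (pubF J pc) (fun i (_ : (J i).U → A) u => dL (J i) u) :=
  UL.publ.map fun p : c.PD × Pc => p.1.tdL

include hk in
theorem ul_dW : UL (mvF J mc) (pubF J pc) (fun i (w : (J i).U → c.Lab Ck) u =>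
    dW (J i) (k i) w u) :=
  UL.precomp (fun a : c.Lab Ck => a.ck) hk.rd

include hk in
theorem ul_ckup : UL (mvF J mc) (pubF J pc) (fun i (w : (J i).U → c.Lab Ck) u =>
    (k i).up (fun v => (w v).ck) u) :=
  UL.precomp (fun a : c.Lab Ck => a.ck) hk.up

include hk in
theorem ul_ckdn : UL (mvF J mc) (pubF J pc) (fun i (w : (J i).U → c.Lab Ck) u =>
    (k i).dn (fun v => (w v).ck) u) :=
  UL.precomp (fun a : c.Lab Ck => a.ck) hk.dn

variable {g0 gz : c.A.Stg} (h0 : ∀ i, (J i).stg0 = g0) (hz : ∀ i, (J i).stgz = gz)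

include hz in
theorem ul_blank : UL (mvF J mc) (pubF J pc) (fun i (_ : (J i).U → A) _ =>
    (regB (J i).stgz 0 : c.Bank)) :=
  (UL.const (regB gz 0 : c.Bank)).congr fun i _ _ => by rw [hz i]

include hk h0 hz in
theorem ul_RelL (l : Letter c.A.Tr) : UL (mvF J mc) (pubF J pc)
    (fun i (w : (J i).U → c.Lab Ck) u => RelL (J i) (k i) w u l) := by
  have hd := ul_dW hk
  have h1 := ul_B1 (J := J) (mc := mc) (pc := pc) (Ck := Ck)
  have h2 := ul_B2 (J := J) (mc := mc) (pc := pc) (Ck := Ck)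
  have hL := ul_dL (J := J) (mc := mc) (pc := pc) (A := c.Lab Ck)
  have hbl := ul_blank (mc := mc) (pc := pc) (A := c.Lab Ck) hz
  cases l with
  | boot => exact UL.and (UL.eq h1 hbl) (UL.and (ul_StartB h0 h2) (ul_RecB hd h2))
  | rest => exact UL.and (hd.map fun d => d.fst = true) (UL.and (ul_RecB hL h1)
      (UL.and (ul_StB h1) (UL.eq h2 hbl)))
  | fw ρ => exact UL.and (ul_RecB hL h1) (UL.and (ul_StB h1) (UL.and (ul_EnB ρ h1)
      (UL.and (UL.and (h2.map fun b => b.stg = c.A.tgt ρ)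
        (UL.eq (h2.map fun b => b.R) ((ul_upB ρ h1).map fun b => b.R))) (ul_RecB hd h2))))
  | bw ρ => exact UL.and (ul_RecB hL h2) (UL.and (ul_StB h2) (UL.and (ul_BkB ρ h2)
      (UL.and (UL.and (h1.map fun b => b.stg = c.A.src ρ)
        (UL.eq (h1.map fun b => b.R) ((ul_dnB ρ h2).map fun b => b.R))) (ul_RecB hd h1))))

include hk h0 hz in
/-- the relation is uniformly local -/
theorem ul_Rel : UL (mvF J mc) (pubF J pc)
    (fun i (w : (J i).U → c.Lab Ck) u => Rel (J i) (k i) w u) :=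
  haveI := finite_letter c.A.Tr
  UL.bind (UL.here.map fun a : c.Lab Ck => a.l) (ul_RelL hk h0 hz)

theorem ul_FlN (ρ : c.A.Tr) : UL (mvF J mc) (pubF J pc)
    (fun i (w : (J i).U → c.Lab Ck) u => FlN (J i) ρ w u) := by
  classical
  exact UL.ite (UL.and (UL.here.map fun a : c.Lab Ck => a.l = .rest) (UL.not (ul_EnB ρ ul_B1)))
    (UL.const _) (UL.const _)

include h0 in
theorem ul_FlM (j : Option c.A.Tr) : UL (mvF J mc) (pubF J pc)
    (fun i (w : (J i).U → c.Lab Ck) u => FlM (J i) j w u) := by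
  classical
  cases j with
  | none =>
    exact UL.ite (UL.and (UL.here.map fun a : c.Lab Ck => a.l = .rest)
      (UL.not (ul_StartB h0 ul_B1))) (UL.const _) (UL.const _)
  | some ρ =>
    exact UL.ite (UL.and (UL.here.map fun a : c.Lab Ck => a.l = .rest)
      (UL.not (ul_BkB ρ ul_B1))) (UL.const _) (UL.const _)

include hk hz in
theorem ul_NL (y : c.A.Tr → Option Unit) (l : Letter c.A.Tr) : UL (mvF J mc) (pubF J pc)
    (fun i (w : (J i).U → c.Lab Ck) u => NL (J i) (k i) y w u l) := by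
  have hd := ul_dW hk
  have hup := ul_ckup hk
  have hdn := ul_ckdn hk
  have hck : UL (mvF J mc) (pubF J pc) (fun i (w : (J i).U → c.Lab Ck) u => (w u).ck) :=
    UL.here.map fun a : c.Lab Ck => a.ck
  have h1 := ul_B1 (J := J) (mc := mc) (pc := pc) (Ck := Ck)
  have h2 := ul_B2 (J := J) (mc := mc) (pc := pc) (Ck := Ck)
  have hbl := ul_blank (mc := mc) (pc := pc) (A := c.Lab Ck) hz
  have hlst := hd.map fun d => d.lst = true
  have hfst := hd.map fun d => d.fst = true
  cases l with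
  | boot =>
    exact UL.ite hlst (ul_lab (UL.const _) hup h2 hbl)
      (ul_lab (UL.const _) hup h1 (ul_pushB hd h2))
  | rest =>
    by_cases h : ∃ ρ, y ρ = none
    · refine (ul_lab (UL.const (Letter.fw h.choose)) hck h1
        (ul_entB (ul_upB h.choose h1))).congr fun i w u => ?_
      exact dif_pos h
    · exact UL.here.congr fun i w u => dif_neg h
  | fw ρ =>
    exact UL.ite hlst (ul_lab (UL.const _) hck h1 h2)
      (ul_lab (UL.const _) hup h1 (ul_pushB hd h2))
  | bw ρ =>
    exact UL.ite hfst (ul_lab (UL.const _) hck h2 hbl)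
      (ul_lab (UL.const _) hdn (ul_popB hd h1) h2)

include hk hz in
/-- the forward step is uniformly local -/
theorem ul_StpN (y : c.A.Tr → Option Unit) : UL (mvF J mc) (pubF J pc)
    (fun i (w : (J i).U → c.Lab Ck) u => StpN (J i) (k i) y w u) :=
  haveI := finite_letter c.A.Tr
  UL.bind (UL.here.map fun a : c.Lab Ck => a.l) (ul_NL hk hz y)

include hk hz in
theorem ul_ML (y : Option c.A.Tr → Option Unit) (l : Letter c.A.Tr) :
    UL (mvF J mc) (pubF J pc)
      (fun i (w : (J i).U → c.Lab Ck) u => ML (J i) (k i) y w u l) := by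
  have hd := ul_dW hk
  have hup := ul_ckup hk
  have hdn := ul_ckdn hk
  have hck : UL (mvF J mc) (pubF J pc) (fun i (w : (J i).U → c.Lab Ck) u => (w u).ck) :=
    UL.here.map fun a : c.Lab Ck => a.ck
  have h1 := ul_B1 (J := J) (mc := mc) (pc := pc) (Ck := Ck)
  have h2 := ul_B2 (J := J) (mc := mc) (pc := pc) (Ck := Ck)
  have hbl := ul_blank (mc := mc) (pc := pc) (A := c.Lab Ck) hz
  have hlst := hd.map fun d => d.lst = true
  have hfst := hd.map fun d => d.fst = true
  cases l with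
  | boot =>
    exact UL.ite hfst UL.here (ul_lab (UL.const _) hdn h1 (ul_popB hd h2))
  | rest =>
    by_cases h : ∃ ρ : c.A.Tr, y (some ρ) = none
    · refine (ul_lab (UL.const (Letter.bw h.choose)) hck
        (ul_entB (ul_dnB h.choose h1)) h1).congr fun i w u => ?_
      exact dif_pos h
    · by_cases h' : y none = none
      · refine (ul_lab (UL.const Letter.boot) hdn hbl h1).congr fun i w u => ?_
        exact (dif_neg h).trans (if_pos h')
      · exact UL.here.congr fun i w u => (dif_neg h).trans (if_neg h')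
  | fw ρ =>
    exact UL.ite hfst (ul_lab (UL.const _) hck h1 hbl)
      (ul_lab (UL.const _) hdn h1 (ul_popB hd h2))
  | bw ρ =>
    exact UL.ite hlst (ul_lab (UL.const _) hck h1 h2)
      (ul_lab (UL.const _) hup (ul_pushB hd h1) h2)

include hk hz in
/-- the backward step is uniformly local -/
theorem ul_StpM (y : Option c.A.Tr → Option Unit) : UL (mvF J mc) (pubF J pc)
    (fun i (w : (J i).U → c.Lab Ck) u => StpM (J i) (k i) y w u) :=
  haveI := finite_letter c.A.Tr
  UL.bind (UL.here.map fun a : c.Lab Ck => a.l) (ul_ML hk hz y)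

include hk h0 hz in
/-- **the semantic data of the family of machines are uniformly local** -/
theorem semI_loc : (semI J k).Loc (mvF J mc) (pubF J pc) where
  rel _ := ul_Rel hk h0 hz
  vl ρ := ul_FlN ρ
  F y := ul_StpN hk hz y
  vl' j := ul_FlM h0 j
  F' y := ul_StpM hk hz y

end labels

end family

end Crest.Agent.R289.SemI406
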