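import Crest.Agent.R289.FamU_782
import Crest.Agent.R289.MemB_12
import Crest.Agent.R289.SemLoc_406
import Crest.Agent.R289.SemEx_844
import Crest.Agent.R289.RegsMem_335

/-!
# Row 289, block C: the uniform part, step 2 (helper782)

Over `i : Mem h W c0`, names of `MemB_12`:
* `clkI i`, `clkOK i`, `clkUL` : clock words and reads in the form of `SemI406.Clk`;
* `semM` : the semantic machine of the family, `locM` : it is local over the frame;
* `codeC_eq`, `caxC` : the code of the labels;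
* `N_word`, `M_word` : the steps on the words of legal configurations;
* `fam_of_exact` : `Exact` and the instance clause give `Fam289`.
-/

set_option autoImplicit false
set_option linter.unusedSectionVars false

namespace Crest.Agent.R289.FamU782

open Crest.PPADPCP Crest.Agent.Lib.PT Crest.Agent.R289 Crest.Agent.R289.DefD
open Crest.Agent.R289.Word508 Crest.Agent.R289.Asm12 Crest.Agent.R289.DefC
open Crest.Agent.R289.DefI Crest.Agent.R289.InsObj576 Crest.Agent.R289.Mem12
open Crest.Agent.R289.Compile827 Crest.Agent.R289.ULoc406 Crest.Agent.R289.ULAsm406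
open Crest.Agent.R289.UFam715 Crest.Agent.R289.RegsObj335 Crest.Agent.R289.ClockU698
open Crest.Agent.R289.Clock425

variable {D : Obj} {M0 : ℕ} {lam0 Kr : ℝ} {h : D.OK M0 lam0 Kr} {W c0 : ℕ}

section clk
variable (i : Mem h W c0)

/-- clock words and reads of a member -/
noncomputable def clkI : SemI406.Clk i.I (ZMod 3) where
  cw := i.cw
  rd := fun w u => ClkTD766.rdTD fun g => w (i.mc g u)
  up := fun w u => w (i.mc (.inr 1) u)
  dn := fun w u => w (i.mc (.inr 2) u)

theorem clkOK : (clkI i).OK where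
  rd t ht u := ClkTD766.rdTD_eq i.I i.e i.tq i.tq_e ht u
  up t _ u := (ClkTD766.cw_up i.I i.e i.tq t u).symm
  dn t _ u := (ClkTD766.cw_dn i.I i.e i.tq t u).symm
  top u := (ClkTD766.cw_zero i.I i.e i.tq u).symm
  bot u := (ClkTD766.cw_top i.I i.e i.tq u).symm
  inj s t hs ht he := by
    have : Nonempty (Fin i.siz.rho) := ⟨(i.e (Classical.arbitrary i.U)).2.2.2⟩
    exact ClkTD766.cw_inj i.I i.e hs ht he

/-- the clock moves are injective -/
theorem mc_inj (g : ClkTD766.CG (cst h W)) : Function.Injective (i.mc g) :=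
  ClkTD766.mc_injective i.I i.e i.tq g

end clk

/-! ### reads of the clock -/

section reads
variable {K : Type} [Field K] {c : Cst K} {Inst : Type} (J : Inst → Ins c) {Gc Pc Ck B : Type}
  (mc : ∀ i, Gc → (J i).U → (J i).U) (pc : ∀ i, (J i).U → Pc)

theorem ul_mv (g : Gc) : UL (ULocI880.mvF J mc) (ULocI880.pubF J pc)
    (fun i (w : (J i).U → Ck) u => w (mc i g u)) := UL.walk [(.ck g : c.Gen Gc)] UL.here

theorem ul_rd [Finite Gc] (rd : (Gc → Ck) → B) : UL (ULocI880.mvF J mc) (ULocI880.pubF J pc)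
    (fun i (w : (J i).U → Ck) u => rd fun g => w (mc i g u)) :=
  (UL.pi fun g => ul_mv J mc pc g).map rd

end reads

/-! ### the semantic machine -/

section sem
variable (h W c0)

/-- the semantic machine of the family -/
noncomputable def semM : Sem (Mem h W c0) (fun i => i.I.U) ((cst h W).Lab (ZMod 3)) Unit
    (cst h W).A.Tr (Option (cst h W).A.Tr) (fun _ => Unit) (fun _ => Unit) :=
  SemI406.semI (fun i : Mem h W c0 => i.I) fun i => clkI i

theorem mvF_eq : ULocI880.mvF (fun i : Mem h W c0 => i.I) (fun i => i.mc) =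
    fun i : Mem h W c0 => (i.I.frame i.mc fun _ => ()).act := by
  funext i g u
  exact ULocI880.mvF_eq (fun i : Mem h W c0 => i.I) (fun i => i.mc) (fun _ _ => ()) i g u

theorem clkUL : SemI406.ClkUL (J := fun i : Mem h W c0 => i.I) (fun i => i.mc)
    (fun _ _ => ()) (fun i => clkI i) where
  rd := ul_rd (fun i : Mem h W c0 => i.I) (fun i => i.mc) (fun _ _ => ()) ClkTD766.rdTD
  up := ul_mv (fun i : Mem h W c0 => i.I) (fun i => i.mc) (fun _ _ => ()) (.inr 1)
  dn := ul_mv (fun i : Mem h W c0 => i.I) (fun i => i.mc) (fun _ _ => ()) (.inr 2)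

/-- **the machine is local over the frame** -/
theorem locM : (semM h W c0).Loc (fun i => (i.I.frame i.mc fun _ => ()).act)
    (fun i => (i.I.frame i.mc fun _ => ()).pub) := by
  have h1 := SemI406.semI_loc (clkUL h W c0) (g0 := BootC515.SgB.e)
    (gz := BootC515.SgB.old Sg.a) (fun _ => rfl) (fun _ => rfl)
  rw [mvF_eq h W c0] at h1
  exact h1

end sem

/-! ### the code -/

section code
variable (i : Mem h W c0)

theorem clkC_M : clkC i.e = clkM i := ClockObj698.clkC_eq i.I i.e

theorem C_eq : i.C = codeM i := congrArg (labCO h W i.kP i.kR i.kT) (clkC_M i)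

/-- **the code words are the words of the configurations** -/
theorem codeC_eq : i.C = {w | ∃ f : Conf (XM i) (ZM i) (cst h W).A.Tr,
    f.t ≤ i.I.L ∧ w = i.word f} := (C_eq i).trans (codeM_eq i)

end code

/-- **the local code of the labels**, constants and rules before the member -/
theorem caxC (h : D.OK M0 lam0 Kr) (W c0 : ℕ) (hK : 0 ≤ Kr) (h4 : 4 ≤ M0) (hl : lam0 ≤ 1 / 64) :
    ∃ k : CK D, ∀ i : Mem h W c0,
      CAx (labRO h W k.n (P := Unit) (clkRules 3 (SJ 3))) i.nb0 (fun _ => ()) i.C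
        1 k.zs k.r0 k.d0 k.cc (1 / 4) := by
  obtain ⟨k, hk⟩ := caxM h W c0 hK h4 hl
  refine ⟨k, fun i => ?_⟩
  rw [C_eq]
  exact hk i

/-! ### the steps on legal words -/

section steps
variable (i : Mem h W c0)

/-- **the forward step on legal words** -/
theorem N_word {f : Conf (XM i) (ZM i) (cst h W).A.Tr} (hf : i.lm.Legal f) :
    (semM h W c0).N i (i.word f) = i.word (i.lm.stepN f) := by
  obtain ⟨a, rfl⟩ := (i.lm.legal_iff f).1 hf
  exact SemEx844.Nw_wd (hypM i) (hx0M i) (hb0M i) (clkOK i) a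

/-- **the backward step on legal words** -/
theorem M_word {f : Conf (XM i) (ZM i) (cst h W).A.Tr} (hf : i.lm.Legal f) :
    (semM h W c0).M i (i.word f) = i.word (i.lm.stepM f) := by
  obtain ⟨a, rfl⟩ := (i.lm.legal_iff f).1 hf
  exact SemEx844.Mw_wd (hypM i) (hx0M i) (hb0M i) (clkOK i) a

end steps

/-! ### the joint -/

/-- the instance clause: for legal words `W'` and steps `N'`, `M'` -/
def HC (h : D.OK M0 lam0 Kr) (W c0 : ℕ) (gN gM : (cst h W).Lab (ZMod 3) → Bool) : Prop :=
  ∀ (W' : ∀ i : Mem h W c0, Set (i.I.U → (cst h W).Lab (ZMod 3)))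
    (N' M' : ∀ i : Mem h W c0, (i.I.U → (cst h W).Lab (ZMod 3)) →
      i.I.U → (cst h W).Lab (ZMod 3)),
    (∀ i, ∀ w ∈ W' i, ∃ f, i.lm.Legal f ∧ w = i.word f) →
    (∀ i f, i.lm.Legal f → N' i (i.word f) = i.word (i.lm.stepN f)) →
    (∀ i f, i.lm.Legal f → M' i (i.word f) = i.word (i.lm.stepM f)) →
    ∀ n0 : ℕ, ∃ (T : BaseT ((cst h W).Gen (ClkTD766.CG (cst h W)) ⊕ SO D (Slot (SJ 3)))
        ((cst h W).Lab (ZMod 3)) (((cst h W).PD × Unit) × Unit)) (a b : ℕ), T.PT ∧
      ∀ E : EOL, E.WF → ∃ i : Mem h W c0,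
        T.On E i.mv i.pub i.w0 (W' i) (N' i) (M' i) gN gM n0 a b

/-- **the top joint over the family** -/
theorem fam_of_exact (h : D.OK M0 lam0 Kr) (W c0 : ℕ) (hK : 0 ≤ Kr) (h4 : 4 ≤ M0)
    (hl : lam0 ≤ 1 / 64) {g ρ : ℝ} (hg : 0 < g) (hρ : 0 < ρ)
    (hW : ∀ i : Mem h W c0, ∀ w ∈ (semM h W c0).W i i.C, ∃ f, i.lm.Legal f ∧ w = i.word f)
    (hX : ∀ i : Mem h W c0, Exact (semM h W c0) i i.C i.w0 g ρ)
    {gN gM : (cst h W).Lab (ZMod 3) → Bool} (hH : HC h W c0 gN gM) : Fam289 := by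
  obtain ⟨k, hk⟩ := caxC h W c0 hK h4 hl
  have : Nonempty (cst h W).A.Stg := ⟨BootC515.SgB.e⟩
  have : Finite (SO D (Slot (SJ 3))) := RegsMem335.finSM D
  exact TopU782.fam_of_sem (fun i : Mem h W c0 => i.I) (fun i => i.mc) (fun _ _ => ())
    (fun i => i.nb0) (fun _ _ => ()) (semM h W c0) (locM h W c0) mc_inj
    hk k.zs_pos k.r0_pos k.d0_pos k.cc_nn le_rfl hg hρ hX gN gM
    (hH _ _ _ hW (fun i f hf => N_word i hf) fun i f hf => M_word i hf)

end Crest.Agent.R289.FamU782
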