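import Crest.Agent.R289.DefD_721

/-!
Row 289, base gadget (helper72), part a: fractions, combinatorial BLR theorem with values in any
additive commutative group.
-/

set_option autoImplicit false

namespace Crest.Agent.R289.LCa72

open Finset
open Crest.Agent.R289.DefD (frac)

/-! ### fractions -/

section Frac

variable {U V : Type} [Fintype U] [Fintype V]

open Classical in
lemma frac_def (p : U → Prop) :
    frac p = ((univ.filter p).card : ℝ) / (Fintype.card U : ℝ) := rfl

open Classical in
lemma frac_eq_sum (p : U → Prop) :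
    frac p = (∑ u, if p u then (1 : ℝ) else 0) / (Fintype.card U : ℝ) := by
  rw [frac_def, Finset.sum_boole]

open Classical in
lemma frac_nn (p : U → Prop) : 0 ≤ frac p := by
  rw [frac_def]; positivity

open Classical in
lemma frac_le_one (p : U → Prop) : frac p ≤ 1 := by
  rw [frac_def]
  refine div_le_one_of_le₀ ?_ (Nat.cast_nonneg _)
  exact_mod_cast Finset.card_le_univ _

open Classical in
lemma frac_mono {p q : U → Prop} (h : ∀ u, p u → q u) : frac p ≤ frac q := by
  rw [frac_def, frac_def]
  refine div_le_div_of_nonneg_right ?_ (Nat.cast_nonneg _)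
  exact_mod_cast Finset.card_le_card fun u hu => by
    simp only [mem_filter, mem_univ, true_and] at hu ⊢; exact h u hu

lemma frac_congr {p q : U → Prop} (h : ∀ u, p u ↔ q u) : frac p = frac q :=
  le_antisymm (frac_mono fun u => (h u).1) (frac_mono fun u => (h u).2)

open Classical in
lemma frac_or (p q : U → Prop) : frac (fun u => p u ∨ q u) ≤ frac p + frac q := by
  rw [frac_eq_sum, frac_eq_sum p, frac_eq_sum q, ← add_div, ← Finset.sum_add_distrib]
  refine div_le_div_of_nonneg_right (Finset.sum_le_sum fun u _ => ?_) (Nat.cast_nonneg _)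
  by_cases hp : p u <;> by_cases hq : q u <;> simp [hp, hq]

lemma frac_or_le {r p q : U → Prop} (h : ∀ u, r u → p u ∨ q u) : frac r ≤ frac p + frac q :=
  (frac_mono h).trans (frac_or p q)

lemma frac_exists_le {ι : Type} [Fintype ι] (p : ι → U → Prop) :
    frac (fun u => ∃ i, p i u) ≤ ∑ i, frac (p i) := by
  classical
  have key : ∀ s : Finset ι, frac (fun u => ∃ i ∈ s, p i u) ≤ ∑ i ∈ s, frac (p i) := by
    intro s
    induction s using Finset.induction_on with
    | empty =>
      simp only [notMem_empty, false_and, exists_false, sum_empty]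
      rw [frac_def]; simp
    | insert a s ha ih =>
      rw [sum_insert ha]
      refine (frac_or_le (p := p a) (q := fun u => ∃ i ∈ s, p i u) ?_).trans
        (add_le_add le_rfl ih)
      rintro u ⟨i, hi, hp⟩
      rcases mem_insert.1 hi with rfl | h
      · exact Or.inl hp
      · exact Or.inr ⟨i, h, hp⟩
  have := key univ
  simpa using this

open Classical in
lemma frac_equiv (e : U ≃ V) (p : V → Prop) : frac (fun u => p (e u)) = frac p := by
  rw [frac_def, frac_def, Fintype.card_congr e]
  congr 2
  refine Finset.card_bij (fun u _ => e u) ?_ ?_ ?_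
  · intro u hu
    simp only [mem_filter, mem_univ, true_and] at hu ⊢; exact hu
  · intro a _ b _ h; exact e.injective h
  · intro v hv
    refine ⟨e.symm v, ?_, by simp⟩
    simp only [mem_filter, mem_univ, true_and, Equiv.apply_symm_apply] at hv ⊢; exact hv

lemma frac_bij {f : U → V} (hf : Function.Bijective f) (p : V → Prop) :
    frac (fun u => p (f u)) = frac p := frac_equiv (Equiv.ofBijective f hf) p

open Classical in
lemma frac_add_not [Nonempty U] (p : U → Prop) : frac p + frac (fun u => ¬ p u) = 1 := by
  have h0 : (0 : ℝ) < (Fintype.card U : ℝ) := by exact_mod_cast Fintype.card_pos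
  rw [frac_eq_sum, frac_eq_sum (fun u => ¬ p u), ← add_div, ← Finset.sum_add_distrib,
    div_eq_one_iff_eq h0.ne']
  rw [Finset.sum_congr rfl (g := fun _ => (1 : ℝ)) (fun u _ => by
    by_cases hp : p u <;> simp [hp])]
  simp

open Classical in
lemma frac_eq_zero {p : U → Prop} (h : ∀ u, ¬ p u) : frac p = 0 := by
  rw [frac_def, Finset.filter_eq_empty_iff.2 (fun u _ => h u)]; simp

lemma exists_of_frac_lt_one [Nonempty U] {p : U → Prop} (h : frac p < 1) : ∃ u, ¬ p u := by
  by_contra hc
  push Not at hc
  have := frac_add_not p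
  rw [frac_eq_zero (p := fun u => ¬ p u) (fun u => not_not.2 (hc u))] at this
  linarith

open Classical in
lemma frac_prod (p : U × V → Prop) :
    frac p * (Fintype.card U : ℝ) = ∑ x : U, frac (fun y : V => p (x, y)) := by
  have h1 : ∀ x : U, frac (fun y : V => p (x, y)) =
      (∑ y : V, if p (x, y) then (1 : ℝ) else 0) / (Fintype.card V : ℝ) := fun x =>
    frac_eq_sum _
  simp only [h1]
  rw [frac_eq_sum, ← Finset.sum_div, Fintype.card_prod, Fintype.sum_prod_type]
  push_cast
  by_cases hU : (Fintype.card U : ℝ) = 0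
  · have : IsEmpty U := Fintype.card_eq_zero_iff.1 (by exact_mod_cast hU)
    simp
  · by_cases hV : (Fintype.card V : ℝ) = 0
    · simp [hV]
    · field_simp

lemma frac_prod_le {p : U × V → Prop} {c : ℝ} (hc : 0 ≤ c)
    (h : ∀ x : U, frac (fun y : V => p (x, y)) ≤ c) : frac p ≤ c := by
  by_cases hU : (Fintype.card U : ℝ) = 0
  · have : IsEmpty U := Fintype.card_eq_zero_iff.1 (by exact_mod_cast hU)
    rw [frac_eq_sum]; simp [hc]
  · have hpos : (0 : ℝ) < Fintype.card U := lt_of_le_of_ne (Nat.cast_nonneg _) (Ne.symm hU)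
    have h1 := frac_prod p
    have h2 : ∑ x : U, frac (fun y : V => p (x, y)) ≤ ∑ _x : U, c := Finset.sum_le_sum fun x _ => h x
    simp only [Finset.sum_const, Finset.card_univ, nsmul_eq_mul] at h2
    rw [← h1] at h2
    nlinarith

/-- fibrewise comparison -/
lemma frac_prod_mono {p q : U × V → Prop} {c : ℝ}
    (h : ∀ x : U, frac (fun y : V => p (x, y)) ≤ c * frac (fun y : V => q (x, y))) :
    frac p ≤ c * frac q := by
  by_cases hU : (Fintype.card U : ℝ) = 0
  · have : IsEmpty U := Fintype.card_eq_zero_iff.1 (by exact_mod_cast hU)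
    rw [frac_eq_sum, frac_eq_sum]; simp
  · have hpos : (0 : ℝ) < Fintype.card U := lt_of_le_of_ne (Nat.cast_nonneg _) (Ne.symm hU)
    have h1 := frac_prod p
    have h1' := frac_prod q
    have h2 : ∑ x : U, frac (fun y : V => p (x, y)) ≤ ∑ x : U, c * frac (fun y : V => q (x, y)) :=
      Finset.sum_le_sum fun x _ => h x
    rw [← Finset.mul_sum, ← h1, ← h1'] at h2
    nlinarith

lemma le_frac_prod {p : U × V → Prop} {c : ℝ} [Nonempty U]
    (h : ∀ x : U, c ≤ frac (fun y : V => p (x, y))) : c ≤ frac p := by
  have hpos : (0 : ℝ) < Fintype.card U := by exact_mod_cast Fintype.card_pos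
  have h1 := frac_prod p
  have h2 : ∑ _x : U, c ≤ ∑ x : U, frac (fun y : V => p (x, y)) := Finset.sum_le_sum fun x _ => h x
  simp only [Finset.sum_const, Finset.card_univ, nsmul_eq_mul] at h2
  rw [← h1] at h2
  nlinarith

/-- lower bound through the first coordinate: `p` holds with probability `≥ c` on the fibres
over a set of fraction `a` -/
lemma mul_le_frac_prod {p : U × V → Prop} {q : U → Prop} {c : ℝ} [Nonempty U]
    (h : ∀ x : U, q x → c ≤ frac (fun y : V => p (x, y))) : c * frac q ≤ frac p := by
  classical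
  have hpos : (0 : ℝ) < Fintype.card U := by exact_mod_cast Fintype.card_pos
  have h1 := frac_prod p
  have h2 : ∑ x : U, (if q x then c else 0) ≤ ∑ x : U, frac (fun y : V => p (x, y)) := by
    refine Finset.sum_le_sum fun x _ => ?_
    by_cases hq : q x
    · simp only [hq, if_true]; exact h x hq
    · simp only [hq, if_false]; exact frac_nn _
  have h3 : ∑ x : U, (if q x then c else 0) = c * (frac q * (Fintype.card U : ℝ)) := by
    rw [frac_eq_sum, div_mul_cancel₀ _ hpos.ne', Finset.mul_sum]
    refine Finset.sum_congr rfl fun x _ => ?_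
    by_cases hq : q x <;> simp [hq]
  rw [← h1, h3] at h2
  nlinarith

/-- projection to the first coordinate -/
lemma frac_fst [Nonempty V] (p : U → Prop) : frac (fun z : U × V => p z.1) = frac p := by
  classical
  by_cases hU : (Fintype.card U : ℝ) = 0
  · have : IsEmpty U := Fintype.card_eq_zero_iff.1 (by exact_mod_cast hU)
    rw [frac_eq_sum, frac_eq_sum]; simp
  · have h1 := frac_prod (fun z : U × V => p z.1)
    have h2 : ∀ x : U, frac (fun _ : V => p x) = if p x then (1 : ℝ) else 0 := by
      intro x
      by_cases hx : p x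
      · have := frac_add_not (fun _ : V => p x)
        rw [frac_eq_zero (p := fun _ : V => ¬ p x) (fun _ => not_not.2 hx)] at this
        simp only [hx, if_true]; simpa [hx] using this
      · rw [frac_eq_zero (fun _ => hx)]; simp [hx]
    simp only [h2] at h1
    rw [frac_eq_sum p, eq_div_iff hU, h1]

/-- some value of a function is at most the mean over the second coordinate -/
lemma exists_snd_le [Nonempty V] (p : U × V → Prop) :
    ∃ y : V, frac (fun x : U => p (x, y)) ≤ frac p := by
  by_contra hc
  push Not at hc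
  have hV : (0 : ℝ) < (Fintype.card V : ℝ) := by exact_mod_cast Fintype.card_pos
  have h1 := frac_prod (fun z : V × U => p (z.2, z.1))
  have h2 : frac (fun z : V × U => p (z.2, z.1)) = frac p :=
    frac_equiv (Equiv.prodComm V U) p
  have h3 : ∑ _y : V, frac p < ∑ y : V, frac (fun x : U => p (x, y)) :=
    Finset.sum_lt_sum_of_nonempty univ_nonempty fun y _ => hc y
  simp only [Finset.sum_const, Finset.card_univ, nsmul_eq_mul] at h3
  rw [h2] at h1
  simp only at h1
  rw [← h1] at h3
  linarith

end Frac

/-! ### additive functions differ on half of the group -/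

section Grp

variable {G V : Type} [AddCommGroup G] [Fintype G] [AddCommGroup V]

lemma half (D : G → V) (hD : ∀ x y, D (x + y) = D x + D y) (x0 : G) (h0 : D x0 ≠ 0) :
    1 / 2 ≤ frac (fun x => D x ≠ 0) := by
  have e : frac (fun x => ¬ D x ≠ 0) ≤ frac (fun x => D x ≠ 0) := by
    rw [← frac_equiv (Equiv.addRight x0) (fun x => D x ≠ 0)]
    refine frac_mono fun x hx => ?_
    simp only [Equiv.coe_addRight, hD]
    rw [not_not] at hx
    rw [hx, zero_add]; exact h0
  have := frac_add_not (fun x => D x ≠ 0)
  linarith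

/-- combinatorial BLR -/
theorem blr (F : G → V) {ε : ℝ} (hε : 6 * ε < 1)
    (h : frac (fun z : G × G => F (z.1 + z.2) ≠ F z.1 + F z.2) ≤ ε) :
    ∃ l : G → V, (∀ x y, l (x + y) = l x + l y) ∧ frac (fun x => F x ≠ l x) ≤ 2 * ε := by
  have hε0 : 0 ≤ ε := (frac_nn _).trans h
  -- (a)
  have ha : ∀ x : G, frac (fun z : G × G => F (x + z.1) - F z.1 ≠ F (x + z.2) - F z.2) ≤ 2 * ε := by
    intro x
    have b1 : Function.Bijective (fun z : G × G => ((x + z.1, z.2) : G × G)) := by
      constructor
      · rintro ⟨a, b⟩ ⟨c, d⟩ hh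
        simp only [Prod.mk.injEq, add_right_inj] at hh
        rw [hh.1, hh.2]
      · rintro ⟨a, b⟩
        exact ⟨(a - x, b), by simp⟩
    have b2 : Function.Bijective (fun z : G × G => ((x + z.2, z.1) : G × G)) := by
      constructor
      · rintro ⟨a, b⟩ ⟨c, d⟩ hh
        simp only [Prod.mk.injEq, add_right_inj] at hh
        rw [hh.1, hh.2]
      · rintro ⟨a, b⟩
        exact ⟨(b, a - x), by simp⟩
    have e1 := frac_bij b1 (fun z : G × G => F (z.1 + z.2) ≠ F z.1 + F z.2)
    have e2 := frac_bij b2 (fun z : G × G => F (z.1 + z.2) ≠ F z.1 + F z.2)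
    have := frac_or_le (r := fun z : G × G => F (x + z.1) - F z.1 ≠ F (x + z.2) - F z.2)
      (p := fun z : G × G => F ((x + z.1) + z.2) ≠ F (x + z.1) + F z.2)
      (q := fun z : G × G => F ((x + z.2) + z.1) ≠ F (x + z.2) + F z.1) (by
        intro z hz
        by_contra hc
        push Not at hc
        apply hz
        have h1 := hc.1
        have h2 := hc.2
        have e : (x + z.2) + z.1 = (x + z.1) + z.2 := by abel
        rw [e, h1] at h2
        rw [sub_eq_sub_iff_add_eq_add]
        exact h2)
    linarith
  have hb : ∀ x : G, ∃ b : V, frac (fun y => F (x + y) - F y ≠ b) ≤ 2 * ε := by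
    intro x
    obtain ⟨y0, hy⟩ := exists_snd_le
      (fun z : G × G => F (x + z.1) - F z.1 ≠ F (x + z.2) - F z.2)
    exact ⟨F (x + y0) - F y0, hy.trans (ha x)⟩
  choose l hl using hb
  refine ⟨l, ?_, ?_⟩
  · intro x y
    have e1 : frac (fun z => F (x + (y + z)) - F (y + z) ≠ l x) ≤ 2 * ε := by
      have := frac_equiv (Equiv.addLeft y) (fun z => F (x + z) - F z ≠ l x)
      simp only [Equiv.coe_addLeft] at this
      rw [this]; exact hl x
    have e2 := hl y
    have e3 := hl (x + y)
    have h3 : frac (fun z => (F (x + (y + z)) - F (y + z) ≠ l x ∨ F (y + z) - F z ≠ l y) ∨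
        F ((x + y) + z) - F z ≠ l (x + y)) < 1 := by
      have h4 := frac_or (fun z => F (x + (y + z)) - F (y + z) ≠ l x ∨ F (y + z) - F z ≠ l y)
        (fun z => F ((x + y) + z) - F z ≠ l (x + y))
      have h5 := frac_or (fun z => F (x + (y + z)) - F (y + z) ≠ l x)
        (fun z => F (y + z) - F z ≠ l y)
      linarith
    obtain ⟨z, hz⟩ := exists_of_frac_lt_one h3
    push Not at hz
    obtain ⟨⟨g1, g2⟩, g3⟩ := hz
    rw [← g1, ← g2, ← g3, add_assoc]
    abel
  · -- distance
    have hh := mul_le_frac_prod (p := fun z : G × G => F (z.1 + z.2) ≠ F z.1 + F z.2)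
      (q := fun x => F x ≠ l x) (c := 1 - 2 * ε) (by
        intro x hx
        have h1 := hl x
        have h2 := frac_add_not (fun y => F (x + y) - F y ≠ l x)
        have h3 : frac (fun y => ¬ F (x + y) - F y ≠ l x) ≤
            frac (fun y => F (x + y) ≠ F x + F y) := frac_mono fun y hy hc => by
          apply hx
          rw [not_not] at hy
          rw [← hy, hc]
          abel
        linarith)
    have h0 := frac_nn (fun x => F x ≠ l x)
    nlinarith

end Grp

end Crest.Agent.R289.LCa72
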