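import Mathlib

/-!
# Row 289: second order cascade and its reverse record

`ys Lam w j`: the cascade `y_0 = w`, `y_1 = Lam w`, `y_{j+2} = Lam y_{j+1} + y_j` (locally invertible:
`y_j = y_{j+2} - Lam y_{j+1}`).

`rc Lam w t i`: the record after `t` pushes: `rc 0 = 0`, `rc (t+1) i = y_{t-i}` for `i ≤ t`, `0` above.

* `growth`: if the operator triples small supports, some layer `j ≤ log2 th + 1` has more than `th`
  non-zero values.
* `rel_iff`: the record is the unique solution of `X i = Lam X (i+1) + X (i+2) + [i = t] w`.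
* `rc_push`, `rc_pop`: push and pop are word formulas.
* `next_iff`: the same along an injective path of a finite set (successor function `next`).
* `had_iff`: the same for homomorphisms `(Fin n → ZMod p) → A` (Hadamard record).
-/

set_option autoImplicit false

namespace Crest.Agent.R289.RevChain123

open Finset

/-! ### the cascade -/

section cascade
variable {A B : Type*} [AddCommGroup A] [AddCommGroup B]

/-- second order cascade -/
def ys (Lam : A →+ A) (w : A) : ℕ → A
  | 0 => w
  | 1 => Lam w
  | (j + 2) => Lam (ys Lam w (j + 1)) + ys Lam w j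

@[simp] theorem ys_zero_idx (Lam : A →+ A) (w : A) : ys Lam w 0 = w := rfl
@[simp] theorem ys_one_idx (Lam : A →+ A) (w : A) : ys Lam w 1 = Lam w := rfl
theorem ys_succ_succ (Lam : A →+ A) (w : A) (j : ℕ) :
    ys Lam w (j + 2) = Lam (ys Lam w (j + 1)) + ys Lam w j := rfl

/-- the cascade commutes with every homomorphism that intertwines the operators -/
theorem ys_map (Lam : A →+ A) (Lam' : B →+ B) (φ : A →+ B) (h : ∀ a, φ (Lam a) = Lam' (φ a))
    (w : A) : ∀ j, φ (ys Lam w j) = ys Lam' (φ w) j := by
  intro j
  induction j using Nat.strong_induction_on with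
  | _ j ih =>
    match j with
    | 0 => rfl
    | 1 => exact h w
    | (j + 2) =>
      rw [ys_succ_succ, ys_succ_succ, map_add, h, ih (j + 1) (by omega), ih j (by omega)]

@[simp] theorem ys_zero (Lam : A →+ A) : ∀ j, ys Lam (0 : A) j = 0 := by
  intro j
  induction j using Nat.strong_induction_on with
  | _ j ih =>
    match j with
    | 0 => rfl
    | 1 => exact map_zero Lam
    | (j + 2) =>
      rw [ys_succ_succ, ih (j + 1) (by omega), ih j (by omega), map_zero, add_zero]

theorem ys_add (Lam : A →+ A) (v w : A) : ∀ j, ys Lam (v + w) j = ys Lam v j + ys Lam w j := by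
  intro j
  induction j using Nat.strong_induction_on with
  | _ j ih =>
    match j with
    | 0 => rfl
    | 1 => exact map_add Lam v w
    | (j + 2) =>
      rw [ys_succ_succ, ys_succ_succ, ys_succ_succ, ih (j + 1) (by omega), ih j (by omega), map_add]
      abel

/-- all layers of `w` lie in every subgroup that contains `w` and is stable under `Lam` -/
theorem ys_mem (Lam : A →+ A) (S : AddSubgroup A) (hS : ∀ a ∈ S, Lam a ∈ S) (w : A) (hw : w ∈ S) :
    ∀ j, ys Lam w j ∈ S := by
  intro j
  induction j using Nat.strong_induction_on with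
  | _ j ih =>
    match j with
    | 0 => exact hw
    | 1 => exact hS w hw
    | (j + 2) => exact S.add_mem (hS _ (ih (j + 1) (by omega))) (ih j (by omega))

end cascade

/-! ### growth of the support -/

section growth
variable {P M : Type*} [Fintype P] [AddCommGroup M]

open Classical in
/-- support of a function on a finite set -/
noncomputable def supp (f : P → M) : Finset P := univ.filter fun g => f g ≠ 0

theorem mem_supp (f : P → M) (g : P) : g ∈ supp f ↔ f g ≠ 0 := by
  classical
  simp [supp]

theorem supp_card_pos (f : P → M) (h : f ≠ 0) : 0 < (supp f).card := by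
  classical
  rw [card_pos]
  by_contra hne
  apply h
  funext g
  by_contra hg
  exact hne ⟨g, (mem_supp f g).2 hg⟩

theorem supp_card_le_add (f g : P → M) : (supp f).card ≤ (supp (f + g)).card + (supp g).card := by
  classical
  refine le_trans (card_le_card ?_) (card_union_le _ _)
  intro x hx
  rw [mem_union, mem_supp, mem_supp]
  rw [mem_supp] at hx
  by_contra hc
  push Not at hc
  apply hx
  have h1 : f x + g x = 0 := hc.1
  rw [hc.2, add_zero] at h1
  exact h1

/-- **Growth of the second order cascade.** -/
theorem growth (Lam : (P → M) →+ (P → M)) (th : ℕ)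
    (hg : ∀ f : P → M, f ≠ 0 → (supp f).card ≤ th → 3 * (supp f).card ≤ (supp (Lam f)).card)
    (w : P → M) (hw : w ≠ 0) :
    ∃ j, j ≤ Nat.log 2 th + 1 ∧ th < (supp (ys Lam w j)).card := by
  classical
  by_contra H
  push Not at H
  set J := Nat.log 2 th + 1 with hJ
  have key : ∀ j, j ≤ J → (2 ^ j ≤ (supp (ys Lam w j)).card ∧
      2 * (supp (ys Lam w j)).card ≤ (supp (ys Lam w (j + 1))).card) := by
    intro j
    induction j with
    | zero =>
      intro _
      have h0 := supp_card_pos w hw
      have h1 := hg w hw (H 0 (Nat.zero_le _))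
      refine ⟨?_, ?_⟩
      · rw [pow_zero]
        exact h0
      · show 2 * (supp w).card ≤ (supp (Lam w)).card
        omega
    | succ j ih =>
      intro hj
      obtain ⟨h1, h2⟩ := ih (by omega)
      have h3 : 2 ^ (j + 1) ≤ (supp (ys Lam w (j + 1))).card := by
        rw [pow_succ]
        omega
      refine ⟨h3, ?_⟩
      have hne : ys Lam w (j + 1) ≠ 0 := by
        intro h0
        have : (supp (ys Lam w (j + 1))).card = 0 := by
          rw [h0, card_eq_zero]
          ext x
          simp [mem_supp]
        have hp : 0 < 2 ^ (j + 1) := by positivity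
        omega
      have h4 := hg _ hne (H (j + 1) hj)
      have h5 := supp_card_le_add (Lam (ys Lam w (j + 1))) (ys Lam w j)
      rw [← ys_succ_succ] at h5
      show 2 * (supp (ys Lam w (j + 1))).card ≤ (supp (ys Lam w (j + 2))).card
      omega
  have h1 := (key J le_rfl).1
  have h2 := H J le_rfl
  have h3 : th < 2 ^ J := Nat.lt_pow_succ_log_self (by norm_num) th
  omega

end growth

/-! ### the reverse record -/

section record
variable {A : Type*} [AddCommGroup A]

/-- the record after `t` pushes -/
def rc (Lam : A →+ A) (w : A) : ℕ → ℕ → A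
  | 0, _ => 0
  | (t + 1), i => if i ≤ t then ys Lam w (t - i) else 0

@[simp] theorem rc_empty (Lam : A →+ A) (w : A) (i : ℕ) : rc Lam w 0 i = 0 := rfl

theorem rc_le (Lam : A →+ A) (w : A) (t i : ℕ) (h : i ≤ t) :
    rc Lam w (t + 1) i = ys Lam w (t - i) := by
  show (if i ≤ t then _ else _) = _
  rw [if_pos h]

theorem rc_ge (Lam : A →+ A) (w : A) (t i : ℕ) (h : t ≤ i) : rc Lam w t i = 0 := by
  cases t with
  | zero => rfl
  | succ t =>
    show (if i ≤ t then _ else _) = _
    rw [if_neg (by omega)]

theorem rc_top (Lam : A →+ A) (w : A) (t : ℕ) : rc Lam w (t + 1) t = w := by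
  rw [rc_le _ _ _ _ le_rfl, Nat.sub_self]
  rfl

/-- first push -/
theorem rc_push_one (Lam : A →+ A) (w : A) (i : ℕ) :
    rc Lam w 1 i = Lam (rc Lam w 0 i) + 0 + (if i = 0 then w else 0) := by
  rw [rc_empty, map_zero, add_zero, zero_add]
  by_cases h : i = 0
  · subst h
    rw [if_pos rfl]
    exact rc_top Lam w 0
  · rw [if_neg h, rc_ge Lam w 1 i (by omega)]

/-- push: `X^(t+2) = Lam X^(t+1) + X^(t) + [i = t+1] w` -/
theorem rc_push (Lam : A →+ A) (w : A) (t i : ℕ) :
    rc Lam w (t + 2) i = Lam (rc Lam w (t + 1) i) + rc Lam w t i + (if i = t + 1 then w else 0) := by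
  rcases lt_trichotomy i (t + 1) with h | h | h
  · rw [if_neg (by omega), add_zero, rc_le Lam w (t + 1) i (by omega), rc_le Lam w t i (by omega)]
    rcases Nat.lt_or_ge i t with h' | h'
    · obtain ⟨t', rfl⟩ : ∃ t', t = t' + 1 := ⟨t - 1, by omega⟩
      rw [rc_le Lam w t' i (by omega)]
      have e1 : t' + 1 + 1 - i = (t' - i) + 2 := by omega
      have e2 : t' + 1 - i = (t' - i) + 1 := by omega
      rw [e1, e2, ys_succ_succ]
    · have hi : i = t := by omega
      subst hi
      rw [rc_ge Lam w i i le_rfl, add_zero, Nat.sub_self]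
      have e1 : i + 1 - i = 1 := by omega
      rw [e1]
      rfl
  · subst h
    rw [if_pos rfl, rc_ge Lam w (t + 1) (t + 1) le_rfl, rc_ge Lam w t (t + 1) (by omega), map_zero,
      zero_add, zero_add]
    exact rc_top Lam w (t + 1)
  · rw [if_neg (by omega), rc_ge Lam w (t + 2) i (by omega), rc_ge Lam w (t + 1) i (by omega),
      rc_ge Lam w t i (by omega), map_zero, add_zero, add_zero]

/-- pop -/
theorem rc_pop (Lam : A →+ A) (w : A) (t i : ℕ) :
    rc Lam w t i = rc Lam w (t + 2) i - Lam (rc Lam w (t + 1) i) - (if i = t + 1 then w else 0) := by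
  rw [rc_push]
  abel

/-- the record satisfies the static relation -/
theorem rc_rel (Lam : A →+ A) (w : A) (t i : ℕ) :
    rc Lam w (t + 1) i =
      Lam (rc Lam w (t + 1) (i + 1)) + rc Lam w (t + 1) (i + 2) + (if i = t then w else 0) := by
  rcases lt_trichotomy i t with h | h | h
  · rw [if_neg (by omega), add_zero, rc_le Lam w t i (by omega), rc_le Lam w t (i + 1) (by omega)]
    rcases Nat.lt_or_ge (i + 1) t with h' | h'
    · rw [rc_le Lam w t (i + 2) (by omega)]
      have e1 : t - i = (t - (i + 2)) + 2 := by omega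
      have e2 : t - (i + 1) = (t - (i + 2)) + 1 := by omega
      rw [e1, e2, ys_succ_succ]
    · rw [rc_ge Lam w (t + 1) (i + 2) (by omega), add_zero]
      have e1 : t - i = 1 := by omega
      have e2 : t - (i + 1) = 0 := by omega
      rw [e1, e2]
      rfl
  · subst h
    rw [if_pos rfl, rc_ge Lam w (i + 1) (i + 1) le_rfl, rc_ge Lam w (i + 1) (i + 2) (by omega),
      map_zero, zero_add, zero_add]
    exact rc_top Lam w i
  · rw [if_neg (by omega), rc_ge Lam w (t + 1) i (by omega), rc_ge Lam w (t + 1) (i + 1) (by omega),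
      rc_ge Lam w (t + 1) (i + 2) (by omega), map_zero, add_zero, add_zero]

/-- uniqueness of the static relation, arbitrary right hand side -/
theorem rel_unique (Lam : A →+ A) (n : ℕ) (d X X' : ℕ → A)
    (hX : ∀ i, n ≤ i → X i = 0) (hX' : ∀ i, n ≤ i → X' i = 0)
    (h : ∀ i, i < n → X i = Lam (X (i + 1)) + X (i + 2) + d i)
    (h' : ∀ i, i < n → X' i = Lam (X' (i + 1)) + X' (i + 2) + d i) :
    ∀ i, X i = X' i := by
  have key : ∀ k, ∀ i, n - i ≤ k → X i = X' i := by
    intro k
    induction k with
    | zero =>
      intro i hi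
      rw [hX i (by omega), hX' i (by omega)]
    | succ k ih =>
      intro i hi
      by_cases hin : n ≤ i
      · rw [hX i hin, hX' i hin]
      · rw [h i (by omega), h' i (by omega), ih (i + 1) (by omega), ih (i + 2) (by omega)]
  intro i
  exact key (n - i) i le_rfl

/-- **the record is the unique solution of the static relation** (position `t < n`) -/
theorem rel_iff (Lam : A →+ A) (w : A) (n t : ℕ) (ht : t < n) (X : ℕ → A) :
    ((∀ i, n ≤ i → X i = 0) ∧
      ∀ i, i < n → X i = Lam (X (i + 1)) + X (i + 2) + (if i = t then w else 0)) ↔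
    ∀ i, X i = rc Lam w (t + 1) i := by
  constructor
  · rintro ⟨h0, h1⟩
    exact rel_unique Lam n (fun i => if i = t then w else 0) X (rc Lam w (t + 1)) h0
      (fun i hi => rc_ge Lam w (t + 1) i (by omega)) h1 (fun i _ => rc_rel Lam w t i)
  · intro h
    refine ⟨fun i hi => ?_, fun i _ => ?_⟩
    · rw [h]
      exact rc_ge Lam w (t + 1) i (by omega)
    · rw [h, h, h]
      exact rc_rel Lam w t i

/-- empty record -/
theorem rel_zero_iff (Lam : A →+ A) (n : ℕ) (X : ℕ → A) :
    ((∀ i, n ≤ i → X i = 0) ∧ ∀ i, i < n → X i = Lam (X (i + 1)) + X (i + 2) + 0) ↔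
    ∀ i, X i = 0 := by
  constructor
  · rintro ⟨h0, h1⟩
    exact rel_unique Lam n (fun _ => 0) X (fun _ => 0) h0 (fun _ _ => rfl) h1
      (fun i _ => by rw [map_zero, add_zero, add_zero])
  · intro h
    refine ⟨fun i _ => h i, fun i _ => ?_⟩
    rw [h, h, h, map_zero, add_zero, add_zero]

/-- the full record contains all layers -/
theorem rc_full (Lam : A →+ A) (w : A) (n j : ℕ) (hj : j < n) :
    rc Lam w n (n - 1 - j) = ys Lam w j := by
  obtain ⟨m, rfl⟩ : ∃ m, n = m + 1 := ⟨n - 1, by omega⟩
  rw [rc_le Lam w m _ (by omega)]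
  congr 1
  omega

/-- the full record of `w` vanishes iff `w = 0` -/
theorem rc_full_eq_zero_iff (Lam : A →+ A) (w : A) (n : ℕ) (hn : 0 < n) :
    (∀ i, i < n → rc Lam w n i = 0) ↔ w = 0 := by
  constructor
  · intro h
    have := h (n - 1 - 0) (by omega)
    rw [rc_full Lam w n 0 hn] at this
    exact this
  · rintro rfl i _
    obtain ⟨m, rfl⟩ : ∃ m, n = m + 1 := ⟨n - 1, by omega⟩
    show (if i ≤ m then _ else _) = _
    split_ifs
    · exact ys_zero Lam _
    · rfl

theorem rc_map {B : Type*} [AddCommGroup B] (Lam : A →+ A) (Lam' : B →+ B) (φ : A →+ B)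
    (h : ∀ a, φ (Lam a) = Lam' (φ a)) (w : A) (t i : ℕ) :
    φ (rc Lam w t i) = rc Lam' (φ w) t i := by
  cases t with
  | zero => exact map_zero φ
  | succ t =>
    show φ (if i ≤ t then _ else _) = (if i ≤ t then _ else _)
    split_ifs
    · exact ys_map Lam Lam' φ h w _
    · exact map_zero φ

theorem rc_mem (Lam : A →+ A) (S : AddSubgroup A) (hS : ∀ a ∈ S, Lam a ∈ S) (w : A) (hw : w ∈ S)
    (t i : ℕ) : rc Lam w t i ∈ S := by
  cases t with
  | zero => exact S.zero_mem
  | succ t =>
    show (if i ≤ t then _ else _) ∈ S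
    split_ifs
    · exact ys_mem Lam S hS w hw _
    · exact S.zero_mem

end record

/-! ### the record along a path of a finite set -/

section path
variable {A : Type*} [AddCommGroup A] {τ : Type*}

/-- value at an optional place -/
def onx (X : τ → A) : Option τ → A
  | some g => X g
  | none => 0

/-- a path `p 0, .., p (n-1)` without repetition and its successor function -/
structure Path (τ : Type*) (n : ℕ) where
  p : ℕ → τ
  next : τ → Option τ
  inj : ∀ i j, i < n → j < n → p i = p j → i = j
  next_path : ∀ i, i + 1 < n → next (p i) = some (p (i + 1))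
  next_last : ∀ i, i + 1 = n → next (p i) = none
  next_off : ∀ g, (∀ i, i < n → g ≠ p i) → next g = none

variable {n : ℕ} (Q : Path τ n)

/-- the word with contents `c i` at `p i` (`i < n`), zero elsewhere -/
noncomputable def spread (c : ℕ → A) : τ → A := by
  classical
  exact fun g => if h : ∃ i, i < n ∧ g = Q.p i then c h.choose else 0

theorem spread_path (c : ℕ → A) (i : ℕ) (hi : i < n) : spread Q c (Q.p i) = c i := by
  classical
  have h : ∃ j, j < n ∧ Q.p i = Q.p j := ⟨i, hi, rfl⟩
  unfold spread
  rw [dif_pos h]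
  congr 1
  exact (Q.inj i _ hi h.choose_spec.1 h.choose_spec.2).symm

theorem spread_off (c : ℕ → A) (g : τ) (h : ∀ i, i < n → g ≠ Q.p i) : spread Q c g = 0 := by
  classical
  unfold spread
  rw [dif_neg]
  rintro ⟨i, hi, rfl⟩
  exact h i hi rfl

/-- **the static relation on the set of places determines the record**: `d g` = `D g • w` is
`w` at `p t` and `0` elsewhere -/
theorem next_iff (Lam : A →+ A) (w : A) (t : ℕ) (ht : t < n) (d X : τ → A)
    (hd : d (Q.p t) = w) (hd0 : ∀ g, g ≠ Q.p t → d g = 0) :
    (∀ g, X g = Lam (onx X (Q.next g)) + onx X ((Q.next g).bind Q.next) + d g) ↔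
    X = spread Q (rc Lam w (t + 1)) := by
  classical
  constructor
  · intro h
    -- contents along the path
    let Z : ℕ → A := fun i => if i < n then X (Q.p i) else 0
    have hZ : ∀ i, i < n → Z i = X (Q.p i) := fun i hi => if_pos hi
    have hZ0 : ∀ i, n ≤ i → Z i = 0 := fun i hi => if_neg (by omega)
    have hrel : ∀ i, i < n → Z i = Lam (Z (i + 1)) + Z (i + 2) + (if i = t then w else 0) := by
      intro i hi
      rw [hZ i hi, h (Q.p i)]
      have hdi : d (Q.p i) = (if i = t then w else 0) := by
        by_cases hit : i = t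
        · subst hit
          rw [if_pos rfl, hd]
        · rw [if_neg hit]
          exact hd0 _ fun hc => hit (Q.inj i t hi ht hc)
      rw [hdi]
      rcases Nat.lt_or_ge (i + 1) n with h1 | h1
      · rw [Q.next_path i h1]
        have e1 : onx X (some (Q.p (i + 1))) = Z (i + 1) := (hZ (i + 1) h1).symm
        rw [e1]
        congr 2
        show onx X (Q.next (Q.p (i + 1))) = Z (i + 2)
        rcases Nat.lt_or_ge (i + 2) n with h2 | h2
        · rw [Q.next_path (i + 1) h2]
          exact (hZ (i + 2) h2).symm
        · rw [Q.next_last (i + 1) (by omega), hZ0 (i + 2) h2]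
          rfl
      · rw [Q.next_last i (by omega), hZ0 (i + 1) h1, hZ0 (i + 2) (by omega)]
        rfl
    have hu := (rel_iff Lam w n t ht Z).1 ⟨hZ0, hrel⟩
    funext g
    by_cases hg : ∃ i, i < n ∧ g = Q.p i
    · obtain ⟨i, hi, rfl⟩ := hg
      rw [spread_path Q _ i hi, ← hu i, hZ i hi]
    · push Not at hg
      rw [spread_off Q _ g hg, h g, Q.next_off g hg, hd0 g (hg t ht)]
      show Lam 0 + 0 + 0 = (0 : A)
      rw [map_zero, add_zero, add_zero]
  · rintro rfl g
    by_cases hg : ∃ i, i < n ∧ g = Q.p i
    · obtain ⟨i, hi, rfl⟩ := hg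
      have hdi : d (Q.p i) = (if i = t then w else 0) := by
        by_cases hit : i = t
        · subst hit
          rw [if_pos rfl, hd]
        · rw [if_neg hit]
          exact hd0 _ fun hc => hit (Q.inj i t hi ht hc)
      rw [spread_path Q _ i hi, hdi, rc_rel Lam w t i]
      rcases Nat.lt_or_ge (i + 1) n with h1 | h1
      · rw [Q.next_path i h1]
        have e1 : onx (spread Q (rc Lam w (t + 1))) (some (Q.p (i + 1))) = rc Lam w (t + 1) (i + 1) :=
          spread_path Q _ (i + 1) h1
        rw [e1]
        congr 2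
        show _ = onx (spread Q (rc Lam w (t + 1))) (Q.next (Q.p (i + 1)))
        rcases Nat.lt_or_ge (i + 2) n with h2 | h2
        · rw [Q.next_path (i + 1) h2]
          exact (spread_path Q _ (i + 2) h2).symm
        · rw [Q.next_last (i + 1) (by omega), rc_ge Lam w (t + 1) (i + 2) (by omega)]
          rfl
      · rw [Q.next_last i (by omega), rc_ge Lam w (t + 1) (i + 1) (by omega),
          rc_ge Lam w (t + 1) (i + 2) (by omega)]
        rfl
    · push Not at hg
      rw [spread_off Q _ g hg, Q.next_off g hg, hd0 g (hg t ht)]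
      show (0 : A) = Lam 0 + 0 + 0
      rw [map_zero, add_zero, add_zero]

/-- push on words: contents level -/
theorem spread_push (Lam : A →+ A) (w : A) (t : ℕ) (d' : τ → A)
    (hd : t + 1 < n → d' (Q.p (t + 1)) = w) (hd0 : ∀ g, (t + 1 < n → g ≠ Q.p (t + 1)) → d' g = 0) (g : τ) :
    spread Q (rc Lam w (t + 2)) g =
      Lam (spread Q (rc Lam w (t + 1)) g) + spread Q (rc Lam w t) g + d' g := by
  classical
  by_cases hg : ∃ i, i < n ∧ g = Q.p i
  · obtain ⟨i, hi, rfl⟩ := hg
    rw [spread_path Q _ i hi, spread_path Q _ i hi, spread_path Q _ i hi, rc_push]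
    congr 1
    by_cases hit : i = t + 1
    · subst hit
      rw [if_pos rfl, hd hi]
    · rw [if_neg hit]
      exact (hd0 _ fun h1 hc => hit (Q.inj i (t + 1) hi h1 hc)).symm
  · push Not at hg
    rw [spread_off Q _ g hg, spread_off Q _ g hg, spread_off Q _ g hg,
      hd0 g (fun h1 => hg (t + 1) h1), map_zero, add_zero, add_zero]

end path

/-! ### Hadamard record -/

section had
variable {p : ℕ} {A : Type*} [AddCommGroup A] [Module (ZMod p) A] {n : ℕ}

/-- shift up: `(S y)_{i+1} = y_i`, `(S y)_0 = 0` -/
def shiftU (y : Fin n → ZMod p) : Fin n → ZMod p :=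
  fun i => if h : 0 < i.1 then y ⟨i.1 - 1, by omega⟩ else 0

/-- the Hadamard record with contents `c` -/
def had (c : ℕ → A) (y : Fin n → ZMod p) : A := ∑ i : Fin n, y i • c i.1

theorem had_add (c : ℕ → A) (y z : Fin n → ZMod p) : had c (y + z) = had c y + had c z := by
  unfold had
  rw [← sum_add_distrib]
  refine sum_congr rfl fun i _ => ?_
  rw [Pi.add_apply, add_smul]

theorem had_single (c : ℕ → A) (i : Fin n) : had c (Pi.single i 1 : Fin n → ZMod p) = c i.1 := by
  classical
  unfold had
  rw [sum_eq_single i]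
  · rw [Pi.single_eq_same, one_smul]
  · intro j _ hj
    rw [Pi.single_eq_of_ne hj, zero_smul]
  · intro h
    exact absurd (mem_univ i) h

/-- `had c (S y) = Σ y_i c_{i+1}` when `c n = 0` -/
theorem had_shift (c : ℕ → A) (hc : c n = 0) (y : Fin n → ZMod p) :
    had c (shiftU y) = had (fun i => c (i + 1)) y := by
  classical
  unfold had
  cases n with
  | zero => rfl
  | succ m =>
    rw [Fin.sum_univ_succ, Fin.sum_univ_castSucc]
    have h0 : (shiftU y) 0 • c (0 : Fin (m + 1)).1 = 0 := by
      have : shiftU y 0 = 0 := by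
        unfold shiftU
        rw [dif_neg]
        simp
      rw [this, zero_smul]
    have h1 : y (Fin.last m) • c ((Fin.last m).1 + 1) = 0 := by
      rw [Fin.val_last, hc, smul_zero]
    rw [h0, h1, zero_add, add_zero]
    refine sum_congr rfl fun i _ => ?_
    have : shiftU y i.succ = y i.castSucc := by
      unfold shiftU
      rw [dif_pos (by simp)]
      congr 1
    rw [this]
    rfl

/-- **the pointwise relation determines the Hadamard record.**  `X` is `ZMod p`-linear
(`X = had c`), the marker is `D y = y_t`. -/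
theorem had_iff (Lam : A →ₗ[ZMod p] A) (w : A) (t : Fin n) (X : (Fin n → ZMod p) →ₗ[ZMod p] A) :
    (∀ y, X y = Lam (X (shiftU y)) + X (shiftU (shiftU y)) + y t • w) ↔
    ∀ y, X y = had (rc Lam.toAddMonoidHom w (t.1 + 1)) y := by
  classical
  -- contents
  let c : ℕ → A := fun i => if h : i < n then X (Pi.single ⟨i, h⟩ 1) else 0
  have hc0 : ∀ i, n ≤ i → c i = 0 := fun i hi => dif_neg (by omega)
  have hXc : ∀ y, X y = had c y := by
    intro y
    have hy : y = ∑ i : Fin n, y i • (Pi.single i 1 : Fin n → ZMod p) := by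
      funext j
      rw [Finset.sum_apply, sum_eq_single j]
      · simp
      · intro i _ hi
        rw [Pi.smul_apply, Pi.single_eq_of_ne (Ne.symm hi), smul_zero]
      · intro h
        exact absurd (mem_univ j) h
    conv_lhs => rw [hy]
    rw [map_sum]
    unfold had
    refine sum_congr rfl fun i _ => ?_
    rw [map_smul]
    congr 1
    show _ = (if h : i.1 < n then X (Pi.single ⟨i.1, h⟩ 1) else 0)
    rw [dif_pos i.2]
  have hshift : ∀ y : Fin n → ZMod p, had c (shiftU y) = had (fun i => c (i + 1)) y :=
    had_shift c (hc0 n le_rfl)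
  have hshift2 : ∀ y : Fin n → ZMod p,
      had c (shiftU (shiftU y)) = had (fun i => c (i + 2)) y := by
    intro y
    rw [hshift, had_shift (fun i => c (i + 1)) (hc0 (n + 1) (by omega))]
  have hLamS : ∀ y : Fin n → ZMod p,
      Lam (had c (shiftU y)) = had (fun i => Lam (c (i + 1))) y := by
    intro y
    rw [hshift]
    unfold had
    rw [map_sum]
    exact sum_congr rfl fun i _ => by rw [map_smul]
  have hRHS : ∀ y : Fin n → ZMod p, Lam (had c (shiftU y)) + had c (shiftU (shiftU y)) + y t • w =
      had (fun i => Lam (c (i + 1)) + c (i + 2) + (if i = t.1 then w else 0)) y := by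
    intro y
    rw [hLamS, hshift2]
    unfold had
    have ht : y t • w = ∑ i : Fin n, y i • (if i.1 = t.1 then w else 0) := by
      rw [sum_eq_single t]
      · rw [if_pos rfl]
      · intro i _ hi
        rw [if_neg fun h => hi (Fin.ext h), smul_zero]
      · intro h
        exact absurd (mem_univ t) h
    rw [ht, ← sum_add_distrib, ← sum_add_distrib]
    exact sum_congr rfl fun i _ => by rw [smul_add, smul_add]
  have hcrel : (∀ y, X y = Lam (X (shiftU y)) + X (shiftU (shiftU y)) + y t • w) ↔
      ∀ i, i < n → c i = Lam (c (i + 1)) + c (i + 2) + (if i = t.1 then w else 0) := by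
    constructor
    · intro h i hi
      have h1 := h (Pi.single ⟨i, hi⟩ 1)
      rw [hXc, hXc (shiftU _), hXc (shiftU (shiftU _)), hRHS, had_single, had_single] at h1
      exact h1
    · intro h y
      rw [hXc, hXc (shiftU y), hXc (shiftU (shiftU y)), hRHS]
      unfold had
      exact sum_congr rfl fun i _ => congrArg (fun a => y i • a) (h i.1 i.2)
  rw [hcrel]
  have hu := rel_iff Lam.toAddMonoidHom w n t.1 t.2 c
  constructor
  · intro h y
    have := hu.1 ⟨hc0, h⟩
    rw [hXc]
    unfold had
    exact sum_congr rfl fun i _ => by rw [this]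
  · intro h
    have hc : ∀ i, c i = rc Lam.toAddMonoidHom w (t.1 + 1) i := by
      intro i
      by_cases hi : i < n
      · show (if h : i < n then X (Pi.single ⟨i, h⟩ 1) else 0) = _
        rw [dif_pos hi, h, had_single]
      · rw [hc0 i (by omega), rc_ge _ _ _ _ (by omega)]
    exact (hu.2 hc).2

/-- push of the Hadamard record -/
theorem had_push (Lam : A →ₗ[ZMod p] A) (w : A) (t : ℕ) (y : Fin n → ZMod p) :
    had (rc Lam.toAddMonoidHom w (t + 2)) y =
      Lam (had (rc Lam.toAddMonoidHom w (t + 1)) y) + had (rc Lam.toAddMonoidHom w t) y +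
        (if h : t + 1 < n then y ⟨t + 1, h⟩ • w else 0) := by
  classical
  have hlast : (if h : t + 1 < n then y ⟨t + 1, h⟩ • w else 0) =
      ∑ i : Fin n, y i • (if i.1 = t + 1 then w else 0) := by
    by_cases h : t + 1 < n
    · rw [dif_pos h, sum_eq_single ⟨t + 1, h⟩]
      · rw [if_pos rfl]
      · intro i _ hi
        rw [if_neg fun h' => hi (Fin.ext h'), smul_zero]
      · intro h'
        exact absurd (mem_univ _) h'
    · rw [dif_neg h]
      refine (sum_eq_zero fun i _ => ?_).symm
      rw [if_neg (by omega), smul_zero]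
  rw [hlast]
  unfold had
  rw [map_sum, ← sum_add_distrib, ← sum_add_distrib]
  refine sum_congr rfl fun i _ => ?_
  rw [map_smul, rc_push, smul_add, smul_add]
  rfl

/-- the Hadamard record of the vector of all layers vanishes identically iff all layers vanish -/
theorem had_eq_zero_iff (c : ℕ → A) :
    (∀ y : Fin n → ZMod p, had c y = 0) ↔ ∀ i, i < n → c i = 0 := by
  constructor
  · intro h i hi
    have := h (Pi.single ⟨i, hi⟩ 1)
    rw [had_single] at this
    exact this
  · intro h y
    unfold had
    exact sum_eq_zero fun i _ => by rw [h i.1 i.2, smul_zero]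

end had

/-! ### zero test -/

section zerotest
variable {P M : Type*} [Fintype P] [AddCommGroup M]

/-- content level of the zero test: a function which is non-zero at one place has a layer
of the full record (length `n ≥ log2 th + 2`) with more than `th` non-zero values -/
theorem rc_spread (Lam : (P → M) →+ (P → M)) (th n : ℕ) (hn : Nat.log 2 th + 2 ≤ n)
    (hg : ∀ f : P → M, f ≠ 0 → (supp f).card ≤ th → 3 * (supp f).card ≤ (supp (Lam f)).card)
    (w : P → M) (hw : w ≠ 0) :
    ∃ i, i < n ∧ th < (supp (rc Lam w n i)).card := by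
  obtain ⟨j, hj, h⟩ := growth Lam th hg w hw
  refine ⟨n - 1 - j, by omega, ?_⟩
  rw [rc_full Lam w n j (by omega)]
  exact h

end zerotest

/-! ### growth with a parameter: factor `m + 1` for the operator gives factor `m` for the cascade -/

section growthG
variable {P M : Type*} [Fintype P] [AddCommGroup M]

/-- **Growth of the second order cascade, parameter form**: if `Lam` multiplies supports of size
`≤ th` by `m + 1`, some layer `j ≤ log_m th + 1` has more than `th` non-zero values. -/
theorem growthG (Lam : (P → M) →+ (P → M)) (th m : ℕ) (hm : 2 ≤ m)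
    (hg : ∀ f : P → M, f ≠ 0 → (supp f).card ≤ th →
      (m + 1) * (supp f).card ≤ (supp (Lam f)).card)
    (w : P → M) (hw : w ≠ 0) :
    ∃ j, j ≤ Nat.log m th + 1 ∧ th < (supp (ys Lam w j)).card := by
  classical
  by_contra H
  push Not at H
  set J := Nat.log m th + 1 with hJ
  have key : ∀ j, j ≤ J → (m ^ j ≤ (supp (ys Lam w j)).card ∧
      m * (supp (ys Lam w j)).card ≤ (supp (ys Lam w (j + 1))).card) := by
    intro j
    induction j with
    | zero =>
      intro _
      have h0 := supp_card_pos w hw
      have h1 := hg w hw (H 0 (Nat.zero_le _))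
      refine ⟨?_, ?_⟩
      · rw [pow_zero]
        exact h0
      · show m * (supp w).card ≤ (supp (Lam w)).card
        rw [Nat.add_mul, one_mul] at h1
        omega
    | succ j ih =>
      intro hj
      obtain ⟨h1, h2⟩ := ih (by omega)
      have h3 : m ^ (j + 1) ≤ (supp (ys Lam w (j + 1))).card := by
        rw [pow_succ, Nat.mul_comm]
        exact le_trans (Nat.mul_le_mul_left m h1) h2
      refine ⟨h3, ?_⟩
      have hne : ys Lam w (j + 1) ≠ 0 := by
        intro h0
        have h6 : (supp (ys Lam w (j + 1))).card = 0 := by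
          rw [h0, card_eq_zero]
          ext x
          simp [mem_supp]
        have hp : 0 < m ^ (j + 1) := Nat.pow_pos (by omega)
        omega
      have h4 := hg _ hne (H (j + 1) hj)
      have h5 := supp_card_le_add (Lam (ys Lam w (j + 1))) (ys Lam w j)
      rw [← ys_succ_succ] at h5
      show m * (supp (ys Lam w (j + 1))).card ≤ (supp (ys Lam w (j + 2))).card
      have h7 : (supp (ys Lam w j)).card ≤ (supp (ys Lam w (j + 1))).card :=
        le_trans (Nat.le_mul_of_pos_left _ (by omega)) h2
      rw [Nat.add_mul, one_mul] at h4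
      omega
  have h1 := (key J le_rfl).1
  have h2 := H J le_rfl
  have h3 : th < m ^ J := Nat.lt_pow_succ_log_self (by omega) th
  omega

/-- content level of the zero test, parameter form: record length `n ≥ log_m th + 2` -/
theorem rc_spreadG (Lam : (P → M) →+ (P → M)) (th n m : ℕ) (hm : 2 ≤ m)
    (hn : Nat.log m th + 2 ≤ n)
    (hg : ∀ f : P → M, f ≠ 0 → (supp f).card ≤ th →
      (m + 1) * (supp f).card ≤ (supp (Lam f)).card)
    (w : P → M) (hw : w ≠ 0) :
    ∃ i, i < n ∧ th < (supp (rc Lam w n i)).card := by
  obtain ⟨j, hj, h⟩ := growthG Lam th m hm hg w hw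
  refine ⟨n - 1 - j, by omega, ?_⟩
  rw [rc_full Lam w n j (by omega)]
  exact h

end growthG

end Crest.Agent.R289.RevChain123
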