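import Mathlib
import Crest.Agent.R289.DefD_721
import Crest.Agent.R289.LCa_72
import Crest.Agent.R289.Mirror_545
import Crest.Agent.R289.RevChain_123

/-!
Row 289, leaf C_GAP: gap form of the static relations of a bank (hypothesis `gap` of
`Word508.CAx.restrict`).  Units `U = P × T`, symbols of a unit `Sg × St`, content symbols
`σ0 : Sg`, `t0 : St`.

* `UDist C d`       : a non-zero word of `C` is non-zero at `≥ d` of the units;
* `udist_bundle`    : the same for bundles (values in any `K`-module);
* `udist_tens`      : the same for words with rows in `CP` and columns in `CT` (`dP * dT`);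
* `identity_gap`    : two such words equal on more than `1 - dP dT` of the units are equal;
* `mirror_gap`      : zero test on `H_T` by mirror words: gap `dP * dV`;
* `record_gap`      : zero test on `H_P` by the full record: gap `th/|P| * dV`.
-/

set_option autoImplicit false
set_option linter.unusedSectionVars false

namespace Crest.Agent.R289.Gap731

open Finset Crest.Agent.R289.DefD Crest.Agent.R289.LCa72

/-! ### distance on units -/

section dist
variable {K : Type} [Field K] {P Sg : Type} [Fintype P]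

/-- a non-zero word of `C` is non-zero at `≥ d` of the units -/
def UDist {X : Type} [Zero X] (C : Set (P → X)) (d : ℝ) : Prop :=
  ∀ f ∈ C, f ≠ 0 → d ≤ frac (fun p => f p ≠ 0)

/-- bundle of words of `C`: values in a `K`-module `M` -/
def InB (C : Submodule K (P → Sg → K)) {M : Type} [AddCommGroup M] [Module K M]
    (f : P → Sg → M) : Prop :=
  ∀ φ : Module.Dual K M, (fun p s => φ (f p s)) ∈ C

theorem exists_dual {M : Type} [AddCommGroup M] [Module K M] {x : M} (hx : x ≠ 0) :
    ∃ φ : Module.Dual K M, φ x ≠ 0 := by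
  by_contra hcon
  push Not at hcon
  exact hx ((Module.forall_dual_apply_eq_zero_iff K x).1 hcon)

theorem udist_bundle {C : Submodule K (P → Sg → K)} {d : ℝ}
    (h : UDist (C : Set (P → Sg → K)) d) {M : Type} [AddCommGroup M] [Module K M]
    {f : P → Sg → M} (hf : InB C f) (hne : f ≠ 0) : d ≤ frac (fun p => f p ≠ 0) := by
  have : ∃ p s, f p s ≠ 0 := by
    by_contra hcon
    push Not at hcon
    exact hne (by funext p s; exact hcon p s)
  obtain ⟨p, s, hps⟩ := this
  obtain ⟨φ, hφ⟩ := exists_dual (K := K) hps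
  have h1 := h _ (hf φ) (fun h0 => hφ (congrFun (congrFun h0 p) s))
  refine h1.trans (frac_mono fun q hq hq' => hq ?_)
  funext s
  rw [hq']
  simp

theorem udist_eq {C : Submodule K (P → Sg → K)} {d : ℝ}
    (h : UDist (C : Set (P → Sg → K)) d) {M : Type} [AddCommGroup M] [Module K M]
    {f g : P → Sg → M} (hf : InB C f) (hg : InB C g)
    (hd : frac (fun p => f p ≠ g p) < d) : f = g := by
  by_contra hne
  have hsub : InB C (f - g) := fun φ => by
    have := C.sub_mem (hf φ) (hg φ)
    have e : (fun p s => φ ((f - g) p s)) = (fun p s => φ (f p s)) - fun p s => φ (g p s) := by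
      funext p s; simp
    rw [e]; exact this
  have h1 := udist_bundle h hsub (sub_ne_zero.2 hne)
  have h2 : frac (fun p => (f - g) p ≠ 0) ≤ frac (fun p => f p ≠ g p) :=
    frac_mono fun p hp hp' => hp (by simp [hp'])
  linarith

end dist

/-! ### products -/

section prod
variable {K : Type} [Field K] {P T Sg St : Type} [Fintype P] [Fintype T] [Nonempty P]

/-- rows in `CP`, columns in `CT` -/
structure InT (CP : Submodule K (P → Sg → K)) (CT : Submodule K (T → St → K))
    {M : Type} [AddCommGroup M] [Module K M] (F : P × T → Sg → St → M) : Prop where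
  row : ∀ τ t, InB CP (fun p s => F (p, τ) s t)
  col : ∀ p s, InB CT (fun τ t => F (p, τ) s t)

variable {CP : Submodule K (P → Sg → K)} {CT : Submodule K (T → St → K)}

theorem InT.sub {M : Type} [AddCommGroup M] [Module K M] {F G : P × T → Sg → St → M}
    (hF : InT CP CT F) (hG : InT CP CT G) : InT CP CT (F - G) where
  row τ t := fun φ => by
    have := CP.sub_mem (hF.row τ t φ) (hG.row τ t φ)
    have e : (fun p s => φ ((F - G) (p, τ) s t))
        = (fun p s => φ (F (p, τ) s t)) - fun p s => φ (G (p, τ) s t) := by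
      funext p s; simp
    rw [e]; exact this
  col p s := fun φ => by
    have := CT.sub_mem (hF.col p s φ) (hG.col p s φ)
    have e : (fun τ t => φ ((F - G) (p, τ) s t))
        = (fun τ t => φ (F (p, τ) s t)) - fun τ t => φ (G (p, τ) s t) := by
      funext τ t; simp
    rw [e]; exact this

theorem udist_tens {dP dT : ℝ} (hP : UDist (CP : Set (P → Sg → K)) dP)
    (hT : UDist (CT : Set (T → St → K)) dT) (hT0 : 0 ≤ dT) {M : Type} [AddCommGroup M]
    [Module K M] {F : P × T → Sg → St → M} (hF : InT CP CT F) (hne : F ≠ 0) :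
    dT * dP ≤ frac (fun u => F u ≠ 0) := by
  have : ∃ p τ s t, F (p, τ) s t ≠ 0 := by
    by_contra hcon
    push Not at hcon
    exact hne (by funext ⟨p, τ⟩ s t; exact hcon p τ s t)
  obtain ⟨p, τ, s, t, h0⟩ := this
  have h1 := udist_bundle hP (hF.row τ t) (fun h => h0 (congrFun (congrFun h p) s))
  have h2 := mul_le_frac_prod (p := fun u : P × T => F u ≠ 0)
    (q := fun p => (fun s => F (p, τ) s t) ≠ 0) (c := dT) (by
      intro q hq
      obtain ⟨s', hs'⟩ := Function.ne_iff.1 hq
      have h3 := udist_bundle hT (hF.col q s')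
        (fun h => hs' (by simpa using congrFun (congrFun h τ) t))
      refine h3.trans (frac_mono fun y hy hy' => hy ?_)
      funext t
      rw [hy']
      rfl)
  exact (mul_le_mul_of_nonneg_left h1 hT0).trans h2

/-- two words of the product code that agree on more than `1 - dP dT` of the units are equal -/
theorem identity_gap {dP dT : ℝ} (hP : UDist (CP : Set (P → Sg → K)) dP)
    (hT : UDist (CT : Set (T → St → K)) dT) (hT0 : 0 ≤ dT) {M : Type} [AddCommGroup M]
    [Module K M] {F G : P × T → Sg → St → M} (hF : InT CP CT F) (hG : InT CP CT G)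
    (hd : frac (fun u => F u ≠ G u) < dT * dP) : F = G := by
  by_contra hne
  have h1 := udist_tens hP hT hT0 (hF.sub hG) (sub_ne_zero.2 hne)
  have h2 : frac (fun u => (F - G) u ≠ 0) ≤ frac (fun u => F u ≠ G u) :=
    frac_mono fun p hp hp' => hp (by simp [hp'])
  linarith

end prod

/-! ### the zero test on `H_T` by mirror words -/

section mirror
open Crest.Agent.R289.Mirror545

variable {K : Type} [Field K] {P T Sg S ι J : Type} [Fintype P] [Nonempty P] [Group T]
  [Fintype T] [Fintype S] [DecidableEq S] [Fintype ι] [Fintype J]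

/-- unit form of `Mirror545.mir_dense` -/
theorem mir_unit_dense (s0 : S) (α : ι → S → J → K) (B : {s : S // s ≠ s0} → ι → K)
    (hB : IsP s0 α B) (γ : J → T) {L : ℕ} (hL : AugNil322.J K T ^ L = ⊥)
    (hsurj : ∀ c : T → K, ∃ f : T → S → K, InV α γ f ∧ ∀ g, f g s0 = c g) {dV : ℝ}
    (hd : ∀ f : T → S → K, InV α γ f → f ≠ 0 → dV ≤ frac (fun g => f g ≠ 0))
    {M : Type} [AddCommGroup M] [Module K M]
    {q : T → M} {U : {s : S // s ≠ s0} → T → M} (h : MirRel s0 (bet s0 α B) γ q U)
    (hq : ∃ g, q g ≠ 0) : dV ≤ frac (fun g => q g ≠ 0 ∨ ∃ s, U s g ≠ 0) := by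
  obtain ⟨g0, hg0⟩ := hq
  obtain ⟨φ, hφ⟩ := exists_dual (K := K) hg0
  have hmap := h.map φ
  have hV := mir_word s0 α B hB γ hL hsurj hmap
  have hne : (fun (g : T) s =>
      Mirror545.ext s0 (fun g => φ (q g)) (fun s g => φ (U s g)) s g⁻¹) ≠ 0 := by
    intro h0
    have := congrFun (congrFun h0 g0⁻¹) s0
    simp only [ext_s0, inv_inv, Pi.zero_apply] at this
    exact hφ this
  have h1 := hd _ hV hne
  refine h1.trans ?_
  rw [← frac_equiv (Equiv.inv T) (fun g => q g ≠ 0 ∨ ∃ s, U s g ≠ 0)]
  refine frac_mono fun g hg => ?_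
  obtain ⟨s, hs⟩ := Function.ne_iff.1 hg
  rw [Equiv.inv_apply]
  by_cases h0 : s = s0
  · left
    intro h2
    apply hs
    subst h0
    show Mirror545.ext s (fun g => φ (q g)) (fun s g => φ (U s g)) s g⁻¹ = 0
    rw [ext_s0, h2, map_zero]
  · right
    refine ⟨⟨s, h0⟩, fun h2 => hs ?_⟩
    show Mirror545.ext s0 (fun g => φ (q g)) (fun s g => φ (U s g)) s g⁻¹ = 0
    unfold Mirror545.ext
    rw [dif_neg h0]
    show φ (U ⟨s, h0⟩ g⁻¹) = 0
    rw [h2, map_zero]

/-- **(g2) mirror gap**: `q τ` = the `P`-words read at the content symbol of the `T`-unit `τ`,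
`U` their mirror words.  If the content is not zero at one `τ`, at least `dV * dP` of the units
`(p, τ)` see a non-zero symbol. -/
theorem mirror_gap {CP : Submodule K (P → Sg → K)} {dP dV : ℝ}
    (hP : UDist (CP : Set (P → Sg → K)) dP) (hV0 : 0 ≤ dV)
    (s0 : S) (α : ι → S → J → K) (B : {s : S // s ≠ s0} → ι → K)
    (hB : IsP s0 α B) (γ : J → T) {L : ℕ} (hL : AugNil322.J K T ^ L = ⊥)
    (hsurj : ∀ c : T → K, ∃ f : T → S → K, InV α γ f ∧ ∀ g, f g s0 = c g)
    (hd : ∀ f : T → S → K, InV α γ f → f ≠ 0 → dV ≤ frac (fun g => f g ≠ 0))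
    {M : Type} [AddCommGroup M] [Module K M]
    {q : T → P → Sg → M} {U : {s : S // s ≠ s0} → T → P → Sg → M}
    (hq : ∀ τ, InB CP (q τ)) (h : MirRel s0 (bet s0 α B) γ q U) (hne : ∃ τ, q τ ≠ 0) :
    dV * dP ≤ frac (fun u : P × T => q u.2 u.1 ≠ 0 ∨ ∃ s, U s u.2 u.1 ≠ 0) := by
  obtain ⟨τ0, h0⟩ := hne
  have h1 := udist_bundle hP (hq τ0) h0
  have h2 := mul_le_frac_prod
    (p := fun u : P × T => q u.2 u.1 ≠ 0 ∨ ∃ s, U s u.2 u.1 ≠ 0)
    (q := fun p => q τ0 p ≠ 0) (c := dV) (by
      intro p hp
      have hm := h.map (LinearMap.proj (R := K) (φ := fun _ : P => Sg → M) p)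
      exact mir_unit_dense s0 α B hB γ hL hsurj hd hm ⟨τ0, hp⟩)
  exact (mul_le_mul_of_nonneg_left h1 hV0).trans h2

end mirror

/-! ### the zero test on `H_P` by the full record -/

section record
open Crest.Agent.R289.RevChain123

variable {K : Type} [Field K] {P T St : Type} [Fintype P] [Nonempty P] [Fintype T]

/-- **(g3) record gap**: `X` = the record read at the content symbol of the `P`-unit (so
`X p : T → St → M` is a bundle of `T`-words), contents `rc Lam w n` along the path `pos`.
If `w ≠ 0`, at least `dV * th / |P|` of the units `(p, τ)` see a non-zero symbol. -/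
theorem record_gap {M : Type} [AddCommGroup M] [Module K M]
    {CV : Submodule K (T → St → K)} {dV : ℝ} (hV : UDist (CV : Set (T → St → K)) dV)
    (hV0 : 0 ≤ dV) (t0 : St) (pos : ℕ → T)
    (Lam : (P → M) →+ (P → M)) (th n m : ℕ) (hm : 2 ≤ m) (hn : Nat.log m th + 2 ≤ n)
    (hg : ∀ f : P → M, f ≠ 0 → (supp f).card ≤ th →
      (m + 1) * (supp f).card ≤ (supp (Lam f)).card)
    (w : P → M) (hw : w ≠ 0) (X : P × T → St → M)
    (hX : ∀ p, InB CV (fun τ t => X (p, τ) t))
    (hc : ∀ i, i < n → ∀ p, X (p, pos i) t0 = rc Lam w n i p) :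
    dV * ((th : ℝ) / Fintype.card P) ≤ frac (fun u : P × T => X u ≠ 0) := by
  classical
  obtain ⟨i, hi, hth⟩ := rc_spreadG Lam th n m hm hn hg w hw
  have h1 : (th : ℝ) / Fintype.card P ≤ frac (fun p => rc Lam w n i p ≠ 0) := by
    unfold frac
    apply div_le_div_of_nonneg_right _ (Nat.cast_nonneg _)
    have : (supp (rc Lam w n i)).card = (univ.filter fun p => rc Lam w n i p ≠ 0).card := by
      rfl
    rw [this] at hth
    exact_mod_cast hth.le
  have h2 := mul_le_frac_prod (p := fun u : P × T => X u ≠ 0)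
    (q := fun p => rc Lam w n i p ≠ 0) (c := dV) (by
      intro p hp
      have hne : (fun τ t => X (p, τ) t) ≠ 0 := fun h => hp (by
        rw [← hc i hi p]; exact congrFun (congrFun h (pos i)) t0)
      exact udist_bundle hV (hX p) hne)
  exact (mul_le_mul_of_nonneg_left h1 hV0).trans h2

end record

end Crest.Agent.R289.Gap731
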