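import Mathlib
import Crest.Agent.R289.Gap_731
import Crest.Agent.R289.Level_492

/-!
Row 289, leaf C_GAP, part 2: the gaps of the bank relations in the form of #6137:
words of the product code are `F : T × S' → Ω → G × S → K` (`Ω` = index of the bundle); a unit is
`u = (g, τ) : G × T`, its label `fun k s s' => F (τ, s') k (g, s)`.
-/

set_option autoImplicit false
set_option linter.unusedSectionVars false

namespace Crest.Agent.R289.Gap731

open Finset Crest.Agent.R289.DefD Crest.Agent.R289.LCa72 Crest.Agent.R289.Level492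

/-! ### sequential gaps -/

/-- SEQUENTIAL GAP: if every relation is dense as soon as it fails somewhere and all relations of
smaller rank hold everywhere, then one relation fails on `≥ g` of the units or all hold. -/
theorem seq_gap {J U : Type} [Fintype U] (rk : J → ℕ) (R : J → U → Prop) {g : ℝ}
    (h : ∀ j, (∀ j', rk j' < rk j → ∀ u, R j' u) → (∃ u, ¬ R j u) → g ≤ frac fun u => ¬ R j u)
    (hne : ¬ ∀ j u, R j u) : ∃ j, g ≤ frac fun u => ¬ R j u := by
  classical
  have hex : ∃ n, ∃ j, rk j = n ∧ ∃ u, ¬ R j u := by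
    push Not at hne
    obtain ⟨j, u, hu⟩ := hne
    exact ⟨_, j, rfl, u, hu⟩
  obtain ⟨j, hj, hu⟩ := Nat.find_spec hex
  refine ⟨j, h j (fun j' hj' u => ?_) hu⟩
  by_contra hcon
  exact Nat.find_min hex (by rw [← hj]; exact hj') ⟨j', rfl, u, hcon⟩

/-- the same, contrapositive form -/
theorem seq_gap' {J U : Type} [Fintype U] (rk : J → ℕ) (R : J → U → Prop) {g : ℝ}
    (h : ∀ j, (∀ j', rk j' < rk j → ∀ u, R j' u) → (frac fun u => ¬ R j u) < g → ∀ u, R j u)
    (hne : ¬ ∀ j u, R j u) : ∃ j, g ≤ frac fun u => ¬ R j u := by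
  refine seq_gap rk R (fun j hj hu => ?_) hne
  by_contra hcon
  push Not at hcon
  obtain ⟨u, hu⟩ := hu
  exact hu (h j hj hcon u)

section forms
variable {K : Type} [Field K] {G T S S' Ω : Type} [Fintype G] [Fintype T] [Nonempty G]

/-- distance in units of a code of words `G × S → K` -/
def UD (C : Set (G × S → K)) (d : ℝ) : Prop :=
  ∀ f ∈ C, f ≠ 0 → d ≤ frac fun g => ∃ s, f (g, s) ≠ 0

/-- curried code -/
def cur (C : Submodule K (G × S → K)) : Submodule K (G → S → K) :=
  C.comap (LinearEquiv.curry K K G S).symm.toLinearMap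

theorem mem_cur (C : Submodule K (G × S → K)) (f : G → S → K) :
    f ∈ cur C ↔ (fun x : G × S => f x.1 x.2) ∈ C := by
  rfl

theorem udist_cur {C : Submodule K (G × S → K)} {d : ℝ} (h : UD (C : Set (G × S → K)) d) :
    UDist (cur C : Set (G → S → K)) d := by
  intro f hf hne
  have hne' : (fun x : G × S => f x.1 x.2) ≠ 0 := by
    intro h0
    apply hne
    funext g s
    exact congrFun h0 (g, s)
  refine (h _ hf hne').trans (frac_mono ?_)
  rintro g ⟨s, hs⟩ h0
  exact hs (congrFun h0 s)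

/-- bundle words of the `G`-code -/
def GW (CG : Submodule K (G × S → K)) (w : Ω → G × S → K) : Prop := ∀ k, w k ∈ CG

/-- product words: rows in `CG`, columns in `CT` -/
structure PW (CG : Submodule K (G × S → K)) (CT : Submodule K (T × S' → K))
    (F : T × S' → Ω → G × S → K) : Prop where
  row : ∀ x k, F x k ∈ CG
  col : ∀ k y, (fun x => F x k y) ∈ CT

variable {CG : Submodule K (G × S → K)} {CT : Submodule K (T × S' → K)}

theorem PW.sub {F F' : T × S' → Ω → G × S → K} (h : PW CG CT F) (h' : PW CG CT F') :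
    PW CG CT (F - F') where
  row x k := CG.sub_mem (h.row x k) (h'.row x k)
  col k y := CT.sub_mem (h.col k y) (h'.col k y)

theorem PW.add {F F' : T × S' → Ω → G × S → K} (h : PW CG CT F) (h' : PW CG CT F') :
    PW CG CT (F + F') where
  row x k := CG.add_mem (h.row x k) (h'.row x k)
  col k y := CT.add_mem (h.col k y) (h'.col k y)

theorem PW.neg {F : T × S' → Ω → G × S → K} (h : PW CG CT F) : PW CG CT (-F) where
  row x k := CG.neg_mem (h.row x k)
  col k y := CT.neg_mem (h.col k y)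

theorem PW.zero : PW CG CT (0 : T × S' → Ω → G × S → K) where
  row _ _ := CG.zero_mem
  col _ _ := CT.zero_mem

theorem PW.smul {F : T × S' → Ω → G × S → K} (c : K) (h : PW CG CT F) : PW CG CT (c • F) where
  row x k := CG.smul_mem c (h.row x k)
  col k y := CT.smul_mem c (h.col k y)

theorem PW.sum {ι : Type} (s : Finset ι) {F : ι → T × S' → Ω → G × S → K}
    (h : ∀ i ∈ s, PW CG CT (F i)) : PW CG CT (∑ i ∈ s, F i) := by
  classical
  induction s using Finset.induction_on with
  | empty => rw [sum_empty]; exact PW.zero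
  | insert a s ha ih =>
    rw [sum_insert ha]
    exact (h a (mem_insert_self a s)).add (ih fun i hi => h i (mem_insert_of_mem hi))

/-- a non-zero product word is non-zero at `dT * dG` of the units -/
theorem pw_dist {dG dT : ℝ} (hG : UD (CG : Set (G × S → K)) dG)
    (hT : UD (CT : Set (T × S' → K)) dT) (hT0 : 0 ≤ dT) {F : T × S' → Ω → G × S → K}
    (hF : PW CG CT F) (hne : F ≠ 0) :
    dT * dG ≤ frac fun u : G × T => ∃ k s s', F (u.2, s') k (u.1, s) ≠ 0 := by
  obtain ⟨x, hx⟩ := Function.ne_iff.1 hne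
  obtain ⟨k, hk⟩ := Function.ne_iff.1 hx
  have h1 := hG _ (hF.row x k) hk
  have h2 := mul_le_frac_prod (p := fun u : G × T => ∃ k s s', F (u.2, s') k (u.1, s) ≠ 0)
    (q := fun g => ∃ s, F x k (g, s) ≠ 0) (c := dT) (by
      rintro g ⟨s, hs⟩
      have hne' : (fun y => F y k (g, s)) ≠ 0 := fun h0 => hs (congrFun h0 x)
      refine (hT _ (hF.col k (g, s)) hne').trans (frac_mono ?_)
      rintro τ ⟨s', hs'⟩
      exact ⟨k, s, s', hs'⟩)
  exact (mul_le_mul_of_nonneg_left h1 hT0).trans h2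

/-- **(g1) identity of product words** -/
theorem pw_eq {dG dT : ℝ} (hG : UD (CG : Set (G × S → K)) dG)
    (hT : UD (CT : Set (T × S' → K)) dT) (hT0 : 0 ≤ dT) {F F' : T × S' → Ω → G × S → K}
    (hF : PW CG CT F) (hF' : PW CG CT F')
    (h : (frac fun u : G × T => ¬ ∀ k s s', F (u.2, s') k (u.1, s) = F' (u.2, s') k (u.1, s))
      < dT * dG) : F = F' := by
  by_contra hne
  have h1 := pw_dist hG hT hT0 (hF.sub hF') (sub_ne_zero.2 hne)
  refine absurd (h1.trans (frac_mono ?_)) (not_le.2 h)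
  rintro u ⟨k, s, s', hk⟩ hu
  exact hk (by
    show F _ _ _ - F' _ _ _ = 0
    rw [hu k s s', sub_self])

/-- fraction of a condition on the first coordinate -/
theorem frac_fst [Nonempty T] (p : G → Prop) : (frac fun u : G × T => p u.1) = frac p := by
  classical
  unfold frac
  have h1 : (univ.filter fun u : G × T => p u.1) = (univ.filter p) ×ˢ (univ : Finset T) := by
    ext ⟨a, b⟩; simp
  rw [h1, card_product, Fintype.card_prod, card_univ]
  push_cast
  have : (Fintype.card T : ℝ) ≠ 0 := by exact_mod_cast Fintype.card_ne_zero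
  rw [mul_div_mul_right _ _ this]

/-- fraction of a condition on the second coordinate -/
theorem frac_snd (p : T → Prop) : (frac fun u : G × T => p u.2) = frac p := by
  classical
  unfold frac
  have h1 : (univ.filter fun u : G × T => p u.2) = (univ : Finset G) ×ˢ (univ.filter p) := by
    ext ⟨a, b⟩; simp
  rw [h1, card_product, Fintype.card_prod, card_univ]
  push_cast
  have : (Fintype.card G : ℝ) ≠ 0 := by exact_mod_cast Fintype.card_ne_zero
  rw [mul_div_mul_left _ _ this]

/-- **(g1') identity of words that do not depend on `τ`** -/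
theorem gw_eq [Nonempty T] {dG : ℝ} (hG : UD (CG : Set (G × S → K)) dG)
    {x x' : Ω → G × S → K} (hx : GW CG x) (hx' : GW CG x')
    (h : (frac fun u : G × T => ¬ ∀ k s, x k (u.1, s) = x' k (u.1, s)) < dG) : x = x' := by
  by_contra hne
  obtain ⟨k, hk⟩ := Function.ne_iff.1 hne
  have h1 := hG _ (CG.sub_mem (hx k) (hx' k)) (sub_ne_zero.2 hk)
  rw [frac_fst (T := T) fun g => ¬ ∀ k s, x k (g, s) = x' k (g, s)] at h
  refine absurd (h1.trans (frac_mono ?_)) (not_le.2 h)
  rintro g ⟨s, hs⟩ hu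
  exact hs (by
    show x k (g, s) - x' k (g, s) = 0
    rw [hu k s, sub_self])

end forms

/-! ### mirror test -/

section mirror
open Crest.Agent.R289.Mirror545

variable {K : Type} [Field K] {G T S S' ι J Ω : Type} [Fintype G] [Nonempty G] [Group T]
  [Fintype T] [Fintype S'] [DecidableEq S'] [Fintype ι] [Fintype J]
  {CG : Submodule K (G × S → K)}

/-- **(g2) the zero test on `H_T`**: `Q`, `C` words with values in the `G`-bundles, the mirror
relation holds; if all content symbols of `Q` and `C` vanish at more than `1 - dV dG` of the units,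
then the content of `Q` is zero -/
theorem pw_mir {dG dV : ℝ} (hG : UD (CG : Set (G × S → K)) dG) (hV0 : 0 ≤ dV)
    (s0 : S') (α : ι → S' → J → K) (B : {s : S' // s ≠ s0} → ι → K)
    (hB : IsP s0 α B) (γ : J → T) {L : ℕ} (hL : AugNil322.J K T ^ L = ⊥)
    (hsurj : ∀ c : T → K, ∃ f : T → S' → K, InV α γ f ∧ ∀ g, f g s0 = c g)
    (hd : ∀ f : T → S' → K, InV α γ f → f ≠ 0 → dV ≤ frac (fun g => f g ≠ 0))
    {Q : T × S' → Ω → G × S → K} {C : {s : S' // s ≠ s0} → T × S' → Ω → G × S → K}
    (hQ : ∀ τ k, Q (τ, s0) k ∈ CG)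
    (h : MirRel s0 (bet s0 α B) γ (fun τ s' => Q (τ, s')) (fun c τ s' => C c (τ, s')))
    (hz : (frac fun u : G × T => ¬ ((∀ k s, Q (u.2, s0) k (u.1, s) = 0) ∧
      ∀ c k s, C c (u.2, s0) k (u.1, s) = 0)) < dV * dG) : ∀ τ, Q (τ, s0) = 0 := by
  classical
  by_contra hcon
  push Not at hcon
  obtain ⟨τ0, h0⟩ := hcon
  have h1 : MirRel s0 (bet s0 α B) γ (fun τ (g : G) (ks : Ω × S) => Q (τ, s0) ks.1 (g, ks.2))
      (fun c τ (g : G) (ks : Ω × S) => C c (τ, s0) ks.1 (g, ks.2)) := by
    let φ : (S' → Ω → G × S → K) →ₗ[K] (G → Ω × S → K) :=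
      { toFun := fun f g ks => f s0 ks.1 (g, ks.2)
        map_add' := fun _ _ => rfl
        map_smul' := fun _ _ => rfl }
    exact h.map φ
  have h2 := fun g0 : G => h1.map (LinearMap.proj (R := K) (φ := fun _ : G => Ω × S → K) g0)
  obtain ⟨k, hk⟩ := Function.ne_iff.1 h0
  have h3 := hG _ (hQ τ0 k) hk
  have h4 := mul_le_frac_prod (p := fun u : G × T => ¬ ((∀ k s, Q (u.2, s0) k (u.1, s) = 0) ∧
      ∀ c k s, C c (u.2, s0) k (u.1, s) = 0))
    (q := fun g => ∃ s, Q (τ0, s0) k (g, s) ≠ 0) (c := dV) (by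
      rintro g ⟨s, hs⟩
      have h5 := mir_unit_dense s0 α B hB γ hL hsurj hd (h2 g)
        ⟨τ0, fun h0 => hs (congrFun h0 (k, s))⟩
      refine h5.trans (frac_mono ?_)
      rintro τ (h6 | ⟨c, h6⟩)
      · rintro ⟨h7, -⟩
        apply h6
        funext ks
        exact h7 ks.1 ks.2
      · rintro ⟨-, h7⟩
        apply h6
        funext ks
        exact h7 c ks.1 ks.2)
  exact absurd ((mul_le_mul_of_nonneg_left h3 hV0).trans h4) (not_le.2 hz)

end mirror

/-! ### record test -/

section record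
open Crest.Agent.R289.RevChain123

/-- chain of `Level_492` = chain of `RevChain_123` -/
theorem chain_eq_ys {K A : Type} [CommRing K] [AddCommGroup A] [Module K A] (Λ : A →ₗ[K] A)
    (w : A) : ∀ j, chain Λ w j = ys Λ.toAddMonoidHom w j := by
  intro j
  induction j using Nat.strong_induction_on with
  | _ j ih =>
    match j with
    | 0 => rfl
    | 1 => rfl
    | (j + 2) =>
      show Λ (chain Λ w (j + 1)) + chain Λ w j = _
      rw [ih (j + 1) (by omega), ih j (by omega)]
      rfl

variable {K : Type} [Field K] {G T S S' Ω M : Type} [Fintype G] [Nonempty G] [Fintype T]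
  [AddCommGroup M] [Module K M]

/-- **(g3) the record test**: `X` = a full record of `w` (contents `chain Λ w (L - i)` at `pos i`),
`φ` = a reading of the bundle at a unit (`M`-valued), which intertwines `Λ` with an operator `Lam`
of growth.  If `φ (X)` vanishes at more than `1 - dT * th / |G|` of the units, `φ w = 0`. -/
theorem rec_zero' {A : Type} [AddCommGroup A] [Module K A] {CT : Submodule K (T × S' → K)} {dT : ℝ}
    (hT : UD (CT : Set (T × S' → K)) dT) (hT0 : 0 ≤ dT) (Λ : A →ₗ[K] A) (pos : ℕ → T × S')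
    (φ : A →ₗ[K] (G → M)) (Lam : (G → M) →+ (G → M)) (hφ : ∀ a, φ (Λ a) = Lam (φ a))
    (th L m : ℕ) (hm : 2 ≤ m) (hn : Nat.log m th + 2 ≤ L + 1)
    (hg : ∀ f : G → M, f ≠ 0 → (supp f).card ≤ th →
      (m + 1) * (supp f).card ≤ (supp (Lam f)).card)
    (w : A) (X : T × S' → A)
    (hX : ∀ ψ : (G → M) →ₗ[K] K, (fun x => ψ (φ (X x))) ∈ CT)
    (hc : ∀ i, i ≤ L → X (pos i) = chain Λ w (L - i))
    (hz : (frac fun u : G × T => ¬ ∀ s', φ (X (u.2, s')) u.1 = 0)
      < dT * ((th : ℝ) / Fintype.card G)) : φ w = 0 := by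
  classical
  by_contra hw
  obtain ⟨i, hi, hth⟩ := rc_spreadG Lam th (L + 1) m hm hn hg (φ w) hw
  have hi' : i ≤ L := by omega
  have e1 : rc Lam (φ w) (L + 1) i = φ (X (pos i)) := by
    rw [rc_le _ _ _ _ hi', hc i hi', chain_eq_ys]
    exact (ys_map Λ.toAddMonoidHom Lam φ.toAddMonoidHom hφ w (L - i)).symm
  have h1 : (th : ℝ) / Fintype.card G ≤ frac (fun p => φ (X (pos i)) p ≠ 0) := by
    rw [← e1]
    unfold frac
    apply div_le_div_of_nonneg_right _ (Nat.cast_nonneg _)
    have : (supp (rc Lam (φ w) (L + 1) i)).card =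
        (univ.filter fun p => rc Lam (φ w) (L + 1) i p ≠ 0).card := rfl
    rw [this] at hth
    exact_mod_cast hth.le
  have h2 := mul_le_frac_prod (p := fun u : G × T => ¬ ∀ s', φ (X (u.2, s')) u.1 = 0)
    (q := fun p => φ (X (pos i)) p ≠ 0) (c := dT) (by
      intro p hp
      obtain ⟨ψ, hψ⟩ := exists_dual (K := K) hp
      have hne : (fun x => ψ (φ (X x) p)) ≠ 0 := fun h => hψ (congrFun h (pos i))
      have hmem := hX (ψ.comp (LinearMap.proj (R := K) (φ := fun _ : G => M) p))
      refine (hT _ hmem hne).trans (frac_mono ?_)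
      rintro τ ⟨s', hs'⟩ hcon
      apply hs'
      show ψ (φ (X (τ, s')) p) = 0
      rw [hcon s', map_zero])
  exact absurd ((mul_le_mul_of_nonneg_left h1 hT0).trans h2) (not_le.2 hz)

/-- the same, membership of the bundle `X` itself -/
theorem rec_zero {A : Type} [AddCommGroup A] [Module K A] {CT : Submodule K (T × S' → K)} {dT : ℝ}
    (hT : UD (CT : Set (T × S' → K)) dT) (hT0 : 0 ≤ dT) (Λ : A →ₗ[K] A) (pos : ℕ → T × S')
    (φ : A →ₗ[K] (G → M)) (Lam : (G → M) →+ (G → M)) (hφ : ∀ a, φ (Λ a) = Lam (φ a))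
    (th L m : ℕ) (hm : 2 ≤ m) (hn : Nat.log m th + 2 ≤ L + 1)
    (hg : ∀ f : G → M, f ≠ 0 → (supp f).card ≤ th →
      (m + 1) * (supp f).card ≤ (supp (Lam f)).card)
    (w : A) (X : T × S' → A)
    (hX : ∀ ψ : A →ₗ[K] K, (fun x => ψ (X x)) ∈ CT)
    (hc : ∀ i, i ≤ L → X (pos i) = chain Λ w (L - i))
    (hz : (frac fun u : G × T => ¬ ∀ s', φ (X (u.2, s')) u.1 = 0)
      < dT * ((th : ℝ) / Fintype.card G)) : φ w = 0 :=
  rec_zero' hT hT0 Λ pos φ Lam hφ th L m hm hn hg w X (fun ψ => hX (ψ.comp φ)) hc hz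

end record

end Crest.Agent.R289.Gap731
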