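import Mathlib
import Crest.Agent.R289.Gap2_731
import Crest.Agent.R289.DefI_306

/-!
Row 289, leaf C_GAP, part 3: gaps of all relations of the compiled machine, over `DefI_306`.

For every relation: the version at one unit `u : I.U` (`RecAt`, `StAt`, ...), `relation ↔ ∀ u, At`,
and `At` fails on a small fraction of the units `⇒` the relation holds.
* `COK` : closure properties of the graded codes `CG`, `CT`; membership of `evalW`, `wv`, `Q`;
* `mir_gap`, `rec_gap`, `cz_gap`, `iz_gap`, `st_gap`, `en_gap`, `bk_gap`, `x_gap`, `z_gap`;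
* `legal_gap` : the whole list of relations.
-/

set_option autoImplicit false
set_option linter.unusedSectionVars false

namespace Crest.Agent.R289.DefI

open Finset DefC Compile827 Crest.Agent.R289.DefD Crest.Agent.R289.LCa72

variable {K : Type} [Field K] {c : Cst K}

namespace Ins

variable (I : Ins c)

/-! ### membership -/

/-- closure properties of the graded codes of an instance -/
structure COK (CG : ℕ → Submodule K (I.Om → K)) (CT : ℕ → Submodule K (I.n → K)) : Prop where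
  wf : c.A.WF 4
  mulG : ∀ a b f g, f ∈ CG a → g ∈ CG b → f * g ∈ CG (a + b)
  actG : ∀ g a f, f ∈ CG a → (fun ω => f (I.pm (I.act g) ω)) ∈ CG a
  actG' : ∀ g a f, f ∈ CG a → (fun ω => f ((I.pm (I.act g)).symm ω)) ∈ CG a
  mvG : ∀ j a f, f ∈ CG a → (fun ω => f (I.pm (I.mv j) ω)) ∈ CG a
  pub : ∀ b, I.pubP b ∈ CG 1
  x0 : ∀ i, I.x0 i ∈ CG 1
  mulT : ∀ f g, f ∈ CT 1 → g ∈ CT 1 → f * g ∈ CT 2
  leftT : ∀ h a f, f ∈ CT a → (fun p : I.n => f (h * p.1, p.2)) ∈ CT a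
  one : I.one ∈ CT 1
  E1 : ∀ j, I.E1 j ∈ CT 1
  E2 : ∀ j, I.E2 j ∈ CT 1
  D : ∀ t, t ≤ I.L → I.D t ∈ CT 1

/-- bundle words -/
def GWI (A : Submodule K (I.Om → K)) (w : I.AW) : Prop := ∀ a m, (fun ω => w ω a m) ∈ A

/-- product words -/
structure PWI (A : Submodule K (I.Om → K)) (B : Submodule K (I.n → K)) (F : I.n → I.AW) :
    Prop where
  row : ∀ p a m, (fun ω => F p ω a m) ∈ A
  col : ∀ ω a m, (fun p => F p ω a m) ∈ B

variable {I}
variable {A : Submodule K (I.Om → K)} {B : Submodule K (I.n → K)}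
  {CG : ℕ → Submodule K (I.Om → K)} {CT : ℕ → Submodule K (I.n → K)}

theorem COK.evalW_mem (h : I.COK CG CT) {x : c.A.Reg → I.Om → K} (hx : ∀ i, x i ∈ CG 1) :
    ∀ (e : PE K c.A.Reg c.A.Pub c.G) (d : ℕ), e.Hom d → I.evalW e x ∈ CG d
  | .zero, d, _ => (CG d).zero_mem
  | .reg i, d, hd => by
      have : d = 1 := hd
      subst this
      exact hx i
  | .pub b, d, hd => by
      have : d = 1 := hd
      subst this
      exact h.pub b
  | .smul k e, d, hd => (CG d).smul_mem k (h.evalW_mem hx e d hd)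
  | .add e f, d, hd => (CG d).add_mem (h.evalW_mem hx e d hd.1) (h.evalW_mem hx f d hd.2)
  | .mul e f, d, hd => by
      obtain ⟨a, b, rfl, h1, h2⟩ := hd
      exact h.mulG a b _ _ (h.evalW_mem hx e a h1) (h.evalW_mem hx f b h2)
  | .tr g e, d, hd => h.actG g d _ (h.evalW_mem hx e d hd)
  | .ti g e, d, hd => h.actG' g d _ (h.evalW_mem hx e d hd)

theorem COK.wv_mem (h : I.COK CG CT) {x : c.A.Reg → I.Om → K} (hx : ∀ i, x i ∈ CG 1) :
    I.GWI (CG 4) (I.wv x) := by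
  intro a m
  by_cases ha : a = 0
  · have : (fun ω => I.wv x ω a m) = I.evalW (c.A.comp m) x := by
      funext ω; simp [wv, ha]
    rw [this]
    exact h.evalW_mem hx _ _ (h.wf.comp_hom m)
  · have : (fun ω => I.wv x ω a m) = 0 := by
      funext ω; simp [wv, ha]
    rw [this]
    exact (CG 4).zero_mem

theorem COK.Lam_mem (h : I.COK CG CT) {d : ℕ} {w : I.AW} (hw : I.GWI (CG d) w) :
    I.GWI (CG d) (I.Lam w) := by
  intro a m
  have : (fun ω => I.Lam w ω a m) =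
      ∑ j, ∑ b, c.lam j a b • fun ω => w (I.pm (I.mv j) ω) b m := by
    funext ω
    simp only [Finset.sum_apply, Pi.smul_apply, smul_eq_mul]
    rfl
  rw [this]
  exact (CG d).sum_mem fun j _ => (CG d).sum_mem fun b _ =>
    (CG d).smul_mem _ (h.mvG j d _ (hw b m))

namespace PWI

theorem zero : I.PWI A B 0 := ⟨fun _ _ _ => A.zero_mem, fun _ _ _ => B.zero_mem⟩

theorem add {F F' : I.n → I.AW} (h : I.PWI A B F) (h' : I.PWI A B F') : I.PWI A B (F + F') :=
  ⟨fun p a m => A.add_mem (h.row p a m) (h'.row p a m),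
    fun ω a m => B.add_mem (h.col ω a m) (h'.col ω a m)⟩

theorem sub {F F' : I.n → I.AW} (h : I.PWI A B F) (h' : I.PWI A B F') : I.PWI A B (F - F') :=
  ⟨fun p a m => A.sub_mem (h.row p a m) (h'.row p a m),
    fun ω a m => B.sub_mem (h.col ω a m) (h'.col ω a m)⟩

theorem smul {F : I.n → I.AW} (k : K) (h : I.PWI A B F) : I.PWI A B (k • F) :=
  ⟨fun p a m => A.smul_mem k (h.row p a m), fun ω a m => B.smul_mem k (h.col ω a m)⟩

theorem sum {ι : Type} (s : Finset ι) {F : ι → I.n → I.AW} (h : ∀ i ∈ s, I.PWI A B (F i)) :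
    I.PWI A B (∑ i ∈ s, F i) := by
  classical
  induction s using Finset.induction_on with
  | empty => rw [sum_empty]; exact zero
  | insert a s ha ih =>
    rw [sum_insert ha]
    exact (h a (mem_insert_self a s)).add (ih fun i hi => h i (mem_insert_of_mem hi))

end PWI

theorem COK.leftP (h : I.COK CG CT) {d e : ℕ} (g : I.T) {F : I.n → I.AW}
    (hF : I.PWI (CG d) (CT e) F) : I.PWI (CG d) (CT e) (fun p => F (g * p.1, p.2)) :=
  ⟨fun p a m => hF.row (g * p.1, p.2) a m, fun ω a m => h.leftT g e _ (hF.col ω a m)⟩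

theorem COK.LamP (h : I.COK CG CT) {d e : ℕ} {F : I.n → I.AW} (hF : I.PWI (CG d) (CT e) F) :
    I.PWI (CG d) (CT e) (fun p => I.Lam (F p)) := by
  refine ⟨fun p a m => h.Lam_mem (w := F p) (fun b n => hF.row p b n) a m, fun ω a m => ?_⟩
  have : (fun p => I.Lam (F p) ω a m) =
      ∑ j, ∑ b, c.lam j a b • fun p => F p (I.pm (I.mv j) ω) b m := by
    funext p
    simp only [Finset.sum_apply, Pi.smul_apply, smul_eq_mul]
    rfl
  rw [this]
  exact (CT e).sum_mem fun j _ => (CT e).sum_mem fun b _ => (CT e).smul_mem _ (hF.col _ b m)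

/-- multiplication by a scalar word of the `T`-side -/
theorem COK.mulP (h : I.COK CG CT) {d : ℕ} {E : I.n → K} (hE : E ∈ CT 1) {F : I.n → I.AW}
    (hF : I.PWI (CG d) (CT 1) F) : I.PWI (CG d) (CT 2) (fun p => E p • F p) :=
  ⟨fun p a m => (CG d).smul_mem (E p) (hF.row p a m), fun ω a m => h.mulT _ _ hE (hF.col ω a m)⟩

theorem COK.tenP {d e : ℕ} {E : I.n → K} (hE : E ∈ CT e) {w : I.AW} (hw : I.GWI (CG d) w) :
    I.PWI (CG d) (CT e) (Level492.ten E w) := by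
  refine ⟨fun p a m => (CG d).smul_mem (E p) (hw a m), fun ω a m => ?_⟩
  have : (fun p => Level492.ten E w p ω a m) = w ω a m • E := by
    funext p
    simp [Level492.ten, mul_comm]
  rw [this]
  exact (CT e).smul_mem _ hE

theorem act_mU (X : I.n → I.AW) : Level492.act I.mU X = fun p => I.one p • X p := by
  funext p
  simp only [Level492.act, mU, Matrix.diagonal_apply, ite_smul, zero_smul]
  rw [sum_ite_eq]
  simp

theorem act_steps {J : Type} [Fintype J] (hh : J → I.T) (E : J → I.n → K) (X : I.n → I.AW)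
    (p : I.n) :
    (∑ q, (∑ j, if q = (hh j * p.1, p.2) then E j p else 0) • X q) =
      ∑ j, E j p • X (hh j * p.1, p.2) := by
  classical
  simp only [sum_smul, ite_smul, zero_smul]
  rw [sum_comm]
  refine sum_congr rfl fun j _ => ?_
  rw [sum_ite_eq' univ (hh j * p.1, p.2)]
  simp

theorem act_mN1 (X : I.n → I.AW) :
    Level492.act I.mN1 X = fun p => ∑ j, I.E1 j p • X (I.h1 j * p.1, p.2) := by
  funext p
  exact act_steps I.h1 I.E1 X p

theorem act_mN2 (X : I.n → I.AW) :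
    Level492.act I.mN2 X = fun p => ∑ j, I.E2 j p • X (I.h2 j * p.1, p.2) := by
  funext p
  exact act_steps I.h2 I.E2 X p

theorem COK.stepsP (h : I.COK CG CT) {d : ℕ} {J : Type} [Fintype J] (hh : J → I.T)
    (E : J → I.n → K) (hE : ∀ j, E j ∈ CT 1) {X : I.n → I.AW} (hX : I.PWI (CG d) (CT 1) X) :
    I.PWI (CG d) (CT 2) (fun p => ∑ j, E j p • X (hh j * p.1, p.2)) := by
  have : (fun p => ∑ j, E j p • X (hh j * p.1, p.2)) =
      ∑ j, fun p => E j p • X (hh j * p.1, p.2) := by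
    funext p; simp
  rw [this]
  exact PWI.sum _ fun j _ => h.mulP (hE j) (h.leftP (hh j) hX)

/-- the residual words are product words of degree `(4, 2)` -/
theorem COK.Q_mem (h : I.COK CG CT) {w : I.AW} (hw : I.GWI (CG 4) w) {E : I.n → K}
    (hE : E ∈ CT 1) {X : I.n → I.AW} (hX : I.PWI (CG 4) (CT 1) X) :
    I.PWI (CG 4) (CT 2) (I.Q w E X) := by
  have e : I.Q w E X = (fun p => I.one p • X p)
      - (fun p => I.Lam ((fun p => ∑ j, I.E1 j p • X (I.h1 j * p.1, p.2)) p))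
      - (fun p => ∑ j, I.E2 j p • X (I.h2 j * p.1, p.2))
      - Level492.ten (I.one * E) w := by
    funext p
    have e2 : I.mU.mulVec E = I.one * E := by
      funext q
      rw [mU, Matrix.mulVec_diagonal]
      rfl
    simp only [Q, Level492.Q, Level492.Lc, act_mU, act_mN1, act_mN2, e2, Pi.sub_apply]
  rw [e]
  exact (((h.mulP h.one hX).sub (h.LamP (h.stepsP I.h1 I.E1 h.E1 hX))).sub
    (h.stepsP I.h2 I.E2 h.E2 hX)).sub (COK.tenP (h.mulT _ _ h.one hE) hw)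

theorem COK.Dm_mem (h : I.COK CG CT) {t : ℕ} (ht : t ≤ I.L) : I.Dm t ∈ CT 1 := by
  cases t with
  | zero => exact (CT 1).zero_mem
  | succ t => exact h.D t (by omega)

/-! ### relations at a unit -/

variable (I)

/-- mirror relation at a unit -/
def MirAt (q : I.n → I.AW) (U : c.C → I.n → I.AW) (u : I.U) : Prop :=
  ∀ a s' s, (∑ s1, ∑ j, c.bet a s1 j • Mirror545.ext c.s0' q U s1 ((I.gam j)⁻¹ * u.2, s'))
    (u.1, s) = 0

/-- relations of a certificate at a unit -/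
def RecAt (t : ℕ) (x : I.XW) (z : I.ZW) (u : I.U) : Prop :=
  I.MirAt (I.Q (I.wv x.2) (I.D t) z.X) z.Z u ∧
  I.MirAt (I.Q (I.wv x.2) (I.Dm t) z.Xm) z.Zm u ∧
  (∀ s, I.Q (I.wv x.2) (I.D t) z.X (u.2, c.s0') (u.1, s) = 0) ∧
  (∀ s, I.Q (I.wv x.2) (I.Dm t) z.Xm (u.2, c.s0') (u.1, s) = 0) ∧
  (∀ a s, z.Z a (u.2, c.s0') (u.1, s) = 0) ∧
  (∀ a s, z.Zm a (u.2, c.s0') (u.1, s) = 0)

/-- component `m` vanishes at a unit of the full record -/
def CZAt (z : I.ZW) (m : c.A.Comp) (u : I.U) : Prop :=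
  ∀ s' a, z.X (u.2, s') (u.1, c.s0) a m = 0

/-- identity `i` at a unit -/
def IZAt (x : I.XW) (i : c.A.Idl) (u : I.U) : Prop :=
  ∀ s, I.evalW (c.A.idl i) x.2 (u.1, s) = 0

def StAt (x : I.XW) (z : I.ZW) (u : I.U) : Prop :=
  (∀ m, c.A.leg x.1 m → I.CZAt z m u) ∧ ∀ i, c.A.legI x.1 i → I.IZAt x i u

def EnAt (ρ : c.A.Tr) (x : I.XW) (z : I.ZW) (u : I.U) : Prop :=
  x.1 = c.A.src ρ ∧ (∀ m, c.A.en ρ m → I.CZAt z m u) ∧ ∀ i, c.A.enI ρ i → I.IZAt x i u

def BkAt (ρ : c.A.Tr) (x : I.XW) (z : I.ZW) (u : I.U) : Prop :=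
  x.1 = c.A.tgt ρ ∧ (∀ m, c.A.bk ρ m → I.CZAt z m u) ∧ ∀ i, c.A.bkI ρ i → I.IZAt x i u

/-- equality of content words at a unit -/
def XAt (x y : I.XW) (u : I.U) : Prop :=
  x.1 = y.1 ∧ ∀ i s, x.2 i (u.1, s) = y.2 i (u.1, s)

/-- equality of certificates at a unit -/
def ZAt (z z' : I.ZW) (u : I.U) : Prop :=
  (∀ s' s, z.X (u.2, s') (u.1, s) = z'.X (u.2, s') (u.1, s)) ∧
  (∀ s' s, z.Xm (u.2, s') (u.1, s) = z'.Xm (u.2, s') (u.1, s)) ∧
  (∀ a s' s, z.Z a (u.2, s') (u.1, s) = z'.Z a (u.2, s') (u.1, s)) ∧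
  ∀ a s' s, z.Zm a (u.2, s') (u.1, s) = z'.Zm a (u.2, s') (u.1, s)

variable {I}

theorem mir_iff (q : I.n → I.AW) (U : c.C → I.n → I.AW) :
    I.Mir q U ↔ ∀ u, I.MirAt q U u := by
  have key : ∀ (a : c.C) (τ : I.T) (s' : c.S'),
      (∑ s1, ∑ j, c.bet a s1 j • Mirror545.ext c.s0' (fun τ s' => q (τ, s'))
        (fun s τ s' => U s (τ, s')) s1 ((I.gam j)⁻¹ * τ)) s' =
      ∑ s1, ∑ j, c.bet a s1 j • Mirror545.ext c.s0' q U s1 ((I.gam j)⁻¹ * τ, s') := by
    intro a τ s'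
    simp only [Finset.sum_apply, Pi.smul_apply]
    refine sum_congr rfl fun s1 _ => sum_congr rfl fun j _ => ?_
    congr 1
    unfold Mirror545.ext
    split_ifs <;> rfl
  constructor
  · intro h u a s' s
    rw [← key a u.2 s', h a u.2]
    rfl
  · intro h a τ
    funext s'
    rw [key a τ s']
    funext ω
    exact h (ω.1, τ) a s' ω.2

theorem rec_iff (t : ℕ) (x : I.XW) (z : I.ZW) : I.Rec t x z ↔ ∀ u, I.RecAt t x z u := by
  constructor
  · rintro ⟨h1, h2, h3, h4, h5, h6⟩ u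
    exact ⟨(mir_iff _ _).1 h1 u, (mir_iff _ _).1 h2 u, fun s => by rw [h3]; rfl,
      fun s => by rw [h4]; rfl, fun a s => by rw [h5]; rfl, fun a s => by rw [h6]; rfl⟩
  · intro h
    refine ⟨(mir_iff _ _).2 fun u => (h u).1, (mir_iff _ _).2 fun u => (h u).2.1,
      fun τ => ?_, fun τ => ?_, fun a τ => ?_, fun a τ => ?_⟩
    · funext ω; exact (h (ω.1, τ)).2.2.1 ω.2
    · funext ω; exact (h (ω.1, τ)).2.2.2.1 ω.2
    · funext ω; exact (h (ω.1, τ)).2.2.2.2.1 a ω.2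
    · funext ω; exact (h (ω.1, τ)).2.2.2.2.2 a ω.2

theorem cz_iff (z : I.ZW) (m : c.A.Comp) : I.CZ z m ↔ ∀ u, I.CZAt z m u :=
  ⟨fun h u s' a => h (u.2, s') u.1 a, fun h p g a => h (g, p.1) p.2 a⟩

theorem iz_iff [Nonempty I.T] (x : I.XW) (i : c.A.Idl) : I.IZ x i ↔ ∀ u, I.IZAt x i u :=
  ⟨fun h u s => h (u.1, s), fun h ω => h (ω.1, Classical.arbitrary I.T) ω.2⟩

theorem st_iff [Nonempty I.T] (x : I.XW) (z : I.ZW) : I.St x z ↔ ∀ u, I.StAt x z u := by
  constructor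
  · rintro ⟨h1, h2⟩ u
    exact ⟨fun m hm => (cz_iff z m).1 (h1 m hm) u, fun i hi => (iz_iff x i).1 (h2 i hi) u⟩
  · intro h
    exact ⟨fun m hm => (cz_iff z m).2 fun u => (h u).1 m hm,
      fun i hi => (iz_iff x i).2 fun u => (h u).2 i hi⟩

theorem en_iff [Nonempty I.Γ] [Nonempty I.T] (ρ : c.A.Tr) (x : I.XW) (z : I.ZW) :
    I.En ρ x z ↔ ∀ u, I.EnAt ρ x z u := by
  constructor
  · rintro ⟨h0, h1, h2⟩ u
    exact ⟨h0, fun m hm => (cz_iff z m).1 (h1 m hm) u, fun i hi => (iz_iff x i).1 (h2 i hi) u⟩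
  · intro h
    exact ⟨(h (Classical.arbitrary _)).1, fun m hm => (cz_iff z m).2 fun u => (h u).2.1 m hm,
      fun i hi => (iz_iff x i).2 fun u => (h u).2.2 i hi⟩

theorem bk_iff [Nonempty I.Γ] [Nonempty I.T] (ρ : c.A.Tr) (x : I.XW) (z : I.ZW) :
    I.Bk ρ x z ↔ ∀ u, I.BkAt ρ x z u := by
  constructor
  · rintro ⟨h0, h1, h2⟩ u
    exact ⟨h0, fun m hm => (cz_iff z m).1 (h1 m hm) u, fun i hi => (iz_iff x i).1 (h2 i hi) u⟩
  · intro h
    exact ⟨(h (Classical.arbitrary _)).1, fun m hm => (cz_iff z m).2 fun u => (h u).2.1 m hm,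
      fun i hi => (iz_iff x i).2 fun u => (h u).2.2 i hi⟩

theorem x_iff [Nonempty I.Γ] [Nonempty I.T] (x y : I.XW) : x = y ↔ ∀ u, I.XAt x y u := by
  constructor
  · rintro rfl u
    exact ⟨rfl, fun _ _ => rfl⟩
  · intro h
    refine Prod.ext (h (Classical.arbitrary _)).1 ?_
    funext i ω
    exact (h (ω.1, Classical.arbitrary _)).2 i ω.2

theorem z_iff (z z' : I.ZW) : z = z' ↔ ∀ u, I.ZAt z z' u := by
  constructor
  · rintro rfl u
    exact ⟨fun _ _ => rfl, fun _ _ => rfl, fun _ _ _ => rfl, fun _ _ _ => rfl⟩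
  · intro h
    apply ZW.ext
    · funext p ω; exact (h (ω.1, p.1)).1 p.2 ω.2
    · funext p ω; exact (h (ω.1, p.1)).2.1 p.2 ω.2
    · funext a p ω; exact (h (ω.1, p.1)).2.2.1 a p.2 ω.2
    · funext a p ω; exact (h (ω.1, p.1)).2.2.2 a p.2 ω.2

end Ins

end Crest.Agent.R289.DefI
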