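import Crest.Agent.R289.LMI_827

/-!
Row 289, block C, I1 (helper827): the `LM` instance over the RAW words of DefI_306
(`X := I.XW`, `Z := I.ZW`), form of #6431 / #6447: T-side membership of the record words is part of
`Rec`, membership of the registers is part of `St` and of `IsL`.
`certR_mem`, `up_memR`, `dn_memR` : P-side and T-side memberships of the words of legal states.
`toS` : configurations of code words as raw configurations, `legal_iff_raw`.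
-/

set_option autoImplicit false
set_option linter.unusedSectionVars false
set_option linter.unusedVariables false

namespace Crest.Agent.R289.LMI827

open Finset DefC DefI Compile827 LInst827

variable {K : Type} [Field K] {c : Cst K} {I : Ins c} {CG : ℕ → Submodule K (I.Om → K)}
  {CT : ℕ → Submodule K (I.n → K)} {tt : ℕ → I.T}

/-- certificates, by pushing (raw words) -/
def certR (I : Ins c) (x : I.XW) : ℕ → I.ZW
  | 0 => I.ent x
  | t + 1 => I.push t x (certR I x t)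

theorem certR_eq (h : Hyp I CG CT tt) (x : I.XW) (t : ℕ) :
    toZ I (certR I x t) = (td h).certZ (I.wv x.2) t := by
  induction t with
  | zero =>
    show toZ I (I.ent x) = _
    rw [ent_eq h, (td h).ent_certZ]
  | succ t ih =>
    show toZ I (I.push t x (certR I x t)) = _
    rw [push_eq h, ih, (td h).push_certZ]

theorem certS_val (h : Hyp I CG CT tt) (x : XS I CG) (t : ℕ) : (certS h x t).1 = certR I x.1 t := by
  apply toZ_inj
  rw [certS_eq, certR_eq h]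

theorem pop_certR (h : Hyp I CG CT tt) (x : I.XW) (t : ℕ) :
    I.pop t x (certR I x (t + 1)) = certR I x t := by
  apply toZ_inj
  rw [pop_eq h, certR_eq h, (td h).pop_certZ, certR_eq h]

/-- the records are the ones of Level_492 -/
theorem certR_X (h : Hyp I CG CT tt) (x : I.XW) (t : ℕ) :
    (certR I x t).X = Level492.recX I.Lam I.D (I.wv x.2) t :=
  congrArg (fun z => z.1.1) (certR_eq h x t)

theorem certR_Xm (h : Hyp I CG CT tt) (x : I.XW) (t : ℕ) :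
    (certR I x t).Xm = Level492.recXm I.Lam I.D (I.wv x.2) t :=
  congrArg (fun z => z.1.2) (certR_eq h x t)

/-- T-rows of the record words are words of `CT 1` -/
def RowT (CT : ℕ → Submodule K (I.n → K)) (X : I.n → I.AW) : Prop :=
  ∀ ω a m, (fun p => X p ω a m) ∈ CT 1

/-- relations of a certificate, with the T-side membership -/
def RecR (CT : ℕ → Submodule K (I.n → K)) (t : ℕ) (x : I.XW) (z : I.ZW) : Prop :=
  RowT CT z.X ∧ RowT CT z.Xm ∧ I.Rec t x z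

theorem recR_iff (h : Hyp I CG CT tt) (t : ℕ) (x : I.XW) (z : I.ZW) (ht : t ≤ I.L) :
    RecR CT t x z ↔ z = certR I x t := by
  have key : RecR CT t x z ↔ (td h).RecZ (I.wv x.2) t (toZ I z) := by
    constructor
    · rintro ⟨r1, r2, h1, h2, h3, h4, h5, h6⟩
      refine ⟨⟨fun y => r1 y.1 y.2.1 y.2.2, fun y => r2 y.1 y.2.1 y.2.2⟩, ⟨h1, h2⟩, ⟨?_, ?_⟩,
        ⟨?_, ?_⟩⟩
      · rintro ⟨τ, s⟩ hs
        have hs' : s = c.s0' := hs
        subst hs'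
        exact h3 τ
      · rintro ⟨s, τ, s'⟩ hs
        have hs' : s' = c.s0' := hs
        subst hs'
        exact h5 s τ
      · rintro ⟨τ, s⟩ hs
        have hs' : s = c.s0' := hs
        subst hs'
        exact h4 τ
      · rintro ⟨s, τ, s'⟩ hs
        have hs' : s' = c.s0' := hs
        subst hs'
        exact h6 s τ
    · rintro ⟨⟨r1, r2⟩, ⟨h1, h2⟩, ⟨h3, h5⟩, ⟨h4, h6⟩⟩
      exact ⟨fun ω a m => r1 (ω, a, m), fun ω a m => r2 (ω, a, m), h1, h2,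
        fun τ => h3 (τ, c.s0') rfl, fun τ => h4 (τ, c.s0') rfl,
        fun s τ => h5 (s, τ, c.s0') rfl, fun s τ => h6 (s, τ, c.s0') rfl⟩
  rw [key, (td h).recZ_iff _ t ht, ← certR_eq h x t]
  exact ⟨fun e => toZ_inj e, fun e => by rw [e]⟩

theorem claims_iff (h : Hyp I CG CT tt) (x : I.XW) (P : c.A.Comp → Prop) :
    (∀ m, P m → I.CZ (certR I x I.L) m) ↔
      ∀ k, P k → ∀ j, ((td h).certZ (wv (cd h) (td h) x) I.L).1.1 j ∈ (td h).ZA k := by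
  have e := certR_eq h x I.L
  have eX : ∀ p, (certR I x I.L).X p = ((td h).certZ (I.wv x.2) I.L).1.1 p := fun p =>
    congrFun (congrArg (fun z => z.1.1) e) p
  constructor
  · intro h1 k hk j
    have := (cz_iff _ _).1 (h1 k hk) j
    rw [eX] at this
    exact this
  · intro h3 k hk
    refine (cz_iff _ _).2 fun j => ?_
    rw [eX]
    exact h3 k hk j

theorem st_iffR (h : Hyp I CG CT tt) (x : I.XW) :
    ((∀ i, x.2 i ∈ CG 1) ∧ I.St x (certR I x I.L)) ↔ (cd h).IsL x := by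
  rw [← stZ_iff (cd h) (td h) h.wf x]
  constructor
  · rintro ⟨h0, h1, h2⟩
    exact ⟨h0, h2, (claims_iff h x _).1 h1⟩
  · rintro ⟨h0, h2, h3⟩
    exact ⟨h0, (claims_iff h x _).2 h3, h2⟩

theorem en_iffR (h : Hyp I CG CT tt) (ρ : c.A.Tr) (x : I.XW) (hx : (cd h).IsL x) :
    I.En ρ x (certR I x I.L) ↔ (cd h).en ρ x := by
  rw [← enZ_iff (cd h) (td h) h.wf ρ x hx]
  constructor
  · rintro ⟨h0, h1, h2⟩
    exact ⟨h0, h2, (claims_iff h x _).1 h1⟩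
  · rintro ⟨h0, h2, h3⟩
    exact ⟨h0, (claims_iff h x _).2 h3, h2⟩

theorem bk_iffR (h : Hyp I CG CT tt) (ρ : c.A.Tr) (x : I.XW) (hx : (cd h).IsL x) :
    I.Bk ρ x (certR I x I.L) ↔ (cd h).bk ρ x := by
  rw [← bkZ_iff (cd h) (td h) h.wf ρ x hx]
  constructor
  · rintro ⟨h0, h1, h2⟩
    exact ⟨h0, h2, (claims_iff h x _).1 h1⟩
  · rintro ⟨h0, h2, h3⟩
    exact ⟨h0, (claims_iff h x _).2 h3, h2⟩

/-- **the labelled machine over the raw words of DefI** -/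
def lmR (h : Hyp I CG CT tt) (hx0 : c.A.Legal I.act I.pubC I.stg0 (I.con I.xs))
    (hb0 : ∀ ρ, ¬ (I.stg0 = c.A.tgt ρ ∧ c.A.Bk I.act I.pubC ρ (I.con I.xs))) :
    LM I.XW I.ZW c.A.Tr where
  L := I.L
  x0 := I.xs
  xz := I.xz
  zz := I.zz
  IsL := (cd h).IsL
  en := (cd h).en
  bk := (cd h).bk
  up := I.up
  dn := I.dn
  cert := certR I
  push := I.push
  pop := I.pop
  ent := I.ent
  Rec := RecR CT
  St x z := (∀ i, x.2 i ∈ CG 1) ∧ I.St x z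
  En := I.En
  Bk := I.Bk
  isL0 := ⟨h.gx0, hx0⟩
  bk0 := fun ρ hρ => hb0 ρ hρ
  fwd ρ x hx he := (cd h).fwd h.wf h.ok ρ x hx he
  bwd ρ x hx he := (cd h).bwd h.wf h.ok ρ x hx he
  en_uniq ρ ρ' x hx := (cd h).en_uniq h.ok ρ ρ' x hx
  bk_uniq ρ ρ' x hx := (cd h).bk_uniq h.ok ρ ρ' x hx
  push_cert t x _ := rfl
  pop_cert t x _ := pop_certR h x t
  ent_cert x := rfl
  Rec_iff t x z ht := recR_iff h t x z ht
  St_iff x := st_iffR h x
  En_iff ρ x hx := en_iffR h ρ x hx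
  Bk_iff ρ x hx := bk_iffR h ρ x hx

/-! ### memberships -/

/-- the certificates of code words are code words -/
theorem certR_mem (h : Hyp I CG CT tt) (x : I.XW) (hx : ∀ i, x.2 i ∈ CG 1) (t : ℕ) :
    InZ I CG CT (certR I x t) := by
  have := (certS h ⟨x, hx⟩ t).2
  rwa [certS_val] at this

theorem up_memR (h : Hyp I CG CT tt) (ρ : c.A.Tr) (x : I.XW) (hx : ∀ i, x.2 i ∈ CG 1) :
    ∀ i, (I.up ρ x).2 i ∈ CG 1 := (cd h).up_mem h.wf ρ hx

theorem dn_memR (h : Hyp I CG CT tt) (ρ : c.A.Tr) (x : I.XW) (hx : ∀ i, x.2 i ∈ CG 1) :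
    ∀ i, (I.dn ρ x).2 i ∈ CG 1 := (cd h).dn_mem h.wf ρ hx

/-- all words of a legal configuration are code words -/
theorem conf_mem (h : Hyp I CG CT tt) (hx0) (hb0) {f : Conf I.XW I.ZW c.A.Tr}
    (hf : (lmR h hx0 hb0).Legal f) :
    ((∀ i, f.x1.2 i ∈ CG 1) ∧ (∀ i, f.x2.2 i ∈ CG 1)) ∧
      (InZ I CG CT f.z1 ∧ InZ I CG CT f.z2) := by
  obtain ⟨a, rfl⟩ := ((lmR h hx0 hb0).legal_iff f).1 hf
  cases a with
  | boot t ht =>
    exact ⟨⟨fun _ => (CG 1).zero_mem, h.gx0⟩, ⟨zz_mem, certR_mem h I.xs h.gx0 t⟩⟩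
  | rest x hx =>
    exact ⟨⟨hx.1, fun _ => (CG 1).zero_mem⟩, ⟨certR_mem h x hx.1 _, zz_mem⟩⟩
  | fw ρ x hx he t ht =>
    exact ⟨⟨hx.1, up_memR h ρ x hx.1⟩, ⟨certR_mem h x hx.1 _,
      certR_mem h _ (up_memR h ρ x hx.1) t⟩⟩
  | bw ρ x hx he t ht =>
    exact ⟨⟨dn_memR h ρ x hx.1, hx.1⟩, ⟨certR_mem h _ (dn_memR h ρ x hx.1) t,
      certR_mem h x hx.1 _⟩⟩

/-- the relations of DefI alone, for configurations of code words -/
def LegalI (I : Ins c) (f : Conf I.XW I.ZW c.A.Tr) : Prop :=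
  match f.l with
  | .boot => f.t ≤ I.L ∧ f.x1 = I.xz ∧ f.z1 = I.zz ∧ f.x2 = I.xs ∧ I.Rec f.t f.x2 f.z2
  | .rest => f.t = 0 ∧ I.Rec I.L f.x1 f.z1 ∧ I.St f.x1 f.z1 ∧ f.x2 = I.xz ∧ f.z2 = I.zz
  | .fw ρ => f.t ≤ I.L ∧ I.Rec I.L f.x1 f.z1 ∧ I.St f.x1 f.z1 ∧ I.En ρ f.x1 f.z1 ∧
      f.x2 = I.up ρ f.x1 ∧ I.Rec f.t f.x2 f.z2
  | .bw ρ => f.t ≤ I.L ∧ I.Rec I.L f.x2 f.z2 ∧ I.St f.x2 f.z2 ∧ I.Bk ρ f.x2 f.z2 ∧
      f.x1 = I.dn ρ f.x2 ∧ I.Rec f.t f.x1 f.z1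

/-- **LEMMA U for raw configurations**: code membership and the literal relations of DefI are the
same as legality -/
theorem legal_raw (h : Hyp I CG CT tt) (hx0) (hb0) (f : Conf I.XW I.ZW c.A.Tr) :
    (lmR h hx0 hb0).Legal f ↔
      (((∀ i, f.x1.2 i ∈ CG 1) ∧ (∀ i, f.x2.2 i ∈ CG 1)) ∧
        (InZ I CG CT f.z1 ∧ InZ I CG CT f.z2)) ∧ LegalI I f := by
  constructor
  · intro hf
    refine ⟨conf_mem h hx0 hb0 hf, ?_⟩
    obtain ⟨l, t, x1, z1, x2, z2⟩ := f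
    cases l with
    | boot =>
      obtain ⟨h1, h2, h3, h4, h5⟩ := hf
      exact ⟨h1, h2, h3, h4, h5.2.2⟩
    | rest =>
      obtain ⟨h1, h2, h3, h4, h5⟩ := hf
      exact ⟨h1, h2.2.2, h3.2, h4, h5⟩
    | fw ρ =>
      obtain ⟨h1, h2, h3, h4, h5, h6⟩ := hf
      exact ⟨h1, h2.2.2, h3.2, h4, h5, h6.2.2⟩
    | bw ρ =>
      obtain ⟨h1, h2, h3, h4, h5, h6⟩ := hf
      exact ⟨h1, h2.2.2, h3.2, h4, h5, h6.2.2⟩
  · rintro ⟨⟨⟨m1, m2⟩, m3, m4⟩, hf⟩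
    obtain ⟨l, t, x1, z1, x2, z2⟩ := f
    have r1 : RowT CT z1.X ∧ RowT CT z1.Xm := ⟨m3.1.1.2, m3.1.2.2⟩
    have r2 : RowT CT z2.X ∧ RowT CT z2.Xm := ⟨m4.1.1.2, m4.1.2.2⟩
    cases l with
    | boot =>
      obtain ⟨h1, h2, h3, h4, h5⟩ := hf
      exact ⟨h1, h2, h3, h4, r2.1, r2.2, h5⟩
    | rest =>
      obtain ⟨h1, h2, h3, h4, h5⟩ := hf
      exact ⟨h1, ⟨r1.1, r1.2, h2⟩, ⟨m1, h3⟩, h4, h5⟩
    | fw ρ =>
      obtain ⟨h1, h2, h3, h4, h5, h6⟩ := hf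
      exact ⟨h1, ⟨r1.1, r1.2, h2⟩, ⟨m1, h3⟩, h4, h5, r2.1, r2.2, h6⟩
    | bw ρ =>
      obtain ⟨h1, h2, h3, h4, h5, h6⟩ := hf
      exact ⟨h1, ⟨r2.1, r2.2, h2⟩, ⟨m2, h3⟩, h4, h5, r1.1, r1.2, h6⟩

end Crest.Agent.R289.LMI827
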