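import Mathlib
import Crest.Agent.R289.DefI_306
import Crest.Agent.R289.Gap_731
import Crest.Agent.R289.TSide_492

/-!
Row 289, leaf C_RECGAP (helper719): unit form and gap form of the certificate relations
`Ins.Rec`, `Ins.CZ` of `DefI_306`.

* `MirU`, `RecU`, `CZU` : the relations read at one unit; `rec_iff`, `cz_iff`;
* `PB` : bundles of P-side words; `InTU` : product membership of a word on the T-side;
* `rec_gap` : if `Rec` fails, `RecU` fails at `≥ min (dT * dP) (dV * dP)` of the units;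
* `recX_pos`, `cont_chain`, `cz_content` : the full record shows the content of every component;
* `cz_gap` : full record: `CZ z m` or `CZU z m` fails at `≥ dV * th / |Γ|` of the units.
-/

set_option autoImplicit false
set_option linter.unusedSectionVars false

namespace Crest.Agent.R289.RecGap719

open Finset Crest.Agent.R289.DefD Crest.Agent.R289.LCa72 DefI Gap731

variable {K : Type} [Field K] {c : Cst K} (I : Ins c)

/-! ### relations at a unit -/

/-- mirror relation at the unit `u` -/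
def MirU (q : I.n → I.AW) (U : c.C → I.n → I.AW) (u : I.U) : Prop :=
  ∀ (c0 : c.C) (s' : c.S') (s : c.S), (∑ s1, ∑ j, c.bet c0 s1 j •
    Mirror545.ext c.s0' (fun τ s' => q (τ, s')) (fun s τ s' => U s (τ, s')) s1
      ((I.gam j)⁻¹ * u.2)) s' (u.1, s) = 0

theorem mir_iff (q : I.n → I.AW) (U : c.C → I.n → I.AW) :
    I.Mir q U ↔ ∀ u, MirU I q U u := by
  constructor
  · intro h u c0 s' s
    rw [h c0 u.2]
    rfl
  · intro h c0 τ
    funext s' ω
    exact h (ω.1, τ) c0 s' ω.2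

/-- a word of the T-side vanishes at the content symbol of the unit `u` -/
def ZU (X : I.n → I.AW) (u : I.U) : Prop := ∀ s, X (u.2, c.s0') (u.1, s) = 0

theorem z_iff (X : I.n → I.AW) : (∀ τ, X (τ, c.s0') = 0) ↔ ∀ u, ZU I X u := by
  constructor
  · intro h u s
    rw [h u.2]; rfl
  · intro h τ
    funext ω
    exact h (ω.1, τ) ω.2

/-- the relations of a certificate at the unit `u` -/
def RecU (t : ℕ) (x : I.XW) (z : I.ZW) (u : I.U) : Prop :=
  MirU I (I.Q (I.wv x.2) (I.D t) z.X) z.Z u ∧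
  MirU I (I.Q (I.wv x.2) (I.Dm t) z.Xm) z.Zm u ∧
  ZU I (I.Q (I.wv x.2) (I.D t) z.X) u ∧
  ZU I (I.Q (I.wv x.2) (I.Dm t) z.Xm) u ∧
  (∀ s, ZU I (z.Z s) u) ∧ ∀ s, ZU I (z.Zm s) u

theorem rec_iff (t : ℕ) (x : I.XW) (z : I.ZW) : I.Rec t x z ↔ ∀ u, RecU I t x z u := by
  unfold Ins.Rec RecU
  rw [mir_iff, mir_iff, z_iff, z_iff]
  constructor
  · rintro ⟨h1, h2, h3, h4, h5, h6⟩ u
    exact ⟨h1 u, h2 u, h3 u, h4 u, fun s => (z_iff I _).1 (h5 s) u,
      fun s => (z_iff I _).1 (h6 s) u⟩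
  · intro h
    exact ⟨fun u => (h u).1, fun u => (h u).2.1, fun u => (h u).2.2.1, fun u => (h u).2.2.2.1,
      fun s => (z_iff I _).2 fun u => (h u).2.2.2.2.1 s,
      fun s => (z_iff I _).2 fun u => (h u).2.2.2.2.2 s⟩

/-- component `m` vanishes at the unit `u` -/
def CZU (z : I.ZW) (m : c.A.Comp) (u : I.U) : Prop :=
  ∀ s' a, z.X (u.2, s') (u.1, c.s0) a m = 0

theorem cz_iff (z : I.ZW) (m : c.A.Comp) : I.CZ z m ↔ ∀ u, CZU I z m u := by
  constructor
  · intro h u s' a
    exact h _ _ _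
  · intro h p g a
    exact h (g, p.1) p.2 a

/-! ### product membership -/

/-- bundles of P-side words -/
def PB (CG : Submodule K (I.Γ → c.S → K)) : Submodule K I.AW where
  carrier := {y | ∀ a m, (fun g s => y (g, s) a m) ∈ CG}
  zero_mem' := fun _ _ => CG.zero_mem
  add_mem' := fun hx hy a m => CG.add_mem (hx a m) (hy a m)
  smul_mem' := fun k _ hx a m => CG.smul_mem k (hx a m)

/-- product membership of a word on the T-side -/
structure InTU (CG : Submodule K (I.Γ → c.S → K)) (CT : Submodule K (I.T → c.S' → K))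
    (X : I.n → I.AW) : Prop where
  row : ∀ p, X p ∈ PB I CG
  col : X ∈ TSide492.TW CT I.AW

variable {I}

/-- the word as a function of the units -/
def cv (X : I.n → I.AW) : I.Γ × I.T → c.S → c.S' → c.V := fun u s s' => X (u.2, s') (u.1, s)

theorem pb_dual {CG : Submodule K (I.Γ → c.S → K)} {y : I.AW} (hy : y ∈ PB I CG)
    (φ : Module.Dual K c.V) : (fun g s => φ (y (g, s))) ∈ CG := by
  classical
  have : (fun g s => φ (y (g, s)))
      = ∑ a, ∑ m, φ (Pi.single a (Pi.single m 1)) • fun g s => y (g, s) a m := by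
    funext g s
    have h1 : y (g, s) = ∑ a, ∑ m, y (g, s) a m • (Pi.single a (Pi.single m 1) : c.V) := by
      funext a m
      rw [Finset.sum_apply, Finset.sum_apply, Finset.sum_eq_single a]
      · rw [Finset.sum_apply, Finset.sum_apply, Finset.sum_eq_single m]
        · simp
        · intro m' _ hm
          simp [Pi.single_eq_of_ne (Ne.symm hm)]
        · intro h; exact absurd (mem_univ _) h
      · intro a' _ ha
        rw [Finset.sum_apply, Finset.sum_apply]
        refine sum_eq_zero fun m' _ => ?_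
        simp [Pi.single_eq_of_ne (Ne.symm ha)]
      · intro h; exact absurd (mem_univ _) h
    conv_lhs => rw [h1]
    simp only [map_sum, map_smul, Finset.sum_apply, Pi.smul_apply, smul_eq_mul]
    exact sum_congr rfl fun a _ => sum_congr rfl fun m _ => mul_comm _ _
  rw [this]
  exact CG.sum_mem fun a _ => CG.sum_mem fun m _ => CG.smul_mem _ (hy a m)

theorem InTU.inT {CG : Submodule K (I.Γ → c.S → K)} {CT : Submodule K (I.T → c.S' → K)}
    {X : I.n → I.AW} (h : InTU I CG CT X) : InT CG CT (cv X) where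
  row := fun τ t φ => pb_dual (h.row (τ, t)) φ
  col := fun p s φ => h.col (φ.comp (LinearMap.proj (R := K) (φ := fun _ : I.Om => c.V) (p, s)))

theorem InTU.add {CG : Submodule K (I.Γ → c.S → K)} {CT : Submodule K (I.T → c.S' → K)}
    {X Y : I.n → I.AW} (h : InTU I CG CT X) (h' : InTU I CG CT Y) : InTU I CG CT (X + Y) :=
  ⟨fun p => (PB I CG).add_mem (h.row p) (h'.row p), (TSide492.TW CT I.AW).add_mem h.col h'.col⟩

theorem InTU.sub {CG : Submodule K (I.Γ → c.S → K)} {CT : Submodule K (I.T → c.S' → K)}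
    {X Y : I.n → I.AW} (h : InTU I CG CT X) (h' : InTU I CG CT Y) : InTU I CG CT (X - Y) :=
  ⟨fun p => (PB I CG).sub_mem (h.row p) (h'.row p), (TSide492.TW CT I.AW).sub_mem h.col h'.col⟩

theorem InTU.smul {CG : Submodule K (I.Γ → c.S → K)} {CT : Submodule K (I.T → c.S' → K)}
    {X : I.n → I.AW} (h : InTU I CG CT X) (k : K) : InTU I CG CT (k • X) :=
  ⟨fun p => (PB I CG).smul_mem k (h.row p), (TSide492.TW CT I.AW).smul_mem k h.col⟩

theorem InTU.zero {CG : Submodule K (I.Γ → c.S → K)} {CT : Submodule K (I.T → c.S' → K)} :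
    InTU I CG CT (0 : I.n → I.AW) :=
  ⟨fun _ => (PB I CG).zero_mem, (TSide492.TW CT I.AW).zero_mem⟩

theorem InTU.sum {CG : Submodule K (I.Γ → c.S → K)} {CT : Submodule K (I.T → c.S' → K)}
    {κ : Type} (s : Finset κ) {X : κ → I.n → I.AW} (h : ∀ k ∈ s, InTU I CG CT (X k)) :
    InTU I CG CT (∑ k ∈ s, X k) := by
  classical
  induction s using Finset.induction_on with
  | empty => simpa using InTU.zero
  | insert a s ha ih =>
    rw [sum_insert ha]
    exact (h a (mem_insert_self _ _)).add (ih fun k hk => h k (mem_insert_of_mem hk))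

/-- left translation on the T-side -/
theorem InTU.lt {CG : Submodule K (I.Γ → c.S → K)} {CT : Submodule K (I.T → c.S' → K)}
    (hlt : ∀ f ∈ CT, ∀ a : I.T, (fun t s => f (a * t) s) ∈ CT)
    {X : I.n → I.AW} (h : InTU I CG CT X) (a : I.T) :
    InTU I CG CT (fun p => X (a * p.1, p.2)) :=
  ⟨fun _ => h.row _, fun φ => hlt _ (h.col φ) a⟩

theorem InTU.ten {CG : Submodule K (I.Γ → c.S → K)} {CT : Submodule K (I.T → c.S' → K)}
    {E : I.n → K} (hE : (fun t s => E (t, s)) ∈ CT) {w : I.AW} (hw : w ∈ PB I CG) :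
    InTU I CG CT (Level492.ten E w) :=
  ⟨fun _ => (PB I CG).smul_mem _ hw, TSide492.TW_ten (D := fun t s => E (t, s)) hE w⟩

theorem InTU.map {CG : Submodule K (I.Γ → c.S → K)} {CT : Submodule K (I.T → c.S' → K)}
    (f : I.AW →ₗ[K] I.AW) (hf : ∀ y ∈ PB I CG, f y ∈ PB I CG) {X : I.n → I.AW}
    (h : InTU I CG CT X) : InTU I CG CT (fun p => f (X p)) :=
  ⟨fun p => hf _ (h.row p), TSide492.TW_map f h.col⟩

/-- product with a scalar word of the T-side -/
theorem InTU.pmul {CG : Submodule K (I.Γ → c.S → K)} {C1 C2 : Submodule K (I.T → c.S' → K)}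
    (hmul : ∀ f ∈ C1, ∀ g ∈ C1, (fun t s => f t s * g t s) ∈ C2) {E : I.n → K}
    (hE : (fun t s => E (t, s)) ∈ C1) {X : I.n → I.AW} (h : InTU I CG C1 X) :
    InTU I CG C2 (fun p => E p • X p) :=
  ⟨fun p => (PB I CG).smul_mem _ (h.row p), fun φ => by
    have := hmul _ hE _ (h.col φ)
    refine cast (congrArg (· ∈ C2) ?_) this
    funext t s
    simp⟩

/-! ### the residual word -/

theorem act_mU (X : I.n → I.AW) (p : I.n) : Level492.act I.mU X p = I.one p • X p := by
  simp only [Level492.act, Ins.mU]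
  rw [sum_eq_single p]
  · rw [Matrix.diagonal_apply_eq]
  · intro q _ hq
    rw [Matrix.diagonal_apply_ne _ (Ne.symm hq), zero_smul]
  · intro h; exact absurd (mem_univ _) h

theorem act_mN1 (X : I.n → I.AW) (p : I.n) :
    Level492.act I.mN1 X p = ∑ j, I.E1 j p • X (I.h1 j * p.1, p.2) := by
  simp only [Level492.act, Ins.mN1, sum_smul, ite_smul, zero_smul]
  rw [sum_comm]
  refine sum_congr rfl fun j _ => ?_
  rw [Finset.sum_ite_eq' univ (I.h1 j * p.1, p.2) fun q => I.E1 j p • X q]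
  simp

theorem act_mN2 (X : I.n → I.AW) (p : I.n) :
    Level492.act I.mN2 X p = ∑ j, I.E2 j p • X (I.h2 j * p.1, p.2) := by
  simp only [Level492.act, Ins.mN2, sum_smul, ite_smul, zero_smul]
  rw [sum_comm]
  refine sum_congr rfl fun j _ => ?_
  rw [Finset.sum_ite_eq' univ (I.h2 j * p.1, p.2) fun q => I.E2 j p • X q]
  simp

variable (I) in
/-- facts about the T-side used for membership -/
structure TF (C1 C2 : Submodule K (I.T → c.S' → K)) : Prop where
  lt1 : ∀ f ∈ C1, ∀ a : I.T, (fun t s => f (a * t) s) ∈ C1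
  lt2 : ∀ f ∈ C2, ∀ a : I.T, (fun t s => f (a * t) s) ∈ C2
  mul : ∀ f ∈ C1, ∀ g ∈ C1, (fun t s => f t s * g t s) ∈ C2
  one_mem : (fun t s => I.one (t, s)) ∈ C1
  E1_mem : ∀ j, (fun t s => I.E1 j (t, s)) ∈ C1
  E2_mem : ∀ j, (fun t s => I.E2 j (t, s)) ∈ C1
  D_mem : ∀ t, t ≤ I.L → (fun τ s => I.D t (τ, s)) ∈ C1

theorem TF.Dm_mem {C1 C2 : Submodule K (I.T → c.S' → K)} (h : TF I C1 C2) {t : ℕ}
    (ht : t ≤ I.L) : (fun τ s => I.Dm t (τ, s)) ∈ C1 := by
  cases t with
  | zero => exact C1.zero_mem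
  | succ t => exact h.D_mem t (by omega)

theorem Q_mem {CG : Submodule K (I.Γ → c.S → K)} {C1 C2 : Submodule K (I.T → c.S' → K)}
    (h : TF I C1 C2) (hLam : ∀ y ∈ PB I CG, I.Lam y ∈ PB I CG) {w : I.AW} (hw : w ∈ PB I CG)
    {E : I.n → K} (hE : (fun τ s => E (τ, s)) ∈ C1) {X : I.n → I.AW} (hX : InTU I CG C1 X) :
    InTU I CG C2 (I.Q w E X) := by
  have e : I.Q w E X = (((fun p => I.one p • X p)
      - (∑ j, fun p => I.Lam (I.E1 j p • X (I.h1 j * p.1, p.2))))
      - (∑ j, fun p => I.E2 j p • X (I.h2 j * p.1, p.2)))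
      - Level492.ten (fun p => I.one p * E p) w := by
    funext p
    simp only [Ins.Q, Level492.Q, Level492.Lc, Pi.sub_apply, act_mU, act_mN1, act_mN2,
      Finset.sum_apply, map_sum]
    congr 1
    simp only [Level492.ten, Ins.mU, Matrix.mulVec_diagonal]
  rw [e]
  refine ((InTU.sub ?_ ?_).sub ?_).sub ?_
  · exact hX.pmul h.mul h.one_mem
  · exact InTU.sum _ fun j _ =>
      ((hX.lt h.lt1 (I.h1 j)).pmul h.mul (h.E1_mem j)).map I.Lam hLam
  · exact InTU.sum _ fun j _ => (hX.lt h.lt1 (I.h2 j)).pmul h.mul (h.E2_mem j)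
  · exact InTU.ten (h.mul _ h.one_mem _ hE) hw

/-! ### gap of the mirror relation -/

/-- the word of the mirror relation number `c0` -/
def RW (q : I.n → I.AW) (U : c.C → I.n → I.AW) (c0 : c.C) : I.n → I.AW := fun p =>
  ∑ s1, ∑ j, c.bet c0 s1 j • Mirror545.ext c.s0' q U s1 ((I.gam j)⁻¹ * p.1, p.2)

theorem rw_mem {CG : Submodule K (I.Γ → c.S → K)} {C2 : Submodule K (I.T → c.S' → K)}
    (hlt : ∀ f ∈ C2, ∀ a : I.T, (fun t s => f (a * t) s) ∈ C2)
    {q : I.n → I.AW} {U : c.C → I.n → I.AW} (hq : InTU I CG C2 q) (hU : ∀ s, InTU I CG C2 (U s))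
    (c0 : c.C) : InTU I CG C2 (RW q U c0) := by
  have e : RW q U c0 = ∑ s1, ∑ j, c.bet c0 s1 j •
      fun p : I.n => Mirror545.ext c.s0' q U s1 ((I.gam j)⁻¹ * p.1, p.2) := by
    funext p
    simp [RW, Finset.sum_apply]
  rw [e]
  refine InTU.sum _ fun s1 _ => InTU.sum _ fun j _ => InTU.smul ?_ _
  refine InTU.lt hlt ?_ _
  unfold Mirror545.ext
  split_ifs with h
  · exact hq
  · exact hU _

theorem mirU_iff (q : I.n → I.AW) (U : c.C → I.n → I.AW) (u : I.U) :
    MirU I q U u ↔ ∀ c0, cv (RW q U c0) u = 0 := by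
  have key : ∀ (c0 : c.C) (s' : c.S') (s : c.S), (∑ s1, ∑ j, c.bet c0 s1 j •
      Mirror545.ext c.s0' (fun τ s' => q (τ, s')) (fun s τ s' => U s (τ, s')) s1
        ((I.gam j)⁻¹ * u.2)) s' (u.1, s) = cv (RW q U c0) u s s' := by
    intro c0 s' s
    simp only [cv, RW, Finset.sum_apply, Pi.smul_apply]
    refine sum_congr rfl fun s1 _ => sum_congr rfl fun j _ => ?_
    congr 1
    unfold Mirror545.ext
    split_ifs <;> rfl
  constructor
  · intro h c0
    funext s s'
    rw [← key]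
    exact h c0 s' s
  · intro h c0 s' s
    rw [key, h c0]
    rfl

/-- **gap of the mirror relation** -/
theorem mir_gap [Nonempty I.Γ] {CG : Submodule K (I.Γ → c.S → K)}
    {C2 : Submodule K (I.T → c.S' → K)} {dP dT : ℝ} (hP : UDist (CG : Set (I.Γ → c.S → K)) dP)
    (hT : UDist (C2 : Set (I.T → c.S' → K)) dT) (hT0 : 0 ≤ dT)
    (hlt : ∀ f ∈ C2, ∀ a : I.T, (fun t s => f (a * t) s) ∈ C2)
    {q : I.n → I.AW} {U : c.C → I.n → I.AW} (hq : InTU I CG C2 q) (hU : ∀ s, InTU I CG C2 (U s))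
    (h : ¬ I.Mir q U) : dT * dP ≤ frac (fun u : I.U => ¬ MirU I q U u) := by
  rw [mir_iff] at h
  push Not at h
  obtain ⟨u, hu⟩ := h
  rw [mirU_iff] at hu
  push Not at hu
  obtain ⟨c0, hc⟩ := hu
  have hne : cv (RW q U c0) ≠ 0 := fun h0 => hc (by rw [h0]; rfl)
  have h1 := udist_tens hP hT hT0 (rw_mem hlt hq hU c0).inT hne
  refine h1.trans (frac_mono fun v hv hv' => hv ?_)
  exact (mirU_iff q U v).1 hv' c0

/-! ### gap of the content zeros -/

variable (I) in
/-- the mirror system of the T-object: `bet` comes from the right constraints `α` of `V_T`, which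
has all contents and distance `dV` in units -/
structure MF (dV : ℝ) where
  ι : Type
  [fι : Fintype ι]
  α : ι → c.S' → c.JT → K
  B : {s : c.S' // s ≠ c.s0'} → ι → K
  hB : Mirror545.IsP c.s0' α B
  bet_eq : c.bet = Mirror545.bet c.s0' α B
  N : ℕ
  nil : AugNil322.J K I.T ^ N = ⊥
  surj : ∀ f : I.T → K, ∃ g : I.T → c.S' → K, Mirror545.InV α I.gam g ∧ ∀ t, g t c.s0' = f t
  dist : ∀ f : I.T → c.S' → K, Mirror545.InV α I.gam f → f ≠ 0 → dV ≤ frac (fun g => f g ≠ 0)

attribute [instance] MF.fι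

/-- words with zero content have mirror words with zero content -/
theorem mir_zero_content {dV : ℝ} (m : MF I dV) {q : I.n → I.AW} {U : c.C → I.n → I.AW}
    (h : I.Mir q U) (hq : ∀ τ, q (τ, c.s0') = 0) (s : c.C) (τ : I.T) : U s (τ, c.s0') = 0 := by
  have h1 := Mirror545.MirRel.map (M' := I.AW) h
    (LinearMap.proj (R := K) (φ := fun _ : c.S' => I.AW) c.s0')
  rw [m.bet_eq] at h1
  exact Mirror545.mir_zero c.s0' m.α m.B m.hB I.gam m.nil h1 hq s τ

/-- **gap of the content zeros** of a word and its mirror words -/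
theorem zero_gap [Nonempty I.Γ] {CG : Submodule K (I.Γ → c.S → K)} {dP dV : ℝ}
    (hP : UDist (CG : Set (I.Γ → c.S → K)) dP) (hV0 : 0 ≤ dV) (m : MF I dV)
    {q : I.n → I.AW} {U : c.C → I.n → I.AW} (hq : ∀ p, q p ∈ PB I CG) (h : I.Mir q U)
    (hne : ¬ ((∀ τ, q (τ, c.s0') = 0) ∧ ∀ s τ, U s (τ, c.s0') = 0)) :
    dV * dP ≤ frac (fun u : I.U => ¬ (ZU I q u ∧ ∀ s, ZU I (U s) u)) := by
  have hne' : ∃ τ, q (τ, c.s0') ≠ 0 := by
    by_contra hcon
    push Not at hcon
    exact hne ⟨hcon, fun s τ => mir_zero_content m h hcon s τ⟩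
  let cur : I.AW →ₗ[K] (I.Γ → c.S → c.V) :=
    { toFun := fun y g s => y (g, s)
      map_add' := fun _ _ => rfl
      map_smul' := fun _ _ => rfl }
  have h1 := Mirror545.MirRel.map (M' := I.Γ → c.S → c.V) h
    (cur.comp (LinearMap.proj (R := K) (φ := fun _ : c.S' => I.AW) c.s0'))
  rw [m.bet_eq] at h1
  have h2 := mirror_gap (P := I.Γ) hP hV0 c.s0' m.α m.B m.hB I.gam m.nil m.surj m.dist
    (q := fun τ g s => q (τ, c.s0') (g, s)) (U := fun s τ g s1 => U s (τ, c.s0') (g, s1))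
    (fun τ φ => pb_dual (hq (τ, c.s0')) φ) h1 (by
      obtain ⟨τ, hτ⟩ := hne'
      refine ⟨τ, fun h0 => hτ ?_⟩
      funext ω
      exact congrFun (congrFun h0 ω.1) ω.2)
  refine h2.trans (frac_mono fun u hu => ?_)
  rintro ⟨ha, hb⟩
  rcases hu with hu | ⟨s, hs⟩
  · exact hu (funext fun s => ha s)
  · exact hs (funext fun s1 => hb s s1)

/-! ### gap of `Rec` -/

/-- **(rec_gap)** if the relations of a certificate do not hold, they fail at a fixed share of
the units -/
theorem rec_gap [Nonempty I.Γ] {CG : Submodule K (I.Γ → c.S → K)}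
    {C1 C2 : Submodule K (I.T → c.S' → K)} (hF : TF I C1 C2)
    (hLam : ∀ y ∈ PB I CG, I.Lam y ∈ PB I CG) {dP dT dV : ℝ}
    (hP : UDist (CG : Set (I.Γ → c.S → K)) dP) (hT : UDist (C2 : Set (I.T → c.S' → K)) dT)
    (hT0 : 0 ≤ dT) (hV0 : 0 ≤ dV) (m : MF I dV) {t : ℕ} (ht : t ≤ I.L) {x : I.XW} {z : I.ZW}
    (hw : I.wv x.2 ∈ PB I CG) (hX : InTU I CG C1 z.X) (hXm : InTU I CG C1 z.Xm)
    (hZ : ∀ s, InTU I CG C2 (z.Z s)) (hZm : ∀ s, InTU I CG C2 (z.Zm s))
    (h : ¬ I.Rec t x z) :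
    min (dT * dP) (dV * dP) ≤ frac (fun u : I.U => ¬ RecU I t x z u) := by
  have hQ := Q_mem hF hLam hw (hF.D_mem t ht) hX
  have hQm := Q_mem hF hLam hw (hF.Dm_mem ht) hXm
  by_cases h1 : I.Mir (I.Q (I.wv x.2) (I.D t) z.X) z.Z
  · by_cases h2 : I.Mir (I.Q (I.wv x.2) (I.Dm t) z.Xm) z.Zm
    · by_cases h3 : (∀ τ, I.Q (I.wv x.2) (I.D t) z.X (τ, c.s0') = 0)
          ∧ ∀ s τ, z.Z s (τ, c.s0') = 0
      · have h4 : ¬ ((∀ τ, I.Q (I.wv x.2) (I.Dm t) z.Xm (τ, c.s0') = 0)
            ∧ ∀ s τ, z.Zm s (τ, c.s0') = 0) := fun h4 =>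
          h ⟨h1, h2, h3.1, h4.1, h3.2, h4.2⟩
        refine (min_le_right _ _).trans ((zero_gap hP hV0 m hQm.row h2 h4).trans
          (frac_mono fun u hu hu' => hu ⟨hu'.2.2.2.1, hu'.2.2.2.2.2⟩))
      · refine (min_le_right _ _).trans ((zero_gap hP hV0 m hQ.row h1 h3).trans
          (frac_mono fun u hu hu' => hu ⟨hu'.2.2.1, hu'.2.2.2.2.1⟩))
    · exact (min_le_left _ _).trans ((mir_gap hP hT hT0 hF.lt2 hQm hZm h2).trans
        (frac_mono fun u hu hu' => hu hu'.2.1))
  · exact (min_le_left _ _).trans ((mir_gap hP hT hT0 hF.lt2 hQ hZ h1).trans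
      (frac_mono fun u hu hu' => hu hu'.1))

/-! ### the full record -/

/-- value of the explicit record at the path -/
theorem recX_pos (w : I.AW) {pos : ℕ → I.T}
    (hD : ∀ i, i ≤ I.L → ∀ j, j ≤ I.L → I.D i (pos j, c.s0') = if i = j then 1 else 0) {i : ℕ}
    (hi : i ≤ I.L) :
    Level492.recX I.Lam I.D w I.L (pos i, c.s0') = Level492.chain I.Lam w (I.L - i) := by
  simp only [Level492.recX, Finset.sum_apply, Level492.ten]
  rw [sum_eq_single i]
  · rw [hD i hi i hi]; simp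
  · intro k hk hki
    rw [hD k (by simp at hk; omega) i hi, if_neg hki, zero_smul]
  · intro h; exact absurd (mem_range.2 (by omega)) h

/-- the cascade on contents -/
def LamC (y : I.Γ → Fin (c.r + 1) → K) : I.Γ → Fin (c.r + 1) → K := fun g a =>
  ∑ j, ∑ b, c.lam j a b * y (I.mv j g) b

variable (I) in
/-- the cascade on contents, additive -/
def LamA : (I.Γ → Fin (c.r + 1) → K) →+ (I.Γ → Fin (c.r + 1) → K) where
  toFun := LamC
  map_zero' := by funext g a; simp [LamC]
  map_add' y z := by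
    funext g a
    simp only [LamC, Pi.add_apply, mul_add, sum_add_distrib]

/-- content of the component `m` -/
def cont (m : c.A.Comp) : I.AW →ₗ[K] (I.Γ → Fin (c.r + 1) → K) where
  toFun y g a := y (g, c.s0) a m
  map_add' _ _ := rfl
  map_smul' _ _ := rfl

theorem cont_Lam (m : c.A.Comp) (y : I.AW) : cont m (I.Lam y) = LamA I (cont m y) := by
  funext g a
  rfl

/-- dictionary `chain` / `ys` -/
theorem cont_chain (m : c.A.Comp) (w : I.AW) (j : ℕ) :
    cont m (Level492.chain I.Lam w j) = RevChain123.ys (LamA I) (cont m w) j := by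
  induction j using Nat.strong_induction_on with
  | _ j ih =>
    match j with
    | 0 => rfl
    | 1 => exact cont_Lam m w
    | j + 2 =>
      show cont m (I.Lam (Level492.chain I.Lam w (j + 1)) + Level492.chain I.Lam w j) = _
      rw [map_add, cont_Lam, ih (j + 1) (by omega), ih j (by omega)]
      rfl

theorem cont_wv (x : c.A.Reg → I.Om → K) (m : c.A.Comp) :
    cont m (I.wv x) = fun g a => if a = 0 then I.evalW (c.A.comp m) x (g, c.s0) else 0 := rfl

theorem cont_wv_zero (x : c.A.Reg → I.Om → K) (m : c.A.Comp) :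
    cont m (I.wv x) = 0 ↔ ∀ g, I.evalW (c.A.comp m) x (g, c.s0) = 0 := by
  rw [cont_wv]
  constructor
  · intro h g
    have := congrFun (congrFun h g) 0
    simpa using this
  · intro h
    funext g a
    show (if a = 0 then _ else _) = _
    rw [h g]
    simp

/-- **the full record shows the content of every component** -/
theorem cz_content {pos : ℕ → I.T}
    (hD : ∀ i, i ≤ I.L → ∀ j, j ≤ I.L → I.D i (pos j, c.s0') = if i = j then 1 else 0)
    {w : I.AW} {z : I.ZW} (hz : z.X = Level492.recX I.Lam I.D w I.L) (m : c.A.Comp) :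
    I.CZ z m ↔ cont m w = 0 := by
  constructor
  · intro h
    have h1 := recX_pos w hD (le_refl I.L)
    rw [Nat.sub_self, ← hz] at h1
    funext g a
    have h2 : w (g, c.s0) a m = z.X (pos I.L, c.s0') (g, c.s0) a m := by rw [h1]; rfl
    show w (g, c.s0) a m = 0
    rw [h2]
    exact h _ _ _
  · intro h p g a
    have h1 : ∀ j, Level492.chain I.Lam w j (g, c.s0) a m = 0 := by
      intro j
      have := congrFun (congrFun (cont_chain m w j) g) a
      rw [h, RevChain123.ys_zero] at this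
      exact this
    rw [hz]
    simp only [Level492.recX, Finset.sum_apply, Level492.ten, Pi.smul_apply, h1, smul_zero,
      sum_const_zero]

/-- **(cz_gap)** full record: the component vanishes or is seen at a fixed share of the units -/
theorem cz_gap [Nonempty I.Γ] {C1 : Submodule K (I.T → c.S' → K)} {dV : ℝ}
    (hV : UDist (C1 : Set (I.T → c.S' → K)) dV) (hV0 : 0 ≤ dV) {pos : ℕ → I.T}
    (hD : ∀ i, i ≤ I.L → ∀ j, j ≤ I.L → I.D i (pos j, c.s0') = if i = j then 1 else 0)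
    (th mm : ℕ) (hm : 2 ≤ mm) (hn : Nat.log mm th + 2 ≤ I.L + 1)
    (hg : ∀ f : I.Γ → Fin (c.r + 1) → K, f ≠ 0 → (RevChain123.supp f).card ≤ th →
      (mm + 1) * (RevChain123.supp f).card ≤ (RevChain123.supp (LamA I f)).card)
    {w : I.AW} {z : I.ZW} (hX : z.X ∈ TSide492.TW C1 I.AW)
    (hz : z.X = Level492.recX I.Lam I.D w I.L) (m : c.A.Comp) (h : ¬ I.CZ z m) :
    dV * ((th : ℝ) / Fintype.card I.Γ) ≤ frac (fun u : I.U => ¬ CZU I z m u) := by
  have hne : cont m w ≠ 0 := fun h0 => h ((cz_content hD hz m).2 h0)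
  have h1 := record_gap (P := I.Γ) (T := I.T) (K := K) hV hV0 c.s0' pos (LamA I) th (I.L + 1) mm
    hm hn hg (cont m w) hne (fun u s' a => z.X (u.2, s') (u.1, c.s0) a m)
    (fun g φ => hX (φ.comp ((LinearMap.proj (R := K) (φ := fun _ : I.Γ => Fin (c.r + 1) → K)
      g).comp (cont m)))) (fun i hi g => by
        have h2 := recX_pos w hD (show i ≤ I.L by omega)
        rw [RevChain123.rc_le _ _ _ _ (show i ≤ I.L by omega), ← cont_chain]
        funext a
        show z.X (pos i, c.s0') (g, c.s0) a m = _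
        rw [hz, h2]
        rfl)
  refine h1.trans (frac_mono fun u hu hu' => hu ?_)
  funext s' a
  exact hu' s' a

end Crest.Agent.R289.RecGap719
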