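import Mathlib
import Crest.Agent.R289.RecGap_719
import Crest.Agent.R289.GapI_731
import Crest.Agent.R289.LMR_827

/-!
Row 289, leaf C_GAP, fields (helper719): the gap fields of the machine `LMI827.lmI` on code words
(`XS`, `ZS`), in the unit vocabulary `RecAt`, `StAt`, `EnAt`, `BkAt`, `XAt`, `ZAt` of `GapI_731`.

* `Num I CG CT g` : the numerical data (distances of the codes, mirror data, growth of the cascade);
* `rcG`, `stG`, `enG`, `bkG`, `dx`, `dz` : every relation that does not hold fails at `≥ g` of the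
  units.
-/

set_option autoImplicit false
set_option linter.unusedSectionVars false
set_option linter.unusedVariables false

namespace Crest.Agent.R289.GapS719

open Finset Crest.Agent.R289.DefD Crest.Agent.R289.LCa72 Compile827 LInst827 DefC DefI Gap731
  RecGap719 LMI827

variable {K : Type} [Field K] {c : Cst K}

/-! ### `MirAt`, `RecAt` and `MirU`, `RecU` -/

theorem mirAt_iff {I : Ins c} (q : I.n → I.AW) (U : c.C → I.n → I.AW) (u : I.U) :
    I.MirAt q U u ↔ MirU I q U u := by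
  rw [mirU_iff]
  constructor
  · intro h c0
    funext s s'
    exact h c0 s' s
  · intro h a s' s
    exact congrFun (congrFun (h a) s) s'

theorem recAt_iff {I : Ins c} (t : ℕ) (x : I.XW) (z : I.ZW) (u : I.U) :
    I.RecAt t x z u ↔ RecU I t x z u := by
  unfold Ins.RecAt RecU
  rw [mirAt_iff, mirAt_iff]
  rfl

/-! ### memberships -/

section mem
variable {I : Ins c} {CG : ℕ → Submodule K (I.Om → K)} {CT : ℕ → Submodule K (I.n → K)}

theorem pb_of {d : ℕ} {w : I.AW} (hw : ∀ a m, (fun ω => w ω a m) ∈ CG d) :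
    w ∈ PB I (cur (CG d)) := fun a m => hw a m

/-- bundles as functions of triples -/
def flat (I : Ins c) : (I.Om × Fin (c.r + 1) × c.A.Comp → K) →ₗ[K] I.AW where
  toFun f := fun ω a m => f (ω, a, m)
  map_add' _ _ := rfl
  map_smul' _ _ := rfl

theorem inTU_of {d e : ℕ} {X : I.n → I.AW} (hX : InPC I CG CT d e X) :
    InTU I (cur (CG d)) (cur (CT e)) X where
  row p := pb_of fun a m => hX.1 p a m
  col := by
    have h1 : (fun (p : I.n) (k : I.Om × Fin (c.r + 1) × c.A.Comp) => X p k.1 k.2.1 k.2.2) ∈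
        TSide492.TW (cur (CT e)) (I.Om × Fin (c.r + 1) × c.A.Comp → K) :=
      TSide492.mem_TW_pi.2 fun k => hX.2 k.1 k.2.1 k.2.2
    exact TSide492.TW_map (flat I) h1

end mem

/-! ### the numbers -/

/-- numerical data of the gap theorem -/
structure Num (I : Ins c) (CG : ℕ → Submodule K (I.Om → K)) (CT : ℕ → Submodule K (I.n → K))
    (g : ℝ) where
  ne : Nonempty I.Γ
  dG : ℝ
  dT : ℝ
  dV : ℝ
  dG0 : 0 ≤ dG
  dT0 : 0 ≤ dT
  dV0 : 0 ≤ dV
  uG1 : UD (CG 1 : Set (I.Γ × c.S → K)) dG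
  uG4 : UD (CG 4 : Set (I.Γ × c.S → K)) dG
  uT1 : UD (CT 1 : Set (I.T × c.S' → K)) dT
  uT2 : UD (CT 2 : Set (I.T × c.S' → K)) dT
  mulT : ∀ f ∈ CT 1, ∀ f' ∈ CT 1, (fun p => f p * f' p) ∈ CT 2
  leftT : ∀ d, ∀ f ∈ CT d, ∀ a : I.T, (fun p : I.n => f (a * p.1, p.2)) ∈ CT d
  one : I.one ∈ CT 1
  E1 : ∀ j, I.E1 j ∈ CT 1
  E2 : ∀ j, I.E2 j ∈ CT 1
  mf : MF I dV
  th : ℕ
  mm : ℕ
  hm : 2 ≤ mm
  hn : Nat.log mm th + 2 ≤ I.L + 1
  hg : ∀ f : I.Γ → Fin (c.r + 1) → K, f ≠ 0 → (RevChain123.supp f).card ≤ th →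
    (mm + 1) * (RevChain123.supp f).card ≤ (RevChain123.supp (LamA I f)).card
  le1 : g ≤ 1
  leG : g ≤ dG
  leT : g ≤ dT * dG
  leV : g ≤ dV * dG
  leR : g ≤ dT * ((th : ℝ) / Fintype.card I.Γ)

section gaps
variable {I : Ins c} {CG : ℕ → Submodule K (I.Om → K)} {CT : ℕ → Submodule K (I.n → K)}
  {tt : ℕ → I.T} {g : ℝ}

theorem Num.tf (N : Num I CG CT g) (h : Hyp I CG CT tt) : TF I (cur (CT 1)) (cur (CT 2)) where
  lt1 f hf a := N.leftT 1 _ hf a
  lt2 f hf a := N.leftT 2 _ hf a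
  mul f hf f' hf' := N.mulT _ hf _ hf'
  one_mem := N.one
  E1_mem := N.E1
  E2_mem := N.E2
  D_mem t _ := h.tD t

/-- fraction of an everywhere true relation -/
theorem frac_true {U : Type} [Fintype U] [Nonempty U] {p : U → Prop} (hp : ∀ u, p u) :
    frac p = 1 := by
  classical
  unfold frac
  have : (univ.filter fun u => p u) = univ := filter_true_of_mem fun u _ => hp u
  rw [this, card_univ]
  have h0 : (Fintype.card U : ℝ) ≠ 0 := by exact_mod_cast Fintype.card_ne_zero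
  exact div_self h0

/-- **gap of the certificate relations** -/
theorem rcG (N : Num I CG CT g) (h : Hyp I CG CT tt) {t : ℕ} (ht : t ≤ I.L) (x : XS I CG)
    (z : ZS I CG CT) (hz : z ≠ certS h x t) :
    g ≤ frac fun u : I.U => ¬ I.RecAt t x.1 z.1 u := by
  have := N.ne
  have h1 : ¬ I.Rec t x.1 z.1 := fun h1 => hz ((rec_iffS h t x z ht).1 h1)
  have h2 := rec_gap (N.tf h) (fun y hy => pb_of (CG := CG) (lam_mem h fun a m => hy a m))
    (udist_cur N.uG4) (udist_cur N.uT2) N.dT0 N.dV0 N.mf ht (pb_of (wv_mem h x.1 x.2))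
    (inTU_of z.2.1.1) (inTU_of z.2.1.2) (fun s => inTU_of (z.2.2.1 s))
    (fun s => inTU_of (z.2.2.2 s)) h1
  refine (le_min N.leT N.leV).trans (h2.trans (frac_mono fun u hu hu' => hu ?_))
  exact (recAt_iff t x.1 z.1 u).1 hu'

/-- gap of a claimed component at the full certificate -/
theorem czG (N : Num I CG CT g) (h : Hyp I CG CT tt) (x : XS I CG) (m : c.A.Comp)
    (hm : ¬ I.CZ (certS h x I.L).1 m) :
    g ≤ frac fun u : I.U => ¬ I.CZAt (certS h x I.L).1 m u := by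
  have := N.ne
  have hX : (certS h x I.L).1.X = Level492.recX I.Lam I.D (I.wv x.1.2) I.L := by
    rw [certS_val h]
    exact certR_X h x.1 I.L
  have h2 := cz_gap (udist_cur N.uT1) N.dT0 (pos := tt) (fun i hi j hj => by
      rw [h.D_c i hi (tt j)]
      by_cases hij : i = j
      · subst hij; simp
      · rw [if_neg hij, if_neg]
        intro he
        exact hij (h.tt_inj _ _ hj hi he).symm) N.th N.mm N.hm N.hn N.hg
    (inTU_of (certS h x I.L).2.1.1).col hX m hm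
  exact N.leR.trans (h2.trans (frac_mono fun u hu hu' => hu hu'))

/-- fraction of a relation of the first coordinate -/
theorem gG {I : Ins c} (p : I.Γ → Prop) : (frac fun u : I.U => p u.1) = frac p := frac_fst p

/-- gap of an identity -/
theorem izG (N : Num I CG CT g) (h : Hyp I CG CT tt) (x : XS I CG) (i : c.A.Idl)
    (hi : ¬ I.IZ x.1 i) : g ≤ frac fun u : I.U => ¬ I.IZAt x.1 i u := by
  have := N.ne
  have hmem : I.evalW (c.A.idl i) x.1.2 ∈ CG 1 :=
    WordC880.evalC_mem (fun g => I.pm (I.act g)) CG h.gmul h.gtr h.gti I.pubP x.1.2 h.gpub x.2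
      _ 1 (h.wf.idl_hom i)
  have hne : I.evalW (c.A.idl i) x.1.2 ≠ 0 := fun h0 => hi fun ω => congrFun h0 ω
  have h1 := N.uG1 _ hmem hne
  refine N.leG.trans (h1.trans ?_)
  rw [← gG (I := I) fun g => ∃ s, I.evalW (c.A.idl i) x.1.2 (g, s) ≠ 0]
  refine frac_mono ?_
  rintro u ⟨s, hs⟩ hu
  exact hs (hu s)

/-- gap of a list of claims -/
theorem claimsG (N : Num I CG CT g) (h : Hyp I CG CT tt) (x : XS I CG) (p : c.A.Comp → Prop)
    (q : c.A.Idl → Prop)
    (hn : ¬ ((∀ m, p m → I.CZ (certS h x I.L).1 m) ∧ ∀ i, q i → I.IZ x.1 i)) :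
    g ≤ frac fun u : I.U =>
      ¬ ((∀ m, p m → I.CZAt (certS h x I.L).1 m u) ∧ ∀ i, q i → I.IZAt x.1 i u) := by
  by_cases h1 : ∀ m, p m → I.CZ (certS h x I.L).1 m
  · have h2 : ¬ ∀ i, q i → I.IZ x.1 i := fun h2 => hn ⟨h1, h2⟩
    push Not at h2
    obtain ⟨i, hi, hi'⟩ := h2
    exact (izG N h x i hi').trans (frac_mono fun u hu hu' => hu (hu'.2 i hi))
  · push Not at h1
    obtain ⟨m, hm, hm'⟩ := h1
    exact (czG N h x m hm').trans (frac_mono fun u hu hu' => hu (hu'.1 m hm))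

/-- **gap of the static claims** -/
theorem stG (N : Num I CG CT g) (h : Hyp I CG CT tt) (x : XS I CG) (hx : ¬ (cd h).IsL x.1) :
    g ≤ frac fun u : I.U => ¬ I.StAt x.1 (certS h x I.L).1 u :=
  claimsG N h x _ _ fun h1 => hx ((st_iffS h x).1 h1)

/-- **gap of the claims of a label, forward** -/
theorem enG (N : Num I CG CT g) (h : Hyp I CG CT tt) (ρ : c.A.Tr) (x : XS I CG)
    (hx : (cd h).IsL x.1) (he : ¬ (cd h).en ρ x.1) :
    g ≤ frac fun u : I.U => ¬ I.EnAt ρ x.1 (certS h x I.L).1 u := by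
  have := N.ne
  have h1 : ¬ I.En ρ x.1 (certS h x I.L).1 := fun h1 => he ((en_iffS h ρ x hx).1 h1)
  by_cases h0 : x.1.1 = c.A.src ρ
  · exact (claimsG N h x _ _ fun h2 => h1 ⟨h0, h2.1, h2.2⟩).trans
      (frac_mono fun u hu hu' => hu ⟨hu'.2.1, hu'.2.2⟩)
  · rw [frac_true (p := fun u : I.U => ¬ I.EnAt ρ x.1 (certS h x I.L).1 u)
      fun u hu => h0 hu.1]
    exact N.le1

/-- **gap of the claims of a label, backward** -/
theorem bkG (N : Num I CG CT g) (h : Hyp I CG CT tt) (ρ : c.A.Tr) (x : XS I CG)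
    (hx : (cd h).IsL x.1) (he : ¬ (cd h).bk ρ x.1) :
    g ≤ frac fun u : I.U => ¬ I.BkAt ρ x.1 (certS h x I.L).1 u := by
  have := N.ne
  have h1 : ¬ I.Bk ρ x.1 (certS h x I.L).1 := fun h1 => he ((bk_iffS h ρ x hx).1 h1)
  by_cases h0 : x.1.1 = c.A.tgt ρ
  · exact (claimsG N h x _ _ fun h2 => h1 ⟨h0, h2.1, h2.2⟩).trans
      (frac_mono fun u hu hu' => hu ⟨hu'.2.1, hu'.2.2⟩)
  · rw [frac_true (p := fun u : I.U => ¬ I.BkAt ρ x.1 (certS h x I.L).1 u)
      fun u hu => h0 hu.1]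
    exact N.le1

/-- **distance of content words** -/
theorem dx (N : Num I CG CT g) (x y : XS I CG) (hxy : x ≠ y) :
    g ≤ frac fun u : I.U => ¬ I.XAt x.1 y.1 u := by
  have := N.ne
  by_cases h0 : x.1.1 = y.1.1
  · have h1 : x.1.2 ≠ y.1.2 := fun h1 => hxy (Subtype.ext (Prod.ext h0 h1))
    obtain ⟨i, hi⟩ := Function.ne_iff.1 h1
    have h2 := N.uG1 _ ((CG 1).sub_mem (x.2 i) (y.2 i)) (sub_ne_zero.2 hi)
    refine N.leG.trans (h2.trans ?_)
    rw [← gG (I := I) fun g => ∃ s, (x.1.2 i - y.1.2 i) (g, s) ≠ 0]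
    refine frac_mono ?_
    rintro u ⟨s, hs⟩ hu
    exact hs (by rw [Pi.sub_apply, hu.2 i s, sub_self])
  · rw [frac_true (p := fun u : I.U => ¬ I.XAt x.1 y.1 u) fun u hu => h0 hu.1]
    exact N.le1

theorem pcG (N : Num I CG CT g) {e : ℕ} (hT : UD (CT e : Set (I.T × c.S' → K)) N.dT)
    {X Y : I.n → I.AW} (hX : InPC I CG CT 4 e X) (hY : InPC I CG CT 4 e Y) (hXY : X ≠ Y) :
    g ≤ frac fun u : I.U => ¬ ∀ s' s, X (u.2, s') (u.1, s) = Y (u.2, s') (u.1, s) := by
  have := N.ne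
  have h1 := (inTU_of (hX.sub hY)).inT
  have hne : cv (I := I) (fun p => X p - Y p) ≠ 0 := by
    intro h0
    apply hXY
    funext p ω
    have := congrFun (congrFun (congrFun h0 (ω.1, p.1)) ω.2) p.2
    exact sub_eq_zero.1 this
  have h2 := udist_tens (udist_cur N.uG4) (udist_cur hT) N.dT0 h1 hne
  refine N.leT.trans (h2.trans (frac_mono fun u hu hu' => hu ?_))
  funext s s'
  exact sub_eq_zero.2 (hu' s' s)

/-- **distance of certificates** -/
theorem dz (N : Num I CG CT g) (z z' : ZS I CG CT) (hzz : z ≠ z') :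
    g ≤ frac fun u : I.U => ¬ I.ZAt z.1 z'.1 u := by
  have h0 : z.1 ≠ z'.1 := fun h0 => hzz (Subtype.ext h0)
  by_cases h1 : z.1.X = z'.1.X
  · by_cases h2 : z.1.Xm = z'.1.Xm
    · by_cases h3 : z.1.Z = z'.1.Z
      · have h4 : z.1.Zm ≠ z'.1.Zm := fun h4 => h0 (Ins.ZW.ext h1 h2 h3 h4)
        obtain ⟨s, hs⟩ := Function.ne_iff.1 h4
        exact (pcG N N.uT2 (z.2.2.2 s) (z'.2.2.2 s) hs).trans
          (frac_mono fun u hu hu' => hu (hu'.2.2.2 s))
      · obtain ⟨s, hs⟩ := Function.ne_iff.1 h3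
        exact (pcG N N.uT2 (z.2.2.1 s) (z'.2.2.1 s) hs).trans
          (frac_mono fun u hu hu' => hu (hu'.2.2.1 s))
    · exact (pcG N N.uT1 z.2.1.2 z'.2.1.2 h2).trans (frac_mono fun u hu hu' => hu hu'.2.1)
  · exact (pcG N N.uT1 z.2.1.1 z'.2.1.1 h1).trans (frac_mono fun u hu hu' => hu hu'.1)

end gaps

end Crest.Agent.R289.GapS719
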