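import Mathlib.FieldTheory.Finite.Extension
import Mathlib.LinearAlgebra.Matrix.ToLin
import Crest.Agent.R289.Growth3_577

/-!
# Row 289, (s2) of C-FINAL: the cascade with coefficients in an arbitrary finite field `K`

* `lmod`, `co0`: an extension field `F` of `K` of degree `d` acts on `Fin d → M` (regular
  representation), so the cascade of `Cascade_397` over `F` is a `K`-linear matrix of left
  translations on `(Fin R → M)`-valued words, `R = r * d`.
* `LamK ga co` the operator, `lamLin` its `K`-linear form.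
* `exists_co`: for every finite `K` and finite index set `ι` of generators there are `R`, `co`
  such that `LamK ga co` has growth factor `ρ` whenever `Mix ga lam`, `64 ρ lam ^ 2 ≤ 1`
  (values in any `K`-module `M`).
* `zero_testK`: second order zero test.
-/

set_option autoImplicit false
set_option linter.unusedSectionVars false

namespace Crest.Agent.R289.CascGam577

open Finset Cascade397 Growth2 Growth3

section Operator

variable {P Ω ι κ K M : Type*} [Group P] [MulAction P Ω] [Fintype ι] [Fintype κ] [CommRing K]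
  [AddCommGroup M] [Module K M]

/-- matrix of `K`-combinations of left translations -/
def LamK (ga : ι → P) (co : ι → κ → κ → K) (w : Ω → κ → M) : Ω → κ → M :=
  fun x a => ∑ i, ∑ b, co i a b • w ((ga i)⁻¹ • x) b

theorem LamK_add (ga : ι → P) (co : ι → κ → κ → K) (w w' : Ω → κ → M) :
    LamK ga co (w + w') = LamK ga co w + LamK ga co w' := by
  funext x a
  simp only [LamK, Pi.add_apply, smul_add, Finset.sum_add_distrib]

theorem LamK_zero (ga : ι → P) (co : ι → κ → κ → K) : LamK ga co (0 : Ω → κ → M) = 0 := by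
  funext x a
  simp [LamK]

theorem LamK_smul (ga : ι → P) (co : ι → κ → κ → K) (c : K) (w : Ω → κ → M) :
    LamK ga co (c • w) = c • LamK ga co w := by
  funext x a
  simp only [LamK, Pi.smul_apply, Finset.smul_sum]
  refine Finset.sum_congr rfl fun i _ => Finset.sum_congr rfl fun b _ => ?_
  exact smul_comm _ _ _

theorem LamK_sub (ga : ι → P) (co : ι → κ → κ → K) (w w' : Ω → κ → M) :
    LamK ga co (w - w') = LamK ga co w - LamK ga co w' := by
  funext x a
  simp only [LamK, Pi.sub_apply, smul_sub, Finset.sum_sub_distrib]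

/-- linear form of the operator (`Λ` of `Level492`) -/
def lamLin (ga : ι → P) (co : ι → κ → κ → K) : (Ω → κ → M) →ₗ[K] (Ω → κ → M) where
  toFun := LamK ga co
  map_add' := LamK_add ga co
  map_smul' c w := LamK_smul ga co c w

@[simp] theorem lamLin_apply (ga : ι → P) (co : ι → κ → κ → K) (w : Ω → κ → M) :
    lamLin ga co w = LamK ga co w := rfl

/-- the operator commutes with linear maps of the values -/
theorem LamK_map {M' : Type*} [AddCommGroup M'] [Module K M'] (ga : ι → P) (co : ι → κ → κ → K)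
    (φ : M →ₗ[K] M') (w : Ω → κ → M) :
    LamK ga co (fun x a => φ (w x a)) = fun x a => φ (LamK ga co w x a) := by
  funext x a
  simp only [LamK, map_sum, map_smul]

/-- restriction to an orbit -/
theorem LamK_orbit (ga : ι → P) (co : ι → κ → κ → K) (w : Ω → κ → M) (x0 : Ω) :
    (fun g : P => LamK ga co w (g • x0)) = LamK ga co (fun g : P => w (g • x0)) := by
  funext g a
  simp only [LamK, smul_smul, smul_eq_mul]

/-- the operator preserves every left invariant submodule, componentwise -/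
theorem LamK_mem (ga : ι → P) (co : ι → κ → κ → K) (C : Submodule K (Ω → M))
    (hC : ∀ f ∈ C, ∀ g : P, (fun x => f (g⁻¹ • x)) ∈ C) (w : Ω → κ → M)
    (hw : ∀ a, (fun x => w x a) ∈ C) (a : κ) : (fun x => LamK ga co w x a) ∈ C := by
  have h : (fun x => LamK ga co w x a)
      = ∑ i, ∑ b, co i a b • (fun x => w ((ga i)⁻¹ • x) b) := by
    funext x
    simp [LamK, Finset.sum_apply]
  rw [h]
  refine Submodule.sum_mem _ fun i _ => Submodule.sum_mem _ fun b _ => Submodule.smul_mem _ _ ?_
  exact hC _ (hw b) (ga i)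

theorem chainK_orbit (ga : ι → P) (co : ι → κ → κ → K) (e : ℤ) (w : Ω → κ → M) (x0 : Ω)
    (j : ℕ) : (fun g : P => chain (LamK ga co) e w j (g • x0)) =
      chain (LamK ga co) e (fun g : P => w (g • x0)) j :=
  chain_map (Lam := LamK ga co) (Lam' := LamK ga co) (fun (u : Ω → κ → M) (g : P) =>
    u (g • x0)) (fun u => LamK_orbit ga co u x0) (fun _ _ _ => rfl) e w j

/-- transport of the chain by an additive intertwining map that may change the values -/
theorem chain_map' {P Q M N : Type*} [AddCommGroup M] [AddCommGroup N]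
    {Lam : (P → M) → (P → M)} {Lam' : (Q → N) → (Q → N)} (c : (P → M) → (Q → N))
    (hc : ∀ y, c (Lam y) = Lam' (c y))
    (hadd : ∀ (u v : P → M) (e : ℤ), c (fun g => u g + e • v g) = fun g => c u g + e • c v g)
    (e : ℤ) (w : P → M) (j : ℕ) : c (chain Lam e w j) = chain Lam' e (c w) j := by
  have key : ∀ j, c (chain Lam e w j) = chain Lam' e (c w) j ∧
      c (chain Lam e w (j + 1)) = chain Lam' e (c w) (j + 1) := by
    intro j
    induction j with
    | zero => exact ⟨rfl, hc w⟩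
    | succ j ih =>
      refine ⟨ih.2, ?_⟩
      rw [chain_two, hadd, hc, ih.1, ih.2, chain_two]
  exact (key j).1

theorem chainK_map {M' : Type*} [AddCommGroup M'] [Module K M'] (ga : ι → P)
    (co : ι → κ → κ → K) (φ : M →ₗ[K] M') (e : ℤ) (w : Ω → κ → M) (j : ℕ) :
    (fun x a => φ (chain (LamK ga co) e w j x a)) =
      chain (LamK ga co) e (fun x a => φ (w x a)) j := by
  refine chain_map' (Lam := LamK ga co) (Lam' := LamK ga co)
    (fun (u : Ω → κ → M) x a => φ (u x a)) (fun u => (LamK_map ga co φ u).symm) ?_ e w j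
  intro u v e
  funext x a
  simp

theorem chainK_mem (ga : ι → P) (co : ι → κ → κ → K) (e : ℤ) (C : Submodule K (Ω → M))
    (hC : ∀ f ∈ C, ∀ g : P, (fun x => f (g⁻¹ • x)) ∈ C) (w : Ω → κ → M)
    (hw : ∀ a, (fun x => w x a) ∈ C) (j : ℕ) (a : κ) :
    (fun x => chain (LamK ga co) e w j x a) ∈ C := by
  have key : ∀ j, (∀ a, (fun x => chain (LamK ga co) e w j x a) ∈ C) ∧
      (∀ a, (fun x => chain (LamK ga co) e w (j + 1) x a) ∈ C) := by
    intro j
    induction j with
    | zero => exact ⟨hw, fun a => LamK_mem ga co C hC w hw a⟩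
    | succ j ih =>
      refine ⟨ih.2, fun a => ?_⟩
      have h1 := C.add_mem (LamK_mem ga co C hC _ ih.2 a)
        (C.toAddSubgroup.zsmul_mem (ih.1 a) e)
      exact h1
  exact (key j).1 a

end Operator

section Extend

variable {K F M : Type*} [Field K] [Field F] [Algebra K F] [AddCommGroup M] [Module K M]
  {d : ℕ} (b : Module.Basis (Fin d) K F)

/-- action of `F` on `Fin d → M` by the regular representation -/
noncomputable def fsmul (c : F) (v : Fin d → M) : Fin d → M := fun s => ∑ t, Algebra.leftMulMatrix b c s t • v t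

/-- module structure over the extension field -/
@[reducible] noncomputable def lmod : Module F (Fin d → M) where
  smul c v := fsmul b c v
  one_smul v := by
    funext s
    show ∑ t, Algebra.leftMulMatrix b 1 s t • v t = v s
    rw [map_one, Finset.sum_eq_single s]
    · simp
    · intro t _ ht
      rw [Matrix.one_apply_ne (Ne.symm ht), zero_smul]
    · intro h
      exact absurd (Finset.mem_univ s) h
  mul_smul c c' v := by
    funext s
    show ∑ t, Algebra.leftMulMatrix b (c * c') s t • v t =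
      ∑ t, Algebra.leftMulMatrix b c s t • ∑ u, Algebra.leftMulMatrix b c' t u • v u
    simp only [map_mul, Matrix.mul_apply, Finset.sum_smul, Finset.smul_sum, smul_smul]
    exact Finset.sum_comm
  smul_zero c := by
    funext s
    show ∑ t, Algebra.leftMulMatrix b c s t • (0 : M) = 0
    simp
  smul_add c v v' := by
    funext s
    show ∑ t, Algebra.leftMulMatrix b c s t • (v t + v' t) =
      ∑ t, Algebra.leftMulMatrix b c s t • v t + ∑ t, Algebra.leftMulMatrix b c s t • v' t
    simp only [smul_add, Finset.sum_add_distrib]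
  add_smul c c' v := by
    funext s
    show ∑ t, Algebra.leftMulMatrix b (c + c') s t • v t =
      ∑ t, Algebra.leftMulMatrix b c s t • v t + ∑ t, Algebra.leftMulMatrix b c' s t • v t
    simp only [map_add, Matrix.add_apply, add_smul, Finset.sum_add_distrib]
  zero_smul v := by
    funext s
    show ∑ t, Algebra.leftMulMatrix b 0 s t • v t = 0
    simp

/-- coefficients of the cascade over the extension field -/
noncomputable def co0 {ι : Type*} (al : ι → F) (r : ℕ) (i : ι) (a a' : Fin r × Fin d) : K :=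
  Algebra.leftMulMatrix b (al i ^ ((a.1 : ℕ) + (a'.1 : ℕ))) a.2 a'.2

theorem LamK_co0 {P Ω ι : Type*} [Group P] [MulAction P Ω] [Fintype ι] (ga : ι → P) (al : ι → F)
    (r : ℕ) (w : Ω → Fin r → Fin d → M) (x : Ω) (a : Fin r) (s : Fin d) :
    LamK ga (co0 b al r) (fun x (p : Fin r × Fin d) => w x p.1 p.2) x (a, s) =
      (letI := lmod (M := M) b; Lam ga al w x a) s := by
  letI := lmod (M := M) b
  show _ = Lam ga al w x a s
  rw [Lam_apply]
  simp only [LamK, Finset.sum_apply]
  refine Finset.sum_congr rfl fun i _ => ?_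
  rw [Fintype.sum_prod_type]
  refine Finset.sum_congr rfl fun a' _ => ?_
  rfl

end Extend

section Main

/-- **growth over `K`**: coefficients depending only on `K` and the index set of the generators -/
theorem exists_co (K : Type) [Field K] [Finite K] (ι : Type) [Fintype ι] [Nonempty ι] :
    ∃ (R : ℕ) (co : ι → Fin R → Fin R → K), 0 < R ∧
      ∀ (P : Type) [Group P] [Fintype P] (ga : ι → P) (lam : ℝ) (ρ : ℕ), Mix ga lam → 0 ≤ lam →
        1 ≤ ρ → 64 * ρ * lam ^ 2 ≤ 1 → ∀ (M : Type) [AddCommGroup M] [Module K M]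
        (y : P → Fin R → M), 16 * ρ * sz y ≤ Fintype.card P → ρ * sz y ≤ sz (LamK ga co y) := by
  classical
  -- the extension field
  obtain ⟨p, hp⟩ := CharP.exists K
  have : Fact p.Prime := ⟨(CharP.char_is_prime_or_zero K p).resolve_right
    (CharP.char_ne_zero_of_finite K p)⟩
  set d : ℕ := Fintype.card ι with hd
  have hd0 : 0 < d := Fintype.card_pos
  have : NeZero d := ⟨hd0.ne'⟩
  let F := FiniteField.Extension K p d
  have hfin : Module.finrank K F = d := FiniteField.finrank_extension K p d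
  let b : Module.Basis (Fin d) K F := Module.finBasisOfFinrankEq K F hfin
  have hcard : Fintype.card ι ≤ Nat.card F := by
    have h1 : Nat.card F = Nat.card K ^ d := FiniteField.natCard_extension K p d
    rw [h1]
    calc Fintype.card ι ≤ 2 ^ d := by rw [← hd]; exact Nat.lt_two_pow_self.le
      _ ≤ Nat.card K ^ d := Nat.pow_le_pow_left (Finite.one_lt_card (α := K)) d
  have : Fintype F := Fintype.ofFinite F
  obtain ⟨al⟩ : Nonempty (ι ↪ F) := by
    apply Function.Embedding.nonempty_of_card_le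
    rwa [Fintype.card_eq_nat_card (α := F)]
  set r : ℕ := (Fintype.card ι + 1) / 2 with hr
  have hr1 : Fintype.card ι ≤ 2 * r := by omega
  have hr2 : 2 * r ≤ Fintype.card ι + 2 := by omega
  have hr0 : 0 < r := by omega
  let e : Fin r × Fin d ≃ Fin (r * d) := finProdFinEquiv
  refine ⟨r * d, fun i a a' => co0 b al r i (e.symm a) (e.symm a'), Nat.mul_pos hr0 hd0, ?_⟩
  intro P _ _ ga lam ρ hM hl0 hρ hl M _ _ y hy
  letI := lmod (M := M) b
  -- the same word with values in `Fin d → M`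
  set z : P → Fin r → (Fin d → M) := fun g a s => y g (e (a, s)) with hz
  have hsz : ∀ (u : P → Fin (r * d) → M), sz (fun g (a : Fin r) (s : Fin d) => u g (e (a, s))) =
      sz u := by
    intro u
    refine le_antisymm (sz_le_of_gen ?_) (sz_le_of_gen ?_)
    · intro g hg
      funext a s
      rw [hg]
      rfl
    · intro g hg
      funext a
      have h1 := congrFun (congrFun hg (e.symm a).1) (e.symm a).2
      simpa using h1
  have hgrow := growthR_sz ga al al.injective hr1 hr2 Fintype.card_pos hM hl0 hρ hl z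
    (by rw [hz, hsz]; exact hy)
  have hL : Lam ga al z = fun g a s =>
      LamK ga (fun i a a' => co0 b al r i (e.symm a) (e.symm a')) y g (e (a, s)) := by
    funext g a s
    rw [← LamK_co0 b ga al r z g a s]
    simp only [LamK]
    refine Finset.sum_congr rfl fun i _ => ?_
    rw [← e.sum_comp]
    refine Finset.sum_congr rfl fun a' _ => ?_
    simp [hz]
  rw [hL, hsz, hsz] at hgrow
  exact hgrow
where
  sz_le_of_gen {P M M' : Type} [Fintype P] [AddCommGroup M] [AddCommGroup M'] {x : P → M}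
      {y : P → M'} (h : ∀ g, y g = 0 → x g = 0) : sz x ≤ sz y := by
    classical
    unfold sz
    refine Finset.card_le_card ?_
    intro g hg
    simp only [Finset.mem_filter, Finset.mem_univ, true_and] at hg ⊢
    exact fun h0 => hg (h g h0)

end Main

section ZeroTest

variable {P Ω ι κ K M : Type*} [Group P] [Fintype P] [MulAction P Ω] [Fintype ι] [Fintype κ]
  [CommRing K] [AddCommGroup M] [Module K M]

/-- **SECOND ORDER ZERO TEST over `K`** (ratio `R`, growth factor `R + 1` as hypothesis) -/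
theorem zero_testK (ga : ι → P) (co : ι → κ → κ → K) {R : ℕ} (hR : 1 ≤ R)
    (hgrow : ∀ y : P → κ → M, 16 * (R + 1) * sz y ≤ Fintype.card P →
      (R + 1) * sz y ≤ sz (LamK ga co y))
    (w : Ω → κ → M) (x0 : Ω) (e : ℤ) {L : ℕ} (hL : Fintype.card P < 16 * (R + 1) * R ^ L) :
    ((∀ g : P, w (g • x0) = 0) → ∀ j (g : P), chain (LamK ga co) e w j (g • x0) = 0) ∧
    ((∃ g : P, w (g • x0) ≠ 0) → ∃ j, j ≤ L ∧
      Fintype.card P < 16 * (R + 1) * sz (fun g : P => chain (LamK ga co) e w j (g • x0))) := by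
  constructor
  · intro h j g
    have h1 : (fun g : P => w (g • x0)) = 0 := by
      funext g
      exact h g
    have h2 := chainK_orbit (P := P) ga co e w x0 j
    rw [h1, chain_of_zero (LamK_zero ga co)] at h2
    exact congrFun h2 g
  · rintro ⟨g, hg⟩
    have h1 : (fun g : P => w (g • x0)) ≠ 0 := fun h => hg (congrFun h g)
    obtain ⟨j, hj, hlt⟩ := cascadeR (Lam := LamK ga co) (D := 16 * (R + 1)) hR hgrow e h1 hL
    refine ⟨j, hj, ?_⟩
    rw [chainK_orbit]
    exact hlt

/-- units = group elements: the content of `w : P → κ → M` is `φ (w g a)`, `φ` linear -/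
theorem zero_testK_content {M' : Type*} [AddCommGroup M'] [Module K M'] (ga : ι → P)
    (co : ι → κ → κ → K) {R : ℕ} (hR : 1 ≤ R)
    (hgrow : ∀ y : P → κ → M', 16 * (R + 1) * sz y ≤ Fintype.card P →
      (R + 1) * sz y ≤ sz (LamK ga co y))
    (φ : M →ₗ[K] M') (w : P → κ → M) (e : ℤ) {L : ℕ} (hL : Fintype.card P < 16 * (R + 1) * R ^ L) :
    ((∀ g a, φ (w g a) = 0) → ∀ j g a, φ (chain (LamK ga co) e w j g a) = 0) ∧
    ((∃ g a, φ (w g a) ≠ 0) → ∃ j, j ≤ L ∧
      Fintype.card P < 16 * (R + 1) * sz (fun (g : P) a => φ (chain (LamK ga co) e w j g a))) := by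
  have hm := fun j => chainK_map ga co φ e w j
  constructor
  · intro h j g a
    have h1 : (fun (x : P) a => φ (w x a)) = 0 := by
      funext x a
      exact h x a
    have h2 := hm j
    rw [h1, chain_of_zero (LamK_zero ga co)] at h2
    exact congrFun (congrFun h2 g) a
  · rintro ⟨g, a, hg⟩
    have h1 : (fun (x : P) a => φ (w x a)) ≠ 0 := fun h => hg (congrFun (congrFun h g) a)
    obtain ⟨j, hj, hlt⟩ := cascadeR (Lam := LamK ga co) (D := 16 * (R + 1)) hR hgrow e h1 hL
    refine ⟨j, hj, ?_⟩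
    rw [hm j]
    exact hlt

end ZeroTest

section Mixing

variable {P T ι ι' : Type*} [Group P] [Fintype P] [Group T] [Fintype T] [Fintype ι] [Fintype ι']

/-- convolution is bounded by `n` -/
theorem conv_le (ga : ι → P) (f : P → ℝ) :
    ∑ g, (∑ i, f ((ga i)⁻¹ * g)) ^ 2 ≤ (Fintype.card ι : ℝ) ^ 2 * ∑ g, f g ^ 2 := by
  calc ∑ g, (∑ i, f ((ga i)⁻¹ * g)) ^ 2
      ≤ ∑ g, (Fintype.card ι : ℝ) * ∑ i, f ((ga i)⁻¹ * g) ^ 2 := by
        refine Finset.sum_le_sum fun g _ => ?_
        have := sq_sum_le_card_mul_sum_sq (s := (Finset.univ : Finset ι))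
          (f := fun i => f ((ga i)⁻¹ * g))
        simpa using this
    _ = (Fintype.card ι : ℝ) * ∑ i, ∑ g, f ((ga i)⁻¹ * g) ^ 2 := by
        rw [← Finset.mul_sum, Finset.sum_comm]
    _ = (Fintype.card ι : ℝ) * ∑ _i : ι, ∑ g, f g ^ 2 := by
        congr 1
        refine Finset.sum_congr rfl fun i _ => ?_
        exact Equiv.sum_comp (Equiv.mulLeft (ga i)⁻¹) fun g => f g ^ 2
    _ = _ := by
        rw [Finset.sum_const, Finset.card_univ, nsmul_eq_mul]
        ring

/-- Mixing of a product group with the product family. -/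
theorem mix_prod (ga : ι → P) (gb : ι' → T) {l1 l2 l : ℝ} (h1 : Mix ga l1) (h2 : Mix gb l2)
    (hl : l1 ^ 2 + l2 ^ 2 ≤ l ^ 2) :
    Mix (fun p : ι × ι' => ((ga p.1, gb p.2) : P × T)) l := by
  intro f hf
  have hP : (0 : ℝ) < Fintype.card P := by exact_mod_cast Fintype.card_pos
  have hT : (0 : ℝ) < Fintype.card T := by exact_mod_cast Fintype.card_pos
  set n : ℝ := (Fintype.card ι : ℝ) with hn
  set n' : ℝ := (Fintype.card ι' : ℝ) with hn'
  have hn0 : 0 ≤ n := by rw [hn]; positivity
  have hn0' : 0 ≤ n' := by rw [hn']; positivity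
  -- partial convolution
  set F : T → P → ℝ := fun h g => ∑ j, f (g, (gb j)⁻¹ * h) with hF
  have hF0 : ∀ h g, 0 ≤ F h g := fun h g => Finset.sum_nonneg fun j _ => hf _
  set G : T → ℝ := fun h => ∑ g, f (g, h) with hG
  have hG0 : ∀ h, 0 ≤ G h := fun h => Finset.sum_nonneg fun j _ => hf _
  have hexp : ∑ x : P × T, (∑ p : ι × ι', f ((ga p.1, gb p.2)⁻¹ * x)) ^ 2 =
      ∑ h, ∑ g, (∑ i, F h ((ga i)⁻¹ * g)) ^ 2 := by
    rw [Fintype.sum_prod_type_right]
    refine Finset.sum_congr rfl fun h _ => Finset.sum_congr rfl fun g _ => ?_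
    rw [Fintype.sum_prod_type]
    rfl
  have hS : ∑ x : P × T, f x = ∑ h, G h := by
    rw [Fintype.sum_prod_type_right]
  have hS2 : ∑ x : P × T, f x ^ 2 = ∑ h, ∑ g, f (g, h) ^ 2 := by
    rw [Fintype.sum_prod_type_right]
  have hGsq : ∑ h, G h ^ 2 ≤ Fintype.card P * ∑ h, ∑ g, f (g, h) ^ 2 := by
    rw [Finset.mul_sum]
    refine Finset.sum_le_sum fun h _ => ?_
    have := sq_sum_le_card_mul_sum_sq (s := (Finset.univ : Finset P)) (f := fun g => f (g, h))
    simpa using this
  -- step 1: mixing of `P` for every `h`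
  have s1 : ∑ h, ∑ g, (∑ i, F h ((ga i)⁻¹ * g)) ^ 2 ≤
      n ^ 2 * ((∑ h, (∑ g, F h g) ^ 2) / Fintype.card P + l1 ^ 2 * ∑ h, ∑ g, F h g ^ 2) := by
    calc ∑ h, ∑ g, (∑ i, F h ((ga i)⁻¹ * g)) ^ 2
        ≤ ∑ h, n ^ 2 * ((∑ g, F h g) ^ 2 / Fintype.card P + l1 ^ 2 * ∑ g, F h g ^ 2) :=
          Finset.sum_le_sum fun h _ => h1 (F h) (hF0 h)
      _ = _ := by
          rw [← Finset.mul_sum, Finset.sum_add_distrib, ← Finset.mul_sum, Finset.sum_div]
  -- step 2
  have s2 : ∑ h, (∑ g, F h g) ^ 2 ≤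
      n' ^ 2 * ((∑ h, G h) ^ 2 / Fintype.card T + l2 ^ 2 * ∑ h, G h ^ 2) := by
    have h3 : ∀ h, ∑ g, F h g = ∑ j, G ((gb j)⁻¹ * h) := by
      intro h
      simp only [hF, hG]
      exact Finset.sum_comm
    rw [Finset.sum_congr rfl fun h _ => by rw [h3 h]]
    exact h2 G hG0
  -- step 3
  have s3 : ∑ h, ∑ g, F h g ^ 2 ≤ n' ^ 2 * ∑ h, ∑ g, f (g, h) ^ 2 := by
    rw [Finset.sum_comm]
    calc ∑ g, ∑ h, F h g ^ 2 ≤ ∑ g, n' ^ 2 * ∑ h, f (g, h) ^ 2 :=
          Finset.sum_le_sum fun g _ => conv_le gb fun h => f (g, h)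
      _ = n' ^ 2 * ∑ h, ∑ g, f (g, h) ^ 2 := by
          rw [← Finset.mul_sum, Finset.sum_comm]
  rw [hexp, hS, hS2]
  set E : ℝ := ∑ h, ∑ g, f (g, h) ^ 2 with hE
  have hE0 : 0 ≤ E := Finset.sum_nonneg fun h _ => Finset.sum_nonneg fun g _ => sq_nonneg _
  have hcard : (Fintype.card (P × T) : ℝ) = Fintype.card P * Fintype.card T := by
    rw [Fintype.card_prod]; push_cast; rfl
  have hcι : (Fintype.card (ι × ι') : ℝ) = n * n' := by
    rw [Fintype.card_prod]; push_cast; rfl
  rw [hcard, hcι]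
  have t1 : (∑ h, (∑ g, F h g) ^ 2) / Fintype.card P ≤
      n' ^ 2 * ((∑ h, G h) ^ 2 / (Fintype.card P * Fintype.card T) + l2 ^ 2 * E) := by
    rw [div_le_iff₀ hP]
    refine le_trans s2 ?_
    have h4 : n' ^ 2 * ((∑ h, G h) ^ 2 / (Fintype.card P * Fintype.card T) + l2 ^ 2 * E) *
        Fintype.card P = n' ^ 2 * ((∑ h, G h) ^ 2 / Fintype.card T +
          l2 ^ 2 * (Fintype.card P * E)) := by
      field_simp
    rw [h4]
    apply mul_le_mul_of_nonneg_left _ (sq_nonneg _)
    have h5 : l2 ^ 2 * ∑ h, G h ^ 2 ≤ l2 ^ 2 * (Fintype.card P * E) :=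
      mul_le_mul_of_nonneg_left hGsq (sq_nonneg _)
    linarith
  calc ∑ h, ∑ g, (∑ i, F h ((ga i)⁻¹ * g)) ^ 2
      ≤ n ^ 2 * ((∑ h, (∑ g, F h g) ^ 2) / Fintype.card P + l1 ^ 2 * ∑ h, ∑ g, F h g ^ 2) := s1
    _ ≤ n ^ 2 * (n' ^ 2 * ((∑ h, G h) ^ 2 / (Fintype.card P * Fintype.card T) + l2 ^ 2 * E) +
          l1 ^ 2 * (n' ^ 2 * E)) := by
        apply mul_le_mul_of_nonneg_left _ (sq_nonneg _)
        have h5 : l1 ^ 2 * ∑ h, ∑ g, F h g ^ 2 ≤ l1 ^ 2 * (n' ^ 2 * E) :=
          mul_le_mul_of_nonneg_left s3 (sq_nonneg _)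
        linarith
    _ = (n * n') ^ 2 * ((∑ h, G h) ^ 2 / (Fintype.card P * Fintype.card T) +
          (l1 ^ 2 + l2 ^ 2) * E) := by ring
    _ ≤ (n * n') ^ 2 * ((∑ h, G h) ^ 2 / (Fintype.card P * Fintype.card T) + l ^ 2 * E) := by
        apply mul_le_mul_of_nonneg_left _ (sq_nonneg _)
        have := mul_le_mul_of_nonneg_right hl hE0
        linarith

/-- right expansion (`Exp` of `TP_846`) gives left mixing -/
theorem mix_of_right (ga : ι → P) {lam : ℝ}
    (h : ∀ g : P → ℝ, (∀ v, 0 ≤ g v) → ∑ v, (∑ z, g (v * ga z)) ^ 2 ≤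
      (Fintype.card ι : ℝ) ^ 2 * ((∑ v, g v) ^ 2 / (Fintype.card P : ℝ) + lam ^ 2 * ∑ v, g v ^ 2)) :
    Mix ga lam := by
  intro f hf
  have h1 := h (fun v => f v⁻¹) (fun v => hf _)
  have e1 : ∑ v : P, (∑ z, f (v * ga z)⁻¹) ^ 2 = ∑ g, (∑ i, f ((ga i)⁻¹ * g)) ^ 2 := by
    rw [← Equiv.sum_comp (Equiv.inv P)]
    refine Finset.sum_congr rfl fun g _ => ?_
    simp [mul_inv_rev]
  have e2 : ∑ v : P, f v⁻¹ = ∑ v, f v := Equiv.sum_comp (Equiv.inv P) f
  have e3 : ∑ v : P, f v⁻¹ ^ 2 = ∑ v, f v ^ 2 := Equiv.sum_comp (Equiv.inv P) fun v => f v ^ 2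
  rw [e1, e2, e3] at h1
  exact h1

theorem mix_mono (ga : ι → P) {l1 l2 : ℝ} (h : Mix ga l1) (hl : l1 ^ 2 ≤ l2 ^ 2) :
    Mix ga l2 := by
  intro f hf
  refine le_trans (h f hf) ?_
  apply mul_le_mul_of_nonneg_left _ (sq_nonneg _)
  have : l1 ^ 2 * ∑ g, f g ^ 2 ≤ l2 ^ 2 * ∑ g, f g ^ 2 :=
    mul_le_mul_of_nonneg_right hl (Finset.sum_nonneg fun g _ => sq_nonneg _)
  linarith

end Mixing

end Crest.Agent.R289.CascGam577
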