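import Mathlib.Algebra.BigOperators.Group.Finset.Basic
import Mathlib.LinearAlgebra.Vandermonde
import Mathlib.LinearAlgebra.Matrix.NonsingularInverse
import Mathlib.Data.Real.Basic
import Mathlib.Analysis.Real.Sqrt
import Mathlib.Algebra.Order.Chebyshev
import Mathlib.Algebra.Order.BigOperators.Ring.Finset
import Mathlib.Algebra.Group.Action.Basic
import Mathlib.Data.Fintype.Card
import Mathlib.Algebra.Module.Submodule.Basic
import Mathlib.Data.Fintype.BigOperators
import Mathlib.Tactic

/-!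
# R289, block C: the expanding linear cascade (helper397)

`Lam` is an `r x r` matrix of sparse combinations of left translations.  If the generators mix, the
support of `Lam y` is at least twice the support of `y` as long as the latter is sparse
(`growth`).  Hence, if `y` is not zero, one of the first `log2 |P| + 1` iterates of `Lam` is
non-zero on more than `|P| / 16` points (`cascade`): a slaved zero test on a free orbit.
-/

set_option autoImplicit false
set_option linter.unusedSectionVars false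

namespace Crest.Agent.R289.Cascade397

open Finset

section Vandermonde

variable {ι F M : Type*} [Fintype ι] [Field F] [AddCommGroup M] [Module F M]

/-- Reed-Solomon encoder with values in a module. -/
def Enc (al : ι → F) {r : ℕ} (v : Fin r → M) (i : ι) : M := ∑ a : Fin r, (al i) ^ (a : ℕ) • v a

/-- Syndrome of a word. -/
def Syn (al : ι → F) (r : ℕ) (x : ι → M) (a : Fin r) : M := ∑ i, (al i) ^ (a : ℕ) • x i

/-- module form: an invertible matrix kills nothing -/
lemma smul_matrix_inj {n : Type*} [Fintype n] [DecidableEq n] (A : Matrix n n F)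
    (hA : A.det ≠ 0) (x : n → M) (hx : ∀ a, ∑ i, A a i • x i = 0) : x = 0 := by
  have hu : IsUnit A.det := isUnit_iff_ne_zero.mpr hA
  have h1 : A⁻¹ * A = 1 := Matrix.nonsing_inv_mul A hu
  funext k
  have h2 : ∑ a, A⁻¹ k a • (∑ i, A a i • x i) = x k := by
    calc ∑ a, A⁻¹ k a • (∑ i, A a i • x i) = ∑ a, ∑ i, (A⁻¹ k a * A a i) • x i := by
          refine Finset.sum_congr rfl fun a _ => ?_
          rw [Finset.smul_sum]
          exact Finset.sum_congr rfl fun i _ => smul_smul _ _ _
      _ = ∑ i, ∑ a, (A⁻¹ k a * A a i) • x i := Finset.sum_comm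
      _ = ∑ i, ((A⁻¹ * A) k i) • x i := by
          refine Finset.sum_congr rfl fun i _ => ?_
          rw [← Finset.sum_smul, Matrix.mul_apply]
      _ = ∑ i, ((1 : Matrix n n F) k i) • x i := by rw [h1]
      _ = x k := by
          rw [Finset.sum_eq_single k]
          · rw [Matrix.one_apply_eq, one_smul]
          · intro b _ hb
            rw [Matrix.one_apply_ne (Ne.symm hb), zero_smul]
          · intro h; exact absurd (Finset.mem_univ k) h
  rw [← h2]
  simp only [Pi.zero_apply]
  exact Finset.sum_eq_zero fun a _ => by rw [hx a, smul_zero]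

/-- A vector with at most `r` non-zero entries and zero syndrome is zero. -/
lemma syn_eq_zero (al : ι → F) (hal : Function.Injective al) (r : ℕ) (x : ι → M)
    [DecidablePred fun i => x i ≠ 0]
    (hw : (univ.filter fun i => x i ≠ 0).card ≤ r) (hs : ∀ a : Fin r, Syn al r x a = 0) :
    x = 0 := by
  classical
  set T : Finset ι := univ.filter fun i => x i ≠ 0 with hT
  set m := T.card with hm
  let e : Fin m ≃ T := (T.equivFin).symm
  have hx0 : ∀ i, i ∉ T → x i = 0 := by
    intro i hi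
    by_contra h
    exact hi (by rw [hT]; simpa using h)
  let z : Fin m → M := fun j => x (e j)
  let A : Matrix (Fin m) (Fin m) F := (Matrix.vandermonde fun j => al (e j)).transpose
  have hA : A.det ≠ 0 := by
    rw [Matrix.det_transpose, Matrix.det_vandermonde_ne_zero_iff]
    intro a b hab
    exact e.injective (Subtype.ext (hal hab))
  have hz : z = 0 := by
    apply smul_matrix_inj A hA
    intro a
    have h1 := hs ⟨a, lt_of_lt_of_le a.2 hw⟩
    unfold Syn at h1
    have h2 : ∑ i, (al i) ^ (a : ℕ) • x i = ∑ i ∈ T, (al i) ^ (a : ℕ) • x i := by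
      symm
      apply Finset.sum_subset (Finset.subset_univ T)
      intro i _ hi
      rw [hx0 i hi, smul_zero]
    have h3 : ∑ i ∈ T, (al i) ^ (a : ℕ) • x i = ∑ j : Fin m, (al (e j)) ^ (a : ℕ) • x (e j) := by
      rw [← Finset.sum_coe_sort T (fun i => (al i) ^ (a : ℕ) • x i)]
      exact (Equiv.sum_comp e (fun i : T => (al i) ^ (a : ℕ) • x i)).symm
    have h4 : ∑ i, A a i • z i = ∑ j : Fin m, (al (e j)) ^ (a : ℕ) • x (e j) := by
      refine Finset.sum_congr rfl fun j _ => ?_
      simp [A, z, Matrix.vandermonde_apply]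
    rw [h4, ← h3, ← h2]
    exact h1
  funext i
  by_cases hi : i ∈ T
  · have := congrFun hz (e.symm ⟨i, hi⟩)
    simpa [z] using this
  · exact hx0 i hi

/-- The encoder has at most `r - 1` zeros on a non-zero message. -/
lemma enc_zeros (al : ι → F) (hal : Function.Injective al) (r : ℕ) (v : Fin r → M) (hv : v ≠ 0)
    [DecidablePred fun i => Enc al v i = 0] :
    (univ.filter fun i => Enc al v i = 0).card + 1 ≤ r := by
  classical
  by_contra hcon
  have hr : r ≤ (univ.filter fun i => Enc al v i = 0).card := by omega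
  obtain ⟨T, hTs, hTc⟩ := Finset.exists_subset_card_eq hr
  let e : Fin r ≃ T := (Fintype.equivFinOfCardEq (by simpa using hTc)).symm
  let A : Matrix (Fin r) (Fin r) F := Matrix.vandermonde fun j => al (e j)
  have hA : A.det ≠ 0 := by
    rw [Matrix.det_vandermonde_ne_zero_iff]
    intro a b hab
    exact e.injective (Subtype.ext (hal hab))
  apply hv
  apply smul_matrix_inj A hA
  intro j
  have h1 : Enc al v (e j) = 0 := by
    have := hTs (e j).2
    simpa using this
  unfold Enc at h1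
  simpa [A, Matrix.vandermonde_apply] using h1

end Vandermonde

section Lam

variable {P Ω ι F M : Type*} [Group P] [MulAction P Ω] [Fintype ι] [Field F]
  [AddCommGroup M] [Module F M]

/-- The cascade operator: `Lam_ab = Σ_i al_i^(a+b) L_(ga_i)`. -/
def Lam (ga : ι → P) (al : ι → F) {r : ℕ} (w : Ω → Fin r → M) (x : Ω) (a : Fin r) : M :=
  Syn al r (fun i => Enc al (w ((ga i)⁻¹ • x)) i) a

lemma Lam_apply (ga : ι → P) (al : ι → F) {r : ℕ} (w : Ω → Fin r → M) (x : Ω) (a : Fin r) :
    Lam ga al w x a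
      = ∑ i, ∑ b : Fin r, (al i) ^ ((a : ℕ) + (b : ℕ)) • w ((ga i)⁻¹ • x) b := by
  unfold Lam Syn Enc
  refine Finset.sum_congr rfl fun i _ => ?_
  rw [Finset.smul_sum]
  refine Finset.sum_congr rfl fun b _ => ?_
  rw [smul_smul, ← pow_add]

lemma Lam_zero (ga : ι → P) (al : ι → F) {r : ℕ} : Lam ga al (0 : Ω → Fin r → M) = 0 := by
  funext x a
  simp [Lam_apply]

lemma Lam_add (ga : ι → P) (al : ι → F) {r : ℕ} (w w' : Ω → Fin r → M) :
    Lam ga al (w + w') = Lam ga al w + Lam ga al w' := by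
  funext x a
  simp [Lam_apply, Finset.sum_add_distrib]

lemma Lam_sub (ga : ι → P) (al : ι → F) {r : ℕ} (w w' : Ω → Fin r → M) :
    Lam ga al (w - w') = Lam ga al w - Lam ga al w' := by
  funext x a
  simp [Lam_apply, Finset.sum_sub_distrib, smul_sub]

lemma Lam_smul (ga : ι → P) (al : ι → F) {r : ℕ} (c : F) (w : Ω → Fin r → M) :
    Lam ga al (c • w) = c • Lam ga al w := by
  funext x a
  simp only [Lam_apply, Pi.smul_apply, Finset.smul_sum]
  refine Finset.sum_congr rfl fun i _ => Finset.sum_congr rfl fun b _ => ?_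
  rw [smul_comm]

/-- multiplication by an operator commuting with scalars, values in different modules -/
lemma Lam_map {M' : Type*} [AddCommGroup M'] [Module F M'] (ga : ι → P) (al : ι → F) {r : ℕ}
    (φ : M →ₗ[F] M') (w : Ω → Fin r → M) :
    Lam ga al (fun x a => φ (w x a)) = fun x a => φ (Lam ga al w x a) := by
  funext x a
  simp [Lam_apply, map_sum]

/-- iterates -/
def LamIt (ga : ι → P) (al : ι → F) {r : ℕ} (j : ℕ) (w : Ω → Fin r → M) : Ω → Fin r → M :=
  (Lam ga al)^[j] w

@[simp] lemma LamIt_zero (ga : ι → P) (al : ι → F) {r : ℕ} (w : Ω → Fin r → M) :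
    LamIt ga al 0 w = w := rfl

lemma LamIt_succ (ga : ι → P) (al : ι → F) {r : ℕ} (j : ℕ) (w : Ω → Fin r → M) :
    LamIt ga al (j + 1) w = Lam ga al (LamIt ga al j w) := by
  unfold LamIt
  rw [Function.iterate_succ_apply']

lemma LamIt_succ' (ga : ι → P) (al : ι → F) {r : ℕ} (j : ℕ) (w : Ω → Fin r → M) :
    LamIt ga al (j + 1) w = LamIt ga al j (Lam ga al w) := by
  unfold LamIt
  rw [Function.iterate_succ_apply]

lemma LamIt_zero_word (ga : ι → P) (al : ι → F) {r : ℕ} (j : ℕ) :
    LamIt ga al j (0 : Ω → Fin r → M) = 0 := by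
  induction j with
  | zero => rfl
  | succ j ih => rw [LamIt_succ, ih, Lam_zero]

lemma LamIt_sub (ga : ι → P) (al : ι → F) {r : ℕ} (j : ℕ) (w w' : Ω → Fin r → M) :
    LamIt ga al j (w - w') = LamIt ga al j w - LamIt ga al j w' := by
  induction j with
  | zero => rfl
  | succ j ih => simp only [LamIt_succ, ih, Lam_sub]

lemma LamIt_add (ga : ι → P) (al : ι → F) {r : ℕ} (j : ℕ) (w w' : Ω → Fin r → M) :
    LamIt ga al j (w + w') = LamIt ga al j w + LamIt ga al j w' := by
  induction j with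
  | zero => rfl
  | succ j ih => simp only [LamIt_succ, ih, Lam_add]

lemma LamIt_smul (ga : ι → P) (al : ι → F) {r : ℕ} (j : ℕ) (c : F) (w : Ω → Fin r → M) :
    LamIt ga al j (c • w) = c • LamIt ga al j w := by
  induction j with
  | zero => rfl
  | succ j ih => simp only [LamIt_succ, ih, Lam_smul]

lemma LamIt_map {M' : Type*} [AddCommGroup M'] [Module F M'] (ga : ι → P) (al : ι → F) {r : ℕ}
    (j : ℕ) (φ : M →ₗ[F] M') (w : Ω → Fin r → M) :
    LamIt ga al j (fun x a => φ (w x a)) = fun x a => φ (LamIt ga al j w x a) := by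
  induction j with
  | zero => rfl
  | succ j ih => rw [LamIt_succ, ih, Lam_map, LamIt_succ]

/-- Restriction to an orbit commutes with `Lam`. -/
lemma Lam_orbit (ga : ι → P) (al : ι → F) {r : ℕ} (w : Ω → Fin r → M) (x0 : Ω) (g : P) :
    Lam ga al w (g • x0) = Lam ga al (fun h : P => w (h • x0)) g := by
  funext a
  simp only [Lam_apply, smul_smul, smul_eq_mul]

lemma LamIt_orbit (ga : ι → P) (al : ι → F) {r : ℕ} (j : ℕ) (w : Ω → Fin r → M) (x0 : Ω) (g : P) :
    LamIt ga al j w (g • x0) = LamIt ga al j (fun h : P => w (h • x0)) g := by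
  induction j generalizing g with
  | zero => rfl
  | succ j ih =>
    rw [LamIt_succ, LamIt_succ, Lam_orbit]
    congr 1
    funext h
    exact ih h

/-- `Lam` preserves every left translation stable submodule, componentwise. -/
lemma Lam_mem (ga : ι → P) (al : ι → F) {r : ℕ} (C : Submodule F (Ω → M))
    (hC : ∀ f ∈ C, ∀ g : P, (fun x => f (g⁻¹ • x)) ∈ C) (w : Ω → Fin r → M)
    (hw : ∀ a, (fun x => w x a) ∈ C) (a : Fin r) : (fun x => Lam ga al w x a) ∈ C := by
  have h : (fun x => Lam ga al w x a)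
      = ∑ i, ∑ b : Fin r, (al i) ^ ((a : ℕ) + (b : ℕ)) • (fun x => w ((ga i)⁻¹ • x) b) := by
    funext x
    simp [Lam_apply, Finset.sum_apply]
  rw [h]
  refine Submodule.sum_mem _ fun i _ => Submodule.sum_mem _ fun b _ => Submodule.smul_mem _ _ ?_
  exact hC _ (hw b) (ga i)

lemma LamIt_mem (ga : ι → P) (al : ι → F) {r : ℕ} (j : ℕ) (C : Submodule F (Ω → M))
    (hC : ∀ f ∈ C, ∀ g : P, (fun x => f (g⁻¹ • x)) ∈ C) (w : Ω → Fin r → M)
    (hw : ∀ a, (fun x => w x a) ∈ C) (a : Fin r) : (fun x => LamIt ga al j w x a) ∈ C := by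
  induction j generalizing a with
  | zero => exact hw a
  | succ j ih =>
    simp only [LamIt_succ]
    exact Lam_mem ga al C hC _ ih a

/-- ratio form of READ: if `u = c • v` on the orbit then all layers satisfy the same relation -/
lemma LamIt_ratio (ga : ι → P) (al : ι → F) {r : ℕ} (j : ℕ) (c : F) (u v : Ω → Fin r → M)
    (x0 : Ω) (h : ∀ g : P, u (g • x0) = c • v (g • x0)) (g : P) :
    LamIt ga al j u (g • x0) = c • LamIt ga al j v (g • x0) := by
  rw [LamIt_orbit, LamIt_orbit]
  have h1 : (fun h : P => u (h • x0)) = c • (fun h : P => v (h • x0)) := by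
    funext k
    exact h k
  rw [h1, LamIt_smul]
  rfl

/-- ratio form of READ with values in a bundle (row read). -/
lemma LamIt_ratio_map {M' : Type*} [AddCommGroup M'] [Module F M'] (ga : ι → P) (al : ι → F)
    {r : ℕ} (j : ℕ) (φ : M →ₗ[F] M') (u : Ω → Fin r → M') (v : Ω → Fin r → M)
    (x0 : Ω) (h : ∀ (g : P) (a : Fin r), u (g • x0) a = φ (v (g • x0) a)) (g : P) (a : Fin r) :
    LamIt ga al j u (g • x0) a = φ (LamIt ga al j v (g • x0) a) := by
  rw [LamIt_orbit, LamIt_orbit]
  have h1 : (fun h : P => u (h • x0)) = (fun (h : P) (a : Fin r) => φ (v (h • x0) a)) := by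
    funext k b
    exact h k b
  rw [h1, LamIt_map]

end Lam

section Growth

variable {P ι F M : Type*} [Group P] [Fintype P] [DecidableEq P] [Fintype ι] [Field F]
  [AddCommGroup M] [Module F M]

/-- Mixing of the left Cayley graph, in the form of `Exp` of `LR_846` (left side). -/
def Mix (ga : ι → P) (lam : ℝ) : Prop :=
  ∀ f : P → ℝ, (∀ g, 0 ≤ f g) →
    ∑ g, (∑ i, f ((ga i)⁻¹ * g)) ^ 2
      ≤ (Fintype.card ι : ℝ) ^ 2 * ((∑ g, f g) ^ 2 / Fintype.card P + lam ^ 2 * ∑ g, (f g) ^ 2)

open Classical in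
/-- support -/
noncomputable def supp {r : ℕ} (y : P → Fin r → M) : Finset P := univ.filter fun g => y g ≠ 0

omit [Group P] [DecidableEq P] in
lemma mem_supp {r : ℕ} (y : P → Fin r → M) (g : P) : g ∈ supp y ↔ y g ≠ 0 := by
  classical
  simp [supp]

lemma sum_left (γ : P) (f : P → ℝ) : ∑ g, f (γ⁻¹ * g) = ∑ g, f g :=
  Equiv.sum_comp (Equiv.mulLeft γ⁻¹) f

lemma sum_left_nat (γ : P) (f : P → ℕ) : ∑ g, f (γ⁻¹ * g) = ∑ g, f g :=
  Equiv.sum_comp (Equiv.mulLeft γ⁻¹) f

/-- number of neighbours in a set -/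
noncomputable def deg (ga : ι → P) (T : Finset P) (g : P) : ℕ :=
  (univ.filter fun i => (ga i)⁻¹ * g ∈ T).card

lemma deg_eq (ga : ι → P) (T : Finset P) (g : P) :
    (deg ga T g : ℝ) = ∑ i, (if (ga i)⁻¹ * g ∈ T then (1 : ℝ) else 0) := by
  unfold deg
  rw [Finset.card_filter]
  push_cast
  rfl

lemma deg_sum (ga : ι → P) (T : Finset P) :
    ∑ g, (deg ga T g : ℝ) = Fintype.card ι * T.card := by
  simp only [deg_eq]
  rw [Finset.sum_comm]
  have : ∀ i : ι, ∑ g, (if (ga i)⁻¹ * g ∈ T then (1 : ℝ) else 0) = T.card := by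
    intro i
    rw [sum_left (ga i) (fun g => if g ∈ T then (1 : ℝ) else 0)]
    simp
  rw [Finset.sum_congr rfl fun i _ => this i]
  simp

/-- variance bound -/
lemma deg_var (ga : ι → P) {lam : ℝ} (hM : Mix ga lam) (T : Finset P) :
    ∑ g, ((deg ga T g : ℝ) - Fintype.card ι * T.card / Fintype.card P) ^ 2
      ≤ (Fintype.card ι : ℝ) ^ 2 * lam ^ 2 * T.card := by
  have hP : (0 : ℝ) < Fintype.card P := by
    exact_mod_cast Fintype.card_pos
  have h := hM (fun g => if g ∈ T then (1 : ℝ) else 0) (fun g => by positivity)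
  have h1 : ∑ g : P, (if g ∈ T then (1 : ℝ) else 0) = T.card := by simp
  have h2 : ∑ g : P, (if g ∈ T then (1 : ℝ) else 0) ^ 2 = T.card := by
    simp
  rw [h1, h2] at h
  have h3 : ∑ g, (∑ i, (if (ga i)⁻¹ * g ∈ T then (1 : ℝ) else 0)) ^ 2
      = ∑ g, (deg ga T g : ℝ) ^ 2 := by
    refine Finset.sum_congr rfl fun g _ => ?_
    rw [deg_eq]
  rw [h3] at h
  have h4 : ∑ g, ((deg ga T g : ℝ) - Fintype.card ι * T.card / Fintype.card P) ^ 2
      = ∑ g, (deg ga T g : ℝ) ^ 2 - (Fintype.card ι * T.card) ^ 2 / Fintype.card P := by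
    have : ∀ g : P, ((deg ga T g : ℝ) - Fintype.card ι * T.card / Fintype.card P) ^ 2
        = (deg ga T g : ℝ) ^ 2 - 2 * (Fintype.card ι * T.card / Fintype.card P) * (deg ga T g : ℝ)
          + (Fintype.card ι * T.card / Fintype.card P) ^ 2 := fun g => by ring
    rw [Finset.sum_congr rfl fun g _ => this g, Finset.sum_add_distrib, Finset.sum_sub_distrib,
      ← Finset.mul_sum, deg_sum]
    simp only [Finset.sum_const, Finset.card_univ, nsmul_eq_mul]
    field_simp
    ring
  rw [h4]
  have h5 : (Fintype.card ι : ℝ) ^ 2 * ((T.card : ℝ) ^ 2 / Fintype.card P + lam ^ 2 * T.card)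
      = (Fintype.card ι * T.card : ℝ) ^ 2 / Fintype.card P
        + (Fintype.card ι : ℝ) ^ 2 * lam ^ 2 * T.card := by
    field_simp
  rw [h5] at h
  linarith

lemma le_of_sq_le_sq_nonneg {a b : ℝ} (h : a ^ 2 ≤ b ^ 2) (hb : 0 ≤ b) : a ≤ b := by
  by_contra hc
  push Not at hc
  nlinarith

/-- edge bound between `U` and `T` -/
lemma deg_mix (ga : ι → P) {lam : ℝ} (hM : Mix ga lam) (hlam : 0 ≤ lam) (U T : Finset P) :
    ∑ g ∈ U, (deg ga T g : ℝ)
      ≤ Fintype.card ι * (T.card * U.card / Fintype.card P + lam * √(U.card * T.card)) := by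
  have hn : (0 : ℝ) ≤ Fintype.card ι := by positivity
  set t : ℝ := Fintype.card ι * T.card / Fintype.card P with ht
  have h1 : ∑ g ∈ U, (deg ga T g : ℝ) = ∑ g ∈ U, ((deg ga T g : ℝ) - t) + U.card * t := by
    rw [Finset.sum_sub_distrib]
    simp
  have h2 : (∑ g ∈ U, ((deg ga T g : ℝ) - t)) ^ 2
      ≤ U.card * ∑ g ∈ U, ((deg ga T g : ℝ) - t) ^ 2 := sq_sum_le_card_mul_sum_sq
  have h3 : ∑ g ∈ U, ((deg ga T g : ℝ) - t) ^ 2 ≤ (Fintype.card ι : ℝ) ^ 2 * lam ^ 2 * T.card := by
    refine le_trans ?_ (deg_var ga hM T)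
    exact Finset.sum_le_sum_of_subset_of_nonneg (Finset.subset_univ U)
      fun g _ _ => sq_nonneg _
  have h4 : ∑ g ∈ U, ((deg ga T g : ℝ) - t) ≤ Fintype.card ι * lam * √(U.card * T.card) := by
    have h5 : (∑ g ∈ U, ((deg ga T g : ℝ) - t)) ^ 2
        ≤ (Fintype.card ι * lam * √(U.card * T.card)) ^ 2 := by
      have h6 : (Fintype.card ι * lam * √(U.card * T.card)) ^ 2
          = (Fintype.card ι : ℝ) ^ 2 * lam ^ 2 * (U.card * T.card) := by
        rw [mul_pow, mul_pow, Real.sq_sqrt (by positivity)]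
      rw [h6]
      calc (∑ g ∈ U, ((deg ga T g : ℝ) - t)) ^ 2
          ≤ U.card * ∑ g ∈ U, ((deg ga T g : ℝ) - t) ^ 2 := h2
        _ ≤ U.card * ((Fintype.card ι : ℝ) ^ 2 * lam ^ 2 * T.card) :=
            mul_le_mul_of_nonneg_left h3 (by positivity)
        _ = (Fintype.card ι : ℝ) ^ 2 * lam ^ 2 * (U.card * T.card) := by ring
    exact le_of_sq_le_sq_nonneg h5 (by positivity)
  rw [h1]
  have h7 : (U.card : ℝ) * t = Fintype.card ι * (T.card * U.card / Fintype.card P) := by
    rw [ht]; ring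
  rw [h7, mul_add]
  have h8 : (Fintype.card ι : ℝ) * (lam * √(U.card * T.card))
      = Fintype.card ι * lam * √(U.card * T.card) := by ring
  rw [h8]
  linarith

/-- weight of the collected word -/
noncomputable def wt (ga : ι → P) (al : ι → F) {r : ℕ} (y : P → Fin r → M) (g : P) : ℕ := by
  classical
  exact (univ.filter fun i => Enc al (y ((ga i)⁻¹ * g)) i ≠ 0).card

lemma Enc_zero (al : ι → F) {r : ℕ} (i : ι) : Enc al (0 : Fin r → M) i = 0 := by
  simp [Enc]

lemma wt_le_deg (ga : ι → P) (al : ι → F) {r : ℕ} (y : P → Fin r → M) (g : P) :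
    wt ga al y g ≤ deg ga (supp y) g := by
  classical
  unfold wt deg
  apply Finset.card_le_card
  intro i hi
  simp only [Finset.mem_filter, Finset.mem_univ, true_and] at hi ⊢
  rw [mem_supp]
  intro h0
  apply hi
  rw [h0]
  exact Enc_zero al i

lemma wt_sum (ga : ι → P) (al : ι → F) {r : ℕ} (y : P → Fin r → M)
    [∀ h, DecidablePred fun i => Enc al (y h) i ≠ 0] :
    ∑ g, wt ga al y g = ∑ h, (univ.filter fun i => Enc al (y h) i ≠ 0).card := by
  classical
  have h1 : ∀ g, wt ga al y g = ∑ i, (if Enc al (y ((ga i)⁻¹ * g)) i ≠ 0 then 1 else 0) := by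
    intro g
    unfold wt
    rw [Finset.card_filter]
    refine Finset.sum_congr rfl fun i _ => ?_
    congr 1
  have h2 : ∀ h, (univ.filter fun i => Enc al (y h) i ≠ 0).card
      = ∑ i, (if Enc al (y h) i ≠ 0 then 1 else 0) := by
    intro h
    rw [Finset.card_filter]
  rw [Finset.sum_congr rfl fun g _ => h1 g, Finset.sum_congr rfl fun h _ => h2 h,
    Finset.sum_comm]
  conv_rhs => rw [Finset.sum_comm]
  refine Finset.sum_congr rfl fun i _ => ?_
  exact sum_left_nat (ga i) (fun h => if Enc al (y h) i ≠ 0 then 1 else 0)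

lemma wt_sum_ge (ga : ι → P) (al : ι → F) (hal : Function.Injective al) {r : ℕ}
    (hr : 2 * r ≤ Fintype.card ι + 2) (y : P → Fin r → M) :
    Fintype.card ι * (supp y).card ≤ 2 * ∑ g, wt ga al y g := by
  classical
  rw [wt_sum, Finset.mul_sum]
  have h1 : ∀ h ∈ supp y, Fintype.card ι ≤ 2 * (univ.filter fun i => Enc al (y h) i ≠ 0).card := by
    intro h hh
    have h2 := enc_zeros al hal r (y h) ((mem_supp y h).1 hh)
    have h3 : (univ.filter fun i => Enc al (y h) i = 0).card
        + (univ.filter fun i => Enc al (y h) i ≠ 0).card = Fintype.card ι := by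
      rw [Finset.card_filter_add_card_filter_not]
      exact Finset.card_univ
    omega
  calc Fintype.card ι * (supp y).card = ∑ _h ∈ supp y, Fintype.card ι := by
        rw [Finset.sum_const, smul_eq_mul, mul_comm]
    _ ≤ ∑ h ∈ supp y, 2 * (univ.filter fun i => Enc al (y h) i ≠ 0).card :=
        Finset.sum_le_sum h1
    _ ≤ ∑ h, 2 * (univ.filter fun i => Enc al (y h) i ≠ 0).card :=
        Finset.sum_le_sum_of_subset (Finset.subset_univ _)

lemma mem_supp_Lam (ga : ι → P) (al : ι → F) (hal : Function.Injective al) {r : ℕ}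
    (y : P → Fin r → M) (g : P) (h1 : 1 ≤ wt ga al y g) (h2 : wt ga al y g ≤ r) :
    g ∈ supp (Lam ga al y) := by
  classical
  rw [mem_supp]
  intro h0
  have h3 : (fun i => Enc al (y ((ga i)⁻¹ • g)) i) = 0 := by
    apply syn_eq_zero al hal r
    · have : wt ga al y g = (univ.filter fun i => Enc al (y ((ga i)⁻¹ • g)) i ≠ 0).card := by
        unfold wt
        simp only [smul_eq_mul]
      rw [← this]
      exact h2
    · intro a
      exact congrFun h0 a
  have h4 : wt ga al y g = 0 := by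
    unfold wt
    rw [Finset.card_eq_zero, Finset.filter_eq_empty_iff]
    intro i _
    have := congrFun h3 i
    simp only [smul_eq_mul, Pi.zero_apply] at this
    simp [this]
  omega

set_option maxHeartbeats 1000000 in
/-- GROWTH LEMMA with a parameter `g` (`s` = any real with `g ≤ s^2`). -/
theorem growthG (ga : ι → P) (al : ι → F) (hal : Function.Injective al) {r : ℕ}
    (hr1 : Fintype.card ι ≤ 2 * r) (hr2 : 2 * r ≤ Fintype.card ι + 2) (hn : 0 < Fintype.card ι)
    {lam tau s : ℝ} (g : ℕ) (hM : Mix ga lam) (hl0 : 0 ≤ lam) (hl : lam ≤ 1 / 8)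
    (ht0 : 0 ≤ tau) (ht : tau ≤ 1 / 16) (hs0 : 0 ≤ s) (hs : (g : ℝ) ≤ s ^ 2)
    (hg : g * tau + lam * s ≤ 9 / 20) (y : P → Fin r → M)
    (hy : ((supp y).card : ℝ) ≤ tau * Fintype.card P) :
    g * (supp y).card ≤ (supp (Lam ga al y)).card := by
  classical
  set T := supp y with hT
  set n : ℝ := (Fintype.card ι : ℝ) with hnn
  have hn0 : 0 < n := by rw [hnn]; exact_mod_cast hn
  have hP : (0 : ℝ) < Fintype.card P := by exact_mod_cast Fintype.card_pos
  by_cases hT0 : T.card = 0
  · simp [hT0]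
  have hTpos : (0 : ℝ) < T.card := by exact_mod_cast Nat.pos_of_ne_zero hT0
  have hy' : (16 : ℝ) * T.card ≤ Fintype.card P := by nlinarith
  set U := univ.filter fun k => 1 ≤ wt ga al y k ∧ wt ga al y k ≤ r with hU
  set B := univ.filter fun k => r < wt ga al y k with hB
  have hUs : U ⊆ supp (Lam ga al y) := by
    intro k hk
    rw [hU, Finset.mem_filter] at hk
    exact mem_supp_Lam ga al hal y k hk.2.1 hk.2.2
  refine le_trans ?_ (Finset.card_le_card hUs)
  by_contra hcon
  push Not at hcon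
  have hUlt : (U.card : ℝ) ≤ g * T.card := by exact_mod_cast hcon.le
  -- total
  have hsplit : ∑ k, wt ga al y k = ∑ k ∈ U, wt ga al y k + ∑ k ∈ B, wt ga al y k := by
    have hdisj : Disjoint U B := by
      rw [Finset.disjoint_left]
      intro k hkU hkB
      rw [hU, Finset.mem_filter] at hkU
      rw [hB, Finset.mem_filter] at hkB
      omega
    rw [← Finset.sum_union hdisj]
    symm
    apply Finset.sum_subset (Finset.subset_univ _)
    intro k _ hk
    rw [Finset.mem_union, hU, hB, Finset.mem_filter, Finset.mem_filter] at hk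
    simp only [Finset.mem_univ, true_and] at hk
    omega
  have htot := wt_sum_ge ga al hal hr2 y
  rw [hsplit] at htot
  have htot' : n * T.card ≤ 2 * (∑ k ∈ U, (wt ga al y k : ℝ) + ∑ k ∈ B, (wt ga al y k : ℝ)) := by
    rw [hnn]
    exact_mod_cast htot
  -- B small
  have hdens : n * T.card / Fintype.card P ≤ n / 16 := by
    rw [div_le_div_iff₀ hP (by norm_num)]
    nlinarith
  have hBvar : (B.card : ℝ) * (7 * n / 16) ^ 2 ≤ n ^ 2 * lam ^ 2 * T.card := by
    refine le_trans ?_ (deg_var ga hM T)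
    calc (B.card : ℝ) * (7 * n / 16) ^ 2 = ∑ _g ∈ B, (7 * n / 16) ^ 2 := by
          rw [Finset.sum_const, nsmul_eq_mul]
      _ ≤ ∑ k ∈ B, ((deg ga T k : ℝ) - Fintype.card ι * T.card / Fintype.card P) ^ 2 := by
          apply Finset.sum_le_sum
          intro k hk
          rw [hB, Finset.mem_filter] at hk
          have h1 : (wt ga al y k : ℝ) ≤ deg ga T k := by exact_mod_cast wt_le_deg ga al y k
          have h2 : n ≤ 2 * (wt ga al y k : ℝ) := by
            rw [hnn]
            have := hk.2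
            exact_mod_cast (by omega : Fintype.card ι ≤ 2 * wt ga al y k)
          apply pow_le_pow_left₀ (by positivity)
          rw [← hnn]
          linarith
      _ ≤ ∑ k, ((deg ga T k : ℝ) - Fintype.card ι * T.card / Fintype.card P) ^ 2 :=
          Finset.sum_le_sum_of_subset_of_nonneg (Finset.subset_univ B) fun k _ _ => sq_nonneg _
  have hl2 : lam ^ 2 ≤ 1 / 64 := by nlinarith
  have hBc : (B.card : ℝ) ≤ 4 / 49 * T.card := by
    have h1 : (B.card : ℝ) * (7 * n / 16) ^ 2 ≤ n ^ 2 * (1 / 64) * T.card := by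
      refine le_trans hBvar ?_
      apply mul_le_mul_of_nonneg_right _ hTpos.le
      apply mul_le_mul_of_nonneg_left hl2 (by positivity)
    have h2 : 0 < n ^ 2 := by positivity
    have h3 : n ^ 2 * ((B.card : ℝ) * (49 / 256)) ≤ n ^ 2 * (1 / 64 * T.card) := by
      nlinarith [h1]
    have h4 := le_of_mul_le_mul_left h3 h2
    linarith
  have hBs : ∑ k ∈ B, (wt ga al y k : ℝ) ≤ n * (8 / 196 * T.card) := by
    have h1 : ∑ k ∈ B, (wt ga al y k : ℝ) ≤ ∑ k ∈ B, (deg ga T k : ℝ) :=
      Finset.sum_le_sum fun k _ => by exact_mod_cast wt_le_deg ga al y k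
    refine le_trans h1 (le_trans (deg_mix ga hM hl0 B T) ?_)
    rw [← hnn]
    apply mul_le_mul_of_nonneg_left _ hn0.le
    have h2 : (T.card : ℝ) * B.card / Fintype.card P ≤ B.card / 16 := by
      rw [div_le_div_iff₀ hP (by norm_num)]
      nlinarith [(by positivity : (0 : ℝ) ≤ B.card)]
    have h3 : √((B.card : ℝ) * T.card) ≤ 2 / 7 * T.card := by
      rw [show (2 / 7 * (T.card : ℝ)) = √((2 / 7 * (T.card : ℝ)) ^ 2) from
        (Real.sqrt_sq (by positivity)).symm]
      apply Real.sqrt_le_sqrt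
      nlinarith
    have h4 : lam * √((B.card : ℝ) * T.card) ≤ 1 / 8 * (2 / 7 * T.card) :=
      mul_le_mul hl h3 (Real.sqrt_nonneg _) (by norm_num)
    linarith
  have hUs2 : ∑ k ∈ U, (wt ga al y k : ℝ) ≤ n * (9 / 20 * T.card) := by
    have h1 : ∑ k ∈ U, (wt ga al y k : ℝ) ≤ ∑ k ∈ U, (deg ga T k : ℝ) :=
      Finset.sum_le_sum fun k _ => by exact_mod_cast wt_le_deg ga al y k
    refine le_trans h1 (le_trans (deg_mix ga hM hl0 U T) ?_)
    rw [← hnn]
    apply mul_le_mul_of_nonneg_left _ hn0.le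
    have h2 : (T.card : ℝ) * U.card / Fintype.card P ≤ tau * U.card := by
      rw [div_le_iff₀ hP]
      have h0 : (0 : ℝ) ≤ U.card := by positivity
      nlinarith [mul_le_mul_of_nonneg_right hy h0]
    have h2' : tau * (U.card : ℝ) ≤ tau * (g * T.card) := mul_le_mul_of_nonneg_left hUlt ht0
    have h3 : √((U.card : ℝ) * T.card) ≤ s * T.card := by
      rw [show (s * (T.card : ℝ)) = √((s * (T.card : ℝ)) ^ 2) from
        (Real.sqrt_sq (by positivity)).symm]
      apply Real.sqrt_le_sqrt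
      have h5 : (U.card : ℝ) * T.card ≤ (g * T.card) * T.card :=
        mul_le_mul_of_nonneg_right hUlt hTpos.le
      have h6 : (g : ℝ) * (T.card * T.card) ≤ s ^ 2 * (T.card * T.card) :=
        mul_le_mul_of_nonneg_right hs (by positivity)
      calc (U.card : ℝ) * T.card ≤ (g * T.card) * T.card := h5
        _ = (g : ℝ) * (T.card * T.card) := by ring
        _ ≤ s ^ 2 * (T.card * T.card) := h6
        _ = (s * (T.card : ℝ)) ^ 2 := by ring
    have h4 : lam * √((U.card : ℝ) * T.card) ≤ lam * (s * T.card) :=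
      mul_le_mul_of_nonneg_left h3 hl0
    have h7 : (g * tau + lam * s) * T.card ≤ 9 / 20 * T.card :=
      mul_le_mul_of_nonneg_right hg hTpos.le
    calc (T.card : ℝ) * U.card / Fintype.card P + lam * √((U.card : ℝ) * T.card)
        ≤ tau * U.card + lam * (s * T.card) := add_le_add h2 h4
      _ ≤ tau * (g * T.card) + lam * (s * T.card) := by linarith
      _ = (g * tau + lam * s) * T.card := by ring
      _ ≤ 9 / 20 * T.card := h7
  have hfin : n * T.card ≤ n * (2 * (9 / 20 + 8 / 196) * T.card) := by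
    calc n * T.card ≤ 2 * (∑ k ∈ U, (wt ga al y k : ℝ) + ∑ k ∈ B, (wt ga al y k : ℝ)) := htot'
      _ ≤ 2 * (n * (9 / 20 * T.card) + n * (8 / 196 * T.card)) := by linarith
      _ = n * (2 * (9 / 20 + 8 / 196) * T.card) := by ring
  have hlast := le_of_mul_le_mul_left hfin hn0
  have h99 : 2 * (9 / 20 + 8 / 196) * (T.card : ℝ) < T.card := by
    have : (2 * (9 / 20 + 8 / 196) : ℝ) < 1 := by norm_num
    calc 2 * (9 / 20 + 8 / 196) * (T.card : ℝ) < 1 * T.card :=
          mul_lt_mul_of_pos_right this hTpos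
      _ = T.card := one_mul _
  linarith

/-- `growthG` with numbers: density `1/(8 g)`, `lam² g ≤ 1/64` (`g ≥ 2`). -/
theorem growthN (ga : ι → P) (al : ι → F) (hal : Function.Injective al) {r : ℕ}
    (hr1 : Fintype.card ι ≤ 2 * r) (hr2 : 2 * r ≤ Fintype.card ι + 2) (hn : 0 < Fintype.card ι)
    {lam : ℝ} (g : ℕ) (hg2 : 2 ≤ g) (hM : Mix ga lam) (hl0 : 0 ≤ lam)
    (hl : 64 * (lam ^ 2 * g) ≤ 1) (y : P → Fin r → M)
    (hy : 8 * g * (supp y).card ≤ Fintype.card P) :
    g * (supp y).card ≤ (supp (Lam ga al y)).card := by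
  have hg0 : (2 : ℝ) ≤ g := by exact_mod_cast hg2
  have hgpos : (0 : ℝ) < g := by linarith
  refine growthG (tau := 1 / (8 * g)) (s := √g) ga al hal hr1 hr2 hn g hM hl0 ?_ (by positivity)
    ?_ (Real.sqrt_nonneg _) (by rw [Real.sq_sqrt hgpos.le]) ?_ y ?_
  · by_contra hc
    push Not at hc
    nlinarith [mul_pos hgpos (by linarith : (0 : ℝ) < lam)]
  · rw [div_le_div_iff₀ (by positivity) (by norm_num)]
    linarith
  · have h1 : (g : ℝ) * (1 / (8 * g)) = 1 / 8 := by field_simp
    have h2 : lam * √g ≤ 1 / 8 := by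
      apply le_of_sq_le_sq_nonneg _ (by norm_num)
      rw [mul_pow, Real.sq_sqrt hgpos.le]
      linarith
    rw [h1]
    linarith
  · rw [one_div, ← div_eq_inv_mul, le_div_iff₀ (by positivity)]
    have : ((8 * g * (supp y).card : ℕ) : ℝ) ≤ (Fintype.card P : ℝ) := by exact_mod_cast hy
    push_cast at this
    linarith

/-- GROWTH LEMMA, factor 3. -/
theorem growth3 (ga : ι → P) (al : ι → F) (hal : Function.Injective al) {r : ℕ}
    (hr1 : Fintype.card ι ≤ 2 * r) (hr2 : 2 * r ≤ Fintype.card ι + 2) (hn : 0 < Fintype.card ι)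
    {lam : ℝ} (hM : Mix ga lam) (hl0 : 0 ≤ lam) (hl : lam ≤ 1 / 8) (y : P → Fin r → M)
    (hy : 16 * (supp y).card ≤ Fintype.card P) :
    3 * (supp y).card ≤ (supp (Lam ga al y)).card := by
  refine growthG (tau := 1 / 16) (s := 26 / 15) ga al hal hr1 hr2 hn 3 hM hl0 hl (by norm_num)
    le_rfl (by norm_num) (by norm_num) (by push_cast; linarith) y ?_
  have : ((16 * (supp y).card : ℕ) : ℝ) ≤ (Fintype.card P : ℝ) := by exact_mod_cast hy
  push_cast at this
  linarith

/-- GROWTH LEMMA, factor 2. -/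
theorem growth (ga : ι → P) (al : ι → F) (hal : Function.Injective al) {r : ℕ}
    (hr1 : Fintype.card ι ≤ 2 * r) (hr2 : 2 * r ≤ Fintype.card ι + 2) (hn : 0 < Fintype.card ι)
    {lam : ℝ} (hM : Mix ga lam) (hl0 : 0 ≤ lam) (hl : lam ≤ 1 / 8) (y : P → Fin r → M)
    (hy : 16 * (supp y).card ≤ Fintype.card P) :
    2 * (supp y).card ≤ (supp (Lam ga al y)).card := by
  have := growth3 ga al hal hr1 hr2 hn hM hl0 hl y hy
  omega

/-- CASCADE: one of the layers `j < L` is dense, if `|P| < 2^L`. -/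
theorem cascade (ga : ι → P) (al : ι → F) (hal : Function.Injective al) {r : ℕ}
    (hr1 : Fintype.card ι ≤ 2 * r) (hr2 : 2 * r ≤ Fintype.card ι + 2) (hn : 0 < Fintype.card ι)
    {lam : ℝ} (hM : Mix ga lam) (hl0 : 0 ≤ lam) (hl : lam ≤ 1 / 8) (y : P → Fin r → M)
    (hy : y ≠ 0) (L : ℕ) (hL : Fintype.card P < 2 ^ L) :
    ∃ j < L, Fintype.card P < 16 * (supp (LamIt ga al j y)).card := by
  classical
  by_contra hcon
  push Not at hcon
  have h1 : ∀ j ≤ L, 2 ^ j ≤ (supp (LamIt ga al j y)).card := by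
    intro j hj
    induction j with
    | zero =>
      simp only [pow_zero, LamIt_zero]
      refine Finset.card_pos.2 ?_
      obtain ⟨g, hg⟩ := Function.ne_iff.mp hy
      exact ⟨g, (mem_supp y g).2 hg⟩
    | succ j ih =>
      have h2 := ih (by omega)
      have h3 := growth ga al hal hr1 hr2 hn hM hl0 hl (LamIt ga al j y) (hcon j (by omega))
      rw [LamIt_succ]
      calc 2 ^ (j + 1) = 2 * 2 ^ j := by ring
        _ ≤ 2 * (supp (LamIt ga al j y)).card := by omega
        _ ≤ _ := h3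
  have h2 := h1 L le_rfl
  have h3 : (supp (LamIt ga al L y)).card ≤ Fintype.card P := Finset.card_le_univ _
  omega

end Growth

section Words

variable {P Ω ι F M : Type*} [Group P] [Fintype P] [DecidableEq P] [MulAction P Ω] [Fintype ι]
  [Field F] [AddCommGroup M] [Module F M]

/-- ZERO TEST ON AN ORBIT. If `w` is non-zero at one point of the orbit of `x0`, one of the layers
`j < L` is non-zero at more than `|P|/16` points `g • x0`. -/
theorem zero_test (ga : ι → P) (al : ι → F) (hal : Function.Injective al) {r : ℕ}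
    (hr1 : Fintype.card ι ≤ 2 * r) (hr2 : 2 * r ≤ Fintype.card ι + 2) (hn : 0 < Fintype.card ι)
    {lam : ℝ} (hM : Mix ga lam) (hl0 : 0 ≤ lam) (hl : lam ≤ 1 / 8) (w : Ω → Fin r → M) (x0 : Ω)
    (hw : ∃ g : P, w (g • x0) ≠ 0) (L : ℕ) (hL : Fintype.card P < 2 ^ L)
    [∀ j, DecidablePred fun g : P => LamIt ga al j w (g • x0) ≠ 0] :
    ∃ j < L, Fintype.card P < 16 * (univ.filter fun g : P => LamIt ga al j w (g • x0) ≠ 0).card := by
  classical
  obtain ⟨g, hg⟩ := hw
  obtain ⟨j, hj, h⟩ := cascade ga al hal hr1 hr2 hn hM hl0 hl (fun h : P => w (h • x0))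
    (fun h0 => hg (congrFun h0 g)) L hL
  refine ⟨j, hj, ?_⟩
  have h1 : supp (LamIt ga al j (fun h : P => w (h • x0)))
      = univ.filter fun g : P => LamIt ga al j w (g • x0) ≠ 0 := by
    ext k
    rw [mem_supp, Finset.mem_filter, LamIt_orbit]
    simp
  rwa [h1] at h

/-- If `w` vanishes on the orbit, so do all layers. -/
theorem zero_layers (ga : ι → P) (al : ι → F) {r : ℕ} (w : Ω → Fin r → M) (x0 : Ω)
    (hw : ∀ g : P, w (g • x0) = 0) (j : ℕ) (g : P) : LamIt ga al j w (g • x0) = 0 := by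
  rw [LamIt_orbit]
  have h1 : (fun h : P => w (h • x0)) = 0 := funext hw
  rw [h1, LamIt_zero_word]
  rfl

/-- zero on the orbit iff all the layers `j < L` are sparse there -/
theorem zero_iff (ga : ι → P) (al : ι → F) (hal : Function.Injective al) {r : ℕ}
    (hr1 : Fintype.card ι ≤ 2 * r) (hr2 : 2 * r ≤ Fintype.card ι + 2) (hn : 0 < Fintype.card ι)
    {lam : ℝ} (hM : Mix ga lam) (hl0 : 0 ≤ lam) (hl : lam ≤ 1 / 8) (w : Ω → Fin r → M) (x0 : Ω)
    (L : ℕ) (hL : Fintype.card P < 2 ^ L)
    [∀ j, DecidablePred fun g : P => LamIt ga al j w (g • x0) ≠ 0] :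
    (∀ g : P, w (g • x0) = 0) ↔
      ∀ j < L, 16 * (univ.filter fun g : P => LamIt ga al j w (g • x0) ≠ 0).card
        ≤ Fintype.card P := by
  constructor
  · intro h j _
    have : (univ.filter fun g : P => LamIt ga al j w (g • x0) ≠ 0) = ∅ := by
      rw [Finset.filter_eq_empty_iff]
      intro g _
      simp [zero_layers ga al w x0 h j g]
    rw [this]
    simp
  · intro h g
    by_contra hg
    obtain ⟨j, hj, h1⟩ := zero_test ga al hal hr1 hr2 hn hM hl0 hl w x0 ⟨g, hg⟩ L hL
    have := h j hj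
    omega

end Words

end Crest.Agent.R289.Cascade397
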