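import Crest.Agent.R289.AsmObj_12
import Crest.Agent.R289.Cascade_397
import Crest.Agent.R289.MixProd_178

/-!
# Row 289, (s2): mixing of the left translations on `P k` and on `P k × P k2`

`Cascade397.Mix` (hypothesis of the growth lemma) for the families `z ↦ a z` on `P k` and
`(z, z') ↦ (a z, a z')` on `P k × P k2`, from `Obj.OK.exp`, with the constant in the form wanted by
`Cascade397.growthN` (`64 * (lam ^ 2 * g) ≤ 1`).
-/

set_option autoImplicit false

namespace Crest.Agent.R289.MixObj365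

open Crest.Agent.R289 Crest.Agent.R289.Asm12

/-- right expansion gives left mixing -/
theorem mix_of_exp {P I : Type} [Group P] [Fintype P] [DecidableEq P] [Fintype I] {s : I → P}
    {lam : ℝ} (h : TP846.Exp s lam) : Cascade397.Mix s lam := by
  have h1 : MixProd178.MixF (fun i v => v * s i) lam := h
  have h2 := (MixProd178.mixF_right_iff_left s lam).1 h1
  exact h2

/-- product families -/
theorem mix_prod {G T I J : Type} [Group G] [Fintype G] [DecidableEq G] [Group T] [Fintype T]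
    [DecidableEq T] [Fintype I] [Fintype J] {s : I → G} {t : J → T} {l1 l2 l3 : ℝ}
    (hs : TP846.Exp s l1) (ht : TP846.Exp t l2)
    (h3 : l1 ^ 2 + l2 ^ 2 + l1 ^ 2 * l2 ^ 2 ≤ l3 ^ 2) :
    Cascade397.Mix (fun x : I × J => ((s x.1, t x.2) : G × T)) l3 := by
  have h1 : MixProd178.MixF (fun i v => v * s i) l1 := hs
  have h2 : MixProd178.MixF (fun i v => v * t i) l2 := ht
  exact MixProd178.MixF.prod_left ((MixProd178.mixF_right_iff_left s l1).1 h1)
    ((MixProd178.mixF_right_iff_left t l2).1 h2) h3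

/-- numbers -/
theorem lam_ok {lam lam0 : ℝ} (h0 : 0 ≤ lam) (h1 : lam ≤ lam0) {g : ℕ} (hg : 2 ≤ g)
    (hl : 16 * g * lam0 ≤ 1) : 64 * ((2 * lam) ^ 2 * g) ≤ 1 := by
  have hg' : (2 : ℝ) ≤ g := by exact_mod_cast hg
  have hgl : 16 * (g : ℝ) * lam ≤ 1 := by
    have : 16 * (g : ℝ) * lam ≤ 16 * g * lam0 := mul_le_mul_of_nonneg_left h1 (by positivity)
    linarith
  have hgl0 : 0 ≤ (g : ℝ) * lam := by positivity
  -- `256 g lam² ≤ 1`
  have h2 : 256 * ((g : ℝ) * lam) ^ 2 ≤ 1 := by nlinarith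
  have h3 : (g : ℝ) * lam ^ 2 ≤ ((g : ℝ) * lam) ^ 2 := by
    have : (g : ℝ) ≤ (g : ℝ) ^ 2 := by nlinarith
    nlinarith [mul_le_mul_of_nonneg_right this (sq_nonneg lam)]
  nlinarith

/-- the square sum bound for two families with gap at most `lam` -/
theorem sq_ok {lam : ℝ} (h0 : 0 ≤ lam) (h1 : lam ≤ 1) :
    lam ^ 2 + lam ^ 2 + lam ^ 2 * lam ^ 2 ≤ (2 * lam) ^ 2 := by
  have h2 : lam ^ 2 ≤ 1 := by nlinarith
  nlinarith [mul_nonneg (sq_nonneg lam) (sub_nonneg.2 h2)]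

/-- **mixing on `P k` and on `P k × P k2`** for all levels, one constant `lam`, in the form of
`Cascade397.growthN` -/
theorem mix_obj {D : Obj} {M0 : ℕ} {lam0 Kr : ℝ} (h : D.OK M0 lam0 Kr) {g : ℕ} (hg : 2 ≤ g)
    (hl : 16 * g * lam0 ≤ 1) :
    ∃ lam : ℝ, 0 ≤ lam ∧ 64 * (lam ^ 2 * g) ≤ 1 ∧
      (∀ k, Cascade397.Mix (D.tp k).a lam) ∧
      ∀ k k2, Cascade397.Mix
        (fun x : Option D.K × Option D.K => (((D.tp k).a x.1, (D.tp k2).a x.2) :
          D.P k × D.P k2)) lam := by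
  obtain ⟨lam, h0, h1, -, hE⟩ := h.exp
  have hg' : (2 : ℝ) ≤ g := by exact_mod_cast hg
  have hlam0 : 0 ≤ lam0 := h0.trans h1
  have hle : lam ≤ 1 := by nlinarith
  refine ⟨2 * lam, by positivity, lam_ok h0 h1 hg hl, fun k => ?_, fun k k2 => ?_⟩
  · have := mix_of_exp (hE k).1
    intro f hf
    refine (this f hf).trans ?_
    refine mul_le_mul_of_nonneg_left ?_ (sq_nonneg _)
    have h4 : lam ^ 2 ≤ (2 * lam) ^ 2 := by nlinarith [sq_nonneg lam]
    have h5 : 0 ≤ ∑ g, (f g) ^ 2 := Finset.sum_nonneg fun _ _ => sq_nonneg _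
    have := mul_le_mul_of_nonneg_right h4 h5
    linarith
  · exact mix_prod (hE k).1 (hE k2).1 (sq_ok h0 hle)

end Crest.Agent.R289.MixObj365
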