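import Crest.Agent.R289.DefI_306
import Crest.Agent.R289.CascGam_577
import Crest.Agent.R289.MixObj_365
import Crest.Agent.R289.RevChain_123

/-!
# Row 289, block C: the cascade operator of `DefI_306` on contents, with its growth

* `LamP co mv` : cascade operator on content functions `Γ → Fin R → M` (additive).
* `slice` : the content slice of `Ins.Lam y` is `LamP c.lam I.mv` of the content slice of `y`.
* `exists_casc` : cascade coefficients depending only on `K` and the index set, growth in the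
  literal form `hg` of `Gap731.record_gap` / `RevChain123.rc_spreadG`.
* `obj_casc`, `obj_casc1` : the same for `Γ = P k × P k2` and `Γ = P k` from `Obj.OK`.
-/

set_option autoImplicit false
set_option linter.unusedSectionVars false

namespace Crest.Agent.R289.LamI577

open Finset Crest.Agent.R289

section op

variable {Γ Jc K M : Type} [Field K] [Fintype Jc] [AddCommGroup M] [Module K M] {R : ℕ}

/-- cascade operator on contents -/
def LamP (co : Jc → Fin R → Fin R → K) (mv : Jc → Equiv.Perm Γ) :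
    (Γ → Fin R → M) →+ (Γ → Fin R → M) where
  toFun y := fun g a => ∑ j, ∑ b, co j a b • y (mv j g) b
  map_zero' := by
    funext g a
    simp
  map_add' y z := by
    funext g a
    simp only [Pi.add_apply, smul_add, Finset.sum_add_distrib]

theorem LamP_apply (co : Jc → Fin R → Fin R → K) (mv : Jc → Equiv.Perm Γ) (y : Γ → Fin R → M)
    (g : Γ) (a : Fin R) : LamP co mv y g a = ∑ j, ∑ b, co j a b • y (mv j g) b := rfl

theorem LamP_eq_LamK [Group Γ] (ga : Jc → Γ) (co : Jc → Fin R → Fin R → K)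
    (mv : Jc → Equiv.Perm Γ) (hmv : ∀ j g, mv j g = (ga j)⁻¹ * g) (y : Γ → Fin R → M) :
    LamP co mv y = CascGam577.LamK ga co y := by
  funext g a
  rw [LamP_apply]
  simp only [CascGam577.LamK, hmv, smul_eq_mul]

end op

section slice

variable {K : Type} [Field K] {c : DefI.Cst K} (I : DefI.Ins c)

/-- **content slice** of the cascade operator of `DefI_306` -/
theorem slice (y : I.AW) :
    (fun g => I.Lam y (g, c.s0)) = LamP c.lam I.mv (fun g => y (g, c.s0)) := by
  funext g a m
  rw [LamP_apply]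
  simp only [Finset.sum_apply, Pi.smul_apply, smul_eq_mul]
  rfl

/-- content slice at any symbol -/
theorem slice_at (y : I.AW) (s : c.S) :
    (fun g => I.Lam y (g, s)) = LamP c.lam I.mv (fun g => y (g, s)) := by
  funext g a m
  rw [LamP_apply]
  simp only [Finset.sum_apply, Pi.smul_apply, smul_eq_mul]
  rfl

end slice

section growth

theorem supp_card {Γ M : Type} [Fintype Γ] [AddCommGroup M] (f : Γ → M) :
    (RevChain123.supp f).card = Growth2.sz f := by
  classical
  unfold RevChain123.supp Growth2.sz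
  congr 1

/-- **cascade coefficients depending only on `K` and `ι`, growth factor `g`** (form `hg` of
`record_gap`, `m + 1 = g`) -/
theorem exists_casc (K : Type) [Field K] [Finite K] (ι : Type) [Fintype ι] [Nonempty ι] :
    ∃ (r : ℕ) (co : ι → Fin (r + 1) → Fin (r + 1) → K),
      ∀ (Γ : Type) [Group Γ] [Fintype Γ] (ga : ι → Γ) (lam : ℝ) (g : ℕ), Cascade397.Mix ga lam →
        0 ≤ lam → 1 ≤ g → 64 * (lam ^ 2 * g) ≤ 1 → ∀ (mv : ι → Equiv.Perm Γ),
        (∀ j x, mv j x = (ga j)⁻¹ * x) → ∀ th : ℕ, 16 * g * th ≤ Fintype.card Γ →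
        ∀ (M : Type) [AddCommGroup M] [Module K M] (f : Γ → Fin (r + 1) → M), f ≠ 0 →
          (RevChain123.supp f).card ≤ th →
          g * (RevChain123.supp f).card ≤ (RevChain123.supp (LamP co mv f)).card := by
  obtain ⟨R, co, hR, h⟩ := CascGam577.exists_co K ι
  obtain ⟨r, rfl⟩ : ∃ r, R = r + 1 := ⟨R - 1, by omega⟩
  refine ⟨r, co, ?_⟩
  intro Γ _ _ ga lam g hM hl0 hg hl mv hmv th hth M _ _ f _ hf
  rw [supp_card] at hf ⊢
  rw [supp_card, LamP_eq_LamK ga co mv hmv f]
  refine h Γ ga lam g hM hl0 hg ?_ M f ?_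
  · calc 64 * (g : ℝ) * lam ^ 2 = 64 * (lam ^ 2 * g) := by ring
      _ ≤ 1 := hl
  · calc 16 * g * Growth2.sz f ≤ 16 * g * th := Nat.mul_le_mul_left _ hf
      _ ≤ Fintype.card Γ := hth

/-- **the cascade of the content group `P k × P k2`** -/
theorem obj_casc {D : Asm12.Obj} {M0 : ℕ} {lam0 Kr : ℝ} (h : D.OK M0 lam0 Kr) {g : ℕ}
    (hg : 2 ≤ g) (hl : 16 * g * lam0 ≤ 1) :
    ∃ (r : ℕ) (co : (Option D.K × Option D.K) → Fin (r + 1) → Fin (r + 1) → D.K),
      ∀ (k k2 : ℕ) (th : ℕ), 16 * g * th ≤ Fintype.card (D.P k × D.P k2) →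
        ∀ (mv : (Option D.K × Option D.K) → Equiv.Perm (D.P k × D.P k2)),
        (∀ j x, mv j x = ((((D.tp k).a j.1, (D.tp k2).a j.2) : D.P k × D.P k2))⁻¹ * x) →
        ∀ (M : Type) [AddCommGroup M] [Module D.K M] (f : D.P k × D.P k2 → Fin (r + 1) → M),
          f ≠ 0 → (RevChain123.supp f).card ≤ th →
          g * (RevChain123.supp f).card ≤ (RevChain123.supp (LamP co mv f)).card := by
  obtain ⟨r, co, hco⟩ := exists_casc D.K (Option D.K × Option D.K)
  obtain ⟨lam, h0, h1, -, h3⟩ := MixObj365.mix_obj h hg hl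
  refine ⟨r, co, ?_⟩
  intro k k2 th hth mv hmv M _ _ f hf hf2
  exact hco (D.P k × D.P k2) (fun x => ((D.tp k).a x.1, (D.tp k2).a x.2)) lam g (h3 k k2) h0
    (by omega) h1 mv hmv th hth M f hf hf2

/-- the cascade of the group `P k` -/
theorem obj_casc1 {D : Asm12.Obj} {M0 : ℕ} {lam0 Kr : ℝ} (h : D.OK M0 lam0 Kr) {g : ℕ}
    (hg : 2 ≤ g) (hl : 16 * g * lam0 ≤ 1) :
    ∃ (r : ℕ) (co : Option D.K → Fin (r + 1) → Fin (r + 1) → D.K),
      ∀ (k : ℕ) (th : ℕ), 16 * g * th ≤ Fintype.card (D.P k) →
        ∀ (mv : Option D.K → Equiv.Perm (D.P k)),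
        (∀ j x, mv j x = ((D.tp k).a j)⁻¹ * x) →
        ∀ (M : Type) [AddCommGroup M] [Module D.K M] (f : D.P k → Fin (r + 1) → M),
          f ≠ 0 → (RevChain123.supp f).card ≤ th →
          g * (RevChain123.supp f).card ≤ (RevChain123.supp (LamP co mv f)).card := by
  obtain ⟨r, co, hco⟩ := exists_casc D.K (Option D.K)
  obtain ⟨lam, h0, h1, h2, -⟩ := MixObj365.mix_obj h hg hl
  refine ⟨r, co, ?_⟩
  intro k th hth mv hmv M _ _ f hf hf2
  exact hco (D.P k) (D.tp k).a lam g (h2 k) h0 (by omega) h1 mv hmv th hth M f hf hf2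

end growth

section words

variable {K : Type} [Field K] {c : DefI.Cst K} (I : DefI.Ins c)

/-- `Ins.Lam` preserves every submodule of words that is stable under the moves, for all slots and
components -/
theorem Lam_mem (C : Submodule K (I.Om → K)) (hC : ∀ f ∈ C, ∀ j, (fun ω => f (I.pm (I.mv j) ω)) ∈ C)
    (y : I.AW) (hy : ∀ a m, (fun ω => y ω a m) ∈ C) (a : Fin (c.r + 1)) (m : c.A.Comp) :
    (fun ω => I.Lam y ω a m) ∈ C := by
  have h : (fun ω => I.Lam y ω a m) =
      ∑ j, ∑ b, c.lam j a b • (fun ω => y (I.pm (I.mv j) ω) b m) := by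
    funext ω
    simp only [Finset.sum_apply, Pi.smul_apply, smul_eq_mul]
    rfl
  rw [h]
  refine Submodule.sum_mem _ fun j _ => Submodule.sum_mem _ fun b _ => Submodule.smul_mem _ _ ?_
  exact hC _ (hy b m) j

/-- the chain of `Level492` read at a content symbol is the chain of the contents -/
theorem chain_slice (w : I.AW) (s : c.S) (j : ℕ) :
    (fun g => Level492.chain I.Lam w j (g, s)) =
      Growth2.chain (fun y => LamP c.lam I.mv y) 1 (fun g => w (g, s)) j := by
  have key : ∀ j, (fun g => Level492.chain I.Lam w j (g, s)) =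
      Growth2.chain (fun y => LamP c.lam I.mv y) 1 (fun g => w (g, s)) j ∧
      (fun g => Level492.chain I.Lam w (j + 1) (g, s)) =
      Growth2.chain (fun y => LamP c.lam I.mv y) 1 (fun g => w (g, s)) (j + 1) := by
    intro j
    induction j with
    | zero => exact ⟨rfl, slice_at I w s⟩
    | succ j ih =>
      refine ⟨ih.2, ?_⟩
      rw [Growth2.chain_two, ← ih.2, ← ih.1, ← slice_at I]
      funext g
      show (I.Lam (Level492.chain I.Lam w (j + 1)) + Level492.chain I.Lam w j) (g, s) = _
      simp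
  exact (key j).1

end words

end Crest.Agent.R289.LamI577
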