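import Crest.Agent.R289.GamObj_821
import Crest.Agent.R289.Gap_731

/-!
# Row 289: distances of the word spaces of one object (`Obj.OK` of AsmObj_12), in units

* `udist_cmod` : a non-zero word of degree `d ≤ M0` is non-zero at half of the units;
* `gcm` : the words on `Gam = P k × P k'` in the form `Gam → S × S → K`; `udist_gcm` : a quarter.
-/

set_option autoImplicit false

namespace Crest.Agent.R289.ObjDist821

open Finset Crest.Agent.R289.Asm12 Crest.Agent.R289.ObjTO821 Crest.Agent.R289.GamObj821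
open Crest.Agent.R289.TP846 Crest.Agent.R289.Tan846 Crest.Agent.R289.LTC846
open Crest.Agent.R289.DefD Crest.Agent.R289.Gap731

variable {D : Obj} {M0 : ℕ} {lam0 Kr : ℝ}

/-- a non-zero word is non-zero at half of the units -/
theorem udist_cmod (h : D.OK M0 lam0 Kr) (hl : lam0 ≤ 1 / 4) (k : ℕ) {d : ℕ} (hd : d ≤ M0) :
    UDist (cmod D k d : Set (D.P k → Sy D → D.K)) (1 / 2) := by
  classical
  intro f hf hne
  obtain ⟨n, hn, hX, hY⟩ := h.dist
  obtain ⟨lam, hlam0, hlam, -, hexp⟩ := h.exp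
  have hne' : (fun g l m => f g (l, m)) ≠ (fun (_ : D.P k) (_ _ : Option D.K) => (0 : D.K)) := by
    intro hc
    apply hne
    funext t s
    exact congrFun (congrFun (congrFun hc t) s.1) s.2
  have key0 := (D.tp k).sep (Y := fun g l m => f g (l, m)) (Y' := fun _ _ _ => 0)
    (hexp k).2.1 (fun i w => hY d hd i w) ((mem_cmod D).1 hf)
    ((mem_cmod D).1 (cmod D k d).zero_mem) hne'
  have hP : (0 : ℝ) < Fintype.card (D.P k) := by exact_mod_cast Fintype.card_pos
  have hI : (0 : ℝ) < Fintype.card (Option D.K) := by exact_mod_cast Fintype.card_pos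
  have hn' : (3 : ℝ) * Fintype.card (Option D.K) ≤ 4 * n := by exact_mod_cast hn
  set I : ℝ := (Fintype.card (Option D.K) : ℝ) with hIdef
  set P : ℝ := (Fintype.card (D.P k) : ℝ) with hPdef
  have key : (n : ℝ) ^ 2 * P ≤ I ^ 2 * ((cnt (fun u => (fun l m => f u (l, m)) ≠
      (fun (_ _ : Option D.K) => (0 : D.K))) : ℝ) + lam ^ 2 * P) := key0
  have hc : (cnt (fun u => (fun l m => f u (l, m)) ≠
      (fun (_ _ : Option D.K) => (0 : D.K))) : ℝ) =
      frac (fun p => f p ≠ 0) * P := by
    unfold frac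
    rw [div_mul_cancel₀ _ hP.ne']
    unfold cnt
    congr 2
    ext u
    simp only [mem_filter, mem_univ, true_and]
    refine not_congr ⟨fun h1 => ?_, fun h1 => ?_⟩
    · funext s
      exact congrFun (congrFun h1 s.1) s.2
    · funext l m
      exact congrFun h1 (l, m)
  rw [hc] at key
  have h1 : I ^ 2 * (9 / 16) ≤ (n : ℝ) ^ 2 := by
    have : I * (3 / 4) ≤ n := by linarith
    calc I ^ 2 * (9 / 16) = (I * (3 / 4)) ^ 2 := by ring
      _ ≤ (n : ℝ) ^ 2 := by gcongr
  have h2 : lam ^ 2 ≤ 1 / 16 := by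
    have : lam ≤ 1 / 4 := hlam.trans hl
    calc lam ^ 2 ≤ (1 / 4) ^ 2 := by gcongr
      _ = 1 / 16 := by norm_num
  have h3 : I ^ 2 * P * (9 / 16) ≤ I ^ 2 * P * (frac (fun p => f p ≠ 0) + lam ^ 2) := by
    calc I ^ 2 * P * (9 / 16) = I ^ 2 * (9 / 16) * P := by ring
      _ ≤ (n : ℝ) ^ 2 * P := by gcongr
      _ ≤ I ^ 2 * (frac (fun p => f p ≠ 0) * P + lam ^ 2 * P) := key
      _ = _ := by ring
  have h4 : (9 / 16 : ℝ) ≤ frac (fun p => f p ≠ 0) + lam ^ 2 :=
    le_of_mul_le_mul_left h3 (by positivity)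
  linarith

/-! ### words on `Gam` -/

variable (D) (k k' : ℕ)

/-- words of degree `d` on `Gam`, curried -/
def gcm (d : ℕ) : Submodule D.K (Gam D k k' → SyG D → D.K) where
  carrier := {f | (fun x : Om D k k' => f x.1 x.2) ∈ gmod D k k' d}
  zero_mem' := (gmod D k k' d).zero_mem
  add_mem' {f g} hf hg := by
    have h1 : (fun x : Om D k k' => f x.1 x.2) + (fun x : Om D k k' => g x.1 x.2) ∈
      gmod D k k' d := (gmod D k k' d).add_mem hf hg
    exact h1
  smul_mem' c f hf := by
    have h1 : c • (fun x : Om D k k' => f x.1 x.2) ∈ gmod D k k' d :=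
      (gmod D k k' d).smul_mem c hf
    exact h1

variable {D k k'}

theorem mem_gcm {d : ℕ} {f : Gam D k k' → SyG D → D.K} :
    f ∈ gcm D k k' d ↔ (fun x : Om D k k' => f x.1 x.2) ∈ gmod D k k' d := Iff.rfl

/-- the words on `Gam` in the product form of Gap_731 (unit `(g, t)`, symbols `s`, `s'`) -/
theorem gcm_inT {d : ℕ} {f : Gam D k k' → SyG D → D.K} (hf : f ∈ gcm D k k' d) :
    InT (cmod D k d) (cmod D k' d) (M := D.K) (fun u s s' => f u (s, s')) where
  row τ t φ := by
    have h1 : (fun p s => φ (f (p, τ) (s, t))) = φ 1 • fun p s => f (p, τ) (s, t) := by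
      funext p s
      simp only [Pi.smul_apply, smul_eq_mul]
      rw [← mul_one (f (p, τ) (s, t)), ← smul_eq_mul (f (p, τ) (s, t)) 1, map_smul,
        smul_eq_mul, mul_comm, smul_eq_mul, mul_one]
    show (fun p s => φ (f (p, τ) (s, t))) ∈ cmod D k d
    rw [h1]
    exact (cmod D k d).smul_mem _ (hf.1 (τ, t))
  col p s φ := by
    have h1 : (fun τ t => φ (f (p, τ) (s, t))) = φ 1 • fun τ t => f (p, τ) (s, t) := by
      funext τ t
      simp only [Pi.smul_apply, smul_eq_mul]
      rw [← mul_one (f (p, τ) (s, t)), ← smul_eq_mul (f (p, τ) (s, t)) 1, map_smul,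
        smul_eq_mul, mul_comm, smul_eq_mul, mul_one]
    show (fun τ t => φ (f (p, τ) (s, t))) ∈ cmod D k' d
    rw [h1]
    exact (cmod D k' d).smul_mem _ (hf.2 (p, s))

/-- a non-zero word on `Gam` is non-zero at a quarter of the units -/
theorem udist_gcm (h : D.OK M0 lam0 Kr) (hl : lam0 ≤ 1 / 4) {d : ℕ} (hd : d ≤ M0) :
    UDist (gcm D k k' d : Set (Gam D k k' → SyG D → D.K)) (1 / 4) := by
  intro f hf hne
  have hne' : (fun (u : Gam D k k') (s s' : Sy D) => f u (s, s')) ≠ 0 := by
    intro hc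
    apply hne
    funext u s
    exact congrFun (congrFun (congrFun hc u) s.1) s.2
  have key := udist_tens (udist_cmod h hl k hd) (udist_cmod h hl k' hd) (by norm_num)
    (gcm_inT hf) hne'
  have hc : frac (fun u => (fun (u : Gam D k k') (s s' : Sy D) => f u (s, s')) u ≠ 0) =
      frac (fun p => f p ≠ 0) := by
    congr 1
    funext u
    refine propext (not_congr ⟨fun h1 => ?_, fun h1 => ?_⟩)
    · funext s
      exact congrFun (congrFun h1 s.1) s.2
    · funext s s'
      exact congrFun h1 (s, s')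
  rw [hc] at key
  linarith

end Crest.Agent.R289.ObjDist821
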