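import Mathlib
import Crest.Agent.R289.InsObj_576
import Crest.Agent.R289.GapI_731
import Crest.Agent.R289.ObjDist_821
import Crest.Agent.R289.MixObj_365
import Crest.Agent.R289.LamI_577
import Crest.Agent.R289.GapS_719
import Crest.Agent.R289.HypObj_146
import Crest.Agent.R289.Mem_12

/-!
Row 289, leaf C_GAPOBJ (helper719): the numerical data of the gap theorem for the instance
`InsObj576.ins`.

* `ud_wmod` : words of degree `≤ M0` on `P k`: distance `1/2` in units (form `Gap731.UD`);
* `CG_eq`, `ud_CG` : words of degree `≤ M0` on `P k × P k'`: distance `1/4`;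
* `dV` : the words `Mirror545.InV` of the mirror data have distance `1/2`;
* `growth` : growth of the cascade operator on contents, factor `g`, threshold `th`;
* `growth244`, `th_ratio`, `log_ok` : `g = 244`, `th = |Γ| / 3904`;
* T-side: memberships of the public words;
* `num`, `numM` : `GapS719.Num` for `InsObj576.ins` and for `Mem12.Mem.I`, `g = 1 / 15616`;
* `cok` : `Ins.COK` for the instance.
-/

set_option autoImplicit false
set_option linter.unusedSectionVars false
set_option linter.unusedVariables false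

namespace Crest.Agent.R289.GapObj719

open Finset Crest.Agent.R289.Asm12 Crest.Agent.R289.DefD Crest.Agent.R289.LCa72
  Crest.Agent.R289.Gap731 Crest.Agent.R289.DefI
open Crest.Agent.R289.TOInst112 (Sy s0 tO)
open Crest.Agent.R289.HypObj146 (CT)
open Crest.Agent.R289.InsObj576 (ins cst CG G SG)

variable {D : Obj} {M0 : ℕ} {lam0 Kr : ℝ}

/-! ### distances -/

/-- words on `P k`, functions on the points -/
theorem ud_CT (h : D.OK M0 lam0 Kr) (hl : lam0 ≤ 1 / 4) (k : ℕ) {d : ℕ} (hd : d ≤ M0) :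
    UD (CT D k d : Set (D.P k × Sy D → D.K)) (1 / 2) := by
  intro f hf hne
  have h1 := ObjDist821.udist_cmod h hl k hd (fun g s => f (g, s)) hf (by
    intro h0
    apply hne
    funext x
    exact congrFun (congrFun h0 x.1) x.2)
  refine h1.trans (frac_mono ?_)
  intro g hg
  by_contra hc
  push Not at hc
  exact hg (funext hc)

/-- the same in the vocabulary of `ObjTO_821` -/
theorem ud_wmod (h : D.OK M0 lam0 Kr) (hl : lam0 ≤ 1 / 4) (k : ℕ) {d : ℕ} (hd : d ≤ M0) :
    UD (ObjTO821.wmod D k d : Set (D.P k × Sy D → D.K)) (1 / 2) := by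
  intro f hf hne
  have h1 := ObjDist821.udist_cmod h hl k hd (fun g s => f (g, s)) hf (by
    intro h0
    apply hne
    funext x
    exact congrFun (congrFun h0 x.1) x.2)
  refine h1.trans (frac_mono ?_)
  intro g hg
  by_contra hc
  push Not at hc
  exact hg (funext hc)

/-- the codes of `InsObj_576` and of `GamObj_821` are the same -/
theorem CG_eq (D : Obj) (kP kR d : ℕ) : CG D kP kR d = GamObj821.gmod D kP kR d := by
  ext f
  constructor
  · rintro ⟨h1, h2⟩
    exact ⟨fun y => h1 y.1 y.2, fun x => h2 x.1 x.2⟩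
  · rintro ⟨h1, h2⟩
    exact ⟨fun g' s' => h1 (g', s'), fun g s => h2 (g, s)⟩

/-- words on `P k × P k'` -/
theorem ud_CG (h : D.OK M0 lam0 Kr) (hl : lam0 ≤ 1 / 4) (kP kR : ℕ) {d : ℕ} (hd : d ≤ M0) :
    UD (CG D kP kR d : Set ((D.P kP × D.P kR) × SG D → D.K)) (1 / 4) := by
  intro f hf hne
  rw [SetLike.mem_coe, CG_eq] at hf
  have h1 := ObjDist821.udist_gcm (k := kP) (k' := kR) h hl hd (fun g s => f (g, s)) hf (by
    intro h0
    apply hne
    funext x
    exact congrFun (congrFun h0 x.1) x.2)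
  refine h1.trans (frac_mono ?_)
  intro g hg
  by_contra hc
  push Not at hc
  exact hg (funext hc)

/-- distance of the words of the mirror data -/
theorem dV (h : D.OK M0 lam0 Kr) (hl : lam0 ≤ 1 / 4) (hM : 1 ≤ M0) (k : ℕ)
    (f : D.P k → Sy D → D.K)
    (hf : Mirror545.InV (ObjApi12.alpha D 1) (ObjApi12.gam D k) f) (hne : f ≠ 0) :
    (1 / 2 : ℝ) ≤ frac (fun g => f g ≠ 0) := by
  have h1 : (fun g l m => f g (l, m) : ObjApi12.Wd D k) ∈ ObjApi12.Cm D k 1 :=
    (ObjApi12.inV_iff h k 1 _).2 hf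
  exact ObjDist821.udist_cmod h hl k hM f h1 hne

/-! ### growth -/

/-- **growth of the cascade on contents** -/
theorem growth (h : D.OK M0 lam0 Kr) {g : ℕ} (hg : 2 ≤ g) (hl : 16 * g * lam0 ≤ 1)
    (kP kR : ℕ) {th : ℕ} (hth : 16 * g * th ≤ Fintype.card (D.P kP × D.P kR))
    {M : Type} [AddCommGroup M] [Module D.K M]
    (f : D.P kP × D.P kR → Fin (InsObj576.rC D + 1) → M)
    (hf : (RevChain123.supp f).card ≤ th) :
    g * (RevChain123.supp f).card ≤
      (RevChain123.supp (LamI577.LamP (InsObj576.lamC D)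
        (fun j => Equiv.mulLeft (InsObj576.ga D kP kR j)⁻¹) f)).card := by
  obtain ⟨lam, h0, h1, -, h3⟩ := MixObj365.mix_obj h hg hl
  have h4 := InsObj576.grow D (D.P kP × D.P kR) (InsObj576.ga D kP kR) lam (h3 kP kR) h0 g
    (by omega) (by
      calc 64 * (g : ℝ) * lam ^ 2 = 64 * (lam ^ 2 * g) := by ring
        _ ≤ 1 := h1) M f (by
      rw [LamI577.supp_card] at hf
      exact (Nat.mul_le_mul_left _ hf).trans hth)
  have e : LamI577.LamP (InsObj576.lamC D)
      (fun j => Equiv.mulLeft (InsObj576.ga D kP kR j)⁻¹) f =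
      CascK750.LamK (InsObj576.lamC D) (InsObj576.ga D kP kR) f := by
    funext x a
    rw [LamI577.LamP_apply]
    rfl
  rw [LamI577.supp_card, LamI577.supp_card, e]
  exact h4

/-- factor `244`, threshold `|Γ| / 3904` -/
theorem growth244 (h : D.OK M0 lam0 Kr) (hl : 3904 * lam0 ≤ 1) (kP kR : ℕ)
    {M : Type} [AddCommGroup M] [Module D.K M]
    (f : D.P kP × D.P kR → Fin (InsObj576.rC D + 1) → M)
    (hf : (RevChain123.supp f).card ≤ Fintype.card (D.P kP × D.P kR) / 3904) :
    (243 + 1) * (RevChain123.supp f).card ≤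
      (RevChain123.supp (LamI577.LamP (InsObj576.lamC D)
        (fun j => Equiv.mulLeft (InsObj576.ga D kP kR j)⁻¹) f)).card := by
  refine growth h (g := 244) (by norm_num) (by push_cast; linarith) kP kR
    (th := Fintype.card (D.P kP × D.P kR) / 3904) ?_ f hf
  have := Nat.div_mul_le_self (Fintype.card (D.P kP × D.P kR)) 3904
  omega

theorem th_ratio {N : ℕ} (hN : 3904 ≤ N) : (1 / 7808 : ℝ) ≤ ((N / 3904 : ℕ) : ℝ) / N := by
  have h1 : 1 ≤ N / 3904 := by omega
  have h2 : N ≤ 7808 * (N / 3904) := by omega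
  have hN0 : (0 : ℝ) < N := by
    have : 0 < N := by omega
    exact_mod_cast this
  rw [le_div_iff₀ hN0]
  have h3 : (N : ℝ) ≤ 7808 * ((N / 3904 : ℕ) : ℝ) := by exact_mod_cast h2
  linarith

theorem log_ok {N L : ℕ} (hL : Window954.LB 243 0 N ≤ L) :
    Nat.log 243 (N / 3904) + 2 ≤ L + 1 := by
  have h1 : Nat.log 243 (N / 3904) ≤ Nat.log 243 N := Nat.log_mono_right (Nat.div_le_self _ _)
  unfold Window954.LB at hL
  omega

/-! ### T-side -/

section tside
variable (h : D.OK M0 lam0 Kr) (W kP kR kT : ℕ)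
  (P : TSide492.Path (D.P kT) (Fin W) (Fin W × Fin W))
  (lay : DefC.Layout (D.P kP × D.P kR) (G D) (Fin 28) 128)

theorem one_mem : (ins h W kP kR kT P lay).one ∈ CT D kT 1 :=
  (tO h kT).word_mem _

theorem E1_mem (j : Fin W) : (ins h W kP kR kT P lay).E1 j ∈ CT D kT 1 :=
  (tO h kT).word_mem _

theorem E2_mem (j : Fin W × Fin W) : (ins h W kP kR kT P lay).E2 j ∈ CT D kT 1 :=
  (tO h kT).word_mem _

theorem D_mem (t : ℕ) : (ins h W kP kR kT P lay).D t ∈ CT D kT 1 :=
  (tO h kT).word_mem _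

include h in
theorem mulT {f g : D.P kT × Sy D → D.K} (hf : f ∈ CT D kT 1)
    (hg : g ∈ CT D kT 1) : (fun x => f x * g x) ∈ CT D kT 2 :=
  TOInst112.Cm_mul h (k := kT) (d := 1) (d' := 1) hf hg

theorem leftT {a : ℕ} (t : D.P kT) {f : D.P kT × Sy D → D.K} (hf : f ∈ CT D kT a) :
    (fun p : D.P kT × Sy D => f (t * p.1, p.2)) ∈ CT D kT a :=
  TOInst112.Cm_lt hf t

/-- mirror data -/
noncomputable def mf (hM : 4 ≤ M0) (hl : lam0 ≤ 1 / 4096) :
    RecGap719.MF (ins h W kP kR kT P lay) (1 / 2) where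
  ι := ObjApi12.Cn D 1
  α := ObjApi12.alpha D 1
  B := InsObj576.Pm h
  hB := InsObj576.Pm_spec h
  bet_eq := rfl
  N := (InsObj576.nil h kT).choose
  nil := (InsObj576.nil h kT).choose_spec
  surj := ObjApi12.inV_surj h kT
  dist := dV h (hl.trans (by norm_num)) (by omega) kT

/-- **the numerical data of the gap theorem for the instance** -/
noncomputable def num (hM : 4 ≤ M0) (hl : lam0 ≤ 1 / 4096)
    (hbig : 3904 ≤ Fintype.card (D.P kP × D.P kR))
    (hL : Nat.log 243 (Fintype.card (D.P kP × D.P kR) / 3904) + 2 ≤ P.L + 1) :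
    GapS719.Num (ins h W kP kR kT P lay) (CG D kP kR) (CT D kT) (1 / 15616) where
  ne := inferInstanceAs (Nonempty (D.P kP × D.P kR))
  dG := 1 / 4
  dT := 1 / 2
  dV := 1 / 2
  dG0 := by norm_num
  dT0 := by norm_num
  dV0 := by norm_num
  uG1 := ud_CG h (hl.trans (by norm_num)) kP kR (by omega)
  uG4 := ud_CG h (hl.trans (by norm_num)) kP kR (by omega)
  uT1 := ud_CT h (hl.trans (by norm_num)) kT (by omega)
  uT2 := ud_CT h (hl.trans (by norm_num)) kT (by omega)
  mulT _ hf _ hg := mulT h kT hf hg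
  leftT _ _ hf a := leftT kT a hf
  one := one_mem h W kP kR kT P lay
  E1 := E1_mem h W kP kR kT P lay
  E2 := E2_mem h W kP kR kT P lay
  mf := mf h W kP kR kT P lay hM hl
  th := Fintype.card (D.P kP × D.P kR) / 3904
  mm := 243
  hm := by norm_num
  hn := hL
  hg f _ hf := growth244 h (by linarith) kP kR (M := D.K) f hf
  le1 := by norm_num
  leG := by norm_num
  leT := by norm_num
  leV := by norm_num
  leR := by
    have h1 := th_ratio hbig
    have h2 : (1 / 15616 : ℝ) ≤ 1 / 2 * (((Fintype.card (D.P kP × D.P kR) / 3904 : ℕ) : ℝ) /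
        Fintype.card (D.P kP × D.P kR)) := by linarith
    exact h2

/-- **closure properties of the codes of the instance** -/
theorem cok (hlay : lay.OK (InsObj576.act D kP kR) (26 : Fin 28))
    (h0 : BootC515.H0 (InsObj576.act D kP kR) (26 : Fin 28) lay) :
    (ins h W kP kR kT P lay).COK (CG D kP kR) (CT D kT) where
  wf := (HypObj146.hyp h P lay hlay h0).wf
  mulG a b f g hf hg := (HypObj146.hyp h P lay hlay h0).gmul a b f g hf hg
  actG g a f hf := (HypObj146.hyp h P lay hlay h0).gtr g a f hf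
  actG' g a f hf := (HypObj146.hyp h P lay hlay h0).gti g a f hf
  mvG j a f hf := (HypObj146.hyp h P lay hlay h0).gmv j a f hf
  pub := (HypObj146.hyp h P lay hlay h0).gpub
  x0 := (HypObj146.hyp h P lay hlay h0).gx0
  mulT f g hf hg := mulT h kT hf hg
  leftT t a f hf := leftT kT t hf
  one := one_mem h W kP kR kT P lay
  E1 := E1_mem h W kP kR kT P lay
  E2 := E2_mem h W kP kR kT P lay
  D t _ := D_mem h W kP kR kT P lay t

end tside

/-! ### the members of the family -/

section members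
variable {h : D.OK M0 lam0 Kr} {W c0 : ℕ}

theorem card_gam (D : Obj) (kP kR : ℕ) :
    Fintype.card (D.P kP × D.P kR) = D.Q ^ (kP + kR) := by
  rw [Fintype.card_prod, Fintype.card_congr (D.ix kP), Fintype.card_congr (D.ix kR),
    Fintype.card_fin, Fintype.card_fin, pow_add]

theorem log_ok' {N L c0 : ℕ} (hL : L = Window954.LB (3 ^ 5) c0 N) :
    Nat.log 243 (N / 3904) + 2 ≤ L + 1 := by
  have h1 : Nat.log 243 (N / 3904) ≤ Nat.log 243 N := Nat.log_mono_right (Nat.div_le_self _ _)
  have h2 : Window954.LB (3 ^ 5) c0 N = Nat.log 243 N + 1 + c0 := by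
    unfold Window954.LB
    norm_num
  omega

/-- **the numerical data of a member** -/
noncomputable def numM (hM : 4 ≤ M0) (hl : lam0 ≤ 1 / 4096) (i : Mem12.Mem h W c0) :
    GapS719.Num i.I (CG D i.kP i.kR) (CT D i.kT) (1 / 15616) :=
  num h W i.kP i.kR i.kT i.P i.lay hM hl
    (by rw [card_gam]; exact le_trans (by norm_num) i.big)
    (log_ok' (by rw [card_gam]; exact i.L_eq))

end members

end Crest.Agent.R289.GapObj719
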