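import Crest.Agent.R289.SemDef_406
import Crest.Agent.R289.LMI_827

/-!
# Row 289, C_SEM: evaluation of `SemDef_406` on exact words (helper880)
-/

set_option autoImplicit false

namespace Crest.Agent.R289.SemEv880

open Finset DefC DefI Compile827 ULoc406 ULocI880 SemI406 Crest.Agent.R289.Word508

section one

variable {K : Type} [Field K] {c : Cst K} (I : Ins c)

theorem QB_eval (E : I.n → K) (x : I.XW) (z : I.ZW) (X : I.n → I.AW) (u : I.U) (s' : c.S')
    (s : c.S) :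
    QB I (fun v s' => E (v.2, s')) (I.bankE x z) (fun v s' s => X (v.2, s') (v.1, s)) u s' s =
      I.Q (I.wv x.2) E X (u.2, s') (u.1, s) := by
  have e2 : I.mU.mulVec E = I.one * E := by
    funext q
    rw [Ins.mU, Matrix.mulVec_diagonal]
    rfl
  simp only [Ins.Q, Level492.Q, Level492.Lc, Ins.act_mU, Ins.act_mN1, Ins.act_mN2, e2,
    Pi.sub_apply]
  show _ - _ - _ - _ = _ - _ - _ - _
  congr 1
  congr 1
  · congr 1
    funext a m
    simp only [lamF, Ins.Lam, LinearMap.coe_mk, AddHom.coe_mk, Finset.sum_apply]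
    rfl
  · rw [Finset.sum_apply]
    rfl

theorem MirB_eval (q : I.n → I.AW) (Z : c.C → I.n → I.AW) (u : I.U) :
    MirB I (fun v s' s => q (v.2, s') (v.1, s)) (fun v a s' s => Z a (v.2, s') (v.1, s)) u ↔
      I.MirAt q Z u := by
  unfold MirB Ins.MirAt
  refine forall_congr' fun a => forall_congr' fun s' => forall_congr' fun s => ?_
  rw [Finset.sum_apply]
  refine Eq.congr ?_ rfl
  refine sum_congr rfl fun s1 _ => ?_
  rw [Finset.sum_apply]
  refine sum_congr rfl fun j _ => ?_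
  show _ = c.bet a s1 j • (Mirror545.ext c.s0' q Z s1 ((I.gam j)⁻¹ * u.2, s')) (u.1, s)
  congr 1
  unfold Mirror545.ext
  split_ifs <;> rfl

theorem RecB_eval (t : ℕ) (x : I.XW) (z : I.ZW) (u : I.U) :
    RecB I (fun v => I.td t v.2) (I.bankE x z) u ↔ I.RecAt t x z u := by
  have hQ : QB I (fun v => (I.td t v.2).D) (I.bankE x z) (fun v => (I.bankE x z v).X) =
      fun v s' s => I.Q (I.wv x.2) (I.D t) z.X (v.2, s') (v.1, s) := by
    funext v s' s
    exact QB_eval I (I.D t) x z z.X v s' s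
  have hQm : QB I (fun v => (I.td t v.2).Dm) (I.bankE x z) (fun v => (I.bankE x z v).Xm) =
      fun v s' s => I.Q (I.wv x.2) (I.Dm t) z.Xm (v.2, s') (v.1, s) := by
    funext v s' s
    exact QB_eval I (I.Dm t) x z z.Xm v s' s
  unfold RecB Ins.RecAt
  rw [hQ, hQm]
  exact and_congr (MirB_eval I _ _ u) (and_congr (MirB_eval I _ _ u) Iff.rfl)

variable {Ck : Type} (k : Clk I Ck)

theorem dW_eval (hk : k.OK) (f : Conf I.XW I.ZW c.A.Tr) (ht : f.t ≤ I.L) :
    dW I k (I.labE k.cw f) = fun u => I.td f.t u.2 := funext fun u => hk.rd f.t ht u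

theorem blank_iff (x : I.XW) (z : I.ZW) (u : I.U) :
    I.bankE x z u = regB I.stgz 0 ↔ I.XAt x I.xz u ∧ I.ZAt z I.zz u := by
  constructor
  · intro h
    have h1 := congrArg Cst.Bank.stg h
    have h2 := congrArg Cst.Bank.R h
    have h3 := congrArg Cst.Bank.X h
    have h4 := congrArg Cst.Bank.Xm h
    have h5 := congrArg Cst.Bank.Z h
    have h6 := congrArg Cst.Bank.Zm h
    exact ⟨⟨h1, fun i s => congrFun (congrFun h2 i) s⟩,
      ⟨fun s' s => congrFun (congrFun h3 s') s, fun s' s => congrFun (congrFun h4 s') s,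
        fun a s' s => congrFun (congrFun (congrFun h5 a) s') s,
        fun a s' s => congrFun (congrFun (congrFun h6 a) s') s⟩⟩
  · rintro ⟨⟨h1, h2⟩, h3, h4, h5, h6⟩
    refine Cst.Bank.ext h1 ?_ ?_ ?_ ?_ ?_
    · funext i s; exact h2 i s
    · funext s' s; exact h3 s' s
    · funext s' s; exact h4 s' s
    · funext a s' s; exact h5 a s' s
    · funext a s' s; exact h6 a s' s

theorem start_iff (x : I.XW) (z : I.ZW) (u : I.U) :
    StartB I (I.bankE x z) u ↔ I.XAt x I.xs u := by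
  constructor
  · rintro ⟨h1, h2⟩
    exact ⟨h1, fun i s => congrFun (congrFun h2 i) s⟩
  · rintro ⟨h1, h2⟩
    exact ⟨h1, by funext i s; exact h2 i s⟩

theorem up_iff (ρ : c.A.Tr) (x y : I.XW) (z z' : I.ZW) (u : I.U) :
    ((I.bankE y z' u).stg = c.A.tgt ρ ∧ (I.bankE y z' u).R = (upB I ρ (I.bankE x z) u).R) ↔
      I.XAt y (I.up ρ x) u := by
  constructor
  · rintro ⟨h1, h2⟩
    exact ⟨h1, fun i s => congrFun (congrFun h2 i) s⟩
  · rintro ⟨h1, h2⟩
    exact ⟨h1, by funext i s; exact h2 i s⟩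

theorem dn_iff (ρ : c.A.Tr) (x y : I.XW) (z z' : I.ZW) (u : I.U) :
    ((I.bankE y z' u).stg = c.A.src ρ ∧ (I.bankE y z' u).R = (dnB I ρ (I.bankE x z) u).R) ↔
      I.XAt y (I.dn ρ x) u := by
  constructor
  · rintro ⟨h1, h2⟩
    exact ⟨h1, fun i s => congrFun (congrFun h2 i) s⟩
  · rintro ⟨h1, h2⟩
    exact ⟨h1, by funext i s; exact h2 i s⟩

/-- **the relation on exact words** -/
theorem rel_eval (hk : k.OK) (f : Conf I.XW I.ZW c.A.Tr) (ht : f.t ≤ I.L) (u : I.U) :
    Rel I k (I.labE k.cw f) u ↔ LegalAt I f u := by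
  have hd := dW_eval I k hk f ht
  obtain ⟨l, t, x1, z1, x2, z2⟩ := f
  simp only at ht hd
  have hB1 : B1 I (I.labE k.cw ⟨l, t, x1, z1, x2, z2⟩) = I.bankE x1 z1 := rfl
  have hB2 : B2 I (I.labE k.cw ⟨l, t, x1, z1, x2, z2⟩) = I.bankE x2 z2 := rfl
  have h1 : (I.labE k.cw ⟨l, t, x1, z1, x2, z2⟩ u).b1 = I.bankE x1 z1 u := rfl
  have h2 : (I.labE k.cw ⟨l, t, x1, z1, x2, z2⟩ u).b2 = I.bankE x2 z2 u := rfl
  have hL : dL I = fun v => I.td I.L v.2 := rfl
  cases l with
  | boot =>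
    show RelL I k _ u .boot ↔ _
    simp only [RelL, LegalAt, hB2, hd, h1]
    rw [RecB_eval, start_iff, blank_iff, and_assoc]
  | rest =>
    show RelL I k _ u .rest ↔ _
    simp only [RelL, LegalAt, hB1, hd, h2, hL]
    rw [RecB_eval, blank_iff]
    refine and_congr ?_ Iff.rfl
    simp [Ins.td]
  | fw ρ =>
    show RelL I k _ u (.fw ρ) ↔ _
    simp only [RelL, LegalAt, hB1, hB2, hd, h2, hL]
    rw [RecB_eval, RecB_eval]
    exact and_congr Iff.rfl (and_congr Iff.rfl (and_congr Iff.rfl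
      (and_congr (up_iff I ρ x1 x2 z1 z2 u) Iff.rfl)))
  | bw ρ =>
    show RelL I k _ u (.bw ρ) ↔ _
    simp only [RelL, LegalAt, hB1, hB2, hd, h1, hL]
    rw [RecB_eval, RecB_eval]
    exact and_congr Iff.rfl (and_congr Iff.rfl (and_congr Iff.rfl
      (and_congr (dn_iff I ρ x2 x1 z2 z1 u) Iff.rfl)))

end one

end Crest.Agent.R289.SemEv880
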