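import Crest.Agent.R289.GapS_719
import Crest.Agent.R289.SemEx_844
import Crest.Agent.R289.SemEv_880

/-!
# Row 289, leaf C_GAP: the gap of the whole relation of the machine (helper244)

Over `GapS719.Num` (numerical data) and `LMI827.Hyp`:
* `legal_all` : `Legal` is `LegalAt` at every unit;
* `legal_gap` : a configuration over the code words that is not legal violates `LegalAt` on at least
  `g` of the units;
* for the semantic machine `SemI406.semI` on the code `{labE cw (vl f) | f.t ≤ L}`: the field `gap`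
  of `UFam715.Exact`, the legal words `W_eq`, the densities of the flags `cohN`, `cohM`, and the
  whole structure `exact_semI`.
-/

set_option autoImplicit false
set_option linter.unusedSectionVars false
set_option linter.unusedVariables false

namespace Crest.Agent.R289.LegalGap244

open Finset Crest.Agent.R289.DefD Crest.Agent.R289.LCa72 Compile827 LInst827 DefC DefI Gap731
  RecGap719 LMI827 GapS719 SemI406 SemN844 SemEx844 Word508

section one

variable {K : Type} [Field K] {c : Cst K} {I : Ins c} {CG : ℕ → Submodule K (I.Om → K)}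
  {CT : ℕ → Submodule K (I.n → K)} {tt : ℕ → I.T} {g : ℝ}
  (h : Hyp I CG CT tt) (hx0 : c.A.Legal I.act I.pubC I.stg0 (I.con I.xs))
  (hb0 : ∀ ρ, ¬ (I.stg0 = c.A.tgt ρ ∧ c.A.Bk I.act I.pubC ρ (I.con I.xs)))

theorem xs_iff [Nonempty I.Γ] (a b : XS I CG) : a = b ↔ ∀ u, I.XAt a.1 b.1 u :=
  Subtype.ext_iff.trans (Ins.x_iff a.1 b.1)

theorem zs_iff (a b : ZS I CG CT) : a = b ↔ ∀ u, I.ZAt a.1 b.1 u :=
  Subtype.ext_iff.trans (Ins.z_iff a.1 b.1)

/-- **legality at every unit** -/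
theorem legal_all [Nonempty I.Γ] (f : Conf (XS I CG) (ZS I CG CT) c.A.Tr) (ht : f.t ≤ I.L) :
    (lmI h hx0 hb0).Legal f ↔ ∀ u, LegalAt I (vl f) u := by
  obtain ⟨g0⟩ := id ‹Nonempty I.Γ›
  obtain ⟨l, t, x1, z1, x2, z2⟩ := f
  have ht' : t ≤ I.L := ht
  cases l with
  | boot =>
    show (t ≤ I.L ∧ x1 = (lmI h hx0 hb0).xz ∧ z1 = (lmI h hx0 hb0).zz ∧
      x2 = (lmI h hx0 hb0).x0 ∧ I.Rec t x2.1 z2.1) ↔
      ∀ u, (I.XAt x1.1 I.xz u ∧ I.ZAt z1.1 I.zz u ∧ I.XAt x2.1 I.xs u ∧ I.RecAt t x2.1 z2.1 u)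
    rw [xs_iff, zs_iff, xs_iff, Ins.rec_iff]
    simp only [forall_and]
    exact ⟨fun h => h.2, fun h => ⟨ht', h⟩⟩
  | rest =>
    show (t = 0 ∧ I.Rec I.L x1.1 z1.1 ∧ I.St x1.1 z1.1 ∧ x2 = (lmI h hx0 hb0).xz ∧
      z2 = (lmI h hx0 hb0).zz) ↔
      ∀ u, (t = 0 ∧ I.RecAt I.L x1.1 z1.1 u ∧ I.StAt x1.1 z1.1 u ∧ I.XAt x2.1 I.xz u ∧
        I.ZAt z2.1 I.zz u)
    rw [xs_iff, zs_iff, Ins.rec_iff, Ins.st_iff]
    simp only [forall_and]
    exact ⟨fun h => ⟨fun _ => h.1, h.2⟩, fun h => ⟨h.1 (g0, 1), h.2⟩⟩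
  | fw ρ =>
    show (t ≤ I.L ∧ I.Rec I.L x1.1 z1.1 ∧ I.St x1.1 z1.1 ∧ I.En ρ x1.1 z1.1 ∧
      x2 = (lmI h hx0 hb0).up ρ x1 ∧ I.Rec t x2.1 z2.1) ↔
      ∀ u, (I.RecAt I.L x1.1 z1.1 u ∧ I.StAt x1.1 z1.1 u ∧ I.EnAt ρ x1.1 z1.1 u ∧
        I.XAt x2.1 (I.up ρ x1.1) u ∧ I.RecAt t x2.1 z2.1 u)
    rw [xs_iff, Ins.rec_iff, Ins.st_iff, Ins.en_iff, Ins.rec_iff]
    simp only [forall_and]
    exact ⟨fun h => h.2, fun h => ⟨ht', h⟩⟩
  | bw ρ =>
    show (t ≤ I.L ∧ I.Rec I.L x2.1 z2.1 ∧ I.St x2.1 z2.1 ∧ I.Bk ρ x2.1 z2.1 ∧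
      x1 = (lmI h hx0 hb0).dn ρ x2 ∧ I.Rec t x1.1 z1.1) ↔
      ∀ u, (I.RecAt I.L x2.1 z2.1 u ∧ I.StAt x2.1 z2.1 u ∧ I.BkAt ρ x2.1 z2.1 u ∧
        I.XAt x1.1 (I.dn ρ x2.1) u ∧ I.RecAt t x1.1 z1.1 u)
    rw [xs_iff, Ins.rec_iff, Ins.st_iff, Ins.bk_iff, Ins.rec_iff]
    simp only [forall_and]
    exact ⟨fun h => h.2, fun h => ⟨ht', h⟩⟩

/-- **GAP OF THE RELATION OF THE MACHINE** -/
theorem legal_gap (N : Num I CG CT g) (f : Conf (XS I CG) (ZS I CG CT) c.A.Tr)
    (ht : f.t ≤ I.L) (hf : ¬ (lmI h hx0 hb0).Legal f) :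
    g ≤ frac fun u : I.U => ¬ LegalAt I (vl f) u := by
  have := N.ne
  obtain ⟨l, t, x1, z1, x2, z2⟩ := f
  have ht' : t ≤ I.L := ht
  have key : ∀ (P Q : I.U → Prop), (g ≤ frac fun u => ¬ P u) → (∀ u, Q u → P u) →
      g ≤ frac fun u => ¬ Q u := fun P Q hP hu =>
    hP.trans (LCa72.frac_mono fun u h1 h2 => h1 (hu u h2))
  cases l with
  | boot =>
    by_cases h1 : x1 = (lmI h hx0 hb0).xz
    · by_cases h2 : z1 = (lmI h hx0 hb0).zz
      · by_cases h3 : x2 = (lmI h hx0 hb0).x0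
        · refine key _ _ (rcG N h ht' x2 z2 fun h4 => hf ⟨ht', h1, h2, h3, ?_⟩)
            fun u hu => hu.2.2.2
          exact (rec_iffS h t x2 z2 ht').2 h4
        · exact key _ _ (dx N x2 _ h3) fun u hu => hu.2.2.1
      · exact key _ _ (dz N z1 _ h2) fun u hu => hu.2.1
    · exact key _ _ (dx N x1 _ h1) fun u hu => hu.1
  | rest =>
    by_cases h0 : t = 0
    · by_cases h1 : z1 = certS h x1 I.L
      · by_cases h2 : (cd h).IsL x1.1
        · by_cases h3 : x2 = (lmI h hx0 hb0).xz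
          · by_cases h4 : z2 = (lmI h hx0 hb0).zz
            · refine absurd ⟨h0, ?_, ?_, h3, h4⟩ hf
              · exact (rec_iffS h I.L x1 z1 le_rfl).2 h1
              · show I.St x1.1 z1.1
                rw [h1]
                exact (st_iffS h x1).2 h2
            · exact key _ _ (dz N z2 _ h4) fun u hu => hu.2.2.2.2
          · exact key _ _ (dx N x2 _ h3) fun u hu => hu.2.2.2.1
        · subst h1
          exact key _ _ (stG N h x1 h2) fun u hu => hu.2.2.1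
      · exact key _ _ (rcG N h le_rfl x1 z1 h1) fun u hu => hu.2.1
    · rw [frac_true (p := fun u : I.U => ¬ LegalAt I (vl (⟨.rest, t, x1, z1, x2, z2⟩ :
        Conf (XS I CG) (ZS I CG CT) c.A.Tr)) u) fun u hu => h0 hu.1]
      exact N.le1
  | fw ρ =>
    by_cases h1 : z1 = certS h x1 I.L
    · subst h1
      by_cases h2 : (cd h).IsL x1.1
      · by_cases h3 : (cd h).en ρ x1.1
        · by_cases h4 : x2 = (lmI h hx0 hb0).up ρ x1
          · refine key _ _ (rcG N h ht' x2 z2 fun h5 => hf ⟨ht', ?_, ?_, ?_, h4, ?_⟩)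
              fun u hu => hu.2.2.2.2
            · exact (rec_iffS h I.L x1 _ le_rfl).2 rfl
            · exact (st_iffS h x1).2 h2
            · exact (en_iffS h ρ x1 h2).2 h3
            · exact (rec_iffS h t x2 z2 ht').2 h5
          · exact key _ _ (dx N x2 _ h4) fun u hu => hu.2.2.2.1
        · exact key _ _ (enG N h ρ x1 h2 h3) fun u hu => hu.2.2.1
      · exact key _ _ (stG N h x1 h2) fun u hu => hu.2.1
    · exact key _ _ (rcG N h le_rfl x1 z1 h1) fun u hu => hu.1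
  | bw ρ =>
    by_cases h1 : z2 = certS h x2 I.L
    · subst h1
      by_cases h2 : (cd h).IsL x2.1
      · by_cases h3 : (cd h).bk ρ x2.1
        · by_cases h4 : x1 = (lmI h hx0 hb0).dn ρ x2
          · refine key _ _ (rcG N h ht' x1 z1 fun h5 => hf ⟨ht', ?_, ?_, ?_, h4, ?_⟩)
              fun u hu => hu.2.2.2.2
            · exact (rec_iffS h I.L x2 _ le_rfl).2 rfl
            · exact (st_iffS h x2).2 h2
            · exact (bk_iffS h ρ x2 h2).2 h3
            · exact (rec_iffS h t x1 z1 ht').2 h5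
          · exact key _ _ (dx N x1 _ h4) fun u hu => hu.2.2.2.1
        · exact key _ _ (bkG N h ρ x2 h2 h3) fun u hu => hu.2.2.1
      · exact key _ _ (stG N h x2 h2) fun u hu => hu.2.1
    · exact key _ _ (rcG N h le_rfl x2 z2 h1) fun u hu => hu.1

/-! ### densities of the flags -/

/-- rest states of the machine -/
theorem conf_rest_eq (a : (lmI h hx0 hb0).CSt) (hl : ((lmI h hx0 hb0).conf a).l = .rest) :
    ∃ x : XS I CG, (cd h).IsL x.1 ∧ ((lmI h hx0 hb0).conf a).x1 = x ∧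
      ((lmI h hx0 hb0).conf a).z1 = certS h x I.L := by
  cases a with
  | boot t ht => cases hl
  | rest x hx => exact ⟨x, hx, rfl, rfl⟩
  | fw ρ x hx he t ht => cases hl
  | bw ρ x hx he t ht => cases hl

theorem coh_of {U : Type} [Fintype U] {y : U → Option Unit} {ρ : ℝ}
    (hd : (∀ u, y u = none) ∨ ρ ≤ frac fun u => y u ≠ none) : Coh y ρ :=
  ⟨fun _ _ _ _ _ _ => rfl, hd⟩

/-- flags of the forward guards -/
theorem cohN (N : Num I CG CT g) {Ck : Type} (k : Clk I Ck) (w : I.U → c.Lab Ck)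
    (hw : w ∈ W h hx0 hb0 k.cw) (ρ : c.A.Tr) : Coh (SemI406.FlN I ρ w) g := by
  classical
  have := N.ne
  obtain ⟨a, rfl⟩ := hw
  apply coh_of
  by_cases hl : ((lmI h hx0 hb0).conf a).l = .rest
  · obtain ⟨x, hx, e1, e2⟩ := conf_rest_eq h hx0 hb0 a hl
    have hE : ∀ u, EnB I ρ (B1 I (wd h hx0 hb0 k.cw a)) u ↔
        I.EnAt ρ x.1 (certS h x I.L).1 u := by
      intro u
      rw [← e2, ← e1]
      exact Iff.rfl
    by_cases he : (cd h).en ρ x.1
    · left
      intro u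
      have h1 := (Ins.en_iff ρ x.1 (certS h x I.L).1).1 ((en_iffS h ρ x hx).2 he) u
      exact if_neg fun hu => hu.2 ((hE u).2 h1)
    · right
      refine (enG N h ρ x hx he).trans (LCa72.frac_mono fun u hu => ?_)
      have h1 : (wd h hx0 hb0 k.cw a u).l = .rest ∧
          ¬ EnB I ρ (B1 I (wd h hx0 hb0 k.cw a)) u := ⟨hl, fun hu' => hu ((hE u).1 hu')⟩
      unfold SemI406.FlN
      rw [if_pos h1]
      simp
  · left
    intro u
    exact if_neg fun hu => hl hu.1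

/-- flags of the backward guards -/
theorem cohM (N : Num I CG CT g) {Ck : Type} (k : Clk I Ck) (w : I.U → c.Lab Ck)
    (hw : w ∈ W h hx0 hb0 k.cw) (j : Option c.A.Tr) : Coh (SemI406.FlM I j w) g := by
  classical
  have := N.ne
  obtain ⟨a, rfl⟩ := hw
  apply coh_of
  by_cases hl : ((lmI h hx0 hb0).conf a).l = .rest
  · obtain ⟨x, hx, e1, e2⟩ := conf_rest_eq h hx0 hb0 a hl
    cases j with
    | some ρ =>
      have hE : ∀ u, BkB I ρ (B1 I (wd h hx0 hb0 k.cw a)) u ↔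
          I.BkAt ρ x.1 (certS h x I.L).1 u := by
        intro u
        rw [← e2, ← e1]
        exact Iff.rfl
      by_cases he : (cd h).bk ρ x.1
      · left
        intro u
        have h1 := (Ins.bk_iff ρ x.1 (certS h x I.L).1).1 ((bk_iffS h ρ x hx).2 he) u
        exact if_neg fun hu => hu.2 ((hE u).2 h1)
      · right
        refine (bkG N h ρ x hx he).trans (LCa72.frac_mono fun u hu => ?_)
        have h1 : (wd h hx0 hb0 k.cw a u).l = .rest ∧
            ¬ BkB I ρ (B1 I (wd h hx0 hb0 k.cw a)) u := ⟨hl, fun hu' => hu ((hE u).1 hu')⟩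
        unfold SemI406.FlM
        simp only
        rw [if_pos h1]
        simp
    | none =>
      have hE : ∀ u, StartB I (B1 I (wd h hx0 hb0 k.cw a)) u ↔ I.XAt x.1 I.xs u := by
        intro u
        rw [← e1]
        exact SemEv880.start_iff I ((lmI h hx0 hb0).conf a).x1.1
          ((lmI h hx0 hb0).conf a).z1.1 u
      by_cases he : x = (lmI h hx0 hb0).x0
      · left
        intro u
        have h1 : I.XAt x.1 I.xs u := (xs_iff x (lmI h hx0 hb0).x0).1 he u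
        exact if_neg fun hu => hu.2 ((hE u).2 h1)
      · right
        refine (dx N x _ he).trans (LCa72.frac_mono fun u hu => ?_)
        have h1 : (wd h hx0 hb0 k.cw a u).l = .rest ∧
            ¬ StartB I (B1 I (wd h hx0 hb0 k.cw a)) u := ⟨hl, fun hu' => hu ((hE u).1 hu')⟩
        unfold SemI406.FlM
        simp only
        rw [if_pos h1]
        simp
  · left
    intro u
    cases j with
    | some ρ => exact if_neg fun hu => hl hu.1
    | none => exact if_neg fun hu => hl hu.1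

/-- code words with a clock of value at most `L` -/
def CodeC (CG : ℕ → Submodule K (I.Om → K)) (CT : ℕ → Submodule K (I.n → K)) {Ck : Type}
    (cw : ℕ → I.U → Ck) : Set (I.U → c.Lab Ck) :=
  {w | ∃ f : Conf (XS I CG) (ZS I CG CT) c.A.Tr, f.t ≤ I.L ∧ w = I.labE cw (vl f)}

/-- the relation on code words -/
theorem rel_iff {Ck : Type} {k : Clk I Ck} (hk : k.OK)
    (f : Conf (XS I CG) (ZS I CG CT) c.A.Tr) (ht : f.t ≤ I.L) (u : I.U) :
    Rel I k (I.labE k.cw (vl f)) u ↔ LegalAt I (vl f) u :=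
  SemEv880.rel_eval I k hk (vl f) ht u

include h hx0 hb0 in
/-- gap of the relation on code words -/
theorem rel_gap (N : Num I CG CT g) {Ck : Type} {k : Clk I Ck} (hk : k.OK)
    (w : I.U → c.Lab Ck) (hw : w ∈ CodeC CG CT k.cw) (hn : ¬ ∀ u, Rel I k w u) :
    g ≤ frac fun u => ¬ Rel I k w u := by
  have := N.ne
  obtain ⟨f, ht, rfl⟩ := hw
  have h1 : ¬ (lmI h hx0 hb0).Legal f := fun h1 => hn fun u =>
    (rel_iff hk f ht u).2 ((legal_all h hx0 hb0 f ht).1 h1 u)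
  exact (legal_gap h hx0 hb0 N f ht h1).trans
    (LCa72.frac_mono fun u hu hu' => hu ((rel_iff hk f ht u).1 hu'))

/-- the words of the legal configurations -/
theorem relW_eq [Nonempty I.Γ] {Ck : Type} {k : Clk I Ck} (hk : k.OK) :
    {w | w ∈ CodeC CG CT k.cw ∧ ∀ u, Rel I k w u} = W h hx0 hb0 k.cw := by
  ext w
  rw [mem_W_iff]
  constructor
  · rintro ⟨⟨f, ht, rfl⟩, hr⟩
    exact ⟨f, (legal_all h hx0 hb0 f ht).2 fun u => (rel_iff hk f ht u).1 (hr u), rfl⟩
  · rintro ⟨f, hf, rfl⟩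
    have ht := legal_t h hx0 hb0 hf
    exact ⟨⟨f, ht, rfl⟩, fun u => (rel_iff hk f ht u).2 ((legal_all h hx0 hb0 f ht).1 hf u)⟩

end one

section fam

variable {K : Type} [Field K] {c : Cst K} {Inst : Type} {J : Inst → Ins c} {Ck : Type}
  {k : ∀ i, Clk (J i) Ck} {i : Inst} {CG : ℕ → Submodule K ((J i).Om → K)}
  {CT : ℕ → Submodule K ((J i).n → K)} {tt : ℕ → (J i).T} {g : ℝ}
  (h : Hyp (J i) CG CT tt) (hx0 : c.A.Legal (J i).act (J i).pubC (J i).stg0 ((J i).con (J i).xs))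
  (hb0 : ∀ ρ, ¬ ((J i).stg0 = c.A.tgt ρ ∧ c.A.Bk (J i).act (J i).pubC ρ ((J i).con (J i).xs)))

/-- the legal words of `semI` -/
theorem W_eq [Nonempty (J i).Γ] (hk : (k i).OK) :
    (semI J k).W i (CodeC CG CT (k i).cw) = W h hx0 hb0 (k i).cw := by
  rw [← relW_eq h hx0 hb0 hk]
  ext w
  exact ⟨fun hw => ⟨hw.1, fun u => hw.2 () u⟩, fun hw => ⟨hw.1, fun _ u => hw.2 u⟩⟩

include h hx0 hb0 in
/-- **EXACT FACTS ABOUT `semI`** -/
theorem exact_semI (N : Num (J i) CG CT g) (hk : (k i).OK) :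
    UFam715.Exact (semI J k) i (CodeC CG CT (k i).cw) (w0 (J i) (k i).cw) g g := by
  have := N.ne
  have hW := W_eq h hx0 hb0 (k := k) hk
  refine ⟨?_, ?_, ?_, ?_, ?_, ?_, ?_, ?_, ?_, ?_⟩
  · intro w hw hn
    exact ⟨(), rel_gap h hx0 hb0 N hk w hw fun hu => hn fun _ u => hu u⟩
  · rw [hW]
    exact w0_mem h hx0 hb0
  · rw [hW]
    exact Nw_mem h hx0 hb0 hk
  · rw [hW]
    exact Mw_mem h hx0 hb0 hk
  · rw [hW]
    exact MNw h hx0 hb0 hk
  · rw [hW]
    exact NMw h hx0 hb0 hk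
  · exact Mw_w0 h hx0 hb0 hk
  · exact Nw_w0 h hx0 hb0 hk
  · rw [hW]
    exact fun w hw j => cohN h hx0 hb0 N (k i) w hw j
  · rw [hW]
    exact fun w hw j => cohM h hx0 hb0 N (k i) w hw j

end fam

end Crest.Agent.R289.LegalGap244
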