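import Mathlib
import Crest.Agent.R289.FamU2_782
import Crest.Agent.R289.LegalGap_244
import Crest.Agent.R289.GapObj_719

/-!
Row 289 (helper719): the uniform part of block C is closed: `FamU782.HC` (the instance clause) gives
`Fam289`.
-/

set_option autoImplicit false

namespace Crest.Agent.R289.Unif719

open Crest.Agent.R289 Crest.Agent.R289.Asm12 Crest.Agent.R289.DefI Crest.Agent.R289.InsObj576
  Crest.Agent.R289.Mem12 Crest.Agent.R289.FamU782 Crest.Agent.R289.UFam715
  Crest.Agent.R289.Compile827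
open Crest.Agent.R289.HypObj146 (CT)

variable {D : Obj} {M0 : ℕ} {lam0 Kr : ℝ} {h : D.OK M0 lam0 Kr} {W c0 : ℕ}

/-- the code of a member in the form of `LegalGap_244` -/
theorem C_code (i : Mem h W c0) :
    i.C = LegalGap244.CodeC (I := i.I) (CG D i.kP i.kR) (CT D i.kT) (clkI i).cw := codeC_eq i

/-- **the exact facts of a member** -/
theorem exactM (h4 : 4 ≤ M0) (hl : lam0 ≤ 1 / 4096) (i : Mem h W c0) :
    Exact (semM h W c0) i i.C i.w0 (1 / 15616) (1 / 15616) := by
  have h1 := LegalGap244.exact_semI (J := fun i : Mem h W c0 => i.I) (k := fun i => clkI i)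
    (i := i) (hypM i) (hx0M i) (hb0M i) (GapObj719.numM h4 hl i) (clkOK i)
  rw [C_code]
  exact h1

/-- legal words of a member -/
theorem W_word (i : Mem h W c0) :
    ∀ w ∈ (semM h W c0).W i i.C, ∃ f, i.lm.Legal f ∧ w = i.word f := by
  intro w hw
  rw [C_code] at hw
  have h1 := LegalGap244.W_eq (J := fun i : Mem h W c0 => i.I) (k := fun i => clkI i)
    (i := i) (hypM i) (hx0M i) (hb0M i) (clkOK i)
  have h2 : w ∈ SemN844.W (hypM i) (hx0M i) (hb0M i) (clkI i).cw := h1 ▸ hw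
  obtain ⟨f, hf, rfl⟩ := (SemN844.mem_W_iff (hypM i) (hx0M i) (hb0M i) _ _).1 h2
  exact ⟨f, hf, rfl⟩

/-- **the uniform part is closed** -/
theorem fam_of_HC (h : D.OK M0 lam0 Kr) (W c0 : ℕ) (hK : 0 ≤ Kr) (h4 : 4 ≤ M0)
    (hl : lam0 ≤ 1 / 4096) {gN gM : (cst h W).Lab (ZMod 3) → Bool} (hH : HC h W c0 gN gM) :
    Fam289 :=
  fam_of_exact h W c0 hK h4 (hl.trans (by norm_num)) (by norm_num) (by norm_num)
    W_word (exactM h4 hl) hH

end Crest.Agent.R289.Unif719
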