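import Crest.Agent.R289.Asm3_331
import Crest.Agent.R289.Unif_719

/-!
# Row 289, assembly (helper331): only the instance clause `HC` is left

`S0434_of_HC`: the literal statement S0434 from the clause `HC` (tables and decoders of the members)
for the object with constants `M0 = 8`, `lam0 = 1 / 4096`.
-/

set_option autoImplicit false

namespace Crest.Agent.R289.Asm331

open Crest.Agent.R289 Crest.Agent.R289.Asm12 Crest.Agent.R289.InsObj576
  Crest.Agent.R289.Mem12 Crest.Agent.R289.FamU782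

/-- the arrow of block C from the instance clause -/
theorem fam_of_obj_of_HC
    (H : ∀ (Kr : ℝ) (D : Obj) (h : D.OK 8 (1 / 4096) Kr), 0 ≤ Kr → D.p = 3 →
      ∃ (W c0 : ℕ) (gN gM : (cst h W).Lab (ZMod 3) → Bool), HC h W c0 gN gM)
    (hO : Obj289) : Fam289 := by
  obtain ⟨Kr, hK, hD⟩ := hO
  obtain ⟨D, hp, h⟩ := hD 8 (1 / 4096) (by norm_num)
  obtain ⟨W, c0, gN, gM, hH⟩ := H Kr D h hK hp
  exact Unif719.fam_of_HC h W c0 hK (by norm_num) le_rfl hH

/-- **S0434 from the instance clause** -/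
theorem S0434_of_HC
    (H : ∀ (Kr : ℝ) (D : Obj) (h : D.OK 8 (1 / 4096) Kr), 0 ≤ Kr → D.p = 3 →
      ∃ (W c0 : ℕ) (gN gM : (cst h W).Lab (ZMod 3) → Bool), HC h W c0 gN gM) : S0434Stm :=
  S0434_of_arrow (fam_of_obj_of_HC H)

end Crest.Agent.R289.Asm331
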