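import Crest.Agent.R289.DefI_306
import Crest.Agent.R289.Word2_508

/-!
# Row 289: service file for the alphabets of `DefI_306`

* `Finite` / `Nonempty` instances: `Letter`, `Cst.TD`, `Cst.PD`, `Cst.Gen`, `Cst.Bank`, `Cst.Lab`;
* `exists_enc` : injective bit encodings of finite types;
* `letterEquiv`, `bankEquiv`, `labEquiv`, `labPi` : the labels as tuples / dependent functions over
  the registers `RegK` (form of `CAx.prod`);
* `CRules.relabel`, `CAx.relabel`, `SRule.relabel`, `MRules.relabel`.
-/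

set_option autoImplicit false

namespace Crest.Agent.R289.DefIFin465

open Crest.Agent.R289.DefI Crest.Agent.R289.Compile827 Crest.Agent.R289.Word508
  Crest.Agent.R289.DefD

/-! ### encodings -/

/-- every finite type has an injective encoding by bits -/
theorem exists_enc (A : Type) [Finite A] :
    ∃ (l : ℕ) (enc : A → (Fin l → Bool)), Function.Injective enc := by
  obtain ⟨l, ⟨e⟩⟩ := Finite.exists_equiv_fin A
  refine ⟨l, fun a i => decide (i = e a), fun a b h => ?_⟩
  have h1 := congrFun h (e a)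
  simp only [decide_true] at h1
  exact e.injective (of_decide_eq_true h1.symm)

/-- the same with `l` as large as wanted -/
theorem exists_enc_ge (A : Type) [Finite A] (m : ℕ) :
    ∃ (l : ℕ) (enc : A → (Fin l → Bool)), m ≤ l ∧ Function.Injective enc := by
  obtain ⟨l, enc, he⟩ := exists_enc A
  refine ⟨l + m, fun a i => if h : i.1 < l then enc a ⟨i.1, h⟩ else false, by omega, ?_⟩
  intro a b h
  apply he
  funext i
  have h1 := congrFun h ⟨i.1, by omega⟩
  simpa using h1

/-! ### letters -/

/-- letters as a sum -/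
def letterEquiv (R : Type) : Letter R ≃ Option (Option (R ⊕ R)) where
  toFun
    | .boot => none
    | .rest => some none
    | .fw ρ => some (some (.inl ρ))
    | .bw ρ => some (some (.inr ρ))
  invFun
    | none => .boot
    | some none => .rest
    | some (some (.inl ρ)) => .fw ρ
    | some (some (.inr ρ)) => .bw ρ
  left_inv x := by cases x <;> rfl
  right_inv x := by
    rcases x with _ | _ | (ρ | ρ) <;> rfl

instance finiteLetter {R : Type} [Finite R] : Finite (Letter R) :=
  Finite.of_equiv _ (letterEquiv R).symm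

instance nonemptyLetter {R : Type} : Nonempty (Letter R) := ⟨.boot⟩

section alphabets
variable {K : Type} [Field K] {c : Cst K}

/-! ### clock data, public data, moves -/

/-- clock data as a tuple -/
def tdEquiv (c : Cst K) : c.TD ≃ Bool × Bool × (c.S' → K) × (c.S' → K) × (c.S' → K) ×
    (c.C → c.S' → K) × (c.C → c.S' → K) × (c.C → c.S' → K) × (c.C → c.S' → K) where
  toFun t := (t.fst, t.lst, t.D, t.Dm, t.Dp, t.A, t.B, t.Am, t.Bm)
  invFun x := ⟨x.1, x.2.1, x.2.2.1, x.2.2.2.1, x.2.2.2.2.1, x.2.2.2.2.2.1, x.2.2.2.2.2.2.1,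
    x.2.2.2.2.2.2.2.1, x.2.2.2.2.2.2.2.2⟩
  left_inv _ := rfl
  right_inv _ := rfl

instance finiteTD [Finite K] : Finite c.TD := Finite.of_equiv _ (tdEquiv c).symm

instance nonemptyTD : Nonempty c.TD := ⟨⟨true, true, 0, 0, 0, 0, 0, 0, 0⟩⟩

/-- public data as a tuple -/
def pdEquiv (c : Cst K) : c.PD ≃ (c.A.Pub → c.S → K) × (c.A.Reg → c.S → K) × (c.S' → K) ×
    (c.J1 → c.S' → K) × (c.J2 → c.S' → K) × (c.S' → K) × (c.C → c.S' → K) × (c.C → c.S' → K) ×
    c.TD where
  toFun t := (t.b, t.x0, t.one, t.E1, t.E2, t.D0, t.A0, t.B0, t.tdL)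
  invFun x := ⟨x.1, x.2.1, x.2.2.1, x.2.2.2.1, x.2.2.2.2.1, x.2.2.2.2.2.1, x.2.2.2.2.2.2.1,
    x.2.2.2.2.2.2.2.1, x.2.2.2.2.2.2.2.2⟩
  left_inv _ := rfl
  right_inv _ := rfl

instance finitePD [Finite K] : Finite c.PD := Finite.of_equiv _ (pdEquiv c).symm

instance nonemptyPD : Nonempty c.PD :=
  ⟨⟨0, 0, 0, 0, 0, 0, 0, 0, ⟨true, true, 0, 0, 0, 0, 0, 0, 0⟩⟩⟩

/-- moves as a sum -/
def genEquiv (c : Cst K) (Gc : Type) :
    c.Gen Gc ≃ c.G ⊕ c.G ⊕ c.Jc ⊕ c.J1 ⊕ c.J2 ⊕ c.JT ⊕ Gc where
  toFun
    | .fwd g => .inl g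
    | .bwd g => .inr (.inl g)
    | .cas j => .inr (.inr (.inl j))
    | .t1 j => .inr (.inr (.inr (.inl j)))
    | .t2 j => .inr (.inr (.inr (.inr (.inl j))))
    | .tm j => .inr (.inr (.inr (.inr (.inr (.inl j)))))
    | .ck g => .inr (.inr (.inr (.inr (.inr (.inr g)))))
  invFun
    | .inl g => .fwd g
    | .inr (.inl g) => .bwd g
    | .inr (.inr (.inl j)) => .cas j
    | .inr (.inr (.inr (.inl j))) => .t1 j
    | .inr (.inr (.inr (.inr (.inl j)))) => .t2 j
    | .inr (.inr (.inr (.inr (.inr (.inl j))))) => .tm j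
    | .inr (.inr (.inr (.inr (.inr (.inr g))))) => .ck g
  left_inv x := by cases x <;> rfl
  right_inv x := by
    rcases x with g | g | g | g | g | g | g <;> rfl

instance finiteGen {Gc : Type} [Finite Gc] : Finite (c.Gen Gc) :=
  Finite.of_equiv _ (genEquiv c Gc).symm

/-! ### banks and labels -/

/-- banks as tuples -/
def bankEquiv (c : Cst K) : c.Bank ≃ c.A.Stg × (c.A.Reg → c.S → K) × (c.S' → c.S → c.V) ×
    (c.S' → c.S → c.V) × (c.C → c.S' → c.S → c.V) × (c.C → c.S' → c.S → c.V) where
  toFun t := (t.stg, t.R, t.X, t.Xm, t.Z, t.Zm)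
  invFun x := ⟨x.1, x.2.1, x.2.2.1, x.2.2.2.1, x.2.2.2.2.1, x.2.2.2.2.2⟩
  left_inv _ := rfl
  right_inv _ := rfl

instance finiteBank [Finite K] : Finite c.Bank := by
  have h1 : Finite (c.S' → c.S → c.V) := inferInstance
  have h2 : Finite (c.C → c.S' → c.S → c.V) := inferInstance
  have h3 : Finite (c.A.Reg → c.S → K) := inferInstance
  exact Finite.of_equiv _ (bankEquiv c).symm

/-- labels as tuples -/
def labEquiv (c : Cst K) (Ck : Type) : c.Lab Ck ≃ Letter c.A.Tr × Ck × c.Bank × c.Bank where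
  toFun t := (t.l, t.ck, t.b1, t.b2)
  invFun x := ⟨x.1, x.2.1, x.2.2.1, x.2.2.2⟩
  left_inv _ := rfl
  right_inv _ := rfl

instance finiteLab {Ck : Type} [Finite K] [Finite Ck] : Finite (c.Lab Ck) :=
  Finite.of_equiv _ (labEquiv c Ck).symm

theorem nonemptyBank (c : Cst K) [Nonempty c.A.Stg] : Nonempty c.Bank :=
  ⟨⟨Classical.arbitrary _, 0, 0, 0, 0, 0⟩⟩

theorem nonemptyLab (c : Cst K) {Ck : Type} [Nonempty Ck] [Nonempty c.A.Stg] :
    Nonempty (c.Lab Ck) := by
  obtain ⟨b⟩ := nonemptyBank c
  exact ⟨⟨.boot, Classical.arbitrary _, b, b⟩⟩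

/-! ### labels as dependent functions over the registers -/

/-- the registers of a label: letter, clock, and six registers for each bank -/
inductive RegK : Type
  | l | ck
  | stg (b : Bool) | R (b : Bool) | X (b : Bool) | Xm (b : Bool) | Z (b : Bool) | Zm (b : Bool)
  deriving DecidableEq, Fintype

/-- alphabet of a register -/
def Alp (c : Cst K) (Ck : Type) : RegK → Type
  | .l => Letter c.A.Tr
  | .ck => Ck
  | .stg _ => c.A.Stg
  | .R _ => c.A.Reg → c.S → K
  | .X _ => c.S' → c.S → c.V
  | .Xm _ => c.S' → c.S → c.V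
  | .Z _ => c.C → c.S' → c.S → c.V
  | .Zm _ => c.C → c.S' → c.S → c.V

/-- bank `b` of a label (`false` = bank 1, `true` = bank 2) -/
def bk {Ck : Type} (a : c.Lab Ck) (b : Bool) : c.Bank := if b then a.b2 else a.b1

/-- value of a register of a label -/
def reg {Ck : Type} (a : c.Lab Ck) : ∀ j : RegK, Alp c Ck j
  | .l => a.l
  | .ck => a.ck
  | .stg b => (bk a b).stg
  | .R b => (bk a b).R
  | .X b => (bk a b).X
  | .Xm b => (bk a b).Xm
  | .Z b => (bk a b).Z
  | .Zm b => (bk a b).Zm

/-- labels as dependent functions -/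
def labPi (c : Cst K) (Ck : Type) : c.Lab Ck ≃ ∀ j : RegK, Alp c Ck j where
  toFun := reg
  invFun x := ⟨x .l, x .ck, ⟨x (.stg false), x (.R false), x (.X false), x (.Xm false),
    x (.Z false), x (.Zm false)⟩, ⟨x (.stg true), x (.R true), x (.X true), x (.Xm true),
    x (.Z true), x (.Zm true)⟩⟩
  left_inv _ := rfl
  right_inv x := by
    funext j
    rcases j with _ | _ | b | b | b | b | b | b <;> first | rfl | (cases b <;> rfl)

@[simp] theorem labPi_apply {Ck : Type} (a : c.Lab Ck) (j : RegK) : labPi c Ck a j = reg a j := rfl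

instance finiteAlp {Ck : Type} [Finite K] [Finite Ck] (j : RegK) : Finite (Alp c Ck j) := by
  rcases j with _ | _ | b | b | b | b | b | b <;> (unfold Alp; infer_instance)

section labE
variable (I : Ins c) {Ck : Type} (cw : ℕ → I.U → Ck) (f : Conf I.XW I.ZW c.A.Tr) (u : I.U)

@[simp] theorem reg_labE_l : reg (I.labE cw f u) .l = f.l := rfl
@[simp] theorem reg_labE_ck : reg (I.labE cw f u) .ck = cw f.t u := rfl
theorem bk_labE (b : Bool) : bk (I.labE cw f u) b =
    if b then I.bankE f.x2 f.z2 u else I.bankE f.x1 f.z1 u := by cases b <;> rfl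

/-- content word of bank `b` -/
def xb (b : Bool) : I.XW := if b then f.x2 else f.x1
/-- certificate of bank `b` -/
def zb (b : Bool) : I.ZW := if b then f.z2 else f.z1

theorem reg_labE_stg (b : Bool) : reg (I.labE cw f u) (.stg b) = (xb I f b).1 := by
  cases b <;> rfl
theorem reg_labE_R (b : Bool) : reg (I.labE cw f u) (.R b) = fun i s => (xb I f b).2 i (u.1, s) := by
  cases b <;> rfl
theorem reg_labE_X (b : Bool) :
    reg (I.labE cw f u) (.X b) = fun s' s => (zb I f b).X (u.2, s') (u.1, s) := by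
  cases b <;> rfl
theorem reg_labE_Xm (b : Bool) :
    reg (I.labE cw f u) (.Xm b) = fun s' s => (zb I f b).Xm (u.2, s') (u.1, s) := by
  cases b <;> rfl
theorem reg_labE_Z (b : Bool) :
    reg (I.labE cw f u) (.Z b) = fun q s' s => (zb I f b).Z q (u.2, s') (u.1, s) := by
  cases b <;> rfl
theorem reg_labE_Zm (b : Bool) :
    reg (I.labE cw f u) (.Zm b) = fun q s' s => (zb I f b).Zm q (u.2, s') (u.1, s) := by
  cases b <;> rfl

end labE

/-- words are determined by the words of the registers -/
theorem lab_ext {U Ck : Type} {v w : U → c.Lab Ck}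
    (h : ∀ j u, reg (v u) j = reg (w u) j) : v = w := by
  funext u
  apply (labPi c Ck).injective
  funext j
  exact h j u

end alphabets

/-! ### relabelling -/

section relabel
variable {ι A A' P : Type}

/-- local test and correction over an equivalent alphabet -/
def _root_.Crest.Agent.R289.Word508.CRules.relabel (R : CRules ι A P) (e : A ≃ A') :
    CRules ι A' P where
  viol x p := R.viol (fun i => e.symm (x i)) p
  corr x p := e (R.corr (fun i => e.symm (x i)) p)

lemma distW_equiv {U : Type} [Fintype U] (e : A ≃ A') (v w : U → A) :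
    distW (fun u => e (v u)) (fun u => e (w u)) = distW v w := by
  unfold distW
  congr 1
  funext u
  simp

/-- RELABELLING: same constants -/
theorem _root_.Crest.Agent.R289.Word508.CAx.relabel {U : Type} [Fintype U] {R : CRules ι A P}
    {nb : ι → U → U} {pub : U → P} {C : Set (U → A)} {m zs r0 d0 c θ : ℝ}
    (h : CAx R nb pub C m zs r0 d0 c θ) (e : A ≃ A') :
    CAx (R.relabel e) nb pub {w | (fun u => e.symm (w u)) ∈ C} m zs r0 d0 c θ where
  mult := h.mult
  sep v hv w hw hne := by
    have h1 := h.sep _ hv _ hw (fun h2 => hne (by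
      funext u
      exact e.symm.injective (congrFun h2 u)))
    rwa [distW_equiv e.symm] at h1
  sound X hX := by
    obtain ⟨w, hw, hle⟩ := h.sound (fun u => e.symm (X u)) hX
    refine ⟨fun u => e (w u), ?_, ?_⟩
    · show (fun u => e.symm (e (w u))) ∈ C
      simpa using hw
    · have h1 : distW X (fun u => e (w u)) = distW (fun u => e.symm (X u)) w := by
        have := distW_equiv e (fun u => e.symm (X u)) w
        simpa using this
      rw [h1]
      exact hle
  compl w hw u := h.compl _ hw u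
  corr w hw E hE := by
    refine (frac_mono ?_).trans (h.corr _ hw E hE)
    rintro u ⟨x, hx, hne⟩
    refine ⟨fun i => e.symm (x i), fun i hi => congrArg e.symm (hx i hi), fun h2 => hne ?_⟩
    show e (R.corr (fun i => e.symm (x i)) (pub u)) = w u
    rw [h2]
    simp

/-- the relabelled code of the words of a set of images -/
theorem relabel_set {U : Type} (C : Set (U → A)) (e : A ≃ A') :
    {w : U → A' | (fun u => e.symm (w u)) ∈ C} = (fun w u => e (w u)) '' C := by
  ext w
  constructor
  · intro h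
    exact ⟨fun u => e.symm (w u), h, by funext u; simp⟩
  · rintro ⟨v, hv, rfl⟩
    show (fun u => e.symm (e (v u))) ∈ C
    simpa using hv

/-- step rules over an equivalent alphabet -/
def _root_.Crest.Agent.R289.Word508.SRule.relabel {J : Type} {V : J → Type}
    (S : SRule ι A P J V) (e : A ≃ A') : SRule ι A' P J V where
  val j x p := S.val j (fun i => e.symm (x i)) p
  F x p r := e (S.F (fun i => e.symm (x i)) p r)

theorem srule_gval {U J : Type} {V : J → Type} (S : SRule ι A P J V) (e : A ≃ A')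
    (nb : ι → U → U) (pub : U → P) (w : U → A') (j : J) :
    (S.relabel e).gval nb pub w j = S.gval nb pub (fun u => e.symm (w u)) j := rfl

theorem srule_glob {U J : Type} {V : J → Type} (S : SRule ι A P J V) (e : A ≃ A')
    (nb : ι → U → U) (pub : U → P) (w : U → A') :
    (S.relabel e).glob nb pub w = fun u => e (S.glob nb pub (fun u => e.symm (w u)) u) := rfl

end relabel

/-! ### from register codes to the code of the labels -/

section code
variable {K : Type} [Field K] {c : Cst K} {Ck U : Type} [Fintype U]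

/-- words of labels all of whose register words are in the given codes -/
def LabCode (C : ∀ j : RegK, Set (U → Alp c Ck j)) : Set (U → c.Lab Ck) :=
  {w | ∀ j, (fun u => reg (w u) j) ∈ C j}

/-- rules of the labels from rules of the registers -/
def labRules {ι P : RegK → Type} (R : ∀ j, CRules (ι j) (Alp c Ck j) (P j)) :
    CRules (Σ j, ι j) (c.Lab Ck) (∀ j, P j) :=
  (CRules.prod R).relabel (labPi c Ck).symm

/-- LABEL CODE from the 14 register codes (same `m zs r0 d0 c θ` for all of them) -/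
theorem lab_CAx {ι P : RegK → Type} {R : ∀ j, CRules (ι j) (Alp c Ck j) (P j)}
    {nb : ∀ j, ι j → U → U} {pub : ∀ j, U → P j} {C : ∀ j, Set (U → Alp c Ck j)}
    {m zs r0 d0 k θ : ℝ} (hk : 0 ≤ k)
    (h : ∀ j, CAx (R j) (nb j) (pub j) (C j) m zs r0 d0 k θ) :
    CAx (labRules R) (fun i u => nb i.1 i.2 u) (fun u j => pub j u) (LabCode C) m zs r0 d0
      (Fintype.card RegK * k) (Fintype.card RegK * θ) :=
  (CAx.prod hk h).relabel (labPi c Ck).symm

theorem card_regK : Fintype.card RegK = 14 := rfl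

/-- the label word of a configuration is in the label code as soon as its registers are -/
theorem labE_mem {I : Ins c} {Ck : Type} {C : ∀ j : RegK, Set (I.U → Alp c Ck j)}
    (cw : ℕ → I.U → Ck) (f : Conf I.XW I.ZW c.A.Tr) :
    (fun u => I.labE cw f u) ∈ LabCode C ↔
      (fun _ => f.l) ∈ C .l ∧ cw f.t ∈ C .ck ∧ ∀ b,
        (fun _ => (xb I f b).1) ∈ C (.stg b) ∧
        (fun (u : I.U) i s => (xb I f b).2 i (u.1, s)) ∈ C (.R b) ∧
        (fun (u : I.U) s' s => (zb I f b).X (u.2, s') (u.1, s)) ∈ C (.X b) ∧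
        (fun (u : I.U) s' s => (zb I f b).Xm (u.2, s') (u.1, s)) ∈ C (.Xm b) ∧
        (fun (u : I.U) q s' s => (zb I f b).Z q (u.2, s') (u.1, s)) ∈ C (.Z b) ∧
        (fun (u : I.U) q s' s => (zb I f b).Zm q (u.2, s') (u.1, s)) ∈ C (.Zm b) := by
  have e : ∀ (j : RegK) (w : I.U → Alp c Ck j), (∀ u, reg (I.labE cw f u) j = w u) →
      ((fun u => reg (I.labE cw f u) j) ∈ C j ↔ w ∈ C j) := by
    intro j w hw
    rw [show (fun u => reg (I.labE cw f u) j) = w from funext hw]
  constructor
  · intro h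
    refine ⟨h .l, h .ck, fun b => ⟨?_, ?_, ?_, ?_, ?_, ?_⟩⟩
    · exact (e (.stg b) _ fun u => reg_labE_stg I cw f u b).1 (h (.stg b))
    · exact (e (.R b) _ fun u => reg_labE_R I cw f u b).1 (h (.R b))
    · exact (e (.X b) _ fun u => reg_labE_X I cw f u b).1 (h (.X b))
    · exact (e (.Xm b) _ fun u => reg_labE_Xm I cw f u b).1 (h (.Xm b))
    · exact (e (.Z b) _ fun u => reg_labE_Z I cw f u b).1 (h (.Z b))
    · exact (e (.Zm b) _ fun u => reg_labE_Zm I cw f u b).1 (h (.Zm b))
  · rintro ⟨h1, h2, h3⟩ j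
    rcases j with _ | _ | b | b | b | b | b | b
    · exact h1
    · exact h2
    · exact (e (.stg b) _ fun u => reg_labE_stg I cw f u b).2 (h3 b).1
    · exact (e (.R b) _ fun u => reg_labE_R I cw f u b).2 (h3 b).2.1
    · exact (e (.X b) _ fun u => reg_labE_X I cw f u b).2 (h3 b).2.2.1
    · exact (e (.Xm b) _ fun u => reg_labE_Xm I cw f u b).2 (h3 b).2.2.2.1
    · exact (e (.Z b) _ fun u => reg_labE_Z I cw f u b).2 (h3 b).2.2.2.2.1
    · exact (e (.Zm b) _ fun u => reg_labE_Zm I cw f u b).2 (h3 b).2.2.2.2.2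

end code

end Crest.Agent.R289.DefIFin465
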