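import Crest.Agent.R289.Size_954

/-!
# Row 289: size arithmetic, part 2

Sizes of the factors of the unit set: `Q ^ level` for a quasi-linear / polylogarithmic argument and
`b ^ (clog 2 f + c)` (long-code factor over `loglog` many layers), with unary computability.
-/

set_option autoImplicit false

namespace Crest.Agent.R289.Size954

open Crest.Agent.Lib.PT

variable {α : Type} {f g h : α → ℕ}

/-! ### growth of the factors -/

theorem one_le_pow_lev {Q : ℕ} (hQ : 2 ≤ Q) (c e N : ℕ) : 1 ≤ Q ^ lev Q c e N :=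
  Nat.one_le_pow _ _ (by omega)

/-- `Q ^ level` of a quasi-linear argument is quasi-linear -/
theorem BL_pow_lev {Q : ℕ} (hQ : 2 ≤ Q) (c e : ℕ) (hf : BL f g) (hg : ∀ a, 1 ≤ g a) :
    BL (fun a => Q ^ lev Q c e (f a)) g := by
  have h1 : BL (fun a => (Q * c) * f a * cl (f a) ^ e + 1) g := by
    refine BL.add ?_ (BL.const 1 hg)
    exact (BL.mul_PL (hf.mul_const (Q * c)) ((PL.clog f).pow e |>.trans hf))
  exact h1.mono_left fun a => pow_lev_le' c e hQ (f a)

/-- `Q ^ level` of a polylogarithmic argument is polylogarithmic -/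
theorem PL_pow_lev {Q : ℕ} (hQ : 2 ≤ Q) (c e : ℕ) (hf : PL f g) :
    PL (fun a => Q ^ lev Q c e (f a)) g := by
  have hcl : PL (fun a => cl (f a)) g :=
    (hf.add (PL.const 1 g)).mono_left fun a => cl_le (f a)
  have h1 : PL (fun a => (Q * c) * f a * cl (f a) ^ e + 1) g :=
    (((PL.const (Q * c) g).mul hf).mul (hcl.pow e)).add (PL.const 1 g)
  exact h1.mono_left fun a => pow_lev_le' c e hQ (f a)

/-- the level of a polynomially bounded argument is `O(cl)` -/
theorem PL_lev {Q : ℕ} (hQ : 2 ≤ Q) (c e : ℕ) (hf : BL f g) :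
    PL (fun a => lev Q c e (f a)) g :=
  (((PL.const (cl c + 2 * e + 4) f).mul (PL.clog f)).trans hf).mono_left
    fun a => lev_le hQ c e (f a)

/-- a logarithm of a polylogarithmic function is polylogarithmic (trivially) -/
theorem PL.clog_two (hf : PL f g) : PL (fun a => Nat.clog 2 (f a)) g := by
  refine (hf.add (PL.const 1 g)).mono_left fun a => ?_
  exact (Nat.clog_mono_right 2 (Nat.le_add_right (f a) 2)).trans (cl_le (f a))

theorem pow_clog_two_le (b x : ℕ) : b ^ Nat.clog 2 x ≤ (2 * x + 1) ^ Nat.clog 2 b := by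
  have h1 : b ≤ 2 ^ Nat.clog 2 b := Nat.le_pow_clog (by norm_num) b
  have h2 : 2 ^ Nat.clog 2 x ≤ 2 * x + 1 := by
    rcases Nat.eq_zero_or_pos x with rfl | hx
    · simp
    · exact (pow_clog_le (le_refl 2) hx).trans (Nat.le_succ _)
  calc b ^ Nat.clog 2 x ≤ (2 ^ Nat.clog 2 b) ^ Nat.clog 2 x := Nat.pow_le_pow_left h1 _
    _ = (2 ^ Nat.clog 2 x) ^ Nat.clog 2 b := by rw [← pow_mul, ← pow_mul, mul_comm]
    _ ≤ (2 * x + 1) ^ Nat.clog 2 b := Nat.pow_le_pow_left h2 _

/-- **long-code factor**: `b ^ (clog 2 f + c)` is polylogarithmic if `f` is -/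
theorem PL_pow_clog (b c : ℕ) (hf : PL f g) :
    PL (fun a => b ^ (Nat.clog 2 (f a) + c)) g := by
  have h1 : PL (fun a => (2 * f a + 1) ^ Nat.clog 2 b * b ^ c) g :=
    ((((PL.const 2 g).mul hf).add (PL.const 1 g)).pow _).mul (PL.const (b ^ c) g)
  refine h1.mono_left fun a => ?_
  rw [pow_add]
  exact Nat.mul_le_mul_right _ (pow_clog_two_le b (f a))

/-- general exponent: `b ^ l` is polylogarithmic if `l ≤ d * clog 2 f + c`, `f` polylogarithmic -/
theorem PL_pow_of_le (b d c : ℕ) (hb : 1 ≤ b) {l : α → ℕ} (hf : PL f g)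
    (hl : ∀ a, l a ≤ d * Nat.clog 2 (f a) + c) : PL (fun a => b ^ l a) g := by
  have h1 : PL (fun a => (b ^ Nat.clog 2 (f a)) ^ d * b ^ c) g :=
    (((PL_pow_clog b 0 hf).mono_left fun a => by simp).pow d).mul (PL.const _ g)
  refine h1.mono_left fun a => ?_
  calc b ^ l a ≤ b ^ (d * Nat.clog 2 (f a) + c) := Nat.pow_le_pow_right hb (hl a)
    _ = (b ^ Nat.clog 2 (f a)) ^ d * b ^ c := by rw [pow_add, mul_comm d, pow_mul]

/-- product of a quasi-linear factor with finitely many polylogarithmic ones -/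
theorem BL.mul_PL₂ {f₁ f₂ : α → ℕ} (hf : BL f g) (h₁ : PL f₁ g) (h₂ : PL f₂ g) :
    BL (fun a => f a * f₁ a * f₂ a) g := (hf.mul_PL h₁).mul_PL h₂

theorem BL.mul_PL₃ {f₁ f₂ f₃ : α → ℕ} (hf : BL f g) (h₁ : PL f₁ g) (h₂ : PL f₂ g)
    (h₃ : PL f₃ g) : BL (fun a => f a * f₁ a * f₂ a * f₃ a) g :=
  ((hf.mul_PL h₁).mul_PL h₂).mul_PL h₃

/-! ### unary computability -/

section PTF

variable [PTCode α]

theorem ptu_clog2 (hf : PTF f) : PTU (fun a => Nat.clog 2 (f a)) := by
  refine (ptf_clog (PTF.const 2) hf).toPTU ?_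
  exact (PB_cl hf).mono fun a => Nat.clog_mono_right 2 (Nat.le_add_right (f a) 2)

theorem ptf_pow_clog (b c : ℕ) (hf : PTF f) : PTF (fun a => b ^ (Nat.clog 2 (f a) + c)) :=
  PTF.natPow (PTF.const b) (PTU.add (ptu_clog2 hf) (PTU.const c))

/-- `b ^ (clog 2 f + c)` in unary for a unary `f` -/
theorem ptu_pow_clog (b c : ℕ) (hf : PTU f) : PTU (fun a => b ^ (Nat.clog 2 (f a) + c)) := by
  refine (ptf_pow_clog b c hf.toPTF).toPTU ?_
  have h1 : PB (fun a => (2 * f a + 1) ^ Nat.clog 2 b * b ^ c) :=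
    ((((PB.const 2).mul hf.pb).add (PB.const 1)).pow _).mul (PB.const _)
  refine h1.mono fun a => ?_
  rw [pow_add]
  exact Nat.mul_le_mul_right _ (pow_clog_two_le b (f a))

/-- `b ^ l` in unary if `l` is unary and `b ^ l` is polynomially bounded -/
theorem ptu_pow_of_pb (b : ℕ) {l : α → ℕ} (hl : PTU l) (h : PB (fun a => b ^ l a)) :
    PTU (fun a => b ^ l a) := (PTF.natPow (PTF.const b) hl).toPTU h

/-- a quasi-linear function of a polynomially bounded function is polynomially bounded -/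
theorem BL.pb (hf : BL f g) (hg : PB g) : PB f := by
  obtain ⟨A, b, hA⟩ := hf
  have h1 : PB (fun a => A * g a * (g a + 1) ^ b) :=
    ((PB.const A).mul hg).mul ((hg.add (PB.const 1)).pow b)
  exact h1.mono fun a => (hA a).trans
    (Nat.mul_le_mul_left _ (Nat.pow_le_pow_left (cl_le (g a)) b))

theorem PL.pb (hf : PL f g) (hg : PB g) : PB f := by
  obtain ⟨A, b, hA⟩ := hf
  have h1 : PB (fun a => A * (g a + 1) ^ b) := (PB.const A).mul ((hg.add (PB.const 1)).pow b)
  exact h1.mono fun a => (hA a).trans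
    (Nat.mul_le_mul_left _ (Nat.pow_le_pow_left (cl_le (g a)) b))

end PTF

end Crest.Agent.R289.Size954
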