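import Mathlib

/-!
Row 289, block C (helper827): stacks over `[L]` in linear functional coding
(`Z y = ∑ i, y i • x i`, `y : Fin L → F`), as used in #5655 (2).

A column `x : Fin L → M` is the stack of depth `d` (`d = 0` empty) of `g` under the operator `Λ`:
`x i = Λ^(d-1-i) g` for `i < d` and `0` above.  The pointwise relation
`Z y = Λ (Z (S y)) + μ y • g` (`S` = shift up, `μ` = marker = coordinate `d-1`) determines it, and
push, pop are pointwise in `y`.
-/

set_option autoImplicit false

namespace Crest.Agent.R289.Stack827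

variable {F M : Type*} [Field F] [AddCommGroup M] [Module F M] {L : ℕ}

/-- the code of a column -/
def code (x : Fin L → M) (y : Fin L → F) : M := ∑ i, y i • x i

/-- `i`-th entry of a column, `0` outside -/
def ent {A : Type*} [Zero A] (x : Fin L → A) (i : ℕ) : A := if h : i < L then x ⟨i, h⟩ else 0

/-- shift towards higher indices: `(up y) 0 = 0`, `(up y) (i+1) = y i` (last entry lost) -/
def up {A : Type*} [Zero A] (y : Fin L → A) : Fin L → A :=
  fun i => if (i : ℕ) = 0 then 0 else ent y ((i : ℕ) - 1)

/-- shift towards lower indices: `(dn y) i = y (i+1)`, last entry `0` -/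
def dn {A : Type*} [Zero A] (y : Fin L → A) : Fin L → A := fun i => ent y ((i : ℕ) + 1)

/-- the unit vector at position `i` (`0` if `i ≥ L`) -/
def unit (i : ℕ) : Fin L → F := fun k => if (k : ℕ) = i then 1 else 0

theorem ent_of_lt {A : Type*} [Zero A] (x : Fin L → A) {i : ℕ} (h : i < L) : ent x i = x ⟨i, h⟩ :=
  dif_pos h

theorem ent_of_ge {A : Type*} [Zero A] (x : Fin L → A) {i : ℕ} (h : L ≤ i) : ent x i = 0 :=
  dif_neg (by omega)

theorem ext_ent {A : Type*} [Zero A] {x x' : Fin L → A} (h : ∀ i < L, ent x i = ent x' i) : x = x' := by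
  funext i
  have := h i i.2
  rwa [ent_of_lt x i.2, ent_of_lt x' i.2] at this

theorem ent_up_zero {A : Type*} [Zero A] (y : Fin L → A) : ent (up y) 0 = 0 := by
  unfold ent up
  split_ifs <;> simp_all

theorem ent_up_succ {A : Type*} [Zero A] (y : Fin L → A) {i : ℕ} (h : i + 1 < L) :
    ent (up y) (i + 1) = ent y i := by
  rw [ent_of_lt _ h]
  simp [up]

theorem ent_dn {A : Type*} [Zero A] (y : Fin L → A) {i : ℕ} (h : i < L) :
    ent (dn y) i = ent y (i + 1) := by
  rw [ent_of_lt _ h]
  rfl

theorem code_eq_range (x : Fin L → M) (y : Fin L → F) :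
    code x y = ∑ i ∈ Finset.range L, ent y i • ent x i := by
  unfold code
  rw [Finset.sum_range]
  refine Finset.sum_congr rfl fun i _ => ?_
  rw [ent_of_lt _ i.2, ent_of_lt _ i.2]

/-- `code x (up y)` is the code of the column shifted down -/
theorem code_up (x : Fin L → M) (y : Fin L → F) : code x (up y) = code (dn x) y := by
  rw [code_eq_range, code_eq_range]
  cases L with
  | zero => simp
  | succ n =>
    rw [Finset.sum_range_succ', ent_up_zero, zero_smul, add_zero, Finset.sum_range_succ]
    have h1 : ent (dn x) n = 0 := by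
      rw [ent_dn _ (Nat.lt_succ_self n), ent_of_ge _ (le_refl _)]
    rw [h1, smul_zero, add_zero]
    refine Finset.sum_congr rfl fun i hi => ?_
    have hi' := Finset.mem_range.1 hi
    rw [ent_up_succ _ (by omega), ent_dn _ (by omega)]

/-- `code x (dn y)` is the code of the column shifted up -/
theorem code_dn (x : Fin L → M) (y : Fin L → F) : code x (dn y) = code (up x) y := by
  rw [code_eq_range, code_eq_range]
  cases L with
  | zero => simp
  | succ n =>
    rw [Finset.sum_range_succ, Finset.sum_range_succ' (fun i => ent y i • ent (up x) i), ent_up_zero,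
      smul_zero, add_zero, ent_dn _ (Nat.lt_succ_self n), ent_of_ge y (le_refl _), zero_smul, add_zero]
    refine Finset.sum_congr rfl fun i hi => ?_
    have hi' := Finset.mem_range.1 hi
    rw [ent_dn _ (by omega), ent_up_succ _ (by omega)]

theorem code_unit (x : Fin L → M) (i : Fin L) : code x (unit (F := F) i) = x i := by
  unfold code unit
  rw [Finset.sum_eq_single i]
  · simp
  · intro k _ hk
    rw [if_neg (fun h => hk (Fin.ext h)), zero_smul]
  · simp

theorem code_add (x : Fin L → M) (y y' : Fin L → F) : code x (y + y') = code x y + code x y' := by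
  simp [code, add_smul, Finset.sum_add_distrib]

theorem code_zero (x : Fin L → M) : code x (0 : Fin L → F) = 0 := by simp [code]

theorem code_injective {x x' : Fin L → M} (h : ∀ y : Fin L → F, code x y = code x' y) : x = x' := by
  funext i
  rw [← code_unit (F := F) x i, h, code_unit]

/-- every linear map on `Fin L → F` is the code of its column of values at unit vectors -/
theorem linear_eq_code (Z : (Fin L → F) →ₗ[F] M) (y : Fin L → F) :
    Z y = code (fun i => Z (Pi.single i 1)) y := by
  unfold code
  conv_lhs => rw [show y = ∑ i, y i • (Pi.single i (1 : F) : Fin L → F) by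
    funext k
    simp [Finset.sum_apply, Pi.single_apply]]
  rw [map_sum]
  simp

/-- the stack of depth `d` of `g` -/
def stack (Λ : M →ₗ[F] M) (g : M) (d : ℕ) : Fin L → M :=
  fun i => if (i : ℕ) < d then (Λ ^ (d - 1 - i)) g else 0

theorem stack_zero (Λ : M →ₗ[F] M) (g : M) : (stack Λ g 0 : Fin L → M) = 0 := by
  funext i; simp [stack]

theorem ent_stack (Λ : M →ₗ[F] M) (g : M) (d : ℕ) {i : ℕ} (hi : i < L) :
    ent (stack Λ g d : Fin L → M) i = if i < d then (Λ ^ (d - 1 - i)) g else 0 := by
  rw [ent_of_lt _ hi]; rfl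

/-- marker of depth `d`: `0` for `d = 0`, coordinate `d - 1` otherwise -/
def mark (L : ℕ) (d : ℕ) (y : Fin L → F) : F := if d = 0 then 0 else ent y (d - 1)

theorem mark_zero (y : Fin L → F) : mark L 0 y = 0 := if_pos rfl

theorem mark_succ (d : ℕ) (y : Fin L → F) : mark L (d + 1) y = ent y d := by
  simp [mark]

/-- the relation of a stack, in code form -/
def Rel (Λ : M →ₗ[F] M) (g : M) (μ : (Fin L → F) → F) (Z : (Fin L → F) → M) : Prop :=
  ∀ y, Z y = Λ (Z (up y)) + μ y • g

theorem map_code (Λ : M →ₗ[F] M) (x : Fin L → M) (y : Fin L → F) :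
    Λ (code x y) = code (fun i => Λ (x i)) y := by
  simp [code, map_sum]

theorem code_add_col (x x' : Fin L → M) (y : Fin L → F) :
    code x y + code x' y = code (x + x') y := by
  simp [code, smul_add, Finset.sum_add_distrib]

theorem mark_smul_eq_code (g : M) (d : ℕ) (y : Fin L → F) :
    mark L d y • g = code (fun i : Fin L => if (i : ℕ) + 1 = d then g else 0) y := by
  unfold code
  cases d with
  | zero => simp [mark]
  | succ d =>
    rw [mark_succ]
    by_cases hd : d < L
    · rw [Finset.sum_eq_single (⟨d, hd⟩ : Fin L)]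
      · simp [ent_of_lt _ hd]
      · intro k _ hk
        have hk' : ¬ (k : ℕ) + 1 = d + 1 := fun h => hk (Fin.ext (Nat.succ_injective h))
        simp only [hk', if_false, smul_zero]
      · simp
    · rw [ent_of_ge _ (by omega), zero_smul]
      symm
      refine Finset.sum_eq_zero fun k _ => ?_
      have hk' : ¬ (k : ℕ) + 1 = d + 1 := by have := k.2; omega
      simp only [hk', if_false, smul_zero]

/-- the stack relation, column form -/
theorem rel_code_iff (Λ : M →ₗ[F] M) (g : M) (d : ℕ) (x : Fin L → M) :
    Rel Λ g (mark (F := F) L d) (code x) ↔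
      ∀ i < L, ent x i = Λ (ent x (i + 1)) + (if i + 1 = d then g else 0) := by
  have e : ∀ y : Fin L → F, Λ (code x (up y)) + mark L d y • g =
      code (fun i : Fin L => Λ (ent x ((i : ℕ) + 1)) + if (i : ℕ) + 1 = d then g else 0) y := by
    intro y
    rw [code_up, map_code, mark_smul_eq_code, code_add_col]
    rfl
  constructor
  · intro h i hi
    have h1 : x = fun i : Fin L => Λ (ent x ((i : ℕ) + 1)) + if (i : ℕ) + 1 = d then g else 0 :=
      code_injective (F := F) fun y => by rw [h y, e y]
    have := congrFun h1 ⟨i, hi⟩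
    rw [ent_of_lt _ hi, this]
  · intro h y
    rw [e y]
    congr 1
    funext i
    have := h i i.2
    rwa [ent_of_lt _ i.2] at this

theorem rel_stack (Λ : M →ₗ[F] M) (g : M) {d : ℕ} (hd : d ≤ L) :
    Rel Λ g (mark (F := F) L d) (code (stack Λ g d)) := by
  rw [rel_code_iff]
  intro i hi
  rw [ent_stack _ _ _ hi]
  by_cases hi1 : i + 1 < L
  · rw [ent_stack _ _ _ hi1]
    rcases lt_trichotomy (i + 1) d with h | h | h
    · rw [if_pos (by omega), if_pos h, if_neg (by omega), add_zero]
      rw [show d - 1 - i = (d - 1 - (i + 1)) + 1 by omega, pow_succ']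
      rfl
    · rw [if_pos (by omega), if_neg (by omega), if_pos h, map_zero, zero_add,
        show d - 1 - i = 0 by omega]
      simp
    · rw [if_neg (by omega), if_neg (by omega), if_neg (by omega)]
      simp
  · rw [ent_of_ge _ (by omega), map_zero, zero_add]
    by_cases h : i + 1 = d
    · rw [if_pos (by omega), if_pos h, show d - 1 - i = 0 by omega]
      simp
    · rw [if_neg (by omega), if_neg h]

/-- **uniqueness**: the relation determines the stack -/
theorem stack_unique (Λ : M →ₗ[F] M) (g : M) {d : ℕ} (hd : d ≤ L) {x : Fin L → M}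
    (h : Rel Λ g (mark (F := F) L d) (code x)) : x = stack Λ g d := by
  have h1 := (rel_code_iff Λ g d x).1 h
  have h2 := (rel_code_iff Λ g d (stack Λ g d : Fin L → M)).1 (rel_stack Λ g hd)
  have key : ∀ m, ∀ i, L ≤ i + m → ent x i = ent (stack Λ g d : Fin L → M) i := by
    intro m
    induction m with
    | zero => intro i hi; rw [ent_of_ge _ (by omega), ent_of_ge _ (by omega)]
    | succ m ih =>
      intro i hi
      by_cases hL : i < L
      · rw [h1 i hL, h2 i hL, ih (i + 1) (by omega)]
      · rw [ent_of_ge _ (by omega), ent_of_ge _ (by omega)]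
  exact ext_ent fun i _ => key L i (by omega)

/-- the relation with marker of depth `0` forces the empty stack -/
theorem stack_unique' (Λ : M →ₗ[F] M) (g : M) {d : ℕ} (hd : d ≤ L) (Z : (Fin L → F) →ₗ[F] M)
    (h : Rel Λ g (mark (F := F) L d) Z) : ∀ y, Z y = code (stack Λ g d) y := by
  have e : (Z : (Fin L → F) → M) = code fun i => Z (Pi.single i 1) := by
    funext y; exact linear_eq_code Z y
  intro y
  rw [e] at h
  have := stack_unique Λ g hd h
  calc Z y = code (fun i => Z (Pi.single i 1)) y := linear_eq_code Z y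
    _ = _ := by rw [this]

/-! ### push and pop -/

/-- top entry of a coded column, read at `y` and `y + e₀` -/
def top (Z : (Fin L → F) → M) (y : Fin L → F) : M := Z (y + unit 0) - Z y

theorem top_code (x : Fin L → M) (y : Fin L → F) (hL : 0 < L) : top (code x) y = x ⟨0, hL⟩ := by
  unfold top
  rw [code_add, add_sub_cancel_left]
  exact code_unit (F := F) x ⟨0, hL⟩

/-- PUSH (non-empty stack): `Z' y = Z (dn y) + y₀ Λ (top)` -/
theorem push_stack (Λ : M →ₗ[F] M) (g : M) {d : ℕ} (hd : d + 1 < L) (y : Fin L → F) :
    code (stack Λ g (d + 2)) y =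
      code (stack Λ g (d + 1)) (dn y) + ent y 0 • Λ (top (code (stack Λ g (d + 1))) y) := by
  have hL : 0 < L := by omega
  rw [code_dn, top_code _ _ hL]
  have h0 : (stack Λ g (d + 1) : Fin L → M) ⟨0, hL⟩ = (Λ ^ d) g := by simp [stack]
  rw [h0]
  have h1 : ent y 0 • Λ ((Λ ^ d) g) =
      code (fun i : Fin L => if (i : ℕ) = 0 then Λ ((Λ ^ d) g) else 0) y := by
    unfold code
    rw [Finset.sum_eq_single (⟨0, hL⟩ : Fin L)]
    · simp [ent_of_lt _ hL]
    · intro k _ hk
      have hk' : ¬ (k : ℕ) = 0 := fun h => hk (Fin.ext h)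
      simp only [hk', if_false, smul_zero]
    · simp
  rw [h1, code_add_col]
  congr 1
  refine ext_ent fun i hi => ?_
  rw [ent_stack _ _ _ hi, ent_of_lt _ hi]
  simp only [Pi.add_apply, up]
  by_cases h : i = 0
  · subst h
    simp only [if_true, zero_add]
    rw [if_pos (by omega), show d + 2 - 1 - 0 = d + 1 by omega, pow_succ']
    rfl
  · rw [if_neg h, if_neg h, add_zero, ent_stack _ _ _ (by omega)]
    by_cases h' : i < d + 2
    · rw [if_pos h', if_pos (by omega)]
      congr 2
      omega
    · rw [if_neg h', if_neg (by omega)]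

/-- first PUSH: `Z' y = y₀ g` -/
theorem push_first (Λ : M →ₗ[F] M) (g : M) (hL : 0 < L) (y : Fin L → F) :
    code (stack Λ g 1) y = ent y 0 • g := by
  unfold code
  rw [Finset.sum_eq_single (⟨0, hL⟩ : Fin L)]
  · simp [stack, ent_of_lt _ hL]
  · intro k _ hk
    have hk' : (k : ℕ) ≠ 0 := fun h => hk (Fin.ext h)
    simp [stack, hk']
  · simp

/-- POP: `Z' y = Z (up y)` -/
theorem pop_stack (Λ : M →ₗ[F] M) (g : M) {d : ℕ} (hd : d + 1 ≤ L) (y : Fin L → F) :
    code (stack Λ g d) y = code (stack Λ g (d + 1)) (up y) := by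
  rw [code_up]
  congr 1
  refine ext_ent fun i hi => ?_
  rw [ent_dn _ hi, ent_stack _ _ _ hi]
  by_cases h : i + 1 < L
  · rw [ent_stack _ _ _ h]
    by_cases h' : i < d
    · rw [if_pos h', if_pos (by omega)]
      congr 2
      omega
    · rw [if_neg h', if_neg (by omega)]
  · rw [ent_of_ge _ (by omega), if_neg (by omega)]

theorem mark_push {d : ℕ} (hd : d + 1 < L) (y : Fin L → F) :
    mark L (d + 2) y = mark L (d + 1) (dn y) := by
  rw [mark_succ, mark_succ, ent_dn _ (by omega)]

theorem mark_pop {d : ℕ} (hd : d + 1 ≤ L) (y : Fin L → F) :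
    mark L d y = mark L (d + 1) (up y) := by
  rw [mark_succ]
  cases d with
  | zero => rw [mark_zero, ent_up_zero]
  | succ d => rw [mark_succ, ent_up_succ _ (by omega)]

/-! ### the zero test of the full stack -/

theorem full_mem_iff (Λ : M →ₗ[F] M) (g : M) (N : Submodule F M) :
    (∀ y : Fin L → F, code (stack Λ g L) y ∈ N) ↔ ∀ i < L, (Λ ^ i) g ∈ N := by
  constructor
  · intro h i hi
    have h1 := h (unit (L - 1 - i))
    have h2 : (L - 1 - i) < L := by omega
    have h3 := code_unit (F := F) (stack Λ g L : Fin L → M) ⟨L - 1 - i, h2⟩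
    rw [show ((⟨L - 1 - i, h2⟩ : Fin L) : ℕ) = L - 1 - i from rfl] at h3
    rw [h3] at h1
    simp only [stack, if_pos h2] at h1
    rwa [show L - 1 - (L - 1 - i) = i by omega] at h1
  · intro h y
    refine Submodule.sum_mem _ fun i _ => Submodule.smul_mem _ _ ?_
    simp only [stack, if_pos i.2]
    exact h _ (by have := i.2; omega)

/-! ### markers -/

/-- a linear multiplicative functional is `0` or a coordinate -/
theorem marker_of_mul (μ : (Fin L → F) →ₗ[F] F) (h : ∀ y y', μ (y * y') = μ y * μ y') :
    ∃ d ≤ L, ∀ y, μ y = mark L d y := by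
  classical
  by_cases h0 : ∃ i : Fin L, μ (Pi.single i 1) ≠ 0
  · obtain ⟨i, hi⟩ := h0
    have h1 : μ (Pi.single i 1) = 1 := by
      have := h (Pi.single i 1) (Pi.single i 1)
      rw [← Pi.single_mul, mul_one] at this
      exact (mul_eq_left₀ hi).1 this.symm
    have h2 : ∀ k : Fin L, k ≠ i → μ (Pi.single k 1) = 0 := by
      intro k hk
      have := h (Pi.single k 1) (Pi.single i 1)
      have e : (Pi.single k (1 : F) : Fin L → F) * Pi.single i 1 = 0 := by
        funext m
        by_cases hm : m = k
        · subst hm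
          simp [hk]
        · simp [Pi.single_apply, hm]
      rw [e, map_zero, h1, mul_one] at this
      exact this.symm
    refine ⟨i + 1, i.2, fun y => ?_⟩
    rw [mark_succ, ent_of_lt _ i.2, linear_eq_code μ y]
    unfold code
    rw [Finset.sum_eq_single i]
    · simp only [h1, smul_eq_mul, mul_one]
    · intro k _ hk
      simp only [h2 k hk, smul_zero]
    · simp
  · push Not at h0
    refine ⟨0, Nat.zero_le _, fun y => ?_⟩
    rw [mark_zero, linear_eq_code μ y]
    unfold code
    exact Finset.sum_eq_zero fun k _ => by simp only [h0 k, smul_zero]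

theorem mark_mul (d : ℕ) (y y' : Fin L → F) : mark L d (y * y') = mark L d y * mark L d y' := by
  cases d with
  | zero => simp [mark_zero]
  | succ d =>
    rw [mark_succ, mark_succ, mark_succ]
    by_cases h : d < L
    · simp [ent_of_lt _ h]
    · simp [ent_of_ge _ (not_lt.1 h)]

theorem mark_injective {d d' : ℕ} (hd : d ≤ L) (hd' : d' ≤ L)
    (h : ∀ y : Fin L → F, mark L d y = mark L d' y) : d = d' := by
  by_contra hne
  wlog hlt : d < d' generalizing d d'
  · exact this hd' hd (fun y => (h y).symm) (fun e => hne e.symm)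
      (lt_of_le_of_ne (not_lt.1 hlt) (fun e => hne e.symm))
  obtain ⟨e, rfl⟩ : ∃ e, d' = e + 1 := ⟨d' - 1, by omega⟩
  have h1 := h (unit e)
  have h2 : mark (F := F) L (e + 1) (unit e) = 1 := by
    rw [mark_succ, ent_of_lt _ (by omega)]; simp [unit]
  rw [h2] at h1
  cases d with
  | zero => rw [mark_zero] at h1; exact zero_ne_one h1
  | succ d =>
    rw [mark_succ, ent_of_lt _ (by omega)] at h1
    simp only [unit] at h1
    rw [if_neg (by omega)] at h1
    exact zero_ne_one h1

end Crest.Agent.R289.Stack827
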