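import Crest.Agent.R289.GkIdx_594
import Crest.Agent.R289.Stack_827

/-!
# R289 / YIdx (helper901), leaf E18: index maps of the last (Hadamard) factor and of products

* `eY F L : (Fin L → F) ≃ Fin (qK F ^ L)`, value `idx (List.ofFn y)`.
* index functions of the maps of the last factor: `upI`, `dnI` (`Stack827.up`, `dn`), `addI`, `mulI`,
  `subI`, `smulI`, `negI`, `addUI` (add `c` times a unit vector), `coI` (coordinate); each with
  `_spec` (it is the map in the coordinates `eY`), and PTF in `(L unary, index)`.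
* products: `eP e1 e2 : U1 × U2 ≃ Fin (n1 * n2)`, `pI n2 i1 i2 = i2 + n2 * i1`; `fI`, `sI` = the two
  indices; PTF.
-/

set_option autoImplicit false
set_option linter.dupNamespace false

namespace Crest.Agent.R289.YIdx901

open Crest.Agent.Lib.PT Crest.Agent.R289.GkIdx594 Crest.Agent.R289.Stack827

/-! ### the equivalence -/

section eY

variable (F : Type) [Finite F] [Inhabited F]

/-- vectors and their indices -/
noncomputable def eY (L : ℕ) : (Fin L → F) ≃ Fin (qK F ^ L) where
  toFun y := ⟨idx (List.ofFn y), by simpa using idx_lt (List.ofFn y)⟩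
  invFun i := fun j => (digs F L i).getD j default
  left_inv y := by
    funext j
    have h : digs F L (idx (List.ofFn y)) = List.ofFn y := by
      have := digs_idx (List.ofFn y)
      rwa [List.length_ofFn] at this
    simp only [h]
    rw [List.getD_eq_getElem _ _ (by simp)]
    simp
  right_inv i := by
    apply Fin.ext
    have h : List.ofFn (fun j : Fin L => (digs F L i).getD j default) = digs F L i := by
      apply List.ext_getElem
      · simp
      · intro k h1 h2
        rw [List.getElem_ofFn, List.getD_eq_getElem _ _ h2]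
    simp only [h]
    exact idx_digs i.2

variable {F}

theorem eY_val {L : ℕ} (y : Fin L → F) : ((eY F L y : Fin _) : ℕ) = idx (List.ofFn y) := rfl

theorem digs_eY {L : ℕ} (y : Fin L → F) : digs F L (eY F L y : Fin _) = List.ofFn y := by
  have := digs_idx (List.ofFn y)
  rwa [List.length_ofFn] at this

theorem idx1_spec {L M : ℕ} {g : (Fin L → F) → (Fin M → F)} {G : List F → List F}
    (h : ∀ y, List.ofFn (g y) = G (List.ofFn y)) (y : Fin L → F) :
    idx (G (digs F L (eY F L y : Fin _))) = ((eY F M (g y) : Fin _) : ℕ) := by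
  rw [digs_eY, ← h]; rfl

theorem idx2_spec {L M N : ℕ} {g : (Fin L → F) → (Fin M → F) → (Fin N → F)}
    {G : List F → List F → List F}
    (h : ∀ y z, List.ofFn (g y z) = G (List.ofFn y) (List.ofFn z)) (y : Fin L → F)
    (z : Fin M → F) :
    idx (G (digs F L (eY F L y : Fin _)) (digs F M (eY F M z : Fin _))) =
      ((eY F N (g y z) : Fin _) : ℕ) := by
  rw [digs_eY, digs_eY, ← h]; rfl

end eY

/-! ### the maps on lists -/

section lists

variable {F : Type}

/-- shift towards higher indices -/
def upL [Zero F] (L : ℕ) (l : List F) : List F := (0 :: l).take L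

/-- shift towards lower indices -/
def dnL [Zero F] (L : ℕ) (l : List F) : List F := (l.drop 1 ++ [0]).take L

theorem ofFn_up [Zero F] {L : ℕ} (y : Fin L → F) : List.ofFn (up y) = upL L (List.ofFn y) := by
  apply List.ext_getElem
  · simp [upL]
  · intro k h1 h2
    have hk : k < L := by simpa using h1
    rw [List.getElem_ofFn]
    rcases k with _ | k
    · simp [up, upL]
    · simp only [up, upL, List.getElem_take, List.getElem_cons_succ, List.getElem_ofFn]
      simp only [Nat.add_sub_cancel, Nat.add_eq_zero_iff, one_ne_zero, and_false, if_false]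
      exact ent_of_lt y (by omega)

theorem ofFn_dn [Zero F] {L : ℕ} (y : Fin L → F) : List.ofFn (dn y) = dnL L (List.ofFn y) := by
  apply List.ext_getElem
  · simp only [dnL, List.length_take, List.length_append, List.length_drop, List.length_ofFn,
      List.length_cons, List.length_nil]
    omega
  · intro k h1 h2
    have hk : k < L := by simpa using h1
    rw [List.getElem_ofFn]
    simp only [dn, dnL, List.getElem_take]
    rcases Nat.lt_or_ge (k + 1) L with h | h
    · rw [ent_of_lt y h, List.getElem_append_left (by simp; omega)]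
      simp
    · rw [ent_of_ge y h, List.getElem_append_right (by simp; omega)]
      simp

theorem ofFn_zip {A B C : Type} (f : A → B → C) {L : ℕ} (y : Fin L → A) (z : Fin L → B) :
    List.ofFn (fun i => f (y i) (z i)) = List.zipWith f (List.ofFn y) (List.ofFn z) := by
  apply List.ext_getElem
  · simp
  · intro k h1 h2
    simp

/-- add `c` at the coordinate `i` -/
def addUL [Add F] [Zero F] (i : ℕ) (c : F) (l : List F) : List F := l.set i (l.getD i 0 + c)

theorem ofFn_addU {F : Type} [Field F] {L : ℕ} (i : ℕ) (c : F) (y : Fin L → F) :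
    List.ofFn (y + c • (unit (L := L) (F := F) i)) = addUL i c (List.ofFn y) := by
  apply List.ext_getElem
  · simp [addUL]
  · intro k h1 h2
    have hk : k < L := by simpa using h1
    simp only [addUL, List.getElem_ofFn, List.getElem_set, Pi.add_apply, Pi.smul_apply, unit,
      smul_eq_mul]
    by_cases h : i = k
    · subst h
      rw [if_pos rfl, if_pos rfl, mul_one, List.getD_eq_getElem _ _ (by simpa using hk)]
      simp
    · rw [if_neg h, if_neg (fun h' => h h'.symm), mul_zero, add_zero]

end lists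

/-! ### index functions -/

section index

variable (F : Type) [Finite F] [Inhabited F]

noncomputable def upI [Zero F] (L i : ℕ) : ℕ := idx (upL L (digs F L i))
noncomputable def dnI [Zero F] (L i : ℕ) : ℕ := idx (dnL L (digs F L i))
/-- a coordinatewise binary operation -/
noncomputable def zipI (f : F → F → F) (L i j : ℕ) : ℕ :=
  idx (List.zipWith f (digs F L i) (digs F L j))
/-- a coordinatewise unary operation -/
noncomputable def mapI (f : F → F) (L i : ℕ) : ℕ := idx ((digs F L i).map f)
/-- add `c` times the `k`-th unit vector -/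
noncomputable def addUI [Add F] [Zero F] (k : ℕ) (c : F) (L i : ℕ) : ℕ :=
  idx (addUL k c (digs F L i))
/-- the `k`-th coordinate -/
noncomputable def coI [Zero F] (L i k : ℕ) : F := (digs F L i).getD k 0

variable {F}

theorem upI_spec [Zero F] {L : ℕ} (y : Fin L → F) :
    upI F L (eY F L y : Fin _) = ((eY F L (up y) : Fin _) : ℕ) := idx1_spec ofFn_up y

theorem dnI_spec [Zero F] {L : ℕ} (y : Fin L → F) :
    dnI F L (eY F L y : Fin _) = ((eY F L (dn y) : Fin _) : ℕ) := idx1_spec ofFn_dn y

theorem zipI_spec (f : F → F → F) {L : ℕ} (y z : Fin L → F) :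
    zipI F f L (eY F L y : Fin _) (eY F L z : Fin _) =
      ((eY F L (fun i => f (y i) (z i)) : Fin _) : ℕ) :=
  idx2_spec (g := fun y z i => f (y i) (z i)) (ofFn_zip f) y z

theorem mapI_spec (f : F → F) {L : ℕ} (y : Fin L → F) :
    mapI F f L (eY F L y : Fin _) = ((eY F L (fun i => f (y i)) : Fin _) : ℕ) :=
  idx1_spec (g := fun y i => f (y i)) (fun y => by
    rw [List.map_ofFn]; rfl) y

theorem addI_spec [Add F] {L : ℕ} (y z : Fin L → F) :
    zipI F (· + ·) L (eY F L y : Fin _) (eY F L z : Fin _) = ((eY F L (y + z) : Fin _) : ℕ) :=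
  zipI_spec _ y z

theorem subI_spec [Sub F] {L : ℕ} (y z : Fin L → F) :
    zipI F (· - ·) L (eY F L y : Fin _) (eY F L z : Fin _) = ((eY F L (y - z) : Fin _) : ℕ) :=
  zipI_spec _ y z

theorem mulI_spec [Mul F] {L : ℕ} (y z : Fin L → F) :
    zipI F (· * ·) L (eY F L y : Fin _) (eY F L z : Fin _) = ((eY F L (y * z) : Fin _) : ℕ) :=
  zipI_spec _ y z

theorem smulI_spec [Mul F] (c : F) {L : ℕ} (y : Fin L → F) :
    mapI F (c * ·) L (eY F L y : Fin _) = ((eY F L (c • y) : Fin _) : ℕ) :=
  mapI_spec _ y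

theorem negI_spec [Neg F] {L : ℕ} (y : Fin L → F) :
    mapI F (- ·) L (eY F L y : Fin _) = ((eY F L (-y) : Fin _) : ℕ) :=
  mapI_spec _ y

theorem addUI_spec {F : Type} [Finite F] [Inhabited F] [Field F] (k : ℕ) (c : F) {L : ℕ}
    (y : Fin L → F) :
    addUI F k c L (eY F L y : Fin _) =
      ((eY F L (y + c • (unit (L := L) (F := F) k)) : Fin _) : ℕ) :=
  idx1_spec (ofFn_addU k c) y

theorem coI_spec [Zero F] {L : ℕ} (y : Fin L → F) (k : ℕ) :
    coI F L (eY F L y : Fin _) k = ent y k := by
  unfold coI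
  rw [digs_eY]
  rcases Nat.lt_or_ge k L with h | h
  · rw [ent_of_lt y h, List.getD_eq_getElem _ _ (by simpa using h)]
    simp
  · rw [ent_of_ge y h, List.getD_eq_default _ _ (by simpa using h)]

theorem idx_lt' {L : ℕ} {l : List F} (h : l.length = L) : idx l < qK F ^ L := h ▸ idx_lt l

end index

/-! ### polynomial time -/

section ptf

variable {F : Type} [Finite F] [Inhabited F] [PTCode F]
variable {α : Type} [PTCode α]

theorem ptf_upI [Zero F] {L i : α → ℕ} (hL : PTU L) (hi : PTF i) :
    PTF (fun a => upI F (L a) (i a)) := by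
  have h := ptf_digs (K := F) hL hi
  exact ptf_idx (PTF.take hL (PTF.listCons (PTF.const _) h))

theorem ptf_dnI [Zero F] {L i : α → ℕ} (hL : PTU L) (hi : PTF i) :
    PTF (fun a => dnI F (L a) (i a)) := by
  have h := ptf_digs (K := F) hL hi
  exact ptf_idx (PTF.take hL (PTF.append (PTF.drop (PTU.const 1) h) (PTF.const _)))

theorem ptf_zipI (f : F → F → F) {L i j : α → ℕ} (hL : PTU L) (hi : PTF i) (hj : PTF j) :
    PTF (fun a => zipI F f (L a) (i a) (j a)) := by
  have h1 := ptf_digs (K := F) hL hi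
  have h2 := ptf_digs (K := F) hL hj
  refine ptf_idx (PTF.zipWith (f := fun _ x y => f x y) h1 h2 ?_)
  exact PTF.comp (g := fun p : F × F => f p.1 p.2) (PTF.of_finite _) PTF.snd

theorem ptf_mapI (f : F → F) {L i : α → ℕ} (hL : PTU L) (hi : PTF i) :
    PTF (fun a => mapI F f (L a) (i a)) := by
  have h1 := ptf_digs (K := F) hL hi
  refine ptf_idx (PTF.map (f := fun _ x => f x) h1 ?_)
  exact PTF.comp (g := f) (PTF.of_finite _) PTF.snd

theorem ptf_coI [Zero F] {L i k : α → ℕ} (hL : PTU L) (hi : PTF i) (hk : PTF k) :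
    PTF (fun a => coI F (L a) (i a) (k a)) := by
  have h1 := ptf_digs (K := F) hL hi
  have h2 : PTU (fun a => min (k a) (L a)) := PTF.natMinUn hk hL
  refine PTF.of_eq (PTF.getD h2 h1 (PTF.const 0)) (fun a => ?_)
  unfold coI
  rcases Nat.lt_or_ge (k a) (L a) with h | h
  · rw [min_eq_left h.le]
  · rw [min_eq_right h, List.getD_eq_default _ _ (by simp), List.getD_eq_default _ _ (by simpa using h)]

theorem ptf_addUI [Add F] [Zero F] {c : α → F} {L i k : α → ℕ} (hc : PTF c) (hL : PTU L)
    (hi : PTF i) (hk : PTU k) : PTF (fun a => addUI F (k a) (c a) (L a) (i a)) := by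
  have h1 := ptf_digs (K := F) hL hi
  have h2 : PTF (fun a => (digs F (L a) (i a)).getD (k a) 0 + c a) :=
    PTF.comp (g := fun p : F × F => p.1 + p.2) (PTF.of_finite _)
      ((PTF.getD hk h1 (PTF.const _)).prodMk hc)
  exact ptf_idx (PTF.set h1 hk h2)

end ptf

/-! ### products -/

section prod

variable {U V : Type} {m n : ℕ}

/-- index of a pair -/
def pI (n i j : ℕ) : ℕ := j + n * i

/-- product of two enumerations -/
def eP (e : U ≃ Fin m) (f : V ≃ Fin n) : U × V ≃ Fin (m * n) :=
  (Equiv.prodCongr e f).trans finProdFinEquiv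

theorem eP_val (e : U ≃ Fin m) (f : V ≃ Fin n) (u : U) (v : V) :
    ((eP e f (u, v) : Fin _) : ℕ) = pI n (e u : Fin _) (f v : Fin _) := rfl

theorem div_pI {n i j : ℕ} (hj : j < n) : pI n i j / n = i := by
  unfold pI
  rw [Nat.add_mul_div_left _ _ (by omega), Nat.div_eq_of_lt hj, Nat.zero_add]

theorem mod_pI {n i j : ℕ} (hj : j < n) : pI n i j % n = j := by
  unfold pI
  rw [Nat.add_mul_mod_self_left, Nat.mod_eq_of_lt hj]

theorem pI_lt {m n i j : ℕ} (hi : i < m) (hj : j < n) : pI n i j < m * n := by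
  unfold pI
  calc j + n * i < n + n * i := by omega
    _ = (i + 1) * n := by ring
    _ ≤ m * n := Nat.mul_le_mul_right _ hi

theorem eP_div (e : U ≃ Fin m) (f : V ≃ Fin n) (u : U) (v : V) :
    ((eP e f (u, v) : Fin _) : ℕ) / n = (e u : Fin _) := div_pI (f v).2

theorem eP_mod (e : U ≃ Fin m) (f : V ≃ Fin n) (u : U) (v : V) :
    ((eP e f (u, v) : Fin _) : ℕ) % n = (f v : Fin _) := mod_pI (f v).2

/-- index function of a map of the first factor -/
def l1 (n : ℕ) (g : ℕ → ℕ) (w : ℕ) : ℕ := pI n (g (w / n)) (w % n)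

/-- index function of a map of the second factor -/
def l2 (n : ℕ) (g : ℕ → ℕ) (w : ℕ) : ℕ := pI n (w / n) (g (w % n))

theorem l1_spec (e : U ≃ Fin m) (f : V ≃ Fin n) {g : ℕ → ℕ} {G : U → U}
    (h : ∀ u, g (e u : Fin _) = (e (G u) : Fin _)) (u : U) (v : V) :
    l1 n g ((eP e f (u, v) : Fin _) : ℕ) = ((eP e f (G u, v) : Fin _) : ℕ) := by
  rw [l1, eP_div, eP_mod, h, eP_val]

theorem l2_spec (e : U ≃ Fin m) (f : V ≃ Fin n) {g : ℕ → ℕ} {G : V → V}
    (h : ∀ v, g (f v : Fin _) = (f (G v) : Fin _)) (u : U) (v : V) :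
    l2 n g ((eP e f (u, v) : Fin _) : ℕ) = ((eP e f (u, G v) : Fin _) : ℕ) := by
  rw [l2, eP_div, eP_mod, h, eP_val]

/-- a map of the second factor depending on the first one (and conversely) -/
theorem l12_spec (e : U ≃ Fin m) (f : V ≃ Fin n) {g : ℕ → ℕ → ℕ} {G : U → V → U × V}
    (h : ∀ u v, g (e u : Fin _) (f v : Fin _) = (eP e f (G u v) : Fin _)) (u : U) (v : V) :
    g (((eP e f (u, v) : Fin _) : ℕ) / n) (((eP e f (u, v) : Fin _) : ℕ) % n) =
      (eP e f (G u v) : Fin _) := by
  rw [eP_div, eP_mod, h]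

variable {α : Type} [PTCode α]

theorem ptf_pI {n i j : α → ℕ} (hn : PTF n) (hi : PTF i) (hj : PTF j) :
    PTF (fun a => pI (n a) (i a) (j a)) :=
  PTF.natAdd hj (PTF.natMul hn hi)

theorem ptf_l1 {n w : α → ℕ} {g : α → ℕ → ℕ} (hn : PTF n) (hw : PTF w) (hg : PTF₂ g) :
    PTF (fun a => l1 (n a) (g a) (w a)) :=
  ptf_pI hn (PTF.comp₂ hg PTF.id (PTF.natDiv hw hn)) (PTF.natMod hw hn)

theorem ptf_l2 {n w : α → ℕ} {g : α → ℕ → ℕ} (hn : PTF n) (hw : PTF w) (hg : PTF₂ g) :
    PTF (fun a => l2 (n a) (g a) (w a)) :=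
  ptf_pI hn (PTF.natDiv hw hn) (PTF.comp₂ hg PTF.id (PTF.natMod hw hn))

end prod

end Crest.Agent.R289.YIdx901
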