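import Crest.Agent.R289.Tab_858
import Crest.Agent.R289.YIdx_901
import Crest.Agent.R289.Size2_954

/-!
# Row 289, E20_FamPTF: combinators for the PTF family (helper715)

Everything here is generic in the coded type `α` (`EI` in the application).

* `disp f d i` : value number `i` of a constant family `f : Fin k → β`, default `d`;
  `dispE e f d i` : the same for a family indexed by a finite type, `e : ι ≃ Fin k`;
  `ptf_disp`, `ptf_dispE`, `ptf_case`, `ptf_caseNum`.
* `ptf_family` : any function of finitely many PTF symbols of finite types is PTF.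
* `nbN e g : α × ℕ × ℕ → ℕ` : neighbour function of the slots `g s`, `(a, i, u) ↦ g (e.symm i) a u`;
  `bitN enc p : α × ℕ × ℕ → Bool` : bit functions `(a, u, j) ↦ enc (p a u) j` (public bits, bits of
  the start word); PTF, value and range lemmas.
* product index `u = p * nT + τ` (`YIdx901.pI`): range lemmas, slots acting on one factor or on both,
  functions of one factor, three factors.
* `famSize`, `famSize₃`, `famSize_on` : `nP` quasilinear, `nT` (`nR`) polylogarithmic ⇒ literal size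
  clause.
-/

set_option autoImplicit false
set_option linter.dupNamespace false

namespace Crest.Agent.R289.FamComb715

open Crest.Agent.Lib.PT Crest.Agent.Lib.PT.Arith Crest.Agent.R288.PtDp115 Crest.Agent.R289
open Crest.Agent.R289.Tab858 Crest.Agent.R289.YIdx901 Crest.Agent.R289.Size954

/-! ### dispatch -/

section dispatch

variable {β : Type} {k : ℕ}

/-- value number `i` of the family `f`, default `d` -/
def disp (f : Fin k → β) (d : β) (i : ℕ) : β := if h : i < k then f ⟨i, h⟩ else d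

@[simp] theorem disp_fin (f : Fin k → β) (d : β) (i : Fin k) : disp f d (i : ℕ) = f i := by
  unfold disp
  rw [dif_pos i.2]

theorem disp_of_lt (f : Fin k → β) (d : β) {i : ℕ} (h : i < k) : disp f d i = f ⟨i, h⟩ := by
  unfold disp
  rw [dif_pos h]

theorem disp_of_ge (f : Fin k → β) (d : β) {i : ℕ} (h : k ≤ i) : disp f d i = d := by
  unfold disp
  rw [dif_neg (by omega)]

variable {ι : Type}

/-- value of a family indexed by a finite type, at the number `i` -/
def dispE (e : ι ≃ Fin k) (f : ι → β) (d : β) (i : ℕ) : β := disp (fun s => f (e.symm s)) d i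

@[simp] theorem dispE_apply (e : ι ≃ Fin k) (f : ι → β) (d : β) (s : ι) :
    dispE e f d (e s : Fin k) = f s := by
  unfold dispE
  rw [disp_fin, Equiv.symm_apply_apply]

@[simp] theorem dispE_fin (e : ι ≃ Fin k) (f : ι → β) (d : β) (i : Fin k) :
    dispE e f d (i : ℕ) = f (e.symm i) := by
  unfold dispE
  rw [disp_fin]

theorem dispE_of_lt (e : ι ≃ Fin k) (f : ι → β) (d : β) {i : ℕ} (h : i < k) :
    dispE e f d i = f (e.symm ⟨i, h⟩) := by
  unfold dispE
  rw [disp_of_lt]

variable {α : Type} [PTCode α] [PTCode β]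

/-- dispatch on a numerical index, constant family -/
theorem ptf_disp {f : Fin k → α → β} {d : α → β} {i : α → ℕ} (hf : ∀ s, PTF (f s)) (hd : PTF d)
    (hi : PTF i) : PTF (fun a => disp (fun s => f s a) (d a) (i a)) := by
  refine PTF.of_eq (ptf_upto k (fun s a => if h : s < k then f ⟨s, h⟩ a else d a)
    (fun s hs => ?_) hd hi) fun a => ?_
  · refine PTF.of_eq (hf ⟨s, hs⟩) fun a => ?_
    rw [dif_pos hs]
  · unfold disp
    by_cases h : i a < k
    · simp [h]
    · simp [h]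

/-- dispatch on a numerical index, family indexed by a finite type -/
theorem ptf_dispE (e : ι ≃ Fin k) {f : ι → α → β} {d : α → β} {i : α → ℕ}
    (hf : ∀ s, PTF (f s)) (hd : PTF d) (hi : PTF i) :
    PTF (fun a => dispE e (fun s => f s a) (d a) (i a)) :=
  ptf_disp (f := fun s => f (e.symm s)) (fun s => hf _) hd hi

/-- case distinction on a PTF value of a finite coded type -/
theorem ptf_case {P : Type} [Finite P] [PTCode P] {p : α → P} {f : P → α → β}
    (hf : ∀ x, PTF (f x)) (hp : PTF p) : PTF (fun a => f (p a) a) := PTF.finite_cases' hp hf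

/-- a function of a PTF value of a finite coded type -/
theorem ptf_fin {P : Type} [Finite P] [PTCode P] {p : α → P} (hp : PTF p) (F : P → β) :
    PTF (fun a => F (p a)) := PTF.comp (g := F) (PTF.of_finite _) hp

/-- a function of two PTF values of finite coded types -/
theorem ptf_fin₂ {P Q : Type} [Finite P] [PTCode P] [Finite Q] [PTCode Q] {p : α → P} {q : α → Q}
    (hp : PTF p) (hq : PTF q) (F : P → Q → β) : PTF (fun a => F (p a) (q a)) :=
  PTF.comp (g := fun x : P × Q => F x.1 x.2) (PTF.of_finite _) (hp.prodMk hq)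

/-- case distinction on a value of a finite type without code, given by its number -/
theorem ptf_caseNum {P : Type} (e : P ≃ Fin k) {p : α → P} {num : α → ℕ} {f : P → α → β}
    (hf : ∀ x, PTF (f x)) (hn : PTF num) (h : ∀ a, num a = (e (p a) : Fin k)) :
    PTF (fun a => f (p a) a) := by
  rcases isEmpty_or_nonempty α with hα | ⟨⟨a0⟩⟩
  · exact PTF.of_finite _
  · refine PTF.of_eq (ptf_dispE (d := f (p a0)) e hf (hf _) hn) fun a => ?_
    rw [h a, dispE_apply]

/-- a function of finitely many PTF symbols of finite coded types -/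
theorem ptf_family' {κ : Type} [Finite κ] {B : κ → Type} [∀ s, PTCode (B s)] [∀ s, Finite (B s)]
    {v : ∀ s, α → B s} (hv : ∀ s, PTF (v s)) (F : (∀ s, B s) → α → β) (hF : ∀ x, PTF (F x)) :
    PTF (fun a => F (fun s => v s a) a) := by
  classical
  rcases isEmpty_or_nonempty α with hα | ⟨⟨a0⟩⟩
  · exact PTF.of_finite _
  · have : Fintype κ := Fintype.ofFinite κ
    have key : ∀ (l : List κ) (F : (∀ s, B s) → α → β), (∀ x, PTF (F x)) →
        PTF (fun a => F (fun s => if s ∈ l then v s a else v s a0) a) := by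
      intro l
      induction l with
      | nil =>
        intro F hF
        simpa using hF (fun s => v s a0)
      | cons s0 l ih =>
        intro F hF
        have h := PTF.finite_cases' (f := fun (b : B s0) (a : α) =>
          F (Function.update (fun s => if s ∈ l then v s a else v s a0) s0 b) a) (hv s0)
          (fun b => ih (fun x a => F (Function.update x s0 b) a) fun x => hF _)
        refine PTF.of_eq h fun a => ?_
        congr 1
        funext s
        by_cases hs : s = s0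
        · subst hs
          simp
        · rw [Function.update_of_ne hs]
          simp [hs]
    refine PTF.of_eq (key Finset.univ.toList F hF) fun a => ?_
    simp

/-- a function of finitely many PTF symbols of finite coded types (constant function) -/
theorem ptf_family {κ : Type} [Finite κ] {B : κ → Type} [∀ s, PTCode (B s)] [∀ s, Finite (B s)]
    {v : ∀ s, α → B s} (hv : ∀ s, PTF (v s)) (F : (∀ s, B s) → β) :
    PTF (fun a => F (fun s => v s a)) :=
  ptf_family' hv (fun x _ => F x) fun _ => PTF.const _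

end dispatch

/-! ### neighbour functions and bit functions of the family -/

section family

variable {α ι : Type} {k r : ℕ}

/-- neighbour function of the family: `(a, i, u) ↦ g (e.symm i) a u` -/
def nbN (e : ι ≃ Fin k) (g : ι → α → ℕ → ℕ) (p : α × ℕ × ℕ) : ℕ :=
  dispE e (fun s => g s p.1 p.2.2) 0 p.2.1

@[simp] theorem nbN_apply (e : ι ≃ Fin k) (g : ι → α → ℕ → ℕ) (a : α) (s : ι) (u : ℕ) :
    nbN e g (a, ((e s : Fin k) : ℕ), u) = g s a u := dispE_apply e _ _ _

@[simp] theorem nbN_fin (e : ι ≃ Fin k) (g : ι → α → ℕ → ℕ) (a : α) (i : Fin k) (u : ℕ) :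
    nbN e g (a, (i : ℕ), u) = g (e.symm i) a u := dispE_fin e _ _ _

theorem nbN_lt (e : ι ≃ Fin k) {g : ι → α → ℕ → ℕ} {a : α} {n : ℕ}
    (h : ∀ s, ∀ u < n, g s a u < n) : ∀ i < k, ∀ u < n, nbN e g (a, i, u) < n := by
  intro i hi u hu
  have : nbN e g (a, i, u) = g (e.symm ⟨i, hi⟩) a u := dispE_of_lt e _ _ hi
  rw [this]
  exact h _ u hu

/-- range from the specification on an enumerated unit set -/
theorem lt_of_spec {U : Type} {n : ℕ} (eU : U ≃ Fin n) {g : ℕ → ℕ} {G : U → U}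
    (h : ∀ u, g (eU u : Fin n) = (eU (G u) : Fin n)) : ∀ u < n, g u < n := by
  intro u hu
  have h1 := h (eU.symm ⟨u, hu⟩)
  rw [Equiv.apply_symm_apply] at h1
  change g u = _ at h1
  rw [h1]
  exact (eU _).2

theorem nbN_lt_of_spec (e : ι ≃ Fin k) {g : ι → α → ℕ → ℕ} {a : α} {U : Type} {n : ℕ}
    (eU : U ≃ Fin n) {G : ι → U → U}
    (h : ∀ s u, g s a (eU u : Fin n) = (eU (G s u) : Fin n)) :
    ∀ i < k, ∀ u < n, nbN e g (a, i, u) < n :=
  nbN_lt e fun s => lt_of_spec eU (h s)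

/-- bit functions of the family: `(a, u, j) ↦ enc (p a u) j` -/
def bitN {P : Type} (enc : P → Fin r → Bool) (p : α → ℕ → P) (x : α × ℕ × ℕ) : Bool :=
  disp (enc (p x.1 x.2.1)) false x.2.2

@[simp] theorem bitN_fin {P : Type} (enc : P → Fin r → Bool) (p : α → ℕ → P) (a : α) (u : ℕ)
    (j : Fin r) : bitN enc p (a, u, (j : ℕ)) = enc (p a u) j := disp_fin _ _ _

variable [PTCode α]

theorem ptf_nbN (e : ι ≃ Fin k) {g : ι → α → ℕ → ℕ} (hg : ∀ s, PTF₂ (g s)) : PTF (nbN e g) := by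
  have h := ptf_dispE (α := α × ℕ × ℕ) (β := ℕ) e (f := fun s p => g s p.1 p.2.2)
    (d := fun _ => 0) (i := fun p => p.2.1)
    (fun s => PTF.comp₂ (hg s) PTF.fst (PTF.comp PTF.snd PTF.snd)) (PTF.const 0)
    (PTF.comp PTF.fst PTF.snd)
  exact PTF.of_eq h fun p => rfl

/-- finite coded type -/
theorem ptf_bitN {P : Type} [Finite P] [PTCode P] (enc : P → Fin r → Bool) {p : α → ℕ → P}
    (hp : PTF₂ p) : PTF (bitN enc p) := by
  have h := ptf_disp (α := α × ℕ × ℕ) (β := Bool) (k := r)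
    (f := fun s x => enc (p x.1 x.2.1) s) (d := fun _ => false) (i := fun x => x.2.2)
    (fun s => PTF.comp (g := fun y : P => enc y s) (PTF.of_finite _)
      (PTF.comp₂ hp PTF.fst (PTF.comp PTF.fst PTF.snd))) (PTF.const false)
    (PTF.comp PTF.snd PTF.snd)
  exact PTF.of_eq h fun x => rfl

/-- finite type without code, given by numbers -/
theorem ptf_bitN_num {P : Type} {c : ℕ} (e : P ≃ Fin c) (enc : P → Fin r → Bool)
    {p : α → ℕ → P} {num : α → ℕ → ℕ} (hn : PTF₂ num)
    (h : ∀ a u, num a u = (e (p a u) : Fin c)) : PTF (bitN enc p) := by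
  have h1 := ptf_disp (α := α × ℕ × ℕ) (β := Bool) (k := r)
    (f := fun s x => enc (p x.1 x.2.1) s) (d := fun _ => false) (i := fun x => x.2.2)
    (fun s => ptf_caseNum e (p := fun x : α × ℕ × ℕ => p x.1 x.2.1)
      (f := fun y _ => enc y s) (fun _ => PTF.const _)
      (PTF.comp₂ hn PTF.fst (PTF.comp PTF.fst PTF.snd)) (fun x => h _ _)) (PTF.const false)
    (PTF.comp PTF.snd PTF.snd)
  exact PTF.of_eq h1 fun x => rfl

/-- tuple of symbols of finite coded types (function type `∀ s, B s`, no code needed) -/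
theorem ptf_bitN_family {κ : Type} [Finite κ] {B : κ → Type} [∀ s, PTCode (B s)]
    [∀ s, Finite (B s)] (enc : (∀ s, B s) → Fin r → Bool) {v : ∀ s, α → ℕ → B s}
    (hv : ∀ s, PTF₂ (v s)) : PTF (bitN enc fun a u s => v s a u) := by
  have h := ptf_disp (α := α × ℕ × ℕ) (β := Bool) (k := r)
    (f := fun j x => enc (fun s => v s x.1 x.2.1) j) (d := fun _ => false) (i := fun x => x.2.2)
    (fun j => ptf_family (v := fun s (x : α × ℕ × ℕ) => v s x.1 x.2.1)
      (fun s => PTF.comp₂ (hv s) PTF.fst (PTF.comp PTF.fst PTF.snd)) fun y => enc y j)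
    (PTF.const false) (PTF.comp PTF.snd PTF.snd)
  exact PTF.of_eq h fun x => rfl

/-- tuple of symbols of finite types given by numbers (all in one) -/
theorem ptf_bitN_family_num {κ : Type} [Finite κ] {B : κ → Type} {c : κ → ℕ}
    (e : ∀ s, B s ≃ Fin (c s)) (enc : (∀ s, B s) → Fin r → Bool) {v : ∀ s, α → ℕ → B s}
    {num : κ → α → ℕ → ℕ} (hn : ∀ s, PTF₂ (num s))
    (h : ∀ s a u, num s a u = (e s (v s a u) : Fin (c s))) :
    PTF (bitN enc fun a u s => v s a u) := by
  let _ : ∀ s, PTCode (B s) := fun s => PTCode.ofInj (e s) (e s).injective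
  have : ∀ s, Finite (B s) := fun s => Finite.of_equiv _ (e s).symm
  refine ptf_bitN_family enc (v := v) fun s => ?_
  have h1 := ptf_caseNum (α := α × ℕ) (β := B s) (e s) (p := fun x => v s x.1 x.2)
    (num := fun x => num s x.1 x.2) (f := fun y _ => y) (fun y => PTF.const y) (hn s)
    (fun x => h s x.1 x.2)
  exact h1

end family

/-! ### product index -/

section product

theorem pdiv_lt {m n u : ℕ} (h : u < m * n) : u / n < m :=
  Nat.div_lt_of_lt_mul (by rwa [Nat.mul_comm])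

theorem pmod_lt {m n u : ℕ} (h : u < m * n) : u % n < n :=
  Nat.mod_lt _ (Nat.pos_of_ne_zero (by rintro rfl; simp at h))

theorem pI_divmod {n u : ℕ} : pI n (u / n) (u % n) = u := Nat.mod_add_div u n

theorem l1_lt {m n : ℕ} {g : ℕ → ℕ} (hg : ∀ u < m, g u < m) : ∀ u < m * n, l1 n g u < m * n :=
  fun _ hu => pI_lt (hg _ (pdiv_lt hu)) (pmod_lt hu)

theorem l2_lt {m n : ℕ} {g : ℕ → ℕ} (hg : ∀ u < n, g u < n) : ∀ u < m * n, l2 n g u < m * n :=
  fun _ hu => pI_lt (pdiv_lt hu) (hg _ (pmod_lt hu))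

/-- slot acting on both factors -/
def l3 (n : ℕ) (g h : ℕ → ℕ → ℕ) (w : ℕ) : ℕ := pI n (g (w / n) (w % n)) (h (w / n) (w % n))

theorem l3_lt {m n : ℕ} {g h : ℕ → ℕ → ℕ} (hg : ∀ u < m, ∀ v < n, g u v < m)
    (hh : ∀ u < m, ∀ v < n, h u v < n) : ∀ u < m * n, l3 n g h u < m * n :=
  fun _ hu => pI_lt (hg _ (pdiv_lt hu) _ (pmod_lt hu)) (hh _ (pdiv_lt hu) _ (pmod_lt hu))

theorem l3_spec {U V : Type} {m n : ℕ} (e : U ≃ Fin m) (f : V ≃ Fin n) {g h : ℕ → ℕ → ℕ}
    {G : U → V → U} {H : U → V → V}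
    (hG : ∀ u v, g (e u : Fin m) (f v : Fin n) = (e (G u v) : Fin m))
    (hH : ∀ u v, h (e u : Fin m) (f v : Fin n) = (f (H u v) : Fin n)) (u : U) (v : V) :
    l3 n g h ((eP e f (u, v) : Fin _) : ℕ) = ((eP e f (G u v, H u v) : Fin _) : ℕ) := by
  rw [l3, eP_div, eP_mod, hG, hH, eP_val]

/-- slot of the product set given as a map of pairs -/
theorem l3_spec' {U V : Type} {m n : ℕ} (e : U ≃ Fin m) (f : V ≃ Fin n) {g h : ℕ → ℕ → ℕ}
    {G : U × V → U × V}
    (hG : ∀ x : U × V, g (e x.1 : Fin m) (f x.2 : Fin n) = (e (G x).1 : Fin m))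
    (hH : ∀ x : U × V, h (e x.1 : Fin m) (f x.2 : Fin n) = (f (G x).2 : Fin n)) (x : U × V) :
    l3 n g h ((eP e f x : Fin _) : ℕ) = ((eP e f (G x) : Fin _) : ℕ) :=
  l3_spec e f (G := fun u v => (G (u, v)).1) (H := fun u v => (G (u, v)).2)
    (fun u v => hG (u, v)) (fun u v => hH (u, v)) x.1 x.2

/-- pair version of `l1_spec` -/
theorem l1_spec' {U V : Type} {m n : ℕ} (e : U ≃ Fin m) (f : V ≃ Fin n) {g : ℕ → ℕ} {G : U → U}
    (h : ∀ u, g (e u : Fin m) = (e (G u) : Fin m)) (x : U × V) :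
    l1 n g ((eP e f x : Fin _) : ℕ) = ((eP e f (G x.1, x.2) : Fin _) : ℕ) := l1_spec e f h x.1 x.2

/-- pair version of `l2_spec` -/
theorem l2_spec' {U V : Type} {m n : ℕ} (e : U ≃ Fin m) (f : V ≃ Fin n) {g : ℕ → ℕ} {G : V → V}
    (h : ∀ v, g (f v : Fin n) = (f (G v) : Fin n)) (x : U × V) :
    l2 n g ((eP e f x : Fin _) : ℕ) = ((eP e f (x.1, G x.2) : Fin _) : ℕ) := l2_spec e f h x.1 x.2

/-- functions (public data) of the pair -/
theorem pub_spec {U V P : Type} {m n : ℕ} (e : U ≃ Fin m) (f : V ≃ Fin n) {p : ℕ → ℕ → P}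
    {Q : U × V → P} (h : ∀ x : U × V, p (e x.1 : Fin m) (f x.2 : Fin n) = Q x) (x : U × V) :
    p (((eP e f x : Fin _) : ℕ) / n) (((eP e f x : Fin _) : ℕ) % n) = Q x := by
  rw [show x = (x.1, x.2) from rfl, eP_div, eP_mod]
  exact h x

variable {α β : Type} [PTCode α] [PTCode β]

theorem ptf_l3 {n w : α → ℕ} {g h : α → ℕ → ℕ → ℕ} (hn : PTF n) (hw : PTF w)
    (hg : PTF (fun p : α × ℕ × ℕ => g p.1 p.2.1 p.2.2))
    (hh : PTF (fun p : α × ℕ × ℕ => h p.1 p.2.1 p.2.2)) :
    PTF (fun a => l3 (n a) (g a) (h a) (w a)) :=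
  ptf_pI hn
    (PTF.comp (g := fun p : α × ℕ × ℕ => g p.1 p.2.1 p.2.2) hg
      (PTF.id.prodMk ((PTF.natDiv hw hn).prodMk (PTF.natMod hw hn))))
    (PTF.comp (g := fun p : α × ℕ × ℕ => h p.1 p.2.1 p.2.2) hh
      (PTF.id.prodMk ((PTF.natDiv hw hn).prodMk (PTF.natMod hw hn))))

/-- slots in the two-argument form used by `nbN` -/
theorem ptf₂_l1 {n : α → ℕ} {g : α → ℕ → ℕ} (hn : PTF n) (hg : PTF₂ g) :
    PTF₂ (fun a u => l1 (n a) (g a) u) :=
  ptf_l1 (α := α × ℕ) (n := fun p => n p.1) (w := fun p => p.2) (g := fun p => g p.1)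
    (PTF.comp hn PTF.fst) PTF.snd
    (PTF.comp₂ hg (PTF.comp PTF.fst PTF.fst) PTF.snd)

theorem ptf₂_l2 {n : α → ℕ} {g : α → ℕ → ℕ} (hn : PTF n) (hg : PTF₂ g) :
    PTF₂ (fun a u => l2 (n a) (g a) u) :=
  ptf_l2 (α := α × ℕ) (n := fun p => n p.1) (w := fun p => p.2) (g := fun p => g p.1)
    (PTF.comp hn PTF.fst) PTF.snd
    (PTF.comp₂ hg (PTF.comp PTF.fst PTF.fst) PTF.snd)

theorem ptf₂_l3 {n : α → ℕ} {g h : α → ℕ → ℕ → ℕ} (hn : PTF n)
    (hg : PTF (fun p : α × ℕ × ℕ => g p.1 p.2.1 p.2.2))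
    (hh : PTF (fun p : α × ℕ × ℕ => h p.1 p.2.1 p.2.2)) :
    PTF₂ (fun a u => l3 (n a) (g a) (h a) u) :=
  ptf_l3 (α := α × ℕ) (n := fun p => n p.1) (w := fun p => p.2) (g := fun p => g p.1)
    (h := fun p => h p.1) (PTF.comp hn PTF.fst) PTF.snd
    (PTF.comp (g := fun p : α × ℕ × ℕ => g p.1 p.2.1 p.2.2) hg
      ((PTF.comp PTF.fst PTF.fst).prodMk PTF.snd))
    (PTF.comp (g := fun p : α × ℕ × ℕ => h p.1 p.2.1 p.2.2) hh
      ((PTF.comp PTF.fst PTF.fst).prodMk PTF.snd))

/-- public data of the first factor -/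
theorem ptf₂_div {n : α → ℕ} {p : α → ℕ → β} (hn : PTF n) (hp : PTF₂ p) :
    PTF₂ (fun a u => p a (u / n a)) :=
  PTF.comp₂ hp PTF.fst (PTF.natDiv PTF.snd (PTF.comp hn PTF.fst))

/-- public data of the second factor -/
theorem ptf₂_mod {n : α → ℕ} {p : α → ℕ → β} (hn : PTF n) (hp : PTF₂ p) :
    PTF₂ (fun a u => p a (u % n a)) :=
  PTF.comp₂ hp PTF.fst (PTF.natMod PTF.snd (PTF.comp hn PTF.fst))

/-- public data of the pair -/
theorem ptf₂_divmod {n : α → ℕ} {p : α → ℕ → ℕ → β} (hn : PTF n)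
    (hp : PTF (fun x : α × ℕ × ℕ => p x.1 x.2.1 x.2.2)) :
    PTF₂ (fun a u => p a (u / n a) (u % n a)) :=
  PTF.comp (g := fun x : α × ℕ × ℕ => p x.1 x.2.1 x.2.2) hp
    (PTF.fst.prodMk ((PTF.natDiv PTF.snd (PTF.comp hn PTF.fst)).prodMk
      (PTF.natMod PTF.snd (PTF.comp hn PTF.fst))))

/-- composition of two slots -/
theorem ptf₂_comp {g h : α → ℕ → ℕ} (hg : PTF₂ g) (hh : PTF₂ h) :
    PTF₂ (fun a u => g a (h a u)) := PTF.comp₂ hg PTF.fst hh

/-- the identity slot -/
theorem ptf₂_id : PTF₂ (fun (_ : α) (u : ℕ) => u) := PTF.snd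

end product

/-! ### sizes -/

section sizes

variable {X : Type} {nP nT nR g : X → ℕ}

/-- two factors -/
theorem famSize (hP : BL nP g) (hT : PL nT g) :
    ∃ A b : ℕ, ∀ a, nP a * nT a ≤ A * g a * (Nat.clog 2 (g a + 2)) ^ b := (hP.mul_PL hT).elim

/-- three factors -/
theorem famSize₃ (hP : BL nP g) (hR : PL nR g) (hT : PL nT g) :
    ∃ A b : ℕ, ∀ a, nP a * nR a * nT a ≤ A * g a * (Nat.clog 2 (g a + 2)) ^ b :=
  (hP.mul_PL₂ hR hT).elim

/-- growth on the elements with property `p` (well formed instances) -/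
theorem famSize_on {p : X → Prop} (hP : BL (fun a : {a // p a} => nP a) (fun a => g a))
    (hT : PL (fun a : {a // p a} => nT a) (fun a => g a)) :
    ∃ A b : ℕ, ∀ a, p a → nP a * nT a ≤ A * g a * (Nat.clog 2 (g a + 2)) ^ b := by
  obtain ⟨A, b, h⟩ := famSize hP hT
  exact ⟨A, b, fun a ha => h ⟨a, ha⟩⟩

theorem famSize₃_on {p : X → Prop} (hP : BL (fun a : {a // p a} => nP a) (fun a => g a))
    (hR : PL (fun a : {a // p a} => nR a) (fun a => g a))
    (hT : PL (fun a : {a // p a} => nT a) (fun a => g a)) :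
    ∃ A b : ℕ, ∀ a, p a → nP a * nR a * nT a ≤ A * g a * (Nat.clog 2 (g a + 2)) ^ b := by
  obtain ⟨A, b, h⟩ := famSize₃ hP hR hT
  exact ⟨A, b, fun a ha => h ⟨a, ha⟩⟩

end sizes

end Crest.Agent.R289.FamComb715
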