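import Crest.Agent.R289.DefI_306
import Crest.Agent.R289.FamComb_715

/-!
# Row 289, E28: table of the start label (`wb` of `Fam289`)

* `goN`, `runN` : table of the value of a `Local782.LMap` from tables of the moves, of the labels and
  of the public data; `runN_spec`, `ptf_runN` (coded value type), `ptf_bitN_runN` (bits of a value of
  any type), `ptf_bitN_run0` (rule that reads public data only).
* `sh`, `cn`, `rdP`, `map₂` : small rules.
* `evL e`, `wvL`, `LamL`, `startL` : the words `evalW e x0`, `wv x0`, `Lam (wv x0)` at a unit and the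
  start label as rules over `DefI.Ins.frame`; `run_evL`, `run_wvL`, `run_LamL`, **`run_startL`**.
* `startN`, `ptf_startN`, `startN_spec` : the bit table `wb`.
-/

set_option autoImplicit false

namespace Crest.Agent.R289.StartTab810

open Finset Crest.Agent.Lib.PT Crest.Agent.R289 Crest.Agent.R289.Local782
open Crest.Agent.R289.FamComb715

/-! ### values of local rules as tables -/

section tables

variable {α Gen Pub Γ Δ : Type}

/-- number of the unit at an address word -/
def goN (mv : Gen → α → ℕ → ℕ) : List Gen → α → ℕ → ℕ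
  | [], _, u => u
  | g :: l, a, u => goN mv l a (mv g a u)

theorem goN_spec (mv : Gen → α → ℕ → ℕ) {a : α} {F : Frame Gen Pub} {n : ℕ} (e : F.U ≃ Fin n)
    (h : ∀ g u, mv g a (e u : Fin n) = (e (F.act g u) : Fin n)) (l : List Gen) (u : F.U) :
    goN mv l a (e u : Fin n) = (e (F.go l u) : Fin n) := by
  induction l generalizing u with
  | nil => rfl
  | cons g l ih => rw [goN, h, ih]; rfl

/-- value of the rule `A` from tables `x` of the labels and `p` of the public data -/
def runN (A : LMap Gen Pub Γ Δ) (mv : Gen → α → ℕ → ℕ) (x : α → ℕ → Γ) (p : α → ℕ → Pub) (a : α)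
    (u : ℕ) : Δ :=
  A.f (fun i => x a (goN mv (A.adr i) a u)) (fun i => p a (goN mv (A.adr i) a u))

theorem runN_spec (A : LMap Gen Pub Γ Δ) (mv : Gen → α → ℕ → ℕ) (x : α → ℕ → Γ)
    (p : α → ℕ → Pub) {a : α} {F : Frame Gen Pub} {n : ℕ} (e : F.U ≃ Fin n)
    (h : ∀ g u, mv g a (e u : Fin n) = (e (F.act g u) : Fin n)) {X : F.U → Γ}
    (hx : ∀ u, x a (e u : Fin n) = X u) (hp : ∀ u, p a (e u : Fin n) = F.pub u) (u : F.U) :
    runN A mv x p a (e u : Fin n) = A.run F X u := by
  unfold runN LMap.run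
  congr 1
  · funext i
    rw [goN_spec mv e h, hx]
  · funext i
    rw [goN_spec mv e h, hp]

variable [PTCode α]

theorem ptf_goN {mv : Gen → α → ℕ → ℕ} (hmv : ∀ g, PTF₂ (mv g)) (l : List Gen) :
    PTF₂ (goN mv l) := by
  induction l with
  | nil => exact ptf₂_id
  | cons g l ih =>
    have h := ptf₂_comp (g := goN mv l) (h := mv g) ih (hmv g)
    exact PTF.of_eq h fun w => rfl

/-- the value table of a rule is computable in polynomial time (coded value type) -/
theorem ptf_runN [PTCode Γ] [Finite Γ] [PTCode Pub] [Finite Pub] [PTCode Δ]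
    (A : LMap Gen Pub Γ Δ) {mv : Gen → α → ℕ → ℕ} (hmv : ∀ g, PTF₂ (mv g)) {x : α → ℕ → Γ}
    (hx : PTF₂ x) {p : α → ℕ → Pub} (hp : PTF₂ p) : PTF₂ (runN A mv x p) := by
  have h := ptf_family (α := α × ℕ) (β := Δ) (κ := A.ι) (B := fun _ => Γ × Pub)
    (v := fun i w => (x w.1 (goN mv (A.adr i) w.1 w.2), p w.1 (goN mv (A.adr i) w.1 w.2)))
    (fun i => (PTF.comp₂ hx PTF.fst (ptf_goN hmv _)).prodMk (PTF.comp₂ hp PTF.fst (ptf_goN hmv _)))
    (fun y => A.f (fun i => (y i).1) (fun i => (y i).2))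
  exact PTF.of_eq h fun w => rfl

/-- bits of the value of a rule (value type without code) -/
theorem ptf_bitN_runN {r : ℕ} [PTCode Γ] [Finite Γ] [PTCode Pub] [Finite Pub]
    (A : LMap Gen Pub Γ Δ) (enc : Δ → Fin r → Bool) {mv : Gen → α → ℕ → ℕ}
    (hmv : ∀ g, PTF₂ (mv g)) {x : α → ℕ → Γ} (hx : PTF₂ x) {p : α → ℕ → Pub} (hp : PTF₂ p) :
    PTF (bitN enc (runN A mv x p)) := by
  have h := ptf_bitN_family (α := α) (κ := A.ι) (B := fun _ => Γ × Pub)
    (fun y => enc (A.f (fun i => (y i).1) (fun i => (y i).2)))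
    (v := fun i a u => (x a (goN mv (A.adr i) a u), p a (goN mv (A.adr i) a u)))
    (fun i => (PTF.comp₂ hx PTF.fst (ptf_goN hmv _)).prodMk (PTF.comp₂ hp PTF.fst (ptf_goN hmv _)))
  exact PTF.of_eq h fun w => rfl

/-- bits of the value of a rule that reads public data only -/
theorem ptf_bitN_run0 {r : ℕ} [PTCode Pub] [Finite Pub]
    (A : LMap Gen Pub Unit Δ) (enc : Δ → Fin r → Bool) {mv : Gen → α → ℕ → ℕ}
    (hmv : ∀ g, PTF₂ (mv g)) {p : α → ℕ → Pub} (hp : PTF₂ p) :
    PTF (bitN enc (runN A mv (fun _ _ => ()) p)) :=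
  ptf_bitN_runN A enc hmv (PTF.const ()) hp

end tables

/-! ### small rules -/

section rules

variable {Gen Pub Γ Δ E Z : Type}

/-- constant rule -/
def cn (d : Δ) : LMap Gen Pub Γ Δ where
  ι := Empty
  adr := fun i => i.elim
  f := fun _ _ => d

@[simp] theorem run_cn (d : Δ) (F : Frame Gen Pub) (X : F.U → Γ) (u : F.U) :
    (cn d : LMap Gen Pub Γ Δ).run F X u = d := rfl

/-- read the public data -/
def rdP (h : Pub → Δ) : LMap Gen Pub Γ Δ where
  ι := Unit
  adr := fun _ => []
  f := fun _ p => h (p ())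

@[simp] theorem run_rdP (h : Pub → Δ) (F : Frame Gen Pub) (X : F.U → Γ) (u : F.U) :
    (rdP h : LMap Gen Pub Γ Δ).run F X u = h (F.pub u) := rfl

/-- the rule seen from the `g`-neighbour -/
def sh (g : Gen) (A : LMap Gen Pub Γ Δ) : LMap Gen Pub Γ Δ where
  ι := A.ι
  adr := fun i => g :: A.adr i
  f := A.f

@[simp] theorem run_sh (g : Gen) (A : LMap Gen Pub Γ Δ) (F : Frame Gen Pub) (X : F.U → Γ)
    (u : F.U) : (sh g A).run F X u = A.run F X (F.act g u) := rfl

/-- pointwise operation -/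
def map₂ (h : Δ → E → Z) (A : LMap Gen Pub Γ Δ) (B : LMap Gen Pub Γ E) : LMap Gen Pub Γ Z :=
  (A.pair B).map fun p => h p.1 p.2

@[simp] theorem run_map₂ (h : Δ → E → Z) (A : LMap Gen Pub Γ Δ) (B : LMap Gen Pub Γ E)
    (F : Frame Gen Pub) (X : F.U → Γ) (u : F.U) :
    (map₂ h A B).run F X u = h (A.run F X u) (B.run F X u) := rfl

end rules

/-! ### the start label as a rule over the frame of `DefI` -/

section start

open Crest.Agent.R289.DefC Crest.Agent.R289.DefI Crest.Agent.R289.Compile827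

variable {K : Type} [Field K] (c : Cst K) (Gc Pc Ck Γl : Type)

/-- rules over the frame of `DefI` -/
abbrev Ru (Δ : Type) : Type 1 := LMap (c.Gen Gc) (c.PD × Pc) Γl Δ

variable {c Gc Pc Ck Γl}

/-- word value of an expression at the start registers, as a rule -/
def evL : PE K c.A.Reg c.A.Pub c.G → Ru c Gc Pc Γl (c.S → K)
  | .zero => cn fun _ => 0
  | .reg r => rdP fun p => p.1.x0 r
  | .pub b => rdP fun p => p.1.b b
  | .smul k e => (evL e).map fun y s => k * y s
  | .add e f => map₂ (fun y z s => y s + z s) (evL e) (evL f)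
  | .mul e f => map₂ (fun y z s => y s * z s) (evL e) (evL f)
  | .tr g e => sh (.fwd g) (evL e)
  | .ti g e => sh (.bwd g) (evL e)

theorem run_evL (I : Ins c) (mc : Gc → I.U → I.U) (pc : I.U → Pc) (X : I.U → Γl)
    (e : PE K c.A.Reg c.A.Pub c.G) (u : I.U) :
    (evL e : Ru c Gc Pc Γl (c.S → K)).run (I.frame mc pc) X u =
      fun s => I.evalW e I.x0 (u.1, s) := by
  induction e generalizing u with
  | zero => rfl
  | reg r => rfl
  | pub b => rfl
  | smul k e ih =>
    rw [evL, LMap.run_map, ih]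
    rfl
  | add e f ih1 ih2 =>
    rw [evL, run_map₂, ih1, ih2]
    rfl
  | mul e f ih1 ih2 =>
    rw [evL, run_map₂, ih1, ih2]
    rfl
  | tr g e ih =>
    rw [evL, run_sh, ih]
    rfl
  | ti g e ih =>
    rw [evL, run_sh, ih]
    rfl

/-- vector of the components at the start registers -/
def wvL : Ru c Gc Pc Γl (c.S → c.V) :=
  (LMap.pi fun m : c.A.Comp => evL (c.A.comp m)).map fun y s a m => if a = 0 then y m s else 0

theorem run_wvL (I : Ins c) (mc : Gc → I.U → I.U) (pc : I.U → Pc) (X : I.U → Γl) (u : I.U) :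
    (wvL : Ru c Gc Pc Γl (c.S → c.V)).run (I.frame mc pc) X u =
      fun s => I.wv I.x0 (u.1, s) := by
  rw [wvL, LMap.run_map, LMap.run_pi]
  funext s a m
  show (if a = 0 then ((evL (c.A.comp m)).run (I.frame mc pc) X u) s else 0) = _
  rw [run_evL]
  rfl

/-- the cascade operator, applied to a rule -/
def LamL (A : Ru c Gc Pc Γl (c.S → c.V)) : Ru c Gc Pc Γl (c.S → c.V) :=
  (LMap.pi fun j : c.Jc => sh (.cas j) A).map fun y s a m => ∑ j, ∑ b, c.lam j a b * y j s b m

theorem run_LamL (I : Ins c) (mc : Gc → I.U → I.U) (pc : I.U → Pc) (X : I.U → Γl)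
    (A : Ru c Gc Pc Γl (c.S → c.V)) (y : I.AW)
    (hA : ∀ u : I.U, A.run (I.frame mc pc) X u = fun s => y (u.1, s)) (u : I.U) :
    (LamL A).run (I.frame mc pc) X u = fun s => I.Lam y (u.1, s) := by
  rw [LamL, LMap.run_map, LMap.run_pi]
  funext s a m
  show (∑ j, ∑ b, c.lam j a b * (A.run (I.frame mc pc) X ((I.frame mc pc).act (.cas j) u)) s b m)
    = _
  simp only [hA]
  rfl

/-- blank bank -/
def blank (st : c.A.Stg) : c.Bank where
  stg := st
  R := 0
  X := 0
  Xm := 0
  Z := 0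
  Zm := 0

/-- bank of the start word with the certificate of depth `0`, from the public data of the unit, the
symbols of `wv x0` and of `Lam (wv x0)` -/
def bank0 (st : c.A.Stg) (p : c.PD) (w lw : c.S → c.V) : c.Bank where
  stg := st
  R := p.x0
  X := fun s' s => p.D0 s' • w s
  Xm := 0
  Z := fun q s' s => p.A0 q s' • lw s + p.B0 q s' • w s
  Zm := 0

/-- **the start label as a local rule that reads public data only** -/
def startL (st0 stz : c.A.Stg) (ck0 : c.PD × Pc → Ck) : Ru c Gc Pc Γl (c.Lab Ck) :=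
  map₂ (fun (p : c.PD × Pc) (w : (c.S → c.V) × (c.S → c.V)) =>
      { l := .boot
        ck := ck0 p
        b1 := blank stz
        b2 := bank0 st0 p.1 w.1 w.2 })
    (rdP fun p => p) ((wvL : Ru c Gc Pc Γl (c.S → c.V)).pair (LamL wvL))

theorem run_startL (I : Ins c) (mc : Gc → I.U → I.U) (pc : I.U → Pc) (X : I.U → Γl)
    (cw : ℕ → I.U → Ck) (ck0 : c.PD × Pc → Ck) (hck : ∀ u, cw 0 u = ck0 (I.pd u, pc u))
    (u : I.U) :
    (startL I.stg0 I.stgz ck0 : Ru c Gc Pc Γl (c.Lab Ck)).run (I.frame mc pc) X u =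
      I.labE cw ⟨.boot, 0, I.xz, I.zz, I.xs, I.ent I.xs⟩ u := by
  rw [startL, run_map₂, LMap.run_pair, run_rdP, run_wvL,
    run_LamL I mc pc X wvL (I.wv I.x0) (run_wvL I mc pc X)]
  unfold Ins.labE Ins.bankE
  rw [hck u]
  rfl

end start

end Crest.Agent.R289.StartTab810
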