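import Crest.Agent.R289.DefD_721

/-!
# Row 289: finite register alphabet -> bits, units -> `Fin n`  (helper209)

* `GRules k Γ Pub`: local rules over an arbitrary alphabet `Γ` and public type `Pub`; `gklift`, `glift`,
  `GRules.data` = the same definitions as `DefD.klift`, `DefD.lift`, `DefD.LRules.data`.
* `MData.Below D D'` : `D'` (over `Γ'`) simulates `D` (over `Γ`) along an injection `e : Γ → Γ'`:
  arrays over `Γ'` are read through `e⁻¹`, non-codes are unreadable.  `Ax` transfers with the same constants.
* `GRules.toBits` and `ax_toBits`: from `(GRules.data ..).Ax k` to `(LRules.data ..).Ax k`.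
* `MData.congr` : transport along `U ≃ V`.
-/

set_option autoImplicit false
set_option linter.unusedSectionVars false

namespace Crest.Agent.R289.Bits209

open Finset Crest.Agent.R289.DefD

section frac
variable {U V : Type} [Fintype U] [Fintype V]

theorem frac_congr {p q : U → Prop} (h : ∀ u, p u ↔ q u) : frac p = frac q := by
  have : p = q := funext fun u => propext (h u)
  rw [this]

theorem frac_mono {p q : U → Prop} (h : ∀ u, p u → q u) : frac p ≤ frac q := by
  classical
  unfold frac
  have : (univ.filter p).card ≤ (univ.filter q).card := by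
    apply Finset.card_le_card
    intro u hu
    simp only [mem_filter, mem_univ, true_and] at hu ⊢
    exact h u hu
  have h2 : ((univ.filter p).card : ℝ) ≤ ((univ.filter q).card : ℝ) := by exact_mod_cast this
  exact div_le_div_of_nonneg_right (by convert h2) (by positivity)

theorem frac_equiv (f : U ≃ V) (p : V → Prop) : frac (fun u => p (f u)) = frac p := by
  classical
  unfold frac
  rw [Fintype.card_congr f]
  congr 2
  apply Finset.card_bij (fun u _ => f u)
  · intro u hu
    simpa using hu
  · intro a _ b _ h
    exact f.injective h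
  · intro v hv
    exact ⟨f.symm v, by simpa using hv, by simp⟩

end frac

/-! ### change of alphabet -/

section alphabet
variable {U Γ Γ' : Type} [Fintype U]

open Classical in
/-- reading a label through the code `e`; non-codes are unreadable -/
noncomputable def rd (e : Γ → Γ') (g : Option Γ') : Option Γ :=
  if h : ∃ c, g = some (e c) then some h.choose else none

theorem rd_eq_some {e : Γ → Γ'} (he : Function.Injective e) (g : Option Γ') (c : Γ) :
    rd e g = some c ↔ g = some (e c) := by
  classical
  unfold rd
  constructor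
  · intro h
    split at h
    · rename_i hx
      have := hx.choose_spec
      have h2 : hx.choose = c := by simpa using h
      rw [← h2]
      exact this
    · simp at h
  · intro h
    have hx : ∃ c, g = some (e c) := ⟨c, h⟩
    rw [dif_pos hx]
    have h1 := hx.choose_spec
    have h2 : e hx.choose = e c := by
      have := h1.symm.trans h
      simpa using this
    rw [he h2]

/-- array read through the code -/
noncomputable def rdA (e : Γ → Γ') (X : U → Option Γ') : U → Option Γ := fun u => rd e (X u)

theorem dist_rdA {e : Γ → Γ'} (he : Function.Injective e) (X : U → Option Γ') (w : U → Γ) :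
    DefD.dist X (fun u => e (w u)) = DefD.dist (rdA e X) w := by
  unfold DefD.dist
  apply frac_congr
  intro u
  rw [not_iff_not]
  exact (rd_eq_some he (X u) (w u)).symm

theorem distW_code {e : Γ → Γ'} (he : Function.Injective e) (v w : U → Γ) :
    distW (fun u => e (v u)) (fun u => e (w u)) = distW v w := by
  unfold distW
  apply frac_congr
  intro u
  rw [not_iff_not]
  exact he.eq_iff

theorem comp_inj {e : Γ → Γ'} (he : Function.Injective e) {v w : U → Γ}
    (h : (fun u => e (v u)) = fun u => e (w u)) : v = w := by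
  funext u
  exact he (congrFun h u)

/-- `D'` simulates `D` along the code `e` -/
structure Sim (e : Γ → Γ') (D : MData U Γ) (D' : MData U Γ') : Prop where
  W_eq : D'.W = {v | ∃ w ∈ D.W, v = fun u => e (w u)}
  w0_eq : D'.w0 = fun u => e (D.w0 u)
  N_eq : ∀ w ∈ D.W, D'.N (fun u => e (w u)) = fun u => e (D.N w u)
  M_eq : ∀ w ∈ D.W, D'.M (fun u => e (w u)) = fun u => e (D.M w u)
  corr_ge : ∀ X u c, D.corr (rdA e X) u = some c → D'.corr X u = some (e c)
  Nu_ge : ∀ X u c, D.Nu (rdA e X) u = some c → D'.Nu X u = some (e c)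
  Mu_ge : ∀ X u c, D.Mu (rdA e X) u = some c → D'.Mu X u = some (e c)
  viol_eq : ∀ X u, D'.viol X u = D.viol (rdA e X) u

theorem dist_le_of_ge {e : Γ → Γ'} {F : U → Option Γ} {F' : U → Option Γ'}
    (h : ∀ u c, F u = some c → F' u = some (e c)) (w : U → Γ) :
    DefD.dist F' (fun u => e (w u)) ≤ DefD.dist F w := by
  unfold DefD.dist
  apply frac_mono
  intro u hu hF
  exact hu (h u _ hF)

/-- **the axioms transfer along a simulation, with the same constants** -/
theorem Sim.ax {e : Γ → Γ'} (he : Function.Injective e) {D : MData U Γ} {D' : MData U Γ'}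
    (S : Sim e D D') {k : MConst} (h : D.Ax k) : D'.Ax k where
  w0_mem := by
    rw [S.W_eq, S.w0_eq]
    exact ⟨_, h.w0_mem, rfl⟩
  N_mem := by
    intro w hw
    rw [S.W_eq] at hw ⊢
    obtain ⟨v, hv, rfl⟩ := hw
    exact ⟨_, h.N_mem v hv, S.N_eq v hv⟩
  M_mem := by
    intro w hw
    rw [S.W_eq] at hw ⊢
    obtain ⟨v, hv, rfl⟩ := hw
    exact ⟨_, h.M_mem v hv, S.M_eq v hv⟩
  MN := by
    intro w hw hne
    rw [S.W_eq] at hw
    obtain ⟨v, hv, rfl⟩ := hw
    rw [S.N_eq v hv] at hne ⊢
    rw [S.M_eq _ (h.N_mem v hv)]
    have : D.N v ≠ v := fun h2 => hne (by rw [h2])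
    rw [h.MN v hv this]
  NM := by
    intro w hw hne
    rw [S.W_eq] at hw
    obtain ⟨v, hv, rfl⟩ := hw
    rw [S.M_eq v hv] at hne ⊢
    rw [S.N_eq _ (h.M_mem v hv)]
    have : D.M v ≠ v := fun h2 => hne (by rw [h2])
    rw [h.NM v hv this]
  M_w0 := by
    rw [S.w0_eq, S.M_eq _ h.w0_mem, h.M_w0]
  N_w0 := by
    rw [S.w0_eq, S.N_eq _ h.w0_mem]
    intro h2
    exact h.N_w0 (comp_inj he h2)
  sep := by
    intro v hv w hw hne
    rw [S.W_eq] at hv hw
    obtain ⟨a, ha, rfl⟩ := hv
    obtain ⟨b, hb, rfl⟩ := hw
    rw [distW_code he]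
    exact h.sep a ha b hb fun hab => hne (by rw [hab])
  sound := by
    intro X hX
    have hfr : frac (fun u => D'.viol X u = true) = frac (fun u => D.viol (rdA e X) u = true) :=
      frac_congr fun u => by rw [S.viol_eq]
    rw [hfr] at hX ⊢
    obtain ⟨w, hw, hd⟩ := h.sound (rdA e X) hX
    refine ⟨fun u => e (w u), ?_, ?_⟩
    · rw [S.W_eq]
      exact ⟨w, hw, rfl⟩
    · rw [dist_rdA he]
      exact hd
  compl := by
    intro w hw X
    rw [S.W_eq] at hw
    obtain ⟨v, hv, rfl⟩ := hw
    have hfr : frac (fun u => D'.viol X u = true) = frac (fun u => D.viol (rdA e X) u = true) :=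
      frac_congr fun u => by rw [S.viol_eq]
    rw [hfr, dist_rdA he]
    exact h.compl v hv _
  corr_le := by
    intro w hw X hX
    rw [S.W_eq] at hw
    obtain ⟨v, hv, rfl⟩ := hw
    rw [dist_rdA he X v] at hX ⊢
    exact (dist_le_of_ge (S.corr_ge X) v).trans (h.corr_le v hv _ hX)
  Nu_le := by
    intro w hw X hX
    rw [S.W_eq] at hw
    obtain ⟨v, hv, rfl⟩ := hw
    rw [S.N_eq v hv]
    rw [dist_rdA he X v] at hX ⊢
    exact (dist_le_of_ge (S.Nu_ge X) _).trans (h.Nu_le v hv _ hX)
  Mu_le := by
    intro w hw X hX
    rw [S.W_eq] at hw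
    obtain ⟨v, hv, rfl⟩ := hw
    rw [S.M_eq v hv]
    rw [dist_rdA he X v] at hX ⊢
    exact (dist_le_of_ge (S.Mu_ge X) _).trans (h.Mu_le v hv _ hX)

end alphabet

/-! ### local rules over arbitrary alphabets -/

/-- unit functions of the labels of `k` neighbours and public data -/
structure GRules (k : ℕ) (Γ Pub : Type) where
  corr : (Fin k → Γ) → Pub → Γ
  Nu : (Fin k → Γ) → Pub → Γ
  Mu : (Fin k → Γ) → Pub → Γ
  viol : (Fin k → Γ) → Pub → Bool

section rules
variable {U Γ Pub β : Type} {k : ℕ}

open Classical in
/-- defined iff all neighbours are readable -/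
noncomputable def glift (f : (Fin k → Γ) → Pub → β) (nb : Fin k → U → U) (pub : U → Pub)
    (X : U → Option Γ) (u : U) : Option β :=
  if h : ∃ x : Fin k → Γ, ∀ i, X (nb i u) = some (x i) then some (f h.choose (pub u)) else none

open Classical in
/-- forced value -/
noncomputable def gklift (f : (Fin k → Γ) → Pub → β) (nb : Fin k → U → U) (pub : U → Pub)
    (X : U → Option Γ) (u : U) : Option β :=
  if h : ∃ g : β, ∀ x : Fin k → Γ, (∀ i y, X (nb i u) = some y → x i = y) → f x (pub u) = g
  then some h.choose else none

theorem glift_eq (f : (Fin k → Γ) → Pub → β) (nb : Fin k → U → U) (pub : U → Pub)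
    (X : U → Option Γ) (u : U) (x : Fin k → Γ) (hx : ∀ i, X (nb i u) = some (x i)) :
    glift f nb pub X u = some (f x (pub u)) := by
  classical
  unfold glift
  have h : ∃ x : Fin k → Γ, ∀ i, X (nb i u) = some (x i) := ⟨x, hx⟩
  rw [dif_pos h]
  have : h.choose = x := by
    funext i
    have h1 := h.choose_spec i
    rw [hx i] at h1
    simpa using h1.symm
  rw [this]

theorem glift_none (f : (Fin k → Γ) → Pub → β) (nb : Fin k → U → U) (pub : U → Pub)
    (X : U → Option Γ) (u : U) (i : Fin k) (hi : X (nb i u) = none) :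
    glift f nb pub X u = none := by
  classical
  unfold glift
  rw [dif_neg]
  rintro ⟨x, hx⟩
  rw [hx i] at hi
  simp at hi

/-- the forced value is `g` iff all completions give `g` -/
theorem gklift_eq_some [Nonempty Γ] (f : (Fin k → Γ) → Pub → β) (nb : Fin k → U → U)
    (pub : U → Pub) (X : U → Option Γ) (u : U) (g : β) :
    gklift f nb pub X u = some g ↔
      ∀ x : Fin k → Γ, (∀ i y, X (nb i u) = some y → x i = y) → f x (pub u) = g := by
  classical
  have hex : ∃ x : Fin k → Γ, ∀ i y, X (nb i u) = some y → x i = y := by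
    refine ⟨fun i => (X (nb i u)).getD (Classical.arbitrary Γ), ?_⟩
    intro i y hy
    simp [hy]
  unfold gklift
  constructor
  · intro h x hx
    split at h
    · rename_i hg
      have h1 := hg.choose_spec x hx
      have h2 : hg.choose = g := by simpa using h
      rw [h1, h2]
    · simp at h
  · intro h
    have hg : ∃ g : β, ∀ x : Fin k → Γ, (∀ i y, X (nb i u) = some y → x i = y) → f x (pub u) = g :=
      ⟨g, h⟩
    rw [dif_pos hg]
    obtain ⟨x, hx⟩ := hex
    have h1 := hg.choose_spec x hx
    rw [← h1, h x hx]

/-- the machine defined by rules over `Γ` -/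
noncomputable def GRules.data (R : GRules k Γ Pub) (nb : Fin k → U → U) (pub : U → Pub)
    (W : Set (U → Γ)) (w0 : U → Γ) (N M : (U → Γ) → (U → Γ)) : MData U Γ where
  W := W
  w0 := w0
  N := N
  M := M
  corr := gklift R.corr nb pub
  Nu := gklift R.Nu nb pub
  Mu := gklift R.Mu nb pub
  viol := fun X u => (glift R.viol nb pub X u).getD true

theorem klift_eq_gklift {k l r : ℕ} (f : (Fin k → Fin l → Bool) → (Fin r → Bool) → β)
    (nb : Fin k → U → U) (pub : U → Fin r → Bool) (X : U → Option (Fin l → Bool)) :
    klift f nb pub X = gklift f nb pub X := rfl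

theorem lift_eq_glift {k l r : ℕ} (f : (Fin k → Fin l → Bool) → (Fin r → Bool) → β)
    (nb : Fin k → U → U) (pub : U → Fin r → Bool) (X : U → Option (Fin l → Bool)) :
    DefD.lift f nb pub X = glift f nb pub X := by
  funext u
  by_cases h : ∃ x : Fin k → Fin l → Bool, ∀ i, X (nb i u) = some (x i)
  · unfold DefD.lift glift
    rw [dif_pos h, dif_pos h]
  · unfold DefD.lift glift
    rw [dif_neg h, dif_neg h]

end rules

/-! ### from `Γ`, `Pub` to bits -/

section bits
variable {U Γ Pub Γ' Pub' : Type} {k : ℕ}

open Classical in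
/-- a unit function over `Γ` as a unit function over `Γ'` (non-codes are completed in all ways; an
undetermined value becomes `e` of an arbitrary element) -/
noncomputable def cfun [Nonempty Γ] (e : Γ → Γ') (dP : Pub' → Pub) (f : (Fin k → Γ) → Pub → Γ)
    (x : Fin k → Γ') (p : Pub') : Γ' :=
  if h : ∃ g : Γ, ∀ z : Fin k → Γ, (∀ i c, x i = e c → z i = c) → f z (dP p) = g
  then e h.choose else e (Classical.arbitrary Γ)

open Classical in
/-- a test over `Γ` as a test over `Γ'` (non-codes violate) -/
noncomputable def cviol (e : Γ → Γ') (dP : Pub' → Pub) (f : (Fin k → Γ) → Pub → Bool)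
    (x : Fin k → Γ') (p : Pub') : Bool :=
  if h : ∃ z : Fin k → Γ, ∀ i, x i = e (z i) then f h.choose (dP p) else true

theorem cfun_eq [Nonempty Γ] (e : Γ → Γ') (he : Function.Injective e) (dP : Pub' → Pub)
    (f : (Fin k → Γ) → Pub → Γ) (x : Fin k → Γ') (p : Pub') (g : Γ)
    (h : ∀ z : Fin k → Γ, (∀ i c, x i = e c → z i = c) → f z (dP p) = g) :
    cfun e dP f x p = e g := by
  classical
  unfold cfun
  have hg : ∃ g : Γ, ∀ z : Fin k → Γ, (∀ i c, x i = e c → z i = c) → f z (dP p) = g := ⟨g, h⟩
  rw [dif_pos hg]
  have hex : ∃ z : Fin k → Γ, ∀ i c, x i = e c → z i = c := by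
    refine ⟨fun i => if hi : ∃ c, x i = e c then hi.choose else Classical.arbitrary Γ, ?_⟩
    intro i c hc
    have hi : ∃ c, x i = e c := ⟨c, hc⟩
    simp only [dif_pos hi]
    apply he
    rw [← hi.choose_spec, hc]
  obtain ⟨z, hz⟩ := hex
  have h1 := hg.choose_spec z hz
  rw [← h1, h z hz]

/-- on exact codes: the rule itself -/
theorem cfun_code [Nonempty Γ] (e : Γ → Γ') (he : Function.Injective e) (dP : Pub' → Pub)
    (f : (Fin k → Γ) → Pub → Γ) (z : Fin k → Γ) (p : Pub') :
    cfun e dP f (fun i => e (z i)) p = e (f z (dP p)) := by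
  apply cfun_eq e he
  intro z' hz'
  have : z' = z := by
    funext i
    exact hz' i _ rfl
  rw [this]

theorem cviol_code (e : Γ → Γ') (he : Function.Injective e) (dP : Pub' → Pub)
    (f : (Fin k → Γ) → Pub → Bool) (z : Fin k → Γ) (p : Pub') :
    cviol e dP f (fun i => e (z i)) p = f z (dP p) := by
  classical
  unfold cviol
  have h : ∃ z' : Fin k → Γ, ∀ i, (fun i => e (z i)) i = e (z' i) := ⟨z, fun _ => rfl⟩
  rw [dif_pos h]
  have : h.choose = z := by
    funext i
    exact (he (h.choose_spec i)).symm
  rw [this]

/-- a completion-determined value survives the change of alphabet -/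
theorem gklift_cfun [Nonempty Γ] (e : Γ → Γ') (he : Function.Injective e) (eP : Pub → Pub')
    (dP : Pub' → Pub) (hP : ∀ p, dP (eP p) = p) (f : (Fin k → Γ) → Pub → Γ)
    (nb : Fin k → U → U) (pub : U → Pub) (X : U → Option Γ') (u : U) (c : Γ)
    (h : gklift f nb pub (rdA e X) u = some c) :
    gklift (cfun e dP f) nb (fun u => eP (pub u)) X u = some (e c) := by
  have : Nonempty Γ' := ⟨e (Classical.arbitrary Γ)⟩
  rw [gklift_eq_some] at h ⊢
  intro x hx
  apply cfun_eq e he
  intro z hz
  rw [hP]
  apply h
  intro i y hy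
  have h1 : X (nb i u) = some (e y) := (rd_eq_some he _ _).1 hy
  exact hz i y (hx i _ h1)

theorem glift_cviol (e : Γ → Γ') (he : Function.Injective e) (eP : Pub → Pub')
    (dP : Pub' → Pub) (hP : ∀ p, dP (eP p) = p) (f : (Fin k → Γ) → Pub → Bool)
    (nb : Fin k → U → U) (pub : U → Pub) (X : U → Option Γ') (u : U) :
    (glift (cviol e dP f) nb (fun u => eP (pub u)) X u).getD true
      = (glift f nb pub (rdA e X) u).getD true := by
  classical
  by_cases hall : ∀ i, ∃ y, X (nb i u) = some y
  · choose x hx using hall
    rw [glift_eq _ _ _ _ _ x hx]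
    by_cases hc : ∃ z : Fin k → Γ, ∀ i, x i = e (z i)
    · obtain ⟨z, hz⟩ := hc
      have hxz : x = fun i => e (z i) := funext hz
      rw [glift_eq f nb pub (rdA e X) u z (fun i => (rd_eq_some he _ _).2 (by rw [hx i, hz i]))]
      simp only [Option.getD_some]
      rw [hxz, cviol_code e he, hP]
    · have h1 : cviol e dP f x (eP (pub u)) = true := by
        unfold cviol
        rw [dif_neg hc]
      simp only [Option.getD_some, h1]
      have h2 : ∃ i, ¬ ∃ c, x i = e c := by
        by_contra hcon
        simp only [not_exists, not_forall, not_not] at hcon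
        choose z hz using hcon
        exact hc ⟨z, hz⟩
      obtain ⟨i, hi⟩ := h2
      have h3 : rdA e X (nb i u) = none := by
        unfold rdA rd
        rw [dif_neg]
        rintro ⟨c, hc'⟩
        rw [hx i] at hc'
        exact hi ⟨c, by simpa using hc'⟩
      rw [glift_none _ _ _ _ _ i h3]
      rfl
  · simp only [not_forall, not_exists] at hall
    obtain ⟨i, hi⟩ := hall
    have h1 : X (nb i u) = none := by
      cases h : X (nb i u) with
      | none => rfl
      | some y => exact absurd h (hi y)
    have h3 : rdA e X (nb i u) = none := by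
      unfold rdA rd
      rw [dif_neg]
      rintro ⟨c, hc'⟩
      rw [h1] at hc'
      simp at hc'
    rw [glift_none _ _ _ _ _ i h1, glift_none _ _ _ _ _ i h3]

/-- the rules over bits -/
noncomputable def GRules.toBits [Nonempty Γ] {l r : ℕ} (R : GRules k Γ Pub)
    (e : Γ → Fin l → Bool) (dP : (Fin r → Bool) → Pub) : LRules k l r where
  corr := cfun e dP R.corr
  Nu := cfun e dP R.Nu
  Mu := cfun e dP R.Mu
  viol := cviol e dP R.viol

/-- **machine over a finite register alphabet -> machine over bits, same constants** -/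
theorem ax_toBits [Fintype U] [Nonempty Γ] {l r : ℕ} (R : GRules k Γ Pub)
    (e : Γ → Fin l → Bool) (he : Function.Injective e) (dec : (Fin l → Bool) → Γ)
    (hdec : ∀ c, dec (e c) = c) (eP : Pub → Fin r → Bool) (dP : (Fin r → Bool) → Pub)
    (hP : ∀ p, dP (eP p) = p) (nb : Fin k → U → U) (pub : U → Pub)
    (W : Set (U → Γ)) (w0 : U → Γ) (N M : (U → Γ) → (U → Γ)) (kc : MConst)
    (h : (R.data nb pub W w0 N M).Ax kc) :
    ((R.toBits e dP).data nb (fun u => eP (pub u)) {v | ∃ w ∈ W, v = fun u => e (w u)}
      (fun u => e (w0 u)) (fun v u => e (N (fun u => dec (v u)) u))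
      (fun v u => e (M (fun u => dec (v u)) u))).Ax kc := by
  refine Sim.ax (e := e) he (D := R.data nb pub W w0 N M) ?_ h
  constructor
  · rfl
  · rfl
  · intro w _
    simp only [LRules.data, GRules.data, hdec]
  · intro w _
    simp only [LRules.data, GRules.data, hdec]
  · intro X u c hc
    exact gklift_cfun e he eP dP hP R.corr nb pub X u c hc
  · intro X u c hc
    exact gklift_cfun e he eP dP hP R.Nu nb pub X u c hc
  · intro X u c hc
    exact gklift_cfun e he eP dP hP R.Mu nb pub X u c hc
  · intro X u
    have h1 := glift_cviol e he eP dP hP R.viol nb pub X u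
    show (DefD.lift (cviol e dP R.viol) nb (fun u => eP (pub u)) X u).getD true = _
    rw [lift_eq_glift]
    exact h1

/-- every finite type embeds into bit strings, with a decoder -/
theorem exists_bits (Γ : Type) [Fintype Γ] [Nonempty Γ] :
    ∃ (l : ℕ) (e : Γ → Fin l → Bool) (dec : (Fin l → Bool) → Γ),
      Function.Injective e ∧ ∀ c, dec (e c) = c := by
  classical
  let l := Fintype.card Γ
  let n := Fintype.equivFin Γ
  let e : Γ → Fin l → Bool := fun c i => decide (n c = i)
  have he : Function.Injective e := by
    intro a b hab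
    have h1 : e a (n a) = true := by simp [e]
    rw [hab] at h1
    have h2 : n b = n a := by simpa [e] using h1
    exact (n.injective h2).symm
  refine ⟨l, e, Function.invFun e, he, fun c => ?_⟩
  exact Function.leftInverse_invFun he c

end bits

/-! ### change of units -/

section units
variable {U V Γ : Type} [Fintype U] [Fintype V]

/-- transport of a machine along a bijection of the units -/
def congrU (f : U ≃ V) (D : MData U Γ) : MData V Γ where
  W := {v | (fun u => v (f u)) ∈ D.W}
  w0 := fun v => D.w0 (f.symm v)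
  N := fun w v => D.N (fun u => w (f u)) (f.symm v)
  M := fun w v => D.M (fun u => w (f u)) (f.symm v)
  corr := fun X v => D.corr (fun u => X (f u)) (f.symm v)
  Nu := fun X v => D.Nu (fun u => X (f u)) (f.symm v)
  Mu := fun X v => D.Mu (fun u => X (f u)) (f.symm v)
  viol := fun X v => D.viol (fun u => X (f u)) (f.symm v)

theorem dist_congrU (f : U ≃ V) (X : V → Option Γ) (w : V → Γ) :
    DefD.dist X w = DefD.dist (fun u => X (f u)) fun u => w (f u) := by
  unfold DefD.dist
  exact (frac_equiv f fun v => X v ≠ some (w v)).symm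

theorem distW_congrU (f : U ≃ V) (v w : V → Γ) :
    distW v w = distW (fun u => v (f u)) fun u => w (f u) := by
  unfold distW
  exact (frac_equiv f fun x => v x ≠ w x).symm

theorem back (f : U ≃ V) {β : Type} (g : U → β) : (fun u => (fun v => g (f.symm v)) (f u)) = g := by
  funext u
  simp

theorem forth (f : U ≃ V) {β : Type} (g : V → β) : (fun v => g (f (f.symm v))) = g := by
  funext v
  simp

theorem ax_congrU (f : U ≃ V) (D : MData U Γ) {k : MConst} (h : D.Ax k) : (congrU f D).Ax k where
  w0_mem := by
    show (fun u => D.w0 (f.symm (f u))) ∈ D.W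
    simpa using h.w0_mem
  N_mem := by
    intro w hw
    show (fun u => D.N (fun u => w (f u)) (f.symm (f u))) ∈ D.W
    simpa using h.N_mem _ hw
  M_mem := by
    intro w hw
    show (fun u => D.M (fun u => w (f u)) (f.symm (f u))) ∈ D.W
    simpa using h.M_mem _ hw
  MN := by
    intro w hw hne
    have hne' : D.N (fun u => w (f u)) ≠ fun u => w (f u) := by
      intro h2
      apply hne
      show (fun v => D.N (fun u => w (f u)) (f.symm v)) = w
      rw [h2]
      exact forth f w
    have h1 := h.MN _ hw hne'
    show (fun v => D.M (fun u => D.N (fun u => w (f u)) (f.symm (f u))) (f.symm v)) = w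
    simp only [Equiv.symm_apply_apply]
    rw [show (fun u => D.N (fun u => w (f u)) u) = D.N (fun u => w (f u)) from rfl, h1]
    exact forth f w
  NM := by
    intro w hw hne
    have hne' : D.M (fun u => w (f u)) ≠ fun u => w (f u) := by
      intro h2
      apply hne
      show (fun v => D.M (fun u => w (f u)) (f.symm v)) = w
      rw [h2]
      exact forth f w
    have h1 := h.NM _ hw hne'
    show (fun v => D.N (fun u => D.M (fun u => w (f u)) (f.symm (f u))) (f.symm v)) = w
    simp only [Equiv.symm_apply_apply]
    rw [show (fun u => D.M (fun u => w (f u)) u) = D.M (fun u => w (f u)) from rfl, h1]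
    exact forth f w
  M_w0 := by
    show (fun v => D.M (fun u => D.w0 (f.symm (f u))) (f.symm v)) = fun v => D.w0 (f.symm v)
    simp only [Equiv.symm_apply_apply]
    rw [show (fun u => D.w0 u) = D.w0 from rfl, h.M_w0]
  N_w0 := by
    intro h2
    apply h.N_w0
    funext u
    have h3 : D.N (fun u => D.w0 (f.symm (f u))) (f.symm (f u)) = D.w0 (f.symm (f u)) :=
      congrFun h2 (f u)
    simp only [Equiv.symm_apply_apply] at h3
    exact h3
  sep := by
    intro v hv w hw hne
    rw [distW_congrU f]
    apply h.sep _ hv _ hw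
    intro h2
    apply hne
    funext x
    have := congrFun h2 (f.symm x)
    simpa using this
  sound := by
    intro X hX
    have hfr : frac (fun v => (congrU f D).viol X v = true)
        = frac (fun u => D.viol (fun u => X (f u)) u = true) := by
      rw [← frac_equiv f]
      apply frac_congr
      intro u
      show D.viol (fun u => X (f u)) (f.symm (f u)) = true ↔ _
      rw [Equiv.symm_apply_apply]
    rw [hfr] at hX ⊢
    obtain ⟨w, hw, hd⟩ := h.sound _ hX
    refine ⟨fun v => w (f.symm v), ?_, ?_⟩
    · show (fun u => w (f.symm (f u))) ∈ D.W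
      simpa using hw
    · rw [dist_congrU f, back f w]
      exact hd
  compl := by
    intro w hw X
    have hfr : frac (fun v => (congrU f D).viol X v = true)
        = frac (fun u => D.viol (fun u => X (f u)) u = true) := by
      rw [← frac_equiv f]
      apply frac_congr
      intro u
      show D.viol (fun u => X (f u)) (f.symm (f u)) = true ↔ _
      rw [Equiv.symm_apply_apply]
    rw [hfr, dist_congrU f]
    exact h.compl _ hw _
  corr_le := by
    intro w hw X hX
    rw [dist_congrU f] at hX ⊢
    have h1 := h.corr_le _ hw _ hX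
    have h2 : (fun u => (congrU f D).corr X (f u)) = D.corr fun u => X (f u) := by
      funext u
      show D.corr (fun u => X (f u)) (f.symm (f u)) = _
      rw [Equiv.symm_apply_apply]
    rw [h2, dist_congrU f X w]
    exact h1
  Nu_le := by
    intro w hw X hX
    rw [dist_congrU f] at hX ⊢
    have h1 := h.Nu_le _ hw _ hX
    have h2 : (fun u => (congrU f D).Nu X (f u)) = D.Nu fun u => X (f u) := by
      funext u
      show D.Nu (fun u => X (f u)) (f.symm (f u)) = _
      rw [Equiv.symm_apply_apply]
    have h3 : (fun u => (congrU f D).N w (f u)) = D.N fun u => w (f u) := by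
      funext u
      show D.N (fun u => w (f u)) (f.symm (f u)) = _
      rw [Equiv.symm_apply_apply]
    rw [h2, h3, dist_congrU f X w]
    exact h1
  Mu_le := by
    intro w hw X hX
    rw [dist_congrU f] at hX ⊢
    have h1 := h.Mu_le _ hw _ hX
    have h2 : (fun u => (congrU f D).Mu X (f u)) = D.Mu fun u => X (f u) := by
      funext u
      show D.Mu (fun u => X (f u)) (f.symm (f u)) = _
      rw [Equiv.symm_apply_apply]
    have h3 : (fun u => (congrU f D).M w (f u)) = D.M fun u => w (f u) := by
      funext u
      show D.M (fun u => w (f u)) (f.symm (f u)) = _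
      rw [Equiv.symm_apply_apply]
    rw [h2, h3, dist_congrU f X w]
    exact h1

/-- transport of local rules along a bijection of the units -/
theorem congrU_data {k : ℕ} {Pub : Type} (f : U ≃ V) (R : GRules k Γ Pub) (nb : Fin k → U → U)
    (pub : U → Pub) (W : Set (U → Γ)) (w0 : U → Γ) (N M : (U → Γ) → (U → Γ)) :
    congrU f (R.data nb pub W w0 N M) =
      R.data (fun i v => f (nb i (f.symm v))) (fun v => pub (f.symm v))
        {v | (fun u => v (f u)) ∈ W} (fun v => w0 (f.symm v))
        (fun w v => N (fun u => w (f u)) (f.symm v)) (fun w v => M (fun u => w (f u)) (f.symm v)) := rfl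

theorem sampler_congrU (f : U ≃ V) {d : ℕ} (nb : Fin d → U → U) {e γ : ℝ} (h : Sampler d nb e γ) :
    Sampler d (fun i v => f (nb i (f.symm v))) e γ := by
  intro y hy
  have h1 := h (fun u => y (f u)) fun u => hy (f u)
  have hc : (Fintype.card U : ℝ) = Fintype.card V := by rw [Fintype.card_congr f]
  have hs : ∑ u, y (f u) = ∑ v, y v := Equiv.sum_comp f y
  rw [hc, hs] at h1
  rw [← frac_equiv f]
  refine le_trans (le_of_eq (frac_congr fun u => ?_)) h1
  simp only [Equiv.symm_apply_apply]

end units

end Crest.Agent.R289.Bits209
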