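import Mathlib
import Crest.Agent.R289.UMach_209
import Crest.Agent.R289.FamGlue_715
import Crest.Agent.R289.Bits_209

/-!
# Row 289: from a word-level machine over a family to `Fam289` (helper209)

`fam289_of_umach`: a word machine `WMach F A` which is uniformly local (`Loc R`) with the exact facts
(`Exact g ρ`), a code with ONE system of local rules on the base slots (`CAx`), and polynomial-time tables of
the BASE slots, base public data and start labels (`FamT ι A P`) give `Asm12.Fam289`.  Slots of radius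
`R + 1`, samples, bit codes and all constants are chosen here.
-/

set_option autoImplicit false
set_option linter.unusedVariables false
set_option linter.unusedSectionVars false
set_option linter.style.haveILetI false

namespace Crest.Agent.R289.UFam209

open Crest.PPADPCP Crest.Agent.Lib.PT Crest.Agent.R289 Crest.Agent.R289.DefD
open Crest.Agent.R289.Word508 Crest.Agent.R289.ULoc209 Crest.Agent.R289.UMach209
open Crest.Agent.R289.FamPub715 Crest.Agent.R289.FamGlue715 Crest.Agent.R289.Sampler56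
open Crest.Agent.R289.SampMult497 Crest.Agent.R289.FamComb715

/-! ### moves and numbers -/

section comm
variable {ι U V P : Type} {nb : ι → U → U} {nb' : ι → V → V} {φ : U → V}

theorem mvw_comm (h : ∀ i u, φ (nb i u) = nb' i (φ u)) :
    ∀ (R : ℕ) (s : Wd R ι) (u : U), φ (mvw nb R s u) = mvw nb' R s (φ u)
  | 0, _, _ => rfl
  | R + 1, s, u => by
    show φ (mvw nb R (fun j => s j.succ) (onb nb (s 0) u)) =
      mvw nb' R (fun j => s j.succ) (onb nb' (s 0) (φ u))
    rw [mvw_comm h R, onb_comm h]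

variable {α : Type} [PTCode α] {g : ι → α → ℕ → ℕ}

theorem ptf_mvw (hg : ∀ i, PTF₂ (g i)) :
    ∀ (R : ℕ) (s : Wd R ι), PTF₂ (fun a u => mvw (fun k => g k a) R s u)
  | 0, _ => ptf₂_id
  | R + 1, s => by
    have h1 := ptf_mvw hg R (fun j => s j.succ)
    have h2 := ptf_onb hg (s 0)
    exact ptf₂_comp (g := fun a u => mvw (fun k => g k a) R (fun j => s j.succ) u)
      (h := fun a u => onb (fun k => g k a) (s 0) u) h1 h2

end comm

/-! ### the tables of the machine -/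

section tables
variable {ι P A : Type}

/-- tables with slots of radius `R + 1` and `16 ^ t` samples -/
def big (D : FamT ι A P) (R t : ℕ) :
    FamT (WMach.Sl R ι ⊕ Fin (16 ^ t) × WMach.Sl R ι) A ((WMach.Sl R ι → P) × (Fin (16 ^ t) → (WMach.Sl R ι → P))) where
  n := D.n
  nb s a u := snb (mvw (fun k => D.nb k a) (R + 1)) (fun j u => samp2 (D.n a) t j u) s u
  pub a u := spub (fun u s => D.pub a (mvw (fun k => D.nb k a) (R + 1) s u))
    (fun j u => samp2 (D.n a) t j u) u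
  w0 := D.w0
  len := D.len
  adN := D.adN
  adM := D.adM

theorem big_pt [Finite ι] [Finite P] {D : FamT ι A P} (h : D.PT) (R t : ℕ) : (big D R t).PT := by
  have hs : ∀ j : Fin (16 ^ t), PTF₂ (fun (a : EI) (u : ℕ) => samp2 (D.n a) t j u) := fun j =>
    ptf_samp2 t (α := EI × ℕ) (M := fun x => D.n x.1) (j := fun _ => j) (u := fun x => x.2)
      (PTF.comp h.n PTF.fst) (PTF.const _) PTF.snd
  have hm : ∀ s : WMach.Sl R ι, PTF₂ (fun (a : EI) (u : ℕ) => mvw (fun k => D.nb k a) (R + 1) s u) :=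
    ptf_mvw h.nb (R + 1)
  refine ⟨h.n, fun s => ?_, ?_, h.w0, h.len, h.adN, h.adM⟩
  · exact ptf_snb (g := fun s a u => mvw (fun k => D.nb k a) (R + 1) s u)
      (sm := fun j a u => samp2 (D.n a) t j u) hm hs s
  · refine fp_spub (p := fun a u s => D.pub a (mvw (fun k => D.nb k a) (R + 1) s u))
      (sm := fun j a u => samp2 (D.n a) t j u) ?_ hs
    exact FP₂.pi (v := fun s a u => D.pub a (mvw (fun k => D.nb k a) (R + 1) s u)) fun s =>
      FP₂.slot h.pub (hm s)

end tables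

/-! ### the theorem -/

/-- the tables of the base slots describe the instance `i` of the family -/
structure Desc {ι P A : Type} {F : UF ι P} (m : WMach F A) (D : FamT ι A P) (a : EI) (i : F.I)
    (eU : F.U i ≃ Fin (D.n a)) : Prop where
  nb : ∀ s u, D.nb s a (eU u : Fin (D.n a)) = (eU (F.nb i s u) : Fin (D.n a))
  pub : ∀ u, D.pub a (eU u : Fin (D.n a)) = F.pub i u
  w0 : ∀ u, D.w0 a (eU u : Fin (D.n a)) = m.w0 i u

/-- a blocked legal word carries a solution (`dir = N` or `M`, excluding the start word if `ex`) -/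
def Dec {ι P A : Type} {F : UF ι P} (m : WMach F A) (D : FamT ι A P) (gN gM : A → Bool)
    (I : EOL) (i : F.I) (eU : F.U i ≃ Fin (D.n (raw I))) : Prop :=
  (∀ w ∈ m.Legal i, m.N i w = w → ∃ v : Fin I.n → Bool, I.IsSolution v ∧
    ∀ j : Fin I.n, ∃ u : F.U i, ((eU u : Fin (D.n (raw I))) : ℕ) = D.adN (raw I, (j : ℕ)) ∧
      gN (w u) = v j) ∧
  (∀ w ∈ m.Legal i, m.M i w = w → w ≠ m.w0 i → ∃ v : Fin I.n → Bool, I.IsSolution v ∧
    ∀ j : Fin I.n, ∃ u : F.U i, ((eU u : Fin (D.n (raw I))) : ℕ) = D.adM (raw I, (j : ℕ)) ∧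
      gM (w u) = v j)

/-- **from a word-level machine over a family to `Fam289`** -/
theorem fam289_of_umach {ι P A : Type} [Finite ι] [Finite P] [Finite A] [Nonempty A] [Nonempty P]
    (F : UF ι P) [∀ i, Fintype (F.U i)] (m : WMach F A) [Finite m.J] [Finite m.J']
    {R : ℕ} (hL : m.Loc R) {g ρ : ℝ} (hE : m.Exact g ρ) (hg : 0 < g) (hρ : 0 < ρ)
    (R0 : CRules ι A P) {mm zs r0 d0 c θ : ℝ}
    (hC : ∀ i, CAx R0 (F.nb i) (F.pub i) (m.C i) mm zs r0 d0 c θ)
    (hmm : 1 ≤ mm) (hzs : 0 < zs) (hr0 : 0 < r0) (hd0 : 0 < d0) (hc : 0 ≤ c) (hθ : θ ≤ 1 / 4)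
    (gN gM : A → Bool)
    (H : ∀ n0 : ℕ, ∃ (D : FamT ι A P) (a b : ℕ), D.PT ∧ ∀ I : EOL, I.WF →
      n0 ≤ D.n (raw I) ∧ 0 < D.n (raw I) ∧
      D.n (raw I) ≤ a * I.encode.length * (Nat.clog 2 (I.encode.length + 2)) ^ b ∧
      D.len (raw I) = I.n ∧ ∃ (i : F.I) (eU : F.U i ≃ Fin (D.n (raw I))),
        Desc m D (raw I) i eU ∧ Dec m D gN gM I i eU) :
    Asm12.Fam289 := by
  classical
  have : Fintype ι := Fintype.ofFinite ι
  have : Fintype P := Fintype.ofFinite P
  have : Fintype A := Fintype.ofFinite A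
  have : Fintype m.J := Fintype.ofFinite m.J
  have : Fintype m.J' := Fintype.ofFinite m.J'
  obtain ⟨a0⟩ := (inferInstance : Nonempty A)
  -- additive error
  set γ' : ℝ := min r0 d0 / 6 with hγ'
  have hmin : 0 < min r0 d0 := lt_min hr0 hd0
  have hγ'0 : 0 < γ' := by rw [hγ']; linarith
  set N1 : ℝ := (Fintype.card m.J : ℝ) + Fintype.card m.J' + 1 with hN1
  have hJ : (0 : ℝ) ≤ Fintype.card m.J := Nat.cast_nonneg _
  have hJ' : (0 : ℝ) ≤ Fintype.card m.J' := Nat.cast_nonneg _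
  have hN1p : 0 < N1 := by rw [hN1]; linarith
  set γ : ℝ := γ' / N1 with hγ
  have hγ0 : 0 < γ := div_pos hγ'0 hN1p
  have hγN : N1 * γ = γ' := by rw [hγ]; field_simp
  have hcJ : (Fintype.card m.J : ℝ) * γ ≤ γ' := by rw [← hγN, hN1]; nlinarith
  have hcJ' : (Fintype.card m.J' : ℝ) * γ ≤ γ' := by rw [← hγN, hN1]; nlinarith
  obtain ⟨t, n1, hsamp⟩ := exists_sampler_on (e := ρ / 2) (γ := γ) (by linarith) hγ0
  -- codes
  have : Nonempty ((WMach.Sl R ι → P) × (Fin (16 ^ t) → (WMach.Sl R ι → P))) := by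
    obtain ⟨p0⟩ := (inferInstance : Nonempty P)
    exact ⟨(fun _ => p0, fun _ _ => p0)⟩
  obtain ⟨l, enc, -, henc, -⟩ := Bits209.exists_bits A
  obtain ⟨r, encP, -, hencP, -⟩ :=
    Bits209.exists_bits ((WMach.Sl R ι → P) × (Fin (16 ^ t) → (WMach.Sl R ι → P)))
  set κ : Type := WMach.Sl R ι ⊕ Fin (16 ^ t) × WMach.Sl R ι with hκ
  let e : κ ≃ Fin (Fintype.card κ) := Fintype.equivFin κ
  -- constants
  have hmR : (1 : ℝ) ≤ mm ^ (R + 1) := one_le_pow₀ hmm
  set zs' : ℝ := min zs (g / (2 * (1 + Fintype.card (WMach.Sl R ι) * mm ^ (R + 1) * c))) with hzs'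
  have hcard : (0 : ℝ) ≤ Fintype.card (WMach.Sl R ι) := Nat.cast_nonneg _
  have hden : 0 < 2 * (1 + (Fintype.card (WMach.Sl R ι) : ℝ) * mm ^ (R + 1) * c) := by
    have : 0 ≤ (Fintype.card (WMach.Sl R ι) : ℝ) * mm ^ (R + 1) * c :=
      mul_nonneg (mul_nonneg hcard (by linarith)) hc
    linarith
  have hzs'0 : 0 < zs' := lt_min hzs (div_pos hg hden)
  have hκc : (0 : ℝ) ≤ (Fintype.card κ : ℝ) * (mm ^ (R + 1) * 4) :=
    mul_nonneg (Nat.cast_nonneg _) (by linarith)
  set c' : ℝ := c + 1 + (Fintype.card κ : ℝ) * (mm ^ (R + 1) * 4) with hc'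
  let K : MConst := ⟨zs', r0, d0, c', γ', hzs'0, hr0, hd0, by rw [hc']; linarith, hγ'0.le⟩
  have hminr : min r0 d0 ≤ r0 := min_le_left _ _
  have hmind : min r0 d0 ≤ d0 := min_le_right _ _
  refine fam289_of (m.rules R0 R a0 (16 ^ t)) e enc henc encP K gN gM
    (by show 5 * γ' < r0; rw [hγ']; linarith) (by show 5 * γ' < d0; rw [hγ']; linarith)
    fun n0 => ?_
  obtain ⟨D, a, b, hPT, hD⟩ := H (max n0 n1)
  refine ⟨big D R t, a, b, big_pt hPT R t, fun I hI => ?_⟩
  obtain ⟨h1, h2, h3, h4, i, eU, hdesc, hdec⟩ := hD I hI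
  refine ⟨(le_max_left _ _).trans h1, h2, h3, h4, ?_⟩
  obtain ⟨hs, hms, hnum⟩ := hsamp (D.n (raw I)) ((le_max_right _ _).trans h1) h2 (F.U i) eU
  set sm : Fin (16 ^ t) → F.U i → F.U i := tr eU (nbF h2 t) with hsm
  have hcom : ∀ (s : WMach.Sl R ι) (u : F.U i),
      ((eU (mvw (F.nb i) (R + 1) s u) : Fin (D.n (raw I))) : ℕ) =
        mvw (fun k => D.nb k (raw I)) (R + 1) s ((eU u : Fin (D.n (raw I))) : ℕ) := by
    intro s u
    exact mvw_comm (φ := fun u => ((eU u : Fin (D.n (raw I))) : ℕ))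
      (fun k u => (hdesc.nb k u).symm) (R + 1) s u
  have hax := mach_Ax (m.rules R0 R a0 (16 ^ t)) (WMach.nbM F R i sm) (WMach.pubM F R i sm)
    (m.Legal i) (m.w0 i) (m.N i) (m.M i)
    (m.cax a0 hL hE (hC i) hmm hc hg hms (by norm_num))
    (m.stepax a0 hL hE hs (by linarith) hγ0.le hcJ hcJ')
    (Sum.inl fun _ => none) (fun u => mvw_none _ _ _) hθ e enc henc encP hencP K le_rfl le_rfl
    le_rfl (by show c + 1 ≤ c'; rw [hc']; linarith)
    (by show (Fintype.card κ : ℝ) * (mm ^ (R + 1) * 4) ≤ c'; rw [hc']; linarith) le_rfl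
  refine ⟨F.U i, inferInstance, eU, WMach.nbM F R i sm, WMach.pubM F R i sm, m.Legal i, m.w0 i,
    m.N i, m.M i, ?_, ?_, hdesc.w0, hax, hdec.1, hdec.2⟩
  · intro s u
    exact (snb_comm (φ := fun u => ((eU u : Fin (D.n (raw I))) : ℕ)) hcom
      (fun j u => hnum j u) s u).symm
  · intro u
    show spub (fun (x : ℕ) (s : WMach.Sl R ι) => D.pub (raw I)
      (mvw (fun k => D.nb k (raw I)) (R + 1) s x)) (fun j u => samp2 (D.n (raw I)) t j u)
      ((eU u : Fin (D.n (raw I))) : ℕ) = _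
    refine spub_comm (φ := fun u => ((eU u : Fin (D.n (raw I))) : ℕ))
      (pub' := fun (x : ℕ) (s : WMach.Sl R ι) => D.pub (raw I)
        (mvw (fun k => D.nb k (raw I)) (R + 1) s x)) (fun j u => hnum j u)
      (pub := WMach.pubR F R i) (fun u => ?_) u
    funext s
    show D.pub (raw I) (mvw (fun k => D.nb k (raw I)) (R + 1) s
      ((eU u : Fin (D.n (raw I))) : ℕ)) = F.pub i (mvw (F.nb i) (R + 1) s u)
    rw [← hcom, hdesc.pub]

end Crest.Agent.R289.UFam209
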