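import Crest.Agent.R289.PubBits_92
import Crest.Agent.R289.StartTab_810
import Crest.Agent.R289.UFam_715
import Crest.Agent.R289.UFam_209
import Crest.Agent.R289.DefIFin_465

/-!
# Row 289, leaf E31: base tables of the family

* `TabF.toFP`, `TabF.ofFP` : `PubBits92.TabF` in 715's vocabulary `FP₂`;
* `exists_baseT` : `UFam715.BaseT` with `PT` and `On` from number tables of the steps, the public data
  and the start word;
* `exists_famT` : `FamGlue715.FamT` with `PT` and 209's `Desc`;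
* `tabF_start` : table of the start label word of `DefI_306` from `InsTab`.
-/

set_option autoImplicit false
set_option linter.unusedVariables false

namespace Crest.Agent.R289.BaseTab92

open Crest.PPADPCP Crest.Agent.Lib.PT Crest.Agent.Lib.PT.Arith Crest.Agent.R289 Crest.Agent.R289.YIdx901
  Crest.Agent.R289.FamComb715 Crest.Agent.R289.DefI Crest.Agent.R289.Local782
  Crest.Agent.R289.PubBits92 Crest.Agent.R289.FamPub715

/-! ### vocabulary -/

section fp

variable {ι α : Type} [PTCode α] {raw : ι → α} {U : ι → Type} {n : α → ℕ}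
  {e : ∀ i, U i ≃ Fin (n (raw i))} {X : Type} [Finite X] {f : ∀ i, U i → X}

theorem toFP (h : TabF raw e f) :
    ∃ t : α → ℕ → X, FP₂ t ∧ ∀ i u, t (raw i) (e i u : Fin _) = f i u := by
  let _ := cd X
  obtain ⟨t, ht, hs⟩ := (h : Tab raw e f)
  exact ⟨t, FP.of_ptf ht, hs⟩

theorem ofFP {t : α → ℕ → X} (ht : FP₂ t) (hs : ∀ i u, t (raw i) (e i u : Fin _) = f i u) :
    TabF raw e f := by
  let _ := cd X
  exact (⟨t, FP.ptf ht, hs⟩ : Tab raw e f)

end fp

/-! ### base tables of 715 and 209 -/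

section base

variable {ι : Type} {E : ι → EOL} {U : ι → Type} {n : EI → ℕ}
  {e : ∀ i, U i ≃ Fin (n (raw (E i)))} {St A P : Type} [Finite A] [Finite P]
  {mv : ∀ i, St → U i → U i} {pub : ∀ i, U i → P} {w0 : ∀ i, U i → A}

/-- 715's base tables -/
theorem exists_baseT (hn : PTF n)
    (hmv : ∀ s, Mp (fun i => raw (E i)) e e (fun i u => mv i s u))
    (hp : TabF (fun i => raw (E i)) e pub) (hw : TabF (fun i => raw (E i)) e w0)
    {len : EI → ℕ} (hlen : PTU len) {adN adM : EI × ℕ → ℕ} (hN : PTF adN) (hM : PTF adM) :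
    ∃ T : UFam715.BaseT St A P, T.PT ∧ ∀ (i : ι) (W : Set (U i → A))
      (N M : (U i → A) → U i → A) (gN gM : A → Bool) (n0 a b : ℕ),
      n0 ≤ n (raw (E i)) → 0 < n (raw (E i)) →
      n (raw (E i)) ≤ a * (E i).encode.length * (Nat.clog 2 ((E i).encode.length + 2)) ^ b →
      len (raw (E i)) = (E i).n →
      (∀ w ∈ W, N w = w → ∃ v : Fin (E i).n → Bool, (E i).IsSolution v ∧
        ∀ j : Fin (E i).n, ∃ u : U i, ((e i u : Fin _) : ℕ) = adN (raw (E i), (j : ℕ)) ∧
          gN (w u) = v j) →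
      (∀ w ∈ W, M w = w → w ≠ w0 i → ∃ v : Fin (E i).n → Bool, (E i).IsSolution v ∧
        ∀ j : Fin (E i).n, ∃ u : U i, ((e i u : Fin _) : ℕ) = adM (raw (E i), (j : ℕ)) ∧
          gM (w u) = v j) →
      T.On (E i) (mv i) (pub i) (w0 i) W N M gN gM n0 a b := by
  choose tm htm hsm using hmv
  obtain ⟨tp, htp, hsp⟩ := toFP hp
  obtain ⟨tw, htw, hsw⟩ := toFP hw
  refine ⟨⟨n, tm, tp, tw, len, adN, adM⟩, ⟨hn, htm, htp, htw, hlen, hN, hM⟩, ?_⟩
  intro i W N M gN gM n0 a b h1 h2 h3 h4 h5 h6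
  exact ⟨h1, h2, h3, h4, e i, fun s u => hsm s i u, hsp i, hsw i, h5, h6⟩

/-- 715's `FamT` with 209's `Desc` -/
theorem exists_famT {F : ULoc209.UF St P} {m : UMach209.WMach F A} {inst : ι → F.I}
    {e : ∀ i, F.U (inst i) ≃ Fin (n (raw (E i)))} (hn : PTF n)
    (hmv : ∀ s, Mp (fun i => raw (E i)) e e (fun i u => F.nb (inst i) s u))
    (hp : TabF (fun i => raw (E i)) e (fun i u => F.pub (inst i) u))
    (hw : TabF (fun i => raw (E i)) e (fun i u => m.w0 (inst i) u))
    {len : EI → ℕ} (hlen : PTU len) {adN adM : EI × ℕ → ℕ} (hN : PTF adN) (hM : PTF adM) :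
    ∃ D : FamGlue715.FamT St A P, D.PT ∧ ∃ hDn : D.n = n, D.len = len ∧ D.adN = adN ∧
      D.adM = adM ∧ ∀ i, UFam209.Desc m D (raw (E i)) (inst i)
        ((e i).trans (finCongr (by rw [hDn]))) := by
  choose tm htm hsm using hmv
  obtain ⟨tp, htp, hsp⟩ := toFP hp
  obtain ⟨tw, htw, hsw⟩ := toFP hw
  refine ⟨⟨n, tm, tp, tw, len, adN, adM⟩, ⟨hn, htm, htp, htw, hlen, hN, hM⟩, rfl, rfl, rfl, rfl,
    fun i => ⟨fun s u => hsm s i u, fun u => hsp i u, fun u => hsw i u⟩⟩

end base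

/-! ### start label word -/

section start

open DefC Compile827 StartTab810 DefIFin465

variable {K : Type} [Field K] [Finite K] [PTCode K] {c : Cst K} {ι α : Type} [PTCode α]
  {raw : ι → α} {I : ι → Ins c} {nG nT : α → ℕ}
  {eG : ∀ i, (I i).Γ ≃ Fin (nG (raw i))} {eT : ∀ i, (I i).T ≃ Fin (nT (raw i))}

theorem tabF_start (h : InsTab raw I nG nT eG eT) {st0 stz : c.A.Stg}
    (h0 : ∀ i, (I i).stg0 = st0) (hz : ∀ i, (I i).stgz = stz) {Ck : Type} [Finite Ck]
    {cw : ∀ i, ℕ → (I i).U → Ck} (hck : TabF raw (eQ eG eT) (fun i u => cw i 0 u)) :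
    TabF raw (eQ eG eT) (fun i u =>
      (I i).labE (cw i) ⟨.boot, 0, (I i).xz, (I i).zz, (I i).xs, (I i).ent (I i).xs⟩ u) := by
  have hmv : ∀ g : c.Gen Empty, Mp (U := fun i => (I i).U) (V := fun i => (I i).U) raw
      (eQ eG eT) (eQ eG eT)
      (fun i u => ((I i).frame (fun g _ => g.elim : Empty → (I i).U → (I i).U)
        (fun _ => ())).act g u) := fun g => h.mp_frame (fun g => g.elim) g
  have hp : TabF (U := fun i => (I i).U) raw (eQ eG eT) (fun i u =>
      ((I i).frame (fun g _ => g.elim : Empty → (I i).U → (I i).U) (fun _ => ())).pub u) :=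
    h.tabF_frame_pub (TabF.const ())
  have h1 := TabF.run (Fr := fun i => (I i).frame (fun g _ => g.elim : Empty → (I i).U → (I i).U)
        (fun _ => ())) (eF := eQ eG eT) hmv hp
    (startL st0 stz (fun _ => ()) : Ru c Empty Unit Unit (c.Lab Unit))
    (w := fun _ _ => ()) (TabF.const ())
  have h2 := (h1.pair hck).map (Y := c.Lab Ck)
    (fun x => (⟨x.1.l, x.2, x.1.b1, x.1.b2⟩ : c.Lab Ck))
  have h3 : (fun (i : ι) (u : (I i).Γ × (I i).T) => (⟨((startL st0 stz (fun _ => ()) :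
      Ru c Empty Unit Unit (c.Lab Unit)).run ((I i).frame
        (fun g _ => g.elim : Empty → (I i).U → (I i).U) (fun _ => ())) (fun _ => ()) u).l,
      cw i 0 u, ((startL st0 stz (fun _ => ()) :
      Ru c Empty Unit Unit (c.Lab Unit)).run ((I i).frame
        (fun g _ => g.elim : Empty → (I i).U → (I i).U) (fun _ => ())) (fun _ => ()) u).b1,
      ((startL st0 stz (fun _ => ()) :
      Ru c Empty Unit Unit (c.Lab Unit)).run ((I i).frame
        (fun g _ => g.elim : Empty → (I i).U → (I i).U) (fun _ => ())) (fun _ => ()) u).b2⟩ :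
        c.Lab Ck)) = fun i u => (I i).labE (cw i)
          ⟨.boot, 0, (I i).xz, (I i).zz, (I i).xs, (I i).ent (I i).xs⟩ u := by
    funext i u
    have h4 := run_startL (I i) (fun g _ => g.elim : Empty → (I i).U → (I i).U) (fun _ => ())
      (fun _ => ()) (fun _ _ => ()) (fun _ => ()) (fun _ => rfl) u
    rw [h0 i, hz i] at h4
    exact congrArg (fun x : c.Lab Unit => (⟨x.l, cw i 0 u, x.b1, x.b2⟩ : c.Lab Ck)) h4
  exact h3 ▸ h2

end start

end Crest.Agent.R289.BaseTab92
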