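import Crest.Agent.R289.ClkTD_766
import Crest.Agent.R289.ClockPT_484

/-!
# Row 289, block E: index tables of the clock moves `mc` of `ClkTD_766`

For the clock bijection `e := ClockPT484.recode (ZMod p) (I.L + 1) h ix` of the units:

* `mcN p B m ρ g w` : index function of the clock move `g` (`B b t r` = "the clock data at time `t`,
  rest number `r`, have the value `b`"), `mcN_spec`, `mcN_lt`;
* `ptf_mcN` : polynomial time in (`m` unary, `ρ`, table `B`, index);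
* `tq` for numbered units whose lowest factor is `T` : `tqR`, `tqR_spec`.
-/

set_option autoImplicit false
set_option linter.dupNamespace false
set_option linter.unusedSectionVars false

namespace Crest.Agent.R289.ClkMcPT766

open Crest.Agent.Lib.PT Crest.Agent.R289.GkIdx594 Crest.Agent.R289.YIdx901
open DefC Compile827 DefI Clock311 ClkTD766 ClockPT484

section idx

variable (p : ℕ) [NeZero p] [Inhabited (ZMod p)] {β : Type}

/-- index function of the clock moves -/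
noncomputable def mcN (B : β → ℕ → ℕ → Bool) (m ρ : ℕ) : β ⊕ Fin 3 → ℕ → ℕ
  | .inl b, w => rdI (ZMod p)
      (fun _ _ r => tbI (ZMod p) (fun t => if B b t r = true then 1 else 0) m) m ρ w
  | .inr 0, w => rdI (ZMod p) (fun _ _ _ => tbI (ZMod p) (fun _ => 0) m) m ρ w
  | .inr 1, w => fsI (rtI' (ZMod p) m) (qK (ZMod p) ^ m) ρ w
  | .inr 2, w => fsI (rtI (ZMod p) m) (qK (ZMod p) ^ m) ρ w

variable {α : Type} [PTCode α] [PTCode (ZMod p)]

/-- **polynomial time of the clock moves** -/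
theorem ptf_mcN {m ρ w : α → ℕ} {B : α → β → ℕ → ℕ → Bool} (hm : PTU m) (hρ : PTF ρ)
    (hw : PTF w) (hB : ∀ b, PTF (fun q : α × ℕ × ℕ => B q.1 b q.2.1 q.2.2)) (g : β ⊕ Fin 3) :
    PTF (fun a => mcN p (B a) (m a) (ρ a) g (w a)) := by
  have hn := ptf_pw (α := α) (ZMod p) hm
  match g with
  | .inl b =>
    refine ptf_rdI (F := ZMod p) (Q := fun a _ _ r => tbI (ZMod p)
      (fun t => if B a b t r = true then 1 else 0) (m a)) hm hρ hw ?_
    refine ptf_tbI (F := ZMod p) (f := fun a t => if B a b t (cR (qK (ZMod p) ^ m a) (ρ a) (w a))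
      = true then (1 : ZMod p) else 0) hm ?_
    have h1 : PTF (fun q : α × ℕ => B q.1 b q.2 (cR (qK (ZMod p) ^ m q.1) (ρ q.1) (w q.1))) :=
      PTF.comp (g := fun q : α × ℕ × ℕ => B q.1 b q.2.1 q.2.2)
        (f := fun q : α × ℕ => (q.1, q.2, cR (qK (ZMod p) ^ m q.1) (ρ q.1) (w q.1))) (hB b)
        (PTF.prodMk PTF.fst (PTF.prodMk PTF.snd
          (PTF.comp (ptf_cR hn hρ hw) PTF.fst)))
    exact PTF.comp (g := fun x : Bool => if x = true then (1 : ZMod p) else 0)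
      (PTF.of_finite _) h1
  | .inr 0 =>
    refine ptf_rdI (F := ZMod p) (Q := fun a _ _ _ => tbI (ZMod p) (fun _ => 0) (m a)) hm hρ hw ?_
    exact ptf_tbI (F := ZMod p) (f := fun _ _ => (0 : ZMod p)) hm (PTF.const _)
  | .inr 1 =>
    exact ptf_fsI (g := fun a => rtI' (ZMod p) (m a)) hn hρ hw (ptf_rtI' hm (ptf_cX hn hρ hw))
  | .inr 2 =>
    exact ptf_fsI (g := fun a => rtI (ZMod p) (m a)) hn hρ hw (ptf_rtI hm (ptf_cX hn hρ hw))

end idx

section spec

variable {K : Type} [Field K] {c : Cst K} (I : Ins c) {p : ℕ} [NeZero p] [Inhabited (ZMod p)]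
  {N ρ : ℕ}

/-- the clock bijection of numbered units -/
noncomputable abbrev eR (p : ℕ) [NeZero p] [Inhabited (ZMod p)]
    (h : N = qK (ZMod p) ^ (I.L + 1) * (qK (ZMod p) ^ (I.L + 1) * (qK (ZMod p) ^ (I.L + 1) * ρ)))
    (ix : I.U ≃ Fin N) : I.U ≃ Clock311.U p (I.L + 1) (Fin ρ) :=
  recode (ZMod p) (I.L + 1) h ix

theorem rot_eq (L : ℕ) : (Equiv.addRight (1 : Fin (L + 1)) : Equiv.Perm (Fin (L + 1))) =
    finRotate (L + 1) := by
  ext i
  simp

section forms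
variable (tq : Fin ρ → I.T) (v : CU (ZMod p) (I.L + 1) (Fin ρ))

theorem mv0_inl (b : c.TD) :
    mv0 I tq p (.inl b) v = rdC (fun _ _ r => phi I tq p b r) v := rfl

theorem mv0_z : mv0 I tq p (.inr 0) v = rdC (fun _ _ _ => (0 : V p (I.L + 1))) v := rfl

theorem mv0_up : mv0 I tq p (.inr 1) v = fsC (fun x => sh' x) v := by
  have h1 : mv0 I tq p (.inr 1) v =
      (v.1 ∘ (Equiv.addRight (1 : Fin (I.L + 1)) : Equiv.Perm _), v.2) := rfl
  rw [h1, rot_eq]
  rfl

theorem mv0_dn : mv0 I tq p (.inr 2) v = fsC (fun x => sh x) v := by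
  have h1 : mv0 I tq p (.inr 2) v =
      (v.1 ∘ (Equiv.addRight (1 : Fin (I.L + 1))).symm, v.2) := rfl
  rw [h1, rot_eq]
  rfl

end forms

/-- **index function of the clock moves**, in clock coordinates -/
theorem mcN_mv0 (tq : Fin ρ → I.T) (B : c.TD → ℕ → ℕ → Bool)
    (hB : ∀ b t (r : Fin ρ), t ≤ I.L → (B b t r = true ↔ I.td t (tq r) = b))
    (g : CG c) (v : CU (ZMod p) (I.L + 1) (Fin ρ)) :
    mcN p B (I.L + 1) ρ g
        ((eC (ZMod p) (I.L + 1) (Equiv.refl (Fin ρ)) v : Fin _) : ℕ) =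
      ((eC (ZMod p) (I.L + 1) (Equiv.refl (Fin ρ)) (mv0 I tq p g v) : Fin _) : ℕ) := by
  match g with
  | .inl b =>
    rw [mv0_inl, mcN]
    have hQ : ∀ (x y : Fin (I.L + 1) → ZMod p) (r : Fin ρ),
        (fun (_ _ r : ℕ) => tbI (ZMod p) (fun t => if B b t r = true then (1 : ZMod p) else 0)
          (I.L + 1)) (iV (ZMod p) (I.L + 1) x) (iV (ZMod p) (I.L + 1) y)
          ((Equiv.refl (Fin ρ)) r : Fin ρ) =
        iV (ZMod p) (I.L + 1) ((fun (_ _ : Fin (I.L + 1) → ZMod p) (r : Fin ρ) =>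
          phi I tq p b r) x y r) := by
      intro _ _ r
      simp only [Equiv.refl_apply]
      rw [tbI_spec]
      congr 1
      funext t
      have h1 := hB b t r (Nat.lt_succ_iff.1 t.2)
      by_cases h2 : I.td t (tq r) = b
      · simp only [phi, h2, if_true]
        rw [if_pos (h1.2 h2)]
      · simp only [phi, h2, if_false]
        rw [if_neg (fun h3 => h2 (h1.1 h3))]
    exact rdI_spec (F := ZMod p) (m := I.L + 1) (R := Fin ρ) (ρ := ρ) (Equiv.refl (Fin ρ)) hQ v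
  | .inr 0 =>
    rw [mv0_z, mcN]
    have hQ : ∀ (x y : Fin (I.L + 1) → ZMod p) (r : Fin ρ),
        (fun (_ _ _ : ℕ) => tbI (ZMod p) (fun _ => (0 : ZMod p)) (I.L + 1))
          (iV (ZMod p) (I.L + 1) x) (iV (ZMod p) (I.L + 1) y)
          ((Equiv.refl (Fin ρ)) r : Fin ρ) =
        iV (ZMod p) (I.L + 1) ((fun (_ _ : Fin (I.L + 1) → ZMod p) (_ : Fin ρ) =>
          (0 : V p (I.L + 1))) x y r) := by
      intro _ _ r
      exact tbI_spec (F := ZMod p) (m := I.L + 1) (fun _ => 0)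
    exact rdI_spec (F := ZMod p) (m := I.L + 1) (R := Fin ρ) (ρ := ρ) (Equiv.refl (Fin ρ)) hQ v
  | .inr 1 =>
    rw [mv0_up, mcN]
    exact fsI_spec (F := ZMod p) (m := I.L + 1) (R := Fin ρ) (ρ := ρ) (Equiv.refl (Fin ρ))
      (fun x => rtI'_spec x) v
  | .inr 2 =>
    rw [mv0_dn, mcN]
    exact fsI_spec (F := ZMod p) (m := I.L + 1) (R := Fin ρ) (ρ := ρ) (Equiv.refl (Fin ρ))
      (fun x => rtI_spec x) v

/-- **index function of the clock moves** -/
theorem mcN_spec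
    (h : N = qK (ZMod p) ^ (I.L + 1) * (qK (ZMod p) ^ (I.L + 1) * (qK (ZMod p) ^ (I.L + 1) * ρ)))
    (ix : I.U ≃ Fin N) (tq : Fin ρ → I.T) (B : c.TD → ℕ → ℕ → Bool)
    (hB : ∀ b t (r : Fin ρ), t ≤ I.L → (B b t r = true ↔ I.td t (tq r) = b))
    (g : CG c) (u : I.U) :
    mcN p B (I.L + 1) ρ g ((ix u : Fin N) : ℕ) =
      ((ix (mc I (eR I p h ix) tq g u) : Fin N) : ℕ) :=
  mv_spec (ZMod p) (I.L + 1) h ix (fun v => mv0 I tq p g v) _
    (fun v => mcN_mv0 I tq B hB g v) u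

theorem mcN_lt
    (h : N = qK (ZMod p) ^ (I.L + 1) * (qK (ZMod p) ^ (I.L + 1) * (qK (ZMod p) ^ (I.L + 1) * ρ)))
    (ix : I.U ≃ Fin N) (tq : Fin ρ → I.T) (B : c.TD → ℕ → ℕ → Bool)
    (hB : ∀ b t (r : Fin ρ), t ≤ I.L → (B b t r = true ↔ I.td t (tq r) = b))
    (g : CG c) {w : ℕ} (hw : w < N) : mcN p B (I.L + 1) ρ g w < N := by
  have h1 := mcN_spec I h ix tq B hB g (ix.symm ⟨w, hw⟩)
  rw [Equiv.apply_symm_apply] at h1
  rw [show ((⟨w, hw⟩ : Fin N) : ℕ) = w from rfl] at h1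
  rw [h1]
  exact (ix _).2

end spec

end Crest.Agent.R289.ClkMcPT766
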