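import Crest.Agent.R289.DefI_306
import Crest.Agent.R289.FamComb_715
import Crest.Agent.R289.Word2_508

/-!
# Row 289, leaf E29: number tables of the frame of `DefI_306`

`ι` = well formed instances, `raw : ι → α` = coded input, units `U i ≃ Fin (n (raw i))`.

* `Tab raw e f`  : the function `f i : U i → β` has a polynomial-time table (β coded);
* `TabF raw e f` : the same for a finite value type without code;
* `TabT` : with a time argument;
* `Mp raw e e' g` : the map `g i : U i → V i` has a polynomial-time number table.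
* calculus: `const, map, ap, pi, comp, prod, fst, snd, go, run, spub`.
* `InsTab` : the scalar tables of a family of instances `I : ι → Ins c`; outputs `tabF_pd`,
  `tabF_td`, `mp_frame`, `tabF_frame_pub`.
-/

set_option autoImplicit false
set_option linter.unusedVariables false

namespace Crest.Agent.R289.PubBits92

open Crest.Agent.Lib.PT Crest.Agent.Lib.PT.Arith Crest.Agent.R289.YIdx901
  Crest.Agent.R289.FamComb715 Crest.Agent.R289.DefI Crest.Agent.R289.Local782
  Crest.Agent.R289.Word508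

/-! ### tables -/

section calculus

variable {ι α : Type} [PTCode α] (raw : ι → α)

/-- the functions `f i` have a polynomial-time table -/
def Tab {U : ι → Type} {n : α → ℕ} (e : ∀ i, U i ≃ Fin (n (raw i))) {β : Type} [PTCode β]
    (f : ∀ i, U i → β) : Prop :=
  ∃ t : α → ℕ → β, PTF₂ t ∧ ∀ i u, t (raw i) (e i u : Fin _) = f i u

/-- the maps `g i` have a polynomial-time number table -/
def Mp {U V : ι → Type} {n m : α → ℕ} (e : ∀ i, U i ≃ Fin (n (raw i)))
    (e' : ∀ i, V i ≃ Fin (m (raw i))) (g : ∀ i, U i → V i) : Prop :=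
  ∃ t : α → ℕ → ℕ, PTF₂ t ∧ ∀ i u, t (raw i) (e i u : Fin _) = (e' i (g i u) : Fin _)

/-- product of sizes -/
def pn (n m : α → ℕ) (a : α) : ℕ := n a * m a

variable {raw} in
/-- product numbering -/
def eQ {U V : ι → Type} {n m : α → ℕ} (e : ∀ i, U i ≃ Fin (n (raw i)))
    (e' : ∀ i, V i ≃ Fin (m (raw i))) (i : ι) : U i × V i ≃ Fin (pn n m (raw i)) :=
  eP (e i) (e' i)

/-- a code of a finite type -/
@[reducible] noncomputable def cd (X : Type) [Finite X] : PTCode X :=
  PTCode.ofInj (Finite.equivFin X) (Finite.equivFin X).injective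

/-- tables for a finite value type without code -/
def TabF {U : ι → Type} {n : α → ℕ} (e : ∀ i, U i ≃ Fin (n (raw i))) {X : Type} [Finite X]
    (f : ∀ i, U i → X) : Prop :=
  let := cd X
  Tab raw e f

/-- tables with a time argument, valid for `k ≤ T i` -/
def TabT {U : ι → Type} {n : α → ℕ} (e : ∀ i, U i ≃ Fin (n (raw i))) (T : ι → ℕ) {β : Type}
    [PTCode β] (f : ∀ i, ℕ → U i → β) : Prop :=
  ∃ t : α → ℕ → ℕ → β, PTF (fun p : α × ℕ × ℕ => t p.1 p.2.1 p.2.2) ∧
    ∀ i k, k ≤ T i → ∀ u, t (raw i) k (e i u : Fin _) = f i k u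

variable {raw}
variable {U V W : ι → Type} {n m l : α → ℕ} {e : ∀ i, U i ≃ Fin (n (raw i))}
  {e' : ∀ i, V i ≃ Fin (m (raw i))} {e'' : ∀ i, W i ≃ Fin (l (raw i))}

namespace Mp

theorem id : Mp raw e e (fun _ u => u) := ⟨fun _ u => u, PTF.snd, fun _ _ => rfl⟩

theorem comp {g : ∀ i, U i → V i} {h : ∀ i, V i → W i} (hg : Mp raw e e' g)
    (hh : Mp raw e' e'' h) : Mp raw e e'' (fun i u => h i (g i u)) := by
  obtain ⟨t, ht, hs⟩ := hg
  obtain ⟨t', ht', hs'⟩ := hh
  exact ⟨fun a u => t' a (t a u), PTF.comp₂ ht' PTF.fst ht, fun i u => by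
    show t' _ (t _ _) = _
    rw [hs, hs']⟩

theorem fst (hm : PTF m) : Mp raw (eQ e e') e (fun _ u => u.1) :=
  ⟨fun a u => u / m a, PTF.natDiv PTF.snd (PTF.comp hm PTF.fst), fun i u => eP_div _ _ u.1 u.2⟩

theorem snd (hm : PTF m) : Mp raw (eQ e e') e' (fun _ u => u.2) :=
  ⟨fun a u => u % m a, PTF.natMod PTF.snd (PTF.comp hm PTF.fst), fun i u => eP_mod _ _ u.1 u.2⟩

theorem prod (hl : PTF l) {g : ∀ i, U i → V i} {h : ∀ i, U i → W i} (hg : Mp raw e e' g)
    (hh : Mp raw e e'' h) :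
    Mp raw e (eQ e' e'') (fun i u => (g i u, h i u)) := by
  obtain ⟨t, ht, hs⟩ := hg
  obtain ⟨t', ht', hs'⟩ := hh
  exact ⟨fun a u => pI (l a) (t a u) (t' a u), ptf_pI (PTF.comp hl PTF.fst) ht ht',
    fun i u => by
      show pI (l (raw i)) (t _ _) (t' _ _) = _
      rw [hs, hs']
      exact (eP_val _ _ _ _).symm⟩

/-- map of the first factor -/
theorem onFst (hm : PTF m) {g : ∀ i, U i → U i} (hg : Mp raw e e g) :
    Mp raw (eQ e e') (eQ e e') (fun i u => (g i u.1, u.2)) :=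
  prod hm ((fst hm).comp hg) (snd hm)

/-- map of the second factor -/
theorem onSnd (hm : PTF m) {g : ∀ i, V i → V i} (hg : Mp raw e' e' g) :
    Mp raw (eQ e e') (eQ e e') (fun i u => (u.1, g i u.2)) :=
  prod hm (fst hm) ((snd hm).comp hg)

end Mp

namespace Tab
variable {β γ : Type} [PTCode β] [PTCode γ]

theorem const (b : β) : Tab raw e (fun _ _ => b) := ⟨fun _ _ => b, PTF.const _, fun _ _ => rfl⟩

theorem map' {F : β → γ} (hF : PTF F) {f : ∀ i, U i → β} (h : Tab raw e f) :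
    Tab raw e (fun i u => F (f i u)) := by
  obtain ⟨t, ht, hs⟩ := h
  exact ⟨fun a u => F (t a u), PTF.comp hF ht, fun i u => congrArg F (hs i u)⟩

theorem map [Finite β] (F : β → γ) {f : ∀ i, U i → β} (h : Tab raw e f) :
    Tab raw e (fun i u => F (f i u)) := h.map' (PTF.of_finite F)

theorem comp {g : ∀ i, U i → V i} (hg : Mp raw e e' g) {f : ∀ i, V i → β}
    (h : Tab raw e' f) : Tab raw e (fun i u => f i (g i u)) := by
  obtain ⟨t, ht, hs⟩ := h
  obtain ⟨t', ht', hs'⟩ := hg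
  exact ⟨fun a u => t a (t' a u), PTF.comp₂ ht PTF.fst ht', fun i u => by
    show t _ (t' _ _) = _
    rw [hs', hs]⟩

/-- a value that does not depend on the unit -/
theorem glob {v : ι → β} {w : α → β} (hw : PTF w) (h : ∀ i, w (raw i) = v i) :
    Tab raw e (fun i _ => v i) := ⟨fun a _ => w a, PTF.comp hw PTF.fst, fun i _ => h i⟩

end Tab

theorem TabT.at {β : Type} [PTCode β] {T : ι → ℕ} {f : ∀ i, ℕ → U i → β}
    (h : TabT raw e T f) {k : ι → ℕ} {kN : α → ℕ} (hk : PTF kN) (hkN : ∀ i, kN (raw i) = k i)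
    (hT : ∀ i, k i ≤ T i) : Tab raw e (fun i u => f i (k i) u) := by
  obtain ⟨t, ht, hs⟩ := h
  refine ⟨fun a u => t a (kN a) u, ?_, fun i u => ?_⟩
  · exact PTF.comp (g := fun p : α × ℕ × ℕ => t p.1 p.2.1 p.2.2) ht
      (PTF.fst.prodMk ((PTF.comp hk PTF.fst).prodMk PTF.snd))
  · show t (raw i) (kN (raw i)) _ = _
    rw [hkN]
    exact hs i _ (hT i) u

namespace TabF
variable {X Y : Type} [Finite X] [Finite Y]

/-- any function of a tabulated value -/
theorem out {f : ∀ i, U i → X} (h : TabF raw e f) {β : Type} [PTCode β] (F : X → β) :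
    Tab raw e (fun i u => F (f i u)) := by
  let := cd X
  exact Tab.map F (h : Tab raw e f)

theorem ofTab [c : PTCode X] {f : ∀ i, U i → X} (h : Tab raw e f) : TabF raw e f := by
  obtain ⟨t, ht, hs⟩ := h
  have h2 : @PTF X X c (cd X) (fun x => x) := @PTF.of_finite X X c (cd X) _ _
  exact ⟨t, @PTF.comp _ _ _ _ _ (cd X) _ _ h2 ht, hs⟩

theorem map {f : ∀ i, U i → X} (h : TabF raw e f) (F : X → Y) :
    TabF raw e (fun i u => F (f i u)) := by
  let := cd Y
  exact h.out F

theorem const (x : X) : TabF raw e (fun _ _ => x) := by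
  let := cd X
  exact (Tab.const x : Tab raw e _)

theorem comp {g : ∀ i, U i → V i} (hg : Mp raw e e' g) {f : ∀ i, V i → X}
    (h : TabF raw e' f) : TabF raw e (fun i u => f i (g i u)) := by
  let := cd X
  exact (Tab.comp hg (h : Tab raw e' f) : Tab raw e _)

theorem pi {κ : Type} [Finite κ] {B : κ → Type} [∀ s, Finite (B s)]
    {f : ∀ s i, U i → B s} (h : ∀ s, TabF raw e (f s)) :
    TabF raw e (fun i u s => f s i u) := by
  let : ∀ s, PTCode (B s) := fun s => cd (B s)
  let : PTCode (∀ s, B s) := cd _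
  choose t ht hs using fun s => (h s : Tab raw e (f s))
  refine ⟨fun a u s => t s a u, ptf_family (v := fun s (p : α × ℕ) => t s p.1 p.2) ht fun x => x,
    fun i u => ?_⟩
  funext s
  exact hs s i u

theorem ap {f : ∀ i, U i → X → Y} {x : ∀ i, U i → X} (hf : TabF raw e f) (hx : TabF raw e x) :
    TabF raw e (fun i u => f i u (x i u)) := by
  let : PTCode X := cd X
  let : PTCode Y := cd Y
  let : PTCode (X → Y) := cd _
  obtain ⟨t, ht, hs⟩ := (hf : Tab raw e f)
  obtain ⟨t', ht', hs'⟩ := (hx : Tab raw e x)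
  exact ⟨fun a u => t a u (t' a u),
    ptf_fin₂ (p := fun p : α × ℕ => t p.1 p.2) (q := fun p : α × ℕ => t' p.1 p.2) ht ht'
      fun f x => f x, fun i u => by
        show t _ _ (t' _ _) = _
        rw [hs, hs']⟩

theorem pair {f : ∀ i, U i → X} {g : ∀ i, U i → Y} (hf : TabF raw e f) (hg : TabF raw e g) :
    TabF raw e (fun i u => (f i u, g i u)) :=
  ((TabF.const (fun x y => (x, y)) : TabF raw e (fun _ _ => (fun (x : X) (y : Y) => (x, y)))).ap
    hf).ap hg

end TabF

/-- choice of finitely many values by a PTF boolean of the instance -/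
theorem TabF.glob {X : Type} [Finite X] {v : ι → X} {β : Type} [Finite β] [PTCode β] {w : α → β}
    (hw : PTF w) (F : β → X) (h : ∀ i, F (w (raw i)) = v i) : TabF raw e (fun i _ => v i) := by
  have h1 : TabF raw e (fun i _ => w (raw i)) := TabF.ofTab (Tab.glob hw fun _ => rfl)
  have h2 := h1.map F
  have h3 : (fun (i : ι) (_ : U i) => F (w (raw i))) = fun i _ => v i := by
    funext i u
    exact h i
  rwa [h3] at h2

/-! ### frames -/

section frames

variable {Gen Pub : Type} {Fr : ι → Frame Gen Pub} {eF : ∀ i, (Fr i).U ≃ Fin (n (raw i))}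

theorem Mp.go (h : ∀ g, Mp raw eF eF (fun i u => (Fr i).act g u)) (w : List Gen) :
    Mp raw eF eF (fun i u => (Fr i).go w u) := by
  induction w with
  | nil => exact Mp.id
  | cons g w ih => exact (h g).comp ih

/-- table of a local map on a tabulated label word -/
theorem TabF.run {Γ Δ : Type} [Finite Γ] [Finite Δ] [Finite Pub]
    (h : ∀ g, Mp raw eF eF (fun i u => (Fr i).act g u))
    (hp : TabF raw eF (fun i u => (Fr i).pub u)) (A : LMap Gen Pub Γ Δ)
    {w : ∀ i, (Fr i).U → Γ} (hw : TabF raw eF w) :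
    TabF raw eF (fun i u => A.run (Fr i) (w i) u) :=
  ((TabF.const (e := eF) A.f).ap (TabF.pi fun j => TabF.comp (Mp.go h (A.adr j)) hw)).ap
    (TabF.pi fun j => TabF.comp (Mp.go h (A.adr j)) hp)

end frames

/-- samples: public data with `d` samples -/
theorem TabF.spub {P : Type} [Finite P] {d : ℕ} {pub : ∀ i, U i → P} {sm : ∀ i, Fin d → U i → U i}
    (hp : TabF raw e pub) (hs : ∀ a, Mp raw e e (fun i u => sm i a u)) :
    TabF raw e (fun i u => Word508.spub (pub i) (sm i) u) :=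
  hp.pair (TabF.pi fun a => TabF.comp (hs a) hp)

/-- samples: slots -/
theorem Mp.snb {κ : Type} {d : ℕ} {nb : ∀ i, κ → U i → U i} {sm : ∀ i, Fin d → U i → U i}
    (hn : ∀ s, Mp raw e e (fun i u => nb i s u)) (hs : ∀ a, Mp raw e e (fun i u => sm i a u))
    (s : κ ⊕ Fin d × κ) : Mp raw e e (fun i u => Word508.snb (nb i) (sm i) s u) := by
  rcases s with s | ⟨a, s⟩
  · exact hn s
  · exact (hs a).comp (hn s)

/-- iterated correction: slots -/
theorem Mp.inb {κ : Type} {nb : ∀ i, κ → U i → U i}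
    (hn : ∀ s, Mp raw e e (fun i u => nb i s u)) :
    ∀ (r : ℕ) (s : ItI r κ), Mp raw e e (fun i u => Word508.inb (nb i) r s u)
  | 0, s => hn s
  | r + 1, s => by
    rcases s with s | ⟨a, s⟩
    · exact Mp.inb hn r s
    · exact (Mp.inb hn r a).comp (Mp.inb hn r s)

/-- iterated correction: public data -/
theorem TabF.ipub {κ P : Type} [Finite κ] [Finite P] {nb : ∀ i, κ → U i → U i}
    {pub : ∀ i, U i → P} (hn : ∀ s, Mp raw e e (fun i u => nb i s u))
    (hp : TabF raw e pub) :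
    ∀ r : ℕ, TabF raw e (fun i u => Word508.ipub (nb i) (pub i) r u)
  | 0 => hp
  | r + 1 => by
    have : Fintype κ := Fintype.ofFinite κ
    exact (TabF.ipub hn hp r).pair
      (TabF.pi fun a => TabF.comp (Mp.inb hn r a) (TabF.ipub hn hp r))

/-! ### bit functions of the family -/

/-- bits of a tabulated function, in the shape of `FamComb715.bitN` -/
theorem TabF.bits {P : Type} [Finite P] {r : ℕ} (enc : P → Fin r → Bool) {pub : ∀ i, U i → P}
    (hp : TabF raw e pub) :
    ∃ pb : α × ℕ × ℕ → Bool, PTF pb ∧ ∀ i (u : U i) (j : Fin r),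
      pb (raw i, ((e i u : Fin _) : ℕ), (j : ℕ)) = enc (pub i u) j := by
  let _ := cd P
  obtain ⟨t, ht, hs⟩ := (hp : Tab raw e pub)
  exact ⟨bitN enc t, ptf_bitN enc ht, fun i u j => by rw [bitN_fin, hs]⟩

/-- neighbour function of finitely many tabulated slots, in the shape of `FamComb715.nbN` -/
theorem Mp.nb {κ : Type} {k : ℕ} (eκ : κ ≃ Fin k) {nb : ∀ i, κ → U i → U i}
    (hn : ∀ s, Mp raw e e (fun i u => nb i s u)) :
    ∃ t : α × ℕ × ℕ → ℕ, PTF t ∧ (∀ i (j : Fin k) (u : U i),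
      t (raw i, (j : ℕ), ((e i u : Fin _) : ℕ)) = (e i (nb i (eκ.symm j) u) : Fin _)) ∧
      ∀ i, ∀ j < k, ∀ u < n (raw i), t (raw i, j, u) < n (raw i) := by
  choose t ht hs using hn
  refine ⟨nbN eκ t, ptf_nbN eκ ht, fun i j u => ?_, fun i => ?_⟩
  · rw [nbN_fin]
    exact hs _ i u
  · exact nbN_lt_of_spec eκ (e i) (fun s u => hs s i u)

end calculus

/-! ### the instance -/

section instance_tables

open DefC

variable {K : Type} [Field K] {c : Cst K} {ι α : Type} [PTCode α]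

instance finiteTD [Finite K] : Finite c.TD := by
  have : Function.Injective (fun x : c.TD =>
      ((x.fst, x.lst, x.D, x.Dm, x.Dp), (x.A, x.B, x.Am, x.Bm))) := by
    rintro ⟨⟩ ⟨⟩ h
    simp only [Prod.mk.injEq] at h
    obtain ⟨⟨h1, h2, h3, h4, h5⟩, h6, h7, h8, h9⟩ := h
    subst h1 h2 h3 h4 h5 h6 h7 h8 h9
    rfl
  exact Finite.of_injective _ this

instance finitePD [Finite K] : Finite c.PD := by
  have : Function.Injective (fun x : c.PD =>
      ((x.b, x.x0, x.one, x.E1, x.E2), (x.D0, x.A0, x.B0, x.tdL))) := by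
    rintro ⟨⟩ ⟨⟩ h
    simp only [Prod.mk.injEq] at h
    obtain ⟨⟨h1, h2, h3, h4, h5⟩, h6, h7, h8, h9⟩ := h
    subst h1 h2 h3 h4 h5 h6 h7 h8 h9
    rfl
  exact Finite.of_injective _ this

/-- the tables of a family of instances -/
structure InsTab [PTCode K] (raw : ι → α) (I : ι → Ins c) (nG nT : α → ℕ)
    (eG : ∀ i, (I i).Γ ≃ Fin (nG (raw i))) (eT : ∀ i, (I i).T ≃ Fin (nT (raw i))) : Prop where
  nG : PTF nG
  nT : PTF nT
  L : ∃ L : α → ℕ, PTF L ∧ ∀ i, L (raw i) = (I i).L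
  act : ∀ g, Mp raw eG eG (fun i x => (I i).act g x)
  acti : ∀ g, Mp raw eG eG (fun i x => ((I i).act g).symm x)
  mv : ∀ j, Mp raw eG eG (fun i x => (I i).mv j x)
  h1 : ∀ j, Mp raw eT eT (fun i x => (I i).h1 j * x)
  h2 : ∀ j, Mp raw eT eT (fun i x => (I i).h2 j * x)
  gam : ∀ j, Mp raw eT eT (fun i x => ((I i).gam j)⁻¹ * x)
  pubP : ∀ b s, Tab raw eG (fun i x => (I i).pubP b (x, s))
  x0 : ∀ r s, Tab raw eG (fun i x => (I i).x0 r (x, s))
  one : ∀ s, Tab raw eT (fun i x => (I i).one (x, s))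
  E1 : ∀ j s, Tab raw eT (fun i x => (I i).E1 j (x, s))
  E2 : ∀ j s, Tab raw eT (fun i x => (I i).E2 j (x, s))
  D : ∀ s, TabT raw eT (fun i => (I i).L + 1) (fun i k x => (I i).D k (x, s))
  A : ∀ q s, TabT raw eT (fun i => (I i).L + 1) (fun i k x => (I i).A k q (x, s))
  B : ∀ q s, TabT raw eT (fun i => (I i).L + 1) (fun i k x => (I i).B k q (x, s))
  A0 : ∀ q s, Tab raw eT (fun i x => (I i).A0 q (x, s))
  B0 : ∀ q s, Tab raw eT (fun i x => (I i).B0 q (x, s))

namespace InsTab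

variable [Finite K] [PTCode K] {raw : ι → α} {I : ι → Ins c} {nG nT : α → ℕ}
  {eG : ∀ i, (I i).Γ ≃ Fin (nG (raw i))} {eT : ∀ i, (I i).T ≃ Fin (nT (raw i))}
  (h : InsTab raw I nG nT eG eT)

include h

/-- the clock data at a time `k i ≤ L` -/
theorem tabF_td {k : ι → ℕ} {kN : α → ℕ} (hk : PTF kN) (hkN : ∀ i, kN (raw i) = k i)
    (hL : ∀ i, k i ≤ (I i).L) : TabF raw eT (fun i τ => (I i).td (k i) τ) := by
  obtain ⟨L, hLp, hLe⟩ := h.L
  have at0 : ∀ {f : ∀ i, ℕ → (I i).T → K}, TabT raw eT (fun i => (I i).L + 1) f →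
      TabF raw eT (fun i u => f i (k i) u) := fun hf =>
    TabF.ofTab (hf.at hk hkN fun i => (hL i).trans (Nat.le_succ _))
  have atp : ∀ {f : ∀ i, ℕ → (I i).T → K}, TabT raw eT (fun i => (I i).L + 1) f →
      TabF raw eT (fun i u => f i (k i + 1) u) := fun hf =>
    TabF.ofTab (hf.at (kN := fun a => kN a + 1) (PTF.natAdd hk (PTF.const 1))
      (fun i => by rw [hkN]) fun i => Nat.succ_le_succ (hL i))
  have atm : ∀ {f : ∀ i, ℕ → (I i).T → K}, TabT raw eT (fun i => (I i).L + 1) f →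
      TabF raw eT (fun i u => f i (k i - 1) u) := fun hf =>
    TabF.ofTab (hf.at (kN := fun a => kN a - 1) (PTF.natSub hk (PTF.const 1))
      (fun i => by rw [hkN]) fun i => by have := hL i; omega)
  have h1 : TabF raw eT (fun i _ => decide (k i = 0)) :=
    TabF.glob (w := fun a => decide (kN a = 0)) (PTPred.natEq hk (PTF.const 0)).toPTF (fun b => b)
      fun i => by rw [hkN]
  have h2 : TabF raw eT (fun i _ => decide (k i = (I i).L)) :=
    TabF.glob (w := fun a => decide (kN a = L a)) (PTPred.natEq hk hLp).toPTF (fun b => b)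
      fun i => by rw [hkN, hLe]
  have h3 : TabF raw eT (fun i (τ : (I i).T) (s' : c.S') => (I i).Dm (k i) (τ, s')) := by
    refine TabF.pi fun s' => ?_
    have h4 := (h1.pair (atm (h.D s'))).map
      (fun p : Bool × K => if p.1 then (0 : K) else p.2)
    have h5 : (fun (i : ι) (u : (I i).T) => if decide (k i = 0) then (0 : K) else
        (I i).D (k i - 1) (u, s')) = fun i u => (I i).Dm (k i) (u, s') := by
      funext i u
      show _ = Level492.Dm (I i).D (k i) (u, s')
      rcases k i with _ | t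
      · simp [Level492.Dm]
      · simp [Level492.Dm]
    exact h5 ▸ h4
  have q1 : TabF raw eT (fun i τ (s' : c.S') => (I i).D (k i) (τ, s')) :=
    TabF.pi fun s => at0 (h.D s)
  have q2 : TabF raw eT (fun i τ (s' : c.S') => (I i).D (k i + 1) (τ, s')) :=
    TabF.pi fun s => atp (h.D s)
  have q3 : TabF raw eT (fun i τ (q : c.C) (s' : c.S') => (I i).A (k i) q (τ, s')) :=
    TabF.pi fun q => TabF.pi fun s => at0 (h.A q s)
  have q4 : TabF raw eT (fun i τ (q : c.C) (s' : c.S') => (I i).B (k i) q (τ, s')) :=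
    TabF.pi fun q => TabF.pi fun s => at0 (h.B q s)
  have q5 : TabF raw eT (fun i τ (q : c.C) (s' : c.S') => (I i).A (k i - 1) q (τ, s')) :=
    TabF.pi fun q => TabF.pi fun s => atm (h.A q s)
  have q6 : TabF raw eT (fun i τ (q : c.C) (s' : c.S') => (I i).B (k i - 1) q (τ, s')) :=
    TabF.pi fun q => TabF.pi fun s => atm (h.B q s)
  have r1 := ((h1.pair h2).pair (q1.pair (h3.pair q2))).pair ((q3.pair q4).pair (q5.pair q6))
  exact r1.map (fun x => (⟨x.1.1.1, x.1.1.2, x.1.2.1, x.1.2.2.1, x.1.2.2.2, x.2.1.1, x.2.1.2,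
    x.2.2.1, x.2.2.2⟩ : c.TD))

/-- the public data -/
theorem tabF_pd : TabF raw (eQ eG eT) (fun i u => (I i).pd u) := by
  have f1 : Mp raw (eQ eG eT) eG (fun _ u => u.1) := Mp.fst h.nT
  have f2 : Mp raw (eQ eG eT) eT (fun _ u => u.2) := Mp.snd h.nT
  obtain ⟨L, hLp, hLe⟩ := h.L
  have hD : ∀ s, TabF raw eT (fun i u => (I i).D 0 (u, s)) := fun s =>
    TabF.ofTab ((h.D s).at (k := fun _ => 0) (kN := fun _ => 0) (PTF.const 0) (fun _ => rfl)
      fun _ => Nat.zero_le _)
  have q1 : TabF raw (eQ eG eT) (fun i u (b : c.A.Pub) (s : c.S) => (I i).pubP b (u.1, s)) :=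
    TabF.pi fun b => TabF.pi fun s => TabF.comp f1 (TabF.ofTab (h.pubP b s))
  have q2 : TabF raw (eQ eG eT) (fun i u (b : c.A.Reg) (s : c.S) => (I i).x0 b (u.1, s)) :=
    TabF.pi fun b => TabF.pi fun s => TabF.comp f1 (TabF.ofTab (h.x0 b s))
  have q3 : TabF raw (eQ eG eT) (fun i u (s : c.S') => (I i).one (u.2, s)) :=
    TabF.pi fun s => TabF.comp f2 (TabF.ofTab (h.one s))
  have q4 : TabF raw (eQ eG eT) (fun i u (j : c.J1) (s : c.S') => (I i).E1 j (u.2, s)) :=
    TabF.pi fun j => TabF.pi fun s => TabF.comp f2 (TabF.ofTab (h.E1 j s))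
  have q5 : TabF raw (eQ eG eT) (fun i u (j : c.J2) (s : c.S') => (I i).E2 j (u.2, s)) :=
    TabF.pi fun j => TabF.pi fun s => TabF.comp f2 (TabF.ofTab (h.E2 j s))
  have q6 : TabF raw (eQ eG eT) (fun i u (s : c.S') => (I i).D 0 (u.2, s)) :=
    TabF.pi fun s => TabF.comp f2 (hD s)
  have q7 : TabF raw (eQ eG eT) (fun i u (q : c.C) (s : c.S') => (I i).A0 q (u.2, s)) :=
    TabF.pi fun q => TabF.pi fun s => TabF.comp f2 (TabF.ofTab (h.A0 q s))
  have q8 : TabF raw (eQ eG eT) (fun i u (q : c.C) (s : c.S') => (I i).B0 q (u.2, s)) :=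
    TabF.pi fun q => TabF.pi fun s => TabF.comp f2 (TabF.ofTab (h.B0 q s))
  have q9 : TabF raw (eQ eG eT) (fun i u => (I i).td (I i).L u.2) :=
    TabF.comp f2 (h.tabF_td hLp hLe fun _ => le_rfl)
  have r1 := (((q1.pair q2).pair (q3.pair q4)).pair ((q5.pair q6).pair (q7.pair q8))).pair q9
  exact r1.map (fun x => (⟨x.1.1.1.1, x.1.1.1.2, x.1.1.2.1, x.1.1.2.2, x.1.2.1.1, x.1.2.1.2,
    x.1.2.2.1, x.1.2.2.2, x.2⟩ : c.PD))

omit [Finite K] in
/-- the moves of the frame -/
theorem mp_frame {Gc Pc : Type} {mc : ∀ i, Gc → (I i).U → (I i).U} {pc : ∀ i, (I i).U → Pc}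
    (hmc : ∀ g, Mp raw (eQ eG eT) (eQ eG eT) (fun i u => mc i g u)) (g : c.Gen Gc) :
    Mp (U := fun i => (I i).U) (V := fun i => (I i).U) raw (eQ eG eT) (eQ eG eT)
      (fun i u => ((I i).frame (mc i) (pc i)).act g u) := by
  cases g with
  | fwd g => exact Mp.onFst h.nT (h.act g)
  | bwd g => exact Mp.onFst h.nT (h.acti g)
  | cas j => exact Mp.onFst h.nT (h.mv j)
  | t1 j => exact Mp.onSnd h.nT (h.h1 j)
  | t2 j => exact Mp.onSnd h.nT (h.h2 j)
  | tm j => exact Mp.onSnd h.nT (h.gam j)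
  | ck g => exact hmc g

/-- the public data of the frame -/
theorem tabF_frame_pub {Gc Pc : Type} [Finite Pc] {mc : ∀ i, Gc → (I i).U → (I i).U}
    {pc : ∀ i, (I i).U → Pc} (hpc : TabF raw (eQ eG eT) (fun i u => pc i u)) :
    TabF (U := fun i => (I i).U) raw (eQ eG eT)
      (fun i u => ((I i).frame (mc i) (pc i)).pub u) :=
  h.tabF_pd.pair hpc

end InsTab

end instance_tables

end Crest.Agent.R289.PubBits92
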