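import Crest.Agent.R289.GkPTF_726
import Crest.Agent.R289.SkewDim_877
import Crest.Agent.R289.Size2_954

/-!
# Row 289, leaf E20 (1): levels and sizes of the factors of the unit set (helper965)

For `Q = (q σ)^3` and even levels `k = 2 * lev Q c e N` the group `P_k = U hσ k 1` has exactly
`Q ^ lev Q c e N` elements.  Size windows, unary computability of the level, of `|P_k|` and of
`|K|^(k+1)` (the hypothesis `hQ` of `GkPTF726`), product bounds in the form of `Fam289`.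
-/

set_option autoImplicit false
set_option linter.unusedSectionVars false

namespace Crest.Agent.R289.FamPT965

open Crest.Agent.Lib.PT Crest.Agent.Lib.PT.Arith Crest.Agent.R289.Size954
open Crest.Agent.R289.SkewGrp877 (q U)
open Crest.Agent.R289.GkPTF726 Crest.Agent.R289.GkIdx594

section lvl

variable {K : Type} [Field K] [Finite K] [Inhabited K] (σ : K →+* K)

/-- growth base of the even levels -/
noncomputable def Qs : ℕ := q σ ^ 3

/-- even level with at least `c * N * (cl N)^e` group elements -/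
noncomputable def lvl (c e N : ℕ) : ℕ := 2 * lev (Qs σ) c e N

variable {σ}

theorem NP_even (hσ : ∀ x, σ (σ x) = x) (h2 : (2 : K) ≠ 0) (hne : ∃ x, σ x ≠ x) (j : ℕ) :
    NP σ (2 * j) = Qs σ ^ j := by
  rw [← card_P hσ, SkewGrp877.card_U_one hσ h2 hne, Qs, ← pow_mul]
  congr 1
  omega

theorem two_le_q : 2 ≤ q σ := by
  unfold q
  have h : Nontrivial {x : K | σ x = x} :=
    ⟨⟨0, map_zero σ⟩, ⟨1, map_one σ⟩, fun h => zero_ne_one (Subtype.ext_iff.1 h)⟩
  have := Finite.one_lt_card (α := {x : K | σ x = x})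
  omega

theorem two_le_Qs : 2 ≤ Qs σ := by
  have h := two_le_q (σ := σ)
  unfold Qs
  calc 2 ≤ q σ := h
    _ = q σ ^ 1 := (pow_one _).symm
    _ ≤ q σ ^ 3 := Nat.pow_le_pow_right (by omega) (by norm_num)

theorem NP_lvl (hσ : ∀ x, σ (σ x) = x) (h2 : (2 : K) ≠ 0) (hne : ∃ x, σ x ≠ x) (c e N : ℕ) :
    NP σ (lvl σ c e N) = Qs σ ^ lev (Qs σ) c e N := NP_even hσ h2 hne _

/-- the group is large enough -/
theorem le_NP_lvl (hσ : ∀ x, σ (σ x) = x) (h2 : (2 : K) ≠ 0) (hne : ∃ x, σ x ≠ x) (c e N : ℕ) :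
    c * N * cl N ^ e ≤ NP σ (lvl σ c e N) := by
  rw [NP_lvl hσ h2 hne]
  exact le_pow_lev two_le_Qs c e N

theorem mul_le_NP_lvl (hσ : ∀ x, σ (σ x) = x) (h2 : (2 : K) ≠ 0) (hne : ∃ x, σ x ≠ x)
    (c e N : ℕ) : c * N ≤ NP σ (lvl σ c e N) :=
  (Nat.le_mul_of_pos_right _ (one_le_cl_pow N e)).trans (le_NP_lvl hσ h2 hne c e N)

theorem one_le_NP_lvl (hσ : ∀ x, σ (σ x) = x) (c e N : ℕ) :
    1 ≤ NP σ (lvl σ c e N) := NP_pos hσ

/-- the level grows only logarithmically -/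
theorem lvl_le (c e N : ℕ) : lvl σ c e N ≤ 2 * (cl c + 2 * e + 4) * cl N := by
  have := lev_le (two_le_Qs (σ := σ)) c e N
  unfold lvl
  calc 2 * lev (Qs σ) c e N ≤ 2 * ((cl c + 2 * e + 4) * cl N) := Nat.mul_le_mul_left _ this
    _ = 2 * (cl c + 2 * e + 4) * cl N := by ring

/-- a lower bound of the argument gives a lower bound of the level -/
theorem le_lvl {c e N m : ℕ} (h : Qs σ ^ m ≤ c * N * cl N ^ e) : 2 * m ≤ lvl σ c e N := by
  have h1 := h.trans (le_pow_lev (two_le_Qs (σ := σ)) c e N)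
  have h2 : m ≤ lev (Qs σ) c e N :=
    (Nat.pow_le_pow_iff_right (by have := two_le_Qs (σ := σ); omega)).1 h1
  unfold lvl
  omega

section growth

variable {α : Type} {f g : α → ℕ}

theorem BL_NP (hσ : ∀ x, σ (σ x) = x) (h2 : (2 : K) ≠ 0) (hne : ∃ x, σ x ≠ x) (c e : ℕ)
    (hf : BL f g) (hg : ∀ a, 1 ≤ g a) : BL (fun a => NP σ (lvl σ c e (f a))) g :=
  (BL_pow_lev two_le_Qs c e hf hg).mono_left fun a => (NP_lvl hσ h2 hne c e (f a)).le

theorem PL_NP (hσ : ∀ x, σ (σ x) = x) (h2 : (2 : K) ≠ 0) (hne : ∃ x, σ x ≠ x) (c e : ℕ)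
    (hf : PL f g) : PL (fun a => NP σ (lvl σ c e (f a))) g :=
  (PL_pow_lev two_le_Qs c e hf).mono_left fun a => (NP_lvl hσ h2 hne c e (f a)).le

theorem PL_lvl (c e : ℕ) (hf : BL f g) : PL (fun a => lvl σ c e (f a)) g :=
  ((PL.const 2 g).mul (PL_lev (two_le_Qs (σ := σ)) c e hf))

end growth

section ptf

variable {α : Type} [PTCode α] {f : α → ℕ}

theorem ptu_lvl (c e : ℕ) (hf : PTF f) : PTU (fun a => lvl σ c e (f a)) :=
  PTU.mul (PTU.const 2) (ptu_lev c e two_le_Qs hf)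

theorem ptf_lvl (c e : ℕ) (hf : PTF f) : PTF (fun a => lvl σ c e (f a)) :=
  (ptu_lvl (σ := σ) c e hf).toPTF

/-- powers of a constant with exponent linear in the level are polynomially bounded -/
theorem PB_pow_lvl (c e : ℕ) (hf : PTU f) (b d r : ℕ) :
    PB (fun a => b ^ (d * lvl σ c e (f a) + r)) := by
  rcases Nat.eq_zero_or_pos b with rfl | hb
  · exact (PB.const 1).mono fun a => by
      rcases Nat.eq_zero_or_pos (d * lvl σ c e (f a) + r) with h | h
      · rw [h, pow_zero]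
      · rw [zero_pow (by omega)]; exact Nat.zero_le _
  · set m := Nat.clog (Qs σ) b with hm
    have hbm : b ≤ Qs σ ^ m := Nat.le_pow_clog (by have := two_le_Qs (σ := σ); omega) _
    have h1 : PB (fun a => (Qs σ ^ lev (Qs σ) c e (f a)) ^ (m * (d * 2)) * b ^ r) :=
      ((PB_pow_lev c e two_le_Qs hf).pow _).mul (PB.const _)
    refine h1.mono fun a => ?_
    rw [pow_add]
    refine Nat.mul_le_mul_right _ ?_
    calc b ^ (d * lvl σ c e (f a)) ≤ (Qs σ ^ m) ^ (d * lvl σ c e (f a)) :=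
          Nat.pow_le_pow_left hbm _
      _ = (Qs σ ^ lev (Qs σ) c e (f a)) ^ (m * (d * 2)) := by
          rw [← pow_mul, ← pow_mul]
          congr 1
          unfold lvl
          ring

theorem ptu_pow_lvl (c e : ℕ) (hf : PTU f) (b d r : ℕ) :
    PTU (fun a => b ^ (d * lvl σ c e (f a) + r)) :=
  ptu_pow_of_pb b (PTU.add (PTU.mul (PTU.const d) (ptu_lvl c e hf.toPTF)) (PTU.const r))
    (PB_pow_lvl c e hf b d r)

/-- the hypothesis `hQ` of `GkPTF726` -/
theorem ptu_qK (c e : ℕ) (hf : PTU f) : PTU (fun a => qK K ^ (lvl σ c e (f a) + 1)) :=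
  (ptu_pow_lvl (σ := σ) c e hf (qK K) 1 1).of_eq fun a => by rw [one_mul]

variable [PTCode K]

theorem ptu_NP_lvl (hσ : ∀ x, σ (σ x) = x) (c e : ℕ) (hf : PTU f) :
    PTU (fun a => NP σ (lvl σ c e (f a))) :=
  ptu_NP hσ (ptu_lvl c e hf.toPTF) (ptu_qK c e hf)

end ptf

end lvl

end Crest.Agent.R289.FamPT965
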