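import Crest.Agent.R289.FamComb_715
import Crest.Agent.R289.FamPT_965
import Crest.Agent.R289.AsmObj_12

/-!
# Row 289, E20_FamPTF part 3: poly-time unit maps and finite-valued poly-time functions of a unit

Instances `i : I` (in the application well formed instances), coded data `raw i : α` (`α = EI`),
families of finite unit sets `U i` with numberings `e i : U i ≃ Fin (m i)`.  All tables are
poly-time functions on all of `α`, their specification is required at the instances only.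

* `PMap raw e f G` : the unit maps `G i : U i → V i` are computed by one poly-time function of numbers.
* `PVal raw e p` : the functions `p i : U i → β` take finitely many values (in all instances
  together) and are computed by one poly-time function; `β` needs no code and no `Fintype`.
* `PEl raw e g` : the numbers of the elements `g i : U i` are poly-time.
* closure: composition, products (numbering `eP`), inverse of a bijection, finite functions, finite
  products, case distinctions; group operations of `Asm12.Obj`.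
* exits: neighbour tables and bit tables in the forms of `Asm_12` and `FamW_970`.
-/

set_option autoImplicit false
set_option linter.dupNamespace false

namespace Crest.Agent.R289.UMap965

open Crest.Agent.Lib.PT Crest.Agent.Lib.PT.Arith Crest.Agent.R289
open Crest.Agent.R289.Tab858 Crest.Agent.R289.YIdx901 Crest.Agent.R289.FamComb715

variable {α I : Type} [PTCode α] {raw : I → α}

/-! ### sizes -/

/-- poly-time sizes -/
def PSz (raw : I → α) (n : I → ℕ) : Prop := ∃ N : α → ℕ, PTF N ∧ ∀ i, N (raw i) = n i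

/-- unary poly-time sizes -/
def PSzU (raw : I → α) (n : I → ℕ) : Prop := ∃ N : α → ℕ, PTU N ∧ ∀ i, N (raw i) = n i

theorem PSzU.psz {n : I → ℕ} (h : PSzU raw n) : PSz raw n := by
  obtain ⟨N, hN, hs⟩ := h
  exact ⟨N, PTU.toPTF hN, hs⟩

theorem PSz.of {N : α → ℕ} (h : PTF N) : PSz raw (fun i => N (raw i)) := ⟨N, h, fun _ => rfl⟩

theorem PSzU.of {N : α → ℕ} (h : PTU N) : PSzU raw (fun i => N (raw i)) := ⟨N, h, fun _ => rfl⟩

theorem PSz.mul {m n : I → ℕ} (hm : PSz raw m) (hn : PSz raw n) :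
    PSz raw (fun i => m i * n i) := by
  obtain ⟨M, hM, hs⟩ := hm
  obtain ⟨N, hN, hs'⟩ := hn
  exact ⟨fun a => M a * N a, PTF.natMul hM hN, fun i => by
    show M (raw i) * N (raw i) = _
    rw [hs, hs']⟩

theorem PSzU.mul {m n : I → ℕ} (hm : PSzU raw m) (hn : PSzU raw n) :
    PSzU raw (fun i => m i * n i) := by
  obtain ⟨M, hM, hs⟩ := hm
  obtain ⟨N, hN, hs'⟩ := hn
  exact ⟨fun a => M a * N a, PTU.mul hM hN, fun i => by
    show M (raw i) * N (raw i) = _
    rw [hs, hs']⟩

/-! ### unit maps -/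

section umap

variable {U V W Z : I → Type} {l m n o : I → ℕ}

/-- poly-time unit maps -/
def PMap (raw : I → α) (e : ∀ i, U i ≃ Fin (m i)) (f : ∀ i, V i ≃ Fin (n i))
    (G : ∀ i, U i → V i) : Prop :=
  ∃ g : α → ℕ → ℕ, PTF₂ g ∧
    ∀ i u, g (raw i) ((e i u : Fin _) : ℕ) = ((f i (G i u) : Fin _) : ℕ)

/-- poly-time elements -/
def PEl (raw : I → α) (e : ∀ i, U i ≃ Fin (m i)) (g : ∀ i, U i) : Prop :=
  ∃ t : α → ℕ, PTF t ∧ ∀ i, t (raw i) = ((e i (g i) : Fin _) : ℕ)

variable {e : ∀ i, U i ≃ Fin (m i)} {f : ∀ i, V i ≃ Fin (n i)}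
  {h : ∀ i, W i ≃ Fin (l i)}

theorem PMap.congr {G H : ∀ i, U i → V i} (hG : PMap raw e f G) (heq : ∀ i u, H i u = G i u) :
    PMap raw e f H := by
  obtain ⟨g, hg, hs⟩ := hG
  exact ⟨g, hg, fun i u => by rw [hs, heq]⟩

variable (e) in
theorem PMap.id : PMap raw e e (fun _ u => u) := ⟨fun _ u => u, PTF.snd, fun _ _ => rfl⟩

theorem PMap.comp {H : ∀ i, V i → W i} {G : ∀ i, U i → V i} (hH : PMap raw f h H)
    (hG : PMap raw e f G) : PMap raw e h (fun i u => H i (G i u)) := by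
  obtain ⟨g, hg, hs⟩ := hG
  obtain ⟨g', hg', hs'⟩ := hH
  exact ⟨fun a u => g' a (g a u), ptf₂_comp hg' hg, fun i u => by
    show g' (raw i) (g (raw i) _) = _
    rw [hs, hs']⟩

theorem PMap.const {v : ∀ i, V i} (hv : PEl raw f v) : PMap raw e f (fun i _ => v i) := by
  obtain ⟨t, ht, hs⟩ := hv
  exact ⟨fun a _ => t a, PTF.comp ht PTF.fst, fun i _ => hs i⟩

theorem PEl.congr {v w : ∀ i, V i} (hv : PEl raw f v) (heq : ∀ i, w i = v i) : PEl raw f w := by
  obtain ⟨t, ht, hs⟩ := hv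
  exact ⟨t, ht, fun i => by rw [hs, heq]⟩

theorem PMap.el {G : ∀ i, U i → V i} (hG : PMap raw e f G) {u : ∀ i, U i} (hu : PEl raw e u) :
    PEl raw f (fun i => G i (u i)) := by
  obtain ⟨g, hg, hs⟩ := hG
  obtain ⟨t, ht, hs'⟩ := hu
  exact ⟨fun a => g a (t a), PTF.comp₂ hg PTF.id ht, fun i => by
    show g (raw i) (t (raw i)) = _
    rw [hs', hs]⟩

/-- numbering of a product -/
def eP' (e : ∀ i, U i ≃ Fin (m i)) (f : ∀ i, V i ≃ Fin (n i)) :
    ∀ i, U i × V i ≃ Fin (m i * n i) := fun i => eP (e i) (f i)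

theorem PMap.fst (hn : PSz raw n) : PMap raw (eP' e f) e (fun _ u => u.1) := by
  obtain ⟨N, hN, hs⟩ := hn
  refine ⟨fun a u => u / N a, PTF.natDiv PTF.snd (PTF.comp hN PTF.fst), fun i u => ?_⟩
  show _ / N (raw i) = _
  rw [hs]
  exact eP_div (e i) (f i) u.1 u.2

theorem PMap.snd (hn : PSz raw n) : PMap raw (eP' e f) f (fun _ u => u.2) := by
  obtain ⟨N, hN, hs⟩ := hn
  refine ⟨fun a u => u % N a, PTF.natMod PTF.snd (PTF.comp hN PTF.fst), fun i u => ?_⟩
  show _ % N (raw i) = _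
  rw [hs]
  exact eP_mod (e i) (f i) u.1 u.2

theorem PMap.prodMk (hn : PSz raw n) {G : ∀ i, W i → U i} {H : ∀ i, W i → V i}
    (hG : PMap raw h e G) (hH : PMap raw h f H) :
    PMap raw h (eP' e f) (fun i w => (G i w, H i w)) := by
  obtain ⟨N, hN, hsN⟩ := hn
  obtain ⟨g, hg, hs⟩ := hG
  obtain ⟨g', hg', hs'⟩ := hH
  refine ⟨fun a w => pI (N a) (g a w) (g' a w),
    ptf_pI (α := α × ℕ) (n := fun p => N p.1) (i := fun p => g p.1 p.2) (j := fun p => g' p.1 p.2)
      (PTF.comp hN PTF.fst) hg hg', fun i w => ?_⟩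
  show pI (N (raw i)) (g (raw i) _) (g' (raw i) _) = _
  rw [hs, hs', hsN]
  exact (eP_val (e i) (f i) _ _).symm

theorem PMap.map (hn : PSz raw n) (ho : PSz raw o) {i : ∀ j, Z j ≃ Fin (o j)}
    {G : ∀ j, U j → W j} {H : ∀ j, V j → Z j} (hG : PMap raw e h G) (hH : PMap raw f i H) :
    PMap raw (eP' e f) (eP' h i) (fun j u => (G j u.1, H j u.2)) :=
  PMap.prodMk ho (hG.comp (PMap.fst hn)) (hH.comp (PMap.snd hn))

/-- first factor -/
theorem PMap.map₁ (hn : PSz raw n) {G : ∀ i, U i → W i} (hG : PMap raw e h G) :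
    PMap raw (eP' e f) (eP' h f) (fun i u => (G i u.1, u.2)) :=
  PMap.prodMk hn (hG.comp (PMap.fst hn)) (PMap.snd hn)

/-- second factor -/
theorem PMap.map₂ (hn : PSz raw n) (hl : PSz raw l) {H : ∀ i, V i → W i} (hH : PMap raw f h H) :
    PMap raw (eP' e f) (eP' e h) (fun i u => (u.1, H i u.2)) :=
  PMap.prodMk hl (PMap.fst hn) (hH.comp (PMap.snd hn))

theorem PEl.prodMk (hn : PSz raw n) {u : ∀ i, U i} {v : ∀ i, V i} (hu : PEl raw e u)
    (hv : PEl raw f v) : PEl raw (eP' e f) (fun i => (u i, v i)) := by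
  obtain ⟨N, hN, hsN⟩ := hn
  obtain ⟨s, hs, hs'⟩ := hu
  obtain ⟨t, ht, ht'⟩ := hv
  refine ⟨fun a => pI (N a) (s a) (t a), ptf_pI hN hs ht, fun i => ?_⟩
  show pI (N (raw i)) (s (raw i)) (t (raw i)) = _
  rw [hs', ht', hsN]
  exact (eP_val (e i) (f i) _ _).symm

/-- bounded inverse -/
theorem PMap.symm (hm : PSzU raw m) {G : ∀ i, U i ≃ V i} (hG : PMap raw e f (fun i => G i)) :
    PMap raw f e (fun i => (G i).symm) := by
  obtain ⟨N, hN, hsN⟩ := hm
  obtain ⟨g, hg, hs⟩ := hG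
  refine ⟨fun a v => ((List.range (N a)).find? fun x => g a x = v).getD 0, ?_, fun i v => ?_⟩
  · have h1 : PTF (fun p : α × ℕ => (List.range (N p.1)).find? fun x => decide (g p.1 x = p.2)) :=
      PTF.find? (PTF.range (PTU.comp hN PTF.fst))
        (PTPred.toPTF (PTPred.eq (PTF.comp₂ hg (PTF.comp PTF.fst PTF.fst) PTF.snd)
          (PTF.comp PTF.snd PTF.fst)))
    exact PTF.optionGetD h1 (PTF.const 0)
  · have hinj : ∀ x < m i, g (raw i) x = ((f i v : Fin _) : ℕ) →
        x = ((e i ((G i).symm v) : Fin _) : ℕ) := by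
      intro x hx hgx
      have h1 := hs i ((e i).symm ⟨x, hx⟩)
      rw [Equiv.apply_symm_apply] at h1
      change g (raw i) x = _ at h1
      rw [hgx] at h1
      have h2 : v = G i ((e i).symm ⟨x, hx⟩) := (f i).injective (Fin.ext h1)
      rw [h2, Equiv.symm_apply_apply, Equiv.apply_symm_apply]
    have hex : g (raw i) ((e i ((G i).symm v) : Fin _) : ℕ) = ((f i v : Fin _) : ℕ) := by
      have := hs i ((G i).symm v)
      simpa using this
    have hmem : ((e i ((G i).symm v) : Fin _) : ℕ) ∈ List.range (m i) :=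
      List.mem_range.2 (e i _).2
    show ((List.range (N (raw i))).find? fun x =>
      decide (g (raw i) x = ((f i v : Fin _) : ℕ))).getD 0 = _
    rw [hsN]
    rcases hfi : (List.range (m i)).find? fun x =>
        decide (g (raw i) x = ((f i v : Fin _) : ℕ)) with _ | y
    · rw [List.find?_eq_none] at hfi
      exact absurd (decide_eq_true hex) (hfi _ hmem)
    · have h1 := List.find?_some hfi
      have h2 := List.mem_of_find?_eq_some hfi
      rw [Option.getD_some]
      exact hinj y (List.mem_range.1 h2) (of_decide_eq_true h1)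

/-- a family of unit maps indexed by a finite type as one table -/
theorem exists_nb {ι : Type} {k : ℕ} (eι : ι ≃ Fin k) {G : ι → ∀ i, U i → U i}
    (hG : ∀ s, PMap raw e e (G s)) :
    ∃ nb : α → ℕ → ℕ → ℕ, (∀ j < k, PTF (fun p : α × ℕ => nb p.1 p.2 j)) ∧
      PTF (fun p : α × ℕ × ℕ => nb p.1 p.2.2 p.2.1) ∧
      (∀ i u s, nb (raw i) ((e i u : Fin _) : ℕ) ((eι s : Fin k) : ℕ) =
        ((e i (G s i u) : Fin _) : ℕ)) ∧
      ∀ i, ∀ j < k, ∀ u < m i, nb (raw i) u j < m i := by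
  choose g hg hs using hG
  have hspec : ∀ i u s, nbN eι g (raw i, ((eι s : Fin k) : ℕ), ((e i u : Fin _) : ℕ)) =
      ((e i (G s i u) : Fin _) : ℕ) := fun i u s => by rw [nbN_apply, hs]
  refine ⟨fun a u i => nbN eι g (a, i, u), fun j hj => ?_, ?_, hspec, fun i j hj u hu => ?_⟩
  · exact PTF.comp (ptf_nbN eι hg) (PTF.fst.prodMk ((PTF.const j).prodMk PTF.snd))
  · exact ptf_nbN eι hg
  · exact nbN_lt_of_spec eι (e i) (G := fun s => G s i) (fun s u => hs s i u) j hj u hu

end umap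

/-! ### finite-valued functions -/

section pval

variable {U V W : I → Type} {l m n : I → ℕ}

/-- finite-valued poly-time functions of a unit -/
def PVal (raw : I → α) (e : ∀ i, U i ≃ Fin (m i)) {β : Type} (p : ∀ i, U i → β) : Prop :=
  ∃ (k : ℕ) (num : α → ℕ → Fin k) (dec : Fin k → β), PTF₂ (fun a u => ((num a u : Fin k) : ℕ)) ∧
    ∀ i u, dec (num (raw i) ((e i u : Fin _) : ℕ)) = p i u

variable {e : ∀ i, U i ≃ Fin (m i)} {f : ∀ i, V i ≃ Fin (n i)} {β γ δ : Type}

theorem PVal.congr {p q : ∀ i, U i → β} (hp : PVal raw e p) (h : ∀ i u, q i u = p i u) :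
    PVal raw e q := by
  obtain ⟨k, num, dec, hn, hd⟩ := hp
  exact ⟨k, num, dec, hn, fun i u => by rw [hd, h]⟩

variable (e) in
theorem PVal.const (b : β) : PVal raw e (fun _ _ => b) :=
  ⟨1, fun _ _ => 0, fun _ => b, PTF.const 0, fun _ _ => rfl⟩

theorem PVal.map (F : β → γ) {p : ∀ i, U i → β} (hp : PVal raw e p) :
    PVal raw e (fun i u => F (p i u)) := by
  obtain ⟨k, num, dec, hn, hd⟩ := hp
  exact ⟨k, num, fun x => F (dec x), hn, fun i u => congrArg F (hd i u)⟩

theorem PVal.prod {p : ∀ i, U i → β} {q : ∀ i, U i → γ} (hp : PVal raw e p)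
    (hq : PVal raw e q) : PVal raw e (fun i u => (p i u, q i u)) := by
  obtain ⟨k, num, dec, hn, hd⟩ := hp
  obtain ⟨k', num', dec', hn', hd'⟩ := hq
  refine ⟨k * k', fun a u => finProdFinEquiv (num a u, num' a u),
    fun x => (dec (finProdFinEquiv.symm x).1, dec' (finProdFinEquiv.symm x).2), ?_,
    fun i u => by simp [hd, hd']⟩
  have h1 : PTF (fun x : α × ℕ => ((num' x.1 x.2 : Fin k') : ℕ) +
      k' * ((num x.1 x.2 : Fin k) : ℕ)) := PTF.natAdd hn' (PTF.natMul (PTF.const k') hn)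
  exact PTF.of_eq h1 fun x => by simp [finProdFinEquiv]

theorem PVal.map₂ (F : β → γ → δ) {p : ∀ i, U i → β} {q : ∀ i, U i → γ} (hp : PVal raw e p)
    (hq : PVal raw e q) : PVal raw e (fun i u => F (p i u) (q i u)) :=
  (hp.prod hq).map fun x => F x.1 x.2

theorem PVal.map₃ {ε : Type} (F : β → γ → δ → ε) {p : ∀ i, U i → β} {q : ∀ i, U i → γ}
    {r : ∀ i, U i → δ} (hp : PVal raw e p) (hq : PVal raw e q) (hr : PVal raw e r) :
    PVal raw e (fun i u => F (p i u) (q i u) (r i u)) :=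
  (hp.prod (hq.prod hr)).map fun x => F x.1 x.2.1 x.2.2

theorem PVal.ite {c : ∀ i, U i → Prop} [∀ i u, Decidable (c i u)] {p q : ∀ i, U i → β}
    (hc : PVal raw e c) (hp : PVal raw e p) (hq : PVal raw e q) :
    PVal raw e (fun i u => if c i u then p i u else q i u) := by
  classical
  refine (PVal.map₃ (fun (x : Prop) y z => if x then y else z) hc hp hq).congr fun i u => ?_
  by_cases hcu : c i u <;> simp [hcu]

open Classical in
theorem PVal.decide {c : ∀ i, U i → Prop} (hc : PVal raw e c) :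
    PVal raw e (fun i u => Decidable.decide (c i u)) := hc.map fun x => Decidable.decide x

private theorem PVal.piFin : ∀ (N : ℕ) {β : Fin N → Type} {p : ∀ j, ∀ i, U i → β j},
    (∀ j, PVal raw e (p j)) → PVal raw e (fun i u j => p j i u)
  | 0, β, p, _ => (PVal.const e (fun j : Fin 0 => j.elim0)).congr fun i u => by
      funext j
      exact j.elim0
  | N + 1, β, p, hp => by
      have h1 := PVal.piFin N (β := fun j => β j.succ) (p := fun j => p j.succ)
        fun j => hp j.succ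
      refine (((hp 0).prod h1).map fun x => (Fin.cons x.1 x.2 : ∀ j, β j)).congr fun i u => ?_
      funext j
      refine Fin.cases ?_ (fun j => ?_) j
      · rfl
      · rfl

theorem PVal.pi {J : Type} [Finite J] {β : J → Type} {p : ∀ j, ∀ i, U i → β j}
    (hp : ∀ j, PVal raw e (p j)) : PVal raw e (fun i u j => p j i u) := by
  obtain ⟨N, ⟨E⟩⟩ := Finite.exists_equiv_fin J
  have h1 := PVal.piFin (e := e) N (β := fun i => β (E.symm i)) (p := fun i => p (E.symm i))
    fun i => hp _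
  refine (h1.map (Equiv.piCongrLeft' β E).symm).congr fun i u => ?_
  rw [eq_comm, Equiv.symm_apply_eq]
  rfl

/-- case distinction over a finite value -/
theorem PVal.bind [Finite γ] {c : ∀ i, U i → γ} {H : γ → ∀ i, U i → β} (hc : PVal raw e c)
    (hH : ∀ x, PVal raw e (H x)) : PVal raw e (fun i u => H (c i u) i u) :=
  (hc.prod (PVal.pi hH)).map fun x => x.2 x.1

theorem PVal.comp {p : ∀ i, V i → β} (hp : PVal raw f p) {G : ∀ i, U i → V i}
    (hG : PMap raw e f G) : PVal raw e (fun i u => p i (G i u)) := by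
  obtain ⟨k, num, dec, hn, hd⟩ := hp
  obtain ⟨g, hg, hs⟩ := hG
  refine ⟨k, fun a u => num a (g a u), dec, ptf₂_comp (g := fun a u => ((num a u : Fin k) : ℕ)) hn hg,
    fun i u => ?_⟩
  show dec (num (raw i) (g (raw i) _)) = _
  rw [hs, hd]

/-- values in a finite coded type -/
theorem PVal.of_ptf [Finite β] [PTCode β] {p : ∀ i, U i → β} {g : α → ℕ → β} (hg : PTF₂ g)
    (h : ∀ i u, g (raw i) ((e i u : Fin _) : ℕ) = p i u) : PVal raw e p := by
  obtain ⟨N, ⟨E⟩⟩ := Finite.exists_equiv_fin β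
  refine ⟨N, fun a u => E (g a u), E.symm, ?_, fun i u => by rw [Equiv.symm_apply_apply, h]⟩
  exact PTF.comp (g := fun b : β => ((E b : Fin N) : ℕ)) (PTF.of_finite _) hg

/-- bounded numbers -/
theorem PVal.of_num {k : ℕ} {p : ∀ i, U i → ℕ} {g : α → ℕ → ℕ} (hg : PTF₂ g)
    (hk : ∀ i u, p i u < k) (h : ∀ i u, g (raw i) ((e i u : Fin _) : ℕ) = p i u) :
    PVal raw e p := by
  refine ⟨k + 1, fun a u => ⟨min (g a u) k, by omega⟩, fun x => x, PTF.natMin hg (PTF.const k),
    fun i u => ?_⟩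
  show min (g (raw i) _) k = _
  rw [h, min_eq_left (hk i u).le]

theorem PVal.prop {p : ∀ i, U i → Prop} {g : α → ℕ → Bool} (hg : PTF₂ g)
    (h : ∀ i u, g (raw i) ((e i u : Fin _) : ℕ) = true ↔ p i u) : PVal raw e p := by
  refine ((PVal.of_ptf (raw := raw) (e := e) (p := fun i u => g (raw i) ((e i u : Fin _) : ℕ)) hg
    fun _ _ => rfl).map fun b => b = true).congr fun i u => ?_
  exact propext (h i u).symm

/-- equality of units -/
theorem PVal.eq {G H : ∀ i, U i → V i} (hG : PMap raw e f G) (hH : PMap raw e f H) :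
    PVal raw e (fun i u => G i u = H i u) := by
  obtain ⟨g, hg, hs⟩ := hG
  obtain ⟨g', hg', hs'⟩ := hH
  refine PVal.prop (g := fun a u => Decidable.decide (g a u = g' a u))
    (PTPred.toPTF (PTPred.eq hg hg')) fun i u => ?_
  rw [decide_eq_true_iff, hs, hs']
  exact ⟨fun h => (f i).injective (Fin.ext h), fun h => by rw [h]⟩

/-- functions of the instance alone -/
theorem PVal.inst [Finite β] [PTCode β] {p : I → β} {t : α → β} (ht : PTF t)
    (h : ∀ i, t (raw i) = p i) : PVal raw e (fun i _ => p i) :=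
  PVal.of_ptf (g := fun a _ => t a) (PTF.comp ht PTF.fst) fun i _ => h i

/-- exit: coded values -/
theorem PVal.ptf [PTCode β] {p : ∀ i, U i → β} (hp : PVal raw e p) :
    ∃ g : α → ℕ → β, PTF₂ g ∧ ∀ i u, g (raw i) ((e i u : Fin _) : ℕ) = p i u := by
  obtain ⟨k, num, dec, hn, hd⟩ := hp
  refine ⟨fun a u => dec (num a u), ?_, hd⟩
  exact ptf_caseNum (α := α × ℕ) (Equiv.refl (Fin k)) (p := fun x => num x.1 x.2)
    (num := fun x => ((num x.1 x.2 : Fin k) : ℕ)) (f := fun y _ => dec y)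
    (fun y => PTF.const _) hn fun _ => rfl

/-- exit: lists of bits (form of `FamW_970`) -/
theorem PVal.bits {r : ℕ} {p : ∀ i, U i → β} (hp : PVal raw e p) (enc : β → Fin r → Bool) :
    ∃ pb : α → ℕ → List Bool, PTF (fun x : α × ℕ => pb x.1 x.2) ∧
      ∀ i u, ∀ j : Fin r, (pb (raw i) ((e i u : Fin _) : ℕ)).getD j false = enc (p i u) j := by
  obtain ⟨g, hg, hs⟩ := (hp.map fun b => List.ofFn (enc b)).ptf
  refine ⟨g, hg, fun i u j => ?_⟩
  rw [hs]
  simp [List.getD_eq_getElem?_getD]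

/-- exit: bit tables (form of `Asm_12`) -/
theorem PVal.bitTab {r : ℕ} {p : ∀ i, U i → β} (hp : PVal raw e p) (enc : β → Fin r → Bool) :
    ∃ pb : α × ℕ × ℕ → Bool, PTF pb ∧
      ∀ i u, ∀ j : Fin r, pb (raw i, ((e i u : Fin _) : ℕ), (j : ℕ)) = enc (p i u) j := by
  obtain ⟨k, num, dec, hn, hd⟩ := hp
  refine ⟨bitN (fun x => enc (dec x)) num, ptf_bitN_num (Equiv.refl (Fin k)) _ hn fun _ _ => rfl,
    fun i u j => ?_⟩
  rw [bitN_fin, hd]

end pval

/-! ### slots of corrected codes -/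

section slots

variable {U : I → Type} {m : I → ℕ} {e : ∀ i, U i ≃ Fin (m i)}

/-- finite words of moves -/
theorem PMap.foldr {ι : Type} {G : ι → ∀ i, U i → U i} (hG : ∀ s, PMap raw e e (G s))
    (w : List ι) : PMap raw e e (fun i u => w.foldr (fun s v => G s i v) u) := by
  induction w with
  | nil => exact PMap.id e
  | cons s w ih => exact (hG s).comp ih

theorem PMap.foldl {ι : Type} {G : ι → ∀ i, U i → U i} (hG : ∀ s, PMap raw e e (G s))
    (w : List ι) : PMap raw e e (fun i u => w.foldl (fun v s => G s i v) u) := by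
  induction w using List.reverseRecOn with
  | nil => exact PMap.id e
  | append_singleton w s ih =>
    refine ((hG s).comp ih).congr fun i u => ?_
    rw [List.foldl_append]
    rfl

theorem PMap.iterate {G : ∀ i, U i → U i} (hG : PMap raw e e G) (N : ℕ) :
    PMap raw e e (fun i u => (G i)^[N] u) := by
  induction N with
  | zero => exact PMap.id e
  | succ N ih => exact ih.comp hG

/-- slots `none` = the unit itself -/
theorem PMap.option {ι : Type} {G : Option ι → ∀ i, U i → U i} (h0 : ∀ i u, G none i u = u)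
    (hG : ∀ s, PMap raw e e (G (some s))) (s : Option ι) : PMap raw e e (G s) := by
  cases s with
  | none => exact (PMap.id e).congr h0
  | some s => exact hG s

theorem PMap.sum {ι κ : Type} {G : ι ⊕ κ → ∀ i, U i → U i}
    (h1 : ∀ s, PMap raw e e (G (Sum.inl s))) (h2 : ∀ s, PMap raw e e (G (Sum.inr s)))
    (s : ι ⊕ κ) : PMap raw e e (G s) := by
  cases s with
  | inl s => exact h1 s
  | inr s => exact h2 s

end slots

/-! ### the groups of `Asm12.Obj` -/

section obj

open Crest.Agent.R289.Asm12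

variable {D : Obj} {M0 : ℕ} {lam0 Kr : ℝ} {k : α → ℕ} {U : I → Type} {m : I → ℕ}
  {e : ∀ i, U i ≃ Fin (m i)}

/-- numbering of the groups of level `k (raw i)` -/
def eO (D : Obj) (raw : I → α) (k : α → ℕ) :
    ∀ i, D.P (k (raw i)) ≃ Fin (D.Q ^ k (raw i)) := fun i => D.ix (k (raw i))

theorem PMap.mulO (hD : D.OK M0 lam0 Kr) (hk : PTU k) (hQ : PTU fun a => D.Q ^ k a)
    {G H : ∀ i, U i → D.P (k (raw i))} (hG : PMap raw e (eO D raw k) G)
    (hH : PMap raw e (eO D raw k) H) :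
    PMap raw e (eO D raw k) (fun i u => G i u * H i u) := by
  obtain ⟨g, hg, hs⟩ := hG
  obtain ⟨g', hg', hs'⟩ := hH
  refine ⟨fun a u => D.mulN (Un.mk (k a), g a u, g' a u),
    hD.ptf_mul (fun x : α × ℕ => k x.1) (fun x => g x.1 x.2) (fun x => g' x.1 x.2)
      (PTU.comp hk PTF.fst) (PTU.comp (n := fun a => D.Q ^ k a) hQ PTF.fst) hg hg',
    fun i u => ?_⟩
  show D.mulN (Un.mk (k (raw i)), g (raw i) _, g' (raw i) _) = _
  rw [hs, hs']
  exact hD.mul_eq (k (raw i)) _ _

theorem PMap.invO (hD : D.OK M0 lam0 Kr) (hk : PTU k) (hQ : PTU fun a => D.Q ^ k a)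
    {G : ∀ i, U i → D.P (k (raw i))} (hG : PMap raw e (eO D raw k) G) :
    PMap raw e (eO D raw k) (fun i u => (G i u)⁻¹) := by
  obtain ⟨g, hg, hs⟩ := hG
  refine ⟨fun a u => D.invN (Un.mk (k a), g a u),
    hD.ptf_inv (fun x : α × ℕ => k x.1) (fun x => g x.1 x.2)
      (PTU.comp hk PTF.fst) (PTU.comp (n := fun a => D.Q ^ k a) hQ PTF.fst) hg, fun i u => ?_⟩
  show D.invN (Un.mk (k (raw i)), g (raw i) _) = _
  rw [hs]
  exact hD.inv_eq (k (raw i)) _

theorem PEl.mulO (hD : D.OK M0 lam0 Kr) (hk : PTU k) (hQ : PTU fun a => D.Q ^ k a)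
    {g h : ∀ i, D.P (k (raw i))} (hg : PEl raw (eO D raw k) g) (hh : PEl raw (eO D raw k) h) :
    PEl raw (eO D raw k) (fun i => g i * h i) := by
  obtain ⟨s, hs, hs'⟩ := hg
  obtain ⟨t, ht, ht'⟩ := hh
  refine ⟨fun a => D.mulN (Un.mk (k a), s a, t a), hD.ptf_mul k s t hk hQ hs ht, fun i => ?_⟩
  show D.mulN (Un.mk (k (raw i)), s (raw i), t (raw i)) = _
  rw [hs', ht']
  exact hD.mul_eq (k (raw i)) _ _

theorem PEl.invO (hD : D.OK M0 lam0 Kr) (hk : PTU k) (hQ : PTU fun a => D.Q ^ k a)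
    {g : ∀ i, D.P (k (raw i))} (hg : PEl raw (eO D raw k) g) :
    PEl raw (eO D raw k) (fun i => (g i)⁻¹) := by
  obtain ⟨s, hs, hs'⟩ := hg
  refine ⟨fun a => D.invN (Un.mk (k a), s a), hD.ptf_inv k s hk hQ hs, fun i => ?_⟩
  show D.invN (Un.mk (k (raw i)), s (raw i)) = _
  rw [hs']
  exact hD.inv_eq (k (raw i)) _

theorem PEl.aO (hD : D.OK M0 lam0 Kr) (hk : PTU k) (hQ : PTU fun a => D.Q ^ k a)
    (z : Option D.K) : PEl raw (eO D raw k) (fun i => (D.tp (k (raw i))).a z) :=
  ⟨fun a => D.aN z (Un.mk (k a)), hD.ptf_a z k hk hQ, fun i => hD.aN_eq z (k (raw i))⟩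

theorem PEl.bO (hD : D.OK M0 lam0 Kr) (hk : PTU k) (hQ : PTU fun a => D.Q ^ k a)
    (z : Option D.K) : PEl raw (eO D raw k) (fun i => (D.tp (k (raw i))).b z) :=
  ⟨fun a => D.bN z (Un.mk (k a)), hD.ptf_b z k hk hQ, fun i => hD.bN_eq z (k (raw i))⟩

theorem PEl.oneO (hD : D.OK M0 lam0 Kr) (hk : PTU k) (hQ : PTU fun a => D.Q ^ k a) :
    PEl raw (eO D raw k) (fun i => (1 : D.P (k (raw i)))) :=
  (PEl.mulO hD hk hQ (PEl.aO hD hk hQ none) (PEl.invO hD hk hQ (PEl.aO hD hk hQ none))).congr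
    fun i => by simp

theorem PEl.prodO (hD : D.OK M0 lam0 Kr) (hk : PTU k) (hQ : PTU fun a => D.Q ^ k a) {ι : Type}
    {g : ι → ∀ i, D.P (k (raw i))} (hg : ∀ s, PEl raw (eO D raw k) (g s)) (w : List ι) :
    PEl raw (eO D raw k) (fun i => (w.map fun s => g s i).prod) := by
  induction w with
  | nil => simpa using PEl.oneO hD hk hQ
  | cons s w ih => simpa using PEl.mulO hD hk hQ (hg s) ih

/-- left multiplication -/
theorem PMap.leftO (hD : D.OK M0 lam0 Kr) (hk : PTU k) (hQ : PTU fun a => D.Q ^ k a)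
    {g : ∀ i, D.P (k (raw i))} (hg : PEl raw (eO D raw k) g) :
    PMap raw (eO D raw k) (eO D raw k) (fun i u => g i * u) :=
  PMap.mulO hD hk hQ (PMap.const hg) (PMap.id _)

/-- right multiplication -/
theorem PMap.rightO (hD : D.OK M0 lam0 Kr) (hk : PTU k) (hQ : PTU fun a => D.Q ^ k a)
    {g : ∀ i, D.P (k (raw i))} (hg : PEl raw (eO D raw k) g) :
    PMap raw (eO D raw k) (eO D raw k) (fun i u => u * g i) :=
  PMap.mulO hD hk hQ (PMap.id _) (PMap.const hg)

/-- signed letters of one factor: `inl z = a z`, `inr w = b w`, `false` = inverse -/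
def letO (D : Obj) (k : ℕ) (s : (Option D.K ⊕ Option D.K) × Bool) : D.P k :=
  let g : D.P k := Sum.elim (D.tp k).a (D.tp k).b s.1
  if s.2 then g else g⁻¹

/-- value of a word in signed letters -/
def wordO (D : Obj) (k : ℕ) (w : List ((Option D.K ⊕ Option D.K) × Bool)) : D.P k :=
  (w.map (letO D k)).prod

theorem PEl.letO (hD : D.OK M0 lam0 Kr) (hk : PTU k) (hQ : PTU fun a => D.Q ^ k a)
    (s : (Option D.K ⊕ Option D.K) × Bool) :
    PEl raw (eO D raw k) (fun i => letO D (k (raw i)) s) := by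
  obtain ⟨z, b⟩ := s
  cases z with
  | inl z => cases b with
    | true => exact PEl.aO hD hk hQ z
    | false => exact PEl.invO hD hk hQ (PEl.aO hD hk hQ z)
  | inr z => cases b with
    | true => exact PEl.bO hD hk hQ z
    | false => exact PEl.invO hD hk hQ (PEl.bO hD hk hQ z)

theorem PEl.wordO (hD : D.OK M0 lam0 Kr) (hk : PTU k) (hQ : PTU fun a => D.Q ^ k a)
    (w : List ((Option D.K ⊕ Option D.K) × Bool)) :
    PEl raw (eO D raw k) (fun i => wordO D (k (raw i)) w) :=
  PEl.prodO hD hk hQ (g := fun s i => UMap965.letO D (k (raw i)) s) (fun s => PEl.letO hD hk hQ s) w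

/-! products of two groups -/

variable {k' : α → ℕ}

theorem PMap.mulO₂ (hD : D.OK M0 lam0 Kr) (hk : PTU k) (hQ : PTU fun a => D.Q ^ k a)
    (hk' : PTU k') (hQ' : PTU fun a => D.Q ^ k' a)
    {G H : ∀ i, U i → D.P (k (raw i)) × D.P (k' (raw i))}
    (hG : PMap raw e (eP' (eO D raw k) (eO D raw k')) G)
    (hH : PMap raw e (eP' (eO D raw k) (eO D raw k')) H) :
    PMap raw e (eP' (eO D raw k) (eO D raw k')) (fun i u => G i u * H i u) := by
  have hn : PSz raw (fun i => D.Q ^ k' (raw i)) := PSz.of (PTU.toPTF hQ')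
  exact PMap.prodMk hn
    (PMap.mulO hD hk hQ ((PMap.fst hn).comp hG) ((PMap.fst hn).comp hH))
    (PMap.mulO hD hk' hQ' ((PMap.snd hn).comp hG) ((PMap.snd hn).comp hH))

theorem PMap.invO₂ (hD : D.OK M0 lam0 Kr) (hk : PTU k) (hQ : PTU fun a => D.Q ^ k a)
    (hk' : PTU k') (hQ' : PTU fun a => D.Q ^ k' a)
    {G : ∀ i, U i → D.P (k (raw i)) × D.P (k' (raw i))}
    (hG : PMap raw e (eP' (eO D raw k) (eO D raw k')) G) :
    PMap raw e (eP' (eO D raw k) (eO D raw k')) (fun i u => (G i u)⁻¹) := by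
  have hn : PSz raw (fun i => D.Q ^ k' (raw i)) := PSz.of (PTU.toPTF hQ')
  exact PMap.prodMk hn (PMap.invO hD hk hQ ((PMap.fst hn).comp hG))
    (PMap.invO hD hk' hQ' ((PMap.snd hn).comp hG))

end obj

end Crest.Agent.R289.UMap965
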