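import Crest.Agent.R289.ClockPT3_484
import Crest.Agent.R289.ClkMcPT_766
import Crest.Agent.R289.UMap_965
import Crest.Agent.R289.PubBits_92

/-!
# Row 289: `PMap`s of the clock (helper698)

Family of instances `i : I`, `raw i : α`, sizes `s i : Siz p (n i)` with unary poly-time exponents
(`FS raw s`).

* **`pmap_nbU`** : every slot of the clock register `ClockE698.nbU` in the numbering `ixU`;
* `InsTab.pull`, **`exists_td`** : table of the clock data `(t, τ) ↦ I.td t τ` from `InsTab`;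
* **`pmap_mc`** : every clock move `ClkTD766.mc`.
-/

set_option autoImplicit false
set_option linter.unusedSectionVars false
set_option linter.dupNamespace false

namespace Crest.Agent.R289.ClockTab698

open Crest.Agent.Lib.PT Crest.Agent.Lib.PT.Arith
open YIdx901 GkIdx594 ClockPT484 ClockU698 ClockE698 UMap965 PubBits92

/-! ### sizes -/

section sizes

variable {α I : Type} [PTCode α] {raw : I → α} {p : ℕ} {n : I → ℕ}

/-- unary poly-time exponents of the sizes -/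
structure FS (raw : I → α) (s : ∀ i, Siz p (n i)) : Prop where
  n : PSzU raw n
  a : PSzU raw (fun i => (s i).a)
  b : PSzU raw (fun i => (s i).b)
  t : PSzU raw (fun i => (s i).t)

variable {s : ∀ i, Siz p (n i)}

theorem FS.rho (h : FS raw s) : PSz raw (fun i => (s i).rho) := by
  obtain ⟨fn, hn, sn⟩ := h.n
  obtain ⟨fa, ha, sa⟩ := h.a
  obtain ⟨fb, hb, sb⟩ := h.b
  obtain ⟨ft, ht, st⟩ := h.t
  refine ⟨fun x => rhoN p (fn x) (fa x) (fb x) (ft x), ptf_rhoN p hn ha hb ht, fun i => ?_⟩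
  show rhoN p (fn (raw i)) (fa (raw i)) (fb (raw i)) (ft (raw i)) = _
  rw [sn, sa, sb, st]
  exact (rho_eq (s i)).symm

theorem FS.N (h : FS raw s) : PSz raw (fun i => (s i).N) := by
  obtain ⟨fn, hn, sn⟩ := h.n
  obtain ⟨fa, ha, sa⟩ := h.a
  obtain ⟨fb, hb, sb⟩ := h.b
  obtain ⟨ft, ht, st⟩ := h.t
  refine ⟨fun x => sideN p (fn x) (fa x) (fb x) (ft x), ptf_sideN p hn ha hb ht, fun i => ?_⟩
  show sideN p (fn (raw i)) (fa (raw i)) (fb (raw i)) (ft (raw i)) = _
  rw [sn, sa, sb, st]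
  exact (side_eq (s i)).symm

theorem FS.c (h : FS raw s) : PSz raw (fun i => (s i).c) := by
  obtain ⟨fn, hn, sn⟩ := h.n
  obtain ⟨fa, ha, sa⟩ := h.a
  obtain ⟨fb, hb, sb⟩ := h.b
  obtain ⟨ft, ht, st⟩ := h.t
  refine ⟨fun x => facN p (fn x) (fa x) (fb x) (ft x), ptf_facN p hn ha hb ht, fun i => ?_⟩
  show facN p (fn (raw i)) (fa (raw i)) (fb (raw i)) (ft (raw i)) = _
  rw [sn, sa, sb, st]
  exact (fac_eq (s i)).symm

end sizes

/-! ### the slots of the register -/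

section slots

variable {α I : Type} [PTCode α] {raw : I → α} {p : ℕ} [Fact p.Prime] {n : I → ℕ}
  {s : ∀ i, Siz p (n i)} {P R T : I → Type} [∀ i, Fintype (P i)] [∀ i, Fintype (R i)]
  [∀ i, Fintype (T i)] (iP : ∀ i, P i ≃ Fin (s i).nP) (iR : ∀ i, R i ≃ Fin (s i).nR)
  (iT : ∀ i, T i ≃ Fin (s i).nT)

/-- **the slots of the clock register** -/
theorem pmap_nbU (hs : FS raw s) (q : Clock425.Slot (SJ p)) :
    PMap raw (fun i => ixU (s i) (iP i) (iR i) (iT i)) (fun i => ixU (s i) (iP i) (iR i) (iT i))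
      (fun i => nbU (s i) (iP i) (iR i) (iT i) q) := by
  let := ptcZ p
  obtain ⟨fn, hn, sn⟩ := hs.n
  obtain ⟨fr, hr, sr⟩ := hs.rho
  obtain ⟨fN, hN, sN⟩ := hs.N
  obtain ⟨fc, hc, sc⟩ := hs.c
  refine ⟨fun x w => slotN p (fn x) (fr x) (fN x) (fc x) q w,
    ptf_slotN q (PTU.comp hn PTF.fst) (PTF.comp hr PTF.fst) (PTF.comp hN PTF.fst)
      (PTF.comp hc PTF.fst) PTF.snd, fun i u => ?_⟩
  show slotN p (fn (raw i)) (fr (raw i)) (fN (raw i)) (fc (raw i)) q _ = _
  rw [sn, sr, sN, sc]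
  exact slotN_spec (s i) (iP i) (iR i) (iT i) q u

end slots

/-! ### the table of the clock data -/

section td

variable {K : Type} [Field K] {c : DefI.Cst K} {α ι κ : Type} [PTCode α] [Finite K] [PTCode K]
  {raw : ι → α} {I : ι → DefI.Ins c} {nG nT : α → ℕ}
  {eG : ∀ i, (I i).Γ ≃ Fin (nG (raw i))} {eT : ∀ i, (I i).T ≃ Fin (nT (raw i))}

/-- the same family with an additional parameter -/
theorem insTab_pull (h : InsTab raw I nG nT eG eT) (f : κ → ι) (g : κ → ℕ) :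
    InsTab (ι := κ) (α := α × ℕ) (fun j => (raw (f j), g j)) (fun j => I (f j))
      (fun x => nG x.1) (fun x => nT x.1) (fun j => eG (f j)) (fun j => eT (f j)) := by
  have mp : ∀ {U V : ι → Type} {n m : α → ℕ} {e : ∀ i, U i ≃ Fin (n (raw i))}
      {e' : ∀ i, V i ≃ Fin (m (raw i))} {g' : ∀ i, U i → V i}, Mp raw e e' g' →
      Mp (ι := κ) (α := α × ℕ) (fun j => (raw (f j), g j)) (n := fun x => n x.1)
        (m := fun x => m x.1) (fun j => e (f j)) (fun j => e' (f j)) (fun j => g' (f j)) := by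
    rintro U V n m e e' g' ⟨t, ht, hs⟩
    exact ⟨fun x w => t x.1 w, PTF.comp₂ ht (PTF.comp PTF.fst PTF.fst) PTF.snd,
      fun j u => hs (f j) u⟩
  have tb : ∀ {β : Type} [PTCode β] {U : ι → Type} {n : α → ℕ} {e : ∀ i, U i ≃ Fin (n (raw i))}
      {g' : ∀ i, U i → β}, Tab raw e g' →
      Tab (ι := κ) (α := α × ℕ) (fun j => (raw (f j), g j)) (n := fun x => n x.1)
        (fun j => e (f j)) (fun j => g' (f j)) := by
    rintro β _ U n e g' ⟨t, ht, hs⟩
    exact ⟨fun x w => t x.1 w, PTF.comp₂ ht (PTF.comp PTF.fst PTF.fst) PTF.snd,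
      fun j u => hs (f j) u⟩
  have tt : ∀ {β : Type} [PTCode β] {U : ι → Type} {n : α → ℕ} {e : ∀ i, U i ≃ Fin (n (raw i))}
      {T : ι → ℕ} {g' : ∀ i, ℕ → U i → β}, TabT raw e T g' →
      TabT (ι := κ) (α := α × ℕ) (fun j => (raw (f j), g j)) (n := fun x => n x.1)
        (fun j => e (f j)) (fun j => T (f j)) (fun j => g' (f j)) := by
    rintro β _ U n e T g' ⟨t, ht, hs⟩
    refine ⟨fun x k w => t x.1 k w, ?_, fun j k hk u => hs (f j) k hk u⟩
    exact PTF.comp (g := fun q : α × ℕ × ℕ => t q.1 q.2.1 q.2.2)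
      (f := fun q : (α × ℕ) × ℕ × ℕ => (q.1.1, q.2)) ht
      (PTF.prodMk (PTF.comp PTF.fst PTF.fst) PTF.snd)
  obtain ⟨L, hL, hLe⟩ := h.L
  exact {
    nG := PTF.comp h.nG PTF.fst
    nT := PTF.comp h.nT PTF.fst
    L := ⟨fun x => L x.1, PTF.comp hL PTF.fst, fun j => hLe (f j)⟩
    act := fun g => mp (h.act g)
    acti := fun g => mp (h.acti g)
    mv := fun j => mp (h.mv j)
    h1 := fun j => mp (h.h1 j)
    h2 := fun j => mp (h.h2 j)
    gam := fun j => mp (h.gam j)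
    pubP := fun b s => tb (h.pubP b s)
    x0 := fun r s => tb (h.x0 r s)
    one := fun s => tb (h.one s)
    E1 := fun j s => tb (h.E1 j s)
    E2 := fun j s => tb (h.E2 j s)
    D := fun s => tt (h.D s)
    A := fun q s => tt (h.A q s)
    B := fun q s => tt (h.B q s)
    A0 := fun q s => tb (h.A0 q s)
    B0 := fun q s => tb (h.B0 q s) }

/-- **table of the clock data**, all times `t ≤ L` at once -/
theorem exists_td (h : InsTab raw I nG nT eG eT) (b : c.TD) :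
    ∃ B : α → ℕ → ℕ → Bool, PTF (fun q : α × ℕ × ℕ => B q.1 q.2.1 q.2.2) ∧
      ∀ i t, t ≤ (I i).L → ∀ τ : (I i).T,
        (B (raw i) t ((eT i τ : Fin _) : ℕ) = true ↔ (I i).td t τ = b) := by
  classical
  have h1 := insTab_pull h (κ := {j : ι × ℕ // j.2 ≤ (I j.1).L}) (fun j => j.1.1) (fun j => j.1.2)
  have h2 := h1.tabF_td (k := fun j => j.1.2) (kN := fun x => x.2) PTF.snd (fun _ => rfl)
    (fun j => j.2)
  obtain ⟨g, hg, hgs⟩ := h2.out (fun x => decide (x = b))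
  refine ⟨fun x t w => g (x, t) w, ?_, fun i t ht τ => ?_⟩
  · exact PTF.comp₂ hg (PTF.prodMk PTF.fst (PTF.comp PTF.fst PTF.snd)) (PTF.comp PTF.snd PTF.snd)
  · have h3 := hgs ⟨(i, t), ht⟩ τ
    show g (raw i, t) _ = true ↔ _
    rw [h3]
    exact decide_eq_true_iff

/-! ### the clock moves -/

open ClkTD766 ClkMcPT766

variable {p : ℕ} [NeZero p] [Inhabited (ZMod p)] {N ρ : ι → ℕ}

/-- **the clock moves** in the numbering `ix`, clock coordinates `recode`; `tq` reads the lowest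
factor `T` of the number -/
theorem pmap_mc (h : InsTab raw I nG nT eG eT) (hL : PSzU raw (fun i => (I i).L + 1))
    (hρ : PSz raw ρ) (ix : ∀ i, (I i).U ≃ Fin (N i))
    (hN : ∀ i, N i = qK (ZMod p) ^ ((I i).L + 1) * (qK (ZMod p) ^ ((I i).L + 1) *
      (qK (ZMod p) ^ ((I i).L + 1) * ρ i)))
    (tq : ∀ i, Fin (ρ i) → (I i).T)
    (htq : ∀ i r, ((eT i (tq i r) : Fin _) : ℕ) = (r : ℕ) % nT (raw i)) (g : CG c) :
    PMap raw ix ix (fun i => mc (I i) (recode (ZMod p) ((I i).L + 1) (hN i) (ix i)) (tq i) g) := by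
  let := ptcZ p
  obtain ⟨fL, hfL, sL⟩ := hL
  obtain ⟨fr, hfr, sr⟩ := hρ
  choose B hB hBs using fun b => exists_td h b
  refine ⟨fun x w => mcN p (fun b t r => B b x t (r % nT x)) (fL x) (fr x) g w, ?_, fun i u => ?_⟩
  · refine ptf_mcN p (B := fun (x : α × ℕ) b t r => B b x.1 t (r % nT x.1))
      (PTU.comp hfL PTF.fst) (PTF.comp hfr PTF.fst) PTF.snd (fun b => ?_) g
    have h1 : PTF (fun q : (α × ℕ) × ℕ × ℕ => q.2.2 % nT q.1.1) :=
      PTF.natMod (PTF.comp PTF.snd PTF.snd) (PTF.comp h.nT (PTF.comp PTF.fst PTF.fst))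
    exact PTF.comp (g := fun q : α × ℕ × ℕ => B b q.1 q.2.1 q.2.2)
      (f := fun q : (α × ℕ) × ℕ × ℕ => (q.1.1, q.2.1, q.2.2 % nT q.1.1)) (hB b)
      (PTF.prodMk (PTF.comp PTF.fst PTF.fst) (PTF.prodMk (PTF.comp PTF.fst PTF.snd) h1))
  · show mcN p (fun b t r => B b (raw i) t (r % nT (raw i))) (fL (raw i)) (fr (raw i)) g _ = _
    rw [sL, sr]
    refine mcN_spec (I i) (hN i) (ix i) (tq i) _ (fun b t r ht => ?_) g u
    rw [← htq]
    exact hBs b i t ht (tq i r)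

end td

end Crest.Agent.R289.ClockTab698
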