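import Crest.Agent.R289.Cascade_397
import Crest.Agent.R289.MixProd_178
import Crest.Agent.R289.AsmObj_12

/-!
# R289, block C: the mixing hypothesis of the cascade from the object (helper397)

`mix_of_exp`: right expansion `TP846.Exp a lam` is the left mixing `Cascade397.Mix a lam`;
`mix_prod`: product groups, product family; `obj_mix`, `obj_mix_prod`: from `Obj.OK.exp`, with the
numbers needed for growth factor `ρ`.
-/

set_option autoImplicit false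

namespace Crest.Agent.R289.CascMix397

open Crest.Agent.R289 Crest.Agent.R289.Cascade397 Crest.Agent.R289.Asm12

variable {P I T J : Type} [Group P] [Fintype P] [Fintype I] [Group T] [Fintype T] [Fintype J]

/-- expansion by right multiplications = mixing by left multiplications with the inverses -/
theorem mix_of_exp {a : I → P} {lam : ℝ} (h : TP846.Exp a lam) : Mix a lam :=
  (MixProd178.mixF_right_iff_left a lam).1 h

/-- monotone in `lam` -/
theorem mix_mono {a : I → P} {l l' : ℝ} (h : Mix a l) (hl : l ^ 2 ≤ l' ^ 2) : Mix a l' :=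
  MixProd178.MixF.mono (s := fun i g => (a i)⁻¹ * g) h hl

/-- product group, product family -/
theorem mix_prod {a : I → P} {b : J → T} {l1 l2 l3 : ℝ} (ha : TP846.Exp a l1)
    (hb : TP846.Exp b l2) (h3 : l1 ^ 2 + l2 ^ 2 + l1 ^ 2 * l2 ^ 2 ≤ l3 ^ 2) :
    Mix (fun x : I × J => ((a x.1, b x.2) : P × T)) l3 :=
  MixProd178.MixF.prod_left (al := a) (be := b) (mix_of_exp ha) (mix_of_exp hb) h3

/-- reindexing of the family -/
theorem mix_reindex {a : I → P} {l : ℝ} (h : Mix a l) (e : J ≃ I) : Mix (fun j => a (e j)) l :=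
  MixProd178.MixF.reindex (s := fun i g => (a i)⁻¹ * g) h e

/-- the numbers: one group -/
theorem num1 {lam lam0 : ℝ} {ρ : ℕ} (h0 : 0 ≤ lam) (h1 : lam ≤ lam0)
    (h2 : 64 * (ρ : ℝ) * lam0 ^ 2 ≤ 1) : 64 * (ρ : ℝ) * lam ^ 2 ≤ 1 := by
  have h3 : lam ^ 2 ≤ lam0 ^ 2 := pow_le_pow_left₀ h0 h1 2
  have h4 : (0 : ℝ) ≤ 64 * ρ := by positivity
  nlinarith [mul_le_mul_of_nonneg_left h3 h4]

/-- the numbers: two groups, `lam3 = 2 lam` works if `lam ≤ 1` -/
theorem num2 {lam : ℝ} (h1 : lam ^ 2 ≤ 1) :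
    lam ^ 2 + lam ^ 2 + lam ^ 2 * lam ^ 2 ≤ (2 * lam) ^ 2 := by
  nlinarith [sq_nonneg lam, sq_nonneg (lam ^ 2)]

section obj

variable {D : Obj} {M0 : ℕ} {lam0 Kr : ℝ}

/-- mixing of the x-steps (left form) on the group of level `k`, with the numbers of the growth
lemma for the factor `ρ` -/
theorem obj_mix (h : D.OK M0 lam0 Kr) {ρ : ℕ} (h2 : 64 * (ρ : ℝ) * lam0 ^ 2 ≤ 1) :
    ∃ lam : ℝ, 0 ≤ lam ∧ 64 * (ρ : ℝ) * lam ^ 2 ≤ 1 ∧
      ∀ k, Mix (D.tp k).a lam ∧ Mix (D.tp k).b lam := by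
  obtain ⟨lam, hl0, hl1, _, hE⟩ := h.exp
  exact ⟨lam, hl0, num1 hl0 hl1 h2, fun k => ⟨mix_of_exp (hE k).1, mix_of_exp (hE k).2.2.1⟩⟩

/-- mixing of the product family on the product of two groups (content group `P k × P k'`) -/
theorem obj_mix_prod (h : D.OK M0 lam0 Kr) {ρ : ℕ} (h1 : 1 ≤ ρ)
    (h2 : 256 * (ρ : ℝ) * lam0 ^ 2 ≤ 1) :
    ∃ lam : ℝ, 0 ≤ lam ∧ 64 * (ρ : ℝ) * lam ^ 2 ≤ 1 ∧
      ∀ k k', Mix (fun x : Option D.K × Option D.K =>
        (((D.tp k).a x.1, (D.tp k').a x.2) : D.P k × D.P k')) lam := by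
  obtain ⟨lam, hl0, hl1, _, hE⟩ := h.exp
  have hρ : (1 : ℝ) ≤ ρ := by exact_mod_cast h1
  have h3 : lam ^ 2 ≤ lam0 ^ 2 := pow_le_pow_left₀ hl0 hl1 2
  have h4 : lam ^ 2 ≤ 1 := by nlinarith [sq_nonneg lam0]
  refine ⟨2 * lam, by positivity, ?_, fun k k' => mix_prod (hE k).1 (hE k').1 (num2 h4)⟩
  have h5 : (0 : ℝ) ≤ 256 * ρ := by positivity
  have h6 := mul_le_mul_of_nonneg_left h3 h5
  calc 64 * (ρ : ℝ) * (2 * lam) ^ 2 = 256 * (ρ : ℝ) * lam ^ 2 := by ring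
    _ ≤ 256 * (ρ : ℝ) * lam0 ^ 2 := h6
    _ ≤ 1 := h2

end obj

end Crest.Agent.R289.CascMix397
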