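import Crest.Agent.R289.InsObj_576
import Crest.Agent.R289.LInst_827
import Crest.Agent.R289.CascMix_397

/-!
# Row 289, block C: first facts about the instance `InsObj576.cst`, `InsObj576.ins`

* P-side: `encG_mem`, `encG_s0`, `encG_unique`, `CG_rig`, `CG_mul`, `CG_lt`, `cdI : LInst827.CD`;
* T-side: `ins_mU`, `ins_mN1`, `ins_mN2`, `ins_Q`, `ins_mir_iff`, mirror tables;
* contents: `ins_pubC`, `ins_x0_con`; cascade: `ins_Lam`.
-/

set_option autoImplicit false

namespace Crest.Agent.R289.InsObj576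

open Finset Crest.Agent.R289.Asm12 Crest.Agent.R289.DefC Crest.Agent.R289.DefI
  Crest.Agent.R289.BootC515 Crest.Agent.R289.FinB263
open Crest.Agent.R289.TOInst112 (Sy s0 tO)

variable {D : Obj} {M0 : ℕ} {lam0 Kr : ℝ} (h : D.OK M0 lam0 Kr)

/-! ### words of one factor -/

theorem word_unique {k : ℕ} {f : D.P k → Sy D → D.K} (hf : f ∈ TOInst112.Cm D k 1)
    {c : D.P k → D.K} (hc : ∀ t, f t (s0 D) = c t) : f = (tO h k).word c := by
  have h1 := (tO h k).inj (f - (tO h k).word c)
    ((TOInst112.Cm D k 1).sub_mem hf ((tO h k).word_mem c)) fun t => by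
      show f t (s0 D) - (tO h k).word c t (tO h k).s0 = 0
      rw [(tO h k).word_s0, hc, sub_self]
  exact sub_eq_zero.1 h1

/-- the encoder of one factor as a linear map -/
noncomputable def wordL (k : ℕ) : (D.P k → D.K) →ₗ[D.K] (D.P k → Sy D → D.K) where
  toFun := (tO h k).word
  map_add' c c' := by
    refine (word_unique h ((TOInst112.Cm D k 1).add_mem ((tO h k).word_mem c)
      ((tO h k).word_mem c')) fun t => ?_).symm
    show (tO h k).word c t (tO h k).s0 + (tO h k).word c' t (tO h k).s0 = c t + c' t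
    rw [(tO h k).word_s0, (tO h k).word_s0]
  map_smul' a c := by
    refine (word_unique h ((TOInst112.Cm D k 1).smul_mem a ((tO h k).word_mem c))
      fun t => ?_).symm
    show a * (tO h k).word c t (tO h k).s0 = a * c t
    rw [(tO h k).word_s0]

theorem word_zero (k : ℕ) : (tO h k).word 0 = 0 := (wordL h k).map_zero

/-- a linear functional of the second factor applied to words of the first factor -/
theorem fun_mem {k k' d : ℕ} (l : (D.P k' → D.K) →ₗ[D.K] D.K)
    {F : D.P k' → D.P k → Sy D → D.K} (hF : ∀ g', F g' ∈ TOInst112.Cm D k d) :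
    (fun g s => l fun g' => F g' g s) ∈ TOInst112.Cm D k d := by
  have e : (fun g s => l fun g' => F g' g s)
      = ∑ g', l (Pi.single g' 1) • F g' := by
    funext g s
    rw [LinearMap.pi_apply_eq_sum_univ l fun g' => F g' g s, Finset.sum_apply, Finset.sum_apply]
    refine sum_congr rfl fun g' _ => ?_
    simp only [Pi.smul_apply, smul_eq_mul]
    rw [mul_comm]
    congr 2
    funext j
    by_cases hj : g' = j
    · subst hj; simp
    · simp [hj, Ne.symm hj]
  rw [e]
  exact Submodule.sum_mem _ fun g' _ => Submodule.smul_mem _ _ (hF g')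

/-! ### words of the content group -/

theorem encG_mem (kP kR : ℕ) (c : D.P kP × D.P kR → D.K) : encG h kP kR c ∈ CG D kP kR 1 := by
  refine ⟨fun g' s' => ?_, fun g s =>
    (tO h kR).word_mem fun g' => (tO h kP).word (fun g => c (g, g')) g s⟩
  exact fun_mem (d := 1) ((LinearMap.proj s').comp ((LinearMap.proj g').comp (wordL h kR)))
    (F := fun g'' g s => (tO h kP).word (fun g => c (g, g'')) g s)
    fun g'' => (tO h kP).word_mem _

theorem encG_s0 (kP kR : ℕ) (c : D.P kP × D.P kR → D.K) (x : D.P kP × D.P kR) :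
    encG h kP kR c (x, sG D) = c x := by
  show (tO h kR).word (fun g' => (tO h kP).word (fun g => c (g, g')) x.1 (tO h kP).s0) x.2
    (tO h kR).s0 = c x
  rw [(tO h kR).word_s0, (tO h kP).word_s0]

include h in
/-- rigidity -/
theorem CG_rig {kP kR : ℕ} {f : (D.P kP × D.P kR) × SG D → D.K} (hf : f ∈ CG D kP kR 1)
    (h0 : ∀ x, f (x, sG D) = 0) : f = 0 := by
  have h1 : ∀ g g' s', f ((g, g'), (s0 D, s')) = 0 := fun g g' s' =>
    congrFun (congrFun (TOInst112.Cm_inj h (hf.2 g (s0 D)) fun g' => h0 (g, g')) g') s'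
  funext x
  exact congrFun (congrFun (TOInst112.Cm_inj h (hf.1 x.1.2 x.2.2) fun g => h1 g _ _) x.1.1) x.2.1

theorem encG_unique {kP kR : ℕ} {f : (D.P kP × D.P kR) × SG D → D.K} (hf : f ∈ CG D kP kR 1)
    {c : D.P kP × D.P kR → D.K} (hc : ∀ x, f (x, sG D) = c x) : f = encG h kP kR c := by
  have h1 := CG_rig h ((CG D kP kR 1).sub_mem hf (encG_mem h kP kR c)) fun x => by
    show f (x, sG D) - encG h kP kR c (x, sG D) = 0
    rw [encG_s0, hc, sub_self]
  exact sub_eq_zero.1 h1

include h in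
/-- products, degrees add -/
theorem CG_mul {kP kR a b : ℕ} {f g : (D.P kP × D.P kR) × SG D → D.K} (hf : f ∈ CG D kP kR a)
    (hg : g ∈ CG D kP kR b) : (fun x => f x * g x) ∈ CG D kP kR (a + b) :=
  ⟨fun g' s' => TOInst112.Cm_mul h (hf.1 g' s') (hg.1 g' s'),
    fun g s => TOInst112.Cm_mul h (hf.2 g s) (hg.2 g s)⟩

/-- left translations -/
theorem CG_lt {kP kR d : ℕ} {f : (D.P kP × D.P kR) × SG D → D.K} (hf : f ∈ CG D kP kR d)
    (u : D.P kP × D.P kR) : (fun x => f (u * x.1, x.2)) ∈ CG D kP kR d :=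
  ⟨fun g' s' => TOInst112.Cm_lt (hf.1 (u.2 * g') s') u.1,
    fun g s => TOInst112.Cm_lt (hf.2 (u.1 * g) s) u.2⟩

theorem CG_act {kP kR d : ℕ} {f : (D.P kP × D.P kR) × SG D → D.K} (hf : f ∈ CG D kP kR d)
    (g : G D) : (fun x => f (pmG (act D kP kR g) x)) ∈ CG D kP kR d :=
  CG_lt hf (gv D kP kR g)

theorem CG_acti {kP kR d : ℕ} {f : (D.P kP × D.P kR) × SG D → D.K} (hf : f ∈ CG D kP kR d)
    (g : G D) : (fun x => f ((pmG (act D kP kR g)).symm x)) ∈ CG D kP kR d :=
  CG_lt hf (gv D kP kR g)⁻¹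

/-! ### the instance -/

variable {W kP kR kT : ℕ} (P : TSide492.Path (D.P kT) (Fin W) (Fin W × Fin W))
  (lay : Layout (D.P kP × D.P kR) (G D) (Fin 28) 128)

theorem pubW_mem (b : Pb (G D) (Fin 28) 128) : pubW h kP kR lay b ∈ CG D kP kR 1 :=
  encG_mem h kP kR _

theorem pubW_s0 (b : Pb (G D) (Fin 28) 128) (x : D.P kP × D.P kR) :
    pubW h kP kR lay b (x, sG D) = pubC lay D.K b x := encG_s0 h kP kR _ x

/-- contents of the public words -/
theorem ins_pubC (b : Pb (G D) (Fin 28) 128) (x : D.P kP × D.P kR) :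
    (ins h W kP kR kT P lay).pubC b x = pubC lay D.K b x := encG_s0 h kP kR _ x

theorem ins_pubC' : (ins h W kP kR kT P lay).pubC = pubC lay D.K := by
  funext b x
  exact ins_pubC h P lay b x

theorem ins_x0_mem (i : Rg (Fin 28) 128) : (ins h W kP kR kT P lay).x0 i ∈ CG D kP kR 1 := by
  cases i with
  | D j => exact pubW_mem h lay _
  | X => exact (CG D kP kR 1).zero_mem
  | Y => exact (CG D kP kR 1).zero_mem
  | F c l => exact (CG D kP kR 1).zero_mem
  | M j => exact (CG D kP kR 1).zero_mem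

/-- the start registers as an expression -/
theorem ins_x0_eval (i : Rg (Fin 28) 128)
    (r : Rg (Fin 28) 128 → (D.P kP × D.P kR) × SG D → D.K) :
    (ins h W kP kR kT P lay).x0 i = (ins h W kP kR kT P lay).evalW (ini i) r := by
  cases i <;> rfl

/-- contents of the start registers -/
theorem ins_x0_con (r : Rg (Fin 28) 128 → D.P kP × D.P kR → D.K) :
    (ins h W kP kR kT P lay).con (ins h W kP kR kT P lay).xs
      = fun i => (ini i).evalC (act D kP kR) (pubC lay D.K) r := by
  funext i x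
  cases i with
  | D j => exact pubW_s0 h lay _ x
  | X => rfl
  | Y => rfl
  | F c l => rfl
  | M j => rfl

/-! ### T-side -/

theorem ins_mU : (ins h W kP kR kT P lay).mU = TSide492.Um (tO h kT) := by
  funext p q
  show Matrix.diagonal (fun p : D.P kT × Sy D => TSide492.Uw (tO h kT) p.1 p.2) p q
    = ∑ a : Unit, if q = (1 * p.1, p.2) then TSide492.Uw (tO h kT) p.1 p.2 else 0
  by_cases hpq : p = q
  · subst hpq
    simp
  · have h2 : ¬ q = (1 * p.1, p.2) := fun hc => hpq (by rw [hc, one_mul])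
    simp only [if_neg h2, Finset.sum_const_zero]
    exact Matrix.diagonal_apply_ne _ hpq

theorem ins_mN1 : (ins h W kP kR kT P lay).mN1 = TSide492.N1 (tO h kT) P := rfl

theorem ins_mN2 : (ins h W kP kR kT P lay).mN2 = TSide492.N2 (tO h kT) P := rfl

theorem ins_D : (ins h W kP kR kT P lay).D = TSide492.Dw (tO h kT) P := rfl

theorem ins_Dm (t : ℕ) :
    (ins h W kP kR kT P lay).Dm t = Level492.Dm (TSide492.Dw (tO h kT) P) t := rfl

/-- the mirror relation of the instance is the one of `TSide2_492` -/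
theorem ins_Mir {q : D.P kT × Sy D → (ins h W kP kR kT P lay).AW}
    {U : {s : Sy D // s ≠ s0 D} → D.P kT × Sy D → (ins h W kP kR kT P lay).AW} :
    (ins h W kP kR kT P lay).Mir q U ↔
      (md h kT).Rel (fun t s => q (t, s)) (fun c t s => U c (t, s)) := Iff.rfl

theorem ins_Mir_iff {q : D.P kT × Sy D → (ins h W kP kR kT P lay).AW}
    {U : {s : Sy D // s ≠ s0 D} → D.P kT × Sy D → (ins h W kP kR kT P lay).AW} :
    (ins h W kP kR kT P lay).Mir q U ↔
      (fun c : TSide492.MD.Ix (s0 D) (D.P kT) => U c.1 c.2) = Level492.act (md h kT).mat q :=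
  (md h kT).rel_iff_mat q fun c => U c.1 c.2

theorem ins_MirK_iff {q : D.P kT × Sy D → D.K}
    {U : {s : Sy D // s ≠ s0 D} → D.P kT × Sy D → D.K} :
    (ins h W kP kR kT P lay).MirK q U ↔
      (fun c : TSide492.MD.Ix (s0 D) (D.P kT) => U c.1 c.2) = Level492.act (md h kT).mat q :=
  (md h kT).rel_iff_mat q fun c => U c.1 c.2

/-- the tables `A t` are the mirror words of `kap t` -/
theorem ins_A (t : ℕ) : (ins h W kP kR kT P lay).MirK
    (Level492.kap (TSide492.Um (tO h kT)) (TSide492.N1 (tO h kT) P)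
      (TSide492.Dw (tO h kT) P) t) ((ins h W kP kR kT P lay).A t) := by
  refine (ins_MirK_iff h P lay).2 ?_
  rw [← TSide492.mulVec_eq_act]
  rfl

/-- the tables `B t` are the mirror words of `kap' t` -/
theorem ins_B (t : ℕ) : (ins h W kP kR kT P lay).MirK
    (Level492.kap' (TSide492.Um (tO h kT)) (TSide492.N2 (tO h kT) P)
      (TSide492.Dw (tO h kT) P) t) ((ins h W kP kR kT P lay).B t) := by
  refine (ins_MirK_iff h P lay).2 ?_
  rw [← TSide492.mulVec_eq_act]
  rfl

theorem ins_A0 (s : {s : Sy D // s ≠ s0 D}) (p : D.P kT × Sy D) :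
    (ins h W kP kR kT P lay).A0 s p
      = -TSide492.tabA0 (tO h kT) P (md h kT) (s, p.1, p.2) := rfl

theorem ins_B0 (s : {s : Sy D // s ≠ s0 D}) (p : D.P kT × Sy D) :
    (ins h W kP kR kT P lay).B0 s p
      = -TSide492.tabB0 (tO h kT) P (md h kT) (s, p.1, p.2) := rfl

/-! ### cascade -/

/-- entries of the cascade operator, for values `S → C → K` -/
theorem LamK_apply {K ι ρ Q S C : Type} [Field K] [Group Q] [Fintype ι] [Fintype ρ]
    (A : ι → ρ → ρ → K) (g : ι → Q) (y : Q → ρ → S → C → K) (x : Q) (a : ρ) (s : S) (m : C) :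
    CascK750.LamK A g y x a s m = ∑ i, ∑ b, A i a b * y ((g i)⁻¹ * x) b s m := by
  rw [CascK750.LamK, Finset.sum_apply, Finset.sum_apply]
  refine sum_congr rfl fun j _ => ?_
  rw [Finset.sum_apply, Finset.sum_apply]
  rfl

/-- the cascade operator is `CascK750.LamK` -/
theorem ins_Lam (y : (ins h W kP kR kT P lay).AW) (x : D.P kP × D.P kR) (s : SG D)
    (a : Fin (rC D + 1)) (m : Cp (G D) (Fin 28) 128) :
    (ins h W kP kR kT P lay).Lam y (x, s) a m =
      CascK750.LamK (lamC D) (ga D kP kR) (fun x b s m => y (x, s) b m) x a s m := by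
  exact (LamK_apply (lamC D) (ga D kP kR) (fun x b (s : SG D) (m : Cp (G D) (Fin 28) 128) =>
    y (x, s) b m) x a s m).symm

/-- mixing of the cascade family, with the numbers of the growth factor `ρ` -/
theorem mix_ga (h : D.OK M0 lam0 Kr) {ρ : ℕ} (h1 : 1 ≤ ρ) (h2 : 256 * (ρ : ℝ) * lam0 ^ 2 ≤ 1) :
    ∃ lam : ℝ, 0 ≤ lam ∧ 64 * (ρ : ℝ) * lam ^ 2 ≤ 1 ∧
      ∀ kP kR, Cascade397.Mix (ga D kP kR) lam :=
  CascMix397.obj_mix_prod h h1 h2

/-! ### the content side in the form of `LInst_827` -/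

/-- content side -/
noncomputable def cdI : LInst827.CD D.K (G D)
    (machB (K := D.K) (G := G D) (J := 128) (26 : Fin 28)) (D.P kP × D.P kR)
    ((D.P kP × D.P kR) × SG D) where
  act := act D kP kR
  actO g := pmG (act D kP kR g)
  h0 x := (x, sG D)
  hh _ _ := rfl
  C := CG D kP kR
  hmul _ _ _ _ hf hg := CG_mul h hf hg
  htr g _ _ hf := CG_act hf g
  hti g _ _ hf := CG_acti hf g
  hrig _ hf h0 := CG_rig h hf h0
  pw := pubW h kP kR lay
  hpw b := pubW_mem h lay b

end Crest.Agent.R289.InsObj576
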