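import Crest.Agent.R289.DecC_589
import Crest.Agent.R289.InsLem_576

/-!
# Row 289, leaf E21 part 7 (helper589): the decoding clauses on the instance `InsObj576.ins`

* `con_xs` : contents of the start registers = the encoding of the name `0` at stage `d`;
* `ends_ins` : the ends of the content machine of the instance;
* `legal_xs`, `no_bk_xs` : hypotheses `hx0`, `hb0` of `LMI827.lmI`;
* `decN`, `decM` : the two decoding clauses of `BaseT.On` for `LMI827.lmI` on the instance.
-/

set_option autoImplicit false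
set_option linter.dupNamespace false
set_option linter.unusedSectionVars false

namespace Crest.Agent.R289.DecO589

open Crest.PPADPCP
open Crest.Agent.R289 Crest.Agent.R289.Asm12 Crest.Agent.R289.Sol589 Crest.Agent.R289.DecI589
open Crest.Agent.R289.DecL589 Crest.Agent.R289.DecC589
open Crest.Agent.R289.DefC Crest.Agent.R289.BootC515 Crest.Agent.R289.Compile827
open Crest.Agent.R289.DefI Crest.Agent.R289.InsObj576

variable {D : Obj} {M0 : ℕ} {lam0 Kr : ℝ} (h : D.OK M0 lam0 Kr) {W kP kR kT : ℕ}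
  (P : TSide492.Path (D.P kT) (Fin W) (Fin W × Fin W))
  (lay : Layout (D.P kP × D.P kR) (G D) (Fin 28) 128)

/-- contents of the start registers -/
theorem con_xs : (ins h W kP kR kT P lay).con (ins h W kP kR kT P lay).xs
    = encC (act D kP kR) (26 : Fin 28) lay D.K .d 0 fun _ => false :=
  (ins_x0_con h P lay fun _ _ => 0).trans
    (startB (act D kP kR) (26 : Fin 28) lay fun _ _ => (0 : D.K)).symm

/-- **the ends of the content machine of the instance** -/
theorem ends_ins (hP : lay.OK (act D kP kR) (26 : Fin 28)) :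
    Ends (cst h W).A (ins h W kP kR kT P lay).act (ins h W kP kR kT P lay).pubC
      (ins h W kP kR kT P lay).stg0
      ((ins h W kP kR kT P lay).con (ins h W kP kR kT P lay).xs) Rg.X Rg.Y lay.al
      (fun v => lay.outp (act D kP kR) 26 true (lay.outp (act D kP kR) 26 false v) ≠ v)
      (fun v => lay.outp (act D kP kR) 26 false (lay.outp (act D kP kR) 26 true v) ≠ v ∧
        v ≠ fun _ => false) := by
  have := h.charP
  have : Fact D.p.Prime := ⟨h.prime⟩
  rw [ins_pubC' h P lay, con_xs h P lay]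
  exact endsB (act D kP kR) (26 : Fin 28) lay D.p h.odd hP _ rfl

/-- the start is legal -/
theorem legal_xs (hP : lay.OK (act D kP kR) (26 : Fin 28)) :
    (cst h W).A.Legal (ins h W kP kR kT P lay).act (ins h W kP kR kT P lay).pubC
      (ins h W kP kR kT P lay).stg0
      ((ins h W kP kR kT P lay).con (ins h W kP kR kT P lay).xs) := by
  have := h.charP
  have : Fact D.p.Prime := ⟨h.prime⟩
  rw [ins_pubC' h P lay, ins_x0_con h P lay fun _ _ => 0]
  exact MachB515.start_legal (act D kP kR) (26 : Fin 28) lay D.K D.p h.odd hP _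

/-- no label leads into the start -/
theorem no_bk_xs (hP : lay.OK (act D kP kR) (26 : Fin 28)) (ρ : (cst h W).A.Tr) :
    ¬ ((ins h W kP kR kT P lay).stg0 = (cst h W).A.tgt ρ ∧
      (cst h W).A.Bk (ins h W kP kR kT P lay).act (ins h W kP kR kT P lay).pubC ρ
        ((ins h W kP kR kT P lay).con (ins h W kP kR kT P lay).xs)) := by
  have := h.charP
  have : Fact D.p.Prime := ⟨h.prime⟩
  rw [ins_pubC' h P lay, ins_x0_con h P lay fun _ _ => 0]
  exact fun hh => MachB515.start_no_bk (act D kP kR) (26 : Fin 28) lay D.K D.p h.odd hP _ ρ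
    hh.1.symm hh.2

section dec

variable {CG' : ℕ → Submodule D.K ((ins h W kP kR kT P lay).Om → D.K)}
  {CT : ℕ → Submodule D.K ((ins h W kP kR kT P lay).n → D.K)}
  {tt : ℕ → (ins h W kP kR kT P lay).T}
  (H : LMI827.Hyp (ins h W kP kR kT P lay) CG' CT tt)
  (hx0 : (cst h W).A.Legal (ins h W kP kR kT P lay).act (ins h W kP kR kT P lay).pubC
      (ins h W kP kR kT P lay).stg0
      ((ins h W kP kR kT P lay).con (ins h W kP kR kT P lay).xs))
  (hb0 : ∀ ρ, ¬ ((ins h W kP kR kT P lay).stg0 = (cst h W).A.tgt ρ ∧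
      (cst h W).A.Bk (ins h W kP kR kT P lay).act (ins h W kP kR kT P lay).pubC ρ
        ((ins h W kP kR kT P lay).con (ins h W kP kR kT P lay).xs)))
  {E : EOL} (hR : Real E (act D kP kR) (26 : Fin 28) lay)
  (hP : lay.OK (act D kP kR) (26 : Fin 28))
  {Ck : Type} {cw : ℕ → (ins h W kP kR kT P lay).U → Ck}
  (hcw : ∀ t t', t ≤ (ins h W kP kR kT P lay).L → t' ≤ (ins h W kP kR kT P lay).L →
    cw t = cw t' → t = t')
  {n : ℕ} (eU : (ins h W kP kR kT P lay).U ≃ Fin n) (ad : ℕ → ℕ)
  (had : ∀ i : Fin lay.n, (eU ((lay.al i, 1) : (ins h W kP kR kT P lay).U) : ℕ) = ad i)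
  (Wd : Set ((ins h W kP kR kT P lay).U → (cst h W).Lab Ck))
  (hWd : ∀ w ∈ Wd, ∃ f, (LMI827.lmI H hx0 hb0).Legal f ∧
    w = (ins h W kP kR kT P lay).labE cw (mp Subtype.val Subtype.val f))

include hR hP hcw had hWd

/-- **forward decoding clause of the instance** -/
theorem decN (hE : E.WF)
    (Nw : ((ins h W kP kR kT P lay).U → (cst h W).Lab Ck) →
      (ins h W kP kR kT P lay).U → (cst h W).Lab Ck)
    (hNw : ∀ f, (LMI827.lmI H hx0 hb0).Legal f →
      Nw ((ins h W kP kR kT P lay).labE cw (mp Subtype.val Subtype.val f)) =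
        (ins h W kP kR kT P lay).labE cw
          (mp Subtype.val Subtype.val ((LMI827.lmI H hx0 hb0).stepN f))) :
    ∀ w ∈ Wd, Nw w = w → ∃ v : Fin E.n → Bool, E.IsSolution v ∧
      ∀ i : Fin E.n, ∃ u : (ins h W kP kR kT P lay).U, (eU u : ℕ) = ad (i : ℕ) ∧
        gReg (c := cst h W) Rg.X (w u) = v i := by
  have : Nonempty (ins h W kP kR kT P lay).Γ := ⟨(1 : D.P kP × D.P kR)⟩
  exact clauseN (ov827 H hx0 hb0) (ends_ins h P lay hP) hR hE Subtype.val_injective
    Subtype.val_injective hcw Wd hWd Nw hNw eU ad (fun i => (lay.al i, 1)) (fun _ => rfl) had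

/-- **backward decoding clause of the instance** -/
theorem decM (Mw : ((ins h W kP kR kT P lay).U → (cst h W).Lab Ck) →
      (ins h W kP kR kT P lay).U → (cst h W).Lab Ck)
    (hMw : ∀ f, (LMI827.lmI H hx0 hb0).Legal f →
      Mw ((ins h W kP kR kT P lay).labE cw (mp Subtype.val Subtype.val f)) =
        (ins h W kP kR kT P lay).labE cw
          (mp Subtype.val Subtype.val ((LMI827.lmI H hx0 hb0).stepM f)))
    (w0 : (ins h W kP kR kT P lay).U → (cst h W).Lab Ck)
    (hw0 : w0 = (ins h W kP kR kT P lay).labE cw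
      (mp Subtype.val Subtype.val (LMI827.lmI H hx0 hb0).c0)) :
    ∀ w ∈ Wd, Mw w = w → w ≠ w0 → ∃ v : Fin E.n → Bool, E.IsSolution v ∧
      ∀ i : Fin E.n, ∃ u : (ins h W kP kR kT P lay).U, (eU u : ℕ) = ad (i : ℕ) ∧
        gReg (c := cst h W) Rg.Y (w u) = v i := by
  have : Nonempty (ins h W kP kR kT P lay).Γ := ⟨(1 : D.P kP × D.P kR)⟩
  exact clauseM (ov827 H hx0 hb0) (ends_ins h P lay hP) hR Subtype.val_injective
    Subtype.val_injective hcw Wd hWd Mw hMw w0 hw0 eU ad (fun i => (lay.al i, 1))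
    (fun _ => rfl) had

end dec

end Crest.Agent.R289.DecO589
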