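import Crest.Agent.R289.MemB_12
import Crest.Agent.R289.DecO_589

/-!
# Row 289, leaf E21 part 8 (helper589): the decoding clauses on the members `Mem12.Mem`

* `cw_inj`, `word_inj` : clock words and label words determine the time and the configuration;
* `restN`, `restM` : what a rest configuration without label shows (for any reading of the labels);
* `decN`, `decM` : the two decoding clauses of `BaseT.On` for sets of words `i.word f`.
-/

set_option autoImplicit false
set_option linter.dupNamespace false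
set_option linter.unusedSectionVars false

namespace Crest.Agent.R289.DecM589

open Crest.PPADPCP
open Crest.Agent.R289 Crest.Agent.R289.Asm12 Crest.Agent.R289.Sol589 Crest.Agent.R289.DecI589
open Crest.Agent.R289.DecL589 Crest.Agent.R289.DecC589 Crest.Agent.R289.DecO589
open Crest.Agent.R289.DefC Crest.Agent.R289.BootC515 Crest.Agent.R289.Compile827
open Crest.Agent.R289.DefI Crest.Agent.R289.InsObj576 Crest.Agent.R289.Mem12

variable {D : Obj} {M0 : ℕ} {lam0 Kr : ℝ} {h : D.OK M0 lam0 Kr} {W c0 : ℕ} (i : Mem h W c0)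

/-! ### injectivity -/

theorem cw_inj {t t' : ℕ} (ht : t ≤ i.I.L) (ht' : t' ≤ i.I.L) (he : i.cw t = i.cw t') :
    t = t' := by
  have : Nonempty (Fin i.siz.rho) := ⟨(i.e (Classical.arbitrary i.I.U)).2.2.2⟩
  exact ClkTD766.cw_inj i.I i.e ht ht' he

theorem word_inj {f f' : Conf (LMI827.XS i.I (InsObj576.CG D i.kP i.kR))
    (LMI827.ZS i.I (InsObj576.CG D i.kP i.kR) (HypObj146.CT D i.kT)) (cst h W).A.Tr}
    (hf : i.lm.Legal f) (hf' : i.lm.Legal f') (he : i.word f = i.word f') : f = f' :=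
  DecC589.word_inj (I := i.I) (m := i.lm) Subtype.val_injective Subtype.val_injective
    (fun _ _ => cw_inj i) hf hf' he

/-- the machine lies over the words of the instance -/
theorem ov : Ov i.lm (Subtype.val : _ → i.I.XW) :=
  ov827 (HypObj146.hyp h i.P i.lay i.ok i.h0) (HypObj146.hx0 h i.P i.lay i.ok)
    (HypObj146.hb0 h i.P i.lay i.ok)

/-- the ends of the content machine -/
theorem ends : Ends (cst h W).A i.I.act i.I.pubC i.I.stg0 (i.I.con i.I.xs) Rg.X Rg.Y i.lay.al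
      (fun v => i.lay.outp (act D i.kP i.kR) 26 true
        (i.lay.outp (act D i.kP i.kR) 26 false v) ≠ v)
      (fun v => i.lay.outp (act D i.kP i.kR) 26 false
        (i.lay.outp (act D i.kP i.kR) 26 true v) ≠ v ∧ v ≠ fun _ => false) :=
  ends_ins h i.P i.lay i.ok

/-! ### rest configurations -/

section rest

variable {E : EOL} (hR : Real E (act D i.kP i.kR) (26 : Fin 28) i.lay) {n : ℕ}
  (eU : i.I.U ≃ Fin n) (ad : ℕ → ℕ) (τ : i.I.T)
  (had : ∀ j : Fin i.lay.n, (eU (i.lay.al j, τ) : ℕ) = ad j)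

include hR had

/-- a rest configuration without forward label shows a solution in register `X` -/
theorem restN (hE : E.WF) (x : LMI827.XS i.I (InsObj576.CG D i.kP i.kR)) (hx : i.lm.IsL x)
    (hno : ∀ ρ, ¬ i.lm.en ρ x) :
    ∃ v : Fin E.n → Bool, E.IsSolution v ∧ ∀ j : Fin E.n, ∃ u : i.I.U, (eU u : ℕ) = ad (j : ℕ) ∧
      bit (x.1.2 Rg.X (u.1, sG D)) = v j := by
  obtain ⟨v, h1, h2⟩ := (ends i).fwd _ _ ((ov i).legal x hx) fun ⟨ρ, h1, h2⟩ =>
    hno ρ ((ov i).en ρ x hx h1 h2)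
  exact solN hR hE eU ad (fun b : Bool => b) (fun u => bit (x.1.2 Rg.X (u.1, sG D)))
    (fun j => (i.lay.al j, τ)) had ⟨v, h1, h2⟩

/-- a rest configuration without backward label, not the start, shows a solution in register
`Y` -/
theorem restM (x : LMI827.XS i.I (InsObj576.CG D i.kP i.kR)) (hx : i.lm.IsL x)
    (hno : ∀ ρ, ¬ i.lm.bk ρ x) (hx0 : x ≠ i.lm.x0) :
    ∃ v : Fin E.n → Bool, E.IsSolution v ∧ ∀ j : Fin E.n, ∃ u : i.I.U, (eU u : ℕ) = ad (j : ℕ) ∧
      bit (x.1.2 Rg.Y (u.1, sG D)) = v j := by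
  rcases (ends i).bwd _ _ ((ov i).legal x hx) fun ⟨ρ, h1, h2⟩ =>
    hno ρ ((ov i).bk ρ x hx h1 h2) with ⟨h1, h2⟩ | ⟨v, h1, h2⟩
  · exact absurd ((ov i).start x hx h1 h2) hx0
  · exact solM hR eU ad (fun b : Bool => b) (fun u => bit (x.1.2 Rg.Y (u.1, sG D)))
      (fun j => (i.lay.al j, τ)) had ⟨v, h1, h2⟩

end rest

/-! ### words -/

section words

variable {E : EOL} (hR : Real E (act D i.kP i.kR) (26 : Fin 28) i.lay) {n : ℕ}
  (eU : i.I.U ≃ Fin n) (ad : ℕ → ℕ) (τ : i.I.T)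
  (had : ∀ j : Fin i.lay.n, (eU (i.lay.al j, τ) : ℕ) = ad j)
  (W' : Set (i.I.U → (cst h W).Lab (ZMod 3)))
  (hW : ∀ w ∈ W', ∃ f, i.lm.Legal f ∧ w = i.word f)

include hR had hW

/-- **forward decoding clause** -/
theorem decN (hE : E.WF) (N' : (i.I.U → (cst h W).Lab (ZMod 3)) → i.I.U → (cst h W).Lab (ZMod 3))
    (hN : ∀ f, i.lm.Legal f → N' (i.word f) = i.word (i.lm.stepN f)) :
    ∀ w ∈ W', N' w = w → ∃ v : Fin E.n → Bool, E.IsSolution v ∧
      ∀ j : Fin E.n, ∃ u : i.I.U, (eU u : ℕ) = ad (j : ℕ) ∧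
        gReg (c := cst h W) Rg.X (w u) = v j :=
  clauseN (I := i.I) (m := i.lm) (ov i) (ends i) hR hE Subtype.val_injective
    Subtype.val_injective (fun _ _ => cw_inj i) W' hW N' hN eU ad (fun j => (i.lay.al j, τ))
    (fun _ => rfl) had

/-- **backward decoding clause** -/
theorem decM (M' : (i.I.U → (cst h W).Lab (ZMod 3)) → i.I.U → (cst h W).Lab (ZMod 3))
    (hM : ∀ f, i.lm.Legal f → M' (i.word f) = i.word (i.lm.stepM f)) :
    ∀ w ∈ W', M' w = w → w ≠ i.w0 → ∃ v : Fin E.n → Bool, E.IsSolution v ∧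
      ∀ j : Fin E.n, ∃ u : i.I.U, (eU u : ℕ) = ad (j : ℕ) ∧
        gReg (c := cst h W) Rg.Y (w u) = v j :=
  clauseM (I := i.I) (m := i.lm) (ov i) (ends i) hR Subtype.val_injective
    Subtype.val_injective (fun _ _ => cw_inj i) W' hW M' hM i.w0 rfl eU ad
    (fun j => (i.lay.al j, τ)) (fun _ => rfl) had

end words

end Crest.Agent.R289.DecM589
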