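import Crest.Agent.R289.DefE_217

/-!
# R289, block E6 (helper328): evaluation of well-formed Boolean circuits and the NAND/copy normal form

* `bval_get` : for a well-formed circuit the list `values` satisfies `values[t] = gate_t.eval x values`.
* `Nd` nodes `(0,i,_)` = input `i`, `(1,a,_)` = copy of node `a`, `(2,a,b)` = NAND of nodes `a, b`.
* `norm n gates outs` : node list whose first `n` nodes are the inputs, whose last `n` nodes are the
  outputs, in which every node is read by at most two slots.
-/

set_option autoImplicit false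

namespace Crest.Agent.R289.Circ328

open Crest.PPADPCP Crest.Agent.R289

/-! ### the raw circuit -/

/-- values of a list of gates -/
def bvals (x : ℕ → Bool) (l : List BGate) : List Bool :=
  l.foldl (fun prev g => prev ++ [g.eval x prev]) []

theorem bvals_append_singleton (x : ℕ → Bool) (l : List BGate) (g : BGate) :
    bvals x (l ++ [g]) = bvals x l ++ [g.eval x (bvals x l)] := by
  simp [bvals]

@[simp] theorem bvals_length (x : ℕ → Bool) (l : List BGate) : (bvals x l).length = l.length := by
  induction l using List.reverseRecOn with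
  | nil => rfl
  | append_singleton l g ih => rw [bvals_append_singleton]; simp [ih]

theorem values_eq_bvals {n : ℕ} (C : BCircuit n) (x : ℕ → Bool) : C.values x = bvals x C.gates := rfl

theorem bvals_prefix (x : ℕ → Bool) (l l' : List BGate) (t : ℕ) (ht : t < l.length) :
    (bvals x (l ++ l')).getD t false = (bvals x l).getD t false := by
  induction l' using List.reverseRecOn with
  | nil => simp
  | append_singleton l' g ih =>
    rw [← List.append_assoc, bvals_append_singleton]
    rw [List.getD_append _ _ _ _ (by simp; omega)]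
    exact ih

/-- a well-formed gate only reads earlier values -/
theorem eval_congr (x : ℕ → Bool) {n t : ℕ} {g : BGate} (hg : g.WF n t) {p q : List Bool}
    (h : ∀ s < t, p.getD s false = q.getD s false) : g.eval x p = g.eval x q := by
  cases g with
  | var i => rfl
  | and a b => simp only [BGate.eval]; rw [h a hg.1, h b hg.2]
  | or a b => simp only [BGate.eval]; rw [h a hg.1, h b hg.2]
  | not a => simp only [BGate.eval]; rw [h a hg]

/-- the value list satisfies the gate equations -/
theorem bvals_get {n : ℕ} (x : ℕ → Bool) (l : List BGate)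
    (hl : ∀ t : Fin l.length, (l.get t).WF n t) (t : ℕ) (ht : t < l.length) :
    (bvals x l).getD t false = (l[t]).eval x (bvals x l) := by
  have h1 : l = l.take (t + 1) ++ l.drop (t + 1) := (List.take_append_drop _ _).symm
  have h2 : l.take (t + 1) = l.take t ++ [l[t]] := by
    rw [List.take_add_one]; simp [ht]
  have hwf : (l[t]).WF n t := hl ⟨t, ht⟩
  have h3 : (bvals x l).getD t false = (bvals x (l.take (t + 1))).getD t false := by
    conv_lhs => rw [h1]
    exact bvals_prefix x _ _ t (by simp; omega)
  rw [h3, h2, bvals_append_singleton]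
  have hlen : (bvals x (l.take t)).length = t := by simp; omega
  have h4 : (bvals x (l.take t) ++ [(l[t]).eval x (bvals x (l.take t))]).getD t false =
      (l[t]).eval x (bvals x (l.take t)) := by
    rw [List.getD_eq_getElem?_getD, List.getElem?_append_right (by omega)]
    simp [hlen]
  rw [h4]
  refine eval_congr x hwf (fun s hs => ?_)
  have h5 : l = l.take t ++ l.drop t := (List.take_append_drop _ _).symm
  conv_rhs => rw [h5]
  exact (bvals_prefix x _ _ s (by simp; omega)).symm

/-- extension of a string by `false` -/
def ext {n : ℕ} (x : Fin n → Bool) : ℕ → Bool := fun i => if h : i < n then x ⟨i, h⟩ else false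

theorem apply_eq {n : ℕ} (C : BCircuit n) (x : Fin n → Bool) (j : Fin n) :
    C.apply x j = (bvals (ext x) C.gates).getD (C.outs.getD j 0) false := rfl

/-! ### nodes -/

/-- a node: `(0,i,_)` input `i`, `(1,a,_)` copy of node `a`, `(2,a,b)` NAND of nodes `a, b` -/
abbrev Nd := ℕ × ℕ × ℕ

/-- value of a node -/
def ndVal (x : ℕ → Bool) (prev : List Bool) (g : Nd) : Bool :=
  if g.1 = 0 then x g.2.1
  else if g.1 = 1 then prev.getD g.2.1 false
  else !(prev.getD g.2.1 false && prev.getD g.2.2 false)

/-- values of all nodes -/
def nvals (x : ℕ → Bool) (P : List Nd) : List Bool :=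
  P.foldl (fun prev g => prev ++ [ndVal x prev g]) []

theorem nvals_append_singleton (x : ℕ → Bool) (l : List Nd) (g : Nd) :
    nvals x (l ++ [g]) = nvals x l ++ [ndVal x (nvals x l) g] := by
  simp [nvals]

@[simp] theorem nvals_length (x : ℕ → Bool) (l : List Nd) : (nvals x l).length = l.length := by
  induction l using List.reverseRecOn with
  | nil => rfl
  | append_singleton l g ih => rw [nvals_append_singleton]; simp [ih]

theorem nvals_prefix (x : ℕ → Bool) (l l' : List Nd) (t : ℕ) (ht : t < l.length) :
    (nvals x (l ++ l')).getD t false = (nvals x l).getD t false := by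
  induction l' using List.reverseRecOn with
  | nil => simp
  | append_singleton l' g ih =>
    rw [← List.append_assoc, nvals_append_singleton]
    rw [List.getD_append _ _ _ _ (by simp; omega)]
    exact ih

theorem nvals_new (x : ℕ → Bool) (l l' : List Nd) (g : Nd) :
    (nvals x (l ++ g :: l')).getD l.length false = ndVal x (nvals x l) g := by
  have h : l ++ g :: l' = (l ++ [g]) ++ l' := by simp
  rw [h, nvals_prefix x _ _ _ (by simp), nvals_append_singleton]
  rw [List.getD_eq_getElem?_getD, List.getElem?_append_right (by simp)]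
  simp

/-- number of slots of a node equal to `c` -/
def slots (c : ℕ) (g : Nd) : ℕ :=
  if g.1 = 0 then 0
  else if g.1 = 1 then (if g.2.1 = c then 1 else 0)
  else (if g.2.1 = c then 1 else 0) + (if g.2.2 = c then 1 else 0)

/-- number of slots reading node `c` -/
def uses (P : List Nd) (c : ℕ) : ℕ := (P.map (slots c)).sum

@[simp] theorem uses_append (P Q : List Nd) (c : ℕ) : uses (P ++ Q) c = uses P c + uses Q c := by
  simp [uses]

@[simp] theorem uses_nil (c : ℕ) : uses [] c = 0 := rfl

theorem uses_cons (g : Nd) (Q : List Nd) (c : ℕ) : uses (g :: Q) c = slots c g + uses Q c := by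
  simp [uses]

/-- node `g` is fine at position `t` (with `n` inputs) -/
def ndOK (n t : ℕ) (g : Nd) : Prop :=
  if t < n then g = (0, t, t) else (g.1 = 1 ∧ g.2.1 < t ∧ g.2.2 < t) ∨ (g.1 = 2 ∧ g.2.1 < t ∧ g.2.2 < t)

/-- well-formed node list -/
def NOK (n : ℕ) (P : List Nd) : Prop := n ≤ P.length ∧ ∀ t, ∀ h : t < P.length, ndOK n t P[t]

theorem NOK.append {n : ℕ} {P : List Nd} (h : NOK n P) {g : Nd}
    (hg : (g.1 = 1 ∧ g.2.1 < P.length ∧ g.2.2 < P.length) ∨
      (g.1 = 2 ∧ g.2.1 < P.length ∧ g.2.2 < P.length)) : NOK n (P ++ [g]) := by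
  refine ⟨by have := h.1; simp; omega, fun t ht => ?_⟩
  by_cases h1 : t < P.length
  · rw [List.getElem_append_left h1]; exact h.2 t h1
  · have h2 : t = P.length := by simp at ht; omega
    subst h2
    rw [List.getElem_append_right (le_refl _)]
    simp only [Nat.sub_self, List.getElem_cons_zero]
    unfold ndOK
    rw [if_neg (by have := h.1; omega)]
    exact hg

theorem slots_eq_zero {n t c : ℕ} {g : Nd} (h : ndOK n t g) (hc : t ≤ c) : slots c g = 0 := by
  unfold ndOK at h
  unfold slots
  split_ifs at h with ht
  · subst h; simp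
  · rcases h with h | h
    · rw [if_neg (by omega), if_pos h.1, if_neg (by omega)]
    · rw [if_neg (by omega), if_neg (by omega), if_neg (by omega), if_neg (by omega)]

theorem uses_eq_zero {n : ℕ} {P : List Nd} (h : NOK n P) {c : ℕ} (hc : P.length ≤ c) :
    uses P c = 0 := by
  unfold uses
  rw [List.sum_eq_zero_iff]
  intro k hk
  obtain ⟨g, hg, rfl⟩ := List.mem_map.1 hk
  obtain ⟨t, ht, rfl⟩ := List.getElem_of_mem hg
  exact slots_eq_zero (h.2 t ht) (by omega)

/-! ### the state of the translation -/

/-- nodes so far, current node of every wire -/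
abbrev St := List Nd × List ℕ

/-- copy wire `w` (the new node becomes the current node of the wire) -/
def cpW (s : St) (w : ℕ) : St :=
  (s.1 ++ [(1, s.2.getD w 0, s.2.getD w 0)], s.2.set w s.1.length)

/-- append a NAND of two nodes as a new wire -/
def nd2 (s : St) (p q : ℕ) : St := (s.1 ++ [(2, p, q)], s.2 ++ [s.1.length])

/-- NAND of wires `w1, w2` : a new wire -/
def nandW (s : St) (w1 w2 : ℕ) : St :=
  nd2 (cpW (cpW s w1) w2) s.1.length (s.1.length + 1)

/-- structural invariant -/
structure SI (n : ℕ) (s : St) : Prop where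
  ok : NOK n s.1
  lt : ∀ w < s.2.length, s.2.getD w 0 < s.1.length
  inj : ∀ w < s.2.length, ∀ w' < s.2.length, s.2.getD w 0 = s.2.getD w' 0 → w = w'
  u1 : ∀ w < s.2.length, uses s.1 (s.2.getD w 0) ≤ 1
  u2 : ∀ c, uses s.1 c ≤ 2

/-- value invariant -/
def VI (x : ℕ → Bool) (s : St) (wv : List Bool) : Prop :=
  wv.length = s.2.length ∧ ∀ w < s.2.length, (nvals x s.1).getD (s.2.getD w 0) false = wv.getD w false

theorem getD_set {α : Type*} (l : List α) (i j : ℕ) (a d : α) (hi : i < l.length) :
    (l.set i a).getD j d = if j = i then a else l.getD j d := by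
  rw [List.getD_eq_getElem?_getD, List.getD_eq_getElem?_getD, List.getElem?_set]
  by_cases h : i = j
  · subst h; simp [hi]
  · rw [if_neg h, if_neg (by omega)]

theorem getD_snoc {α : Type*} (l : List α) (j : ℕ) (a d : α) :
    (l ++ [a]).getD j d = if j = l.length then a else l.getD j d := by
  rw [List.getD_eq_getElem?_getD, List.getD_eq_getElem?_getD]
  by_cases h : j = l.length
  · subst h; simp
  · rw [if_neg h]
    rcases lt_or_ge j l.length with h1 | h1
    · rw [List.getElem?_append_left h1]
    · rw [List.getElem?_eq_none (by simp; omega), List.getElem?_eq_none h1]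

theorem cpW_SI {n : ℕ} {s : St} (h : SI n s) {w : ℕ} (hw : w < s.2.length) : SI n (cpW s w) := by
  have hlt := h.lt w hw
  refine ⟨?_, ?_, ?_, ?_, ?_⟩
  · exact h.ok.append (Or.inl ⟨rfl, hlt, hlt⟩)
  · intro v hv
    simp only [cpW, List.length_set] at hv ⊢
    rw [getD_set _ _ _ _ _ hw]
    split_ifs
    · simp
    · have := h.lt v hv
      simp only [List.length_append, List.length_singleton]
      omega
  · intro v hv v' hv' hh
    simp only [cpW, List.length_set] at hv hv' hh
    rw [getD_set _ _ _ _ _ hw, getD_set _ _ _ _ _ hw] at hh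
    have a1 := h.lt v hv
    have a2 := h.lt v' hv'
    split_ifs at hh with b1 b2 b2
    · omega
    · omega
    · omega
    · exact h.inj v hv v' hv' hh
  · intro v hv
    simp only [cpW, List.length_set] at hv ⊢
    rw [getD_set _ _ _ _ _ hw, uses_append, uses_cons, uses_nil]
    split_ifs with b1
    · rw [uses_eq_zero h.ok (le_refl _)]
      simp only [slots]
      rw [if_neg (by omega), if_pos trivial, if_neg (by omega)]
      omega
    · have := h.u1 v hv
      simp only [slots]
      rw [if_neg (by omega), if_pos trivial, if_neg (by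
        intro hc
        exact b1 (h.inj _ hv _ hw hc.symm))]
      omega
  · intro c
    simp only [cpW]
    rw [uses_append, uses_cons, uses_nil]
    simp only [slots]
    rw [if_neg (by omega), if_pos trivial]
    split_ifs with b1
    · have := h.u1 w hw
      rw [b1] at this
      omega
    · have := h.u2 c
      omega

theorem cpW_VI {x : ℕ → Bool} {n : ℕ} {s : St} {wv : List Bool} (h : SI n s) (hv : VI x s wv) {w : ℕ}
    (hw : w < s.2.length) : VI x (cpW s w) wv := by
  refine ⟨by simp [cpW, hv.1], fun v hv' => ?_⟩
  simp only [cpW, List.length_set] at hv' ⊢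
  rw [getD_set _ _ _ _ _ hw]
  split_ifs with b1
  · subst b1
    rw [nvals_new]
    simp only [ndVal]
    rw [if_neg (by omega), if_pos trivial]
    exact hv.2 v hv'
  · rw [nvals_prefix _ _ _ _ (h.lt v hv')]
    exact hv.2 v hv'

/-- nodes are only appended -/
theorem cpW_fst (s : St) (w : ℕ) : (cpW s w).1 = s.1 ++ [(1, s.2.getD w 0, s.2.getD w 0)] := rfl

theorem nandW_len (s : St) (w1 w2 : ℕ) : (nandW s w1 w2).1.length = s.1.length + 3 := by
  simp [nandW, nd2, cpW]

theorem nandW_wlen (s : St) (w1 w2 : ℕ) : (nandW s w1 w2).2.length = s.2.length + 1 := by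
  simp [nandW, nd2, cpW]

theorem nandW_SI {n : ℕ} {s : St} (h : SI n s) {w1 w2 : ℕ} (h1 : w1 < s.2.length)
    (h2 : w2 < s.2.length) : SI n (nandW s w1 w2) := by
  have ha := cpW_SI h h1
  have hb : SI n (cpW (cpW s w1) w2) := cpW_SI ha (by simpa [cpW] using h2)
  have hlen : (cpW (cpW s w1) w2).1.length = s.1.length + 2 := by simp [cpW]
  have hwlen : (cpW (cpW s w1) w2).2.length = s.2.length := by simp [cpW]
  -- uses of the two new nodes
  have hp : uses (cpW (cpW s w1) w2).1 s.1.length + (if w1 = w2 then 0 else 1) ≤ 1 := by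
    rw [cpW_fst, cpW_fst, uses_append, uses_append, uses_cons, uses_cons, uses_nil,
      uses_eq_zero h.ok (le_refl _)]
    have e1 : (cpW s w1).2.getD w2 0 = if w2 = w1 then s.1.length else s.2.getD w2 0 := by
      simp only [cpW]; exact getD_set _ _ _ _ _ h1
    rw [e1]
    have a1 := h.lt w1 h1
    have a2 := h.lt w2 h2
    simp only [slots]
    rw [if_neg (by omega), if_pos trivial, if_neg (by omega), if_neg (by omega), if_pos trivial]
    by_cases hw : w2 = w1
    · subst hw; simp
    · rw [if_neg hw, if_neg (by omega), if_neg (by omega)]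
  have hp' : uses (cpW (cpW s w1) w2).1 s.1.length ≤ 1 := by omega
  have hq : uses (cpW (cpW s w1) w2).1 (s.1.length + 1) = 0 := by
    rw [cpW_fst, uses_append, uses_eq_zero ha.ok (by simp [cpW]), uses_cons, uses_nil]
    have e1 : (cpW s w1).2.getD w2 0 = if w2 = w1 then s.1.length else s.2.getD w2 0 := by
      simp only [cpW]; exact getD_set _ _ _ _ _ h1
    rw [e1]
    have a2 := h.lt w2 h2
    simp only [slots]
    rw [if_neg (by omega), if_pos trivial]
    split_ifs <;> omega
  unfold nandW nd2
  refine ⟨?_, ?_, ?_, ?_, ?_⟩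
  · exact hb.ok.append (Or.inr ⟨rfl, by simp only; omega, by simp only; omega⟩)
  · intro v hv
    simp only [List.length_append, List.length_singleton] at hv ⊢
    rw [getD_snoc]
    split_ifs with b1
    · omega
    · have := hb.lt v (by omega); omega
  · intro v hv v' hv' hh
    simp only [List.length_append, List.length_singleton] at hv hv' hh
    rw [getD_snoc, getD_snoc] at hh
    split_ifs at hh with b1 b2 b2
    · omega
    · have := hb.lt v' (by omega); omega
    · have := hb.lt v (by omega); omega
    · exact hb.inj v (by omega) v' (by omega) hh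
  · intro v hv
    simp only [List.length_append, List.length_singleton] at hv ⊢
    rw [getD_snoc, uses_append, uses_cons, uses_nil]
    have e0 : slots (if v = (cpW (cpW s w1) w2).2.length then (cpW (cpW s w1) w2).1.length
        else (cpW (cpW s w1) w2).2.getD v 0) (2, s.1.length, s.1.length + 1) =
        (if s.1.length = (if v = (cpW (cpW s w1) w2).2.length then (cpW (cpW s w1) w2).1.length
        else (cpW (cpW s w1) w2).2.getD v 0) then 1 else 0) +
        (if s.1.length + 1 = (if v = (cpW (cpW s w1) w2).2.length then (cpW (cpW s w1) w2).1.length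
        else (cpW (cpW s w1) w2).2.getD v 0) then 1 else 0) := by
      simp [slots]
    rw [e0]
    by_cases b1 : v = (cpW (cpW s w1) w2).2.length
    · rw [if_pos b1, uses_eq_zero hb.ok (le_refl _), hlen, if_neg (by omega), if_neg (by omega)]
      omega
    · rw [if_neg b1]
      have hv' : v < (cpW (cpW s w1) w2).2.length := by omega
      have e1 : (cpW (cpW s w1) w2).2.getD v 0 =
          if v = w2 then s.1.length + 1 else if v = w1 then s.1.length else s.2.getD v 0 := by
        have e2 : (cpW (cpW s w1) w2).2 = (s.2.set w1 s.1.length).set w2 (s.1.length + 1) := by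
          simp [cpW]
        rw [e2, getD_set _ _ _ _ _ (by simpa using h2), getD_set _ _ _ _ _ h1]
      have hu := hb.u1 v hv'
      have hvl := h.lt v (by omega)
      rw [e1] at hu ⊢
      by_cases c2 : v = w2
      · rw [if_pos c2, hq, if_neg (by omega), if_pos rfl]
      · rw [if_neg c2] at hu ⊢
        by_cases c1 : v = w1
        · rw [if_pos c1] at hu ⊢
          rw [if_pos rfl, if_neg (by omega)]
          have : w1 ≠ w2 := by rw [← c1]; exact c2
          rw [if_neg this] at hp
          omega
        · rw [if_neg c1] at hu ⊢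
          rw [if_neg (by omega), if_neg (by omega)]
          omega
  · intro c
    rw [uses_append, uses_cons, uses_nil]
    have e0 : slots c (2, s.1.length, s.1.length + 1) =
        (if s.1.length = c then 1 else 0) + (if s.1.length + 1 = c then 1 else 0) := by
      simp [slots]
    rw [e0]
    have := hb.u2 c
    by_cases c1 : s.1.length = c
    · rw [if_pos c1, if_neg (by omega)]
      rw [c1] at hp'
      omega
    · rw [if_neg c1]
      by_cases c2 : s.1.length + 1 = c
      · rw [if_pos c2]; rw [c2] at hq; omega
      · rw [if_neg c2]; omega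

theorem nandW_VI {x : ℕ → Bool} {n : ℕ} {s : St} {wv : List Bool} (h : SI n s) (hv : VI x s wv)
    {w1 w2 : ℕ} (h1 : w1 < s.2.length) (h2 : w2 < s.2.length) :
    VI x (nandW s w1 w2) (wv ++ [!(wv.getD w1 false && wv.getD w2 false)]) := by
  have ha := cpW_SI h h1
  have h2' : w2 < (cpW s w1).2.length := by simpa [cpW] using h2
  have hb : SI n (cpW (cpW s w1) w2) := cpW_SI ha h2'
  have va := cpW_VI h hv h1
  have vb := cpW_VI ha va h2'
  have hlen : (cpW (cpW s w1) w2).1.length = s.1.length + 2 := by simp [cpW]
  have hwlen : (cpW (cpW s w1) w2).2.length = s.2.length := by simp [cpW]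
  have p1 : (nvals x (cpW (cpW s w1) w2).1).getD s.1.length false = wv.getD w1 false := by
    rw [cpW_fst, nvals_prefix _ _ _ _ (by simp [cpW])]
    have := va.2 w1 (by simpa [cpW] using h1)
    have e1 : (cpW s w1).2.getD w1 0 = s.1.length := by
      simp only [cpW]; rw [getD_set _ _ _ _ _ h1, if_pos rfl]
    rw [e1] at this
    exact this
  have p2 : (nvals x (cpW (cpW s w1) w2).1).getD (s.1.length + 1) false = wv.getD w2 false := by
    have := vb.2 w2 (by simpa [cpW] using h2)
    have e1 : (cpW (cpW s w1) w2).2.getD w2 0 = s.1.length + 1 := by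
      have e2 : (cpW (cpW s w1) w2).2 = (s.2.set w1 s.1.length).set w2 (s.1.length + 1) := by
        simp [cpW]
      rw [e2, getD_set _ _ _ _ _ (by simpa using h2), if_pos rfl]
    rw [e1] at this
    exact this
  unfold nandW nd2
  refine ⟨?_, fun v hv' => ?_⟩
  · simp only [List.length_append, List.length_singleton]
    rw [vb.1]
  · simp only [List.length_append, List.length_singleton] at hv' ⊢
    rw [getD_snoc, getD_snoc, vb.1]
    split_ifs with b1
    · rw [nvals_new]
      simp only [ndVal]
      rw [if_neg (by omega), if_neg (by omega), p1, p2]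
    · have hv'' : v < (cpW (cpW s w1) w2).2.length := by omega
      rw [nvals_prefix _ _ _ _ (hb.lt v hv'')]
      exact vb.2 v hv''

/-! ### translation of gates -/

/-- translate one raw gate; `s.2` is the wire of every gate so far -/
def gstep (s : St × List ℕ) (g : ℕ × ℕ × ℕ) : St × List ℕ :=
  let a := s.2.getD g.2.1 0
  let b := s.2.getD g.2.2 0
  let W := s.1.2.length
  if g.1 = 0 then (s.1, s.2 ++ [g.2.1])
  else if g.1 = 1 then (nandW (nandW s.1 a b) W W, s.2 ++ [W + 1])
  else if g.1 = 2 then (nandW (nandW (nandW s.1 a a) b b) W (W + 1), s.2 ++ [W + 2])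
  else (nandW s.1 a a, s.2 ++ [W])

/-- start state with `n` inputs -/
def st0 (n : ℕ) : St × List ℕ := (((List.range n).map fun i => (0, i, i), List.range n), [])

/-- state after the gates -/
def stG (n : ℕ) (gates : List (ℕ × ℕ × ℕ)) : St × List ℕ := gates.foldl gstep (st0 n)

/-- emit an output -/
def ostep (gm : List ℕ) (s : St) (o : ℕ) : St := cpW s (gm.getD o 0)

/-- the normal form: node list, first `n` nodes inputs, last `outs.length` nodes outputs -/
def norm (n : ℕ) (gates : List (ℕ × ℕ × ℕ)) (outs : List ℕ) : List Nd :=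
  (outs.foldl (ostep (stG n gates).2) (stG n gates).1).1

/-- invariant of the full state: structure -/
structure GI (n k : ℕ) (s : St × List ℕ) : Prop where
  si : SI n s.1
  gl : s.2.length = k
  gw : ∀ t < k, s.2.getD t 0 < s.1.2.length
  nw : n ≤ s.1.2.length
  nl : s.1.1.length ≤ n + 9 * k

/-- invariant of the full state: values -/
def GV (x : ℕ → Bool) (n : ℕ) (s : St × List ℕ) (l : List BGate) (wv : List Bool) : Prop :=
  VI x s.1 wv ∧ (∀ i < n, wv.getD i false = x i) ∧
    ∀ t < l.length, wv.getD (s.2.getD t 0) false = (bvals x l).getD t false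

theorem getD_range_map (n i : ℕ) (hi : i < n) :
    (((List.range n).map fun i => ((0, i, i) : Nd)).getD i (0, 0, 0)) = (0, i, i) := by
  rw [List.getD_eq_getElem?_getD]
  simp [hi]

theorem nvals_inputs (x : ℕ → Bool) (n : ℕ) (l : List Nd) (i : ℕ) (hi : i < n) :
    (nvals x (((List.range n).map fun i => ((0, i, i) : Nd)) ++ l)).getD i false = x i := by
  have h1 : ((List.range n).map fun i => ((0, i, i) : Nd)) ++ l =
      ((List.range i).map fun i => ((0, i, i) : Nd)) ++ ((0, i, i) :: ((((List.range n).map
        fun i => ((0, i, i) : Nd)).drop (i + 1)) ++ l)) := by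
    have h2 : ((List.range n).map fun i => ((0, i, i) : Nd)) =
        ((List.range n).map fun i => ((0, i, i) : Nd)).take i ++
        ((List.range n).map fun i => ((0, i, i) : Nd)).drop i := (List.take_append_drop _ _).symm
    have h3 : ((List.range n).map fun i => ((0, i, i) : Nd)).take i =
        ((List.range i).map fun i => ((0, i, i) : Nd)) := by
      rw [← List.map_take, List.take_range, min_eq_left hi.le]
    have h4 : ((List.range n).map fun i => ((0, i, i) : Nd)).drop i =
        (0, i, i) :: ((List.range n).map fun i => ((0, i, i) : Nd)).drop (i + 1) := by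
      rw [List.drop_eq_getElem_cons (by simpa using hi)]
      simp
    conv_lhs => rw [h2, h3, h4]
    simp
  rw [h1]
  have := nvals_new x ((List.range i).map fun i => ((0, i, i) : Nd)) ((((List.range n).map
        fun i => ((0, i, i) : Nd)).drop (i + 1)) ++ l) (0, i, i)
  simp only [List.length_map, List.length_range] at this
  rw [this]
  simp [ndVal]

theorem st0_GI (n : ℕ) : GI n 0 (st0 n) := by
  have hr : ∀ w < n, (List.range n).getD w 0 = w := by
    intro w hw
    rw [List.getD_eq_getElem?_getD]; simp [hw]
  have hok : NOK n ((List.range n).map fun i => ((0, i, i) : Nd)) := by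
    refine ⟨by simp, fun t ht => ?_⟩
    have ht' : t < n := by simpa using ht
    unfold ndOK
    rw [if_pos ht']
    simp
  have hu : ∀ c, uses ((List.range n).map fun i => ((0, i, i) : Nd)) c = 0 := by
    intro c
    unfold uses
    rw [List.sum_eq_zero_iff]
    intro k hk
    simp only [List.mem_map, List.mem_range] at hk
    obtain ⟨g, ⟨i, _, rfl⟩, rfl⟩ := hk
    simp [slots]
  refine ⟨⟨hok, ?_, ?_, ?_, ?_⟩, rfl, by simp, by simp [st0], by simp [st0]⟩
  · intro w hw
    have hw' : w < n := by simpa [st0] using hw
    simp only [st0, List.length_map, List.length_range]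
    rw [hr w hw']; exact hw'
  · intro w hw w' hw' hh
    have h1 : w < n := by simpa [st0] using hw
    have h2 : w' < n := by simpa [st0] using hw'
    simp only [st0] at hh
    rwa [hr w h1, hr w' h2] at hh
  · intro w _
    simp only [st0]
    rw [hu]; omega
  · intro c
    simp only [st0]
    rw [hu]; omega

theorem st0_GV (x : ℕ → Bool) (n : ℕ) : GV x n (st0 n) [] ((List.range n).map x) := by
  have hr : ∀ w < n, (List.range n).getD w 0 = w := by
    intro w hw
    rw [List.getD_eq_getElem?_getD]; simp [hw]
  have hx : ∀ w < n, ((List.range n).map x).getD w false = x w := by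
    intro w hw
    rw [List.getD_eq_getElem?_getD]; simp [hw]
  refine ⟨⟨by simp [st0], fun w hw => ?_⟩, hx, by simp⟩
  have hw' : w < n := by simpa [st0] using hw
  simp only [st0]
  rw [hr w hw', hx w hw']
  have := nvals_inputs x n [] w hw'
  rwa [List.append_nil] at this

theorem gstep_spec {n k : ℕ} {s : St × List ℕ} (h : GI n k s) {g : BGate} (hg : g.WF n k) :
    GI n (k + 1) (gstep s (rawBGate g)) ∧
    ∀ (x : ℕ → Bool) (l : List BGate) (wv : List Bool), l.length = k → GV x n s l wv →
      ∃ wv', GV x n (gstep s (rawBGate g)) (l ++ [g]) wv' := by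
  -- extension of the value part by new wires
  have ext : ∀ (x : ℕ → Bool) (l : List BGate) (wv wv' : List Bool) (W : ℕ) (st : St),
      l.length = k → GV x n s l wv → wv.length ≤ W + 1 → VI x st (wv ++ wv') →
      (W < wv.length + wv'.length ∧ (wv ++ wv').getD W false = g.eval x (bvals x l)) →
      GV x n (st, s.2 ++ [W]) (l ++ [g]) (wv ++ wv') := by
    intro x l wv wv' W st hl hv _ hst hW
    have hlw : wv.length = s.1.2.length := hv.1.1
    refine ⟨hst, fun i hi => ?_, fun t ht => ?_⟩
    · rw [List.getD_append _ _ _ _ (by have := h.nw; omega)]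
      exact hv.2.1 i hi
    · simp only [List.length_append, List.length_singleton] at ht
      rw [getD_snoc, h.gl]
      by_cases ht' : t = k
      · rw [if_pos ht', bvals_append_singleton, getD_snoc, if_pos (by simp; omega)]
        exact hW.2
      · rw [if_neg ht', bvals_append_singleton, getD_snoc, if_neg (by simp; omega)]
        rw [List.getD_append _ _ _ _ (by rw [hlw]; exact h.gw t (by omega))]
        exact hv.2.2 t (by omega)
  have gw' : ∀ (st : St) (W : ℕ), s.1.2.length ≤ st.2.length → W < st.2.length →
      ∀ t < k + 1, (s.2 ++ [W]).getD t 0 < st.2.length := by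
    intro st W h1 h2 t ht
    rw [getD_snoc, h.gl]
    split_ifs with h3
    · exact h2
    · have := h.gw t (by omega); omega
  cases g with
  | var i =>
    have hi : i < n := hg
    have e : gstep s (rawBGate (BGate.var i)) = (s.1, s.2 ++ [i]) := by simp [gstep, rawBGate]
    rw [e]
    refine ⟨⟨h.si, by simp [h.gl], gw' s.1 i le_rfl (by have := h.nw; omega), h.nw, by
      have := h.nl; show s.1.1.length ≤ _; omega⟩, ?_⟩
    intro x l wv hl hv
    refine ⟨wv ++ [], ?_⟩
    have hlw : wv.length = s.1.2.length := hv.1.1
    refine ⟨by simpa using hv.1, fun j hj => by simpa using hv.2.1 j hj, fun t ht => ?_⟩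
    simp only [List.length_append, List.length_singleton] at ht
    rw [getD_snoc, h.gl]
    by_cases ht' : t = k
    · rw [if_pos ht', bvals_append_singleton, getD_snoc, if_pos (by simp; omega)]
      simpa [BGate.eval] using hv.2.1 i hi
    · rw [if_neg ht', bvals_append_singleton, getD_snoc, if_neg (by simp; omega)]
      simpa using hv.2.2 t (by omega)
  | and a b =>
    obtain ⟨ha, hb⟩ := hg
    have e : gstep s (rawBGate (BGate.and a b)) = (nandW (nandW s.1 (s.2.getD a 0) (s.2.getD b 0))
        s.1.2.length s.1.2.length, s.2 ++ [s.1.2.length + 1]) := by simp [gstep, rawBGate]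
    rw [e]
    have wa := h.gw a ha
    have wb := h.gw b hb
    have s1 := nandW_SI h.si wa wb
    have l1 := nandW_wlen s.1 (s.2.getD a 0) (s.2.getD b 0)
    have s2 := nandW_SI s1 (w1 := s.1.2.length) (w2 := s.1.2.length) (by omega) (by omega)
    have l2 := nandW_wlen (nandW s.1 (s.2.getD a 0) (s.2.getD b 0)) s.1.2.length s.1.2.length
    have m1 := nandW_len s.1 (s.2.getD a 0) (s.2.getD b 0)
    have m2 := nandW_len (nandW s.1 (s.2.getD a 0) (s.2.getD b 0)) s.1.2.length s.1.2.length
    have G := gw' (nandW (nandW s.1 (s.2.getD a 0) (s.2.getD b 0)) s.1.2.length s.1.2.length)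
      (s.1.2.length + 1) (by omega) (by omega)
    refine ⟨⟨s2, by simp [h.gl], G, by have := h.nw; simp only; omega, by
      have := h.nl; simp only; omega⟩, ?_⟩
    intro x l wv hl hv
    have hlw : wv.length = s.1.2.length := hv.1.1
    have v1 := nandW_VI h.si hv.1 wa wb
    have v2 := nandW_VI s1 v1 (w1 := s.1.2.length) (w2 := s.1.2.length) (by omega) (by omega)
    rw [List.append_assoc] at v2
    refine ⟨_, ext x l wv _ _ _ hl hv (by omega) v2 ⟨by simp; omega, ?_⟩⟩
    rw [← hlw]
    have q1 := hv.2.2 a (by omega)
    have q2 := hv.2.2 b (by omega)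
    rw [List.getD_append_right _ _ _ _ (by omega)]
    simp only [Nat.add_sub_cancel_left, List.cons_append, List.nil_append, List.getD_cons_succ,
      List.getD_cons_zero]
    rw [List.getD_append_right _ _ _ _ (by omega)]
    simp only [Nat.sub_self, List.getD_cons_zero, q1, q2, BGate.eval]
    cases (bvals x l).getD a false <;> cases (bvals x l).getD b false <;> rfl
  | or a b =>
    obtain ⟨ha, hb⟩ := hg
    have e : gstep s (rawBGate (BGate.or a b)) = (nandW (nandW (nandW s.1 (s.2.getD a 0) (s.2.getD a 0))
        (s.2.getD b 0) (s.2.getD b 0)) s.1.2.length (s.1.2.length + 1),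
        s.2 ++ [s.1.2.length + 2]) := by simp [gstep, rawBGate]
    rw [e]
    have wa := h.gw a ha
    have wb := h.gw b hb
    have s1 := nandW_SI h.si wa wa
    have l1 := nandW_wlen s.1 (s.2.getD a 0) (s.2.getD a 0)
    have s2 := nandW_SI s1 (w1 := s.2.getD b 0) (w2 := s.2.getD b 0) (by omega) (by omega)
    have l2 := nandW_wlen (nandW s.1 (s.2.getD a 0) (s.2.getD a 0)) (s.2.getD b 0) (s.2.getD b 0)
    have s3 := nandW_SI s2 (w1 := s.1.2.length) (w2 := s.1.2.length + 1) (by omega) (by omega)
    have l3 := nandW_wlen (nandW (nandW s.1 (s.2.getD a 0) (s.2.getD a 0)) (s.2.getD b 0)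
      (s.2.getD b 0)) s.1.2.length (s.1.2.length + 1)
    have m1 := nandW_len s.1 (s.2.getD a 0) (s.2.getD a 0)
    have m2 := nandW_len (nandW s.1 (s.2.getD a 0) (s.2.getD a 0)) (s.2.getD b 0) (s.2.getD b 0)
    have m3 := nandW_len (nandW (nandW s.1 (s.2.getD a 0) (s.2.getD a 0)) (s.2.getD b 0)
      (s.2.getD b 0)) s.1.2.length (s.1.2.length + 1)
    have G := gw' (nandW (nandW (nandW s.1 (s.2.getD a 0) (s.2.getD a 0)) (s.2.getD b 0)
      (s.2.getD b 0)) s.1.2.length (s.1.2.length + 1)) (s.1.2.length + 2) (by omega) (by omega)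
    refine ⟨⟨s3, by simp [h.gl], G, by have := h.nw; simp only; omega, by
      have := h.nl; simp only; omega⟩, ?_⟩
    intro x l wv hl hv
    have hlw : wv.length = s.1.2.length := hv.1.1
    have v1 := nandW_VI h.si hv.1 wa wa
    have v2 := nandW_VI s1 v1 (w1 := s.2.getD b 0) (w2 := s.2.getD b 0) (by omega) (by omega)
    have v3 := nandW_VI s2 v2 (w1 := s.1.2.length) (w2 := s.1.2.length + 1) (by omega) (by omega)
    simp only [List.append_assoc, List.cons_append, List.nil_append] at v3
    refine ⟨_, ext x l wv _ _ _ hl hv (by omega) v3 ⟨by simp; omega, ?_⟩⟩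
    rw [← hlw]
    have q1 := hv.2.2 a (by omega)
    have q2 := hv.2.2 b (by omega)
    rw [← hlw] at wb
    have r1 : ∀ u v : Bool, (wv ++ [u, v]).getD wv.length false = u := by
      intro u v; rw [List.getD_append_right _ _ _ _ (by omega)]; simp
    have r2 : ∀ u v : Bool, (wv ++ [u, v]).getD (wv.length + 1) false = v := by
      intro u v; rw [List.getD_append_right _ _ _ _ (by omega)]; simp
    have r3 : ∀ u : Bool, (wv ++ [u]).getD (s.2.getD b 0) false = wv.getD (s.2.getD b 0) false := by
      intro u; rw [List.getD_append _ _ _ _ wb]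
    have r4 : ∀ u v w : Bool, (wv ++ [u, v, w]).getD (wv.length + 2) false = w := by
      intro u v w; rw [List.getD_append_right _ _ _ _ (by omega)]; simp
    rw [r4, r1, r2, r3, q1, q2]
    simp only [BGate.eval]
    cases (bvals x l).getD a false <;> cases (bvals x l).getD b false <;> rfl
  | not a =>
    have ha : a < k := hg
    have e : gstep s (rawBGate (BGate.not a)) = (nandW s.1 (s.2.getD a 0) (s.2.getD a 0),
        s.2 ++ [s.1.2.length]) := by simp [gstep, rawBGate]
    rw [e]
    have wa := h.gw a ha
    have s1 := nandW_SI h.si wa wa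
    have l1 := nandW_wlen s.1 (s.2.getD a 0) (s.2.getD a 0)
    have m1 := nandW_len s.1 (s.2.getD a 0) (s.2.getD a 0)
    have G := gw' (nandW s.1 (s.2.getD a 0) (s.2.getD a 0)) s.1.2.length (by omega) (by omega)
    refine ⟨⟨s1, by simp [h.gl], G, by have := h.nw; simp only; omega, by
      have := h.nl; simp only; omega⟩, ?_⟩
    intro x l wv hl hv
    have hlw : wv.length = s.1.2.length := hv.1.1
    have v1 := nandW_VI h.si hv.1 wa wa
    refine ⟨_, ext x l wv _ _ _ hl hv (by omega) v1 ⟨by simp; omega, ?_⟩⟩
    rw [← hlw]
    have q1 := hv.2.2 a (by omega)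
    rw [List.getD_append_right _ _ _ _ (by omega)]
    simp only [Nat.sub_self, List.getD_cons_zero, q1, BGate.eval]
    cases (bvals x l).getD a false <;> rfl

/-- state after all gates -/
theorem stG_spec (n : ℕ) (l : List BGate) (hl : ∀ t : Fin l.length, (l.get t).WF n t) :
    GI n l.length (stG n (l.map rawBGate)) ∧
    ∀ x : ℕ → Bool, ∃ wv, GV x n (stG n (l.map rawBGate)) l wv := by
  induction l using List.reverseRecOn with
  | nil => exact ⟨st0_GI n, fun x => ⟨_, st0_GV x n⟩⟩
  | append_singleton l g ih =>
    have hl' : ∀ t : Fin l.length, (l.get t).WF n t := by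
      intro t
      have := hl ⟨t.1, by have := t.2; simp only [List.length_append, List.length_singleton]; omega⟩
      simpa [List.getElem_append_left t.2] using this
    have hg : g.WF n l.length := by
      have := hl ⟨l.length, by simp⟩
      simpa using this
    obtain ⟨h1, h2⟩ := ih hl'
    have e : stG n ((l ++ [g]).map rawBGate) = gstep (stG n (l.map rawBGate)) (rawBGate g) := by
      simp [stG]
    rw [e]
    obtain ⟨h3, h4⟩ := gstep_spec h1 hg
    refine ⟨by simpa using h3, fun x => ?_⟩
    obtain ⟨wv, hwv⟩ := h2 x
    exact h4 x l wv rfl hwv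

/-- the outputs -/
theorem out_spec (n : ℕ) (gm : List ℕ) (outs : List ℕ) (s : St) (h : SI n s)
    (ho : ∀ o ∈ outs, gm.getD o 0 < s.2.length) :
    SI n (outs.foldl (ostep gm) s) ∧
    (outs.foldl (ostep gm) s).1.length = s.1.length + outs.length ∧
    (outs.foldl (ostep gm) s).2.length = s.2.length ∧
    (∃ r, (outs.foldl (ostep gm) s).1 = s.1 ++ r ∧ ∀ g ∈ r, g.1 = 1) ∧
    ∀ (x : ℕ → Bool) (wv : List Bool), VI x s wv → VI x (outs.foldl (ostep gm) s) wv ∧
      ∀ j < outs.length, (nvals x (outs.foldl (ostep gm) s).1).getD (s.1.length + j) false =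
        wv.getD (gm.getD (outs.getD j 0) 0) false := by
  induction outs using List.reverseRecOn with
  | nil => exact ⟨h, by simp, by simp, ⟨[], by simp, by simp⟩, fun x wv hv => ⟨hv, by simp⟩⟩
  | append_singleton outs o ih =>
    obtain ⟨h1, h2, h3, ⟨r, hr, hr'⟩, h4⟩ := ih (fun o' ho' => ho o' (by simp [ho']))
    have hw : gm.getD o 0 < (outs.foldl (ostep gm) s).2.length := by
      rw [h3]; exact ho o (by simp)
    rw [List.foldl_append, List.foldl_cons, List.foldl_nil]
    refine ⟨cpW_SI h1 hw, ?_, ?_, ?_, ?_⟩
    · simp only [ostep, cpW, List.length_append, List.length_singleton, h2]; omega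
    · simp only [ostep, cpW, List.length_set, h3]
    · refine ⟨r ++ [(1, (outs.foldl (ostep gm) s).2.getD (gm.getD o 0) 0,
        (outs.foldl (ostep gm) s).2.getD (gm.getD o 0) 0)], ?_, ?_⟩
      · simp only [ostep, cpW_fst]
        rw [hr, List.append_assoc]
      · intro g hg
        rcases List.mem_append.1 hg with hg | hg
        · exact hr' g hg
        · rw [List.mem_singleton.1 hg]
    · intro x wv hv
      obtain ⟨h5, h6⟩ := h4 x wv hv
      refine ⟨cpW_VI h1 h5 hw, fun j hj => ?_⟩
      simp only [List.length_append, List.length_singleton] at hj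
      simp only [ostep, cpW_fst]
      by_cases hj' : j < outs.length
      · rw [nvals_prefix _ _ _ _ (by omega), h6 j hj', List.getD_append _ _ _ _ hj']
      · have hj2 : j = outs.length := by omega
        subst hj2
        rw [← h2, nvals_new]
        have e1 : (outs ++ [o]).getD outs.length 0 = o := by rw [getD_snoc, if_pos rfl]
        rw [e1]
        simp only [ndVal]
        rw [if_neg (by omega), if_pos trivial]
        exact h5.2 _ hw

/-- **normal form of a well-formed circuit** -/
theorem norm_spec {n : ℕ} (C : BCircuit n) (h : C.WF) :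
    NOK n (norm n (C.gates.map rawBGate) C.outs) ∧
    (∀ c, uses (norm n (C.gates.map rawBGate) C.outs) c ≤ 2) ∧
    (norm n (C.gates.map rawBGate) C.outs).length ≤ 2 * n + 9 * C.gates.length ∧
    2 * n ≤ (norm n (C.gates.map rawBGate) C.outs).length ∧
    (∀ t, ∀ ht : t < (norm n (C.gates.map rawBGate) C.outs).length,
      (norm n (C.gates.map rawBGate) C.outs).length - n ≤ t →
      ((norm n (C.gates.map rawBGate) C.outs)[t]).1 = 1) ∧
    ∀ (x : Fin n → Bool) (j : Fin n),
      (nvals (ext x) (norm n (C.gates.map rawBGate) C.outs)).getD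
        ((norm n (C.gates.map rawBGate) C.outs).length - n + j) false = C.apply x j := by
  obtain ⟨h1, h2, h3⟩ := h
  obtain ⟨g1, g2⟩ := stG_spec n C.gates h3
  obtain ⟨o1, o2, o3, ⟨r, hr, hr'⟩, o4⟩ := out_spec n (stG n (C.gates.map rawBGate)).2 C.outs
    (stG n (C.gates.map rawBGate)).1 g1.si (fun o ho => g1.gw o (h2 o ho))
  have hn : n ≤ (stG n (C.gates.map rawBGate)).1.1.length := g1.si.ok.1
  have hnl := g1.nl
  refine ⟨o1.ok, o1.u2, ?_, ?_, ?_, ?_⟩
  · unfold norm; rw [o2, h1]; omega
  · unfold norm; rw [o2, h1]; omega
  · intro t ht ht'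
    have e1 : norm n (C.gates.map rawBGate) C.outs = (stG n (C.gates.map rawBGate)).1.1 ++ r := hr
    have e2 : (norm n (C.gates.map rawBGate) C.outs).length =
        (stG n (C.gates.map rawBGate)).1.1.length + n := by unfold norm; rw [o2, h1]
    have h4 : (stG n (C.gates.map rawBGate)).1.1.length ≤ t := by omega
    have h5 : (norm n (C.gates.map rawBGate) C.outs)[t] ∈ r := by
      have : (norm n (C.gates.map rawBGate) C.outs)[t] = ((stG n (C.gates.map rawBGate)).1.1 ++ r)[t]'(by
        rw [← e1]; exact ht) := by
        congr 1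
      rw [this, List.getElem_append_right h4]
      exact List.getElem_mem _
    exact hr' _ h5
  · intro x j
    obtain ⟨wv, hwv⟩ := g2 (ext x)
    obtain ⟨_, o5⟩ := o4 (ext x) wv hwv.1
    have h4 := o5 j (by rw [h1]; exact j.2)
    have e2 : (norm n (C.gates.map rawBGate) C.outs).length - n =
        (stG n (C.gates.map rawBGate)).1.1.length := by unfold norm; rw [o2, h1]; omega
    rw [e2]
    unfold norm
    rw [h4, apply_eq]
    have hj : C.outs.getD j 0 < C.gates.length := by
      rw [List.getD_eq_getElem?_getD, List.getElem?_eq_getElem (by rw [h1]; exact j.2)]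
      exact h2 _ (List.getElem_mem _)
    exact hwv.2.2 _ hj

/-! ### uniqueness of values -/

/-- the value list of a well-formed circuit is the only solution of the gate equations -/
theorem bvals_unique {n : ℕ} (x : ℕ → Bool) (l : List BGate)
    (hl : ∀ t : Fin l.length, (l.get t).WF n t) (w : List Bool)
    (hw : ∀ t, ∀ ht : t < l.length, w.getD t false = (l[t]).eval x w) :
    ∀ t < l.length, w.getD t false = (bvals x l).getD t false := by
  intro t
  induction t using Nat.strong_induction_on with
  | _ t ih =>
    intro ht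
    rw [hw t ht, bvals_get x l hl t ht]
    exact eval_congr x (hl ⟨t, ht⟩) (fun s hs => ih s hs (by omega))

/-- the same for node lists -/
theorem nvals_get {n : ℕ} (x : ℕ → Bool) (P : List Nd) (hP : NOK n P) (t : ℕ) (ht : t < P.length) :
    (nvals x P).getD t false = ndVal x (nvals x P) P[t] := by
  have h1 : P = P.take t ++ P[t] :: P.drop (t + 1) := by
    rw [← List.drop_eq_getElem_cons ht, List.take_append_drop]
  have h2 := nvals_new x (P.take t) (P.drop (t + 1)) P[t]
  rw [← h1] at h2
  have h3 : (P.take t).length = t := by simp; omega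
  rw [h3] at h2
  rw [h2]
  have h4 := hP.2 t ht
  have h5 : ∀ s < t, (nvals x (P.take t)).getD s false = (nvals x P).getD s false := by
    intro s hs
    have h6 : P = P.take t ++ P.drop t := (List.take_append_drop _ _).symm
    conv_rhs => rw [h6]
    exact (nvals_prefix x _ _ s (by rw [h3]; exact hs)).symm
  unfold ndOK at h4
  unfold ndVal
  split_ifs at h4 with h7
  · rw [h4]; simp
  · rcases h4 with ⟨h8, h9, h10⟩ | ⟨h8, h9, h10⟩
    · rw [if_neg (by omega), if_pos h8, if_neg (by omega), if_pos h8, h5 _ h9]
    · rw [if_neg (by omega), if_neg (by omega), if_neg (by omega), if_neg (by omega), h5 _ h9,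
        h5 _ h10]

theorem nvals_unique {n : ℕ} (x : ℕ → Bool) (P : List Nd) (hP : NOK n P) (w : List Bool)
    (hw : ∀ t, ∀ ht : t < P.length, w.getD t false = ndVal x w P[t]) :
    ∀ t < P.length, w.getD t false = (nvals x P).getD t false := by
  intro t
  induction t using Nat.strong_induction_on with
  | _ t ih =>
    intro ht
    rw [hw t ht, nvals_get x P hP t ht]
    have h4 := hP.2 t ht
    unfold ndOK at h4
    unfold ndVal
    split_ifs at h4 with h7
    · rw [h4]; simp
    · rcases h4 with ⟨h8, h9, h10⟩ | ⟨h8, h9, h10⟩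
      · rw [if_neg (by omega), if_pos h8, if_neg (by omega), if_pos h8, ih _ h9 (by omega)]
      · rw [if_neg (by omega), if_neg (by omega), if_neg (by omega), if_neg (by omega),
          ih _ h9 (by omega), ih _ h10 (by omega)]

/-! ### length bounds -/

theorem natBits_length (k : ℕ) : (natBits k).length = 2 * k.size + 2 := by
  unfold natBits
  rw [List.length_append, List.length_flatMap]
  simp only [List.length_cons, List.length_nil]
  rw [List.map_const', List.sum_replicate]
  have : k.bits.length = k.size := Nat.size_eq_bits_len k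
  simp only [smul_eq_mul]
  omega

theorem two_le_natBits (k : ℕ) : 2 ≤ (natBits k).length := by
  rw [natBits_length]; omega

theorem flatMap_natBits_length (l : List ℕ) :
    (l.flatMap natBits).length = (l.map fun k => 2 * k.size + 2).sum := by
  rw [List.length_flatMap]
  congr 1
  exact List.map_congr_left (fun k _ => natBits_length k)

theorem two_mul_length_le (l : List ℕ) : 2 * l.length ≤ (l.flatMap natBits).length := by
  rw [flatMap_natBits_length]
  induction l with
  | nil => simp
  | cons a l ih => simp only [List.length_cons, List.map_cons, List.sum_cons]; omega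

theorem gate_toNats_length (g : BGate) : 2 ≤ g.toNats.length := by
  cases g <;> simp [BGate.toNats]

theorem gates_toNats_length (l : List BGate) : 2 * l.length ≤ (l.flatMap BGate.toNats).length := by
  induction l with
  | nil => simp
  | cons g l ih =>
    have := gate_toNats_length g
    simp only [List.length_cons, List.flatMap_cons, List.length_append]
    omega

theorem circ_toNats_length {n : ℕ} (C : BCircuit n) :
    2 * C.gates.length + C.outs.length + 2 ≤ C.toNats.length := by
  have := gates_toNats_length C.gates
  unfold BCircuit.toNats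
  simp only [List.length_append, List.length_cons]
  omega

/-- number of gates, number of outputs: `4 (#gates) + 2 (#outs)` for both circuits fit into the
encoding -/
theorem encode_bound (I : EOL) :
    4 * (I.S.gates.length + I.P.gates.length) + 2 * (I.S.outs.length + I.P.outs.length) + 10 ≤
      I.encode.length := by
  have h1 := circ_toNats_length I.S
  have h2 := circ_toNats_length I.P
  have h3 := two_mul_length_le (I.n :: (I.S.toNats ++ I.P.toNats))
  unfold EOL.encode
  simp only [List.length_append, List.length_cons] at h3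
  omega

/-- for a well-formed instance: `n`, the numbers of gates, all below the input length -/
theorem encode_bound_wf (I : EOL) (h : I.WF) :
    4 * (I.S.gates.length + I.P.gates.length) + 4 * I.n + 10 ≤ I.encode.length := by
  have h1 := encode_bound I
  have h2 := h.2.1.1
  have h3 := h.2.2.1.1
  omega

/-- size of the two normal forms together: at most `3 N` -/
theorem norm_length_wf (I : EOL) (h : I.WF) :
    (norm I.n (rawC I.S).1 (rawC I.S).2).length + (norm I.n (rawC I.P).1 (rawC I.P).2).length ≤
      3 * I.encode.length := by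
  have h1 := encode_bound_wf I h
  have h2 := (norm_spec I.S h.2.1).2.2.1
  have h3 := (norm_spec I.P h.2.2.1).2.2.1
  unfold rawC
  simp only
  omega

end Crest.Agent.R289.Circ328
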