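import Crest.Agent.Lib.PT.Typed
import Crest.Prelude.Def_GenCircuit
import Crest.Prelude.Def_EndOfLine

/-!
# Row 289, block E (Lean interface): definitions only

* `PExp`: piecewise linear expressions (const, scale, capped add, floored sub) over the variables of
  the neighbours of a unit.
* `LSys`: a finite table of unit types; `Units`: the list of units of one instance (type, neighbours).
* `Rest`: approximate rest states (all but a `β`-fraction of the units obey their rules up to `η`).
* `raw`: an End-of-Line instance as a coded value.
* `Machine289`: what blocks A-D have to deliver; block E proves `Machine289 → S0434`.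
-/

set_option autoImplicit false

namespace Crest.Agent.R289

open Crest.PPADPCP Crest.Agent.Lib.PT

/-- expressions of a unit: `var k l` = variable `l` of the `k`-th neighbour -/
inductive PExp
  | var : ℕ → ℕ → PExp
  | const : ℚ → PExp
  | scale : ℚ → PExp → PExp
  | add : PExp → PExp → PExp
  | sub : PExp → PExp → PExp

namespace PExp

/-- value of an expression (`x k l` = value of variable `l` of the `k`-th neighbour) -/
def eval (x : ℕ → ℕ → ℚ) : PExp → ℚ
  | .var k l => x k l
  | .const q => q
  | .scale q e => q * e.eval x
  | .add a b => min (a.eval x + b.eval x) 1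
  | .sub a b => max (a.eval x - b.eval x) 0

/-- neighbours below `K`, variables below `L`, parameters in `[0,1]` -/
def WF (K L : ℕ) : PExp → Prop
  | .var k l => k < K ∧ l < L
  | .const q => 0 ≤ q ∧ q ≤ 1
  | .scale q e => (0 ≤ q ∧ q ≤ 1) ∧ e.WF K L
  | .add a b => a.WF K L ∧ b.WF K L
  | .sub a b => a.WF K L ∧ b.WF K L

/-- number of nodes of the expression (= number of gates of its compilation) -/
def size : PExp → ℕ
  | .var _ _ => 1
  | .const _ => 1
  | .scale _ e => e.size + 1
  | .add a b => a.size + b.size + 1
  | .sub a b => a.size + b.size + 1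

end PExp

/-- a finite table of unit types: `T` types, `K` neighbours per unit, `L` variables per unit,
`rule t l` the expression that variable `l` of a unit of type `t` has to equal -/
structure LSys where
  /-- number of types -/
  T : ℕ
  /-- neighbours per unit -/
  K : ℕ
  /-- variables per unit -/
  L : ℕ
  /-- the rules -/
  rule : ℕ → ℕ → PExp

/-- well formed table -/
def LSys.WF (S : LSys) : Prop :=
  0 < S.L ∧ ∀ t < S.T, ∀ l < S.L, (S.rule t l).WF S.K S.L

/-- the units of an instance: type and list of neighbours -/
abbrev Units := List (ℕ × List ℕ)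

/-- type of unit `u` -/
def Units.ty (U : Units) (u : ℕ) : ℕ := (U.getD u (0, [])).1

/-- `k`-th neighbour of unit `u` -/
def Units.nbr (U : Units) (u k : ℕ) : ℕ := (U.getD u (0, [])).2.getD k 0

/-- well formed list of units -/
def Units.WF (S : LSys) (U : Units) : Prop :=
  U ≠ [] ∧ ∀ w ∈ U, w.1 < S.T ∧ w.2.length = S.K ∧ ∀ v ∈ w.2, v < U.length

/-- unit `u` obeys its rules up to `η` -/
def UnitOK (S : LSys) (U : Units) (η : ℚ) (x : ℕ → ℕ → ℚ) (u : ℕ) : Prop :=
  ∀ l < S.L, |x u l - (S.rule (U.ty u) l).eval (fun k l' => x (U.nbr u k) l')| ≤ η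

/-- approximate rest state: values in `[0,1]`, all but `β * #units` units obey their rules up to `η` -/
def Rest (S : LSys) (U : Units) (η β : ℚ) (x : ℕ → ℕ → ℚ) : Prop :=
  (∀ u l, 0 ≤ x u l ∧ x u l ≤ 1) ∧
    ∃ B : Finset ℕ, (B.card : ℚ) ≤ β * U.length ∧ ∀ u < U.length, u ∉ B → UnitOK S U η x u

/-- the table of rounded values: entry `u`, `l` says whether `1/2 ≤ x u l` -/
def bitsOf (L n : ℕ) (x : ℕ → ℕ → ℚ) : List (List Bool) :=
  (List.range n).map fun u => (List.range L).map fun l => decide (1 / 2 ≤ x u l)

/-- a gate of a Boolean circuit as a coded value: tag, arguments -/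
def rawBGate : BGate → ℕ × ℕ × ℕ
  | .var i => (0, i, 0)
  | .and a b => (1, a, b)
  | .or a b => (2, a, b)
  | .not a => (3, a, 0)

/-- a Boolean circuit as a coded value: gates, outputs -/
abbrev RawCirc := List (ℕ × ℕ × ℕ) × List ℕ

/-- the coded circuit -/
def rawC {n : ℕ} (C : BCircuit n) : RawCirc := (C.gates.map rawBGate, C.outs)

/-- an End-of-Line instance as a coded value: `n`, successor, predecessor -/
abbrev EI := ℕ × RawCirc × RawCirc

/-- the coded instance -/
def raw (I : EOL) : EI := (I.n, rawC I.S, rawC I.P)

/-- **What blocks A-D deliver**: a finite table `S` of unit types, tolerances `η, β`, a polynomial-time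
map `units` (at most `A N clog^b` units) and a polynomial-time map `dec` that reads a solution off
the rounded values of every approximate rest state. -/
def Machine289 : Prop :=
  ∃ (S : LSys) (η β : ℚ) (A b : ℕ) (units : EI → Units) (dec : EI × List (List Bool) → List Bool),
    S.WF ∧ 0 < η ∧ 0 < β ∧ PTF units ∧ PTF dec ∧
      ∀ I : EOL, I.WF → (units (raw I)).WF S ∧
        (units (raw I)).length ≤ A * I.encode.length * (Nat.clog 2 (I.encode.length + 2)) ^ b ∧
          ∀ x : ℕ → ℕ → ℚ, Rest S (units (raw I)) η β x →
            ∃ v : Fin I.n → Bool, I.IsSolution v ∧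
              dec (raw I, bitsOf S.L (units (raw I)).length x) = List.ofFn v

end Crest.Agent.R289
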