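import Crest.Agent.R289.EolNF_436
import Crest.Agent.R289.DefE_217

/-!
# R289, block E6: the compiler of `EolNF_436` is polynomial time
-/

set_option autoImplicit false

namespace Crest.Agent.R289.EolNFPT328

open Crest.PPADPCP Crest.Agent.Lib.PT Crest.Agent.R289.EolNF436

section tools

variable {α γ : Type} [PTCode α] [PTCode γ]

/-- list access with a binary index -/
theorem ptf_getD {l : γ → List α} {n : γ → ℕ} {d : γ → α} (hl : PTF l) (hn : PTF n) (hd : PTF d) :
    PTF (fun c => (l c).getD (n c) (d c)) := by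
  have h1 : PTU (fun c => min (n c) (l c).length) := PTF.natMinUn hn (PTU.length hl)
  refine PTF.of_eq (PTF.getD h1 hl hd) (fun c => ?_)
  rcases lt_or_ge (n c) (l c).length with h | h
  · rw [min_eq_left h.le]
  · rw [min_eq_right h, List.getD_eq_default _ _ h, List.getD_eq_default _ _ le_rfl]

/-- list update with a binary index -/
theorem ptf_set {l : γ → List α} {n : γ → ℕ} {a : γ → α} (hl : PTF l) (hn : PTF n) (ha : PTF a) :
    PTF (fun c => (l c).set (n c) (a c)) := by
  have h1 : PTU (fun c => min (n c) (l c).length) := PTF.natMinUn hn (PTU.length hl)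
  refine PTF.of_eq (PTF.set hl h1 ha) (fun c => ?_)
  rcases lt_or_ge (n c) (l c).length with h | h
  · rw [min_eq_left h.le]
  · rw [min_eq_right h, List.set_eq_of_length_le h, List.set_eq_of_length_le le_rfl]

theorem sz_list_nat_le {l : List ℕ} {L M : ℕ} (hL : l.length ≤ L) (hM : ∀ a ∈ l, a ≤ M) :
    sz l ≤ L * (2 * M + 1) := by
  refine (sz_list_le (m := M) (fun a ha => (sz_nat_le a).trans (hM a ha))).trans ?_
  exact Nat.mul_le_mul_right _ hL

theorem sz_list_triple_le {l : List (ℕ × ℕ × ℕ)} {L M : ℕ} (hL : l.length ≤ L)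
    (hM : ∀ g ∈ l, g.1 ≤ 1 ∧ g.2.1 ≤ M ∧ g.2.2 ≤ M) :
    sz l ≤ L * (2 * (3 * M + 4) + 1) := by
  refine (sz_list_le (m := 3 * M + 4) (fun g hg => ?_)).trans (Nat.mul_le_mul_right _ hL)
  obtain ⟨h1, h2, h3⟩ := hM g hg
  obtain ⟨t, a, b⟩ := g
  simp only [sz_prod] at *
  have e1 := sz_nat_le t
  have e2 := sz_nat_le a
  have e3 := sz_nat_le b
  omega

end tools

/-! ### PTF of the pieces -/

theorem ptf_wire : PTF₂ wire := by
  unfold wire
  pt_prop

theorem ptf_block : PTF (fun p : ℕ × ℕ × (ℕ × ℕ × ℕ) => block p.1 p.2.1 p.2.2) := by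
  unfold block wire
  have t1 : PTF (fun p : ℕ × ℕ × (ℕ × ℕ × ℕ) => p.2.2.1) := by fun_prop
  have e0 : PTPred (fun p : ℕ × ℕ × (ℕ × ℕ × ℕ) => p.2.2.1 = 0) := PTPred.natEq t1 (PTF.const 0)
  have e1 : PTPred (fun p : ℕ × ℕ × (ℕ × ℕ × ℕ) => p.2.2.1 = 1) := PTPred.natEq t1 (PTF.const 1)
  have e2 : PTPred (fun p : ℕ × ℕ × (ℕ × ℕ × ℕ) => p.2.2.1 = 2) := PTPred.natEq t1 (PTF.const 2)
  refine PTF.ite e0 (by fun_prop) (PTF.ite e1 (by fun_prop) (PTF.ite e2 (by fun_prop)
    (by fun_prop)))

theorem ptf_nands {γ : Type} [PTCode γ] {n : γ → ℕ} {gs : γ → List (ℕ × ℕ × ℕ)} (hn : PTF n)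
    (hg : PTF gs) : PTF (fun c => nands (n c) (gs c)) := by
  unfold nands
  refine PTF.flatMap (f := fun c t => block (n c) t ((gs c).getD t (0, 0, 0)))
    (PTF.range (PTU.length hg)) ?_
  have h1 : PTF (fun p : γ × ℕ => (gs p.1).getD p.2 (0, 0, 0)) :=
    ptf_getD (by fun_prop) (by fun_prop) (by fun_prop)
  exact PTF.comp (g := fun p : ℕ × ℕ × (ℕ × ℕ × ℕ) => block p.1 p.2.1 p.2.2)
    (f := fun p : γ × ℕ => (n p.1, p.2, (gs p.1).getD p.2 (0, 0, 0))) ptf_block (by fun_prop)

theorem ptf_useW {γ : Type} [PTCode γ] {n : γ → ℕ} {s : γ → List (ℕ × ℕ × ℕ) × List ℕ} {j : γ → ℕ}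
    (hn : PTF n) (hs : PTF s) (hj : PTF j) : PTF (fun c => useW (n c) (s c) (j c)) := by
  unfold useW
  have h1 : PTF (fun c => (s c).1) := by fun_prop
  have h2 : PTF (fun c => (s c).2) := by fun_prop
  have h3 : PTF (fun c => (s c).2.getD (j c) 0) := ptf_getD h2 hj (PTF.const 0)
  have h4 : PTF (fun c => (s c).1.length) := (PTU.length h1).toPTF
  have h5 : PTF (fun c => (s c).2.set (j c) (n c + (s c).1.length)) := ptf_set h2 hj (by fun_prop)
  fun_prop

theorem ptf_stepN {γ : Type} [PTCode γ] {n : γ → ℕ} {s : γ → List (ℕ × ℕ × ℕ) × List ℕ}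
    {g : γ → ℕ × ℕ} (hn : PTF n) (hs : PTF s) (hg : PTF g) :
    PTF (fun c => stepN (n c) (s c) (g c)) := by
  unfold stepN
  have g1 : PTF (fun c => (g c).1) := by fun_prop
  have g2 : PTF (fun c => (g c).2) := by fun_prop
  have h1 : PTF (fun c => useW (n c) (s c) (g c).1) := ptf_useW hn hs g1
  have h2 : PTF (fun c => useW (n c) (useW (n c) (s c) (g c).1) (g c).2) := ptf_useW hn h1 g2
  have h3 : PTF (fun c => (s c).2.getD (g c).1 0) := ptf_getD (by fun_prop) g1 (PTF.const 0)
  have h4 : PTF (fun c => (useW (n c) (s c) (g c).1).2.getD (g c).2 0) :=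
    ptf_getD (PTF.comp PTF.snd h1) g2 (PTF.const 0)
  have h5 : PTF (fun c => (s c).1.length) := (PTU.length (l := fun c => (s c).1) (by fun_prop)).toPTF
  have h6 : PTF (fun c => [((1 : ℕ), (s c).2.getD (g c).1 0,
      (useW (n c) (s c) (g c).1).2.getD (g c).2 0)]) :=
    PTF.listCons (PTF.prodMk (PTF.const 1) (PTF.prodMk h3 h4)) (PTF.const [])
  have h7 : PTF (fun c => [n c + ((s c).1.length + 2)]) :=
    PTF.listCons (by fun_prop) (PTF.const [])
  exact PTF.prodMk (PTF.append (PTF.comp PTF.fst h2) h6) (PTF.append (PTF.comp PTF.snd h2) h7)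

theorem ptf_stepO {γ : Type} [PTCode γ] {n : γ → ℕ}
    {s : γ → (List (ℕ × ℕ × ℕ) × List ℕ) × List ℕ} {o : γ → ℕ} (hn : PTF n) (hs : PTF s)
    (ho : PTF o) : PTF (fun c => stepO (n c) (s c) (o c)) := by
  unfold stepO
  have h1 : PTF (fun c => useW (n c) (s c).1 (o c)) := ptf_useW hn (by fun_prop) ho
  have h2 : PTF (fun c => (s c).1.2.getD (o c) 0) := ptf_getD (by fun_prop) ho (PTF.const 0)
  exact PTF.prodMk h1 (PTF.append (by fun_prop) (PTF.listCons h2 (PTF.const [])))

/-! ### size bounds along the folds -/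

theorem getD_le {l : List ℕ} {M : ℕ} (h : ∀ a ∈ l, a ≤ M) (j : ℕ) : l.getD j 0 ≤ M := by
  rw [List.getD_eq_getElem?_getD]
  rcases lt_or_ge j l.length with hj | hj
  · rw [List.getElem?_eq_getElem hj]; exact h _ (List.getElem_mem _)
  · rw [List.getElem?_eq_none hj]; simp

theorem mem_set_le {l : List ℕ} {M : ℕ} (h : ∀ a ∈ l, a ≤ M) {j t : ℕ} (ht : t ≤ M) :
    ∀ a ∈ l.set j t, a ≤ M := by
  intro a ha
  rcases List.mem_or_eq_of_mem_set ha with h1 | h1
  · exact h a h1
  · rw [h1]; exact ht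

/-- trajectory bounds -/
def Bd (n M : ℕ) (s : List (ℕ × ℕ × ℕ) × List ℕ) : Prop :=
  n + s.1.length ≤ M ∧ (∀ h ∈ s.2, h ≤ M) ∧ ∀ g ∈ s.1, g.1 ≤ 1 ∧ g.2.1 ≤ M ∧ g.2.2 ≤ M

theorem Bd.mono {n M M' : ℕ} {s : List (ℕ × ℕ × ℕ) × List ℕ} (h : Bd n M s) (hM : M ≤ M') :
    Bd n M' s :=
  ⟨h.1.trans hM, fun a ha => (h.2.1 a ha).trans hM, fun g hg =>
    ⟨(h.2.2 g hg).1, (h.2.2 g hg).2.1.trans hM, (h.2.2 g hg).2.2.trans hM⟩⟩

theorem Bd.use {n M : ℕ} {s : List (ℕ × ℕ × ℕ) × List ℕ} (h : Bd n M s) (j : ℕ) :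
    Bd n (M + 1) (useW n s j) := by
  obtain ⟨h1, h2, h3⟩ := h
  refine ⟨?_, ?_, ?_⟩
  · simp only [useW, List.length_append, List.length_singleton]; omega
  · exact mem_set_le (fun a ha => (h2 a ha).trans (by omega)) (by omega)
  · intro g hg
    simp only [useW, List.mem_append, List.mem_singleton] at hg
    rcases hg with hg | rfl
    · obtain ⟨a, b, c⟩ := h3 g hg; exact ⟨a, by omega, by omega⟩
    · have := getD_le h2 j
      exact ⟨by simp, by simp only; omega, by simp⟩

theorem Bd.step {n M : ℕ} {s : List (ℕ × ℕ × ℕ) × List ℕ} (h : Bd n M s) (g : ℕ × ℕ) :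
    Bd n (M + 3) (stepN n s g) := by
  have u1 := h.use g.1
  have u2 := u1.use g.2
  obtain ⟨a1, a2, a3⟩ := u2
  refine ⟨?_, ?_, ?_⟩
  · simp only [stepN, List.length_append, List.length_singleton]; omega
  · intro a ha
    simp only [stepN, List.mem_append, List.mem_singleton] at ha
    rcases ha with ha | rfl
    · exact (a2 a ha).trans (by omega)
    · have := h.1; omega
  · intro g' hg
    simp only [stepN, List.mem_append, List.mem_singleton] at hg
    rcases hg with hg | rfl
    · obtain ⟨a, b, c⟩ := a3 g' hg; exact ⟨a, by omega, by omega⟩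
    · have e1 := getD_le h.2.1 g.1
      have e2 := getD_le u1.2.1 g.2
      exact ⟨by simp, by simp only; omega, by simp only; omega⟩

theorem foldN_bd (n : ℕ) (l : List (ℕ × ℕ)) :
    Bd n (n + 3 * l.length) (l.foldl (stepN n) ([], List.range n)) ∧
    (l.foldl (stepN n) ([], List.range n)).2.length = n + l.length := by
  induction l using List.reverseRecOn with
  | nil =>
    refine ⟨⟨by simp, fun a ha => ?_, by simp⟩, by simp⟩
    have := List.mem_range.1 ha
    omega
  | append_singleton l g ih =>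
    rw [List.foldl_append, List.foldl_cons, List.foldl_nil]
    refine ⟨?_, ?_⟩
    · refine (ih.1.step g).mono ?_
      simp only [List.length_append, List.length_singleton]; omega
    · simp only [stepN, List.length_append, List.length_singleton, useW_len2, ih.2]; omega

theorem foldO_bd (n M : ℕ) (s : List (ℕ × ℕ × ℕ) × List ℕ) (h : Bd n M s) (l : List ℕ) :
    Bd n (M + l.length) (l.foldl (stepO n) (s, [])).1 ∧
    (l.foldl (stepO n) (s, [])).1.2.length = s.2.length ∧
    (l.foldl (stepO n) (s, [])).2.length = l.length ∧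
    ∀ a ∈ (l.foldl (stepO n) (s, [])).2, a ≤ M + l.length := by
  induction l using List.reverseRecOn with
  | nil => exact ⟨h, rfl, rfl, by simp⟩
  | append_singleton l o ih =>
    rw [List.foldl_append, List.foldl_cons, List.foldl_nil]
    obtain ⟨i1, i2, i3, i4⟩ := ih
    refine ⟨?_, ?_, ?_, ?_⟩
    · refine (i1.use o).mono ?_
      simp only [List.length_append, List.length_singleton]; omega
    · simp only [stepO, useW_len2, i2]
    · simp only [stepO, List.length_append, List.length_singleton, i3]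
    · intro a ha
      simp only [stepO, List.mem_append, List.mem_singleton] at ha
      simp only [List.length_append, List.length_singleton]
      rcases ha with ha | rfl
      · have := i4 a ha; omega
      · have := getD_le i1.2.1 o; omega

theorem szp {α β : Type} [PTCode α] [PTCode β] (q : α × β) : sz q = 2 * sz q.1 + 1 + sz q.2 := by
  obtain ⟨a, b⟩ := q
  rw [sz_prod]

theorem Bd.sz {n M L : ℕ} {s : List (ℕ × ℕ × ℕ) × List ℕ} (h : Bd n M s) (hL : s.2.length ≤ L) :
    sz s ≤ 2 * (M * (2 * (3 * M + 4) + 1)) + 1 + L * (2 * M + 1) := by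
  have h1 := sz_list_triple_le (L := M) (by have := h.1; omega) h.2.2
  have h2 := sz_list_nat_le hL h.2.1
  rw [szp]
  omega

theorem ptf_foldN {γ : Type} [PTCode γ] {n : γ → ℕ} {l : γ → List (ℕ × ℕ)} (hn : PTU n)
    (hl : PTF l) : PTF (fun c => (l c).foldl (stepN (n c)) ([], List.range (n c))) := by
  have hn' : PTF n := hn.toPTF
  refine PTF.foldl (f := fun c s g => stepN (n c) s g) (b := fun c => ([], List.range (n c))) hl
    ?_ ?_
    (B := fun c => 2 * ((n c + 3 * (l c).length) * (2 * (3 * (n c + 3 * (l c).length) + 4) + 1)) + 1 +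
      (n c + (l c).length) * (2 * (n c + 3 * (l c).length) + 1)) ?_ ?_
  · exact ptf_stepN (n := fun p : γ × (List (ℕ × ℕ × ℕ) × List ℕ) × (ℕ × ℕ) => n p.1)
      (s := fun p => p.2.1) (g := fun p => p.2.2) (by fun_prop) (by fun_prop) (by fun_prop)
  · have := PTF.range hn
    fun_prop
  · have h1 : PB n := hn.pb
    have h2 : PB (fun c => (l c).length) := (PTU.length hl).pb
    fun_prop
  · intro c i hi
    obtain ⟨b1, b2⟩ := foldN_bd (n c) ((l c).take i)
    have hlen : ((l c).take i).length ≤ (l c).length := by simp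
    have b3 := b1.mono (M' := n c + 3 * (l c).length) (by omega)
    exact b3.sz (L := n c + (l c).length) (by omega)

theorem ptf_foldO {γ : Type} [PTCode γ] {n : γ → ℕ} {s : γ → List (ℕ × ℕ × ℕ) × List ℕ}
    {l : γ → List ℕ} {M L : γ → ℕ} (hn : PTF n) (hs : PTF s) (hl : PTF l) (hM : PB M) (hL : PB L)
    (hb : ∀ c, Bd (n c) (M c) (s c)) (hb' : ∀ c, (s c).2.length ≤ L c) :
    PTF (fun c => (l c).foldl (stepO (n c)) (s c, [])) := by
  refine PTF.foldl (f := fun c s g => stepO (n c) s g) (b := fun c => (s c, [])) hl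
    ?_ ?_
    (B := fun c => 2 * (2 * ((M c + (l c).length) * (2 * (3 * (M c + (l c).length) + 4) + 1)) + 1 +
      L c * (2 * (M c + (l c).length) + 1)) + 1 + (l c).length * (2 * (M c + (l c).length) + 1)) ?_ ?_
  · exact ptf_stepO (n := fun p : γ × ((List (ℕ × ℕ × ℕ) × List ℕ) × List ℕ) × ℕ => n p.1)
      (s := fun p => p.2.1) (o := fun p => p.2.2) (by fun_prop) (by fun_prop) (by fun_prop)
  · fun_prop
  · have h2 : PB (fun c => (l c).length) := (PTU.length hl).pb
    fun_prop
  · intro c i hi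
    obtain ⟨b1, b2, b3, b4⟩ := foldO_bd (n c) (M c) (s c) (hb c) ((l c).take i)
    have hlen : ((l c).take i).length ≤ (l c).length := by simp
    have b5 := (b1.mono (M' := M c + (l c).length) (by omega)).sz (L := L c)
      (by rw [b2]; exact hb' c)
    have b6 := sz_list_nat_le (L := (l c).length) (M := M c + (l c).length) (by omega)
      (fun a ha => (b4 a ha).trans (by omega))
    show sz (List.foldl (stepO (n c)) (s c, []) (List.take i (l c))) ≤ _
    rw [szp]
    omega

theorem nands_length (n : ℕ) (gs : List (ℕ × ℕ × ℕ)) : (nands n gs).length = 3 * gs.length := by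
  unfold nands
  rw [flatMap_range_length _ 3 (fun t => by simp)]

/-- **the compiler is polynomial time** -/
theorem ptf_compile {γ : Type} [PTCode γ] {gs : γ → List (ℕ × ℕ × ℕ)} {outs : γ → List ℕ}
    (hg : PTF gs) (ho : PTF outs) : PTF (fun c => compile (gs c) (outs c)) := by
  unfold compile
  have hn : PTU (fun c => (outs c).length) := PTU.length ho
  have hn' : PTF (fun c => (outs c).length) := hn.toPTF
  have h1 := ptf_nands hn' hg
  have h2 := ptf_foldN hn h1
  have h3 : PTF (fun c => (outs c).map (wire (outs c).length)) := by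
    refine PTF.map (f := fun c a => wire (outs c).length a) ho ?_
    exact PTF.comp (g := fun p : ℕ × ℕ => wire p.1 p.2)
      (f := fun p : γ × ℕ => ((outs p.1).length, p.2)) ptf_wire
      (PTF.prodMk (PTF.comp (g := fun c => (outs c).length) hn' PTF.fst) PTF.snd)
  have h4 := ptf_foldO (M := fun c => (outs c).length + 3 * (nands (outs c).length (gs c)).length)
    (L := fun c => (outs c).length + (nands (outs c).length (gs c)).length) hn' h2 h3
    (by have := hn.pb; have := (PTU.length h1).pb; fun_prop)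
    (by have := hn.pb; have := (PTU.length h1).pb; fun_prop)
    (fun c => (foldN_bd _ _).1) (fun c => (foldN_bd _ _).2.le)
  exact PTF.prodMk (PTF.comp PTF.fst (PTF.comp PTF.fst h4)) (PTF.comp PTF.snd h4)

theorem ptf_compile_raw : PTF (fun C : RawCirc => compile C.1 C.2) :=
  ptf_compile (by fun_prop) (by fun_prop)

end Crest.Agent.R289.EolNFPT328
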