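import Crest.Agent.R289.RouteObj_649
import Crest.Agent.R289.Size2_954

/-!
# R289, block C (routing): bounds of the word length and of the number of colours (helper649)

`ncol (lenG D k) (Q^k) ≤ 600 · cl (Q^k) ^ 3` (`cl N = clog 2 (N + 2)`), both in unary polynomial time.
-/

set_option autoImplicit false

namespace Crest.Agent.R289.RouteObj649

open Crest.Agent.R289 Crest.Agent.Lib.PT Crest.Agent.R289.Asm12 Crest.Agent.R289.Size954

theorem ncol_le_of {l n c : ℕ} (hl : l = 2 * (c + 1)) (hc : n ≤ 2 ^ c) :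
    Route649.ncol l n ≤ 74 * (c + 1) ^ 3 := by
  subst hl
  have h1 : (n + 1).size ≤ c + 2 := by
    rw [Nat.size_le]
    have : 2 ^ (c + 2) = 4 * 2 ^ c := by rw [pow_add]; ring
    have : 1 ≤ 2 ^ c := Nat.one_le_two_pow
    omega
  unfold Route649.ncol
  calc (4 * (2 * (c + 1) + 1) ^ 2 + 1) * (n + 1).size
      ≤ (4 * (3 * (c + 1)) ^ 2 + (c + 1) ^ 2) * (2 * (c + 1)) := by
        refine Nat.mul_le_mul (Nat.add_le_add (Nat.mul_le_mul_left _ (Nat.pow_le_pow_left ?_ 2)) ?_)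
          ?_
        · omega
        · exact Nat.one_le_pow _ _ (by omega)
        · omega
    _ = 74 * (c + 1) ^ 3 := by ring

section
variable (D : Obj)

theorem ncol_le (k : ℕ) (hQ : 2 ≤ D.Q) :
    Route649.ncol (lenG D k) (D.Q ^ k) ≤ 600 * cl (D.Q ^ k) ^ 3 := by
  have h2 : D.Q ^ k ≤ 2 ^ Nat.clog 2 (D.Q ^ k) := Nat.le_pow_clog (by norm_num) _
  refine (ncol_le_of rfl h2).trans ?_
  have h3 : Nat.clog 2 (D.Q ^ k) ≤ cl (D.Q ^ k) := Nat.clog_mono_right 2 (Nat.le_add_right _ 2)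
  have h4 : 1 ≤ cl (D.Q ^ k) := by
    by_contra h
    have h5 : cl (D.Q ^ k) = 0 := by omega
    have h6 := lt_two_pow_cl (D.Q ^ k)
    rw [h5] at h6
    omega
  have h5 : Nat.clog 2 (D.Q ^ k) + 1 ≤ 2 * cl (D.Q ^ k) := by omega
  calc 74 * (Nat.clog 2 (D.Q ^ k) + 1) ^ 3 ≤ 74 * (2 * cl (D.Q ^ k)) ^ 3 :=
        Nat.mul_le_mul_left _ (Nat.pow_le_pow_left h5 3)
    _ = 592 * cl (D.Q ^ k) ^ 3 := by ring
    _ ≤ 600 * cl (D.Q ^ k) ^ 3 := Nat.mul_le_mul_right _ (by norm_num)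

variable {α : Type} [PTCode α]

theorem ptu_lenG (k : α → ℕ) (hQ : PTU fun x => D.Q ^ k x) : PTU (fun x => lenG D (k x)) := by
  unfold lenG
  have h1 : PTU (fun x => Nat.clog 2 (D.Q ^ k x)) := ptu_clog2 hQ.toPTF
  exact PTU.mul (PTU.const 2) (PTU.add h1 (PTU.const 1))

theorem ptu_ncol (k : α → ℕ) (hQ : PTU fun x => D.Q ^ k x) :
    PTU (fun x => Route649.ncol (lenG D (k x)) (D.Q ^ k x)) := by
  unfold Route649.ncol
  have h0 := ptu_lenG D k hQ
  have h1 : PTU (fun x => lenG D (k x) + 1) := PTU.add h0 (PTU.const 1)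
  have h2 : PTU (fun x => (D.Q ^ k x + 1).size) :=
    PTF.natSizeUn (PTF.natAdd hQ.toPTF (PTF.const 1))
  have h3 : PTU (fun x => 4 * (lenG D (k x) + 1) ^ 2 + 1) := by
    have e : (fun x => 4 * (lenG D (k x) + 1) ^ 2 + 1) =
        fun x => 4 * ((lenG D (k x) + 1) * (lenG D (k x) + 1)) + 1 := by
      funext x; ring
    rw [e]
    exact PTU.add (PTU.mul (PTU.const 4) (PTU.mul h1 h1)) (PTU.const 1)
  exact PTU.mul h3 h2

end

end Crest.Agent.R289.RouteObj649
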