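import Crest.Prelude.Def_GenCircuit
import Crest.Agent.Lib.PT.ListFns2
import Crest.Agent.Lib.PT.ArithMore

/-!
# End-of-Line normal form (row 289, leaf E6)

* `values` of a Boolean circuit as the unique solution of local equations;
* compilation of a Boolean circuit to a cell program with operations COPY and NAND in which every
  cell is the source of at most one COPY (port 0) and of at most one NAND operand or output (port 1).
-/

set_option autoImplicit false
set_option linter.dupNamespace false

namespace Crest.Agent.R289.EolNF436

open Crest.PPADPCP Crest.Agent.Lib.PT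

/-! ### straight-line evaluation -/

section slp

variable {γ : Type}

/-- straight-line evaluation of a list of operations, starting from a list of values -/
def slp (ev : γ → List Bool → Bool) (init : List Bool) (l : List γ) : List Bool :=
  l.foldl (fun prev g => prev ++ [ev g prev]) init

variable (ev : γ → List Bool → Bool)

@[simp] theorem slp_nil (init : List Bool) : slp ev init [] = init := rfl

@[simp] theorem slp_cons (init : List Bool) (g : γ) (l : List γ) :
    slp ev init (g :: l) = slp ev (init ++ [ev g init]) l := rfl

theorem slp_append (init : List Bool) (l l' : List γ) :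
    slp ev init (l ++ l') = slp ev (slp ev init l) l' := by
  simp [slp, List.foldl_append]

theorem slp_snoc (init : List Bool) (l : List γ) (g : γ) :
    slp ev init (l ++ [g]) = slp ev init l ++ [ev g (slp ev init l)] := by
  rw [slp_append]; rfl

@[simp] theorem slp_length (init : List Bool) (l : List γ) :
    (slp ev init l).length = init.length + l.length := by
  induction l generalizing init with
  | nil => simp
  | cons g l ih => rw [slp_cons, ih]; simp; omega

theorem slp_prefix (init : List Bool) (l : List γ) : ∃ r, slp ev init l = init ++ r := by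
  induction l generalizing init with
  | nil => exact ⟨[], by simp⟩
  | cons g l ih =>
    obtain ⟨r, hr⟩ := ih (init ++ [ev g init])
    exact ⟨ev g init :: r, by rw [slp_cons, hr]; simp⟩

theorem getD_append_left' {α : Type} (l r : List α) (t : ℕ) (d : α) (h : t < l.length) :
    (l ++ r).getD t d = l.getD t d := by
  rw [List.getD_eq_getElem?_getD, List.getD_eq_getElem?_getD, List.getElem?_append_left h]

theorem slp_getD_old (init : List Bool) (l : List γ) (t : ℕ) (h : t < init.length) (d : Bool) :
    (slp ev init l).getD t d = init.getD t d := by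
  obtain ⟨r, hr⟩ := slp_prefix ev init l
  rw [hr, getD_append_left' _ _ _ _ h]

theorem slp_getD_take (init : List Bool) (l : List γ) (k t : ℕ) (ht : t < init.length + k)
    (hk : k ≤ l.length) (d : Bool) :
    (slp ev init l).getD t d = (slp ev init (l.take k)).getD t d := by
  conv_lhs => rw [← List.take_append_drop k l, slp_append]
  apply slp_getD_old
  simp
  omega

theorem slp_getD_new (init : List Bool) (l : List γ) (t : ℕ) (h : t < l.length) (d : Bool) :
    (slp ev init l).getD (init.length + t) d = ev l[t] (slp ev init (l.take t)) := by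
  rw [slp_getD_take ev init l (t + 1) (init.length + t) (by omega) (by omega),
    List.take_add_one, List.getElem?_eq_getElem h]
  simp only [Option.toList_some]
  rw [slp_snoc, List.getD_eq_getElem?_getD]
  have h2 : (slp ev init (l.take t)).length = init.length + t := by
    simp; omega
  rw [List.getElem?_append_right (by omega), h2]
  simp

end slp

/-! ### Boolean circuits -/

/-- gate value with a function of earlier values -/
def evalF (x w : ℕ → Bool) : BGate → Bool
  | BGate.var i => x i
  | BGate.and a b => w a && w b
  | BGate.or a b => w a || w b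
  | BGate.not a => !w a

theorem eval_eq_evalF (x : ℕ → Bool) (prev : List Bool) (g : BGate) :
    g.eval x prev = evalF x (fun t => prev.getD t false) g := by
  cases g <;> rfl

theorem evalF_congr {n t : ℕ} {g : BGate} (hg : g.WF n t) {x w w' : ℕ → Bool}
    (h : ∀ s < t, w s = w' s) : evalF x w g = evalF x w' g := by
  cases g with
  | var i => rfl
  | and a b => simp only [evalF]; rw [h a hg.1, h b hg.2]
  | or a b => simp only [evalF]; rw [h a hg.1, h b hg.2]
  | not a => simp only [evalF]; rw [h a hg]

theorem values_eq_slp {n : ℕ} (C : BCircuit n) (x : ℕ → Bool) :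
    C.values x = slp (fun g prev => BGate.eval x prev g) [] C.gates := rfl

@[simp] theorem values_length {n : ℕ} (C : BCircuit n) (x : ℕ → Bool) :
    (C.values x).length = C.gates.length := by
  rw [values_eq_slp]; simp

/-- local equations of the value list -/
theorem values_getD {n : ℕ} (C : BCircuit n) (hC : ∀ t : Fin C.gates.length, (C.gates.get t).WF n t)
    (x : ℕ → Bool) (t : ℕ) (ht : t < C.gates.length) :
    (C.values x).getD t false = evalF x (fun s => (C.values x).getD s false) C.gates[t] := by
  rw [values_eq_slp]
  have h := slp_getD_new (fun g prev => BGate.eval x prev g) [] C.gates t ht false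
  simp only [List.length_nil, Nat.zero_add] at h
  rw [h, eval_eq_evalF]
  refine evalF_congr (n := n) (t := t) (hC ⟨t, ht⟩) ?_
  intro s hs
  rw [slp_getD_take (fun g prev => BGate.eval x prev g) [] C.gates t s (by simpa using hs) ht.le]

/-- the local equations determine the values -/
theorem values_unique {n : ℕ} (C : BCircuit n)
    (hC : ∀ t : Fin C.gates.length, (C.gates.get t).WF n t) (x w : ℕ → Bool)
    (hw : ∀ (t : ℕ) (ht : t < C.gates.length), w t = evalF x w C.gates[t]) :
    ∀ t < C.gates.length, w t = (C.values x).getD t false := by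
  intro t
  induction t using Nat.strong_induction_on with
  | _ t ih =>
    intro ht
    rw [hw t ht, values_getD C hC x t ht]
    exact evalF_congr (n := n) (t := t) (hC ⟨t, ht⟩) (fun s hs => ih s hs (hs.trans ht))

/-- the input function used by `apply` -/
def inpF {n : ℕ} (x : Fin n → Bool) : ℕ → Bool := fun i => if h : i < n then x ⟨i, h⟩ else false

theorem apply_eq {n : ℕ} (C : BCircuit n) (x : Fin n → Bool) (j : Fin n) :
    C.apply x j = (C.values (inpF x)).getD (C.outs.getD j 0) false := rfl

theorem inpF_ofFn {n : ℕ} (x : Fin n → Bool) (i : ℕ) :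
    inpF x i = (List.ofFn x).getD i false := by
  unfold inpF
  split_ifs with h
  · simp [List.getD_eq_getElem?_getD, h]
  · simp [List.getD_eq_getElem?_getD, h]

/-! ### stage 1: NAND program with blocks of three -/

/-- raw form of a gate (the last component of `var` and `not` is irrelevant) -/
def raw : BGate → ℕ × ℕ × ℕ
  | BGate.var i => (0, i, 0)
  | BGate.and a b => (1, a, b)
  | BGate.or a b => (2, a, b)
  | BGate.not a => (3, a, 0)

/-- wire carrying the value of gate `a` -/
def wire (n a : ℕ) : ℕ := n + 3 * a + 2

/-- the three NAND operations replacing gate number `t` -/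
def block (n t : ℕ) (g : ℕ × ℕ × ℕ) : List (ℕ × ℕ) :=
  if g.1 = 0 then [(g.2.1, g.2.1), (g.2.1, g.2.1), (n + 3 * t, n + 3 * t)]
  else if g.1 = 1 then [(wire n g.2.1, wire n g.2.2), (wire n g.2.1, wire n g.2.2),
    (n + 3 * t, n + 3 * t + 1)]
  else if g.1 = 2 then [(wire n g.2.1, wire n g.2.1), (wire n g.2.2, wire n g.2.2),
    (n + 3 * t, n + 3 * t + 1)]
  else [(wire n g.2.1, wire n g.2.1), (n + 3 * t, n + 3 * t), (n + 3 * t + 1, n + 3 * t + 1)]

/-- the NAND program of a raw gate list -/
def nands (n : ℕ) (gs : List (ℕ × ℕ × ℕ)) : List (ℕ × ℕ) :=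
  (List.range gs.length).flatMap fun t => block n t (gs.getD t (0, 0, 0))

@[simp] theorem block_length (n t : ℕ) (g : ℕ × ℕ × ℕ) : (block n t g).length = 3 := by
  unfold block; split_ifs <;> rfl

theorem flatMap_range_length {α : Type} (f : ℕ → List α) (k : ℕ) (hf : ∀ t, (f t).length = k) (m : ℕ) :
    ((List.range m).flatMap f).length = k * m := by
  induction m with
  | zero => simp
  | succ m ih => rw [List.range_succ, List.flatMap_append, List.length_append, ih]; simp [hf]; ring

theorem flatMap_range_getElem? {α : Type} (f : ℕ → List α) (k : ℕ) (hf : ∀ t, (f t).length = k)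
    (m t r : ℕ) (ht : t < m) (hr : r < k) :
    ((List.range m).flatMap f)[k * t + r]? = (f t)[r]? := by
  induction m with
  | zero => omega
  | succ m ih =>
    rw [List.range_succ, List.flatMap_append]
    have hl := flatMap_range_length f k hf m
    by_cases h : t < m
    · rw [List.getElem?_append_left, ih h]
      rw [hl]
      calc k * t + r < k * t + k := by omega
        _ = k * (t + 1) := by ring
        _ ≤ k * m := Nat.mul_le_mul_left _ h
    · have e : t = m := by omega
      subst e
      rw [List.getElem?_append_right (by rw [hl]; omega), hl]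
      simp

@[simp] theorem nands_length (n : ℕ) (gs : List (ℕ × ℕ × ℕ)) :
    (nands n gs).length = 3 * gs.length :=
  flatMap_range_length _ 3 (fun _ => block_length _ _ _) _

theorem nands_getElem? (n : ℕ) (gs : List (ℕ × ℕ × ℕ)) (t r : ℕ) (ht : t < gs.length) (hr : r < 3) :
    (nands n gs)[3 * t + r]? = (block n t gs[t])[r]? := by
  unfold nands
  rw [flatMap_range_getElem? _ 3 (fun _ => block_length _ _ _) _ t r ht hr]
  simp [List.getD_eq_getElem?_getD, ht]

/-- evaluation of a NAND operation -/
def nandEv (g : ℕ × ℕ) (prev : List Bool) : Bool := !(prev.getD g.1 false && prev.getD g.2 false)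

/-- operands are earlier wires -/
def NandWF (n : ℕ) (l : List (ℕ × ℕ)) : Prop :=
  ∀ (t : ℕ) (ht : t < l.length), l[t].1 < n + t ∧ l[t].2 < n + t

theorem nandVal {n : ℕ} {l : List (ℕ × ℕ)} (hl : NandWF n l) (init : List Bool)
    (hi : init.length = n) (t : ℕ) (ht : t < l.length) :
    (slp nandEv init l).getD (n + t) false =
      !((slp nandEv init l).getD l[t].1 false && (slp nandEv init l).getD l[t].2 false) := by
  subst hi
  rw [slp_getD_new nandEv init l t ht false]
  obtain ⟨h1, h2⟩ := hl t ht
  rw [nandEv, slp_getD_take nandEv init l t l[t].1 h1 ht.le,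
    slp_getD_take nandEv init l t l[t].2 h2 ht.le]

theorem block_wf {n t : ℕ} {g : BGate} (hg : g.WF n t) (r : ℕ) (hr : r < 3) :
    ∀ p ∈ (block n t (raw g))[r]?, p.1 < n + (3 * t + r) ∧ p.2 < n + (3 * t + r) := by
  intro p hp
  cases g with
  | var i =>
    have : i < n := hg
    interval_cases r <;> (simp [block, raw] at hp; subst hp; constructor <;> simp <;> omega)
  | and a b =>
    obtain ⟨h1, h2⟩ := hg
    interval_cases r <;> (simp [block, raw] at hp; subst hp; constructor <;> simp [wire] <;> omega)
  | or a b =>
    obtain ⟨h1, h2⟩ := hg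
    interval_cases r <;> (simp [block, raw] at hp; subst hp; constructor <;> simp [wire] <;> omega)
  | not a =>
    have : a < t := hg
    interval_cases r <;> (simp [block, raw] at hp; subst hp; constructor <;> simp [wire] <;> omega)

theorem nands_wf {n : ℕ} (C : BCircuit n) (hC : ∀ t : Fin C.gates.length, (C.gates.get t).WF n t) :
    NandWF n (nands n (C.gates.map raw)) := by
  intro s hs
  have hs' : s < 3 * C.gates.length := by simpa using hs
  have e : s = 3 * (s / 3) + s % 3 := by omega
  have ht : s / 3 < C.gates.length := by omega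
  have h := nands_getElem? n (C.gates.map raw) (s / 3) (s % 3) (by simpa using ht) (by omega)
  rw [← e, List.getElem?_eq_getElem hs] at h
  have := block_wf (hC ⟨s / 3, ht⟩) (s % 3) (by omega) (nands n (C.gates.map raw))[s]
    (by
      rw [Option.mem_def, h]
      simp)
  rwa [← e] at this

theorem nands_val {n : ℕ} (C : BCircuit n) (hC : ∀ t : Fin C.gates.length, (C.gates.get t).WF n t)
    (x : Fin n → Bool) (t : ℕ) (ht : t < C.gates.length) :
    (slp nandEv (List.ofFn x) (nands n (C.gates.map raw))).getD (wire n t) false =
      (C.values (inpF x)).getD t false := by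
  set v := slp nandEv (List.ofFn x) (nands n (C.gates.map raw)) with hv
  have hwf := nands_wf C hC
  have hin : ∀ i < n, v.getD i false = inpF x i := by
    intro i hi
    rw [hv, slp_getD_old _ _ _ _ (by simpa using hi), inpF_ofFn]
  have key : ∀ (t : ℕ) (ht : t < C.gates.length) (r : ℕ) (hr : r < 3) (p : ℕ × ℕ),
      (block n t (raw C.gates[t]))[r]? = some p →
      v.getD (n + 3 * t + r) false = !(v.getD p.1 false && v.getD p.2 false) := by
    intro t ht r hr p hp
    have hlen : 3 * t + r < (nands n (C.gates.map raw)).length := by simp; omega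
    have h := nandVal hwf (List.ofFn x) (by simp) (3 * t + r) hlen
    have h2 := nands_getElem? n (C.gates.map raw) t r (by simpa using ht) hr
    rw [List.getElem?_eq_getElem hlen] at h2
    simp only [List.getElem_map] at h2
    rw [hp] at h2
    have h3 : (nands n (C.gates.map raw))[3 * t + r] = p := by simpa using h2
    rw [h3] at h
    rw [show n + 3 * t + r = n + (3 * t + r) by ring]
    exact h
  refine values_unique C hC (inpF x) (fun t => v.getD (wire n t) false) ?_ t ht
  intro t ht
  have hg := hC ⟨t, ht⟩
  have k0 := key t ht 0 (by omega)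
  have k1 := key t ht 1 (by omega)
  have k2 := key t ht 2 (by omega)
  simp only [List.get_eq_getElem] at hg
  rcases hgt : C.gates[t] with i | ⟨a, b⟩ | ⟨a, b⟩ | a
  · rw [hgt] at k0 k1 k2 hg
    have hi : i < n := hg
    simp only [block, raw, if_true] at k0 k1 k2
    have k0 := k0 _ rfl
    have k2 := k2 _ rfl
    simp only [evalF, wire]
    rw [k2]
    simp only [Bool.and_self]
    rw [show n + 3 * t = n + 3 * t + 0 by ring, k0]
    simp only [Bool.and_self, Bool.not_not]
    exact hin i hi
  · rw [hgt] at k0 k1 k2 hg
    simp only [block, raw] at k0 k1 k2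
    have k0 := k0 _ rfl
    have k1 := k1 _ rfl
    have k2 := k2 _ rfl
    simp only [evalF]
    rw [show wire n t = n + 3 * t + 2 from rfl, k2]
    simp only
    rw [k1, show n + 3 * t = n + 3 * t + 0 by ring, k0]
    simp
  · rw [hgt] at k0 k1 k2 hg
    simp only [block, raw] at k0 k1 k2
    have k0 := k0 _ rfl
    have k1 := k1 _ rfl
    have k2 := k2 _ rfl
    simp only [evalF]
    rw [show wire n t = n + 3 * t + 2 from rfl, k2]
    simp only
    rw [k1, show n + 3 * t = n + 3 * t + 0 by ring, k0]
    simp
  · rw [hgt] at k0 k1 k2 hg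
    simp only [block, raw] at k0 k1 k2
    have k0 := k0 _ rfl
    have k1 := k1 _ rfl
    have k2 := k2 _ rfl
    simp only [evalF]
    rw [show wire n t = n + 3 * t + 2 from rfl, k2]
    simp only
    rw [k1]
    simp only
    rw [show n + 3 * t = n + 3 * t + 0 by ring, k0]
    simp

/-! ### stage 2: fan-out two -/

/-- value of a cell operation: tag `0` is COPY of the first operand, everything else is NAND -/
def cellEv (g : ℕ × ℕ × ℕ) (prev : List Bool) : Bool :=
  if g.1 = 0 then prev.getD g.2.1 false else !(prev.getD g.2.1 false && prev.getD g.2.2 false)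

/-- sources of the COPY cells (uses of port 0) -/
def srcCopy (l : List (ℕ × ℕ × ℕ)) : List ℕ :=
  l.flatMap fun g => if g.1 = 0 then [g.2.1] else []

/-- operands of the NAND cells (uses of port 1) -/
def srcNand (l : List (ℕ × ℕ × ℕ)) : List ℕ :=
  l.flatMap fun g => if g.1 = 0 then [] else [g.2.1, g.2.2]

@[simp] theorem srcCopy_append (l l' : List (ℕ × ℕ × ℕ)) :
    srcCopy (l ++ l') = srcCopy l ++ srcCopy l' := by simp [srcCopy]

@[simp] theorem srcNand_append (l l' : List (ℕ × ℕ × ℕ)) :
    srcNand (l ++ l') = srcNand l ++ srcNand l' := by simp [srcNand]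

/-- operands of cell `n + t` are earlier cells (the second operand of COPY is `0` and not used) -/
def CellWF (n : ℕ) (l : List (ℕ × ℕ × ℕ)) : Prop :=
  ∀ (t : ℕ) (ht : t < l.length), l[t].1 ≤ 1 ∧ l[t].2.1 < n + t ∧ l[t].2.2 < n + t

/-- a use of wire `j`: its holder is copied to a new cell, which becomes the new holder -/
def useW (n : ℕ) (s : List (ℕ × ℕ × ℕ) × List ℕ) (j : ℕ) : List (ℕ × ℕ × ℕ) × List ℕ :=
  (s.1 ++ [(0, s.2.getD j 0, 0)], s.2.set j (n + s.1.length))

/-- a NAND of two wires -/
def stepN (n : ℕ) (s : List (ℕ × ℕ × ℕ) × List ℕ) (g : ℕ × ℕ) : List (ℕ × ℕ × ℕ) × List ℕ :=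
  ((useW n (useW n s g.1) g.2).1 ++ [(1, s.2.getD g.1 0, (useW n s g.1).2.getD g.2 0)],
    (useW n (useW n s g.1) g.2).2 ++ [n + (s.1.length + 2)])

/-- an output -/
def stepO (n : ℕ) (s : (List (ℕ × ℕ × ℕ) × List ℕ) × List ℕ) (o : ℕ) :
    (List (ℕ × ℕ × ℕ) × List ℕ) × List ℕ :=
  (useW n s.1 o, s.2 ++ [s.1.2.getD o 0])

/-- structural invariant -/
structure Inv (n : ℕ) (ops : List (ℕ × ℕ × ℕ)) (H U : List ℕ) : Prop where
  copyNodup : (srcCopy ops).Nodup
  useNodup : U.Nodup
  holdNodup : H.Nodup
  holdLt : ∀ p ∈ H, p < n + ops.length
  copyLt : ∀ p ∈ srcCopy ops, p < n + ops.length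
  useLt : ∀ p ∈ U, p < n + ops.length
  holdCopy : ∀ p ∈ H, p ∉ srcCopy ops
  holdUse : ∀ p ∈ H, p ∉ U
  wf : CellWF n ops

theorem getD_mem' {H : List ℕ} {j : ℕ} (hj : j < H.length) : H.getD j 0 ∈ H := by
  simp [List.getD_eq_getElem?_getD, hj]

theorem not_mem_set {H : List ℕ} (hH : H.Nodup) {j t : ℕ} (hj : j < H.length) (ht : t ∉ H) :
    H.getD j 0 ∉ H.set j t := by
  intro hm
  rw [List.mem_iff_getElem] at hm
  obtain ⟨i, hi, he⟩ := hm
  have hi' : i < H.length := by simpa using hi
  rw [List.getElem_set] at he
  have e0 : H.getD j 0 = H[j] := by simp [List.getD_eq_getElem?_getD, hj]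
  split_ifs at he with h
  · exact ht (by rw [he]; exact getD_mem' hj)
  · rw [e0] at he
    exact h ((List.Nodup.getElem_inj_iff hH).1 he).symm

theorem nodup_set {H : List ℕ} (hH : H.Nodup) {j t : ℕ} (ht : t ∉ H) : (H.set j t).Nodup := by
  rw [List.nodup_iff_injective_get]
  intro a b hab
  have ha : (a : ℕ) < H.length := by simpa using a.2
  have hb : (b : ℕ) < H.length := by simpa using b.2
  simp only [List.get_eq_getElem, List.getElem_set] at hab
  have key : (a : ℕ) = b := by
    split_ifs at hab with h1 h2 h2
    · omega
    · exact absurd (hab ▸ List.getElem_mem hb) ht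
    · exact absurd (hab.symm ▸ List.getElem_mem ha) ht
    · exact (List.Nodup.getElem_inj_iff hH).1 hab
  exact Fin.ext key

theorem mem_set_or {H : List ℕ} {j t p : ℕ} (h : p ∈ H.set j t) : p ∈ H ∨ p = t := by
  have := List.mem_or_eq_of_mem_set h
  exact this

theorem cellWF_snoc {n : ℕ} {l : List (ℕ × ℕ × ℕ)} (hl : CellWF n l) (g : ℕ × ℕ × ℕ)
    (h0 : g.1 ≤ 1) (h1 : g.2.1 < n + l.length) (h2 : g.2.2 < n + l.length) : CellWF n (l ++ [g]) := by
  intro t ht
  by_cases h : t < l.length
  · rw [List.getElem_append_left h]
    exact hl t h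
  · have : t = l.length := by simp at ht; omega
    subst this
    simp only [List.getElem_concat_length]
    exact ⟨h0, h1, h2⟩

theorem Inv.use {n : ℕ} {ops : List (ℕ × ℕ × ℕ)} {H U : List ℕ} (h : Inv n ops H U) {j : ℕ}
    (hj : j < H.length) :
    Inv n (useW n (ops, H) j).1 (useW n (ops, H) j).2 (U ++ [H.getD j 0]) := by
  have hp := getD_mem' hj
  have hlt := h.holdLt _ hp
  have hfresh : n + ops.length ∉ H := fun hm => lt_irrefl _ (h.holdLt _ hm)
  have hlen : (useW n (ops, H) j).1.length = ops.length + 1 := by simp [useW]
  have hcs : srcCopy (useW n (ops, H) j).1 = srcCopy ops ++ [H.getD j 0] := by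
    simp [useW, srcCopy]
  refine ⟨?_, ?_, ?_, ?_, ?_, ?_, ?_, ?_, ?_⟩
  · rw [hcs, List.nodup_append]
    refine ⟨h.copyNodup, by simp, ?_⟩
    intro a ha b hb hab
    simp only [List.mem_singleton] at hb
    subst hb hab
    exact h.holdCopy _ hp ha
  · rw [List.nodup_append]
    refine ⟨h.useNodup, by simp, ?_⟩
    intro a ha b hb hab
    simp only [List.mem_singleton] at hb
    subst hb hab
    exact h.holdUse _ hp ha
  · exact nodup_set h.holdNodup hfresh
  · intro p hp'
    rw [hlen]
    rcases mem_set_or hp' with h' | h'
    · have := h.holdLt _ h'; omega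
    · simp only at h'; omega
  · intro p hp'
    rw [hcs] at hp'
    rw [hlen]
    simp only [List.mem_append, List.mem_singleton] at hp'
    rcases hp' with h' | h'
    · have := h.copyLt _ h'; omega
    · rw [h']; omega
  · intro p hp'
    rw [hlen]
    simp only [List.mem_append, List.mem_singleton] at hp'
    rcases hp' with h' | h'
    · have := h.useLt _ h'; omega
    · rw [h']; omega
  · intro p hp' hm
    rw [hcs] at hm
    simp only [List.mem_append, List.mem_singleton] at hm
    rcases hm with hm | hm
    · rcases mem_set_or hp' with h' | h'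
      · exact h.holdCopy _ h' hm
      · simp only at h'
        have := h.copyLt _ hm; omega
    · rw [hm] at hp'
      exact not_mem_set h.holdNodup hj hfresh hp'
  · intro p hp' hm
    simp only [List.mem_append, List.mem_singleton] at hm
    rcases hm with hm | hm
    · rcases mem_set_or hp' with h' | h'
      · exact h.holdUse _ h' hm
      · simp only at h'
        have := h.useLt _ hm; omega
    · rw [hm] at hp'
      exact not_mem_set h.holdNodup hj hfresh hp'
  · refine cellWF_snoc h.wf _ (by simp) (by simpa using hlt) (by simp; omega)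

theorem Inv.emit {n : ℕ} {ops : List (ℕ × ℕ × ℕ)} {H U : List ℕ} (h : Inv n ops H U) {a b : ℕ}
    (ha : a < n + ops.length) (hb : b < n + ops.length) :
    Inv n (ops ++ [(1, a, b)]) (H ++ [n + ops.length]) U := by
  have hcs : srcCopy (ops ++ [(1, a, b)]) = srcCopy ops := by simp [srcCopy]
  refine ⟨?_, h.useNodup, ?_, ?_, ?_, ?_, ?_, ?_, ?_⟩
  · rw [hcs]; exact h.copyNodup
  · rw [List.nodup_append]
    refine ⟨h.holdNodup, by simp, ?_⟩
    intro p hp q hq hpq
    simp only [List.mem_singleton] at hq
    have := h.holdLt p hp
    omega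
  · intro p hp
    simp only [List.mem_append, List.mem_singleton] at hp
    simp only [List.length_append, List.length_singleton]
    rcases hp with hp | hp
    · have := h.holdLt p hp; omega
    · omega
  · intro p hp
    rw [hcs] at hp
    have := h.copyLt p hp
    simp only [List.length_append, List.length_singleton]
    omega
  · intro p hp
    have := h.useLt p hp
    simp only [List.length_append, List.length_singleton]
    omega
  · intro p hp
    rw [hcs]
    simp only [List.mem_append, List.mem_singleton] at hp
    rcases hp with hp | hp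
    · exact h.holdCopy p hp
    · intro hm
      have := h.copyLt p hm
      omega
  · intro p hp
    simp only [List.mem_append, List.mem_singleton] at hp
    rcases hp with hp | hp
    · exact h.holdUse p hp
    · intro hm
      have := h.useLt p hm
      omega
  · exact cellWF_snoc h.wf _ (by simp) (by simpa using ha) (by simpa using hb)

/-- semantic invariant: holder `j` carries the value of wire `j` -/
def Sem (init : List Bool) (ops : List (ℕ × ℕ × ℕ)) (H : List ℕ) (wv : List Bool) : Prop :=
  H.length = wv.length ∧
    ∀ j < H.length, (slp cellEv init ops).getD (H.getD j 0) false = wv.getD j false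

theorem getD_set' (H : List ℕ) (j t i : ℕ) (hi : i < H.length) :
    (H.set j t).getD i 0 = if j = i then t else H.getD i 0 := by
  simp only [List.getD_eq_getElem?_getD, List.getElem?_set]
  split_ifs <;> simp_all

theorem slp_snoc_last {γ : Type} (ev : γ → List Bool → Bool) (init : List Bool) (l : List γ) (g : γ) :
    (slp ev init (l ++ [g])).getD (init.length + l.length) false = ev g (slp ev init l) := by
  rw [slp_snoc, List.getD_eq_getElem?_getD, List.getElem?_append_right (by simp)]
  simp

theorem slp_snoc_old {γ : Type} (ev : γ → List Bool → Bool) (init : List Bool) (l : List γ) (g : γ)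
    (p : ℕ) (hp : p < init.length + l.length) :
    (slp ev init (l ++ [g])).getD p false = (slp ev init l).getD p false := by
  rw [slp_snoc]
  exact getD_append_left' _ _ _ _ (by simpa using hp)

theorem Sem.use {n : ℕ} {init : List Bool} (hn : init.length = n) {ops : List (ℕ × ℕ × ℕ)}
    {H U : List ℕ} {wv : List Bool} (h : Inv n ops H U) (hs : Sem init ops H wv) {j : ℕ}
    (hj : j < H.length) :
    Sem init (useW n (ops, H) j).1 (useW n (ops, H) j).2 wv := by
  subst hn
  refine ⟨by simp [useW, hs.1], ?_⟩
  intro i hi
  have hi' : i < H.length := by simpa [useW] using hi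
  simp only [useW]
  rw [getD_set' _ _ _ _ hi']
  split_ifs with hji
  · subst hji
    rw [slp_snoc_last]
    simp only [cellEv, if_true]
    exact hs.2 j hj
  · rw [slp_snoc_old _ _ _ _ _ (h.holdLt _ (getD_mem' hi'))]
    exact hs.2 i hi'

theorem useW_len1 (n : ℕ) (s : List (ℕ × ℕ × ℕ) × List ℕ) (j : ℕ) :
    (useW n s j).1.length = s.1.length + 1 := by simp [useW]

theorem useW_len2 (n : ℕ) (s : List (ℕ × ℕ × ℕ) × List ℕ) (j : ℕ) :
    (useW n s j).2.length = s.2.length := by simp [useW]

theorem useW_srcNand (n : ℕ) (s : List (ℕ × ℕ × ℕ) × List ℕ) (j : ℕ) :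
    srcNand (useW n s j).1 = srcNand s.1 := by simp [useW, srcNand]

theorem stepN_inv {n : ℕ} {init : List Bool} (hn : init.length = n)
    {s : List (ℕ × ℕ × ℕ) × List ℕ} {wv : List Bool}
    (h : Inv n s.1 s.2 (srcNand s.1)) (hs : Sem init s.1 s.2 wv) {g : ℕ × ℕ}
    (h1 : g.1 < s.2.length) (h2 : g.2 < s.2.length) :
    Inv n (stepN n s g).1 (stepN n s g).2 (srcNand (stepN n s g).1) ∧
      Sem init (stepN n s g).1 (stepN n s g).2 (wv ++ [nandEv g wv]) := by
  have i1 := h.use h1
  have s1 := Sem.use hn h hs h1
  have h2' : g.2 < (useW n (s.1, s.2) g.1).2.length := by rw [useW_len2]; exact h2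
  have i2 := i1.use h2'
  have s2 := Sem.use hn i1 s1 h2'
  have el1 : (useW n s g.1).1.length = s.1.length + 1 := useW_len1 _ _ _
  have el2 : (useW n (useW n s g.1) g.2).1.length = s.1.length + 2 := by
    rw [useW_len1, el1]
  have hp1 : s.2.getD g.1 0 < n + s.1.length := h.holdLt _ (getD_mem' h1)
  have hp2 : (useW n s g.1).2.getD g.2 0 < n + (s.1.length + 1) := by
    have := i1.holdLt _ (getD_mem' h2')
    simp only [Prod.mk.eta] at this
    rw [el1] at this
    exact this
  simp only [Prod.mk.eta] at i1 i2 s1 s2 h2'
  have hU : srcNand (stepN n s g).1 =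
      (srcNand s.1 ++ [s.2.getD g.1 0]) ++ [(useW n s g.1).2.getD g.2 0] := by
    simp only [stepN, srcNand_append, useW_srcNand]
    simp [srcNand]
  have hI : Inv n (stepN n s g).1 (stepN n s g).2 (srcNand (stepN n s g).1) := by
    rw [hU]
    have := Inv.emit i2 (a := s.2.getD g.1 0) (b := (useW n s g.1).2.getD g.2 0)
      (by rw [el2]; omega) (by rw [el2]; omega)
    rw [el2] at this
    exact this
  refine ⟨hI, ?_, ?_⟩
  · simp only [stepN, List.length_append, List.length_singleton, useW_len2, hs.1]
  · intro j hj
    simp only [stepN] at hj ⊢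
    have hl2 : (useW n (useW n s g.1) g.2).2.length = s.2.length := by rw [useW_len2, useW_len2]
    simp only [List.length_append, List.length_singleton, hl2] at hj
    subst hn
    by_cases hj' : j < s.2.length
    · have e1 : ((useW init.length (useW init.length s g.1) g.2).2 ++
          [init.length + (s.1.length + 2)]).getD j 0 =
          (useW init.length (useW init.length s g.1) g.2).2.getD j 0 := by
        rw [List.getD_eq_getElem?_getD, List.getD_eq_getElem?_getD,
          List.getElem?_append_left (by rw [hl2]; exact hj')]
      rw [e1, slp_snoc_old, s2.2 j (by rw [hl2]; exact hj'),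
        getD_append_left' _ _ _ _ (by rw [← hs.1]; exact hj')]
      exact i2.holdLt _ (getD_mem' (by rw [hl2]; exact hj'))
    · have hj2 : j = s.2.length := by omega
      subst hj2
      have e1 : ((useW init.length (useW init.length s g.1) g.2).2 ++
          [init.length + (s.1.length + 2)]).getD s.2.length 0 = init.length + (s.1.length + 2) := by
        rw [List.getD_eq_getElem?_getD, List.getElem?_append_right (by rw [hl2]), hl2]
        simp
      have e2 : (wv ++ [nandEv g wv]).getD s.2.length false = nandEv g wv := by
        rw [hs.1, List.getD_eq_getElem?_getD, List.getElem?_append_right (le_refl _)]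
        simp
      rw [e1, e2, ← el2, slp_snoc_last]
      simp only [cellEv, nandEv]
      have v1 : (slp cellEv init (useW init.length (useW init.length s g.1) g.2).1).getD
          (s.2.getD g.1 0) false = wv.getD g.1 false := by
        rw [show (useW init.length (useW init.length s g.1) g.2).1 =
          (useW init.length s g.1).1 ++ [(0, (useW init.length s g.1).2.getD g.2 0, 0)] from rfl,
          slp_snoc_old _ _ _ _ _ (by rw [el1]; omega),
          show (useW init.length s g.1).1 = s.1 ++ [(0, s.2.getD g.1 0, 0)] from rfl,
          slp_snoc_old _ _ _ _ _ hp1]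
        exact hs.2 _ h1
      have v2 : (slp cellEv init (useW init.length (useW init.length s g.1) g.2).1).getD
          ((useW init.length s g.1).2.getD g.2 0) false = wv.getD g.2 false := by
        rw [show (useW init.length (useW init.length s g.1) g.2).1 =
          (useW init.length s g.1).1 ++ [(0, (useW init.length s g.1).2.getD g.2 0, 0)] from rfl,
          slp_snoc_old _ _ _ _ _ (by rw [el1]; omega)]
        exact s1.2 _ h2'
      rw [v1, v2]
      simp

/-- initial holders: the input cells -/
theorem inv_init (n : ℕ) : Inv n [] (List.range n) [] := by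
  refine ⟨by simp [srcCopy], by simp, List.nodup_range, ?_, by simp [srcCopy], by simp, by simp [srcCopy],
    by simp, ?_⟩
  · intro p hp; simpa using hp
  · intro t ht; simp at ht

theorem sem_init {n : ℕ} {init : List Bool} (hn : init.length = n) :
    Sem init [] (List.range n) init := by
  refine ⟨by simp [hn], ?_⟩
  intro j hj
  have : j < n := by simpa using hj
  simp [List.getD_eq_getElem?_getD, this]

theorem foldN_inv {n : ℕ} {init : List Bool} (hn : init.length = n) (l : List (ℕ × ℕ))
    (hl : NandWF n l) :
    let s := l.foldl (stepN n) ([], List.range n)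
    Inv n s.1 s.2 (srcNand s.1) ∧ Sem init s.1 s.2 (slp nandEv init l) ∧
      s.1.length = 3 * l.length := by
  induction l using List.reverseRecOn with
  | nil => exact ⟨inv_init n, sem_init hn, rfl⟩
  | append_singleton l g ih =>
    have hl' : NandWF n l := by
      intro t ht
      have := hl t (by simp; omega)
      rwa [List.getElem_append_left ht] at this
    obtain ⟨h1, h2, h3⟩ := ih hl'
    have hg := hl l.length (by simp)
    simp only [List.getElem_concat_length] at hg
    have hlen : (l.foldl (stepN n) ([], List.range n)).2.length = n + l.length := by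
      rw [h2.1]; simp [hn]
    obtain ⟨r1, r2⟩ := stepN_inv hn h1 h2 (g := g) (by rw [hlen]; exact hg.1) (by rw [hlen]; exact hg.2)
    simp only [List.foldl_append, List.foldl_cons, List.foldl_nil]
    refine ⟨r1, ?_, ?_⟩
    · rw [slp_snoc]
      exact r2
    · simp only [stepN, List.length_append, List.length_singleton, useW_len1, h3]
      ring

/-- invariant of the output phase -/
theorem foldO_inv {n : ℕ} {init : List Bool} (hn : init.length = n) {wv : List Bool}
    (s0 : List (ℕ × ℕ × ℕ) × List ℕ) (h : Inv n s0.1 s0.2 (srcNand s0.1)) (hs : Sem init s0.1 s0.2 wv)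
    (l : List ℕ) (hl : ∀ o ∈ l, o < s0.2.length) :
    let s := l.foldl (stepO n) (s0, [])
    Inv n s.1.1 s.1.2 (srcNand s.1.1 ++ s.2) ∧ Sem init s.1.1 s.1.2 wv ∧
      s.1.1.length = s0.1.length + l.length ∧ s.1.2.length = s0.2.length ∧ s.2.length = l.length ∧
      ∀ j < l.length, (slp cellEv init s.1.1).getD (s.2.getD j 0) false = wv.getD (l.getD j 0) false := by
  induction l using List.reverseRecOn with
  | nil => exact ⟨by simpa using h, hs, rfl, rfl, rfl, by simp⟩
  | append_singleton l o ih =>
    obtain ⟨h1, h2, h3, h4, h5, h6⟩ := ih (fun o ho => hl o (by simp [ho]))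
    simp only [List.foldl_append, List.foldl_cons, List.foldl_nil]
    set s := l.foldl (stepO n) (s0, []) with hsdef
    have ho : o < s.1.2.length := by rw [h4]; exact hl o (by simp)
    have i1 := h1.use ho
    have s1 := Sem.use hn h1 h2 ho
    simp only [Prod.mk.eta] at i1 s1
    refine ⟨?_, s1, ?_, ?_, ?_, ?_⟩
    · simp only [stepO, useW_srcNand]
      rw [← List.append_assoc]
      exact i1
    · simp only [stepO, useW_len1, h3, List.length_append, List.length_singleton]
      ring
    · simp only [stepO, useW_len2, h4]
    · simp only [stepO, List.length_append, List.length_singleton, h5]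
    · intro j hj
      subst hn
      simp only [List.length_append, List.length_singleton] at hj
      simp only [stepO]
      have hold : ∀ p < init.length + s.1.1.length,
          (slp cellEv init (useW init.length s.1 o).1).getD p false =
            (slp cellEv init s.1.1).getD p false := by
        intro p hp
        exact slp_snoc_old _ _ _ _ _ hp
      by_cases hj' : j < l.length
      · have e1 : (s.2 ++ [s.1.2.getD o 0]).getD j 0 = s.2.getD j 0 :=
          getD_append_left' _ _ _ _ (by rw [h5]; exact hj')
        have e2 : (l ++ [o]).getD j 0 = l.getD j 0 :=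
          getD_append_left' _ _ _ _ hj'
        rw [e1, e2, hold, h6 j hj']
        apply h1.useLt
        rw [List.mem_append]
        exact Or.inr (getD_mem' (by rw [h5]; exact hj'))
      · have hj2 : j = l.length := by omega
        subst hj2
        have e1 : (s.2 ++ [s.1.2.getD o 0]).getD l.length 0 = s.1.2.getD o 0 := by
          rw [List.getD_eq_getElem?_getD, List.getElem?_append_right (by rw [h5]), h5]
          simp
        have e2 : (l ++ [o]).getD l.length 0 = o := by
          rw [List.getD_eq_getElem?_getD, List.getElem?_append_right (le_refl _)]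
          simp
        rw [e1, e2, hold _ (h1.holdLt _ (getD_mem' ho))]
        exact h2.2 o ho

/-! ### the compiler -/

/-- the cell program of a circuit given by raw gates and output positions:
(operations of the cells `n, n+1, ..`, output cells), `n = outs.length` -/
def compile (gs : List (ℕ × ℕ × ℕ)) (outs : List ℕ) : List (ℕ × ℕ × ℕ) × List ℕ :=
  let n := outs.length
  let s := ((nands n gs).foldl (stepN n) ([], List.range n))
  let r := (outs.map (wire n)).foldl (stepO n) (s, [])
  (r.1.1, r.2)

/-- Specification of the cell program. -/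
structure Spec (n : ℕ) (P : List (ℕ × ℕ × ℕ) × List ℕ) : Prop where
  /-- number of outputs -/
  outLen : P.2.length = n
  /-- operands are strictly earlier cells, tags are `0` or `1` -/
  wf : CellWF n P.1
  /-- every cell is the source of at most one COPY -/
  copyNodup : (srcCopy P.1).Nodup
  /-- every cell is at most one NAND operand or output -/
  useNodup : (srcNand P.1 ++ P.2).Nodup
  /-- outputs are cells -/
  outLt : ∀ o ∈ P.2, o < n + P.1.length

theorem compile_spec {n : ℕ} (C : BCircuit n) (hC : C.WF) :
    Spec n (compile (C.gates.map raw) C.outs) ∧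
    (compile (C.gates.map raw) C.outs).1.length = 9 * C.gates.length + n ∧
    ∀ (x : Fin n → Bool) (j : Fin n),
      (slp cellEv (List.ofFn x) (compile (C.gates.map raw) C.outs).1).getD
        ((compile (C.gates.map raw) C.outs).2.getD j 0) false = C.apply x j := by
  obtain ⟨ho, hlt, hwf⟩ := hC
  have hN := nands_wf C hwf
  have main : ∀ x : Fin n → Bool, _ := fun x =>
    foldN_inv (init := List.ofFn x) (by simp) (nands n (C.gates.map raw)) hN
  have hout : ∀ o ∈ C.outs.map (wire n),
      o < ((nands n (C.gates.map raw)).foldl (stepN n) ([], List.range n)).2.length := by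
    intro o hmo
    obtain ⟨m1, m2, m3⟩ := main (fun _ => false)
    rw [m2.1]
    rw [List.mem_map] at hmo
    obtain ⟨a, ha, rfl⟩ := hmo
    have := hlt a ha
    simp [wire]
    omega
  have main2 : ∀ x : Fin n → Bool, _ := fun x =>
    foldO_inv (init := List.ofFn x) (n := n) (by simp)
      ((nands n (C.gates.map raw)).foldl (stepN n) ([], List.range n)) (main x).1 (main x).2.1
      (C.outs.map (wire n)) hout
  have hcomp : compile (C.gates.map raw) C.outs =
      (((C.outs.map (wire n)).foldl (stepO n)
        ((nands n (C.gates.map raw)).foldl (stepN n) ([], List.range n), [])).1.1,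
       ((C.outs.map (wire n)).foldl (stepO n)
        ((nands n (C.gates.map raw)).foldl (stepN n) ([], List.range n), [])).2) := by
    simp only [compile, ho]
  rw [hcomp]
  obtain ⟨r1, r2, r3, r4, r5, r6⟩ := main2 (fun _ => false)
  refine ⟨⟨?_, r1.wf, r1.copyNodup, r1.useNodup, ?_⟩, ?_, ?_⟩
  · rw [r5]; simp [ho]
  · intro o hmo
    exact r1.useLt o (by rw [List.mem_append]; exact Or.inr hmo)
  · rw [r3, (main (fun _ => false)).2.2]
    simp [ho]
    ring
  · intro x j
    obtain ⟨-, -, -, -, -, r6⟩ := main2 x
    have hj : (j : ℕ) < (C.outs.map (wire n)).length := by simp [ho]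
    rw [r6 j hj]
    have e : (C.outs.map (wire n)).getD j 0 = wire n (C.outs.getD j 0) := by
      have : (j : ℕ) < C.outs.length := by simp [ho]
      simp [List.getD_eq_getElem?_getD, this]
    rw [e, apply_eq]
    refine nands_val C hwf x _ (hlt _ ?_)
    exact getD_mem' (by simp [ho])

end Crest.Agent.R289.EolNF436
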