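import Mathlib

/-!
# Row 289, block C: layout of a circuit on `P × T`, definitions only (colour per wire)

Numbers everywhere.  An address is `v * nT + θ` (place `v`, position `θ`), a cell is
(address, lane).  Cell `t` of the compiled circuit has the home address `home t` and its value is
written in lane `0`.  A wire of class `c` (0 copy, 1 left argument, 2 right argument, 3 output) has
a simple path of places and one colour `k`; its cable climbs in the source place from position
`θ_0` to `θ_k` (lane `lU c`), follows the path at position `θ_k` (lane `lX c`), descends in the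
target place (lane `lD c`); class 3 ends in lane `lOut`.  Every copy is made through the next lane
(negated value), so only NAND operations are used.
-/

set_option autoImplicit false

namespace Crest.Agent.R289.Layout109

/-- cell = (address, lane) -/
abbrev Cel := ℕ × ℕ

/-- operation: `none` = input, `some (c1, c2)` = NAND of two cells (absolute cells) -/
abbrev OpN := Option (Cel × Cel)

/-- step = (visited address, optional instruction (lane, operation)) -/
abbrev Stp := ℕ × Option (ℕ × OpN)

/-- wire = (class, (source cell, target cell), colour, path of places) -/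
abbrev Wir := ℕ × (ℕ × ℕ) × ℕ × List ℕ

/-- copy of `z0` to `z` through the negated lane `z.2 + 1` -/
def cp (z0 z : Cel) : List Stp :=
  [(z.1, some (z.2 + 1, some (z0, z0))),
   (z.1, some (z.2, some ((z.1, z.2 + 1), (z.1, z.2 + 1))))]

/-- writing part of a cable -/
def fwd (z0 : Cel) (zs : List Cel) : List Stp :=
  ((z0 :: zs).zip zs).flatMap fun e => cp e.1 e.2

/-- way back of a cable -/
def bwd (z0 : Cel) (zs : List Cel) : List Stp :=
  ((z0 :: zs).map fun z => ((z.1, none) : Stp)).reverse

/-- a cable from the cell `z0` -/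
def cable (z0 : Cel) (zs : List Cel) : List Stp := fwd z0 zs ++ bwd z0 zs

/-- the block of a gate cell `g` with operation `o` and outgoing cables `cs` -/
def block (g : Cel) (o : OpN) (cs : List (List Cel)) : List Stp :=
  (g.1, some (g.2, o)) :: cs.flatMap (cable g)

/-- lane of the way up -/
def lU (c : ℕ) : ℕ := 6 * c + 2
/-- lane of the crossing -/
def lX (c : ℕ) : ℕ := 6 * c + 4
/-- lane of the way down -/
def lD (c : ℕ) : ℕ := 6 * c + 6
/-- output lane -/
def lOut : ℕ := 26

/-- address of the place `v` at the position number `i` of the line `θ` -/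
def ad (nT : ℕ) (θ : List ℕ) (v i : ℕ) : ℕ := v * nT + θ.getD i 0

/-- cells of the cable of a wire -/
def cells (nT : ℕ) (θ : List ℕ) (w : Wir) : List Cel :=
  ((θ.take (w.2.2.1 + 1)).map fun a => ((w.2.2.2.headD 0 * nT + a, lU w.1) : Cel)) ++
  (w.2.2.2.map fun v => ((ad nT θ v w.2.2.1, lX w.1) : Cel)) ++
  ((θ.take (w.2.2.1 + 1)).map fun a => ((w.2.2.2.getLastD 0 * nT + a, lD w.1) : Cel)).reverse ++
  (if w.1 = 3 then [(ad nT θ (w.2.2.2.getLastD 0) 0, lOut)] else [])

/-- home address of cell `t` -/
def home (nT : ℕ) (θ hp : List ℕ) (t : ℕ) : ℕ := ad nT θ (hp.getD t 0) 0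

/-- operation of cell `t` with home address `h`; `ops` as in `EolNF436`: `(0, a, _)` copy,
`(1, a, b)` NAND -/
def gop (n : ℕ) (ops : List (ℕ × ℕ × ℕ)) (h t : ℕ) : OpN :=
  if t < n then none
  else if (ops.getD (t - n) (0, 0, 0)).1 = 0 then some ((h, lD 0 + 1), (h, lD 0 + 1))
  else some ((h, lD 1), (h, lD 2))

/-- block of cell `t` -/
def blockAt (nT : ℕ) (θ hp : List ℕ) (n : ℕ) (ops : List (ℕ × ℕ × ℕ)) (W : List Wir) (t : ℕ) :
    List Stp :=
  block (home nT θ hp t, 0) (gop n ops (home nT θ hp t) t)
    ((W.filter fun w => w.2.1.1 == t).map (cells nT θ))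

/-- the program of a compiled circuit -/
def prog (nT : ℕ) (θ hp : List ℕ) (n : ℕ) (ops : List (ℕ × ℕ × ℕ)) (W : List Wir) : List Stp :=
  (List.range (n + ops.length)).flatMap (blockAt nT θ hp n ops W)

/-- way back along the homes `0 .. m-1` -/
def retw (nT : ℕ) (θ hp : List ℕ) (m : ℕ) : List Stp :=
  ((hp.take m).map fun v => ((ad nT θ v 0, none) : Stp)).reverse

/-- step of the common walk: (address, instruction of program `false`, of program `true`) -/
abbrev Stp2 := ℕ × Option (ℕ × OpN) × Option (ℕ × OpN)

/-- common walk of two programs, `r` = way back -/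
def both (S r P : List Stp) : List Stp2 :=
  (S.map fun s => ((s.1, s.2, none) : Stp2)) ++ (r.map fun s => ((s.1, none, none) : Stp2)) ++
    (P.map fun s => ((s.1, none, s.2) : Stp2))

/-- wires `(class, (source, target))` of a compiled circuit -/
def wires (n : ℕ) (ops : List (ℕ × ℕ × ℕ)) (outs : List ℕ) : List (ℕ × (ℕ × ℕ)) :=
  (ops.zipIdx.flatMap fun e =>
    if e.1.1 = 0 then [(0, (e.1.2.1, n + e.2))]
    else [(1, (e.1.2.1, n + e.2)), (2, (e.1.2.2, n + e.2))]) ++
  outs.zipIdx.map fun e => (3, (e.1, e.2))

end Crest.Agent.R289.Layout109
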