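import Mathlib
import Crest.Agent.R289.LayDef_109

/-!
# Row 289, block C: programs of steps, run, arguments first, walks (generic part)
-/

set_option autoImplicit false

namespace Crest.Agent.R289.Layout109

/-! ### written cells, arguments, run -/

/-- written cells of a program -/
def wrs (pr : List Stp) : List Cel := pr.filterMap fun s => s.2.map fun i => (s.1, i.1)

/-- argument cells of a step -/
def argsOf (s : Stp) : List Cel :=
  match s.2 with
  | some (_, some (c1, c2)) => [c1, c2]
  | _ => []

/-- value of an operation at the address `a` -/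
def evO (x : ℕ → Bool) (f : Cel → Bool) (a : ℕ) (o : OpN) : Bool :=
  match o with
  | none => x a
  | some (c1, c2) => !(f c1 && f c2)

/-- effect of a step -/
def stepR (x : ℕ → Bool) (f : Cel → Bool) (s : Stp) : Cel → Bool :=
  match s.2 with
  | none => f
  | some (l, o) => Function.update f (s.1, l) (evO x f s.1 o)

/-- cells after a program -/
def runN (x : ℕ → Bool) (pr : List Stp) : Cel → Bool := pr.foldl (stepR x) fun _ => false

/-- arguments are written before, or belong to `S` -/
def AB : Set Cel → List Stp → Prop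
  | _, [] => True
  | S, s :: pr => (∀ c ∈ argsOf s, c ∈ S) ∧ AB (S ∪ {c | c ∈ wrs [s]}) pr

@[simp] theorem wrs_nil : wrs [] = [] := rfl

@[simp] theorem wrs_cons_none (a : ℕ) (pr : List Stp) : wrs ((a, none) :: pr) = wrs pr := rfl

@[simp] theorem wrs_cons_some (a l : ℕ) (o : OpN) (pr : List Stp) :
    wrs ((a, some (l, o)) :: pr) = (a, l) :: wrs pr := rfl

@[simp] theorem wrs_append (l l' : List Stp) : wrs (l ++ l') = wrs l ++ wrs l' := by
  simp [wrs, List.filterMap_append]

theorem wrs_flatMap {α : Type} (l : List α) (f : α → List Stp) :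
    wrs (l.flatMap f) = l.flatMap fun x => wrs (f x) := by
  induction l with
  | nil => rfl
  | cons a l ih => simp [List.flatMap_cons, ih]

theorem mem_wrs {pr : List Stp} {c : Cel} : c ∈ wrs pr ↔ ∃ o, (c.1, some (c.2, o)) ∈ pr := by
  unfold wrs
  rw [List.mem_filterMap]
  constructor
  · rintro ⟨⟨a, i⟩, hs, he⟩
    cases i with
    | none => simp at he
    | some i => obtain ⟨l, o⟩ := i; simp at he; subst he; exact ⟨o, hs⟩
  · rintro ⟨o, ho⟩
    exact ⟨_, ho, rfl⟩

theorem AB.mono {S S' : Set Cel} (h : S ⊆ S') {pr : List Stp} (hp : AB S pr) : AB S' pr := by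
  induction pr generalizing S S' with
  | nil => trivial
  | cons s pr ih =>
    exact ⟨fun c hc => h (hp.1 c hc), ih (Set.union_subset_union_left _ h) hp.2⟩

theorem AB_append (S : Set Cel) (l l' : List Stp) :
    AB S (l ++ l') ↔ AB S l ∧ AB (S ∪ {c | c ∈ wrs l}) l' := by
  induction l generalizing S with
  | nil => simp [AB]
  | cons s l ih =>
    have e : (S ∪ {c | c ∈ wrs [s]} ∪ {c | c ∈ wrs l} : Set Cel) =
        S ∪ {c | c ∈ wrs (s :: l)} := by
      have : wrs (s :: l) = wrs [s] ++ wrs l := by
        rw [← wrs_append]; rfl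
      ext c; simp [this, or_assoc]
    simp only [List.cons_append, AB, ih, e, and_assoc]

/-- consumption form of `AB` -/
theorem AB.split {S : Set Cel} {l l' : List Stp} {s : Stp} (h : AB S (l ++ s :: l')) :
    ∀ c ∈ argsOf s, c ∈ S ∨ c ∈ wrs l := by
  intro c hc
  have := ((AB_append S l (s :: l')).1 h).2.1 c hc
  simpa using this

theorem runN_snoc (x : ℕ → Bool) (pr : List Stp) (s : Stp) :
    runN x (pr ++ [s]) = stepR x (runN x pr) s := by
  simp [runN, List.foldl_append]

theorem stepR_of_not_mem (x : ℕ → Bool) (f : Cel → Bool) (s : Stp) (c : Cel)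
    (h : c ∉ wrs [s]) : stepR x f s c = f c := by
  obtain ⟨a, i⟩ := s
  cases i with
  | none => rfl
  | some i =>
    obtain ⟨l, o⟩ := i
    have h' : c ≠ (a, l) := by simpa using h
    simp [stepR, Function.update_of_ne h']

theorem runN_append_of_not_mem (x : ℕ → Bool) (l l' : List Stp) (c : Cel) (h : c ∉ wrs l') :
    runN x (l ++ l') c = runN x l c := by
  induction l' using List.reverseRecOn with
  | nil => simp
  | append_singleton l' s ih =>
    rw [wrs_append, List.mem_append, not_or] at h
    rw [← List.append_assoc, runN_snoc, stepR_of_not_mem _ _ _ _ h.2, ih h.1]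

/-- **every written cell satisfies its equation at the end** -/
theorem runN_eq (x : ℕ → Bool) (pr : List Stp) (hn : (wrs pr).Nodup) (hb : AB ∅ pr)
    {a l : ℕ} {o : OpN} (h : (a, some (l, o)) ∈ pr) :
    runN x pr (a, l) = evO x (runN x pr) a o := by
  obtain ⟨l1, l2, rfl⟩ := List.append_of_mem h
  have e : l1 ++ (a, some (l, o)) :: l2 = (l1 ++ [(a, some (l, o))]) ++ l2 := by simp
  have hsp := hb.split
  rw [wrs_append, wrs_cons_some] at hn
  have hn1 := hn
  rw [List.nodup_append] at hn
  obtain ⟨_, hn2, hn3⟩ := hn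
  have k1 : (a, l) ∉ wrs l2 := (List.nodup_cons.1 hn2).1
  rw [e, runN_append_of_not_mem _ _ _ _ k1, runN_snoc]
  simp only [stepR, Function.update_self]
  cases o with
  | none => rfl
  | some cc =>
    obtain ⟨c1, c2⟩ := cc
    have hm : ∀ c ∈ [c1, c2], runN x (l1 ++ [(a, some (l, some (c1, c2)))] ++ l2) c =
        runN x l1 c := by
      intro c hc
      have h1 : c ∈ wrs l1 := by
        have := hsp c (by simpa [argsOf] using hc)
        simpa using this
      have h2 : c ∉ wrs l2 := fun h2 => hn3 c h1 c (List.mem_cons_of_mem _ h2) rfl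
      have h3 : c ∉ wrs [(a, some (l, some (c1, c2)))] := by
        intro h3
        have h3' : c = (a, l) := by simpa using h3
        exact hn3 c h1 c (h3' ▸ List.mem_cons_self) rfl
      rw [runN_append_of_not_mem _ _ _ _ h2, runN_append_of_not_mem _ _ _ _ h3]
    simp only [evO, hm c1 (by simp), hm c2 (by simp)]

/-! ### cables -/

/-- the cells written by a cable -/
def dbl (zs : List Cel) : List Cel := zs.flatMap fun z => [(z.1, z.2 + 1), z]

@[simp] theorem fwd_nil (z0 : Cel) : fwd z0 [] = [] := rfl

@[simp] theorem fwd_cons (z0 z : Cel) (zs : List Cel) :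
    fwd z0 (z :: zs) = cp z0 z ++ fwd z zs := by
  simp [fwd, List.flatMap_cons]

theorem wrs_fwd (z0 : Cel) (zs : List Cel) : wrs (fwd z0 zs) = dbl zs := by
  induction zs generalizing z0 with
  | nil => rfl
  | cons z zs ih => simp [cp, ih, dbl, List.flatMap_cons]

theorem wrs_bwd (z0 : Cel) (zs : List Cel) : wrs (bwd z0 zs) = [] := by
  unfold wrs bwd
  rw [List.filterMap_eq_nil_iff]
  intro s hs
  simp only [List.mem_reverse, List.mem_map] at hs
  obtain ⟨z, _, rfl⟩ := hs
  rfl

theorem wrs_cable (z0 : Cel) (zs : List Cel) : wrs (cable z0 zs) = dbl zs := by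
  simp [cable, wrs_fwd, wrs_bwd]

theorem wrs_block (g : Cel) (o : OpN) (cs : List (List Cel)) :
    wrs (block g o cs) = g :: cs.flatMap dbl := by
  simp [block, wrs_flatMap, wrs_cable]

theorem AB_bwd (S : Set Cel) (z0 : Cel) (zs : List Cel) : AB S (bwd z0 zs) := by
  have key : ∀ (l : List Stp) (S : Set Cel), (∀ s ∈ l, s.2 = none) → AB S l := by
    intro l
    induction l with
    | nil => intro S _; trivial
    | cons s l ih =>
      intro S h
      refine ⟨fun c hc => ?_, ih _ fun s hs => h s (List.mem_cons_of_mem _ hs)⟩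
      have := h s List.mem_cons_self
      simp [argsOf, this] at hc
  apply key
  intro s hs
  simp only [bwd, List.mem_reverse, List.mem_map] at hs
  obtain ⟨z, _, rfl⟩ := hs
  rfl

theorem AB_fwd (S : Set Cel) (z0 : Cel) (zs : List Cel) (h : z0 ∈ S) : AB S (fwd z0 zs) := by
  induction zs generalizing z0 S with
  | nil => trivial
  | cons z zs ih =>
    rw [fwd_cons, AB_append]
    refine ⟨?_, ih _ _ ?_⟩
    · refine ⟨fun c hc => ?_, fun c hc => ?_, trivial⟩
      · have : c = z0 := by simpa [argsOf] using hc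
        exact this ▸ h
      · have : c = (z.1, z.2 + 1) := by simpa [argsOf] using hc
        exact Or.inr (by simp [this])
    · exact Or.inr (by simp [cp])

theorem AB_cable (S : Set Cel) (z0 : Cel) (zs : List Cel) (h : z0 ∈ S) : AB S (cable z0 zs) := by
  unfold cable
  rw [AB_append]
  exact ⟨AB_fwd S z0 zs h, AB_bwd _ _ _⟩

theorem AB_flatMap_of {α : Type} (l : List α) (f : α → List Stp) (S : Set Cel)
    (h : ∀ x ∈ l, AB S (f x)) : AB S (l.flatMap f) := by
  induction l generalizing S with
  | nil => trivial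
  | cons x l ih =>
    rw [List.flatMap_cons, AB_append]
    exact ⟨h x List.mem_cons_self,
      ih _ fun y hy => (h y (List.mem_cons_of_mem _ hy)).mono Set.subset_union_left⟩

theorem AB_block (S : Set Cel) (g : Cel) (o : OpN) (cs : List (List Cel))
    (h : ∀ c ∈ argsOf (g.1, some (g.2, o)), c ∈ S) : AB S (block g o cs) := by
  refine ⟨h, AB_flatMap_of _ _ _ fun zs _ => AB_cable _ _ _ (Or.inr ?_)⟩
  simp

/-- values along a cable -/
theorem fwd_val (x : ℕ → Bool) (f : Cel → Bool) (z0 : Cel) (zs : List Cel)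
    (h : ∀ a l o, (a, some (l, o)) ∈ fwd z0 zs → f (a, l) = evO x f a o) :
    ∀ z ∈ zs, f z = f z0 ∧ f (z.1, z.2 + 1) = !f z0 := by
  induction zs generalizing z0 with
  | nil => intro z hz; simp at hz
  | cons z1 zs ih =>
    have e1 := h z1.1 (z1.2 + 1) (some (z0, z0)) (by simp [cp])
    have e2 := h z1.1 z1.2 (some ((z1.1, z1.2 + 1), (z1.1, z1.2 + 1))) (by simp [cp])
    simp only [evO, Bool.and_self] at e1 e2
    have e3 : f z1 = f z0 := by
      have : f z1 = f (z1.1, z1.2) := rfl
      rw [this, e2, e1, Bool.not_not]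
    have ih' := ih z1 fun a l o ho => h a l o (by
      rw [fwd_cons]; exact List.mem_append_right _ ho)
    intro z hz
    rcases List.mem_cons.1 hz with rfl | hz
    · exact ⟨e3, e1⟩
    · rw [← e3]; exact ih' z hz

/-! ### walks -/

/-- walk from `a` through the list to `b` -/
def Wk (R : ℕ → ℕ → Prop) : ℕ → List ℕ → ℕ → Prop
  | a, [], b => a = b
  | a, x :: l, b => R a x ∧ Wk R x l b

section wk
variable {R : ℕ → ℕ → Prop}

theorem Wk.append {a b c : ℕ} {l l' : List ℕ} (h : Wk R a l b) (h' : Wk R b l' c) :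
    Wk R a (l ++ l') c := by
  induction l generalizing a with
  | nil => cases h; exact h'
  | cons x l ih => exact ⟨h.1, ih h.2⟩

theorem Wk.rev (hr : ∀ a b, R a b → R b a) {a b : ℕ} {l : List ℕ} (ha : R a a)
    (h : Wk R a l b) (hb : ∀ x ∈ l, R x x) : Wk R b ((a :: l).reverse) a := by
  induction l generalizing a with
  | nil => cases h; exact ⟨ha, rfl⟩
  | cons x l ih =>
    have := ih (hb x List.mem_cons_self) h.2 fun y hy => hb y (List.mem_cons_of_mem _ hy)
    rw [List.reverse_cons]
    exact this.append ⟨hr _ _ h.1, rfl⟩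

theorem Wk.isChain {a b : ℕ} {l : List ℕ} (h : Wk R a l b) : List.IsChain R (a :: l) := by
  induction l generalizing a with
  | nil => simp
  | cons x l ih => rw [List.isChain_cons_cons]; exact ⟨h.1, ih h.2⟩

theorem Wk.of_isChain {a : ℕ} {l : List ℕ} (h : List.IsChain R (a :: l)) :
    Wk R a l ((a :: l).getLastD 0) := by
  induction l generalizing a with
  | nil => simp [Wk]
  | cons x l ih =>
    rw [List.isChain_cons_cons] at h
    refine ⟨h.1, ?_⟩
    have := ih h.2
    simpa using this

variable (hrefl : ∀ a, R a a) (hsymm : ∀ a b, R a b → R b a)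

include hrefl in
theorem Wk_fwd (z0 : Cel) (zs : List Cel) (b : ℕ) (h : Wk R z0.1 (zs.map Prod.fst) b) :
    Wk R z0.1 ((fwd z0 zs).map Prod.fst) b := by
  induction zs generalizing z0 with
  | nil => exact h
  | cons z zs ih =>
    rw [fwd_cons, List.map_append]
    exact Wk.append (b := z.1) ⟨h.1, hrefl _, rfl⟩ (ih z h.2)

include hrefl hsymm in
theorem Wk_cable (z0 : Cel) (zs : List Cel) (b : ℕ) (h : Wk R z0.1 (zs.map Prod.fst) b) :
    Wk R z0.1 ((cable z0 zs).map Prod.fst) z0.1 := by
  unfold cable
  rw [List.map_append]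
  refine (Wk_fwd hrefl z0 zs b h).append ?_
  have : (bwd z0 zs).map Prod.fst = (z0.1 :: zs.map Prod.fst).reverse := by
    simp [bwd, List.map_reverse, Function.comp_def]
  rw [this]
  exact h.rev hsymm (hrefl _) fun x _ => hrefl x

include hrefl hsymm in
theorem Wk_block (g : Cel) (o : OpN) (cs : List (List Cel)) (a : ℕ) (ha : R a g.1)
    (h : ∀ zs ∈ cs, ∃ b, Wk R g.1 (zs.map Prod.fst) b) :
    Wk R a ((block g o cs).map Prod.fst) g.1 := by
  refine ⟨ha, ?_⟩
  have : ∀ cs : List (List Cel), (∀ zs ∈ cs, ∃ b, Wk R g.1 (zs.map Prod.fst) b) →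
      Wk R g.1 ((cs.flatMap (cable g)).map Prod.fst) g.1 := by
    intro cs
    induction cs with
    | nil => intro _; rfl
    | cons zs cs ih =>
      intro h
      obtain ⟨b, hb⟩ := h zs List.mem_cons_self
      rw [List.flatMap_cons, List.map_append]
      exact (Wk_cable hrefl hsymm g zs b hb).append
        (ih fun zs hz => h zs (List.mem_cons_of_mem _ hz))
  exact this cs h

end wk

end Crest.Agent.R289.Layout109
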