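import Mathlib
import Crest.Agent.R289.LayDef_109
import Crest.Agent.R289.LayGen_109

/-!
# Row 289, block C: geometry of the layout (cells written once, walk)
-/

set_option autoImplicit false

namespace Crest.Agent.R289.Layout109

/-- data of the places and of the line `θ` -/
structure Geo (nP nT : ℕ) (θ hp : List ℕ) : Prop where
  θpos : 0 < θ.length
  θlt : ∀ a ∈ θ, a < nT
  θnd : θ.Nodup
  hnd : hp.Nodup
  hlt : ∀ v ∈ hp, v < nP

/-- a wire with its colour and its path; `E` = edges between places -/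
structure WireOK (nP : ℕ) (E : ℕ → ℕ → Prop) (θ hp : List ℕ) (w : Wir) : Prop where
  cl : w.1 < 4
  src : w.2.1.1 < hp.length
  tgt : w.2.1.2 < hp.length
  col : w.2.2.1 < θ.length
  hd : w.2.2.2.head? = some (hp.getD w.2.1.1 0)
  la : w.2.2.2.getLast? = some (hp.getD w.2.1.2 0)
  nd : w.2.2.2.Nodup
  lt : ∀ v ∈ w.2.2.2, v < nP
  ch : w.2.2.2.IsChain E

/-- two wires of the same class are separated -/
def Sep (w w' : Wir) : Prop :=
  w.1 = w'.1 → w.2.1.1 ≠ w'.2.1.1 ∧ w.2.1.2 ≠ w'.2.1.2 ∧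
    (w.2.2.1 = w'.2.2.1 → List.Disjoint w.2.2.2 w'.2.2.2)

/-- all wires -/
structure WOK (nP : ℕ) (E : ℕ → ℕ → Prop) (θ hp : List ℕ) (W : List Wir) : Prop where
  ok : ∀ w ∈ W, WireOK nP E θ hp w
  sep : W.Pairwise Sep

theorem Sep.symm {w w' : Wir} (h : Sep w w') : Sep w' w := fun e =>
  let k := h e.symm
  ⟨k.1.symm, k.2.1.symm, fun e' => (k.2.2 e'.symm).symm⟩

instance : Std.Symm Sep := ⟨fun _ _ h => h.symm⟩

section
variable {nP nT : ℕ} {E : ℕ → ℕ → Prop} {θ hp : List ℕ} {W : List Wir} {w w' : Wir}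

theorem WireOK.ne (h : WireOK nP E θ hp w) : w.2.2.2 ≠ [] := by
  intro e; have := h.hd; rw [e] at this; simp at this

theorem WireOK.headD (h : WireOK nP E θ hp w) : w.2.2.2.headD 0 = hp.getD w.2.1.1 0 := by
  rw [List.headD_eq_head?_getD, h.hd]; rfl

theorem WireOK.lastD (h : WireOK nP E θ hp w) : w.2.2.2.getLastD 0 = hp.getD w.2.1.2 0 := by
  rw [List.getLastD_eq_getLast?, h.la]; rfl

theorem getD_inj {l : List ℕ} (hl : l.Nodup) {i j : ℕ} (hi : i < l.length) (hj : j < l.length)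
    (e : l.getD i 0 = l.getD j 0) : i = j := by
  rw [List.getD_eq_getElem _ _ hi, List.getD_eq_getElem _ _ hj] at e
  exact (hl.getElem_inj_iff).1 e

theorem mul_add_inj {n a b c d : ℕ} (hb : b < n) (hd : d < n) (e : a * n + b = c * n + d) :
    a = c ∧ b = d := by
  have hn : 0 < n := by omega
  have h1 : (a * n + b) / n = a := by
    rw [Nat.mul_comm, Nat.mul_add_div hn, Nat.div_eq_of_lt hb, Nat.add_zero]
  have h2 : (c * n + d) / n = c := by
    rw [Nat.mul_comm, Nat.mul_add_div hn, Nat.div_eq_of_lt hd, Nat.add_zero]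
  have h3 : a = c := by rw [← h1, ← h2, e]
  subst h3
  exact ⟨rfl, by omega⟩

variable (hG : Geo nP nT θ hp)

include hG in
theorem Geo.getD_lt {i : ℕ} (hi : i < θ.length) : θ.getD i 0 < nT := by
  rw [List.getD_eq_getElem _ _ hi]; exact hG.θlt _ (List.getElem_mem hi)

include hG in
theorem Geo.ad_inj {v v' i j : ℕ} (hi : i < θ.length) (hj : j < θ.length)
    (e : ad nT θ v i = ad nT θ v' j) : v = v' ∧ i = j := by
  obtain ⟨h1, h2⟩ := mul_add_inj (hG.getD_lt hi) (hG.getD_lt hj) e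
  exact ⟨h1, getD_inj hG.θnd hi hj h2⟩

/-- membership in the cells of a cable -/
theorem mem_cells (hw : w.2.2.1 < θ.length) {z : Cel} :
    z ∈ cells nT θ w ↔
      (∃ i ≤ w.2.2.1, z = (ad nT θ (w.2.2.2.headD 0) i, lU w.1)) ∨
      (∃ v ∈ w.2.2.2, z = (ad nT θ v w.2.2.1, lX w.1)) ∨
      (∃ i ≤ w.2.2.1, z = (ad nT θ (w.2.2.2.getLastD 0) i, lD w.1)) ∨
      (w.1 = 3 ∧ z = (ad nT θ (w.2.2.2.getLastD 0) 0, lOut)) := by
  have key : ∀ (v l : ℕ), (∃ a ∈ θ.take (w.2.2.1 + 1), ((v * nT + a, l) : Cel) = z) ↔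
      ∃ i ≤ w.2.2.1, z = (ad nT θ v i, l) := by
    intro v l
    constructor
    · rintro ⟨a, ha, rfl⟩
      rw [List.mem_take_iff_getElem] at ha
      obtain ⟨i, hi, rfl⟩ := ha
      have hi' : i < θ.length := by omega
      refine ⟨i, by omega, ?_⟩
      rw [ad, List.getD_eq_getElem _ _ hi']
    · rintro ⟨i, hi, rfl⟩
      refine ⟨θ.getD i 0, ?_, rfl⟩
      rw [List.mem_take_iff_getElem]
      have hi' : i < θ.length := by omega
      refine ⟨i, by omega, ?_⟩
      rw [List.getD_eq_getElem _ _ hi']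
  unfold cells
  simp only [List.mem_append, List.mem_map, List.mem_reverse, key]
  constructor
  · rintro (((h | ⟨v, hv, rfl⟩) | h) | h)
    · exact Or.inl h
    · exact Or.inr (Or.inl ⟨v, hv, rfl⟩)
    · exact Or.inr (Or.inr (Or.inl h))
    · split_ifs at h with hc
      · exact Or.inr (Or.inr (Or.inr ⟨hc, by simpa using h⟩))
      · simp at h
  · rintro (h | ⟨v, hv, rfl⟩ | h | ⟨hc, rfl⟩)
    · exact Or.inl (Or.inl (Or.inl h))
    · exact Or.inl (Or.inl (Or.inr ⟨v, hv, rfl⟩))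
    · exact Or.inl (Or.inr h)
    · right; rw [if_pos hc]; simp

/-- lanes of the cells of a cable -/
theorem lane_cells (hw : w.2.2.1 < θ.length) (hc : w.1 < 4) {z : Cel} (hz : z ∈ cells nT θ w) :
    2 ≤ z.2 ∧ z.2 ≤ 26 ∧ z.2 % 2 = 0 := by
  rw [mem_cells hw] at hz
  rcases hz with ⟨i, _, rfl⟩ | ⟨v, _, rfl⟩ | ⟨i, _, rfl⟩ | ⟨_, rfl⟩
  · show 2 ≤ 6 * w.1 + 2 ∧ 6 * w.1 + 2 ≤ 26 ∧ (6 * w.1 + 2) % 2 = 0
    omega
  · show 2 ≤ 6 * w.1 + 4 ∧ 6 * w.1 + 4 ≤ 26 ∧ (6 * w.1 + 4) % 2 = 0
    omega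
  · show 2 ≤ 6 * w.1 + 6 ∧ 6 * w.1 + 6 ≤ 26 ∧ (6 * w.1 + 6) % 2 = 0
    omega
  · show 2 ≤ 26 ∧ 26 ≤ 26 ∧ 26 % 2 = 0
    omega

include hG in
/-- the cells of one cable are distinct -/
theorem nodup_cells (hw : WireOK nP E θ hp w) : (cells nT θ w).Nodup := by
  have hinj : ∀ v l : ℕ, Function.Injective fun a => ((v * nT + a, l) : Cel) := by
    intro v l a b e
    simp only [Prod.mk.injEq, and_true] at e
    omega
  have hup : ∀ v l : ℕ, ((θ.take (w.2.2.1 + 1)).map fun a => ((v * nT + a, l) : Cel)).Nodup :=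
    fun v l => (hG.θnd.sublist (List.take_sublist _ _)).map (hinj v l)
  have hnT : 0 < nT := lt_of_le_of_lt (Nat.zero_le _) (hG.getD_lt hG.θpos)
  have hcr : (w.2.2.2.map fun v => ((ad nT θ v w.2.2.1, lX w.1) : Cel)).Nodup := by
    apply hw.nd.map
    intro v v' e
    simp only [Prod.mk.injEq, and_true] at e
    exact (hG.ad_inj hw.col hw.col e).1
  have hl : ∀ (l : List Cel) (k : ℕ), (∀ z ∈ l, z.2 = k) → ∀ (l' : List Cel),
      (∀ z ∈ l', z.2 ≠ k) → ∀ a ∈ l, ∀ b ∈ l', a ≠ b := by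
    intro l k h l' h' a ha b hb e
    exact h' b hb (e ▸ h a ha)
  unfold cells
  rw [List.nodup_append, List.nodup_append, List.nodup_append]
  refine ⟨⟨⟨hup _ _, hcr, ?_⟩, List.nodup_reverse.2 (hup _ _), ?_⟩, ?_, ?_⟩
  · refine hl _ (lU w.1) (fun z hz => ?_) _ fun z hz => ?_
    · simp only [List.mem_map] at hz; obtain ⟨a, _, rfl⟩ := hz; rfl
    · simp only [List.mem_map] at hz; obtain ⟨a, _, rfl⟩ := hz
      simp only [lX, lU]; omega
  · intro a ha b hb e
    subst e
    simp only [List.mem_append, List.mem_map, List.mem_reverse] at ha hb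
    obtain ⟨b1, _, rfl⟩ := hb
    rcases ha with ⟨a1, _, e⟩ | ⟨a1, _, e⟩ <;> · simp only [Prod.mk.injEq, lU, lX, lD] at e; omega
  · split_ifs <;> simp
  · intro a ha b hb e
    subst e
    split_ifs at hb with hc
    · simp only [List.mem_singleton] at hb
      subst hb
      simp only [List.mem_append, List.mem_map, List.mem_reverse] at ha
      rcases ha with (⟨a1, _, e⟩ | ⟨a1, _, e⟩) | ⟨a1, _, e⟩ <;>
        · simp only [Prod.mk.injEq, lU, lX, lD, lOut] at e; omega
    · simp at hb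

include hG in
/-- two cables have no common cell -/
theorem disj_cells (hw : WireOK nP E θ hp w) (hw' : WireOK nP E θ hp w') (hs : Sep w w')
    {z : Cel} (hz : z ∈ cells nT θ w) (hz' : z ∈ cells nT θ w') : False := by
  rw [mem_cells hw.col, hw.headD, hw.lastD] at hz
  rw [mem_cells hw'.col, hw'.headD, hw'.lastD] at hz'
  have c1 := hw.cl
  have c2 := hw'.cl
  have k1 := hw.col
  have k2 := hw'.col
  have hp0 := hG.θpos
  rcases hz with ⟨i, hi, rfl⟩ | ⟨v, hv, rfl⟩ | ⟨i, hi, rfl⟩ | ⟨h3, rfl⟩ <;>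
  rcases hz' with ⟨j, hj, e⟩ | ⟨v', hv', e⟩ | ⟨j, hj, e⟩ | ⟨h3', e⟩ <;>
  simp only [Prod.mk.injEq, lU, lX, lD, lOut] at e <;> obtain ⟨e1, e2⟩ := e <;>
  try omega
  · have hc : w.1 = w'.1 := by omega
    obtain ⟨h1, _⟩ := hG.ad_inj (by omega) (by omega) e1
    exact (hs hc).1 (getD_inj hG.hnd hw.src hw'.src h1)
  · have hc : w.1 = w'.1 := by omega
    obtain ⟨h1, h2⟩ := hG.ad_inj k1 k2 e1
    exact (hs hc).2.2 h2 hv (h1 ▸ hv')
  · have hc : w.1 = w'.1 := by omega
    obtain ⟨h1, _⟩ := hG.ad_inj (by omega) (by omega) e1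
    exact (hs hc).2.1 (getD_inj hG.hnd hw.tgt hw'.tgt h1)
  · have hc : w.1 = w'.1 := by omega
    obtain ⟨h1, _⟩ := hG.ad_inj (by omega) (by omega) e1
    exact (hs hc).2.1 (getD_inj hG.hnd hw.tgt hw'.tgt h1)

/-- membership in the doubled list -/
theorem mem_dbl {zs : List Cel} {c : Cel} :
    c ∈ dbl zs ↔ ∃ z ∈ zs, c = (z.1, z.2 + 1) ∨ c = z := by
  simp [dbl]

/-- the doubled list of cells with even lanes -/
theorem nodup_dbl {zs : List Cel} (h : zs.Nodup) (he : ∀ z ∈ zs, z.2 % 2 = 0) :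
    (dbl zs).Nodup := by
  unfold dbl
  rw [List.nodup_flatMap]
  constructor
  · intro z _
    simp only [List.nodup_cons, List.mem_singleton, List.not_mem_nil, not_false_eq_true,
      List.nodup_nil, and_self, and_true]
    intro e
    have := congrArg Prod.snd e
    simp at this
  · refine h.imp_of_mem ?_
    intro a b ha hb hab
    simp only [Function.onFun]
    intro c hc hc'
    have ea := he a ha
    have eb := he b hb
    simp only [List.mem_cons, List.not_mem_nil, or_false] at hc hc'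
    apply hab
    rcases hc with rfl | rfl <;> rcases hc' with e | e
    · simp only [Prod.mk.injEq] at e; exact Prod.ext e.1 (by omega)
    · have := congrArg Prod.snd e; simp only at this; omega
    · have := congrArg Prod.snd e; simp only at this; omega
    · exact e

include hG in
theorem disj_dbl (hw : WireOK nP E θ hp w) (hw' : WireOK nP E θ hp w') (hs : Sep w w')
    {c : Cel} (hc : c ∈ dbl (cells nT θ w)) (hc' : c ∈ dbl (cells nT θ w')) : False := by
  rw [mem_dbl] at hc hc'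
  obtain ⟨z, hz, e⟩ := hc
  obtain ⟨z', hz', e'⟩ := hc'
  have h1 := lane_cells hw.col hw.cl hz
  have h2 := lane_cells hw'.col hw'.cl hz'
  have : z = z' := by
    rcases e with rfl | rfl <;> rcases e' with e' | e'
    · simp only [Prod.mk.injEq] at e'; exact Prod.ext e'.1 (by omega)
    · have := congrArg Prod.snd e'; simp only at this; omega
    · have := congrArg Prod.snd e'; simp only at this; omega
    · exact e'
  subst this
  exact disj_cells hG hw hw' hs hz hz'

/-! ### the program -/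

variable {n : ℕ} {ops : List (ℕ × ℕ × ℕ)}

theorem wrs_blockAt (t : ℕ) : wrs (blockAt nT θ hp n ops W t) =
    (home nT θ hp t, 0) :: (W.filter fun w => w.2.1.1 == t).flatMap
      fun w => dbl (cells nT θ w) := by
  rw [blockAt, wrs_block, List.flatMap_map]

theorem mem_wrs_blockAt {t : ℕ} {c : Cel} : c ∈ wrs (blockAt nT θ hp n ops W t) ↔
    c = (home nT θ hp t, 0) ∨ ∃ w ∈ W, w.2.1.1 = t ∧ c ∈ dbl (cells nT θ w) := by
  rw [wrs_blockAt]
  simp [and_assoc]

include hG in
/-- (N1) every cell is written once -/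
theorem nodup_wrs_prog (hW : WOK nP E θ hp W) (hlen : n + ops.length ≤ hp.length) :
    (wrs (prog nT θ hp n ops W)).Nodup := by
  unfold prog
  rw [wrs_flatMap, List.nodup_flatMap]
  have hlane : ∀ w ∈ W, ∀ c ∈ dbl (cells nT θ w), 2 ≤ c.2 := by
    intro w hw c hc
    rw [mem_dbl] at hc
    obtain ⟨z, hz, e⟩ := hc
    have := lane_cells (hW.ok w hw).col (hW.ok w hw).cl hz
    rcases e with rfl | rfl
    · simp only; omega
    · exact this.1
  have hne : ∀ w ∈ W, ∀ w' ∈ W, w ≠ w' → Sep w w' := fun w hw w' hw' hne =>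
    hW.sep.forall hw hw' hne
  constructor
  · intro t ht
    rw [wrs_blockAt, List.nodup_cons]
    constructor
    · intro hm
      simp only [List.mem_flatMap, List.mem_filter] at hm
      obtain ⟨w, ⟨hw, _⟩, hc⟩ := hm
      have := hlane w hw _ hc
      simp at this
    · rw [List.nodup_flatMap]
      constructor
      · intro w hw
        have hw' := hW.ok w (List.mem_filter.1 hw).1
        exact nodup_dbl (nodup_cells hG hw') fun z hz => (lane_cells hw'.col hw'.cl hz).2.2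
      · refine (hW.sep.sublist List.filter_sublist).imp_of_mem ?_
        intro a b ha hb hab c hc hc'
        exact disj_dbl hG (hW.ok a (List.mem_filter.1 ha).1) (hW.ok b (List.mem_filter.1 hb).1)
          hab hc hc'
  · refine (List.nodup_range).imp_of_mem ?_
    intro t t' ht ht' htt c hc hc'
    rw [List.mem_range] at ht ht'
    rw [mem_wrs_blockAt] at hc hc'
    rcases hc with rfl | ⟨w, hw, hwt, hc⟩ <;> rcases hc' with e | ⟨w', hw', hwt', hc'⟩
    · simp only [Prod.mk.injEq, and_true, home] at e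
      have := (hG.ad_inj hG.θpos hG.θpos e).1
      exact htt (getD_inj hG.hnd (by omega) (by omega) this)
    · have := hlane w' hw' _ hc'; simp at this
    · have := hlane w hw _ hc; rw [e] at this; simp at this
    · have hww : w ≠ w' := by
        rintro rfl; exact htt (hwt.symm.trans hwt')
      exact disj_dbl hG (hW.ok w hw) (hW.ok w' hw') (hne w hw w' hw' hww) hc hc'

/-- all lanes are `≤ 27` -/
theorem lane_prog (hW : WOK nP E θ hp W) {c : Cel} (hc : c ∈ wrs (prog nT θ hp n ops W)) :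
    c.2 < 28 := by
  unfold prog at hc
  rw [wrs_flatMap, List.mem_flatMap] at hc
  obtain ⟨t, _, hc⟩ := hc
  rw [mem_wrs_blockAt] at hc
  rcases hc with rfl | ⟨w, hw, _, hc⟩
  · simp
  · rw [mem_dbl] at hc
    obtain ⟨z, hz, e⟩ := hc
    have := lane_cells (hW.ok w hw).col (hW.ok w hw).cl hz
    rcases e with rfl | rfl
    · simp only; omega
    · omega

end

end Crest.Agent.R289.Layout109
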