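import Mathlib
import Crest.Agent.R289.LayDef_109
import Crest.Agent.R289.LayGen_109
import Crest.Agent.R289.LayGeo_109

/-!
# Row 289, block C: the walk and the values of the layout
-/

set_option autoImplicit false

namespace Crest.Agent.R289.Layout109

/-! ### walk -/

section walk
variable {nP nT : ℕ} {E : ℕ → ℕ → Prop} {θ hp : List ℕ} {W : List Wir} {w : Wir}
  {R : ℕ → ℕ → Prop}

/-- hypotheses on the adjacency of addresses -/
structure Adj (nP nT : ℕ) (E : ℕ → ℕ → Prop) (θ hp : List ℕ) (R : ℕ → ℕ → Prop) : Prop where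
  refl : ∀ a, R a a
  symm : ∀ a b, R a b → R b a
  line : ∀ v < nP, ∀ i, i + 1 < θ.length → R (ad nT θ v i) (ad nT θ v (i + 1))
  edge : ∀ u < nP, ∀ v < nP, E u v → ∀ k < θ.length, R (ad nT θ u k) (ad nT θ v k)
  homes : ∀ t, t + 1 < hp.length → R (home nT θ hp t) (home nT θ hp (t + 1))

theorem map_take_eq {k : ℕ} (hk : k < θ.length) (v : ℕ) :
    (θ.take (k + 1)).map (fun a => v * nT + a) = (List.range (k + 1)).map (ad nT θ v) := by
  apply List.ext_getElem
  · simp; omega
  · intro i h1 h2
    simp only [List.length_map, List.length_take, List.length_range] at h1 h2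
    have hi : i < θ.length := by omega
    simp only [List.getElem_map, List.getElem_take, List.getElem_range, ad]
    rw [List.getD_eq_getElem _ _ hi]

theorem Wk_up (hr : ∀ a, R a a) (f : ℕ → ℕ) (k : ℕ) (h : ∀ i < k, R (f i) (f (i + 1))) :
    Wk R (f 0) ((List.range (k + 1)).map f) (f k) := by
  induction k with
  | zero => exact ⟨hr _, rfl⟩
  | succ k ih =>
    rw [List.range_succ, List.map_append]
    exact (ih fun i hi => h i (by omega)).append ⟨h k (by omega), rfl⟩

theorem Wk_down (f : ℕ → ℕ) (k : ℕ) (h : ∀ i < k, R (f (i + 1)) (f i)) :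
    ∀ a, R a (f k) → Wk R a ((List.range (k + 1)).map f).reverse (f 0) := by
  induction k with
  | zero => intro a ha; exact ⟨ha, rfl⟩
  | succ k ih =>
    intro a ha
    rw [List.range_succ, List.map_append, List.reverse_append]
    exact ⟨ha, ih (fun i hi => h i (by omega)) _ (h k (by omega))⟩

theorem Wk_cross (hA : Adj nP nT E θ hp R) {k : ℕ} (hk : k < θ.length) {v0 v1 : ℕ} {p : List ℕ}
    (h0 : p.head? = some v0) (h1 : p.getLast? = some v1) (hlt : ∀ v ∈ p, v < nP)
    (hc : p.IsChain E) :
    Wk R (ad nT θ v0 k) (p.map fun v => ad nT θ v k) (ad nT θ v1 k) := by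
  cases p with
  | nil => simp at h0
  | cons u p =>
    simp only [List.head?_cons, Option.some.injEq] at h0
    subst h0
    refine ⟨hA.refl _, ?_⟩
    induction p generalizing u with
    | nil =>
      simp only [List.getLast?_singleton, Option.some.injEq] at h1
      subst h1; rfl
    | cons u' p ih =>
      rw [List.isChain_cons_cons] at hc
      refine ⟨hA.edge u (hlt u List.mem_cons_self) u' (hlt u' (by simp)) hc.1 k hk, ?_⟩
      refine ih u' ?_ (fun v hv => hlt v (List.mem_cons_of_mem _ hv)) hc.2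
      rwa [List.getLast?_cons_cons] at h1

theorem Wk_cells (hA : Adj nP nT E θ hp R) (hw : WireOK nP E θ hp w) :
    ∃ b, Wk R (home nT θ hp w.2.1.1) ((cells nT θ w).map Prod.fst) b := by
  have hne := hw.ne
  have h0 : w.2.2.2.headD 0 < nP := by
    rw [List.headD_eq_head?_getD]
    rcases hh : w.2.2.2.head? with _ | v
    · rw [List.head?_eq_none_iff] at hh; exact absurd hh hne
    · exact hw.lt v (List.mem_of_head? hh)
  have h1 : w.2.2.2.getLastD 0 < nP := by
    rw [List.getLastD_eq_getLast?]
    rcases hh : w.2.2.2.getLast? with _ | v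
    · rw [List.getLast?_eq_none_iff] at hh; exact absurd hh hne
    · exact hw.lt v (List.mem_of_getLast? hh)
  have hup := Wk_up (R := R) hA.refl (ad nT θ (w.2.2.2.headD 0)) w.2.2.1 fun i hi =>
    hA.line _ h0 i (by have := hw.col; omega)
  have hdn := Wk_down (R := R) (ad nT θ (w.2.2.2.getLastD 0)) w.2.2.1
    (fun i hi => hA.symm _ _ (hA.line _ h1 i (by have := hw.col; omega))) _ (hA.refl _)
  have hcr := Wk_cross hA hw.col hw.hd hw.la hw.lt hw.ch
  rw [← hw.headD, ← hw.lastD] at hcr
  have hmain := (hup.append hcr).append hdn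
  have hh : home nT θ hp w.2.1.1 = ad nT θ (w.2.2.2.headD 0) 0 := by
    rw [hw.headD]; rfl
  have e : ((cells nT θ w).map Prod.fst) =
      (List.range (w.2.2.1 + 1)).map (ad nT θ (w.2.2.2.headD 0)) ++
      (w.2.2.2.map fun v => ad nT θ v w.2.2.1) ++
      ((List.range (w.2.2.1 + 1)).map (ad nT θ (w.2.2.2.getLastD 0))).reverse ++
      (if w.1 = 3 then [ad nT θ (w.2.2.2.getLastD 0) 0] else []) := by
    rw [← map_take_eq hw.col, ← map_take_eq hw.col]
    unfold cells
    simp only [List.map_append, List.map_map, List.map_reverse, Function.comp_def]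
    split_ifs <;> rfl
  rw [hh, e]
  by_cases hc : w.1 = 3
  · rw [if_pos hc]
    exact ⟨_, hmain.append ⟨hA.refl _, rfl⟩⟩
  · rw [if_neg hc, List.append_nil]
    exact ⟨_, hmain⟩

variable {n : ℕ} {ops : List (ℕ × ℕ × ℕ)}

/-- (N3) the walk of the program -/
theorem Wk_prog (hA : Adj nP nT E θ hp R) (hW : WOK nP E θ hp W) (m : ℕ) (hm : m ≤ hp.length) :
    Wk R (home nT θ hp 0)
      (((List.range m).flatMap (blockAt nT θ hp n ops W)).map Prod.fst)
      (home nT θ hp (m - 1)) := by
  induction m with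
  | zero => rfl
  | succ m ih =>
    rw [List.range_succ, List.flatMap_append, List.map_append]
    refine (ih (by omega)).append ?_
    simp only [List.flatMap_cons, List.flatMap_nil, List.append_nil, Nat.add_sub_cancel]
    unfold blockAt
    have hR : R (home nT θ hp (m - 1)) (home nT θ hp m) := by
      rcases Nat.eq_zero_or_pos m with rfl | h
      · exact hA.refl _
      · have := hA.homes (m - 1) (by omega)
        rwa [Nat.sub_add_cancel h] at this
    refine Wk_block (R := R) hA.refl hA.symm (home nT θ hp m, 0) _ _ _ hR ?_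
    intro zs hzs
    simp only [List.mem_map, List.mem_filter, beq_iff_eq] at hzs
    obtain ⟨w, ⟨hw, e⟩, rfl⟩ := hzs
    subst e
    exact Wk_cells hA (hW.ok w hw)

/-- the way back -/
theorem Wk_ret (hA : Adj nP nT E θ hp R) (m : ℕ) (hm : m ≤ hp.length) :
    Wk R (home nT θ hp (m - 1)) ((retw nT θ hp m).map Prod.fst) (home nT θ hp 0) := by
  have e : (retw nT θ hp m).map Prod.fst = ((List.range m).map (home nT θ hp)).reverse := by
    unfold retw
    rw [List.map_reverse, List.map_map]
    congr 1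
    apply List.ext_getElem
    · simp; omega
    · intro i h1 h2
      simp only [List.length_map, List.length_take, List.length_range] at h1 h2
      have hi : i < hp.length := by omega
      simp only [List.getElem_map, List.getElem_take, List.getElem_range, home,
        Function.comp_apply]
      rw [List.getD_eq_getElem _ _ hi]
  rw [e]
  cases m with
  | zero => rfl
  | succ m =>
    exact Wk_down (R := R) (home nT θ hp) m
      (fun i hi => hA.symm _ _ (hA.homes i (by omega))) _ (hA.refl _)

end walk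

/-! ### arguments first -/

section args
variable {nP nT : ℕ} {E : ℕ → ℕ → Prop} {θ hp : List ℕ} {W : List Wir} {w : Wir}
  {n : ℕ} {ops : List (ℕ × ℕ × ℕ)}

/-- the wires of all arguments are there -/
structure Cov (n : ℕ) (ops : List (ℕ × ℕ × ℕ)) (W : List Wir) : Prop where
  cpy : ∀ i (h : i < ops.length), (ops[i]).1 = 0 → (ops[i]).2.1 < n + i ∧
    ∃ w ∈ W, w.1 = 0 ∧ w.2.1 = ((ops[i]).2.1, n + i)
  left : ∀ i (h : i < ops.length), (ops[i]).1 ≠ 0 → (ops[i]).2.1 < n + i ∧
    ∃ w ∈ W, w.1 = 1 ∧ w.2.1 = ((ops[i]).2.1, n + i)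
  right : ∀ i (h : i < ops.length), (ops[i]).1 ≠ 0 → (ops[i]).2.2 < n + i ∧
    ∃ w ∈ W, w.1 = 2 ∧ w.2.1 = ((ops[i]).2.2, n + i)

theorem AB_range (f : ℕ → List Stp) (m : ℕ)
    (h : ∀ t < m, AB {c | c ∈ wrs ((List.range t).flatMap f)} (f t)) :
    AB ∅ ((List.range m).flatMap f) := by
  induction m with
  | zero => trivial
  | succ m ih =>
    rw [List.range_succ, List.flatMap_append, AB_append]
    refine ⟨ih fun t ht => h t (by omega), ?_⟩
    simp only [List.flatMap_cons, List.flatMap_nil, List.append_nil, Set.empty_union]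
    exact h m (by omega)

theorem end_mem (hw : WireOK nP E θ hp w) : (home nT θ hp w.2.1.2, lD w.1) ∈ cells nT θ w := by
  rw [mem_cells hw.col]
  refine Or.inr (Or.inr (Or.inl ⟨0, Nat.zero_le _, ?_⟩))
  rw [hw.lastD]; rfl

theorem out_mem (hw : WireOK nP E θ hp w) (h3 : w.1 = 3) :
    (home nT θ hp w.2.1.2, lOut) ∈ cells nT θ w := by
  rw [mem_cells hw.col]
  refine Or.inr (Or.inr (Or.inr ⟨h3, ?_⟩))
  rw [hw.lastD]; rfl

theorem end_written (hW : WOK nP E θ hp W) (hw : w ∈ W) {t : ℕ} (ht : w.2.1.1 < t) :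
    (home nT θ hp w.2.1.2, lD w.1) ∈
        wrs ((List.range t).flatMap (blockAt nT θ hp n ops W)) ∧
      (home nT θ hp w.2.1.2, lD w.1 + 1) ∈
        wrs ((List.range t).flatMap (blockAt nT θ hp n ops W)) := by
  have h1 := end_mem (nT := nT) (hW.ok w hw)
  rw [wrs_flatMap]
  simp only [List.mem_flatMap, List.mem_range]
  refine ⟨⟨w.2.1.1, ht, ?_⟩, ⟨w.2.1.1, ht, ?_⟩⟩
  · rw [mem_wrs_blockAt]
    exact Or.inr ⟨w, hw, rfl, mem_dbl.2 ⟨_, h1, Or.inr rfl⟩⟩
  · rw [mem_wrs_blockAt]
    exact Or.inr ⟨w, hw, rfl, mem_dbl.2 ⟨_, h1, Or.inl rfl⟩⟩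

theorem gop_lt {h t : ℕ} (ht : t < n) : gop n ops h t = none := by
  simp [gop, ht]

theorem gop_cpy {h i : ℕ} (hi : i < ops.length) (h0 : (ops[i]).1 = 0) :
    gop n ops h (n + i) = some ((h, lD 0 + 1), (h, lD 0 + 1)) := by
  unfold gop
  rw [if_neg (by omega), Nat.add_sub_cancel_left, List.getD_eq_getElem _ _ hi, if_pos h0]

theorem gop_nand {h i : ℕ} (hi : i < ops.length) (h0 : (ops[i]).1 ≠ 0) :
    gop n ops h (n + i) = some ((h, lD 1), (h, lD 2)) := by
  unfold gop
  rw [if_neg (by omega), Nat.add_sub_cancel_left, List.getD_eq_getElem _ _ hi, if_neg h0]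

/-- (N2a) arguments are written first -/
theorem AB_prog (hW : WOK nP E θ hp W) (hC : Cov n ops W) : AB ∅ (prog nT θ hp n ops W) := by
  unfold prog
  apply AB_range
  intro t ht
  unfold blockAt
  apply AB_block
  intro c hc
  rcases lt_or_ge t n with htn | htn
  · rw [gop_lt htn] at hc; simp [argsOf] at hc
  · obtain ⟨i, rfl⟩ := Nat.exists_eq_add_of_le htn
    have hi : i < ops.length := by omega
    by_cases h0 : (ops[i]).1 = 0
    · rw [gop_cpy hi h0] at hc
      obtain ⟨h1, w, hw, hw1, hw2⟩ := hC.cpy i hi h0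
      have hc' : c = (home nT θ hp (n + i), lD 0 + 1) := by simpa [argsOf] using hc
      have := (end_written (nT := nT) (n := n) (ops := ops) hW hw (t := n + i)
        (by rw [hw2]; exact h1)).2
      rw [hw2, hw1] at this
      rw [hc']; exact this
    · rw [gop_nand hi h0] at hc
      have hc' : c = (home nT θ hp (n + i), lD 1) ∨ c = (home nT θ hp (n + i), lD 2) := by
        simpa [argsOf] using hc
      rcases hc' with rfl | rfl
      · obtain ⟨h1, w, hw, hw1, hw2⟩ := hC.left i hi h0
        have := (end_written (nT := nT) (n := n) (ops := ops) hW hw (t := n + i)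
          (by rw [hw2]; exact h1)).1
        rw [hw2, hw1] at this
        exact this
      · obtain ⟨h1, w, hw, hw1, hw2⟩ := hC.right i hi h0
        have := (end_written (nT := nT) (n := n) (ops := ops) hW hw (t := n + i)
          (by rw [hw2]; exact h1)).1
        rw [hw2, hw1] at this
        exact this

/-! ### values -/

/-- values of the cells of a circuit -/
structure CV (n : ℕ) (ops : List (ℕ × ℕ × ℕ)) (x cv : ℕ → Bool) : Prop where
  inp : ∀ t < n, cv t = x t
  cpy : ∀ i (h : i < ops.length), (ops[i]).1 = 0 → cv (n + i) = cv (ops[i]).2.1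
  nand : ∀ i (h : i < ops.length), (ops[i]).1 ≠ 0 →
    cv (n + i) = !(cv (ops[i]).2.1 && cv (ops[i]).2.2)

/-- (N2b) values of a system of cells which satisfies the equations of the program -/
theorem val_prog (hW : WOK nP E θ hp W) (hC : Cov n ops W)
    {x : ℕ → Bool} {cv : ℕ → Bool} (hcv : CV n ops (fun t => x (home nT θ hp t)) cv)
    {f : Cel → Bool}
    (hf : ∀ a l o, (a, some (l, o)) ∈ prog nT θ hp n ops W → f (a, l) = evO x f a o) :
    ∀ t < n + ops.length, f (home nT θ hp t, 0) = cv t ∧
      ∀ w ∈ W, w.2.1.1 = t → ∀ z ∈ cells nT θ w, f z = cv t ∧ f (z.1, z.2 + 1) = !cv t := by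
  have hblock : ∀ t < n + ops.length, ∀ a l o,
      (a, some (l, o)) ∈ blockAt nT θ hp n ops W t → f (a, l) = evO x f a o := by
    intro t ht a l o h
    exact hf a l o (List.mem_flatMap.2 ⟨t, List.mem_range.2 ht, h⟩)
  intro t
  induction t using Nat.strong_induction_on with
  | _ t ih =>
  intro ht
  have hg : f (home nT θ hp t, 0) = cv t := by
    have h1 := hblock t ht (home nT θ hp t) 0 (gop n ops (home nT θ hp t) t) (by
      unfold blockAt block; exact List.mem_cons_self)
    rw [h1]
    rcases lt_or_ge t n with htn | htn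
    · rw [gop_lt htn, hcv.inp t htn]; rfl
    · obtain ⟨i, rfl⟩ := Nat.exists_eq_add_of_le htn
      have hi : i < ops.length := by omega
      by_cases h0 : (ops[i]).1 = 0
      · rw [gop_cpy hi h0, hcv.cpy i hi h0]
        obtain ⟨h2, w, hw, hw1, hw2⟩ := hC.cpy i hi h0
        have h3 := ((ih _ h2 (by omega)).2 w hw (by rw [hw2]) _ (end_mem (hW.ok w hw))).2
        simp only [hw1, hw2] at h3
        simp only [evO, h3]
        cases cv (ops[i]).2.1 <;> rfl
      · rw [gop_nand hi h0, hcv.nand i hi h0]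
        obtain ⟨h2, w, hw, hw1, hw2⟩ := hC.left i hi h0
        have h3 := ((ih _ h2 (by omega)).2 w hw (by rw [hw2]) _ (end_mem (hW.ok w hw))).1
        simp only [hw1, hw2] at h3
        obtain ⟨h2', w', hw', hw1', hw2'⟩ := hC.right i hi h0
        have h3' := ((ih _ h2' (by omega)).2 w' hw' (by rw [hw2']) _
          (end_mem (hW.ok w' hw'))).1
        simp only [hw1', hw2'] at h3'
        simp only [evO, h3, h3']
  refine ⟨hg, ?_⟩
  intro w hw hwt
  have := fwd_val x f (home nT θ hp t, 0) (cells nT θ w) (fun a l o h => by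
    refine hblock t ht a l o ?_
    unfold blockAt block
    refine List.mem_cons_of_mem _ (List.mem_flatMap.2 ⟨cells nT θ w, ?_, ?_⟩)
    · exact List.mem_map.2 ⟨w, List.mem_filter.2 ⟨hw, by simpa using hwt⟩, rfl⟩
    · unfold cable; exact List.mem_append_left _ h)
  rw [hg] at this
  exact this

/-- **values after the run of the program** -/
theorem run_prog (hG : Geo nP nT θ hp) (hW : WOK nP E θ hp W) (hC : Cov n ops W)
    (hlen : n + ops.length ≤ hp.length)
    {x : ℕ → Bool} {cv : ℕ → Bool} (hcv : CV n ops (fun t => x (home nT θ hp t)) cv) :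
    (∀ t < n + ops.length, runN x (prog nT θ hp n ops W) (home nT θ hp t, 0) = cv t) ∧
    ∀ w ∈ W, w.1 = 3 → w.2.1.1 < n + ops.length →
      runN x (prog nT θ hp n ops W) (home nT θ hp w.2.1.2, lOut) = cv w.2.1.1 := by
  have h := val_prog hW hC hcv (f := runN x (prog nT θ hp n ops W)) fun a l o ho =>
    runN_eq x _ (nodup_wrs_prog hG hW hlen) (AB_prog hW hC) ho
  exact ⟨fun t ht => (h t ht).1, fun w hw h3 hs =>
    ((h _ hs).2 w hw rfl _ (out_mem (hW.ok w hw) h3)).1⟩

end args

end Crest.Agent.R289.Layout109
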