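import Crest.Agent.R289.Tour_594

/-!
# R289, block C (routing): disjoint paths with few colours in a Cayley graph (helper649)

Graph: vertices `< n`, neighbours `nb v g` (`g < d`), every `nb · g` injective, inverse letters exist;
`wd` = list of `n` words of length `≤ l` such that for every start vertex `a` the `n` words lead to
`n` different vertices (Cayley graph: one word for every group element; generators act on the other
side).  `route n l nb wd wires`: every wire `(a, b)` (sources distinct, targets distinct) gets a colour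
`< ncol l n = (4 (l+1)² + 1) · clog (n+1)` and a simple path from `a` to `b` of at most `2 l + 2`
vertices; paths of the same colour are disjoint.  Greedy: a wire that is left over in a pass is
blocked for all middle vertices, a double count gives
`#left ≤ 4 (l+1)² · #routed`.
-/

set_option autoImplicit false

namespace Crest.Agent.R289.Route649

open Crest.Agent.R289

/-! ### loop erasure -/

/-- push on the stack, cutting a loop -/
def push (st : List ℕ) (v : ℕ) : List ℕ :=
  if v ∈ st then st.dropWhile (fun u => !decide (u = v)) else v :: st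

/-- loop erased path -/
def erase (l : List ℕ) : List ℕ := (l.foldl push []).reverse

theorem dropWhile_head {st : List ℕ} {v : ℕ} (h : v ∈ st) :
    (st.dropWhile (fun u => !decide (u = v))).head? = some v := by
  induction st with
  | nil => simp at h
  | cons u st ih =>
    by_cases hu : u = v
    · simp [hu]
    · have : v ∈ st := by
        rcases List.mem_cons.1 h with h | h
        · exact absurd h.symm hu
        · exact h
      simp [hu, ih this]

theorem getLast_suffix {s t : List ℕ} (h : s <:+ t) (hs : s ≠ []) : s.getLast? = t.getLast? := by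
  obtain ⟨r, rfl⟩ := h
  rw [List.getLast?_append_of_ne_nil _ hs]

theorem push_inv (R : ℕ → ℕ → Prop) (l : List ℕ) :
    l ≠ [] → l.IsChain (fun u v => R u v ∨ u = v) →
    (l.foldl push []).head? = l.getLast? ∧ (l.foldl push []).getLast? = l.head? ∧
      (l.foldl push []).Nodup ∧ (l.foldl push []).IsChain (fun u v => R v u) ∧
      (∀ v ∈ l.foldl push [], v ∈ l) ∧ (l.foldl push []).length ≤ l.length := by
  induction l using List.reverseRecOn with
  | nil => intro h; exact absurd rfl h
  | append_singleton l v ih =>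
    intro _ hc
    rw [List.foldl_append]
    simp only [List.foldl_cons, List.foldl_nil]
    by_cases hl : l = []
    · subst hl
      simp [push]
    · have hc' := (List.isChain_append.1 hc)
      obtain ⟨i1, i2, i3, i4, i5, i6⟩ := ih hl hc'.1
      generalize l.foldl push [] = st at i1 i2 i3 i4 i5 i6
      have hst : st ≠ [] := by
        intro h
        rw [h] at i1
        simp only [List.head?_nil] at i1
        exact hl (List.getLast?_eq_none_iff.1 i1.symm)
      have hhd : (l ++ [v]).head? = l.head? := by
        cases l with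
        | nil => exact absurd rfl hl
        | cons a l => rfl
      by_cases hv : v ∈ st
      · have hp : push st v = st.dropWhile (fun u => !decide (u = v)) := by simp [push, hv]
        have hsuf : st.dropWhile (fun u => !decide (u = v)) <:+ st := List.dropWhile_suffix _
        have hne : st.dropWhile (fun u => !decide (u = v)) ≠ [] := by
          intro h
          have := dropWhile_head hv
          rw [h] at this
          simp at this
        rw [hp]
        refine ⟨?_, ?_, ?_, ?_, ?_, ?_⟩
        · rw [dropWhile_head hv]; simp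
        · rw [getLast_suffix hsuf hne, i2, hhd]
        · exact i3.sublist hsuf.sublist
        · exact i4.suffix hsuf
        · intro u hu
          exact List.mem_append_left _ (i5 u (hsuf.subset hu))
        · have := hsuf.length_le
          simp
          omega
      · have hp : push st v = v :: st := by simp [push, hv]
        rw [hp]
        refine ⟨by simp, ?_, ?_, ?_, ?_, ?_⟩
        · rw [List.getLast?_cons_of_ne_nil hst, i2, hhd]
        · exact List.nodup_cons.2 ⟨hv, i3⟩
        · cases st with
          | nil => exact absurd rfl hst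
          | cons u st =>
            refine List.isChain_cons_cons.2 ⟨?_, i4⟩
            simp only [List.head?_cons] at i1
            have h1 := hc'.2.2 u (by rw [← i1]; simp) v (by simp)
            rcases h1 with h1 | h1
            · exact h1
            · exact absurd (by simp [h1]) hv
        · intro u hu
          rcases List.mem_cons.1 hu with rfl | hu
          · simp
          · exact List.mem_append_left _ (i5 u hu)
        · simp
          omega

theorem erase_spec (R : ℕ → ℕ → Prop) {l : List ℕ} (hl : l ≠ [])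
    (hc : l.IsChain (fun u v => R u v ∨ u = v)) :
    (erase l).head? = l.head? ∧ (erase l).getLast? = l.getLast? ∧ (erase l).Nodup ∧
      (erase l).IsChain R ∧ (∀ v ∈ erase l, v ∈ l) ∧ (erase l).length ≤ l.length := by
  obtain ⟨i1, i2, i3, i4, i5, i6⟩ := push_inv R l hl hc
  unfold erase
  refine ⟨?_, ?_, ?_, ?_, ?_, ?_⟩
  · rw [List.head?_reverse, i2]
  · rw [List.getLast?_reverse, i1]
  · exact List.nodup_reverse.2 i3
  · exact List.isChain_reverse.2 i4
  · intro v hv
    exact i5 v (List.mem_reverse.1 hv)
  · simpa using i6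

/-! ### walks -/

/-- vertices of the walk along the word `w` from `a` -/
def walk (nb : ℕ → ℕ → ℕ) : ℕ → List ℕ → List ℕ
  | a, [] => [a]
  | a, g :: w => a :: walk nb (nb a g) w

/-- the graph and the table of words -/
structure Hyp (n d l : ℕ) (nb : ℕ → ℕ → ℕ) (wd : List (List ℕ)) : Prop where
  lt : ∀ v < n, ∀ g < d, nb v g < n
  inj : ∀ g < d, ∀ u < n, ∀ v < n, nb u g = nb v g → u = v
  sym : ∀ v < n, ∀ g < d, ∃ g' < d, nb (nb v g) g' = v
  len : wd.length = n
  wlen : ∀ w ∈ wd, w.length ≤ l
  wlt : ∀ w ∈ wd, ∀ g ∈ w, g < d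
  winj : ∀ a < n, ∀ i < n, ∀ j < n,
    (wd.getD i []).foldl nb a = (wd.getD j []).foldl nb a → i = j

theorem walk_ne (nb : ℕ → ℕ → ℕ) (a : ℕ) (w : List ℕ) : walk nb a w ≠ [] := by
  cases w <;> simp [walk]

theorem walk_head (nb : ℕ → ℕ → ℕ) (a : ℕ) (w : List ℕ) : (walk nb a w).head? = some a := by
  cases w <;> simp [walk]

theorem walk_last (nb : ℕ → ℕ → ℕ) (a : ℕ) (w : List ℕ) :
    (walk nb a w).getLast? = some (w.foldl nb a) := by
  induction w generalizing a with
  | nil => simp [walk]
  | cons g w ih => simp only [walk, List.foldl_cons]; rw [List.getLast?_cons_of_ne_nil (walk_ne _ _ _), ih]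

theorem walk_length (nb : ℕ → ℕ → ℕ) (a : ℕ) (w : List ℕ) :
    (walk nb a w).length = w.length + 1 := by
  induction w generalizing a with
  | nil => simp [walk]
  | cons g w ih => simp [walk, ih]

theorem mem_walk (nb : ℕ → ℕ → ℕ) (a : ℕ) (w : List ℕ) (v : ℕ) :
    v ∈ walk nb a w ↔ ∃ j ≤ w.length, (w.take j).foldl nb a = v := by
  induction w generalizing a with
  | nil =>
    simp only [walk, List.mem_singleton, List.length_nil, Nat.le_zero, List.take_nil, List.foldl_nil,
      exists_eq_left]
    exact eq_comm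
  | cons g w ih =>
    simp only [walk, List.mem_cons, ih]
    constructor
    · rintro (h | ⟨j, hj, h⟩)
      · exact ⟨0, by simp, by simpa using h.symm⟩
      · exact ⟨j + 1, by simpa using hj, by simpa using h⟩
    · rintro ⟨j, hj, h⟩
      cases j with
      | zero => left; simpa using h.symm
      | succ j => right; exact ⟨j, by simpa using hj, by simpa using h⟩

section
variable {n d l : ℕ} {nb : ℕ → ℕ → ℕ} {wd : List (List ℕ)}

theorem foldl_lt (H : Hyp n d l nb wd) {w : List ℕ} (hw : ∀ g ∈ w, g < d) {a : ℕ} (ha : a < n) :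
    w.foldl nb a < n := by
  induction w generalizing a with
  | nil => simpa
  | cons g w ih =>
    simp only [List.foldl_cons]
    exact ih (fun g hg => hw g (by simp [hg])) (H.lt a ha g (hw g (by simp)))

theorem foldl_inj (H : Hyp n d l nb wd) {w : List ℕ} (hw : ∀ g ∈ w, g < d) {a b : ℕ} (ha : a < n)
    (hb : b < n) (h : w.foldl nb a = w.foldl nb b) : a = b := by
  induction w generalizing a b with
  | nil => simpa using h
  | cons g w ih =>
    simp only [List.foldl_cons] at h
    have hg := hw g (by simp)
    exact H.inj g hg a ha b hb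
      (ih (fun g hg => hw g (by simp [hg])) (H.lt a ha g hg) (H.lt b hb g hg) h)

theorem walk_chain (H : Hyp n d l nb wd) {w : List ℕ} (hw : ∀ g ∈ w, g < d) {a : ℕ} (ha : a < n) :
    (walk nb a w).IsChain (fun u v => u < n ∧ v < n ∧ Tour594.Adj d nb u v) := by
  induction w generalizing a with
  | nil => simp [walk]
  | cons g w ih =>
    have hg := hw g (by simp)
    have h1 := ih (fun g hg => hw g (by simp [hg])) (H.lt a ha g hg)
    simp only [walk]
    have h2 := walk_head nb (nb a g) w
    cases hW : walk nb (nb a g) w with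
    | nil => exact absurd hW (walk_ne _ _ _)
    | cons u t =>
      rw [hW] at h1 h2
      simp only [List.head?_cons, Option.some.injEq] at h2
      subst h2
      exact List.isChain_cons_cons.2 ⟨⟨ha, H.lt a ha g hg, g, hg, rfl⟩, h1⟩

/-- raw (not yet erased) path -/
def raw (nb : ℕ → ℕ → ℕ) (a b : ℕ) (w w' : List ℕ) : List ℕ := walk nb a w ++ (walk nb b w').reverse

/-- what a path of a wire has to satisfy -/
structure Good (n d l : ℕ) (nb : ℕ → ℕ → ℕ) (e : ℕ × ℕ) (p : List ℕ) : Prop where
  head : p.head? = some e.1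
  last : p.getLast? = some e.2
  nodup : p.Nodup
  chain : p.IsChain (Tour594.Adj d nb)
  lt : ∀ v ∈ p, v < n
  len : p.length ≤ 2 * l + 2

theorem walk_lt (H : Hyp n d l nb wd) {w : List ℕ} (hw : ∀ g ∈ w, g < d) {a : ℕ} (ha : a < n) :
    ∀ v ∈ walk nb a w, v < n := by
  intro v hv
  obtain ⟨j, _, rfl⟩ := (mem_walk nb a w v).1 hv
  exact foldl_lt H (fun g hg => hw g (List.mem_of_mem_take hg)) ha

theorem raw_good (H : Hyp n d l nb wd) {a b : ℕ} (ha : a < n) (hb : b < n) {w w' : List ℕ}
    (hw : w ∈ wd) (hw' : w' ∈ wd) (he : w.foldl nb a = w'.foldl nb b) :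
    Good n d l nb (a, b) (erase (raw nb a b w w')) ∧
      ∀ v ∈ erase (raw nb a b w w'), v ∈ raw nb a b w w' := by
  have c1 := walk_chain H (H.wlt w hw) ha
  have c2 := walk_chain H (H.wlt w' hw') hb
  have hne : raw nb a b w w' ≠ [] := by
    unfold raw
    simp [walk_ne]
  have hch : (raw nb a b w w').IsChain (fun u v => Tour594.Adj d nb u v ∨ u = v) := by
    unfold raw
    refine List.isChain_append.2 ⟨?_, ?_, ?_⟩
    · exact c1.imp (fun u v h => Or.inl h.2.2)
    · refine List.isChain_reverse.2 (c2.imp (fun u v h => Or.inl ?_))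
      obtain ⟨g, hg, hgv⟩ := h.2.2
      obtain ⟨g', hg', h'⟩ := H.sym u h.1 g hg
      exact ⟨g', hg', by rw [← hgv]; exact h'⟩
    · intro x hx y hy
      rw [walk_last] at hx
      rw [List.head?_reverse, walk_last] at hy
      simp only [Option.mem_def, Option.some.injEq] at hx hy
      right
      rw [← hx, ← hy, he]
  obtain ⟨e1, e2, e3, e4, e5, e6⟩ := erase_spec (Tour594.Adj d nb) hne hch
  refine ⟨⟨?_, ?_, e3, e4, ?_, ?_⟩, e5⟩
  · rw [e1]
    unfold raw
    rw [List.head?_append, walk_head]
    rfl
  · rw [e2]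
    unfold raw
    rw [List.getLast?_append_of_ne_nil _ (by simp [walk_ne]), List.getLast?_reverse, walk_head]
  · intro v hv
    have := e5 v hv
    unfold raw at this
    rcases List.mem_append.1 this with h | h
    · exact walk_lt H (H.wlt w hw) ha v h
    · exact walk_lt H (H.wlt w' hw') hb v (List.mem_reverse.1 h)
  · refine e6.trans ?_
    unfold raw
    rw [List.length_append, List.length_reverse, walk_length, walk_length]
    have := H.wlen w hw
    have := H.wlen w' hw'
    omega

/-! ### one pass -/

/-- candidate paths of a wire -/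
def cand (nb : ℕ → ℕ → ℕ) (wd : List (List ℕ)) (a b : ℕ) : List (List ℕ) :=
  wd.flatMap fun w => (wd.filter fun w' => decide (w.foldl nb a = w'.foldl nb b)).map fun w' =>
    raw nb a b w w'

/-- a candidate that avoids the used vertices -/
def tryRoute (nb : ℕ → ℕ → ℕ) (wd : List (List ℕ)) (U : List ℕ) (e : ℕ × ℕ) : Option (List ℕ) :=
  (cand nb wd e.1 e.2).find? fun p => p.all fun v => !decide (v ∈ U)

/-- state of a pass: used vertices, routed wires with paths, wires left over -/
abbrev PSt := List ℕ × List ((ℕ × ℕ) × List ℕ) × List (ℕ × ℕ)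

/-- one wire of a pass -/
def stepW (nb : ℕ → ℕ → ℕ) (wd : List (List ℕ)) (s : PSt) (e : ℕ × ℕ) : PSt :=
  match tryRoute nb wd s.1 e with
  | some p => (erase p ++ s.1, (e, erase p) :: s.2.1, s.2.2)
  | none => (s.1, s.2.1, e :: s.2.2)

/-- one pass over the wires -/
def pass (nb : ℕ → ℕ → ℕ) (wd : List (List ℕ)) (wires : List (ℕ × ℕ)) : PSt :=
  wires.foldl (stepW nb wd) ([], [], [])

theorem mem_cand {a b : ℕ} {p : List ℕ} : p ∈ cand nb wd a b ↔
    ∃ w ∈ wd, ∃ w' ∈ wd, w.foldl nb a = w'.foldl nb b ∧ p = raw nb a b w w' := by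
  unfold cand
  simp only [List.mem_flatMap, List.mem_map, List.mem_filter, decide_eq_true_eq]
  constructor
  · rintro ⟨w, hw, w', ⟨hw', he⟩, rfl⟩
    exact ⟨w, hw, w', hw', he, rfl⟩
  · rintro ⟨w, hw, w', hw', he, rfl⟩
    exact ⟨w, hw, w', ⟨hw', he⟩, rfl⟩

/-- invariant of a pass -/
structure PInv (n d l : ℕ) (nb : ℕ → ℕ → ℕ) (wd : List (List ℕ)) (wires : List (ℕ × ℕ)) (s : PSt) :
    Prop where
  perm : (s.2.1.map Prod.fst ++ s.2.2).Perm wires
  used : ∀ v ∈ s.1, ∃ x ∈ s.2.1, v ∈ x.2
  used' : ∀ x ∈ s.2.1, ∀ v ∈ x.2, v ∈ s.1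
  ulen : s.1.length ≤ (2 * l + 2) * s.2.1.length
  good : ∀ x ∈ s.2.1, Good n d l nb x.1 x.2
  disj : s.2.1.Pairwise (fun x y => x.2.Disjoint y.2)
  left : ∀ e ∈ s.2.2, ∀ p ∈ cand nb wd e.1 e.2, ∃ v ∈ p, v ∈ s.1

theorem pass_inv (H : Hyp n d l nb wd) (wires : List (ℕ × ℕ)) (hlt : ∀ e ∈ wires, e.1 < n ∧ e.2 < n) :
    PInv n d l nb wd wires (pass nb wd wires) := by
  unfold pass
  induction wires using List.reverseRecOn with
  | nil => exact ⟨by simp, by simp, by simp, by simp, by simp, by simp, by simp⟩
  | append_singleton wires e ih =>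
    have ih := ih (fun e he => hlt e (List.mem_append_left _ he))
    rw [List.foldl_append]
    simp only [List.foldl_cons, List.foldl_nil]
    generalize wires.foldl (stepW nb wd) ([], [], []) = s at ih
    obtain ⟨i1, i2, i2', i3, i4, i5, i6⟩ := ih
    have he := hlt e (by simp)
    unfold stepW
    cases ht : tryRoute nb wd s.1 e with
    | none =>
      simp only
      refine ⟨?_, i2, i2', i3, i4, i5, ?_⟩
      · refine (List.perm_middle (a := e)).trans ?_
        refine (List.Perm.cons e i1).trans ?_
        exact (List.perm_append_singleton e wires).symm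
      · intro e' he' p hp
        simp only [List.mem_cons] at he'
        rcases he' with rfl | he'
        · have h1 := List.find?_eq_none.1 ht p hp
          simp only [Bool.not_eq_true, List.all_eq_false, Bool.not_eq_eq_eq_not, Bool.not_false,
            decide_eq_true_eq] at h1
          obtain ⟨v, hv, h1⟩ := h1
          exact ⟨v, hv, by simpa using h1⟩
        · exact i6 e' he' p hp
    | some p =>
      simp only
      have hp := List.mem_of_find?_eq_some ht
      have hq := List.find?_some ht
      simp only [List.all_eq_true, Bool.not_eq_eq_eq_not, Bool.not_true, decide_eq_false_iff_not] at hq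
      obtain ⟨w, hw, w', hw', hee, rfl⟩ := mem_cand.1 hp
      obtain ⟨hg, hs⟩ := raw_good H he.1 he.2 hw hw' hee
      refine ⟨?_, ?_, ?_, ?_, ?_, ?_, ?_⟩
      · simp only [List.map_cons, List.cons_append]
        refine (List.Perm.cons e i1).trans ?_
        exact (List.perm_append_singleton e wires).symm
      · intro v hv
        rcases List.mem_append.1 hv with hv | hv
        · exact ⟨_, List.mem_cons_self, hv⟩
        · obtain ⟨x, hx, h⟩ := i2 v hv
          exact ⟨x, List.mem_cons_of_mem _ hx, h⟩
      · intro x hx v hv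
        rcases List.mem_cons.1 hx with rfl | hx
        · exact List.mem_append_left _ hv
        · exact List.mem_append_right _ (i2' x hx v hv)
      · simp only [List.length_append, List.length_cons]
        have := hg.len
        have e1 : (2 * l + 2) * (s.2.1.length + 1) = (2 * l + 2) * s.2.1.length + (2 * l + 2) := by ring
        omega
      · intro x hx
        rcases List.mem_cons.1 hx with rfl | hx
        · exact hg
        · exact i4 x hx
      · refine List.pairwise_cons.2 ⟨?_, i5⟩
        intro y hy v hv hv'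
        exact hq v (hs v hv) (i2' y hy v hv')
      · intro e' he' p hp
        obtain ⟨v, hv, h⟩ := i6 e' he' p hp
        exact ⟨v, hv, List.mem_append_right _ h⟩

/-! ### the count -/

open Classical in
/-- words whose walk from `a` meets `U` -/
noncomputable def bl (n : ℕ) (nb : ℕ → ℕ → ℕ) (wd : List (List ℕ)) (U : List ℕ) (a : ℕ) : Finset ℕ :=
  (Finset.range n).filter fun i => ∃ v ∈ walk nb a (wd.getD i []), v ∈ U

theorem getD_mem (H : Hyp n d l nb wd) {i : ℕ} (hi : i < n) : wd.getD i [] ∈ wd := by
  rw [List.getD_eq_getElem _ _ (by rw [H.len]; exact hi)]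
  exact List.getElem_mem _

open Classical in
theorem count_word (H : Hyp n d l nb wd) (U : List ℕ) (A : Finset ℕ) (hA : ∀ a ∈ A, a < n) {i : ℕ}
    (hi : i < n) :
    (A.filter fun a => ∃ v ∈ walk nb a (wd.getD i []), v ∈ U).card ≤ (l + 1) * U.toFinset.card := by
  have hw := getD_mem H hi
  have h1 : (A.filter fun a => ∃ v ∈ walk nb a (wd.getD i []), v ∈ U) ⊆
      (Finset.range (l + 1)).biUnion fun j =>
        A.filter fun a => ((wd.getD i []).take j).foldl nb a ∈ U := by
    intro a ha
    rw [Finset.mem_filter] at ha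
    obtain ⟨haA, v, hv, hvU⟩ := ha
    obtain ⟨j, hj, rfl⟩ := (mem_walk _ _ _ _).1 hv
    rw [Finset.mem_biUnion]
    exact ⟨j, Finset.mem_range.2 (by have := H.wlen _ hw; omega), Finset.mem_filter.2 ⟨haA, hvU⟩⟩
  refine (Finset.card_le_card h1).trans (Finset.card_biUnion_le.trans ?_)
  have h2 : ∀ j ∈ Finset.range (l + 1),
      (A.filter fun a => ((wd.getD i []).take j).foldl nb a ∈ U).card ≤ U.toFinset.card := by
    intro j _
    refine Finset.card_le_card_of_injOn (fun a => ((wd.getD i []).take j).foldl nb a) ?_ ?_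
    · intro a ha
      have := (Finset.mem_filter.1 ha).2
      exact List.mem_toFinset.2 this
    · intro a ha b hb hab
      have ha' := hA a (Finset.mem_filter.1 ha).1
      have hb' := hA b (Finset.mem_filter.1 hb).1
      exact foldl_inj H (fun g hg => H.wlt _ hw g (List.mem_of_mem_take hg)) ha' hb' hab
  refine (Finset.sum_le_sum h2).trans ?_
  simp

theorem count_sum (H : Hyp n d l nb wd) (U : List ℕ) (A : Finset ℕ) (hA : ∀ a ∈ A, a < n) :
    ∑ a ∈ A, (bl n nb wd U a).card ≤ n * ((l + 1) * U.toFinset.card) := by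
  classical
  have h1 : ∑ a ∈ A, (bl n nb wd U a).card =
      ∑ i ∈ Finset.range n, (A.filter fun a => ∃ v ∈ walk nb a (wd.getD i []), v ∈ U).card := by
    unfold bl
    exact Finset.sum_card_bipartiteAbove_eq_sum_card_bipartiteBelow
      (fun a i => ∃ v ∈ walk nb a (wd.getD i []), v ∈ U)
  rw [h1]
  refine (Finset.sum_le_sum (fun i hi => count_word H U A hA (Finset.mem_range.1 hi))).trans ?_
  simp

theorem count_wire (H : Hyp n d l nb wd) (U : List ℕ) {a b : ℕ} (ha : a < n) (hb : b < n)
    (h : ∀ p ∈ cand nb wd a b, ∃ v ∈ p, v ∈ U) :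
    n ≤ (bl n nb wd U a).card + (bl n nb wd U b).card := by
  classical
  by_contra hlt
  push Not at hlt
  have hgood : ∀ c : ℕ, c < n → ((Finset.range n \ bl n nb wd U c).image
      fun i => (wd.getD i []).foldl nb c).card = n - (bl n nb wd U c).card ∧
      ((Finset.range n \ bl n nb wd U c).image fun i => (wd.getD i []).foldl nb c) ⊆
        Finset.range n := by
    intro c hc
    constructor
    · rw [Finset.card_image_of_injOn, Finset.card_sdiff_of_subset, Finset.card_range]
      · exact Finset.filter_subset _ _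
      · intro i hi j hj hij
        have hi' := Finset.mem_range.1 (Finset.mem_sdiff.1 hi).1
        have hj' := Finset.mem_range.1 (Finset.mem_sdiff.1 hj).1
        exact H.winj c hc i hi' j hj' hij
    · intro r hr
      obtain ⟨i, hi, rfl⟩ := Finset.mem_image.1 hr
      have hi' := Finset.mem_range.1 (Finset.mem_sdiff.1 hi).1
      exact Finset.mem_range.2 (foldl_lt H (H.wlt _ (getD_mem H hi')) hc)
  obtain ⟨ca, sa⟩ := hgood a ha
  obtain ⟨cb, sb⟩ := hgood b hb
  have hnd : ¬ Disjoint ((Finset.range n \ bl n nb wd U a).image fun i => (wd.getD i []).foldl nb a)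
      ((Finset.range n \ bl n nb wd U b).image fun i => (wd.getD i []).foldl nb b) := by
    intro hd
    have h1 := Finset.card_union_of_disjoint hd
    have h2 := Finset.card_le_card (Finset.union_subset sa sb)
    rw [h1, ca, cb, Finset.card_range] at h2
    have h3 : (bl n nb wd U a).card ≤ n := by
      have := Finset.card_le_card (Finset.filter_subset
        (fun i => ∃ v ∈ walk nb a (wd.getD i []), v ∈ U) (Finset.range n))
      rw [Finset.card_range] at this
      exact this
    have h4 : (bl n nb wd U b).card ≤ n := by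
      have := Finset.card_le_card (Finset.filter_subset
        (fun i => ∃ v ∈ walk nb b (wd.getD i []), v ∈ U) (Finset.range n))
      rw [Finset.card_range] at this
      exact this
    omega
  rw [Finset.not_disjoint_iff] at hnd
  obtain ⟨r, hra, hrb⟩ := hnd
  obtain ⟨i, hi, hir⟩ := Finset.mem_image.1 hra
  obtain ⟨j, hj, hjr⟩ := Finset.mem_image.1 hrb
  rw [Finset.mem_sdiff] at hi hj
  have hi1 := Finset.mem_range.1 hi.1
  have hj1 := Finset.mem_range.1 hj.1
  obtain ⟨v, hv, hvU⟩ := h (raw nb a b (wd.getD i []) (wd.getD j []))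
    (mem_cand.2 ⟨_, getD_mem H hi1, _, getD_mem H hj1, by rw [hir, hjr], rfl⟩)
  unfold raw at hv
  rcases List.mem_append.1 hv with hv | hv
  · exact hi.2 (Finset.mem_filter.2 ⟨hi.1, v, hv, hvU⟩)
  · exact hj.2 (Finset.mem_filter.2 ⟨hj.1, v, List.mem_reverse.1 hv, hvU⟩)

/-- a list of wires all of whose candidates meet `U` is short -/
theorem count_left (H : Hyp n d l nb wd) (U : List ℕ) (L : List (ℕ × ℕ))
    (hs : (L.map Prod.fst).Nodup) (ht : (L.map Prod.snd).Nodup) (hlt : ∀ e ∈ L, e.1 < n ∧ e.2 < n)
    (h : ∀ e ∈ L, ∀ p ∈ cand nb wd e.1 e.2, ∃ v ∈ p, v ∈ U) :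
    L.length ≤ 2 * (l + 1) * U.length := by
  classical
  rcases Nat.eq_zero_or_pos n with hn | hn
  · cases L with
    | nil => simp
    | cons e L =>
      have := (hlt e (by simp)).1
      omega
  have h1 : n * L.length ≤ (L.map fun e => (bl n nb wd U e.1).card + (bl n nb wd U e.2).card).sum := by
    have : ∀ e ∈ L, n ≤ (bl n nb wd U e.1).card + (bl n nb wd U e.2).card :=
      fun e he => count_wire H U (hlt e he).1 (hlt e he).2 (h e he)
    clear hs ht hlt h
    induction L with
    | nil => simp
    | cons e L ih =>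
      have h2 := this e (by simp)
      have h3 := ih (fun e he => this e (by simp [he]))
      simp only [List.map_cons, List.sum_cons, List.length_cons]
      have e1 : n * (L.length + 1) = n * L.length + n := by ring
      omega
  have h2 : (L.map fun e => (bl n nb wd U e.1).card + (bl n nb wd U e.2).card).sum =
      ∑ a ∈ (L.map Prod.fst).toFinset, (bl n nb wd U a).card +
      ∑ a ∈ (L.map Prod.snd).toFinset, (bl n nb wd U a).card := by
    rw [List.sum_toFinset _ hs, List.sum_toFinset _ ht, List.map_map, List.map_map]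
    rw [List.sum_map_add]
    rfl
  have h3 := count_sum H U (L.map Prod.fst).toFinset (by
    intro a ha
    obtain ⟨e, he, rfl⟩ := List.mem_map.1 (List.mem_toFinset.1 ha)
    exact (hlt e he).1)
  have h4 := count_sum H U (L.map Prod.snd).toFinset (by
    intro a ha
    obtain ⟨e, he, rfl⟩ := List.mem_map.1 (List.mem_toFinset.1 ha)
    exact (hlt e he).2)
  have h5 : U.toFinset.card ≤ U.length := List.toFinset_card_le U
  have h6 : n * ((l + 1) * U.toFinset.card) ≤ n * ((l + 1) * U.length) :=
    Nat.mul_le_mul_left _ (Nat.mul_le_mul_left _ h5)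
  have h7 : n * L.length ≤ n * (2 * (l + 1) * U.length) := by
    have e1 : n * (2 * (l + 1) * U.length) = n * ((l + 1) * U.length) + n * ((l + 1) * U.length) := by
      ring
    omega
  exact Nat.le_of_mul_le_mul_left h7 hn

/-- `#left ≤ 4 (l+1)² #routed` -/
theorem pass_count (H : Hyp n d l nb wd) (wires : List (ℕ × ℕ))
    (hs : (wires.map Prod.fst).Nodup) (ht : (wires.map Prod.snd).Nodup)
    (hlt : ∀ e ∈ wires, e.1 < n ∧ e.2 < n) :
    (pass nb wd wires).2.2.length ≤ 4 * (l + 1) ^ 2 * (pass nb wd wires).2.1.length := by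
  have I := pass_inv H wires hlt
  generalize pass nb wd wires = s at I
  have hsub : ∀ e ∈ s.2.2, e ∈ wires := fun e he =>
    I.perm.subset (List.mem_append_right _ he)
  have p1 := (I.perm.map Prod.fst).nodup_iff.2 hs
  have p2 := (I.perm.map Prod.snd).nodup_iff.2 ht
  rw [List.map_append] at p1 p2
  have h1 := count_left H s.1 s.2.2 (List.nodup_append.1 p1).2.1 (List.nodup_append.1 p2).2.1
    (fun e he => hlt e (hsub e he)) I.left
  calc s.2.2.length ≤ 2 * (l + 1) * s.1.length := h1
    _ ≤ 2 * (l + 1) * ((2 * l + 2) * s.2.1.length) := Nat.mul_le_mul_left _ I.ulen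
    _ = 4 * (l + 1) ^ 2 * s.2.1.length := by ring

/-! ### all rounds -/

/-- state of the rounds: next colour, routed wires (colour, wire, path), wires left over -/
abbrev RSt := ℕ × List (ℕ × (ℕ × ℕ) × List ℕ) × List (ℕ × ℕ)

/-- one round -/
def stepR (nb : ℕ → ℕ → ℕ) (wd : List (List ℕ)) (s : RSt) : RSt :=
  (s.1 + 1, (pass nb wd s.2.2).2.1.map (fun x => (s.1, x)) ++ s.2.1, (pass nb wd s.2.2).2.2)

/-- number of colours -/
def ncol (l n : ℕ) : ℕ := (4 * (l + 1) ^ 2 + 1) * (n + 1).size

/-- the routing: list of (colour, wire, path) -/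
def route (n l : ℕ) (nb : ℕ → ℕ → ℕ) (wd : List (List ℕ)) (wires : List (ℕ × ℕ)) :
    List (ℕ × (ℕ × ℕ) × List ℕ) := ((stepR nb wd)^[ncol l n] (0, [], wires)).2.1

/-- invariant of the rounds -/
structure RInv (n d l : ℕ) (nb : ℕ → ℕ → ℕ) (wires : List (ℕ × ℕ)) (k : ℕ) (s : RSt) : Prop where
  clock : s.1 = k
  perm : (s.2.1.map (fun x => x.2.1) ++ s.2.2).Perm wires
  col : ∀ x ∈ s.2.1, x.1 < k
  good : ∀ x ∈ s.2.1, Good n d l nb x.2.1 x.2.2
  disj : s.2.1.Pairwise (fun x y => x.1 = y.1 → x.2.2.Disjoint y.2.2)
  len : (4 * (l + 1) ^ 2 + 1) ^ k * s.2.2.length ≤ (4 * (l + 1) ^ 2) ^ k * wires.length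

theorem round_inv (H : Hyp n d l nb wd) (wires : List (ℕ × ℕ))
    (hs : (wires.map Prod.fst).Nodup) (ht : (wires.map Prod.snd).Nodup)
    (hlt : ∀ e ∈ wires, e.1 < n ∧ e.2 < n) (k : ℕ) :
    RInv n d l nb wires k ((stepR nb wd)^[k] (0, [], wires)) := by
  induction k with
  | zero => exact ⟨rfl, by simp, by simp, by simp, by simp, by simp⟩
  | succ k ih =>
    rw [Function.iterate_succ_apply']
    generalize (stepR nb wd)^[k] (0, [], wires) = s at ih
    obtain ⟨i1, i2, i3, i4, i5, i6⟩ := ih
    have hsub : ∀ e ∈ s.2.2, e ∈ wires := fun e he =>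
      i2.subset (List.mem_append_right _ he)
    have p1 := (i2.map Prod.fst).nodup_iff.2 hs
    have p2 := (i2.map Prod.snd).nodup_iff.2 ht
    rw [List.map_append] at p1 p2
    have hlt' : ∀ e ∈ s.2.2, e.1 < n ∧ e.2 < n := fun e he => hlt e (hsub e he)
    have I := pass_inv H s.2.2 hlt'
    have hc := pass_count H s.2.2 (List.nodup_append.1 p1).2.1 (List.nodup_append.1 p2).2.1 hlt'
    unfold stepR
    generalize pass nb wd s.2.2 = t at I hc
    refine ⟨by simp [i1], ?_, ?_, ?_, ?_, ?_⟩
    · simp only [List.map_append, List.map_map]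
      have e1 : List.map ((fun x : ℕ × (ℕ × ℕ) × List ℕ => x.2.1) ∘ fun x => (s.1, x)) t.2.1 =
          t.2.1.map Prod.fst := by
        apply List.map_congr_left
        intro x _
        rfl
      rw [e1, List.append_assoc]
      refine List.perm_append_comm.trans ?_
      rw [List.append_assoc]
      refine List.Perm.trans ?_ i2
      refine List.Perm.append_left _ ?_
      exact List.perm_append_comm.trans I.perm
    · intro x hx
      rcases List.mem_append.1 hx with hx | hx
      · obtain ⟨y, _, rfl⟩ := List.mem_map.1 hx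
        simp only
        omega
      · exact (i3 x hx).trans (Nat.lt_succ_self k)
    · intro x hx
      rcases List.mem_append.1 hx with hx | hx
      · obtain ⟨y, hy, rfl⟩ := List.mem_map.1 hx
        exact I.good y hy
      · exact i4 x hx
    · refine List.pairwise_append.2 ⟨?_, i5, ?_⟩
      · rw [List.pairwise_map]
        refine List.Pairwise.imp ?_ I.disj
        intro a b h _
        exact h
      · intro x hx y hy hxy
        obtain ⟨z, _, rfl⟩ := List.mem_map.1 hx
        have := i3 y hy
        simp only at hxy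
        omega
    · have hl : t.2.1.length + t.2.2.length = s.2.2.length := by
        have := I.perm.length_eq
        simpa using this
      simp only
      set C := 4 * (l + 1) ^ 2 with hC
      have h1 : (C + 1) * t.2.2.length ≤ C * s.2.2.length := by
        rw [← hl]
        have e1 : (C + 1) * t.2.2.length = C * t.2.2.length + t.2.2.length := by ring
        have e2 : C * (t.2.1.length + t.2.2.length) = C * t.2.1.length + C * t.2.2.length := by ring
        omega
      calc (C + 1) ^ (k + 1) * t.2.2.length = (C + 1) ^ k * ((C + 1) * t.2.2.length) := by ring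
        _ ≤ (C + 1) ^ k * (C * s.2.2.length) := Nat.mul_le_mul_left _ h1
        _ = C * ((C + 1) ^ k * s.2.2.length) := by ring
        _ ≤ C * (C ^ k * wires.length) := Nat.mul_le_mul_left _ i6
        _ = C ^ (k + 1) * wires.length := by ring

theorem two_mul_pow_le (C : ℕ) : 2 * C ^ (C + 1) ≤ (C + 1) ^ (C + 1) := by
  rcases Nat.eq_zero_or_pos C with h | h
  · subst h; simp
  have h1 : C ^ (C + 1) + (C + 1) * C ^ C ≤ (C + 1) ^ (C + 1) := by
    have h2 : (C + 1) ^ (C + 1) = ∑ m ∈ Finset.range (C + 1 + 1), C ^ m * 1 ^ (C + 1 - m) * (C + 1).choose m :=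
      add_pow C 1 (C + 1)
    rw [h2, Finset.sum_range_succ, Finset.sum_range_succ]
    simp only [Nat.sub_self, pow_zero, mul_one, Nat.choose_self, one_pow, Nat.choose_succ_self_right]
    have : (C + 1) * C ^ C = C ^ C * (C + 1) := by ring
    omega
  have h3 : C ^ (C + 1) ≤ (C + 1) * C ^ C := by
    rw [pow_succ, mul_comm]
    exact Nat.mul_le_mul_right _ (Nat.le_succ C)
  omega

theorem left_nil (H : Hyp n d l nb wd) (wires : List (ℕ × ℕ))
    (hs : (wires.map Prod.fst).Nodup) (ht : (wires.map Prod.snd).Nodup)
    (hlt : ∀ e ∈ wires, e.1 < n ∧ e.2 < n) :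
    ((stepR nb wd)^[ncol l n] (0, [], wires)).2.2 = [] := by
  have I := round_inv H wires hs ht hlt (ncol l n)
  generalize (stepR nb wd)^[ncol l n] (0, [], wires) = s at I
  have hwl : wires.length ≤ n := by
    have h1 : (wires.map Prod.fst).length ≤ (List.range n).length := by
      refine List.Subperm.length_le (List.subperm_of_subset hs ?_)
      intro a ha
      obtain ⟨e, he, rfl⟩ := List.mem_map.1 ha
      exact List.mem_range.2 (hlt e he).1
    simpa using h1
  have hlen := I.len
  unfold ncol at hlen
  set C := 4 * (l + 1) ^ 2 with hC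
  have hCpos : 0 < C := by positivity
  set t := (n + 1).size with ht'
  have h2t : wires.length < 2 ^ t := lt_of_le_of_lt (hwl.trans (Nat.le_succ n)) (Nat.lt_size_self (n + 1))
  have h1 : 2 ^ t * C ^ ((C + 1) * t) ≤ (C + 1) ^ ((C + 1) * t) := by
    rw [pow_mul, pow_mul, ← mul_pow]
    exact Nat.pow_le_pow_left (two_mul_pow_le C) t
  by_contra hne
  have hpos : 0 < s.2.2.length := List.length_pos_of_ne_nil hne
  have h2 : 2 ^ t * C ^ ((C + 1) * t) ≤ C ^ ((C + 1) * t) * wires.length :=
    calc 2 ^ t * C ^ ((C + 1) * t) ≤ (C + 1) ^ ((C + 1) * t) := h1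
      _ ≤ (C + 1) ^ ((C + 1) * t) * s.2.2.length := Nat.le_mul_of_pos_right _ hpos
      _ ≤ C ^ ((C + 1) * t) * wires.length := hlen
  rw [mul_comm] at h2
  have h3 := Nat.le_of_mul_le_mul_left h2 (Nat.pow_pos hCpos)
  omega

/-- **Routing theorem** -/
theorem route_spec (H : Hyp n d l nb wd) (wires : List (ℕ × ℕ))
    (hs : (wires.map Prod.fst).Nodup) (ht : (wires.map Prod.snd).Nodup)
    (hlt : ∀ e ∈ wires, e.1 < n ∧ e.2 < n) :
    ((route n l nb wd wires).map (fun x => x.2.1)).Perm wires ∧
      (∀ x ∈ route n l nb wd wires, x.1 < ncol l n ∧ Good n d l nb x.2.1 x.2.2) ∧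
      (route n l nb wd wires).Pairwise (fun x y => x.1 = y.1 → x.2.2.Disjoint y.2.2) := by
  have I := round_inv H wires hs ht hlt (ncol l n)
  have hn := left_nil H wires hs ht hlt
  unfold route
  generalize (stepR nb wd)^[ncol l n] (0, [], wires) = s at I hn
  refine ⟨?_, fun x hx => ⟨I.col x hx, I.good x hx⟩, I.disj⟩
  have := I.perm
  rw [hn] at this
  simpa using this

/-- colour and path of the wire with source `a` -/
def look (r : List (ℕ × (ℕ × ℕ) × List ℕ)) (a : ℕ) : ℕ × List ℕ :=
  match r.find? (fun x => decide (x.2.1.1 = a)) with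
  | some x => (x.1, x.2.2)
  | none => (0, [])

theorem look_spec (H : Hyp n d l nb wd) (wires : List (ℕ × ℕ))
    (hs : (wires.map Prod.fst).Nodup) (ht : (wires.map Prod.snd).Nodup)
    (hlt : ∀ e ∈ wires, e.1 < n ∧ e.2 < n) :
    (∀ e ∈ wires, (look (route n l nb wd wires) e.1).1 < ncol l n ∧
      Good n d l nb e (look (route n l nb wd wires) e.1).2) ∧
    ∀ e ∈ wires, ∀ e' ∈ wires, e ≠ e' →
      (look (route n l nb wd wires) e.1).1 = (look (route n l nb wd wires) e'.1).1 →
      (look (route n l nb wd wires) e.1).2.Disjoint (look (route n l nb wd wires) e'.1).2 := by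
  obtain ⟨r1, r2, r3⟩ := route_spec H wires hs ht hlt
  generalize route n l nb wd wires = r at r1 r2 r3
  have key : ∀ e ∈ wires, ∃ x ∈ r, x.2.1 = e ∧ look r e.1 = (x.1, x.2.2) := by
    intro e he
    obtain ⟨x, hx, hxe⟩ := List.mem_map.1 (r1.symm.subset he)
    cases hf : r.find? (fun x => decide (x.2.1.1 = e.1)) with
    | none =>
      have := List.find?_eq_none.1 hf x hx
      simp [hxe] at this
    | some y =>
      have hy := List.mem_of_find?_eq_some hf
      have hy2 := List.find?_some hf
      simp only [decide_eq_true_eq] at hy2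
      have hyw : y.2.1 ∈ wires := r1.subset (List.mem_map.2 ⟨y, hy, rfl⟩)
      have : y.2.1 = e := List.inj_on_of_nodup_map hs hyw he hy2
      refine ⟨y, hy, this, ?_⟩
      unfold look
      rw [hf]
  constructor
  · intro e he
    obtain ⟨x, hx, hxe, hl⟩ := key e he
    rw [hl]
    have := r2 x hx
    rw [hxe] at this
    exact this
  · intro e he e' he' hne hc
    obtain ⟨x, hx, hxe, hl⟩ := key e he
    obtain ⟨x', hx', hxe', hl'⟩ := key e' he'
    rw [hl, hl'] at hc ⊢
    simp only at hc ⊢
    have hxx : x ≠ x' := by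
      rintro rfl
      exact hne (hxe.symm.trans hxe')
    have : Std.Symm (fun x y : ℕ × (ℕ × ℕ) × List ℕ => x.1 = y.1 → x.2.2.Disjoint y.2.2) :=
      ⟨fun x y h hxy => (h hxy.symm).symm⟩
    exact r3.forall hx hx' hxx hc

end

end Crest.Agent.R289.Route649
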