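import Mathlib
import Crest.Agent.R289.LayRun_109
import Crest.Agent.R289.EolNF_436
import Crest.Agent.R289.Route_649

/-!
# Row 289, block C: the routed wires of a compiled circuit, realisation at number level
-/

set_option autoImplicit false

namespace Crest.Agent.R289.Layout109

open Crest.Agent.R289 Crest.Agent.R289.EolNF436 Crest.Agent.R289.Route649 Crest.PPADPCP

/-- the wires of class `c`: (source cell, target cell) -/
def wiresOf (c : ℕ) (ws : List (ℕ × (ℕ × ℕ))) : List (ℕ × ℕ) :=
  (ws.filter fun e => e.1 == c).map Prod.snd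

/-- the places of the ends of wires -/
def places (hp : List ℕ) (ws : List (ℕ × ℕ)) : List (ℕ × ℕ) :=
  ws.map fun e => (hp.getD e.1 0, hp.getD e.2 0)

/-- route of the wires of class `c` -/
def rtOf (nP l : ℕ) (nb : ℕ → ℕ → ℕ) (wd : List (List ℕ)) (hp : List ℕ)
    (ws : List (ℕ × (ℕ × ℕ))) (c : ℕ) : List (ℕ × (ℕ × ℕ) × List ℕ) :=
  route nP l nb wd (places hp (wiresOf c ws))

/-- the routed wires -/
def mkW (nP l : ℕ) (nb : ℕ → ℕ → ℕ) (wd : List (List ℕ)) (hp : List ℕ)
    (ws : List (ℕ × (ℕ × ℕ))) : List Wir :=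
  (List.range 4).flatMap fun c =>
    (wiresOf c ws).map fun e => (c, e, look (rtOf nP l nb wd hp ws c) (hp.getD e.1 0))

section lists
variable {n : ℕ} {ops : List (ℕ × ℕ × ℕ)} {outs : List ℕ}

theorem filter_ops (c : ℕ) (n : ℕ) (k : ℕ) (ops : List (ℕ × ℕ × ℕ)) :
    ((((ops.zipIdx k).flatMap fun e =>
        if e.1.1 = 0 then [((0, (e.1.2.1, n + e.2)) : ℕ × (ℕ × ℕ))]
        else [(1, (e.1.2.1, n + e.2)), (2, (e.1.2.2, n + e.2))]).filter
          fun e => e.1 == c).map Prod.snd) =
    (if c = 0 then ((ops.zipIdx k).filter fun e => e.1.1 == 0).map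
        fun e => ((e.1.2.1, n + e.2) : ℕ × ℕ)
     else if c = 1 then ((ops.zipIdx k).filter fun e => !(e.1.1 == 0)).map
        fun e => ((e.1.2.1, n + e.2) : ℕ × ℕ)
     else if c = 2 then ((ops.zipIdx k).filter fun e => !(e.1.1 == 0)).map
        fun e => ((e.1.2.2, n + e.2) : ℕ × ℕ)
     else []) := by
  induction ops generalizing k with
  | nil => simp
  | cons g ops ih =>
    rw [List.zipIdx_cons, List.flatMap_cons, List.filter_append, List.map_append, ih]
    by_cases hg : g.1 = 0
    · rcases c with _ | _ | _ | c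
      · simp [hg]
      · simp [hg]
      · simp [hg]
      · simp [hg]
    · rcases c with _ | _ | _ | c
      · simp [hg]
      · simp [hg]
      · simp [hg]
      · simp [hg]

theorem filter_outs (c k : ℕ) (outs : List ℕ) :
    ((((outs.zipIdx k).map fun e => ((3, (e.1, e.2)) : ℕ × (ℕ × ℕ))).filter
      fun e => e.1 == c).map Prod.snd) = if c = 3 then outs.zipIdx k else [] := by
  induction outs generalizing k with
  | nil => simp
  | cons a outs ih =>
    rw [List.zipIdx_cons, List.map_cons]
    by_cases hc : c = 3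
    · subst hc
      rw [List.filter_cons_of_pos (by rfl), List.map_cons, ih]
      rfl
    · rw [List.filter_cons_of_neg (by simp; omega), ih, if_neg hc, if_neg hc]

theorem wiresOf_0 : wiresOf 0 (wires n ops outs) =
    ((ops.zipIdx).filter fun e => e.1.1 == 0).map fun e => ((e.1.2.1, n + e.2) : ℕ × ℕ) := by
  unfold wiresOf wires
  rw [List.filter_append, List.map_append, filter_ops 0 n 0 ops, filter_outs 0 0 outs]
  simp

theorem wiresOf_1 : wiresOf 1 (wires n ops outs) =
    ((ops.zipIdx).filter fun e => !(e.1.1 == 0)).map fun e => ((e.1.2.1, n + e.2) : ℕ × ℕ) := by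
  unfold wiresOf wires
  rw [List.filter_append, List.map_append, filter_ops 1 n 0 ops, filter_outs 1 0 outs]
  simp

theorem wiresOf_2 : wiresOf 2 (wires n ops outs) =
    ((ops.zipIdx).filter fun e => !(e.1.1 == 0)).map fun e => ((e.1.2.2, n + e.2) : ℕ × ℕ) := by
  unfold wiresOf wires
  rw [List.filter_append, List.map_append, filter_ops 2 n 0 ops, filter_outs 2 0 outs]
  simp

theorem wiresOf_3 : wiresOf 3 (wires n ops outs) = outs.zipIdx := by
  unfold wiresOf wires
  rw [List.filter_append, List.map_append, filter_ops 3 n 0 ops, filter_outs 3 0 outs]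
  simp

theorem sub_copy (k : ℕ) (ops : List (ℕ × ℕ × ℕ)) :
    ((ops.zipIdx k).filter fun e => e.1.1 == 0).map (fun e => e.1.2.1) = srcCopy ops := by
  induction ops generalizing k with
  | nil => rfl
  | cons g ops ih =>
    rw [List.zipIdx_cons]
    have : srcCopy (g :: ops) = (if g.1 = 0 then [g.2.1] else []) ++ srcCopy ops := by
      simp [srcCopy]
    rw [this, ← ih (k + 1)]
    by_cases hg : g.1 = 0 <;> simp [hg]

theorem sub_left (k : ℕ) (ops : List (ℕ × ℕ × ℕ)) :
    (((ops.zipIdx k).filter fun e => !(e.1.1 == 0)).map fun e => e.1.2.1).Sublist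
      (srcNand ops) := by
  induction ops generalizing k with
  | nil => simp [srcNand]
  | cons g ops ih =>
    rw [List.zipIdx_cons]
    have : srcNand (g :: ops) = (if g.1 = 0 then [] else [g.2.1, g.2.2]) ++ srcNand ops := by
      simp [srcNand]
    rw [this]
    by_cases hg : g.1 = 0
    · simpa [hg] using ih (k + 1)
    · simp only [hg, not_false_eq_true, Bool.not_eq_true', beq_eq_false_iff_ne,
        List.filter_cons_of_pos, List.map_cons, if_false, List.cons_append, List.nil_append,
        ne_eq]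
      exact ((ih (k + 1)).cons _).cons_cons _

theorem sub_right (k : ℕ) (ops : List (ℕ × ℕ × ℕ)) :
    (((ops.zipIdx k).filter fun e => !(e.1.1 == 0)).map fun e => e.1.2.2).Sublist
      (srcNand ops) := by
  induction ops generalizing k with
  | nil => simp [srcNand]
  | cons g ops ih =>
    rw [List.zipIdx_cons]
    have : srcNand (g :: ops) = (if g.1 = 0 then [] else [g.2.1, g.2.2]) ++ srcNand ops := by
      simp [srcNand]
    rw [this]
    by_cases hg : g.1 = 0
    · simpa [hg] using ih (k + 1)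
    · simp only [hg, not_false_eq_true, Bool.not_eq_true', beq_eq_false_iff_ne,
        List.filter_cons_of_pos, List.map_cons, if_false, List.cons_append, List.nil_append,
        ne_eq]
      exact ((ih (k + 1)).cons_cons _).cons _

theorem nodup_tgt (p : (ℕ × ℕ × ℕ) × ℕ → Bool) (ops : List (ℕ × ℕ × ℕ)) (n : ℕ) :
    (((ops.zipIdx).filter p).map fun e => n + e.2).Nodup := by
  have h1 : (ops.zipIdx.map Prod.snd).Nodup := by
    rw [List.zipIdx_map_snd]; exact List.nodup_range'
  have h2 := (h1.sublist (List.Sublist.map Prod.snd (List.filter_sublist (p := p))))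
  have h3 := h2.map (f := fun i => n + i) (fun a b h => by simpa using h)
  rwa [List.map_map] at h3

/-- sources and targets of a class are distinct, all cells exist -/
theorem wiresOf_ok (h : Spec n (ops, outs)) (c : ℕ) (hc : c < 4) :
    ((wiresOf c (wires n ops outs)).map Prod.fst).Nodup ∧
    ((wiresOf c (wires n ops outs)).map Prod.snd).Nodup ∧
    ∀ e ∈ wiresOf c (wires n ops outs), e.1 < n + ops.length ∧ e.2 < n + ops.length := by
  have hwf := h.wf
  have hnand : (srcNand ops).Nodup := (List.nodup_append.1 h.useNodup).1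
  have houts : outs.Nodup := (List.nodup_append.1 h.useNodup).2.1
  have hmem : ∀ (p : (ℕ × ℕ × ℕ) × ℕ → Bool) (e), e ∈ (ops.zipIdx).filter p →
      ∃ (hi : e.2 < ops.length), e.1 = ops[e.2] := by
    intro p e he
    have h1 := (List.mem_filter.1 he).1
    rw [List.mem_zipIdx_iff_getElem?] at h1
    rw [List.getElem?_eq_some_iff] at h1
    obtain ⟨hi, e'⟩ := h1
    exact ⟨hi, e'.symm⟩
  obtain rfl | rfl | rfl | rfl : c = 0 ∨ c = 1 ∨ c = 2 ∨ c = 3 := by omega
  · rw [wiresOf_0]
    refine ⟨?_, ?_, ?_⟩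
    · rw [List.map_map]
      have := sub_copy 0 ops
      rw [show (Prod.fst ∘ fun e : (ℕ × ℕ × ℕ) × ℕ => ((e.1.2.1, n + e.2) : ℕ × ℕ)) =
        fun e => e.1.2.1 from rfl, this]
      exact h.copyNodup
    · rw [List.map_map]
      exact nodup_tgt _ ops n
    · intro e he
      rw [List.mem_map] at he
      obtain ⟨g, hg, rfl⟩ := he
      obtain ⟨hi, hgi⟩ := hmem _ g hg
      have h1 := hwf g.2 hi
      simp only at h1
      rw [← hgi] at h1
      exact ⟨by simp only; omega, by simp only; omega⟩
  · rw [wiresOf_1]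
    refine ⟨?_, ?_, ?_⟩
    · rw [List.map_map]
      exact hnand.sublist (sub_left 0 ops)
    · rw [List.map_map]
      exact nodup_tgt _ ops n
    · intro e he
      rw [List.mem_map] at he
      obtain ⟨g, hg, rfl⟩ := he
      obtain ⟨hi, hgi⟩ := hmem _ g hg
      have h1 := hwf g.2 hi
      simp only at h1
      rw [← hgi] at h1
      exact ⟨by simp only; omega, by simp only; omega⟩
  · rw [wiresOf_2]
    refine ⟨?_, ?_, ?_⟩
    · rw [List.map_map]
      exact hnand.sublist (sub_right 0 ops)
    · rw [List.map_map]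
      exact nodup_tgt _ ops n
    · intro e he
      rw [List.mem_map] at he
      obtain ⟨g, hg, rfl⟩ := he
      obtain ⟨hi, hgi⟩ := hmem _ g hg
      have h1 := hwf g.2 hi
      simp only at h1
      rw [← hgi] at h1
      exact ⟨by simp only; omega, by simp only; omega⟩
  · rw [wiresOf_3]
    refine ⟨?_, ?_, ?_⟩
    · rw [List.zipIdx_map_fst]; exact houts
    · rw [List.zipIdx_map_snd]; exact List.nodup_range'
    · intro e he
      rw [List.mem_zipIdx_iff_getElem?, List.getElem?_eq_some_iff] at he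
      obtain ⟨hi, e'⟩ := he
      have := h.outLt e.1 (e' ▸ List.getElem_mem hi)
      have h2 := h.outLen
      simp only at this h2
      exact ⟨this, by omega⟩

end lists

/-! ### the routed wires are good -/

section routed
variable {nP d l : ℕ} {nb : ℕ → ℕ → ℕ} {wd : List (List ℕ)} {nT : ℕ} {θ hp : List ℕ}
  {n : ℕ} {ops : List (ℕ × ℕ × ℕ)} {outs : List ℕ}

theorem mem_mkW {ws : List (ℕ × (ℕ × ℕ))} {w : Wir} : w ∈ mkW nP l nb wd hp ws ↔
    ∃ c < 4, ∃ e ∈ wiresOf c ws,
      w = (c, e, look (rtOf nP l nb wd hp ws c) (hp.getD e.1 0)) := by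
  unfold mkW
  simp only [List.mem_flatMap, List.mem_range, List.mem_map, eq_comm]

theorem nodup_getD {α : Type} (hp : List ℕ) (hnd : hp.Nodup) (ws : List α) (f : α → ℕ)
    (hlt : ∀ e ∈ ws, f e < hp.length) (h : (ws.map f).Nodup) :
    (ws.map fun e => hp.getD (f e) 0).Nodup := by
  unfold List.Nodup at h ⊢
  rw [List.pairwise_map] at h ⊢
  refine h.imp_of_mem ?_
  intro a b ha hb hab e
  exact hab (getD_inj hnd (hlt a ha) (hlt b hb) e)

theorem route_wires (H : Hyp nP d l nb wd) (hG : Geo nP nT θ hp) (h : Spec n (ops, outs))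
    (hlen : n + ops.length ≤ hp.length) (c : ℕ) (hc : c < 4) :
    (∀ e ∈ wiresOf c (wires n ops outs),
      (look (rtOf nP l nb wd hp (wires n ops outs) c) (hp.getD e.1 0)).1 < ncol l nP ∧
      Good nP d l nb (hp.getD e.1 0, hp.getD e.2 0)
        (look (rtOf nP l nb wd hp (wires n ops outs) c) (hp.getD e.1 0)).2) ∧
    ∀ e ∈ wiresOf c (wires n ops outs), ∀ e' ∈ wiresOf c (wires n ops outs), e.1 ≠ e'.1 →
      (look (rtOf nP l nb wd hp (wires n ops outs) c) (hp.getD e.1 0)).1 =
        (look (rtOf nP l nb wd hp (wires n ops outs) c) (hp.getD e'.1 0)).1 →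
      (look (rtOf nP l nb wd hp (wires n ops outs) c) (hp.getD e.1 0)).2.Disjoint
        (look (rtOf nP l nb wd hp (wires n ops outs) c) (hp.getD e'.1 0)).2 := by
  obtain ⟨k1, k2, k3⟩ := wiresOf_ok h c hc
  have hlt : ∀ e ∈ wiresOf c (wires n ops outs), e.1 < hp.length ∧ e.2 < hp.length :=
    fun e he => ⟨by have := k3 e he; omega, by have := k3 e he; omega⟩
  have s1 : ((places hp (wiresOf c (wires n ops outs))).map Prod.fst).Nodup := by
    unfold places
    rw [List.map_map]
    exact nodup_getD hp hG.hnd _ Prod.fst (fun e he => (hlt e he).1) k1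
  have s2 : ((places hp (wiresOf c (wires n ops outs))).map Prod.snd).Nodup := by
    unfold places
    rw [List.map_map]
    exact nodup_getD hp hG.hnd _ Prod.snd (fun e he => (hlt e he).2) k2
  have hget : ∀ i < hp.length, hp.getD i 0 < nP := by
    intro i hi
    rw [List.getD_eq_getElem _ _ hi]
    exact hG.hlt _ (List.getElem_mem hi)
  have s3 : ∀ e ∈ places hp (wiresOf c (wires n ops outs)), e.1 < nP ∧ e.2 < nP := by
    intro e he
    unfold places at he
    rw [List.mem_map] at he
    obtain ⟨a, ha, rfl⟩ := he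
    exact ⟨hget _ (hlt a ha).1, hget _ (hlt a ha).2⟩
  obtain ⟨r1, r2⟩ := look_spec H (places hp (wiresOf c (wires n ops outs))) s1 s2 s3
  have hm : ∀ e ∈ wiresOf c (wires n ops outs),
      (hp.getD e.1 0, hp.getD e.2 0) ∈ places hp (wiresOf c (wires n ops outs)) := by
    intro e he
    exact List.mem_map.2 ⟨e, he, rfl⟩
  refine ⟨fun e he => r1 _ (hm e he), fun e he e' he' hne hcol => ?_⟩
  refine r2 _ (hm e he) _ (hm e' he') ?_ hcol
  intro e0
  have e1 := congrArg Prod.fst e0
  exact hne (getD_inj hG.hnd (hlt e he).1 (hlt e' he').1 e1)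

/-- the routed wires satisfy all hypotheses of the layout -/
theorem mkW_ok (H : Hyp nP d l nb wd) (hG : Geo nP nT θ hp) (h : Spec n (ops, outs))
    (hlen : n + ops.length ≤ hp.length) (hcol : ncol l nP ≤ θ.length) :
    WOK nP (Tour594.Adj d nb) θ hp (mkW nP l nb wd hp (wires n ops outs)) := by
  constructor
  · intro w hw
    rw [mem_mkW] at hw
    obtain ⟨c, hc, e, he, rfl⟩ := hw
    obtain ⟨r1, r2⟩ := (route_wires H hG h hlen c hc).1 e he
    obtain ⟨_, _, k3⟩ := wiresOf_ok h c hc
    have k := k3 e he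
    exact ⟨hc, by simp only; omega, by simp only; omega, lt_of_lt_of_le r1 hcol, r2.head,
      r2.last, r2.nodup, r2.lt, r2.chain⟩
  · unfold mkW
    rw [List.pairwise_flatMap]
    constructor
    · intro c hc
      rw [List.mem_range] at hc
      obtain ⟨k1, k2, _⟩ := wiresOf_ok h c hc
      obtain ⟨_, r2⟩ := route_wires H hG h hlen c hc
      unfold List.Nodup at k1 k2
      rw [List.pairwise_map] at k1 k2 ⊢
      refine (k1.and k2).imp_of_mem ?_
      intro e e' he he' hee _
      exact ⟨hee.1, hee.2, fun hcc => r2 e he e' he' hee.1 hcc⟩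
    · refine List.nodup_range.imp ?_
      intro c c' hcc x hx y hy hxy
      rw [List.mem_map] at hx hy
      obtain ⟨_, _, rfl⟩ := hx
      obtain ⟨_, _, rfl⟩ := hy
      exact absurd hxy hcc

theorem mkW_cov (h : Spec n (ops, outs)) :
    Cov n ops (mkW nP l nb wd hp (wires n ops outs)) := by
  have hm : ∀ i (hi : i < ops.length), (ops[i], i) ∈ ops.zipIdx := by
    intro i hi
    rw [List.mk_mem_zipIdx_iff_getElem?, List.getElem?_eq_getElem hi]
  constructor
  · intro i hi h0
    refine ⟨(h.wf i hi).2.1, _, mem_mkW.2 ⟨0, by norm_num, (ops[i].2.1, n + i), ?_, rfl⟩,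
      rfl, rfl⟩
    rw [wiresOf_0]
    exact List.mem_map.2 ⟨(ops[i], i), List.mem_filter.2 ⟨hm i hi, by simp [h0]⟩, rfl⟩
  · intro i hi h0
    refine ⟨(h.wf i hi).2.1, _, mem_mkW.2 ⟨1, by norm_num, (ops[i].2.1, n + i), ?_, rfl⟩,
      rfl, rfl⟩
    rw [wiresOf_1]
    exact List.mem_map.2 ⟨(ops[i], i), List.mem_filter.2 ⟨hm i hi, by simp [h0]⟩, rfl⟩
  · intro i hi h0
    refine ⟨(h.wf i hi).2.2, _, mem_mkW.2 ⟨2, by norm_num, (ops[i].2.2, n + i), ?_, rfl⟩,
      rfl, rfl⟩
    rw [wiresOf_2]
    exact List.mem_map.2 ⟨(ops[i], i), List.mem_filter.2 ⟨hm i hi, by simp [h0]⟩, rfl⟩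

theorem mkW_out (h : Spec n (ops, outs)) (j : ℕ) (hj : j < n) :
    ∃ w ∈ mkW nP l nb wd hp (wires n ops outs), w.1 = 3 ∧ w.2.1 = (outs.getD j 0, j) := by
  have h2 := h.outLen
  simp only at h2
  have hj' : j < outs.length := by omega
  refine ⟨_, mem_mkW.2 ⟨3, by norm_num, (outs.getD j 0, j), ?_, rfl⟩, rfl, rfl⟩
  rw [wiresOf_3, List.mk_mem_zipIdx_iff_getElem?, List.getElem?_eq_getElem hj',
    List.getD_eq_getElem _ _ hj']

/-! ### values of the compiled circuit -/

theorem cv_slp (hwf : CellWF n ops) (x : Fin n → Bool) (y : ℕ → Bool)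
    (hy : ∀ i : Fin n, y i = x i) :
    CV n ops y fun t => (slp cellEv (List.ofFn x) ops).getD t false := by
  have hn : (List.ofFn x).length = n := by simp
  have hold : ∀ i (hi : i < ops.length) t, t < n + i →
      (slp cellEv (List.ofFn x) (ops.take i)).getD t false =
        (slp cellEv (List.ofFn x) ops).getD t false := by
    intro i hi t ht
    exact (slp_getD_take cellEv (List.ofFn x) ops i t (by omega) (by omega) false).symm
  have hnew : ∀ i (hi : i < ops.length),
      (slp cellEv (List.ofFn x) ops).getD (n + i) false =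
        cellEv ops[i] (slp cellEv (List.ofFn x) (ops.take i)) := by
    intro i hi
    have := slp_getD_new cellEv (List.ofFn x) ops i hi false
    rwa [hn] at this
  constructor
  · intro t ht
    rw [slp_getD_old cellEv _ _ _ (by omega)]
    have h1 := hy ⟨t, ht⟩
    simp only at h1
    rw [h1, List.getD_eq_getElem _ _ (by simpa using ht)]
    simp
  · intro i hi h0
    have hw := hwf i hi
    rw [hnew i hi, cellEv, if_pos h0, hold i hi _ hw.2.1]
  · intro i hi h0
    have hw := hwf i hi
    rw [hnew i hi, cellEv, if_neg h0, hold i hi _ hw.2.1, hold i hi _ hw.2.2]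

/-- the program of a compiled circuit -/
def progC (nP nT l : ℕ) (nb : ℕ → ℕ → ℕ) (wd : List (List ℕ)) (θ hp : List ℕ) (n : ℕ)
    (P : List (ℕ × ℕ × ℕ) × List ℕ) : List Stp :=
  prog nT θ hp n P.1 (mkW nP l nb wd hp (wires n P.1 P.2))

/-- **REALISATION at number level** -/
theorem run_progC {C : BCircuit n} (hC : C.WF) (H : Hyp nP d l nb wd) (hG : Geo nP nT θ hp)
    (hlen : 9 * C.gates.length + 2 * n ≤ hp.length) (hcol : ncol l nP ≤ θ.length)
    (v : Fin n → Bool) (x : ℕ → Bool) (hx : ∀ i : Fin n, x (home nT θ hp i) = v i)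
    (j : Fin n) :
    runN x (progC nP nT l nb wd θ hp n (compile (C.gates.map raw) C.outs))
      (home nT θ hp j, lOut) = C.apply v j := by
  obtain ⟨h1, h2, h3⟩ := compile_spec C hC
  generalize compile (C.gates.map raw) C.outs = P at h1 h2 h3
  obtain ⟨ops, outs⟩ := P
  simp only at h1 h2 h3
  have hlen' : n + ops.length ≤ hp.length := by omega
  have hW := mkW_ok (nT := nT) H hG h1 hlen' hcol
  have hcv := cv_slp h1.wf v (fun t => x (home nT θ hp t)) hx
  obtain ⟨_, r2⟩ := run_prog hG hW (mkW_cov h1) hlen' hcv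
  obtain ⟨w, hw, w1, w2⟩ := mkW_out (nP := nP) (l := l) (nb := nb) (wd := wd) (hp := hp)
    h1 j j.2
  have hlt := h1.outLt (outs.getD j 0) (by
    have := h1.outLen
    simp only at this
    exact getD_mem' (show (j : ℕ) < outs.length by omega))
  simp only at hlt
  have := r2 w hw w1 (by rw [w2]; exact hlt)
  rw [w2] at this
  rw [← h3 v j]
  exact this

end routed

end Crest.Agent.R289.Layout109
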