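import Crest.Agent.R289.LayDef_109
import Crest.Agent.R289.EolNFPT_328

/-!
# R289, leaf R6 (helper328): the layout program of `LayDef_109` is polynomial time
-/

set_option autoImplicit false
set_option linter.unusedSectionVars false

namespace Crest.Agent.R289.LayPTF328

open Crest.Agent.Lib.PT Crest.Agent.R289.Layout109 Crest.Agent.R289.EolNFPT328

section tools

variable {α β γ : Type} [PTCode α] [PTCode β] [PTCode γ]

/-- `take` with a binary number -/
theorem ptf_take {l : γ → List α} {n : γ → ℕ} (hl : PTF l) (hn : PTF n) :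
    PTF (fun c => (l c).take (n c)) := by
  have h1 : PTU (fun c => min (n c) (l c).length) := PTF.natMinUn hn (PTU.length hl)
  refine PTF.of_eq (PTF.take h1 hl) (fun c => ?_)
  rcases le_or_gt (n c) (l c).length with h | h
  · rw [min_eq_left h]
  · rw [min_eq_right h.le, List.take_length, List.take_of_length_le h.le]

theorem ptf_headD {l : γ → List α} {d : γ → α} (hl : PTF l) (hd : PTF d) :
    PTF (fun c => (l c).headD (d c)) := by
  refine PTF.of_eq (ptf_getD hl (PTF.const 0) hd) (fun c => ?_)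
  cases l c <;> rfl

theorem ptf_getLastD {l : γ → List α} {d : γ → α} (hl : PTF l) (hd : PTF d) :
    PTF (fun c => (l c).getLastD (d c)) := by
  refine PTF.of_eq (ptf_getD (PTF.reverse hl) (PTF.const 0) hd) (fun c => ?_)
  rcases List.eq_nil_or_concat (l c) with h | ⟨l', a, h⟩
  · rw [h]; rfl
  · rw [h]; simp [List.getLastD_eq_getLast?]

theorem ptf_zipIdx {l : γ → List α} (hl : PTF l) : PTF (fun c => (l c).zipIdx) := by
  refine PTF.of_eq (PTF.zip hl (PTF.range (PTU.length hl))) (fun c => ?_)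
  rw [List.zipIdx_eq_zip_range']
  congr 1
  exact List.range_eq_range' (n := (l c).length)

end tools

variable {γ : Type} [PTCode γ]

theorem ptf_cp {a b : γ → Cel} (ha : PTF a) (hb : PTF b) : PTF (fun c => cp (a c) (b c)) := by
  unfold cp
  pt_prop

theorem ptf_fwd {a : γ → Cel} {l : γ → List Cel} (ha : PTF a) (hl : PTF l) :
    PTF (fun c => fwd (a c) (l c)) := by
  unfold fwd
  refine PTF.flatMap (f := fun _ e => cp e.1 e.2) (PTF.zip (PTF.listCons ha hl) hl) ?_
  exact ptf_cp (PTF.comp PTF.fst PTF.snd) (PTF.comp PTF.snd PTF.snd)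

theorem ptf_bwd {a : γ → Cel} {l : γ → List Cel} (ha : PTF a) (hl : PTF l) :
    PTF (fun c => bwd (a c) (l c)) := by
  unfold bwd
  refine PTF.reverse (PTF.map (f := fun (_ : γ) (z : Cel) => ((z.1, none) : Stp))
    (PTF.listCons ha hl) ?_)
  exact PTF.prodMk (PTF.comp PTF.fst PTF.snd) (PTF.const none)

theorem ptf_cable {a : γ → Cel} {l : γ → List Cel} (ha : PTF a) (hl : PTF l) :
    PTF (fun c => cable (a c) (l c)) := by
  unfold cable
  exact PTF.append (ptf_fwd ha hl) (ptf_bwd ha hl)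

theorem ptf_block {g : γ → Cel} {o : γ → OpN} {cs : γ → List (List Cel)} (hg : PTF g)
    (ho : PTF o) (hcs : PTF cs) : PTF (fun c => block (g c) (o c) (cs c)) := by
  unfold block
  refine PTF.listCons ?_ ?_
  · pt_prop
  · refine PTF.flatMap (f := fun c z => cable (g c) z) hcs ?_
    exact ptf_cable (PTF.comp hg PTF.fst) PTF.snd

/-! ### addresses, cells, operations -/

theorem ptf_ad {nT v i : γ → ℕ} {θ : γ → List ℕ} (hT : PTF nT) (hθ : PTF θ) (hv : PTF v)
    (hi : PTF i) : PTF (fun c => ad (nT c) (θ c) (v c) (i c)) := by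
  unfold ad
  exact PTF.natAdd (PTF.natMul hv hT) (ptf_getD hθ hi (PTF.const 0))

theorem ptf_home {nT t : γ → ℕ} {θ hp : γ → List ℕ} (hT : PTF nT) (hθ : PTF θ) (hhp : PTF hp)
    (ht : PTF t) : PTF (fun c => home (nT c) (θ c) (hp c) (t c)) := by
  unfold home
  exact ptf_ad hT hθ (ptf_getD hhp ht (PTF.const 0)) (PTF.const 0)

theorem ptf_lane {k m : ℕ} {x : γ → ℕ} (hx : PTF x) : PTF (fun c => k * x c + m) :=
  PTF.natAdd (PTF.natMul (PTF.const k) hx) (PTF.const m)

theorem ptf_cells {nT : γ → ℕ} {θ : γ → List ℕ} {w : γ → Wir} (hT : PTF nT) (hθ : PTF θ)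
    (hw : PTF w) : PTF (fun c => cells (nT c) (θ c) (w c)) := by
  have hcl : PTF (fun c => (w c).1) := PTF.comp PTF.fst hw
  have hk : PTF (fun c => (w c).2.2.1) := PTF.comp PTF.fst (PTF.comp PTF.snd (PTF.comp PTF.snd hw))
  have hp : PTF (fun c => (w c).2.2.2) := PTF.comp PTF.snd (PTF.comp PTF.snd (PTF.comp PTF.snd hw))
  have hth : PTF (fun c => (θ c).take ((w c).2.2.1 + 1)) :=
    ptf_take hθ (PTF.natAdd hk (PTF.const 1))
  have hhd : PTF (fun c => (w c).2.2.2.headD 0) := ptf_headD hp (PTF.const 0)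
  have hla : PTF (fun c => (w c).2.2.2.getLastD 0) := ptf_getLastD hp (PTF.const 0)
  have hcl' : PTF (fun p : γ × ℕ => (w p.1).1) := PTF.comp (g := fun c => (w c).1) hcl PTF.fst
  have hk' : PTF (fun p : γ × ℕ => (w p.1).2.2.1) :=
    PTF.comp (g := fun c => (w c).2.2.1) hk PTF.fst
  have hhd' : PTF (fun p : γ × ℕ => (w p.1).2.2.2.headD 0) :=
    PTF.comp (g := fun c => (w c).2.2.2.headD 0) hhd PTF.fst
  have hla' : PTF (fun p : γ × ℕ => (w p.1).2.2.2.getLastD 0) :=
    PTF.comp (g := fun c => (w c).2.2.2.getLastD 0) hla PTF.fst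
  unfold cells
  refine PTF.append (PTF.append (PTF.append ?_ ?_) ?_) ?_
  · refine PTF.map (f := fun c a => (((w c).2.2.2.headD 0 * nT c + a, lU (w c).1) : Cel)) hth ?_
    exact PTF.prodMk (PTF.natAdd (PTF.natMul hhd' (PTF.comp hT PTF.fst)) PTF.snd)
      (ptf_lane hcl')
  · refine PTF.map (f := fun c v => ((ad (nT c) (θ c) v (w c).2.2.1, lX (w c).1) : Cel)) hp ?_
    exact PTF.prodMk (ptf_ad (PTF.comp hT PTF.fst) (PTF.comp hθ PTF.fst) PTF.snd
      hk') (ptf_lane hcl')
  · refine PTF.reverse (PTF.map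
      (f := fun c a => (((w c).2.2.2.getLastD 0 * nT c + a, lD (w c).1) : Cel)) hth ?_)
    exact PTF.prodMk (PTF.natAdd (PTF.natMul hla' (PTF.comp hT PTF.fst)) PTF.snd)
      (ptf_lane hcl')
  · refine PTF.ite ?_ ?_ (PTF.const _)
    · exact PTPred.of_ptf (PTF.beq hcl (PTF.const 3))
    · exact PTF.listCons (PTF.prodMk (ptf_ad hT hθ hla (PTF.const 0)) (PTF.const lOut))
        (PTF.const _)

theorem ptf_gop {n h t : γ → ℕ} {ops : γ → List (ℕ × ℕ × ℕ)} (hn : PTF n) (hops : PTF ops)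
    (hh : PTF h) (ht : PTF t) : PTF (fun c => gop (n c) (ops c) (h c) (t c)) := by
  unfold gop
  have h1 : PTF (fun c => ((ops c).getD (t c - n c) (0, 0, 0)).1) :=
    PTF.comp PTF.fst (ptf_getD hops (PTF.natSub ht hn) (PTF.const _))
  refine PTF.ite (PTPred.natLt ht hn) (PTF.const none) (PTF.ite ?_ ?_ ?_)
  · exact PTPred.of_ptf (PTF.beq h1 (PTF.const 0))
  · exact PTF.optSome (PTF.prodMk (PTF.prodMk hh (PTF.const _)) (PTF.prodMk hh (PTF.const _)))
  · exact PTF.optSome (PTF.prodMk (PTF.prodMk hh (PTF.const _)) (PTF.prodMk hh (PTF.const _)))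

theorem ptf_blockAt {nT n t : γ → ℕ} {θ hp : γ → List ℕ} {ops : γ → List (ℕ × ℕ × ℕ)}
    {W : γ → List Wir} (hT : PTF nT) (hθ : PTF θ) (hhp : PTF hp) (hn : PTF n) (hops : PTF ops)
    (hW : PTF W) (ht : PTF t) :
    PTF (fun c => blockAt (nT c) (θ c) (hp c) (n c) (ops c) (W c) (t c)) := by
  unfold blockAt
  have hh := ptf_home hT hθ hhp ht
  refine ptf_block (PTF.prodMk hh (PTF.const 0)) (ptf_gop hn hops hh ht) ?_
  refine PTF.map (f := fun c w => cells (nT c) (θ c) w)
    (PTF.filter (p := fun c w => w.2.1.1 == t c) hW ?_) ?_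
  · refine PTF.of_eq (PTF.beq (f := fun p : γ × Wir => p.2.2.1.1) (g := fun p => t p.1) ?_
      (PTF.comp ht PTF.fst)) (fun p => ?_)
    · pt_prop
    · simp [Bool.beq_eq_decide_eq]
  · exact ptf_cells (PTF.comp hT PTF.fst) (PTF.comp hθ PTF.fst) PTF.snd

/-- **the program of a compiled circuit is polynomial time** -/
theorem ptf_prog {nT n : γ → ℕ} {θ hp : γ → List ℕ} {ops : γ → List (ℕ × ℕ × ℕ)}
    {W : γ → List Wir} (hT : PTF nT) (hθ : PTF θ) (hhp : PTF hp) (hn : PTU n) (hops : PTF ops)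
    (hW : PTF W) : PTF (fun c => Layout109.prog (nT c) (θ c) (hp c) (n c) (ops c) (W c)) := by
  unfold Layout109.prog
  refine PTF.flatMap (f := fun c t => blockAt (nT c) (θ c) (hp c) (n c) (ops c) (W c) t)
    (PTF.range (PTU.add hn (PTU.length hops))) ?_
  exact ptf_blockAt (PTF.comp hT PTF.fst) (PTF.comp hθ PTF.fst) (PTF.comp hhp PTF.fst)
    (PTF.comp hn.toPTF PTF.fst) (PTF.comp hops PTF.fst) (PTF.comp hW PTF.fst) PTF.snd

theorem ptf_retw {nT m : γ → ℕ} {θ hp : γ → List ℕ} (hT : PTF nT) (hθ : PTF θ) (hhp : PTF hp)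
    (hm : PTF m) : PTF (fun c => retw (nT c) (θ c) (hp c) (m c)) := by
  unfold retw
  refine PTF.reverse (PTF.map (f := fun c v => ((ad (nT c) (θ c) v 0, none) : Stp))
    (ptf_take hhp hm) ?_)
  exact PTF.prodMk (ptf_ad (PTF.comp hT PTF.fst) (PTF.comp hθ PTF.fst) PTF.snd (PTF.const 0))
    (PTF.const none)

theorem ptf_both {S r P : γ → List Stp} (hS : PTF S) (hr : PTF r) (hP : PTF P) :
    PTF (fun c => Layout109.both (S c) (r c) (P c)) := by
  unfold Layout109.both
  refine PTF.append (PTF.append ?_ ?_) ?_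
  · refine PTF.map (f := fun _ s => ((s.1, s.2, none) : Stp2)) hS ?_
    pt_prop
  · refine PTF.map (f := fun _ s => ((s.1, none, none) : Stp2)) hr ?_
    pt_prop
  · refine PTF.map (f := fun _ s => ((s.1, none, s.2) : Stp2)) hP ?_
    pt_prop

theorem ptf_wires {n : γ → ℕ} {ops : γ → List (ℕ × ℕ × ℕ)} {outs : γ → List ℕ} (hn : PTF n)
    (hops : PTF ops) (houts : PTF outs) : PTF (fun c => wires (n c) (ops c) (outs c)) := by
  unfold wires
  have hn' : PTF (fun p : γ × (ℕ × ℕ × ℕ) × ℕ => n p.1) := PTF.comp hn PTF.fst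
  refine PTF.append ?_ ?_
  · refine PTF.flatMap (f := fun c e => if e.1.1 = 0 then [(0, (e.1.2.1, n c + e.2))]
      else [(1, (e.1.2.1, n c + e.2)), (2, (e.1.2.2, n c + e.2))]) (ptf_zipIdx hops) ?_
    refine PTF.ite ?_ ?_ ?_
    · exact PTPred.of_ptf (PTF.beq (by pt_prop) (PTF.const 0))
    · pt_prop
    · pt_prop
  · refine PTF.map (f := fun _ e => (3, (e.1, e.2))) (ptf_zipIdx houts) ?_
    pt_prop

end Crest.Agent.R289.LayPTF328
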