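import Crest.Agent.R289.RoutePU_55
import Crest.Agent.R289.LayAsm_109
import Crest.Agent.R289.LayPTF_328

/-!
# R289, block C (layout): `Layout109.mkW` is polynomial time (helper55)
-/

set_option autoImplicit false

namespace Crest.Agent.R289.RoutePT55

open Crest.Agent.Lib.PT Crest.Agent.R289.Route649 Crest.Agent.R289.Layout109

variable {γ : Type} [PTCode γ] {N : γ → ℕ} {nb : γ → ℕ → ℕ → ℕ}

theorem ptf_getD0 {hp : γ → List ℕ} {i : γ → ℕ} (hhp : PTF hp) (hi : PTF i) :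
    PTF (fun c => (hp c).getD (i c) 0) :=
  Crest.Agent.R288.PtDp115.ptf_getB hhp hi (PTF.const 0)

theorem ptf_wiresOf {c : γ → ℕ} {ws : γ → List (ℕ × (ℕ × ℕ))} (hc : PTF c) (hws : PTF ws) :
    PTF (fun x => wiresOf (c x) (ws x)) := by
  unfold wiresOf
  refine PTF.map (f := fun (_ : γ) (e : ℕ × (ℕ × ℕ)) => e.2) (PTF.filter
    (p := fun x (e : ℕ × (ℕ × ℕ)) => e.1 == c x) hws ?_) ?_
  · refine PTF.of_eq (PTF.beq (f := fun q : γ × ℕ × (ℕ × ℕ) => q.2.1)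
      (g := fun q : γ × ℕ × (ℕ × ℕ) => c q.1)
      (PTF.comp (g := fun e : ℕ × (ℕ × ℕ) => e.1) PTF.fst PTF.snd)
      (PTF.comp (g := c) hc PTF.fst)) fun q => ?_
    rfl
  · exact PTF.comp (g := fun e : ℕ × (ℕ × ℕ) => e.2) PTF.snd PTF.snd

theorem ptf_places {hp : γ → List ℕ} {ws : γ → List (ℕ × ℕ)} (hhp : PTF hp) (hws : PTF ws) :
    PTF (fun x => places (hp x) (ws x)) := by
  unfold places
  have h1 : PTF (fun q : γ × ℕ × ℕ => hp q.1) := PTF.comp (g := hp) hhp PTF.fst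
  refine PTF.map (f := fun x (e : ℕ × ℕ) => ((hp x).getD e.1 0, (hp x).getD e.2 0)) hws ?_
  exact PTF.prodMk (ptf_getD0 h1 (PTF.comp (g := fun e : ℕ × ℕ => e.1) PTF.fst PTF.snd))
    (ptf_getD0 h1 (PTF.comp (g := fun e : ℕ × ℕ => e.2) PTF.snd PTF.snd))

theorem ptf_rtOf (H : NB N nb) {nP l c : γ → ℕ} {wd : γ → List (List ℕ)} {hp : γ → List ℕ}
    {ws : γ → List (ℕ × (ℕ × ℕ))} (hnP : PTU nP) (hl : PTU l) (hwd : PTF wd) (hhp : PTF hp)
    (hws : PTF ws) (hc : PTF c) :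
    PTF (fun x => rtOf (nP x) (l x) (nb x) (wd x) (hp x) (ws x) (c x)) := by
  unfold rtOf
  exact ptf_route H hl hnP hwd (ptf_places hhp (ptf_wiresOf hc hws))

/-- **the routed wires are polynomial time** -/
theorem ptf_mkW (H : NB N nb) {nP l : γ → ℕ} {wd : γ → List (List ℕ)} {hp : γ → List ℕ}
    {ws : γ → List (ℕ × (ℕ × ℕ))} (hnP : PTU nP) (hl : PTU l) (hwd : PTF wd) (hhp : PTF hp)
    (hws : PTF ws) :
    PTF (fun x => mkW (nP x) (l x) (nb x) (wd x) (hp x) (ws x)) := by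
  unfold mkW
  refine PTF.flatMap (l := fun _ : γ => List.range 4) (f := fun x c => (wiresOf c (ws x)).map
    fun e => ((c, e, look (rtOf (nP x) (l x) (nb x) (wd x) (hp x) (ws x) c)
      ((hp x).getD e.1 0)) : Wir)) (PTF.const _) ?_
  have h1 : PTF (fun q : γ × ℕ => q.1) := PTF.fst
  have h2 : PTF (fun q : (γ × ℕ) × (ℕ × ℕ) => q.1.1) := PTF.comp PTF.fst PTF.fst
  have h3 : PTF (fun q : (γ × ℕ) × (ℕ × ℕ) => q.1.2) := PTF.comp PTF.snd PTF.fst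
  have hws1 : PTF (fun q : γ × ℕ => ws q.1) := PTF.comp (g := ws) hws PTF.fst
  have hws2 : PTF (fun q : (γ × ℕ) × (ℕ × ℕ) => ws q.1.1) := PTF.comp (g := ws) hws h2
  have hwd2 : PTF (fun q : (γ × ℕ) × (ℕ × ℕ) => wd q.1.1) := PTF.comp (g := wd) hwd h2
  have hhp2 : PTF (fun q : (γ × ℕ) × (ℕ × ℕ) => hp q.1.1) := PTF.comp (g := hp) hhp h2
  refine PTF.map (l := fun q : γ × ℕ => wiresOf q.2 (ws q.1))
    (f := fun (q : γ × ℕ) (e : ℕ × ℕ) => ((q.2, e, look (rtOf (nP q.1) (l q.1) (nb q.1) (wd q.1)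
      (hp q.1) (ws q.1) q.2) ((hp q.1).getD e.1 0)) : Wir)) (ptf_wiresOf PTF.snd hws1) ?_
  refine PTF.prodMk h3 (PTF.prodMk PTF.snd (ptf_look ?_ (ptf_getD0 hhp2
    (PTF.comp (g := fun e : ℕ × ℕ => e.1) PTF.fst PTF.snd))))
  exact ptf_rtOf (H.comp (f := fun q : (γ × ℕ) × (ℕ × ℕ) => q.1.1) h2) (PTU.comp hnP h2)
    (PTU.comp hl h2) hwd2 hhp2 hws2 h3

/-- **the program of a compiled circuit is polynomial time** -/
theorem ptf_progC (H : NB N nb) {nP nT l n : γ → ℕ} {wd : γ → List (List ℕ)} {θ hp : γ → List ℕ}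
    {P : γ → List (ℕ × ℕ × ℕ) × List ℕ} (hnP : PTU nP) (hnT : PTF nT) (hl : PTU l) (hn : PTU n)
    (hwd : PTF wd) (hθ : PTF θ) (hhp : PTF hp) (hP : PTF P) :
    PTF (fun x => progC (nP x) (nT x) (l x) (nb x) (wd x) (θ x) (hp x) (n x) (P x)) := by
  unfold progC
  have h1 : PTF (fun x => (P x).1) :=
    PTF.comp (g := fun q : List (ℕ × ℕ × ℕ) × List ℕ => q.1) PTF.fst hP
  have h2 : PTF (fun x => (P x).2) :=
    PTF.comp (g := fun q : List (ℕ × ℕ × ℕ) × List ℕ => q.2) PTF.snd hP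
  exact LayPTF328.ptf_prog hnT hθ hhp hn h1
    (ptf_mkW H hnP hl hwd hhp (LayPTF328.ptf_wires hn.toPTF h1 h2))

end Crest.Agent.R289.RoutePT55
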