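import Crest.Agent.R289.LayObjB_896
import Crest.Agent.R289.RoutePV_55
import Crest.Agent.R289.RouteBd_649
import Crest.Agent.R289.EolNFPT_328
import Crest.Agent.R289.GlueD2_194
import Crest.Agent.R289.Circ_328

/-!
# Row 289, block C, C_REAL assembly part 5 (helper896): polynomial time, the family of layouts

* `mvN`, `mvN_eq`, `ptf_mvN` : the moves `InsObj576.act D kP kR g` on numbers
  `YIdx901.eP (D.ix kP) (D.ix kR)`;
* `layPT_layL` : `PubC965.LayPT` of the family `a ↦ layL D (kP a) (kR a) (n a) (CS a) (CP a)`;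
* `layE D kP kR : ∀ a : EI, Layout ..` : the layout of a coded End-of-Line instance;
  **`layE_PT`** (tables), **`layE_ok`**, **`layE_real`** (for well-formed instances which fit).
-/

set_option autoImplicit false
set_option linter.dupNamespace false

namespace Crest.Agent.R289.LayObj896

open Crest.PPADPCP
open Crest.Agent.R289 Crest.Agent.Lib.PT Crest.Agent.R289.Asm12 Crest.Agent.R289.RouteObj649
open Crest.Agent.R289.DefC Crest.Agent.R289.Layout109
open Crest.Agent.R289.EolNF436 (compile)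
open Crest.Agent.R289.InsObj576 (G W3 Ltr lv ov wv3 id3)
open Crest.Agent.R289.LayNet896 (adr num num_adr)
open Crest.Agent.R289.YIdx901 (eP eP_val pI div_pI mod_pI)

/-! ### moves on numbers -/

section mv
variable (D : Obj)

/-- number of the value of a letter -/
def lvN (u : Un) : Ltr D → ℕ
  | (false, false, z) => D.aN z u
  | (false, true, z) => D.invN (u, D.aN z u)
  | (true, false, z) => D.bN z u
  | (true, true, z) => D.invN (u, D.bN z u)

/-- left multiplication by an optional letter -/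
def ovN (u : Un) (o : Option (Ltr D)) (v : ℕ) : ℕ :=
  match o with
  | none => v
  | some a => D.mulN (u, lvN D u a, v)

/-- left multiplication by a word -/
def wvN (u : Un) (w : W3 D) (v : ℕ) : ℕ :=
  ovN D u (w 2) (ovN D u (w 1) (ovN D u (w 0) v))

/-- a move on numbers -/
def mvN (kP kR : ℕ) (g : G D) (v : ℕ) : ℕ :=
  pI (D.Q ^ kR) (wvN D (Un.mk kP) g.1 (v / D.Q ^ kR)) (wvN D (Un.mk kR) g.2 (v % D.Q ^ kR))

/-- the numbering of `D.P kP × D.P kR` -/
abbrev eΓ (kP kR : ℕ) : D.P kP × D.P kR ≃ Fin (D.Q ^ kP * D.Q ^ kR) := eP (D.ix kP) (D.ix kR)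

theorem eΓ_num (kP kR : ℕ) (x : D.P kP × D.P kR) :
    ((eΓ D kP kR x : Fin _) : ℕ) = num (D.ix kP) (D.ix kR) x := by
  rw [eP_val]
  unfold num pI
  ring

variable {D} {M0 : ℕ} {lam0 Kr : ℝ} (h : D.OK M0 lam0 Kr)
include h

theorem lvN_eq (k : ℕ) (a : Ltr D) : lvN D (Un.mk k) a = D.ix k (lv D k a) := by
  obtain ⟨b, c, z⟩ := a
  cases b <;> cases c
  · exact h.aN_eq z k
  · show D.invN (Un.mk k, D.aN z (Un.mk k)) = _
    rw [h.aN_eq z k]
    exact h.inv_eq k _
  · exact h.bN_eq z k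
  · show D.invN (Un.mk k, D.bN z (Un.mk k)) = _
    rw [h.bN_eq z k]
    exact h.inv_eq k _

theorem ovN_eq (k : ℕ) (o : Option (Ltr D)) (x : D.P k) :
    ovN D (Un.mk k) o (D.ix k x) = D.ix k (ov D k o * x) := by
  cases o with
  | none => simp [ovN, ov]
  | some a =>
    show D.mulN (Un.mk k, lvN D (Un.mk k) a, D.ix k x) = D.ix k (lv D k a * x)
    rw [lvN_eq h k a]
    exact h.mul_eq k _ _

theorem wvN_eq (k : ℕ) (w : W3 D) (x : D.P k) :
    wvN D (Un.mk k) w (D.ix k x) = D.ix k (wv3 D k w * x) := by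
  unfold wvN wv3
  rw [ovN_eq h, ovN_eq h, ovN_eq h, mul_assoc, mul_assoc]

/-- **moves on numbers** -/
theorem mvN_eq (kP kR : ℕ) (g : G D) (x : D.P kP × D.P kR) :
    mvN D kP kR g (eΓ D kP kR x : Fin _) = (eΓ D kP kR (InsObj576.act D kP kR g x) : Fin _) := by
  obtain ⟨x1, x2⟩ := x
  unfold mvN
  rw [eP_val, div_pI (D.ix kR x2).2, mod_pI (D.ix kR x2).2, wvN_eq h, wvN_eq h,
    InsObj576.act_apply, eP_val]

section ptf
variable {α : Type} [PTCode α] {k : α → ℕ} {v : α → ℕ}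

theorem ptf_lvN (hk : PTU k) (hQ : PTU fun x => D.Q ^ k x) (a : Ltr D) :
    PTF (fun x => lvN D (Un.mk (k x)) a) := by
  obtain ⟨b, c, z⟩ := a
  cases b <;> cases c
  · exact h.ptf_a z k hk hQ
  · exact h.ptf_inv k _ hk hQ (h.ptf_a z k hk hQ)
  · exact h.ptf_b z k hk hQ
  · exact h.ptf_inv k _ hk hQ (h.ptf_b z k hk hQ)

theorem ptf_ovN (hk : PTU k) (hQ : PTU fun x => D.Q ^ k x) (o : Option (Ltr D)) (hv : PTF v) :
    PTF (fun x => ovN D (Un.mk (k x)) o (v x)) := by
  cases o with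
  | none => exact hv
  | some a => exact h.ptf_mul k _ _ hk hQ (ptf_lvN h hk hQ a) hv

theorem ptf_wvN (hk : PTU k) (hQ : PTU fun x => D.Q ^ k x) (w : W3 D) (hv : PTF v) :
    PTF (fun x => wvN D (Un.mk (k x)) w (v x)) :=
  ptf_ovN h hk hQ _ (ptf_ovN h hk hQ _ (ptf_ovN h hk hQ _ hv))

variable {kP kR : α → ℕ}

theorem ptf_mvN (hP : PTU kP) (hQP : PTU fun x => D.Q ^ kP x) (hR : PTU kR)
    (hQR : PTU fun x => D.Q ^ kR x) (g : G D) (hv : PTF v) :
    PTF (fun x => mvN D (kP x) (kR x) g (v x)) := by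
  unfold mvN pI
  exact PTF.natAdd (ptf_wvN h hR hQR _ (PTF.natMod hv hQR.toPTF))
    (PTF.natMul hQR.toPTF (ptf_wvN h hP hQP _ (PTF.natDiv hv hQR.toPTF)))

end ptf

end mv

/-! ### polynomial time of the walk -/

section walk
variable {D : Obj} {M0 : ℕ} {lam0 Kr : ℝ} (h : D.OK M0 lam0 Kr)
variable {γ : Type} [PTCode γ] {kP kR n : γ → ℕ} {CS CP C : γ → RawCirc}

theorem ptf_okI {N : γ → ℕ} {i : γ → Option (ℕ × OpN)} (hN : PTF N) (hi : PTF i) :
    PTF (fun c => okI (N c) (i c)) := by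
  have hN2 : PTF (fun p : (γ × (ℕ × OpN)) × (Cel × Cel) => N p.1.1) :=
    PTF.comp hN (PTF.comp PTF.fst PTF.fst)
  have hin : PTF₂ (fun (c : γ) (x : ℕ × OpN) => (Option.casesOn (motive := fun _ => Bool) x.2
      true (fun (y : Cel × Cel) => decide (y.1.1 < N c) && decide (y.2.1 < N c)) : Bool)) := by
    refine PTF.of_eq (PTF.optionCasesOn (s := fun p : γ × (ℕ × OpN) => p.2.2)
      (f := fun _ => true)
      (g := fun (p : γ × (ℕ × OpN)) (y : Cel × Cel) =>
        decide (y.1.1 < N p.1) && decide (y.2.1 < N p.1)) ?_ (PTF.const _) ?_) ?_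
    · exact PTF.comp PTF.snd PTF.snd
    · exact PTF.and (PTPred.natLt (by fun_prop) hN2).toPTF
        (PTPred.natLt (by fun_prop) hN2).toPTF
    · rintro ⟨c, l, y⟩
      cases y <;> rfl
  refine PTF.of_eq (PTF.optionCasesOn (f := fun _ : γ => true) hi (PTF.const _) hin) fun c => ?_
  rcases i c with _ | ⟨l, _ | y⟩ <;> rfl

theorem ptf_okS {N : γ → ℕ} {s : γ → Stp2} (hN : PTF N) (hs : PTF s) :
    PTF (fun c => okS (N c) (s c)) := by
  unfold okS
  exact PTF.and (PTPred.natLt (PTF.comp PTF.fst hs) hN).toPTF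
    (PTF.and (ptf_okI hN (PTF.comp PTF.fst (PTF.comp PTF.snd hs)))
      (ptf_okI hN (PTF.comp PTF.snd (PTF.comp PTF.snd hs))))

theorem ptf_san {N : γ → ℕ} {l : γ → List Stp2} (hN : PTF N) (hl : PTF l) :
    PTF (fun c => san (N c) (l c)) := by
  unfold san
  have h1 : PTF (fun c => (l c).all (okS (N c))) :=
    PTF.all hl (p := fun c s => okS (N c) s) (ptf_okS (PTF.comp hN PTF.fst) PTF.snd)
  refine PTF.ite (PTPred.of_ptf (PTF.of_eq h1 fun c => ?_)) hl (PTF.const [])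
  cases (l c).all (okS (N c)) <;> rfl

theorem ptf_sanN {N a : γ → ℕ} (hN : PTF N) (ha : PTF a) : PTF (fun c => sanN (N c) (a c)) := by
  unfold sanN
  exact PTF.ite (PTPred.natLt ha hN) ha (PTF.const 0)

theorem ptf_cmp (hC : PTF C) : PTF (fun c => cmp (C c)) :=
  EolNFPT328.ptf_compile (PTF.comp PTF.fst hC) (PTF.comp PTF.snd hC)

include h

theorem ptf_Wc (hP : PTU kP) (hQP : PTU fun x => D.Q ^ kP x) (hn : PTU n)
    {P : γ → List (ℕ × ℕ × ℕ) × List ℕ} (hPr : PTF P) :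
    PTF (fun c => Wc D (kP c) (n c) (P c)) :=
  RoutePT55.ptf_mkW (nb_nbC h hP hQP) hQP (ptu_lenG D kP hQP) (ptf_wdC h hP hQP)
    (ptf_hm h hP hQP)
    (LayPTF328.ptf_wires hn.toPTF (PTF.comp PTF.fst hPr) (PTF.comp PTF.snd hPr))

theorem ptf_wl (hP : PTU kP) (hQP : PTU fun x => D.Q ^ kP x) (hR : PTU kR)
    (hQR : PTU fun x => D.Q ^ kR x) (hn : PTU n) (hS : PTF CS) (hC : PTF CP) :
    PTF (fun c => wl D (kP c) (kR c) (n c) (CS c) (CP c)) := by
  have h1 := ptf_cmp hS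
  have h2 := ptf_cmp hC
  have hl : PTF (fun c => (cmp (CS c)).1.length) := (PTU.length (PTF.comp PTF.fst h1)).toPTF
  unfold wl LayLy338.wlk
  exact LayPTF328.ptf_both
    (LayPTF328.ptf_prog hQR.toPTF (ptf_hm h hR hQR) (ptf_hm h hP hQP) hn (PTF.comp PTF.fst h1)
      (ptf_Wc h hP hQP hn h1))
    (LayPTF328.ptf_retw hQR.toPTF (ptf_hm h hR hQR) (ptf_hm h hP hQP)
      (PTF.natAdd hn.toPTF hl))
    (LayPTF328.ptf_prog hQR.toPTF (ptf_hm h hR hQR) (ptf_hm h hP hQP) hn (PTF.comp PTF.fst h2)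
      (ptf_Wc h hP hQP hn h2))

theorem ptf_ho {i : γ → ℕ} (hP : PTU kP) (hQP : PTU fun x => D.Q ^ kP x) (hR : PTU kR)
    (hQR : PTU fun x => D.Q ^ kR x) (hi : PTF i) : PTF (fun c => ho D (kP c) (kR c) (i c)) :=
  LayPTF328.ptf_home hQR.toPTF (ptf_hm h hR hQR) (ptf_hm h hP hQP) hi

theorem ptf_la (hP : PTU kP) (hQP : PTU fun x => D.Q ^ kP x) (hR : PTU kR)
    (hQR : PTU fun x => D.Q ^ kR x) (hn : PTU n) (hC : PTF CP) :
    PTF (fun c => la D (kP c) (kR c) (n c) (CP c)) := by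
  have h2 := ptf_cmp hC
  have hl : PTF (fun c => (cmp (CP c)).1.length) := (PTU.length (PTF.comp PTF.fst h2)).toPTF
  unfold la LayLy338.lst
  exact LayPTF328.ptf_home hQR.toPTF (ptf_hm h hR hQR) (ptf_hm h hP hQP)
    (PTF.natSub (PTF.natAdd hn.toPTF hl) (PTF.const 1))

/-! ### the family -/

/-- **tables of the family of layouts** -/
theorem layPT_layL (hP : PTU kP) (hQP : PTU fun x => D.Q ^ kP x) (hR : PTU kR)
    (hQR : PTU fun x => D.Q ^ kR x) (hn : PTU n) (hS : PTF CS) (hC : PTF CP) :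
    Nonempty (PubC965.LayPT (fun c => D.P (kP c) × D.P (kR c))
      (fun c => D.Q ^ kP c * D.Q ^ kR c) (fun c => eΓ D (kP c) (kR c))
      (fun c => layL D (kP c) (kR c) (n c) (CS c) (CP c))) := by
  have hN : PTF (fun c => NΓ D (kP c) (kR c)) := PTF.natMul hQP.toPTF hQR.toPTF
  have hpos : ∀ c, 0 < NΓ D (kP c) (kR c) := fun c => Nat.mul_pos (Q_pos h _) (Q_pos h _)
  refine ToCL328.layPT (act := fun c => InsObj576.act D (kP c) (kR c)) (gs := gs D)
    (g0 := (id3 D, id3 D)) (ev := fun c => adr (D.ix (kP c)) (D.ix (kR c))) ?_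
    (nb := fun c i v => ((gs D).map fun g => mvN D (kP c) (kR c) g v).getD i 0) ?_ ?_
    (ptf_san hN (ptf_wl h hP hQP hR hQR hn hS hC)) (ptf_sanN hN (ptf_la h hP hQP hR hQR hn hC)) hn
    (al := fun c i => sanN (NΓ D (kP c) (kR c)) (ho D (kP c) (kR c) i)) ?_ ?_ ?_ ?_
  · intro c A hA
    rw [eΓ_num]
    exact num_adr (D.ix (kP c)) (D.ix (kR c)) hA
  · have key : ∀ (l : List (G D)), PTF (fun p : γ × ℕ × ℕ =>
        l.map fun g => mvN D (kP p.1) (kR p.1) g p.2.2) := by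
      intro l
      induction l with
      | nil => exact PTF.const []
      | cons g l ih =>
        exact PTF.listCons (ptf_mvN h (kP := fun p : γ × ℕ × ℕ => kP p.1)
          (kR := fun p : γ × ℕ × ℕ => kR p.1) (PTU.comp hP PTF.fst)
          (PTU.comp (n := fun x => D.Q ^ kP x) hQP PTF.fst) (PTU.comp hR PTF.fst)
          (PTU.comp (n := fun x => D.Q ^ kR x) hQR PTF.fst) g
          (v := fun p : γ × ℕ × ℕ => p.2.2) (by fun_prop)) ih
    exact Crest.Agent.R288.PtDp115.ptf_getB (key (gs D)) (by fun_prop) (PTF.const 0)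
  · intro c i hi x
    rw [List.getD_eq_getElem _ _ (by simpa using hi), List.getElem_map]
    exact mvN_eq h (kP c) (kR c) (gs D)[i] x
  · exact ptf_sanN (PTF.comp hN PTF.fst) (ptf_ho h (kP := fun p : γ × ℕ => kP p.1)
      (kR := fun p : γ × ℕ => kR p.1) (PTU.comp hP PTF.fst)
      (PTU.comp (n := fun x => D.Q ^ kP x) hQP PTF.fst) (PTU.comp hR PTF.fst)
      (PTU.comp (n := fun x => D.Q ^ kR x) hQR PTF.fst) PTF.snd)
  · exact fun c => san_in _ _
  · exact fun c => sanN_lt (hpos c) _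
  · exact fun c i _ => sanN_lt (hpos c) _

end walk

/-! ### End-of-Line instances -/

section eol
variable (D : Obj)

/-- **the layout of a coded End-of-Line instance** (name length = number of outputs of the first
circuit) -/
noncomputable def layE (kP kR : ℕ) (a : EI) : Layout (D.P kP × D.P kR) (G D) (Fin 28) 128 :=
  layL D kP kR a.2.1.2.length a.2.1 a.2.2

theorem layE_raw {kP kR : ℕ} {I : EOL} (hI : I.WF) :
    layE D kP kR (raw I) = layL D kP kR I.n (rawC I.S) (rawC I.P) := by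
  have h1 : (raw I).2.1.2.length = I.n := hI.2.1.1
  unfold layE
  rw [h1]
  rfl

/-- the form `Sol589.Real` -/
theorem real_of {Γ G' Λ : Type} {J : ℕ} [DecidableEq Γ] [DecidableEq Λ] {I : EOL}
    {act : G' → Equiv.Perm Γ} {out : Λ} {P : Layout Γ G' Λ J} (hn : P.n = I.n)
    (h1 : ∀ (v : Fin I.n → Bool) (i : Fin I.n), P.outp act out false
      (fun j => v (Fin.cast hn j)) (Fin.cast hn.symm i) = I.S.apply v i)
    (h2 : ∀ (v : Fin I.n → Bool) (i : Fin I.n), P.outp act out true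
      (fun j => v (Fin.cast hn j)) (Fin.cast hn.symm i) = I.P.apply v i) :
    Sol589.Real I act out P :=
  ⟨hn, fun v => funext fun i => h1 (Sol589.nam hn v) i,
    fun v => funext fun i => h2 (Sol589.nam hn v) i⟩

variable {D} {M0 : ℕ} {lam0 Kr : ℝ} (h : D.OK M0 lam0 Kr)
include h

/-- **tables of the layouts of End-of-Line instances** (levels are functions of the instance) -/
theorem layE_PT {kP kR : EI → ℕ} (hP : PTU kP) (hQP : PTU fun x => D.Q ^ kP x) (hR : PTU kR)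
    (hQR : PTU fun x => D.Q ^ kR x) :
    Nonempty (PubC965.LayPT (fun a : EI => D.P (kP a) × D.P (kR a))
      (fun a => D.Q ^ kP a * D.Q ^ kR a) (fun a => eΓ D (kP a) (kR a))
      (fun a => layE D (kP a) (kR a) a)) :=
  layPT_layL h hP hQP hR hQR (n := fun a : EI => a.2.1.2.length)
    (PTU.length (PTF.comp PTF.snd (PTF.comp PTF.fst PTF.snd)))
    (CS := fun a : EI => a.2.1) (CP := fun a : EI => a.2.2)
    (PTF.comp PTF.fst PTF.snd) (PTF.comp PTF.snd PTF.snd)

variable (hlam : lam0 ^ 2 ≤ 1 / 8) {kP kR : ℕ} {I : EOL} (hI : I.WF)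
  (hcell : 4 * I.encode.length ≤ D.Q ^ kP)
  (hcol : Route649.ncol (lenG D kP) (D.Q ^ kP) ≤ D.Q ^ kR)
include hlam hI hcell hcol

/-- **the layout of a well-formed instance is valid** -/
theorem layE_ok : (layE D kP kR (raw I)).OK (InsObj576.act D kP kR) (26 : Fin 28) := by
  have hb := Circ328.encode_bound_wf I hI
  rw [layE_raw D hI]
  exact layL_ok h hlam I.S I.P hI.2.1 hI.2.2.1 hI.1 (by omega) (by omega) hcol

/-- **the layout of a well-formed instance computes the two circuits** -/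
theorem layE_real : Sol589.Real I (InsObj576.act D kP kR) (26 : Fin 28)
    (layE D kP kR (raw I)) := by
  have hb := Circ328.encode_bound_wf I hI
  have h1 := outp_S h hlam I.S I.P hI.2.1 hI.2.2.1 hI.1 (by omega) (by omega) hcol
  have h2 := outp_P h hlam I.S I.P hI.2.1 hI.2.2.1 hI.1 (by omega) (by omega) hcol
  rw [layE_raw D hI]
  have h3 : (layL D kP kR I.n (rawC I.S) (rawC I.P)).n = I.n := rfl
  exact real_of h3 h1 h2

end eol

end Crest.Agent.R289.LayObj896
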