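import Crest.Agent.R289.Clock_311

/-!
# Row 289, leaf C_Clock, part 3 (helper311): the fibre walk WITHOUT the parity condition

`Mixes` on a product with a small cyclic factor (all shifts) and with a dummy index, so that ONE index
type `Fin (16 ^ 94) × ZMod p` serves the fibres of `p ^ (2 m)` and of `p ^ (2 m + 1)` elements.
-/

set_option autoImplicit false
set_option linter.unusedSectionVars false

namespace Crest.Agent.R289.Clock311

open Finset LCodeS152

/-- a dummy index changes nothing -/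
theorem Mixes.dummy {J A D : Type} [Fintype J] [Fintype A] [Fintype D] [Nonempty D]
    {σ : J → Equiv.Perm A} {lam : ℝ} (h : Mixes σ lam) :
    Mixes (fun j : J × D => σ j.1) lam := by
  intro F
  have hD : (0 : ℝ) < Fintype.card D := by exact_mod_cast Fintype.card_pos
  have e : ∀ r : A, (∑ j : J × D, F (σ j.1 r)) / (Fintype.card (J × D) : ℝ) =
      (∑ j : J, F (σ j r)) / (Fintype.card J : ℝ) := by
    intro r
    rw [Fintype.sum_prod_type]
    simp only [sum_const, card_univ, nsmul_eq_mul]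
    rw [← mul_sum, Fintype.card_prod, Nat.cast_mul, mul_comm (Fintype.card J : ℝ),
      mul_div_mul_left _ _ hD.ne']
  simp only [e]
  exact h F

/-- product with a cyclic factor, all shifts -/
theorem Mixes.cyclic {J A : Type} [Fintype J] [Fintype A] {q : ℕ} [NeZero q]
    {σ : J → Equiv.Perm A} {lam : ℝ} (h : Mixes σ lam) (h0 : 0 ≤ lam) :
    Mixes (fun j : J × ZMod q => Equiv.prodCongr (σ j.1) (Equiv.addLeft j.2)) lam := by
  intro F
  have hq : (0 : ℝ) < Fintype.card (ZMod q) := by exact_mod_cast Fintype.card_pos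
  set G : A → ℝ := fun a => (∑ c : ZMod q, F (a, c)) / (Fintype.card (ZMod q) : ℝ) with hG
  have e1 : ∀ r : A × ZMod q, (∑ j : J × ZMod q,
      F (Equiv.prodCongr (σ j.1) (Equiv.addLeft j.2) r)) / (Fintype.card (J × ZMod q) : ℝ) =
      (∑ j : J, G (σ j r.1)) / (Fintype.card J : ℝ) := by
    rintro ⟨a, c⟩
    rw [Fintype.sum_prod_type, Fintype.card_prod, Nat.cast_mul, mul_comm (Fintype.card J : ℝ),
      ← div_div]
    congr 1
    rw [sum_div]
    refine sum_congr rfl fun j _ => ?_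
    rw [hG]
    congr 1
    simp only [Equiv.prodCongr_apply, Prod.map_apply, Equiv.coe_addLeft]
    exact Equiv.sum_comp (Equiv.addRight c) (fun c => F (σ j a, c))
  have e2 : (∑ r : A × ZMod q, F r) / (Fintype.card (A × ZMod q) : ℝ) =
      (∑ a, G a) / (Fintype.card A : ℝ) := by
    rw [Fintype.sum_prod_type, Fintype.card_prod, Nat.cast_mul, mul_comm (Fintype.card A : ℝ),
      ← div_div]
    congr 1
    rw [sum_div]
  have e3 : ∑ a, G a ^ 2 ≤ (∑ r : A × ZMod q, F r ^ 2) / (Fintype.card (ZMod q) : ℝ) := by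
    rw [Fintype.sum_prod_type, sum_div]
    refine sum_le_sum fun a _ => ?_
    rw [hG]
    simp only
    rw [div_pow, sq (Fintype.card (ZMod q) : ℝ), ← div_div]
    refine div_le_div_of_nonneg_right ?_ hq.le
    rw [div_le_iff₀ hq]
    have h1 := sq_sum_le_card_mul_sum_sq (s := (univ : Finset (ZMod q))) (f := fun c => F (a, c))
    rw [card_univ] at h1
    linarith [h1, mul_comm (Fintype.card (ZMod q) : ℝ) (∑ c : ZMod q, F (a, c) ^ 2)]
  have h1 := h G
  calc ∑ r : A × ZMod q, ((∑ j : J × ZMod q,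
      F (Equiv.prodCongr (σ j.1) (Equiv.addLeft j.2) r)) / (Fintype.card (J × ZMod q) : ℝ) -
      (∑ r : A × ZMod q, F r) / (Fintype.card (A × ZMod q) : ℝ)) ^ 2
      = ∑ r : A × ZMod q, ((∑ j : J, G (σ j r.1)) / (Fintype.card J : ℝ) -
        (∑ a, G a) / (Fintype.card A : ℝ)) ^ 2 :=
        sum_congr rfl fun r _ => by rw [e1 r, e2]
    _ = (Fintype.card (ZMod q) : ℝ) * ∑ a, ((∑ j : J, G (σ j a)) / (Fintype.card J : ℝ) -
        (∑ a, G a) / (Fintype.card A : ℝ)) ^ 2 := by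
        rw [Fintype.sum_prod_type]
        simp only [sum_const, card_univ, nsmul_eq_mul]
        rw [← mul_sum]
    _ ≤ (Fintype.card (ZMod q) : ℝ) * (lam * ∑ a, G a ^ 2) :=
        mul_le_mul_of_nonneg_left h1 hq.le
    _ ≤ (Fintype.card (ZMod q) : ℝ) *
        (lam * ((∑ r : A × ZMod q, F r ^ 2) / (Fintype.card (ZMod q) : ℝ))) :=
        mul_le_mul_of_nonneg_left (mul_le_mul_of_nonneg_left e3 h0) hq.le
    _ = lam * ∑ r : A × ZMod q, F r ^ 2 := by
        field_simp

/-- the walk of length `t` -/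
theorem mixes_sigX {N : ℕ} [NeZero N] {t : ℕ} (ht : ((0.96 : ℝ) ^ 2) ^ t ≤ 1 / 2048) :
    Mixes (fun j : Fin (16 ^ t) => sigX (Equiv.refl (ZMod N)) t j) (1 / 2048) := by
  intro F
  have h := walkX (Equiv.refl (ZMod N)) t F
  have h2 : (0 : ℝ) ≤ ∑ x, F x ^ 2 := sum_nonneg fun _ _ => sq_nonneg _
  have h4 : (Fintype.card (Fin (16 ^ t)) : ℝ) = 16 ^ t := by
    rw [Fintype.card_fin]; norm_num
  rw [h4]
  exact h.trans (mul_le_mul_of_nonneg_right ht h2)

/-- the length `94` is enough -/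
theorem len94 : ((0.96 : ℝ) ^ 2) ^ 94 ≤ 1 / 2048 := by norm_num

/-- the walk on a fibre of `N ^ 2` elements, index type `Fin (16 ^ t) × ZMod q` -/
def walkE (t : ℕ) {A : Type} {N : ℕ} (q : ℕ) (e : A ≃ ZMod N × ZMod N)
    (j : Fin (16 ^ t) × ZMod q) : Equiv.Perm A :=
  (e.trans (sigX (Equiv.refl (ZMod N)) t j.1)).trans e.symm

/-- the walk on a fibre of `N ^ 2 * q` elements, index type `Fin (16 ^ t) × ZMod q` -/
def walkO (t : ℕ) {A : Type} {N : ℕ} (q : ℕ) (e : A ≃ (ZMod N × ZMod N) × ZMod q)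
    (j : Fin (16 ^ t) × ZMod q) : Equiv.Perm A :=
  (e.trans (Equiv.prodCongr (sigX (Equiv.refl (ZMod N)) t j.1) (Equiv.addLeft j.2))).trans e.symm

theorem mixes_walkE {t : ℕ} (ht : ((0.96 : ℝ) ^ 2) ^ t ≤ 1 / 2048) {A : Type} [Fintype A] {N : ℕ}
    [NeZero N] {q : ℕ} [NeZero q] (e : A ≃ ZMod N × ZMod N) :
    Mixes (walkE t q e) (1 / 2048) := by
  have h1 : Mixes (fun j : Fin (16 ^ t) => sigX (Equiv.refl (ZMod N)) t j) (1 / 2048) :=
    mixes_sigX ht
  have h2 := Mixes.congr h1 e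
  have h3 := Mixes.dummy (D := ZMod q) h2
  exact h3

theorem mixes_walkO {t : ℕ} (ht : ((0.96 : ℝ) ^ 2) ^ t ≤ 1 / 2048) {A : Type} [Fintype A] {N : ℕ}
    [NeZero N] {q : ℕ} [NeZero q] (e : A ≃ (ZMod N × ZMod N) × ZMod q) :
    Mixes (walkO t q e) (1 / 2048) := by
  have h1 : Mixes (fun j : Fin (16 ^ t) => sigX (Equiv.refl (ZMod N)) t j) (1 / 2048) :=
    mixes_sigX ht
  have h2 := Mixes.cyclic (q := q) h1 (by norm_num)
  have h3 := Mixes.congr h2 e
  exact h3

/-- **no parity condition**: every fibre of `q ^ a` elements has a mixing family with the ONE index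
type `Fin (16 ^ t) × ZMod q` (`t = 94`: `len94`) -/
theorem exists_walk_pow {t : ℕ} (ht : ((0.96 : ℝ) ^ 2) ^ t ≤ 1 / 2048) {A : Type} [Fintype A]
    {q : ℕ} [NeZero q] {a : ℕ} (hA : Fintype.card A = q ^ a) :
    ∃ σ : Fin (16 ^ t) × ZMod q → Equiv.Perm A, Mixes σ (1 / 2048) := by
  have : NeZero (q ^ (a / 2)) := ⟨pow_ne_zero _ (NeZero.ne q)⟩
  rcases Nat.even_or_odd a with ⟨m, hm⟩ | ⟨m, hm⟩
  · have hc : Fintype.card A = Fintype.card (ZMod (q ^ (a / 2)) × ZMod (q ^ (a / 2))) := by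
      rw [Fintype.card_prod, ZMod.card, hA, ← pow_add]
      congr 1
      omega
    exact ⟨_, mixes_walkE ht (Fintype.equivOfCardEq hc)⟩
  · have hc : Fintype.card A =
        Fintype.card ((ZMod (q ^ (a / 2)) × ZMod (q ^ (a / 2))) × ZMod q) := by
      rw [Fintype.card_prod, Fintype.card_prod, ZMod.card, ZMod.card, hA, ← pow_add, ← pow_succ]
      congr 1
      omega
    exact ⟨_, mixes_walkO ht (Fintype.equivOfCardEq hc)⟩

end Crest.Agent.R289.Clock311
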