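import Crest.Agent.R289.ClockPT_484
import Crest.Agent.R289.ClockWalk_311
import Crest.Agent.R289.Clock_425

/-!
# Row 289, block E: the concrete clock bijection and the tables of its slots (helper484)

`p` prime, `Un` any finite unit set numbered by `ix : Un ≃ Fin N`, `N = p ^ (3 m + c)`.

* `eU h ix : Un ≃ Clock311.U p m (Fin (p ^ c))` : the vectors `x, y, z` are the `3 m` HIGHEST base-`p`
  digits of the number, the rest is the number of the `c` lowest digits.
* `wkS t e` : the fibre walk (311's `walkE` / `walkO` by parity), index type `Fin (16 ^ t) × ZMod p`,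
  `mixes_wkS`.
* `cnbN p t m c s` : index functions of ALL neighbour slots of `Clock425.cnbr (eU h ix) (wkS ..)`,
  `cnbN_spec`, `ptf_cnbN`.
* reads: `wrdN` = index function of `Clock425.nbRd e φ`; shifts: `rotN`, `rotN'` = `nbRot e (finRotate m)`
  and its inverse; with `_spec` and PTF.
* `low_spec`: a number read from the low digits (`r % T`).
-/

set_option autoImplicit false
set_option linter.dupNamespace false
set_option linter.unusedSectionVars false

namespace Crest.Agent.R289.ClockPT484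

open Crest.Agent.Lib.PT Crest.Agent.R289.GkIdx594 Crest.Agent.R289.YIdx901
open Crest.Agent.R289.Clock311 (U R V walkE walkO Wadd Wsw Wmul Wrd Wone Wrot Wf tnb cnb)
open Crest.Agent.R289.LCodeS152 (Mixes)
open Crest.Agent.R289.Clock425 (cj sperm cnbr Slot nbRd nbRot)
open Crest.Agent.R289.Sampler56 (sig)

theorem qK_zmod (p : ℕ) [NeZero p] : qK (ZMod p) = p := by
  rw [qK_eq_card, Nat.card_zmod]

theorem qKm (p m : ℕ) [NeZero p] : qK (ZMod p) ^ m = p ^ m := by rw [qK_zmod]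

/-! ### the odd torus -/

section odd

open Crest.Agent.R289.Sampler56 (sigN cz sigN_lt cz_sigN ptf_sigN)

variable {S : Type} {M N q : ℕ} [NeZero N] [NeZero q]

/-- numbered set of `N ^ 2 * q` points -/
noncomputable def eO (h : M = N * N * q) (e : S ≃ Fin M) : S ≃ (ZMod N × ZMod N) × ZMod q :=
  (e.trans (finCongr h)).trans
    (finProdFinEquiv.symm.trans (Equiv.prodCongr (eZ N) (ZMod.finEquiv q).toEquiv))

theorem eO_val (h : M = N * N * q) (e : S ≃ Fin M) (s : S) :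
    eO h e s = (cz N (((e s : Fin _) : ℕ) / q / N, ((e s : Fin _) : ℕ) / q % N),
      ((((e s : Fin _) : ℕ) % q : ℕ) : ZMod q)) := by
  have h1 : ∀ i : Fin (N * N * q), finProdFinEquiv.symm i = (i.divNat, i.modNat) := fun _ => rfl
  simp only [eO, Equiv.trans_apply, h1, Equiv.prodCongr_apply, Prod.map]
  rw [Prod.mk.injEq]
  refine ⟨?_, ?_⟩
  · rw [eZ_val]
    simp [Fin.coe_divNat]
  · refine (finEquiv_nat _).trans ?_
    simp [Fin.coe_modNat]

/-- index function of a walk with cyclic part -/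
def wkO (N q t j i w : ℕ) : ℕ := pI q (wkI N t j (w / q)) ((i + w % q) % q)

theorem wkO_spec (h : M = N * N * q) (e : S ≃ Fin M) (t : ℕ) (j : Fin (16 ^ t) × ZMod q) (s : S) :
    wkO N q t j.1 j.2.val ((e s : Fin _) : ℕ) = ((e (walkO t q (eO h e) j s) : Fin _) : ℕ) := by
  have hN : 0 < N := Nat.pos_of_ne_zero (NeZero.ne N)
  have hq : 0 < q := Nat.pos_of_ne_zero (NeZero.ne q)
  set s' := walkO t q (eO h e) j s with hs'
  have h1 : eO h e s' = (sig N t j.1 (eO h e s).1, j.2 + (eO h e s).2) := by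
    rw [hs', walkO]
    simp only [Equiv.trans_apply, Equiv.apply_symm_apply, Equiv.prodCongr_apply, Prod.map,
      Equiv.coe_addLeft]
    rw [LCodeS152.sigX_apply]
    rfl
  have hb : ∀ r : S, ((e r : Fin _) : ℕ) / q / N < N := fun r => by
    rw [Nat.div_div_eq_div_mul]
    refine Nat.div_lt_of_lt_mul (lt_of_lt_of_eq (e r).2 (h.trans ?_))
    ring
  have hm : ∀ r : S, ((e r : Fin _) : ℕ) / q % N < N := fun r => Nat.mod_lt _ hN
  rw [eO_val, eO_val] at h1
  simp only at h1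
  rw [← cz_sigN hN t j.1 _ (hb s) (hm s), Prod.mk.injEq] at h1
  obtain ⟨h1, h5⟩ := h1
  obtain ⟨h2, h3⟩ := sigN_lt hN t j.1
    (((e s : Fin _) : ℕ) / q / N, ((e s : Fin _) : ℕ) / q % N) (hb s) (hm s)
  have h4 := cz_inj (hb s') (hm s') h2 h3 h1
  have h6 : ((e s' : Fin _) : ℕ) % q = (j.2.val + ((e s : Fin _) : ℕ) % q) % q := by
    have h7 := congrArg ZMod.val h5
    rw [ZMod.val_natCast, ZMod.val_add, ZMod.val_natCast, Nat.mod_mod, Nat.mod_mod] at h7
    exact h7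
  have h8 : wkI N t j.1 (((e s : Fin _) : ℕ) / q) = ((e s' : Fin _) : ℕ) / q := by
    unfold wkI
    rw [← h4]
    exact Nat.mod_add_div _ _
  unfold wkO pI
  rw [h8, ← h6]
  exact Nat.mod_add_div _ _

theorem wkE_spec (h : M = N * N) (e : S ≃ Fin M) (t : ℕ) (j : Fin (16 ^ t) × ZMod q) (s : S) :
    wkI N t j.1 ((e s : Fin _) : ℕ) = ((e (walkE t q (eW h e) j s) : Fin _) : ℕ) := by
  rw [wkI_spec h e t j.1 s, walkE]
  simp only [Equiv.trans_apply]
  rw [LCodeS152.sigX_apply]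
  rfl

end odd

/-! ### one walk for both parities -/

section walks

variable {S : Type} {p b : ℕ} [NeZero p]

theorem half_even {p b : ℕ} (h : b = b / 2 + b / 2) : p ^ b = p ^ (b / 2) * p ^ (b / 2) := by
  rw [← pow_add, ← h]

theorem half_odd {p b : ℕ} (h : ¬ b = b / 2 + b / 2) :
    p ^ b = p ^ (b / 2) * p ^ (b / 2) * p := by
  rw [← pow_add, ← pow_succ]
  congr 1
  omega

instance neZero_pow' (p k : ℕ) [NeZero p] : NeZero (p ^ k) := ⟨pow_ne_zero _ (NeZero.ne p)⟩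

/-- the fibre walk, for every exponent -/
noncomputable def wkS (t : ℕ) (e : S ≃ Fin (p ^ b)) : Fin (16 ^ t) × ZMod p → Equiv.Perm S :=
  if h : b = b / 2 + b / 2 then walkE t p (eW (half_even h) e) else walkO t p (eO (half_odd h) e)

theorem mixes_wkS [Fintype S] {t : ℕ} (ht : ((0.96 : ℝ) ^ 2) ^ t ≤ 1 / 2048) (e : S ≃ Fin (p ^ b)) :
    Mixes (wkS t e) (1 / 2048) := by
  unfold wkS
  split_ifs with h
  · exact Clock311.mixes_walkE ht _
  · exact Clock311.mixes_walkO ht _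

/-- its index function -/
def wkN (p b t j i w : ℕ) : ℕ :=
  if b = b / 2 + b / 2 then wkI (p ^ (b / 2)) t j w else wkO (p ^ (b / 2)) p t j i w

theorem wkN_spec (t : ℕ) (e : S ≃ Fin (p ^ b)) (j : Fin (16 ^ t) × ZMod p) (s : S) :
    wkN p b t j.1 j.2.val ((e s : Fin _) : ℕ) = ((e (wkS t e j s) : Fin _) : ℕ) := by
  unfold wkN wkS
  split_ifs with h
  · exact wkE_spec _ e t j s
  · exact wkO_spec _ e t j s

end walks

/-! ### the concrete bijection -/

section conc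

variable {p m c N : ℕ} [NeZero p] {Un : Type}

theorem card_eq (p m c : ℕ) [NeZero p] : p ^ (3 * m + c) =
    qK (ZMod p) ^ m * (qK (ZMod p) ^ m * (qK (ZMod p) ^ m * p ^ c)) := by
  rw [qK_zmod, ← pow_add, ← pow_add, ← pow_add]
  congr 1
  ring

theorem fib_eq (p m c : ℕ) [NeZero p] : qK (ZMod p) ^ m * (qK (ZMod p) ^ m * p ^ c) =
    p ^ (2 * m + c) := by
  rw [qK_zmod, ← pow_add, ← pow_add]
  congr 1
  ring

/-- **the concrete clock bijection** of a unit set of `p ^ (3 m + c)` numbered elements -/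
noncomputable def eU (h : N = p ^ (3 * m + c)) (ix : Un ≃ Fin N) : Un ≃ U p m (Fin (p ^ c)) :=
  recode (ZMod p) m (h.trans (card_eq p m c)) ix

/-- numbering of the fibre by `Fin (p ^ (2 m + c))` -/
noncomputable def eF (p m c : ℕ) [NeZero p] : R p m (Fin (p ^ c)) ≃ Fin (p ^ (2 * m + c)) :=
  (eS (ZMod p) m (Equiv.refl (Fin (p ^ c)))).trans (finCongr (fib_eq p m c))

/-- the fibre walk of the clock -/
noncomputable def sgC (p m c t : ℕ) [NeZero p] :
    Fin (16 ^ t) × ZMod p → Equiv.Perm (R p m (Fin (p ^ c))) := wkS t (eF p m c)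

theorem mixes_sgC {t : ℕ} (ht : ((0.96 : ℝ) ^ 2) ^ t ≤ 1 / 2048) :
    Mixes (sgC p m c t) (1 / 2048) := mixes_wkS ht _

/-- index function of a fibre step -/
def sgN (p m c t : ℕ) (j : Fin (16 ^ t) × ZMod p) (w : ℕ) : ℕ :=
  fbI (wkN p (2 * m + c) t j.1 j.2.val) (p ^ m) (p ^ c) w

/-- transfer: a function on numbers represents a permutation of the model -/
def Rep (p m c : ℕ) [NeZero p] (g : ℕ → ℕ) (π : U p m (Fin (p ^ c)) → U p m (Fin (p ^ c))) :
    Prop :=
  ∀ u, g ((eC (ZMod p) m (Equiv.refl (Fin (p ^ c))) u : Fin _) : ℕ) =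
    ((eC (ZMod p) m (Equiv.refl (Fin (p ^ c))) (π u) : Fin _) : ℕ)

theorem Rep.comp {g g' : ℕ → ℕ} {π π' : U p m (Fin (p ^ c)) → U p m (Fin (p ^ c))}
    (h : Rep p m c g π) (h' : Rep p m c g' π') : Rep p m c (fun w => g (g' w)) (fun u => π (π' u)) :=
  fun u => by
    change g (g' _) = _
    rw [h' u]
    exact h (π' u)

theorem Rep.trans {g g' : ℕ → ℕ} {π π' : Equiv.Perm (U p m (Fin (p ^ c)))}
    (h : Rep p m c g π) (h' : Rep p m c g' π') : Rep p m c (fun w => g' (g w)) (π.trans π') :=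
  h'.comp h

theorem Rep.unit {g : ℕ → ℕ} {π : Equiv.Perm (U p m (Fin (p ^ c)))} (hg : Rep p m c g π)
    (h : N = p ^ (3 * m + c)) (ix : Un ≃ Fin N) (u : Un) :
    g ((ix u : Fin _) : ℕ) = ((ix (cj (eU h ix) π u) : Fin _) : ℕ) :=
  mv_spec (ZMod p) m (h.trans (card_eq p m c)) ix π g hg u

theorem rep_id : Rep p m c (fun w => w) (Equiv.refl (U p m (Fin (p ^ c)))) := fun _ => rfl

theorem rep_sw : Rep p m c (swI (p ^ m) (p ^ c)) (Wsw : Equiv.Perm (U p m (Fin (p ^ c)))) := by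
  intro u
  have h := swI_spec (F := ZMod p) (m := m) (Equiv.refl (Fin (p ^ c))) u
  rw [← qKm p m]
  exact h

theorem rep_add : Rep p m c (smI (ZMod p) m (p ^ c))
    (Wadd : Equiv.Perm (U p m (Fin (p ^ c)))) := fun u =>
  smI_spec (F := ZMod p) (m := m) (Equiv.refl (Fin (p ^ c))) u

theorem rep_mul : Rep p m c (rdI (ZMod p) (fun x y _ => zipI (ZMod p) (· * ·) m x y) m (p ^ c))
    (Wmul : Equiv.Perm (U p m (Fin (p ^ c)))) := fun u =>
  rdI_spec (F := ZMod p) (m := m) (Equiv.refl (Fin (p ^ c))) (q := fun x y _ => x * y)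
    (fun x y _ => mul_spec x y) u

theorem rep_rd {Q : ℕ → ℕ} {φ : Fin (p ^ c) → V p m}
    (hQ : ∀ r : Fin (p ^ c), Q r = iV (ZMod p) m (φ r)) :
    Rep p m c (rdI (ZMod p) (fun _ _ r => Q r) m (p ^ c)) (Wrd φ) := fun u =>
  rdI_spec (F := ZMod p) (m := m) (Equiv.refl (Fin (p ^ c))) (q := fun _ _ r => φ r)
    (fun _ _ r => hQ r) u

theorem rep_rd0 : Rep p m c (rdI (ZMod p) (fun _ _ _ => tbI (ZMod p) (fun _ => 0) m) m (p ^ c))
    (Wrd (0 : Fin (p ^ c) → V p m)) :=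
  rep_rd (φ := 0) (Q := fun _ => tbI (ZMod p) (fun _ => 0) m) fun _ => tbI_spec _

theorem rep_one : Rep p m c
    (fsI (fun x => zipI (ZMod p) (· + ·) m (tbI (ZMod p) (fun _ => 1) m) x) (p ^ m) (p ^ c))
    (Wone : Equiv.Perm (U p m (Fin (p ^ c)))) := by
  intro u
  have h := fsI_spec (F := ZMod p) (m := m) (Equiv.refl (Fin (p ^ c)))
    (g := fun x => zipI (ZMod p) (· + ·) m (tbI (ZMod p) (fun _ => 1) m) x)
    (G := fun x => 1 + x) (fun x => by rw [tbI_spec, add_spec]; rfl) u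
  rw [← qKm p m]
  exact h

theorem rep_rot : Rep p m c (fsI (rtI' (ZMod p) m) (p ^ m) (p ^ c))
    (Wrot (finRotate m) : Equiv.Perm (U p m (Fin (p ^ c)))) := by
  intro u
  have h := fsI_spec (F := ZMod p) (m := m) (Equiv.refl (Fin (p ^ c)))
    (g := rtI' (ZMod p) m) (G := sh') (fun x => rtI'_spec x) u
  rw [← qKm p m]
  exact h

theorem rep_rot' : Rep p m c (fsI (rtI (ZMod p) m) (p ^ m) (p ^ c))
    (Wrot (finRotate m).symm : Equiv.Perm (U p m (Fin (p ^ c)))) := by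
  intro u
  have h := fsI_spec (F := ZMod p) (m := m) (Equiv.refl (Fin (p ^ c)))
    (g := rtI (ZMod p) m) (G := sh) (fun x => rtI_spec x) u
  rw [← qKm p m]
  exact h

theorem rep_f (t : ℕ) (j : Fin (16 ^ t) × ZMod p) :
    Rep p m c (sgN p m c t j) (Wf (sgC p m c t) j) := by
  intro u
  have h := fbI_spec (F := ZMod p) (m := m) (Equiv.refl (Fin (p ^ c)))
    (g := wkN p (2 * m + c) t j.1 j.2.val) (σ := sgC p m c t j) (fun s => wkN_spec t (eF p m c) j s) u
  change fbI _ (p ^ m) _ _ = _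
  rw [← qKm p m]
  exact h

/-! ### the slots -/

/-- index functions of the neighbour slots of the clock register -/
noncomputable def cnbN (p t m c : ℕ) [NeZero p] : Slot (Fin (16 ^ t) × ZMod p) → ℕ → ℕ
  | .inl (.inl 0) => fun w => w
  | .inl (.inl 1) => swI (p ^ m) (p ^ c)
  | .inl (.inl 2) => smI (ZMod p) m (p ^ c)
  | .inl (.inl 3) => rdI (ZMod p) (fun x y _ => zipI (ZMod p) (· * ·) m x y) m (p ^ c)
  | .inl (.inl 4) => rdI (ZMod p) (fun _ _ _ => tbI (ZMod p) (fun _ => 0) m) m (p ^ c)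
  | .inl (.inl 5) =>
      fsI (fun x => zipI (ZMod p) (· + ·) m (tbI (ZMod p) (fun _ => 1) m) x) (p ^ m) (p ^ c)
  | .inl (.inr j) => sgN p m c t j
  | .inr (false, i) => fun w => sgN p m c t i.2 (smI (ZMod p) m (p ^ c) (sgN p m c t i.1 w))
  | .inr (true, i) => fun w => sgN p m c t i.2 (swI (p ^ m) (p ^ c) (sgN p m c t i.1 w))

theorem rep_cnb [Fact p.Prime] (t : ℕ) (s : Slot (Fin (16 ^ t) × ZMod p)) :
    Rep p m c (cnbN p t m c s) (sperm (sgC p m c t) s) := by
  rcases s with (i | j) | ⟨b, i⟩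
  · fin_cases i
    · exact rep_id
    · exact rep_sw
    · exact rep_add
    · exact rep_mul
    · exact rep_rd0
    · exact rep_one
  · exact rep_f t j
  · cases b
    · exact (rep_f t i.1).trans (rep_add.trans (rep_f t i.2))
    · exact (rep_f t i.1).trans (rep_sw.trans (rep_f t i.2))

/-- **the neighbour tables of the clock register** -/
theorem cnbN_spec [Fact p.Prime] (t : ℕ) (h : N = p ^ (3 * m + c)) (ix : Un ≃ Fin N)
    (s : Slot (Fin (16 ^ t) × ZMod p)) (u : Un) :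
    cnbN p t m c s ((ix u : Fin _) : ℕ) =
      ((ix (cnbr (eU h ix) (sgC p m c t) s u) : Fin _) : ℕ) :=
  (rep_cnb t s).unit h ix u

/-- reads of public functions -/
theorem nbRd_spec (h : N = p ^ (3 * m + c)) (ix : Un ≃ Fin N) {Q : ℕ → ℕ}
    {φ : Fin (p ^ c) → V p m} (hQ : ∀ r : Fin (p ^ c), Q r = iV (ZMod p) m (φ r)) (u : Un) :
    rdI (ZMod p) (fun _ _ r => Q r) m (p ^ c) ((ix u : Fin _) : ℕ) =
      ((ix (nbRd (eU h ix) φ u) : Fin _) : ℕ) :=
  (rep_rd hQ).unit h ix u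

/-- shift -/
theorem nbRot_spec (h : N = p ^ (3 * m + c)) (ix : Un ≃ Fin N) (u : Un) :
    fsI (rtI' (ZMod p) m) (p ^ m) (p ^ c) ((ix u : Fin _) : ℕ) =
      ((ix (nbRot (eU h ix) (finRotate m) u) : Fin _) : ℕ) :=
  rep_rot.unit h ix u

/-- inverse shift -/
theorem nbRot'_spec (h : N = p ^ (3 * m + c)) (ix : Un ≃ Fin N) (u : Un) :
    fsI (rtI (ZMod p) m) (p ^ m) (p ^ c) ((ix u : Fin _) : ℕ) =
      ((ix (nbRot (eU h ix) (finRotate m).symm u) : Fin _) : ℕ) :=
  rep_rot'.unit h ix u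

/-- the last coordinate of a unit is the low part of its number -/
theorem last_spec (h : N = p ^ (3 * m + c)) (ix : Un ≃ Fin N) (u : Un) :
    ((eU h ix u).2.2.2 : ℕ) = ((ix u : Fin _) : ℕ) % p ^ c := by
  have h1 := (coords (ZMod p) m (h.trans (card_eq p m c)) ix u).2.2.2
  refine h1.symm.trans ?_
  unfold cR
  rw [Nat.mod_mod_of_dvd _ (Dvd.intro_left _ rfl), Nat.mod_mod_of_dvd]
  exact ⟨qK (ZMod p) ^ m * qK (ZMod p) ^ m, by ring⟩

/-- what the low digits of the number say is a function of the last coordinate -/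
theorem low_spec {T : ℕ} (hT : T ∣ p ^ c) (h : N = p ^ (3 * m + c)) (ix : Un ≃ Fin N) (u : Un) :
    ((eU h ix u).2.2.2 : ℕ) % T = ((ix u : Fin _) : ℕ) % T := by
  rw [last_spec, Nat.mod_mod_of_dvd _ hT]

end conc

/-! ### polynomial time -/

/-- a code of `ZMod p` (take it with `letI`; the theorems below hold for every code) -/
@[reducible] def ptcZ (p : ℕ) [NeZero p] : PTCode (ZMod p) :=
  PTCode.ofInj ZMod.val (ZMod.val_injective p)

section ptf

variable {p : ℕ} [NeZero p] [PTCode (ZMod p)] {α : Type} [PTCode α]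

theorem ptf_wkN (t j i : ℕ) {b w : α → ℕ} (hb : PTU b) (hw : PTF w) :
    PTF (fun a => wkN p (b a) t j i (w a)) := by
  have h2 : PTU (fun a => b a / 2) := by
    refine PTU.of_eq (PTF.natMinUn (PTF.natDiv hb.toPTF (PTF.const 2)) hb) fun a => ?_
    exact min_eq_left (Nat.div_le_self _ _)
  have hN : PTF (fun a => p ^ (b a / 2)) := PTF.natPow (PTF.const _) h2
  have hd : PTPred (fun a => b a = b a / 2 + b a / 2) := PTU.eq hb (PTU.add h2 h2)
  refine PTF.ite hd (ptf_wkI t hN (PTF.const j) hw) ?_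
  exact ptf_pI (PTF.const _) (ptf_wkI t hN (PTF.const j) (PTF.natDiv hw (PTF.const _)))
    (PTF.natMod (PTF.natAdd (PTF.const _) (PTF.natMod hw (PTF.const _))) (PTF.const _))

theorem ptf_sgN (t : ℕ) (j : Fin (16 ^ t) × ZMod p) {m c w : α → ℕ} (hm : PTU m) (hc : PTU c)
    (hw : PTF w) : PTF (fun a => sgN p (m a) (c a) t j (w a)) := by
  have hn : PTF (fun a => p ^ m a) := PTF.natPow (PTF.const _) hm
  have hr : PTF (fun a => p ^ c a) := PTF.natPow (PTF.const _) hc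
  have hb : PTU (fun a => 2 * m a + c a) := PTU.add (PTU.mul (PTU.const 2) hm) hc
  refine ptf_fbI hn hr hw ?_
  exact ptf_wkN t _ _ (PTU.comp hb PTF.fst) PTF.snd

theorem ptf_low {c w : α → ℕ} (hc : PTU c) (hw : PTF w) : PTF (fun a => w a % p ^ c a) :=
  PTF.natMod hw (PTF.natPow (PTF.const _) hc)

/-- PTF of the adding map -/
theorem ptf_addN {m c w : α → ℕ} (hm : PTU m) (hc : PTU c) (hw : PTF w) :
    PTF (fun a => smI (ZMod p) (m a) (p ^ c a) (w a)) :=
  ptf_smI hm (PTF.natPow (PTF.const _) hc) hw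

/-- PTF of the swap -/
theorem ptf_swN {m c w : α → ℕ} (hm : PTU m) (hc : PTU c) (hw : PTF w) :
    PTF (fun a => swI (p ^ m a) (p ^ c a) (w a)) :=
  ptf_swI (PTF.natPow (PTF.const _) hm) (PTF.natPow (PTF.const _) hc) hw

/-- PTF of a read -/
theorem ptf_rdN {m c w : α → ℕ} {Q : α → ℕ → ℕ} (hm : PTU m) (hc : PTU c) (hw : PTF w)
    (hQ : PTF₂ Q) : PTF (fun a => rdI (ZMod p) (fun _ _ r => Q a r) (m a) (p ^ c a) (w a)) := by
  have hr : PTF (fun a => p ^ c a) := PTF.natPow (PTF.const _) hc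
  refine ptf_rdI (Q := fun a _ _ r => Q a r) hm hr hw ?_
  exact PTF.comp₂ hQ PTF.id (ptf_cR (ptf_pw (ZMod p) hm) hr hw)

/-- PTF of the shifts -/
theorem ptf_rotN {m c w : α → ℕ} (hm : PTU m) (hc : PTU c) (hw : PTF w) :
    PTF (fun a => fsI (rtI' (ZMod p) (m a)) (p ^ m a) (p ^ c a) (w a)) := by
  have hn : PTF (fun a => p ^ m a) := PTF.natPow (PTF.const _) hm
  have hr : PTF (fun a => p ^ c a) := PTF.natPow (PTF.const _) hc
  exact ptf_fsI (g := fun a => rtI' (ZMod p) (m a)) hn hr hw (ptf_rtI' hm (ptf_cX hn hr hw))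

theorem ptf_rotN' {m c w : α → ℕ} (hm : PTU m) (hc : PTU c) (hw : PTF w) :
    PTF (fun a => fsI (rtI (ZMod p) (m a)) (p ^ m a) (p ^ c a) (w a)) := by
  have hn : PTF (fun a => p ^ m a) := PTF.natPow (PTF.const _) hm
  have hr : PTF (fun a => p ^ c a) := PTF.natPow (PTF.const _) hc
  exact ptf_fsI (g := fun a => rtI (ZMod p) (m a)) hn hr hw (ptf_rtI hm (ptf_cX hn hr hw))

/-- **PTF of the neighbour tables of the clock** -/
theorem ptf_cnbN (t : ℕ) (s : Slot (Fin (16 ^ t) × ZMod p)) {m c w : α → ℕ} (hm : PTU m)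
    (hc : PTU c) (hw : PTF w) : PTF (fun a => cnbN p t (m a) (c a) s (w a)) := by
  have hn : PTF (fun a => p ^ m a) := PTF.natPow (PTF.const _) hm
  have hr : PTF (fun a => p ^ c a) := PTF.natPow (PTF.const _) hc
  rcases s with (i | j) | ⟨b, i⟩
  · fin_cases i
    · exact hw
    · exact ptf_swN hm hc hw
    · exact ptf_addN hm hc hw
    · refine ptf_rdI (Q := fun a x y _ => zipI (ZMod p) (· * ·) (m a) x y) hm hr hw ?_
      exact ptf_zipI _ hm (ptf_cX (ptf_pw (ZMod p) hm) hr hw) (ptf_cY (ptf_pw (ZMod p) hm) hr hw)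
    · exact ptf_rdN (Q := fun a _ => tbI (ZMod p) (fun _ => 0) (m a)) hm hc hw
        (ptf_tbI (PTU.comp hm PTF.fst) (PTF.const _))
    · exact ptf_fsI
        (g := fun a x => zipI (ZMod p) (· + ·) (m a) (tbI (ZMod p) (fun _ => 1) (m a)) x)
        hn hr hw (ptf_zipI _ hm (ptf_tbI hm (PTF.const _)) (ptf_cX hn hr hw))
  · exact ptf_sgN t j hm hc hw
  · cases b
    · exact ptf_sgN t i.2 hm hc (ptf_addN hm hc (ptf_sgN t i.1 hm hc hw))
    · exact ptf_sgN t i.2 hm hc (ptf_swN hm hc (ptf_sgN t i.1 hm hc hw))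

end ptf

end Crest.Agent.R289.ClockPT484
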