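import Crest.Agent.R289.ClockE_698
import Crest.Agent.R289.ClockPT2_484

/-!
# Row 289, block E: tables of all clock slots on the units of `ClockE_698` (helper484)

`ClockE698`: units `(P × R) × T`, numbering `ixU s iP iR iT`, clock coordinates `eU`, slots `nbU`.

* `slotN p m ρ N c i` : index function of the slot `i` (absolute function of the numbers `m = L + 1`,
  `ρ = s.rho`, `N = s.N`, `c = s.c`), `slotN_spec`, `ptf_slotN` (m unary, the rest PTF);
* `rhoN`, `sideN`, `facN` : the three numbers from the exponents `a b t` and `n`; PTF;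
* reads `nbRd (eU ..) φ` : `read_spec`; shifts: `rot_spec`, `rot'_spec`;
* `Rp m ρ g π` : `g` is the index function of the model map `π`; `Rp.unit`.
-/

set_option autoImplicit false
set_option linter.dupNamespace false
set_option linter.unusedSectionVars false

namespace Crest.Agent.R289.ClockPT484

open Crest.Agent.Lib.PT Crest.Agent.R289.GkIdx594 Crest.Agent.R289.YIdx901
open Crest.Agent.R289.Clock311 (U R V Wadd Wsw Wmul Wrd Wone Wrot Wf)
open Crest.Agent.R289.Clock425 (cj sperm cnbr Slot nbRd nbRot)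
open Crest.Agent.R289.ClockU698 (SJ walkN)
open Crest.Agent.R289.ClockE698 (Siz ixU sg nbU wf_val)

section rp

variable {p : ℕ} [NeZero p] {m ρ : ℕ}

/-- `g` represents the map `π` of the model on numbers -/
def Rp (m ρ : ℕ) (g : ℕ → ℕ) (π : U p m (Fin ρ) → U p m (Fin ρ)) : Prop :=
  ∀ u, g ((eC (ZMod p) m (Equiv.refl (Fin ρ)) u : Fin _) : ℕ) =
    ((eC (ZMod p) m (Equiv.refl (Fin ρ)) (π u) : Fin _) : ℕ)

theorem Rp.trans {g g' : ℕ → ℕ} {π π' : Equiv.Perm (U p m (Fin ρ))}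
    (h : Rp m ρ g π) (h' : Rp m ρ g' π') : Rp m ρ (fun w => g' (g w)) (π.trans π') := by
  intro u
  change g' (g _) = _
  rw [h u]
  exact h' (π u)

theorem Rp.conj {N : ℕ} {Un : Type} {g : ℕ → ℕ} {π : Equiv.Perm (U p m (Fin ρ))}
    (hg : Rp m ρ g π) (h : N = qK (ZMod p) ^ m * (qK (ZMod p) ^ m * (qK (ZMod p) ^ m * ρ)))
    (ix : Un ≃ Fin N) (u : Un) :
    g ((ix u : Fin _) : ℕ) = ((ix (cj (recode (ZMod p) m h ix) π u) : Fin _) : ℕ) :=
  mv_spec (ZMod p) m h ix π g hg u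

theorem rp_id : Rp m ρ (fun w => w) (Equiv.refl (U p m (Fin ρ))) := fun _ => rfl

theorem rp_sw : Rp m ρ (swI (p ^ m) ρ) (Wsw : Equiv.Perm (U p m (Fin ρ))) := by
  intro u
  have h := swI_spec (F := ZMod p) (m := m) (Equiv.refl (Fin ρ)) u
  rw [← qKm p m]
  exact h

theorem rp_add : Rp m ρ (smI (ZMod p) m ρ) (Wadd : Equiv.Perm (U p m (Fin ρ))) := fun u =>
  smI_spec (F := ZMod p) (m := m) (Equiv.refl (Fin ρ)) u

theorem rp_mul : Rp m ρ (rdI (ZMod p) (fun x y _ => zipI (ZMod p) (· * ·) m x y) m ρ)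
    (Wmul : Equiv.Perm (U p m (Fin ρ))) := fun u =>
  rdI_spec (F := ZMod p) (m := m) (Equiv.refl (Fin ρ)) (q := fun x y _ => x * y)
    (fun x y _ => mul_spec x y) u

theorem rp_rd {Q : ℕ → ℕ} {φ : Fin ρ → V p m} (hQ : ∀ r : Fin ρ, Q r = iV (ZMod p) m (φ r)) :
    Rp m ρ (rdI (ZMod p) (fun _ _ r => Q r) m ρ) (Wrd φ) := fun u =>
  rdI_spec (F := ZMod p) (m := m) (Equiv.refl (Fin ρ)) (q := fun _ _ r => φ r)
    (fun _ _ r => hQ r) u

theorem rp_rd0 : Rp m ρ (rdI (ZMod p) (fun _ _ _ => tbI (ZMod p) (fun _ => 0) m) m ρ)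
    (Wrd (0 : Fin ρ → V p m)) :=
  rp_rd (φ := 0) (Q := fun _ => tbI (ZMod p) (fun _ => 0) m) fun _ => tbI_spec _

theorem rp_one : Rp m ρ
    (fsI (fun x => zipI (ZMod p) (· + ·) m (tbI (ZMod p) (fun _ => 1) m) x) (p ^ m) ρ)
    (Wone : Equiv.Perm (U p m (Fin ρ))) := by
  intro u
  have h := fsI_spec (F := ZMod p) (m := m) (Equiv.refl (Fin ρ))
    (g := fun x => zipI (ZMod p) (· + ·) m (tbI (ZMod p) (fun _ => 1) m) x)
    (G := fun x => 1 + x) (fun x => by rw [tbI_spec, add_spec]; rfl) u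
  rw [← qKm p m]
  exact h

/-- rotation by one -/
theorem rp_rot : Rp m ρ (fsI (rtI' (ZMod p) m) (p ^ m) ρ)
    (Wrot (finRotate m) : Equiv.Perm (U p m (Fin ρ))) := by
  intro u
  have h := fsI_spec (F := ZMod p) (m := m) (Equiv.refl (Fin ρ))
    (g := rtI' (ZMod p) m) (G := sh') (fun x => rtI'_spec x) u
  rw [← qKm p m]
  exact h

/-- inverse rotation -/
theorem rp_rot' : Rp m ρ (fsI (rtI (ZMod p) m) (p ^ m) ρ)
    (Wrot (finRotate m).symm : Equiv.Perm (U p m (Fin ρ))) := by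
  intro u
  have h := fsI_spec (F := ZMod p) (m := m) (Equiv.refl (Fin ρ))
    (g := rtI (ZMod p) m) (G := sh) (fun x => rtI_spec x) u
  rw [← qKm p m]
  exact h

/-- the shift as `i ↦ i + 1` -/
theorem finRotate_eq (n : ℕ) : (finRotate (n + 1) : Equiv.Perm (Fin (n + 1))) =
    Equiv.addRight (1 : Fin (n + 1)) := by
  ext i
  simp

end rp

/-! ### the slots -/

section slots

/-- index functions of all neighbour slots -/
noncomputable def slotN (p : ℕ) [NeZero p] (m ρ N c : ℕ) : Slot (SJ p) → ℕ → ℕ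
  | .inl (.inl 0) => fun w => w
  | .inl (.inl 1) => swI (p ^ m) ρ
  | .inl (.inl 2) => smI (ZMod p) m ρ
  | .inl (.inl 3) => rdI (ZMod p) (fun x y _ => zipI (ZMod p) (· * ·) m x y) m ρ
  | .inl (.inl 4) => rdI (ZMod p) (fun _ _ _ => tbI (ZMod p) (fun _ => 0) m) m ρ
  | .inl (.inl 5) =>
      fsI (fun x => zipI (ZMod p) (· + ·) m (tbI (ZMod p) (fun _ => 1) m) x) (p ^ m) ρ
  | .inl (.inr j) => fbI (walkN N c j.1 j.2) (p ^ m) ρ
  | .inr (false, i) => fun w => fbI (walkN N c i.2.1 i.2.2) (p ^ m) ρ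
      (smI (ZMod p) m ρ (fbI (walkN N c i.1.1 i.1.2) (p ^ m) ρ w))
  | .inr (true, i) => fun w => fbI (walkN N c i.2.1 i.2.2) (p ^ m) ρ
      (swI (p ^ m) ρ (fbI (walkN N c i.1.1 i.1.2) (p ^ m) ρ w))

variable {p n : ℕ} [Fact p.Prime] (s : Siz p n)

theorem rp_f (q : SJ p) :
    Rp n s.rho (fbI (walkN s.N s.c q.1 q.2) (p ^ n) s.rho) (Wf (sg s) q) := by
  intro u
  have h := wf_val s q u
  rw [← qKm p n]
  exact h

theorem rp_slot (i : Slot (SJ p)) :
    Rp n s.rho (slotN p n s.rho s.N s.c i) (sperm (sg s) i) := by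
  rcases i with (i | j) | ⟨b, i⟩
  · fin_cases i
    · exact rp_id
    · exact rp_sw
    · exact rp_add
    · exact rp_mul
    · exact rp_rd0
    · exact rp_one
  · exact rp_f s j
  · cases b
    · exact (rp_f s i.1).trans (rp_add.trans (rp_f s i.2))
    · exact (rp_f s i.1).trans (rp_sw.trans (rp_f s i.2))

variable {P R T : Type} (iP : P ≃ Fin s.nP) (iR : R ≃ Fin s.nR) (iT : T ≃ Fin s.nT)

/-- transport of a model map to the units -/
theorem Rp.unit {g : ℕ → ℕ} {π : Equiv.Perm (U p n (Fin s.rho))} (hg : Rp n s.rho g π)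
    (u : (P × R) × T) :
    g ((ixU s iP iR iT u : Fin _) : ℕ) =
      ((ixU s iP iR iT (cj (ClockE698.eU s iP iR iT) π u) : Fin _) : ℕ) :=
  hg.conj s.nU_eq (ixU s iP iR iT) u

/-- **tables of the clock slots** -/
theorem slotN_spec [Fintype P] [Fintype R] [Fintype T] (i : Slot (SJ p)) (u : (P × R) × T) :
    slotN p n s.rho s.N s.c i ((ixU s iP iR iT u : Fin _) : ℕ) =
      ((ixU s iP iR iT (nbU s iP iR iT i u) : Fin _) : ℕ) :=
  (rp_slot s i).unit s iP iR iT u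

/-- reads -/
theorem read_spec {Q : ℕ → ℕ} {φ : Fin s.rho → V p n}
    (hQ : ∀ r : Fin s.rho, Q r = iV (ZMod p) n (φ r)) (u : (P × R) × T) :
    rdI (ZMod p) (fun _ _ r => Q r) n s.rho ((ixU s iP iR iT u : Fin _) : ℕ) =
      ((ixU s iP iR iT (nbRd (ClockE698.eU s iP iR iT) φ u) : Fin _) : ℕ) :=
  (rp_rd hQ).unit s iP iR iT u

theorem rot_spec (u : (P × R) × T) :
    fsI (rtI' (ZMod p) n) (p ^ n) s.rho ((ixU s iP iR iT u : Fin _) : ℕ) =
      ((ixU s iP iR iT (nbRot (ClockE698.eU s iP iR iT) (finRotate n) u) : Fin _) : ℕ) :=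
  rp_rot.unit s iP iR iT u

theorem rot'_spec (u : (P × R) × T) :
    fsI (rtI (ZMod p) n) (p ^ n) s.rho ((ixU s iP iR iT u : Fin _) : ℕ) =
      ((ixU s iP iR iT (nbRot (ClockE698.eU s iP iR iT) (finRotate n).symm u) : Fin _) : ℕ) :=
  rp_rot'.unit s iP iR iT u

end slots

/-! ### the numbers -/

/-- `s.rho` from the exponents -/
def rhoN (p n a b t : ℕ) : ℕ := p ^ (a - 3 * n) * p ^ b * p ^ t
/-- `s.N` from the exponents -/
def sideN (p n a b t : ℕ) : ℕ := p ^ ((a - n + b + t) / 2)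
/-- `s.c` from the exponents -/
def facN (p n a b t : ℕ) : ℕ := p ^ ((a - n + b + t) % 2)

theorem rho_eq {p n : ℕ} (s : Siz p n) : s.rho = rhoN p n s.a s.b s.t := by
  rw [Siz.rho, rhoN, s.hR, s.hT]

theorem side_eq {p n : ℕ} (s : Siz p n) : s.N = sideN p n s.a s.b s.t := rfl

theorem fac_eq {p n : ℕ} (s : Siz p n) : s.c = facN p n s.a s.b s.t := rfl

/-! ### polynomial time -/

section ptf

variable {α : Type} [PTCode α]

theorem ptu_half {b : α → ℕ} (hb : PTU b) : PTU (fun a => b a / 2) := by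
  refine PTU.of_eq (PTF.natMinUn (PTF.natDiv hb.toPTF (PTF.const 2)) hb) fun a => ?_
  exact min_eq_left (Nat.div_le_self _ _)

theorem ptu_mod2 {b : α → ℕ} (hb : PTU b) : PTU (fun a => b a % 2) := by
  refine PTU.of_eq (PTF.natMinUn (PTF.natMod hb.toPTF (PTF.const 2)) hb) fun a => ?_
  exact min_eq_left (Nat.mod_le _ _)

theorem ptf_rhoN (p : ℕ) {n a b t : α → ℕ} (hn : PTU n) (ha : PTU a) (hb : PTU b) (ht : PTU t) :
    PTF (fun x => rhoN p (n x) (a x) (b x) (t x)) :=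
  PTF.natMul (PTF.natMul (PTF.natPow (PTF.const _) (PTU.sub ha (PTU.mul (PTU.const 3) hn)))
    (PTF.natPow (PTF.const _) hb)) (PTF.natPow (PTF.const _) ht)

theorem ptf_sideN (p : ℕ) {n a b t : α → ℕ} (hn : PTU n) (ha : PTU a) (hb : PTU b)
    (ht : PTU t) : PTF (fun x => sideN p (n x) (a x) (b x) (t x)) :=
  PTF.natPow (PTF.const _) (ptu_half (PTU.add (PTU.add (PTU.sub ha hn) hb) ht))

theorem ptf_facN (p : ℕ) {n a b t : α → ℕ} (hn : PTU n) (ha : PTU a) (hb : PTU b)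
    (ht : PTU t) : PTF (fun x => facN p (n x) (a x) (b x) (t x)) :=
  PTF.natPow (PTF.const _) (ptu_mod2 (PTU.add (PTU.add (PTU.sub ha hn) hb) ht))

variable {p : ℕ} [NeZero p] [PTCode (ZMod p)]

theorem ptf_walkN {N c w : α → ℕ} (j i : ℕ) (hN : PTF N) (hc : PTF c) (hw : PTF w) :
    PTF (fun a => walkN (N a) (c a) j i (w a)) := by
  have h1 : PTF (fun a => w a / c a) := PTF.natDiv hw hc
  have h := Crest.Agent.R289.Sampler56.ptf_sigN 94 hN (PTF.const j)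
    (PTF.prodMk (PTF.natDiv h1 hN) (PTF.natMod h1 hN))
  exact ptf_pI hc (ptf_pI hN (PTF.comp PTF.fst h) (PTF.comp PTF.snd h))
    (PTF.natMod (PTF.natAdd (PTF.natMod hw hc) (PTF.const i)) hc)

theorem ptf_fbw {m ρ N c w : α → ℕ} (j i : ℕ) (hm : PTU m) (hρ : PTF ρ) (hN : PTF N)
    (hc : PTF c) (hw : PTF w) :
    PTF (fun a => fbI (walkN (N a) (c a) j i) (p ^ m a) (ρ a) (w a)) :=
  ptf_fbI (g := fun a => walkN (N a) (c a) j i) (PTF.natPow (PTF.const _) hm) hρ hw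
    (ptf_walkN j i (PTF.comp hN PTF.fst) (PTF.comp hc PTF.fst) PTF.snd)

/-- **PTF of the clock tables**, each slot fixed -/
theorem ptf_slotN (i : Slot (SJ p)) {m ρ N c w : α → ℕ} (hm : PTU m) (hρ : PTF ρ) (hN : PTF N)
    (hc : PTF c) (hw : PTF w) : PTF (fun a => slotN p (m a) (ρ a) (N a) (c a) i (w a)) := by
  have hn : PTF (fun a => p ^ m a) := PTF.natPow (PTF.const _) hm
  have hq := ptf_pw (ZMod p) hm
  rcases i with (i | j) | ⟨b, i⟩
  · fin_cases i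
    · exact hw
    · exact ptf_swI hn hρ hw
    · exact ptf_smI hm hρ hw
    · refine ptf_rdI (Q := fun a x y _ => zipI (ZMod p) (· * ·) (m a) x y) hm hρ hw ?_
      exact ptf_zipI _ hm (ptf_cX hq hρ hw) (ptf_cY hq hρ hw)
    · exact ptf_rdI (Q := fun a _ _ _ => tbI (ZMod p) (fun _ => 0) (m a)) hm hρ hw
        (ptf_tbI hm (PTF.const _))
    · exact ptf_fsI
        (g := fun a x => zipI (ZMod p) (· + ·) (m a) (tbI (ZMod p) (fun _ => 1) (m a)) x)
        hn hρ hw (ptf_zipI _ hm (ptf_tbI hm (PTF.const _)) (ptf_cX hn hρ hw))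
  · exact ptf_fbw j.1 j.2 hm hρ hN hc hw
  · cases b
    · exact ptf_fbw i.2.1 i.2.2 hm hρ hN hc
        (ptf_smI hm hρ (ptf_fbw i.1.1 i.1.2 hm hρ hN hc hw))
    · exact ptf_fbw i.2.1 i.2.2 hm hρ hN hc
        (ptf_swI hn hρ (ptf_fbw i.1.1 i.1.2 hm hρ hN hc hw))

/-- PTF of a read -/
theorem ptf_read {m ρ w : α → ℕ} {Q : α → ℕ → ℕ} (hm : PTU m) (hρ : PTF ρ) (hw : PTF w)
    (hQ : PTF₂ Q) : PTF (fun a => rdI (ZMod p) (fun _ _ r => Q a r) (m a) (ρ a) (w a)) := by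
  refine ptf_rdI (Q := fun a _ _ r => Q a r) hm hρ hw ?_
  exact PTF.comp₂ hQ PTF.id (ptf_cR (ptf_pw (ZMod p) hm) hρ hw)

/-- PTF of the shifts -/
theorem ptf_rot {m ρ w : α → ℕ} (hm : PTU m) (hρ : PTF ρ) (hw : PTF w) :
    PTF (fun a => fsI (rtI' (ZMod p) (m a)) (p ^ m a) (ρ a) (w a)) := by
  have hn : PTF (fun a => p ^ m a) := PTF.natPow (PTF.const _) hm
  exact ptf_fsI (g := fun a => rtI' (ZMod p) (m a)) hn hρ hw (ptf_rtI' hm (ptf_cX hn hρ hw))

theorem ptf_rot' {m ρ w : α → ℕ} (hm : PTU m) (hρ : PTF ρ) (hw : PTF w) :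
    PTF (fun a => fsI (rtI (ZMod p) (m a)) (p ^ m a) (ρ a) (w a)) := by
  have hn : PTF (fun a => p ^ m a) := PTF.natPow (PTF.const _) hm
  exact ptf_fsI (g := fun a => rtI (ZMod p) (m a)) hn hρ hw (ptf_rtI hm (ptf_cX hn hρ hw))

end ptf

end Crest.Agent.R289.ClockPT484
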