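import Crest.Agent.R289.Mem_12
import Crest.Agent.R289.ClockPT3_484
import Crest.Agent.R289.BaseTab_92

/-!
# Row 289: number tables of the clock words and of the public clock symbols `pc` (helper92)

`cwN nL ρ a t u` : the clock symbol at time `t` of the unit number `u`; `cwN_spec`, `ptf_cwN`.
For a family of members `mem : ι → Mem12.Mem h W c0`: `tabT_cw`, `tabF_cw`, `tabF_pc`.
-/

set_option autoImplicit false
set_option linter.unusedVariables false

namespace Crest.Agent.R289.PcTab92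

open Crest.Agent.Lib.PT Crest.Agent.Lib.PT.Arith Crest.Agent.R289 Crest.Agent.R289.YIdx901
  Crest.Agent.R289.GkIdx594 Crest.Agent.R289.ClockPT484 Crest.Agent.R289.ClockE698
  Crest.Agent.R289.PubBits92 Crest.Agent.R289.BaseTab92 Crest.Agent.R289.Asm12

/-! ### one member -/

section one

variable (p : ℕ) [NeZero p]

/-- clock symbol of the unit number `w`: `n` positions, public coordinate `ρ`, position `k` -/
noncomputable def cwI (n ρ k w : ℕ) : ZMod p := coI (ZMod p) n (cX (qK (ZMod p) ^ n) ρ w) k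

variable {p} {n : ℕ} (s : Siz p n) {P R T : Type}
  (iP : P ≃ Fin s.nP) (iR : R ≃ Fin s.nR) (iT : T ≃ Fin s.nT)

theorem cwI_spec (k : Fin n) (u : (P × R) × T) :
    cwI p n s.rho k (ixU s iP iR iT u : Fin _) = (eU s iP iR iT u).1 k := by
  have h := (coords (ZMod p) n s.nU_eq (ixU s iP iR iT) u).1
  unfold cwI
  rw [h]
  unfold iV
  rw [coI_spec, Stack827.ent_of_lt _ k.2]
  rfl

theorem ptf_cwI {α : Type} [PTCode α] [PTCode (ZMod p)] {n ρ k w : α → ℕ} (hn : PTU n)
    (hρ : PTF ρ) (hk : PTF k) (hw : PTF w) : PTF (fun a => cwI p (n a) (ρ a) (k a) (w a)) :=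
  ptf_coI hn (ptf_cX (ptf_pw (ZMod p) hn) hρ hw) hk

end one

/-! ### the family -/

section fam

variable {D : Obj} {M0 : ℕ} {lam0 Kr : ℝ} {h : D.OK M0 lam0 Kr} {W c0 : ℕ}
variable {ι α : Type} [PTCode α] {raw : ι → α} {mem : ι → Mem12.Mem h W c0}
  {N nL ρ : α → ℕ} {e : ∀ i, (mem i).I.U ≃ Fin (N (raw i))}

/-- the numbering of the units is 901's product numbering -/
def Num (mem : ι → Mem12.Mem h W c0) (e : ∀ i, (mem i).I.U ≃ Fin (N (raw i))) : Prop :=
  ∀ i (u : (mem i).I.U), ((e i u : Fin _) : ℕ) =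
    (ixU (mem i).siz (D.ix (mem i).kP) (D.ix (mem i).kR) (D.ix (mem i).kT) u : Fin _)

/-- table of the clock words with the time as an argument -/
theorem tabT_cw [PTCode (ZMod 3)] (he : Num mem e) (hn : PTU nL) (hρ : PTF ρ)
    (hnL : ∀ i, nL (raw i) = (mem i).P.L + 1) (hrho : ∀ i, ρ (raw i) = (mem i).siz.rho)
    (T : ι → ℕ) : TabT raw e T (fun i t u => (mem i).cw t u) := by
  refine ⟨fun a t w => cwI 3 (nL a) (ρ a) (t % nL a) w, ?_, fun i t _ u => ?_⟩
  · exact ptf_cwI (α := α × ℕ × ℕ) (n := fun p => nL p.1) (ρ := fun p => ρ p.1)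
      (k := fun p => p.2.1 % nL p.1) (w := fun p => p.2.2)
      (PTU.comp hn PTF.fst) (PTF.comp hρ PTF.fst)
      (PTF.natMod (PTF.comp PTF.fst PTF.snd) (PTF.comp hn.toPTF PTF.fst))
      (PTF.comp PTF.snd PTF.snd)
  · have h1 := cwI_spec (mem i).siz (D.ix (mem i).kP) (D.ix (mem i).kR) (D.ix (mem i).kT)
      (ClkTD766.pos (mem i).P.L t) u
    show cwI 3 (nL (raw i)) (ρ (raw i)) (t % nL (raw i)) ((e i u : Fin _) : ℕ) = _
    rw [he i u, hnL i, hrho i]
    exact h1

/-- table of the clock word of a polynomial-time value -/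
theorem tabF_cw (he : Num mem e) (hn : PTU nL) (hρ : PTF ρ)
    (hnL : ∀ i, nL (raw i) = (mem i).P.L + 1) (hrho : ∀ i, ρ (raw i) = (mem i).siz.rho)
    {t : ι → ℕ} {tN : α → ℕ} (ht : PTF tN) (htN : ∀ i, tN (raw i) = t i) :
    TabF raw e (fun i u => (mem i).cw (t i) u) := by
  let _ : PTCode (ZMod 3) := ptcZ 3
  exact TabF.ofTab ((tabT_cw he hn hρ hnL hrho t).at ht htN fun _ => le_rfl)

/-- public clock symbols of a unit: the clock words of the values `0` and `L` -/
noncomputable def pc (i : Mem12.Mem h W c0) (u : i.I.U) : ZMod 3 × ZMod 3 :=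
  (i.cw 0 u, i.cw i.I.L u)

/-- **table of the public clock symbols** -/
theorem tabF_pc (he : Num mem e) (hn : PTU nL) (hρ : PTF ρ)
    (hnL : ∀ i, nL (raw i) = (mem i).P.L + 1) (hrho : ∀ i, ρ (raw i) = (mem i).siz.rho) :
    TabF raw e (fun i u => pc (mem i) u) := by
  refine TabF.pair (tabF_cw he hn hρ hnL hrho (t := fun _ => 0) (PTF.const 0) fun _ => rfl)
    (tabF_cw he hn hρ hnL hrho (t := fun i => (mem i).I.L) (tN := fun a => nL a - 1)
      (PTF.natSub hn.toPTF (PTF.const 1)) fun i => ?_)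
  rw [hnL i]
  rfl

end fam

end Crest.Agent.R289.PcTab92
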