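import Crest.Agent.R289.SlotPT_267
import Crest.Agent.R289.RegsObj_335
import Crest.Agent.R289.PubBits_92
import Crest.Agent.R289.MemB_12

/-!
# Row 289, E31 SlotPT: all slots of the label of the object (`RegsObj335.labNbO`)

* `PNb.inb` : slots of `2 ^ s` rounds (508);
* `labNbO_nb` : `PNb` of `RegsObj335.labNbO D (nbc i)` from the clock slots `nbc`, in the numbering
  `eP' (eP' (eO kP) (eO kR)) (eO kT)`, and the exits `labNbO_map` (one slot, `PMap`) and
  `labNbO_Mp` (`PubBits92.Mp`).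
-/

set_option autoImplicit false

namespace Crest.Agent.R289.SlotPT267

open Crest.Agent.Lib.PT Crest.Agent.R289
open Crest.Agent.R289.UMap965 Crest.Agent.R289.Asm12

variable {α I : Type} [PTCode α] {raw : I → α}

/-- slots of `2 ^ s` rounds -/
theorem PNb.inb {U : I → Type} {m : I → ℕ} {e : ∀ i, U i ≃ Fin (m i)} {ι : Type}
    {nb : ∀ i, ι → U i → U i} (h : PNb raw e nb) (s : ℕ) :
    PNb raw e (fun i => Word508.inb (nb i) s) := by
  induction s with
  | zero => exact h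
  | succ s ih =>
    intro t
    cases t with
    | inl t => exact ih t
    | inr t => exact (ih t.2).comp (ih t.1)

section obj

variable {D : Obj} {M0 : ℕ} {lam0 Kr : ℝ} {kP kR kT : α → ℕ}

/-- numbering of the units -/
abbrev e3O (D : Obj) (raw : I → α) (kP kR kT : α → ℕ) :=
  eP' (eP' (eO D raw kP) (eO D raw kR)) (eO D raw kT)

/-- the walk of a factor -/
theorem gaw_nb {k : α → ℕ} (hD : D.OK M0 lam0 Kr) (hk : PTU k) (hQ : PTU fun a => D.Q ^ k a) :
    PNb raw (eO D raw k) (fun i => RegsObj335.gaw D (k (raw i))) :=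
  fun z => PMap.rightO hD hk hQ (PEl.aO hD hk hQ z)

/-- **all slots of the label of the object** -/
theorem labNbO_nb (hD : D.OK M0 lam0 Kr) (hP : PTU kP) (hQP : PTU fun a => D.Q ^ kP a)
    (hR : PTU kR) (hQR : PTU fun a => D.Q ^ kR a) (hT : PTU kT) (hQT : PTU fun a => D.Q ^ kT a)
    {ιc : Type} {nbc : ∀ i, ιc → (D.P (kP (raw i)) × D.P (kR (raw i))) × D.P (kT (raw i)) →
      (D.P (kP (raw i)) × D.P (kR (raw i))) × D.P (kT (raw i))}
    (hC : PNb raw (e3O D raw kP kR kT) nbc) :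
    PNb raw (e3O D raw kP kR kT) (fun i => RegsObj335.labNbO D (nbc i)) :=
  lab_nb (raw := raw) (k := kP) (k' := kR) (kT := kT) (U := D.P) (sz := fun k => D.Q ^ k)
    (ix := D.ix) (nb := LUofTP239.nbP D) (nb' := LUofTP239.nbP' D) (ga := RegsObj335.gaw D)
    (PSz.of (PTU.toPTF hQR)) (PSz.of (PTU.toPTF hQT))
    (nbP (raw := raw) (k := kP) hD hP hQP) (nbP (raw := raw) (k := kR) hD hR hQR)
    (nbP (raw := raw) (k := kT) hD hT hQT)
    (nbP' (raw := raw) (k := kP) hD hP hQP) (nbP' (raw := raw) (k := kR) hD hR hQR)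
    (nbP' (raw := raw) (k := kT) hD hT hQT)
    (gaw_nb (raw := raw) (k := kP) hD hP hQP) (gaw_nb (raw := raw) (k := kR) hD hR hQR)
    (gaw_nb (raw := raw) (k := kT) hD hT hQT) (hC.inb 2)

/-- the same with levels given as functions of the instance -/
theorem labNbO_gen (hD : D.OK M0 lam0 Kr) (hP : PTU kP) (hQP : PTU fun a => D.Q ^ kP a)
    (hR : PTU kR) (hQR : PTU fun a => D.Q ^ kR a) (hT : PTU kT) (hQT : PTU fun a => D.Q ^ kT a)
    {k1 k2 k3 : I → ℕ} (h1 : ∀ i, k1 i = kP (raw i)) (h2 : ∀ i, k2 i = kR (raw i))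
    (h3 : ∀ i, k3 i = kT (raw i)) {ιc : Type}
    {nbc : ∀ i, ιc → (D.P (k1 i) × D.P (k2 i)) × D.P (k3 i) →
      (D.P (k1 i) × D.P (k2 i)) × D.P (k3 i)}
    (hC : PNb raw (eP' (eP' (fun i => D.ix (k1 i)) fun i => D.ix (k2 i)) fun i => D.ix (k3 i))
      nbc) :
    PNb raw (eP' (eP' (fun i => D.ix (k1 i)) fun i => D.ix (k2 i)) fun i => D.ix (k3 i))
      (fun i => RegsObj335.labNbO D (nbc i)) := by
  obtain rfl : k1 = fun i => kP (raw i) := funext h1
  obtain rfl : k2 = fun i => kR (raw i) := funext h2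
  obtain rfl : k3 = fun i => kT (raw i) := funext h3
  exact labNbO_nb hD hP hQP hR hQR hT hQT hC

/-- the unit numbering of the members -/
abbrev eM {h : D.OK M0 lam0 Kr} {W c0 : ℕ} (mem : I → Mem12.Mem h W c0) :
    ∀ i, (mem i).U ≃ Fin (D.Q ^ (mem i).kP * D.Q ^ (mem i).kR * D.Q ^ (mem i).kT) :=
  eP' (eP' (fun i => D.ix (mem i).kP) fun i => D.ix (mem i).kR) fun i => D.ix (mem i).kT

/-- **all slots `nb0` of the members of the family** from the clock slots -/
theorem mem_nb0 {h : D.OK M0 lam0 Kr} {W c0 : ℕ} (mem : I → Mem12.Mem h W c0)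
    (hP : PTU kP) (hQP : PTU fun a => D.Q ^ kP a)
    (hR : PTU kR) (hQR : PTU fun a => D.Q ^ kR a) (hT : PTU kT) (hQT : PTU fun a => D.Q ^ kT a)
    (h1 : ∀ i, (mem i).kP = kP (raw i)) (h2 : ∀ i, (mem i).kR = kR (raw i))
    (h3 : ∀ i, (mem i).kT = kT (raw i)) (hC : PNb raw (eM mem) fun i => (mem i).nbc) :
    PNb raw (eM mem) (fun i => (mem i).nb0) :=
  labNbO_gen h hP hQP hR hQR hT hQT h1 h2 h3 hC

end obj

/-! ### 92's form -/

open PubBits92 in
/-- `PMap` is 92's `Mp` -/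
theorem mp_of_pmap {U V : I → Type} {n m : α → ℕ} {e : ∀ i, U i ≃ Fin (n (raw i))}
    {f : ∀ i, V i ≃ Fin (m (raw i))} {G : ∀ i, U i → V i} (h : PMap raw e f G) :
    Mp raw e f G := h

open PubBits92 in
/-- 92's `Mp` is `PMap` -/
theorem pmap_of_mp {U V : I → Type} {n m : α → ℕ} {e : ∀ i, U i ≃ Fin (n (raw i))}
    {f : ∀ i, V i ≃ Fin (m (raw i))} {G : ∀ i, U i → V i} (h : Mp raw e f G) :
    PMap raw e f G := h

open PubBits92 in
/-- slots of the label of the object in 92's numbering `eQ (eQ ixP ixR) ixT` -/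
theorem labNbO_Mp {D : Obj} {M0 : ℕ} {lam0 Kr : ℝ} {kP kR kT : α → ℕ} (hD : D.OK M0 lam0 Kr)
    (hP : PTU kP) (hQP : PTU fun a => D.Q ^ kP a)
    (hR : PTU kR) (hQR : PTU fun a => D.Q ^ kR a) (hT : PTU kT) (hQT : PTU fun a => D.Q ^ kT a)
    {ιc : Type} {nbc : ∀ i, ιc → (D.P (kP (raw i)) × D.P (kR (raw i))) × D.P (kT (raw i)) →
      (D.P (kP (raw i)) × D.P (kR (raw i))) × D.P (kT (raw i))}
    (hC : ∀ s, Mp raw (eQ (n := pn (fun a => D.Q ^ kP a) fun a => D.Q ^ kR a)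
      (m := fun a => D.Q ^ kT a) (eQ (n := fun a => D.Q ^ kP a) (m := fun a => D.Q ^ kR a)
        (fun i => D.ix (kP (raw i))) fun i => D.ix (kR (raw i))) fun i => D.ix (kT (raw i)))
      (eQ (n := pn (fun a => D.Q ^ kP a) fun a => D.Q ^ kR a)
      (m := fun a => D.Q ^ kT a) (eQ (n := fun a => D.Q ^ kP a) (m := fun a => D.Q ^ kR a)
        (fun i => D.ix (kP (raw i))) fun i => D.ix (kR (raw i))) fun i => D.ix (kT (raw i)))
      (fun i u => nbc i s u)) (s : RegsObj335.SO D ιc) :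
    Mp raw (eQ (n := pn (fun a => D.Q ^ kP a) fun a => D.Q ^ kR a)
      (m := fun a => D.Q ^ kT a) (eQ (n := fun a => D.Q ^ kP a) (m := fun a => D.Q ^ kR a)
        (fun i => D.ix (kP (raw i))) fun i => D.ix (kR (raw i))) fun i => D.ix (kT (raw i)))
      (eQ (n := pn (fun a => D.Q ^ kP a) fun a => D.Q ^ kR a)
      (m := fun a => D.Q ^ kT a) (eQ (n := fun a => D.Q ^ kP a) (m := fun a => D.Q ^ kR a)
        (fun i => D.ix (kP (raw i))) fun i => D.ix (kR (raw i))) fun i => D.ix (kT (raw i)))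
      (fun i u => RegsObj335.labNbO D (nbc i) s u) :=
  labNbO_nb (raw := raw) (kP := kP) (kR := kR) (kT := kT) hD hP hQP hR hQR hT hQT
    (nbc := nbc) hC s

end Crest.Agent.R289.SlotPT267
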