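import Crest.Agent.R289.MemF_12
import Crest.Agent.R289.DecM_589
import Crest.Agent.R289.LayObjC_896
import Crest.Agent.R289.ClockTab_698
import Crest.Agent.R289.SlotPTO_267
import Crest.Agent.R289.PcTab_92
import Crest.Agent.R289.BaseTab_92
import Crest.Agent.R289.FamU2_782

/-!
# Row 289: clause `H` of the top joint (helper12)

`topH : FamU782.HC h ((dT D + 1) ^ 3) 0 (gReg .X) (gReg .Y)` : for every `n0` there are base tables
which describe, for every well formed End-of-Line instance, the units of one member of the family,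
with decoding of blocked words.
-/

set_option autoImplicit false

namespace Crest.Agent.R289.TopH12

open Crest.PPADPCP Crest.Agent.Lib.PT Crest.Agent.Lib.PT.Arith Crest.Agent.R289
  Crest.Agent.R289.Asm12 Crest.Agent.R289.DefC Crest.Agent.R289.DefI Crest.Agent.R289.InsObj576
  Crest.Agent.R289.FamComb715 Crest.Agent.R289.PubBits92 Crest.Agent.R289.YIdx901
  Crest.Agent.R289.PathObj992 Crest.Agent.R289.InsTab117 Crest.Agent.R289.LevObj782
  Crest.Agent.R289.Window954 Crest.Agent.R289.GlueD194 Crest.Agent.R289.Mem12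
  Crest.Agent.R289.MemF12 Crest.Agent.R289.UMap965 Crest.Agent.R289.ClockTab698
  Crest.Agent.R289.SlotPT267 Crest.Agent.R289.BaseTab92 Crest.Agent.R289.LayObj896
  Crest.Agent.R289.ClockU698

/-! ### tables of the family -/

section tables

variable {D : Obj} {M0 : ℕ} {lam0 Kr : ℝ} {h : D.OK M0 lam0 Kr} (F : Fd h)

/-- sizes of the clock -/
theorem fs : FS rI (fun i => (F.mem i).siz) where
  n := ⟨fun a => F.L a + 1, PTU.add F.uL (PTU.const 1), fun _ => rfl⟩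
  a := ⟨fun a => F.e * F.kP a, PTU.mul (PTU.const F.e) F.uP, fun _ => rfl⟩
  b := ⟨fun a => F.e * F.kR a, PTU.mul (PTU.const F.e) F.uR, fun _ => rfl⟩
  t := ⟨fun a => F.e * F.kT a, PTU.mul (PTU.const F.e) F.uT, fun _ => rfl⟩

/-- tables of the clock slots -/
theorem mp_nbc (q : Clock425.Slot (SJ 3)) :
    Mp rI (n := F.nU) (m := F.nU) F.eU F.eU (fun i u => (F.mem i).nbc q u) :=
  pmap_nbU (raw := rI) (p := 3) (s := fun i => (F.mem i).siz)
    (fun i => D.ix (F.mem i).kP) (fun i => D.ix (F.mem i).kR) (fun i => D.ix (F.mem i).kT)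
    (fs F) q

/-- tables of the slots of the label code -/
theorem mp_nb0 (s : RegsObj335.SO D (Clock425.Slot (SJ 3))) :
    Mp rI (n := F.nU) (m := F.nU) F.eU F.eU (fun i u => (F.mem i).nb0 s u) :=
  mem_nb0 (raw := rI) (fun i => F.mem i) F.uP F.uQP F.uR F.uQR F.uT F.uQT (fun _ => rfl)
    (fun _ => rfl) (fun _ => rfl) (fun q => mp_nbc F q) s

/-- tables of the clock moves -/
theorem mp_mc (g : ClkTD766.CG (cst h ((dT D + 1) ^ 3))) :
    Mp rI (n := F.nU) (m := F.nU) F.eU F.eU (fun i u => (F.mem i).mc g u) := by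
  refine pmap_mc (raw := rI) (p := 3) (I := fun i => (F.mem i).I) F.insTab
    ⟨fun a => F.L a + 1, PTU.add F.uL (PTU.const 1), fun _ => rfl⟩
    (ρ := fun i => (F.mem i).siz.rho) (fs F).rho F.eU (fun i => (F.mem i).siz.nU_eq)
    (fun i => (F.mem i).tq) (fun i r => ?_) g
  exact congrArg Fin.val (Equiv.apply_symm_apply (D.ix (F.kT (rI i)))
    ⟨(r : ℕ) % (F.mem i).siz.nT, Nat.mod_lt _ (F.mem i).siz.nT_pos⟩)

/-- **tables of all steps** -/
theorem mp_mv (s : (cst h ((dT D + 1) ^ 3)).Gen (ClkTD766.CG (cst h ((dT D + 1) ^ 3))) ⊕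
      RegsObj335.SO D (Clock425.Slot (SJ 3))) :
    Mp rI (n := F.nU) (m := F.nU) F.eU F.eU (fun i u => (F.mem i).mv s u) := by
  rcases s with g | s
  · exact InsTab.mp_frame F.insTab (mc := fun i => (F.mem i).mc) (pc := fun _ _ => ())
      (fun g => mp_mc F g) g
  · exact mp_nb0 F s

/-- **table of the public data** -/
theorem tab_pub : TabF rI (n := F.nU) F.eU (fun i u => (F.mem i).pub u) :=
  (InsTab.tabF_frame_pub F.insTab (mc := fun i => (F.mem i).mc) (pc := fun _ _ => ())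
    (TabF.const ())).pair (TabF.const ())

/-- **table of the start word** -/
theorem tab_w0 : TabF rI (n := F.nU) F.eU (fun i u => (F.mem i).w0 u) := by
  refine tabF_start F.insTab (cw := fun i => (F.mem i).cw) (fun _ => rfl) (fun _ => rfl) ?_
  obtain ⟨ρ, h1, h2⟩ := (fs F).rho
  exact PcTab92.tabF_cw (raw := rI) (mem := F.mem) (N := F.nU) (nL := fun a => F.L a + 1)
    (e := F.eU) (ρ := ρ) (fun _ _ => rfl) (PTU.add F.uL (PTU.const 1)) h1 (fun _ => rfl) h2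
    (t := fun _ => 0) (tN := fun _ => 0) (PTF.const 0) (fun _ => rfl)

end tables

/-! ### layouts -/

section layouts

variable {D : Obj} {M0 : ℕ} {lam0 Kr : ℝ} {h : D.OK M0 lam0 Kr}

/-- window of the cells -/
theorem cell_le {c c0 n0 x C : ℕ} {kP kR kT L : EI → ℕ} (lv : Lv D.Q c c0 n0 x C kP kR kT L)
    (hc : 4 ≤ c) (i : WI) : 4 * i.1.encode.length ≤ D.Q ^ kP (rI i) := by
  have h1 := lv.cells (rI i)
  have h2 : eN (rI i) = i.1.encode := eN_raw i.1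
  rw [h2] at h1
  calc 4 * i.1.encode.length ≤ c * (i.1.encode.length + 1) :=
        Nat.mul_le_mul hc (Nat.le_succ _)
    _ ≤ _ := h1

/-- window of the colours -/
theorem col_le {c c0 n0 x C : ℕ} {kP kR kT L : EI → ℕ} (lv : Lv D.Q c c0 n0 x C kP kR kT L)
    (i : WI) : Route649.ncol (RouteObj649.lenG D (kP (rI i))) (D.Q ^ kP (rI i)) ≤
      D.Q ^ kR (rI i) :=
  (Nat.le_add_right _ x).trans (lv.col (rI i))

end layouts

/-! ### the clause -/

section top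

variable {D : Obj} {M0 : ℕ} {lam0 Kr : ℝ} {h : D.OK M0 lam0 Kr}

/-- **the clause for a family with realising layouts** -/
theorem clause (F : Fd h)
    (hR : ∀ i : WI, Sol589.Real i.1 (act D (F.kP (rI i)) (F.kR (rI i))) (26 : Fin 28) (F.lay i))
    {al : EI → ℕ → ℕ} (hal : PTF (fun p : EI × ℕ => al p.1 p.2))
    (al_eq : ∀ (i : WI) (j : Fin (F.lay i).n),
      al (rI i) j = (eGi D rI F.kP F.kR i ((F.lay i).al j) : Fin _))
    {n0 A b : ℕ} (hn0 : ∀ a, n0 ≤ F.nU a)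
    (hA : ∀ I : EOL, F.nU (raw I) ≤ A * I.encode.length * (Nat.clog 2 (I.encode.length + 2)) ^ b)
    (W' : ∀ i : Mem h ((dT D + 1) ^ 3) 0, Set (i.I.U → (cst h ((dT D + 1) ^ 3)).Lab (ZMod 3)))
    (N' M' : ∀ i : Mem h ((dT D + 1) ^ 3) 0, (i.I.U → (cst h ((dT D + 1) ^ 3)).Lab (ZMod 3)) →
      i.I.U → (cst h ((dT D + 1) ^ 3)).Lab (ZMod 3))
    (hW : ∀ i, ∀ w ∈ W' i, ∃ f, i.lm.Legal f ∧ w = i.word f)
    (hN : ∀ i f, i.lm.Legal f → N' i (i.word f) = i.word (i.lm.stepN f))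
    (hM : ∀ i f, i.lm.Legal f → M' i (i.word f) = i.word (i.lm.stepM f)) :
    ∃ T : UFam715.BaseT ((cst h ((dT D + 1) ^ 3)).Gen
          (ClkTD766.CG (cst h ((dT D + 1) ^ 3))) ⊕ RegsObj335.SO D (Clock425.Slot (SJ 3)))
        ((cst h ((dT D + 1) ^ 3)).Lab (ZMod 3)) (((cst h ((dT D + 1) ^ 3)).PD × Unit) × Unit),
      T.PT ∧ ∀ E : EOL, E.WF → ∃ i : Mem h ((dT D + 1) ^ 3) 0,
        T.On E i.mv i.pub i.w0 (W' i) (N' i) (M' i) (DecI589.gReg Rg.X)
          (DecI589.gReg Rg.Y) n0 A b := by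
  have hpI : PTF (fun p : EI × ℕ => pI (D.Q ^ F.kT p.1) (al p.1 p.2) 0) := by
    unfold pI
    exact PTF.natAdd (PTF.const 0)
      (PTF.natMul (PTF.comp (g := fun a : EI => D.Q ^ F.kT a) F.uQT.toPTF PTF.fst) hal)
  obtain ⟨T, hT, hon⟩ := exists_baseT (E := fun i : WI => i.1)
    (U := fun i => (F.mem i).I.U) (n := F.nU) (e := F.eU) F.ptu_nU.toPTF (mp_mv F) (tab_pub F)
    (tab_w0 F) (len := fun a : EI => a.2.1.2.length)
    (PTU.length (PTF.comp PTF.snd (PTF.comp PTF.fst PTF.snd)))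
    (adN := fun p => pI (D.Q ^ F.kT p.1) (al p.1 p.2) 0)
    (adM := fun p => pI (D.Q ^ F.kT p.1) (al p.1 p.2) 0) hpI hpI
  refine ⟨T, hT, fun E hE => ⟨F.mem ⟨E, hE⟩, ?_⟩⟩
  have hpos : 0 < D.Q ^ F.kT (rI ⟨E, hE⟩) := Nat.pow_pos (by have := h.two_le; omega)
  let τ : (F.mem ⟨E, hE⟩).I.T := (D.ix (F.kT (rI ⟨E, hE⟩))).symm ⟨0, hpos⟩
  let ad : ℕ → ℕ := fun j => pI (D.Q ^ F.kT (raw E)) (al (raw E) j) 0
  have had : ∀ j : Fin (F.mem ⟨E, hE⟩).lay.n,
      ((F.eU ⟨E, hE⟩ ((F.mem ⟨E, hE⟩).lay.al j, τ) : Fin _) : ℕ) = ad j := fun j =>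
    (eP_val (eGi D rI F.kP F.kR ⟨E, hE⟩) (eTi D rI F.kT ⟨E, hE⟩) _ τ).trans
      (congrArg₂ (pI (D.Q ^ F.kT (rI ⟨E, hE⟩))) (al_eq ⟨E, hE⟩ j).symm
        (congrArg Fin.val (Equiv.apply_symm_apply (D.ix (F.kT (rI ⟨E, hE⟩))) ⟨0, hpos⟩)))
  refine hon ⟨E, hE⟩ (W' _) (N' _) (M' _) _ _ n0 A b (hn0 _) ?_ (hA E) ?_ ?_ ?_
  · have h1 : ∀ k, 0 < D.Q ^ k := fun k => Nat.pow_pos (by have := h.two_le; omega)
    exact Nat.mul_pos (Nat.mul_pos (h1 _) (h1 _)) (h1 _)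
  · exact hE.2.1.1
  · exact DecM589.decN (F.mem ⟨E, hE⟩) (hR ⟨E, hE⟩) (F.eU ⟨E, hE⟩) ad τ had (W' _)
      (hW _) hE (N' _) (hN _)
  · exact DecM589.decM (F.mem ⟨E, hE⟩) (hR ⟨E, hE⟩) (F.eU ⟨E, hE⟩) ad τ had (W' _)
      (hW _) (M' _) (hM _)

/-- **clause `H` of the top joint** -/
theorem topH (h : D.OK M0 lam0 Kr) (hlam : lam0 ^ 2 ≤ 1 / 8) (hp : D.p = 3) :
    FamU782.HC h ((dT D + 1) ^ 3) 0 (DecI589.gReg (c := cst h ((dT D + 1) ^ 3)) Rg.X)
      (DecI589.gReg (c := cst h ((dT D + 1) ^ 3)) Rg.Y) := by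
  intro W' N' M' hW hN hM n0
  obtain ⟨e, -, hQe⟩ := ClockObj698.Q_pow3 h hp
  obtain ⟨kP, kR, kT, L, lv⟩ := levels h.two_le 4 0 (max n0 4096) 2
    (3 ^ (3 * 5) * ((3 ^ 5) ^ (0 + 1)) ^ 3)
  obtain ⟨H⟩ := layE_PT h lv.uP lv.uQP lv.uR lv.uQR
  let lay : ∀ i : WI, Layout (D.P (kP (rI i)) × D.P (kR (rI i))) (G D) (Fin 28) 128 :=
    fun i => layE D (kP (rI i)) (kR (rI i)) (rI i)
  have hreal : ∀ i : WI, Sol589.Real i.1 (act D (kP (rI i)) (kR (rI i))) (26 : Fin 28)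
      (lay i) := fun i => layE_real h hlam i.2 (cell_le lv le_rfl i) (col_le lv i)
  have hok : ∀ i : WI, (lay i).OK (act D (kP (rI i)) (kR (rI i))) (26 : Fin 28) :=
    fun i => layE_ok h hlam i.2 (cell_le lv le_rfl i) (col_le lv i)
  have hc : ∀ b, Tab rI (n := nGa D kP kR) (eGi D rI kP kR) (fun i x => pubC (lay i) D.K b x) := by
    intro b
    obtain ⟨T, hT, hTs⟩ := H.pub (K := D.K) b
    exact ⟨T, hT, fun i x => hTs (rI i) x⟩
  let F : Fd h := Fd.ofLv hlam hQe lv (by norm_num) le_rfl (le_max_right _ _) lay hok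
    (fun i => (hreal i).h0 i.2) hc
  obtain ⟨A, b, hA⟩ := lv.size
  have hn0 : ∀ a, n0 ≤ F.nU a := by
    intro a
    have h1 : ∀ k, 0 < D.Q ^ k := fun k => Nat.pow_pos (by have := h.two_le; omega)
    have h2 : n0 ≤ D.Q ^ kP a := (le_max_left _ _).trans (lv.big a)
    exact h2.trans ((Nat.le_mul_of_pos_right _ (h1 _)).trans (Nat.le_mul_of_pos_right _ (h1 _)))
  have hA' : ∀ I : EOL, F.nU (raw I) ≤
      A * I.encode.length * (Nat.clog 2 (I.encode.length + 2)) ^ b := by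
    intro I
    refine le_trans (le_of_eq ?_) (hA I)
    show D.Q ^ kP (raw I) * D.Q ^ kR (raw I) * D.Q ^ kT (raw I) = _
    rw [pow_add, pow_add]
  obtain ⟨T, hT, hon⟩ := clause F hreal H.hal (fun i j => H.al_eq (rI i) j) hn0 hA' W' N' M'
    hW hN hM
  exact ⟨T, A, b, hT, hon⟩

end top

end Crest.Agent.R289.TopH12

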