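import Crest.Agent.R289.Asm4_331
import Crest.Agent.R289.TopH_12

/-!
# Row 289, assembly (helper331): S0434
-/

set_option autoImplicit false

namespace Crest.Agent.R289.Asm331

/-- **S0434** -/
theorem S0434_final : S0434Stm :=
  S0434_of_HC fun _ _ h _ hp => ⟨_, _, _, _, TopH12.topH h (by norm_num) hp⟩

end Crest.Agent.R289.Asm331
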