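import Crest.Agent.R289.FinE_901
import Crest.Agent.R289.Asm_12
import Crest.Agent.R289.AsmObj_12

/-!
# Row 289, assembly (helper331): the skeleton of S0434

`S0434_of_blocks`: the literal statement S0434 from the three literal joints
* D : `Fam289 → Machine289` (194: `fam289_machine`),
* C : `Obj289 → Fam289` (306: `fam_of_obj`),
* A + B : `Obj289` (233: `obj289`).
-/

set_option autoImplicit false

namespace Crest.Agent.R289.Asm331

open Crest.Agent.Lib.PT Crest.PPADPCP Crest.Agent.R289 Crest.Agent.R289.Asm12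

/-- the literal statement S0434 -/
def S0434Stm : Prop :=
    ∃ ε δ : ℚ, 0 < ε ∧ ε < 1 / 10 ∧ 0 < δ ∧ δ < 1 ∧
    ∃ A b : ℕ, 0 < A ∧ ∃ p : Polynomial ℕ,
    ∃ (R : List Bool → List Bool) (D : List Bool × List Bool → List Bool),
      Crest.Complexity.PolyTime R ∧
      Crest.Complexity.PolyTimeComputable Crest.Complexity.pairEnc
        (Computability.encodingList Bool).encode D ∧
      (∀ G : Crest.PPADPCP.GCircuit, G.WF → ∃ x : List ℚ, Crest.PPADPCP.Acceptable ε δ p G x) ∧
      ∀ I : Crest.PPADPCP.EOL, I.WF → ∃ G : Crest.PPADPCP.GCircuit, G.WF ∧ R I.encode = G.encode ∧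
        G.encode.length ≤ A * I.encode.length * (Nat.clog 2 (I.encode.length + 2)) ^ b ∧
        ∀ x : List ℚ, Crest.PPADPCP.Acceptable ε δ p G x →
          ∃ v : Fin I.n → Bool, I.IsSolution v ∧
            D (I.encode, Crest.PPADPCP.assignmentBits x) = Crest.PPADPCP.solutionBits v

/-- **skeleton** -/
theorem S0434_of_blocks (hD : Fam289 → Machine289) (hC : Obj289 → Fam289) (hAB : Obj289) :
    S0434Stm :=
  S0434_of_machine (hD (hC hAB))

end Crest.Agent.R289.Asm331
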