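import Crest.Agent.R289.Expr_118

/-!
Row 289: unit assembly (helper118).

A network of `n` units; every unit has `r` register nodes and scratch nodes, `c` nodes in all
(node `u * c + k`).  Register `k` of unit `u` is written by the expression `ex u k`
(inputs: absolute nodes).  `circ` is the generalized circuit, `circ_wf` its well-formedness,
`good_reg` : in a unit all of whose gates are `ε`-satisfied every register holds the value of its
expression up to `(err + 1) * ε`; `card_bad_le` : the number of units with a violated gate is at
most the number of violated gates.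
-/

set_option autoImplicit false

namespace Crest.Agent.R289.Assemble118

open Crest.PPADPCP Crest.Agent.R289.Expr118

/-- expressions over absolute nodes; a list of expressions, compiled at consecutive places, each
copied to its register `tgt, tgt+1, …` -/
def compList (base tgt : ℕ) : List (Ex ℕ) → List GGate
  | [] => []
  | e :: l => e.comp id base ++ (GGate.copy (e.outN id base) tgt :: compList (base + e.size) (tgt + 1) l)

/-- number of scratch nodes -/
def sizeL : List (Ex ℕ) → ℕ
  | [] => 0
  | e :: l => e.size + sizeL l

theorem compList_length (base tgt : ℕ) (l : List (Ex ℕ)) :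
    (compList base tgt l).length = sizeL l + l.length := by
  induction l generalizing base tgt with
  | nil => rfl
  | cons e l ih =>
    simp only [compList, List.length_append, List.length_cons, ih, Ex.comp_length, sizeL]
    omega

theorem mem_out_compList (base tgt : ℕ) (l : List (Ex ℕ)) (z : ℕ) :
    z ∈ (compList base tgt l).map GGate.out ↔
      (base ≤ z ∧ z < base + sizeL l) ∨ (tgt ≤ z ∧ z < tgt + l.length) := by
  induction l generalizing base tgt with
  | nil => simp [compList, sizeL]
  | cons e l ih =>
    simp only [compList, List.map_append, List.map_cons, List.mem_append, List.mem_cons, ih,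
      Ex.comp_out, List.mem_range'_1, sizeL, List.length_cons, GGate.out]
    omega

theorem nodup_compList (base tgt : ℕ) (l : List (Ex ℕ)) (h : tgt + l.length ≤ base) :
    ((compList base tgt l).map GGate.out).Nodup := by
  induction l generalizing base tgt with
  | nil => simp [compList]
  | cons e l ih =>
    simp only [List.length_cons] at h
    simp only [compList, List.map_append, List.map_cons, GGate.out]
    rw [List.nodup_append]
    refine ⟨?_, ?_, ?_⟩
    · rw [Ex.comp_out]; exact List.nodup_range'
    · rw [List.nodup_cons]
      refine ⟨?_, ih _ _ (by omega)⟩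
      rw [mem_out_compList]
      omega
    · intro a ha b hb hab
      subst hab
      rw [Ex.comp_out, List.mem_range'_1] at ha
      rw [List.mem_cons, mem_out_compList] at hb
      omega

theorem wf_compList (base tgt M : ℕ) (l : List (Ex ℕ)) (hwf : ∀ e ∈ l, e.WF)
    (hin : ∀ e ∈ l, e.All fun i => i < M) (hb : base + sizeL l ≤ M) (ht : tgt + l.length ≤ M) :
    ∀ g ∈ compList base tgt l, g.WF M := by
  induction l generalizing base tgt with
  | nil => intro g hg; simp [compList] at hg
  | cons e l ih =>
    intro g hg
    simp only [sizeL, List.length_cons] at hb ht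
    simp only [compList, List.mem_append, List.mem_cons] at hg
    rcases hg with hg | rfl | hg
    · exact Ex.comp_wf id base M e (hwf e List.mem_cons_self) (hin e List.mem_cons_self)
        (by omega) g hg
    · exact ⟨Ex.outN_lt id base M e (hin e List.mem_cons_self) (by omega), by omega⟩
    · exact ih _ _ (fun e' he' => hwf e' (List.mem_cons_of_mem _ he'))
        (fun e' he' => hin e' (List.mem_cons_of_mem _ he')) (by omega) (by omega) g hg

/-- if all gates are satisfied, every register holds its expression -/
theorem sound_compList (ε : ℚ) (x : ℕ → ℚ) (base tgt : ℕ) (l : List (Ex ℕ))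
    (hwf : ∀ e ∈ l, e.WF) (hok : ∀ g ∈ compList base tgt l, gateOK ε x g = true)
    (k : ℕ) (hk : k < l.length) :
    |x (tgt + k) - (l[k]).eval x| ≤ ((l[k]).err + 1 : ℕ) * ε := by
  induction l generalizing base tgt k with
  | nil => simp at hk
  | cons e l ih =>
    cases k with
    | zero =>
      have h1 := Ex.comp_sound ε x id base e (hwf e List.mem_cons_self)
        fun g hg => hok g (by simp [compList, hg])
      have h2 := hok (GGate.copy (e.outN id base) tgt) (by simp [compList])
      simp only [gateOK, decide_eq_true_eq] at h2
      simp only [List.getElem_cons_zero, add_zero]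
      have h3 := abs_add_le (x tgt - x (e.outN id base)) (x (e.outN id base) - e.eval x)
      rw [sub_add_sub_cancel] at h3
      have h4 : (e.eval fun i => x (id i)) = e.eval x := rfl
      rw [h4] at h1
      push_cast
      linarith
    | succ k =>
      have := ih (base + e.size) (tgt + 1) (fun e' he' => hwf e' (List.mem_cons_of_mem _ he'))
        (fun g hg => hok g (by simp [compList, hg])) k (by simpa using hk)
      simpa [add_assoc, add_comm 1 k] using this

/-- A network: `n` units, `c` nodes per unit, `r` registers; `ex u` lists the `r` expressions of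
unit `u` over absolute nodes. -/
structure Net where
  /-- number of units -/
  n : ℕ
  /-- nodes per unit -/
  c : ℕ
  /-- registers per unit -/
  r : ℕ
  /-- the rules -/
  ex : ℕ → List (Ex ℕ)

namespace Net

variable (N : Net)

/-- node of register `k` of unit `u` -/
def reg (u k : ℕ) : ℕ := u * N.c + k

/-- gates of one unit -/
def unitGates (u : ℕ) : List GGate := compList (N.reg u N.r) (N.reg u 0) (N.ex u)

/-- the circuit -/
def circ : GCircuit := ⟨N.n * N.c, (List.range N.n).flatMap N.unitGates⟩

/-- well-formedness of a network -/
structure Ok : Prop where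
  pos : 0 < N.n
  rpos : 0 < N.r
  len : ∀ u < N.n, (N.ex u).length = N.r
  size : ∀ u < N.n, N.r + sizeL (N.ex u) ≤ N.c
  wf : ∀ u < N.n, ∀ e ∈ N.ex u, e.WF
  inp : ∀ u < N.n, ∀ e ∈ N.ex u, e.All fun i => i < N.n * N.c

variable {N}

theorem unit_le {u : ℕ} (hu : u < N.n) : N.reg u N.c ≤ N.n * N.c := by
  unfold reg
  calc u * N.c + N.c = (u + 1) * N.c := by ring
    _ ≤ N.n * N.c := Nat.mul_le_mul_right _ hu

theorem mem_out_unit (h : N.Ok) {u : ℕ} (hu : u < N.n) {z : ℕ}
    (hz : z ∈ (N.unitGates u).map GGate.out) : N.reg u 0 ≤ z ∧ z < N.reg u N.c := by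
  rw [unitGates, mem_out_compList] at hz
  have h1 := h.size u hu
  have h2 := h.len u hu
  unfold reg at *
  omega

theorem circ_wf (h : N.Ok) : N.circ.WF := by
  refine ⟨?_, ?_, ?_⟩
  · have h0 : N.unitGates 0 ≠ [] := by
      intro h1
      have h2 := congrArg List.length h1
      rw [unitGates, compList_length, h.len 0 h.pos] at h2
      have := h.rpos
      simp at h2
      omega
    intro h1
    obtain ⟨g, hg⟩ := List.exists_mem_of_ne_nil _ h0
    have : g ∈ N.circ.gates := by
      unfold circ
      rw [List.mem_flatMap]
      exact ⟨0, List.mem_range.2 h.pos, hg⟩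
    rw [h1] at this
    simp at this
  · intro g hg
    unfold circ at hg ⊢
    rw [List.mem_flatMap] at hg
    obtain ⟨u, hu, hg⟩ := hg
    rw [List.mem_range] at hu
    have h1 := unit_le hu
    have h2 := h.size u hu
    have h3 := h.len u hu
    refine wf_compList _ _ _ (N.ex u) (h.wf u hu) (h.inp u hu) ?_ ?_ g hg
    · unfold reg at *; omega
    · unfold reg at *; omega
  · unfold circ
    rw [List.map_flatMap, List.nodup_flatMap]
    refine ⟨fun u hu => ?_, ?_⟩
    · rw [List.mem_range] at hu
      refine nodup_compList _ _ _ ?_
      have h3 := h.len u hu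
      unfold reg
      omega
    · refine (List.nodup_range (n := N.n)).pairwise_of_forall_ne ?_
      intro u hu v hv huv z hz hz'
      rw [List.mem_range] at hu hv
      have h1 := mem_out_unit h hu hz
      have h2 := mem_out_unit h hv hz'
      rcases lt_or_gt_of_ne huv with hlt | hlt
      · have : N.reg u N.c ≤ N.reg v 0 := by
          unfold reg
          calc u * N.c + N.c = (u + 1) * N.c := by ring
            _ ≤ v * N.c := Nat.mul_le_mul_right _ hlt
            _ = v * N.c + 0 := rfl
        omega
      · have : N.reg v N.c ≤ N.reg u 0 := by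
          unfold reg
          calc v * N.c + N.c = (v + 1) * N.c := by ring
            _ ≤ u * N.c := Nat.mul_le_mul_right _ hlt
            _ = u * N.c + 0 := rfl
        omega

theorem gates_length_le (h : N.Ok) : N.circ.gates.length ≤ N.n * N.c := by
  unfold circ
  rw [List.length_flatMap]
  calc ((List.range N.n).map fun u => (N.unitGates u).length).sum
      ≤ ((List.range N.n).map fun _ => N.c).sum := by
        refine List.sum_le_sum fun u hu => ?_
        rw [List.mem_range] at hu
        rw [unitGates, compList_length, h.len u hu]
        have := h.size u hu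
        omega
    _ = N.n * N.c := by simp

/-- a unit is good if all its gates are satisfied -/
def good (N : Net) (ε : ℚ) (x : ℕ → ℚ) (u : ℕ) : Bool := (N.unitGates u).all fun g => gateOK ε x g

theorem good_reg (h : N.Ok) {ε : ℚ} {x : ℕ → ℚ} {u : ℕ} (hu : u < N.n)
    (hg : N.good ε x u = true) (k : ℕ) (hk : k < (N.ex u).length) :
    |x (N.reg u k) - ((N.ex u)[k]).eval x| ≤ (((N.ex u)[k]).err + 1 : ℕ) * ε := by
  have := sound_compList ε x (N.reg u N.r) (N.reg u 0) (N.ex u) (h.wf u hu)
    (by
      intro g hg'
      unfold good at hg
      rw [List.all_eq_true] at hg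
      exact hg g hg') k hk
  unfold reg at *
  simpa using this

/-- the number of bad units is at most the number of violated gates -/
theorem card_bad_le (N : Net) (ε : ℚ) (x : ℕ → ℚ) :
    ((List.range N.n).countP fun u => !N.good ε x u) ≤
      N.circ.gates.countP fun g => !gateOK ε x g := by
  unfold circ
  rw [List.countP_flatMap]
  generalize List.range N.n = l
  induction l with
  | nil => simp
  | cons u l ih =>
    rw [List.countP_cons, List.map_cons, List.sum_cons, add_comm]
    refine add_le_add ?_ ih
    split_ifs with hb
    · simp only [Function.comp]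
      rw [Nat.succ_le_iff, List.countP_pos_iff]
      unfold good at hb
      rw [Bool.not_eq_true', List.all_eq_false] at hb
      obtain ⟨g, hg, hng⟩ := hb
      exact ⟨g, hg, by simpa using hng⟩
    · exact Nat.zero_le _

/-- **Acceptable assignments have few bad units.** -/
theorem bad_le_of_acceptable (h : N.Ok) {ε δ : ℚ} (hδ : 0 ≤ δ) {p : Polynomial ℕ} {x : List ℚ}
    (ha : Acceptable ε δ p N.circ x) :
    (((List.range N.n).countP fun u => !N.good ε (fun v => x.getD v 0) u : ℕ) : ℚ) ≤
      δ * (N.n * N.c) := by
  obtain ⟨-, -, -, h4⟩ := ha
  have h1 := card_bad_le N ε fun v => x.getD v 0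
  have h2 := gates_length_le h
  calc _ ≤ ((N.circ.gates.countP fun g => !gateOK ε (fun v => x.getD v 0) g : ℕ) : ℚ) := by
        exact_mod_cast h1
    _ ≤ δ * N.circ.gates.length := h4
    _ ≤ δ * (N.n * N.c) := by
        refine mul_le_mul_of_nonneg_left ?_ hδ
        exact_mod_cast h2

theorem val_mem_of_acceptable {ε δ : ℚ} {p : Polynomial ℕ} {G : GCircuit} {x : List ℚ}
    (ha : Acceptable ε δ p G x) (v : ℕ) : 0 ≤ x.getD v 0 ∧ x.getD v 0 ≤ 1 := by
  obtain ⟨-, h2, -, -⟩ := ha
  by_cases hv : v < x.length
  · rw [List.getD_eq_getElem _ _ hv]
    exact h2 _ (List.getElem_mem hv)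
  · rw [List.getD_eq_default _ _ (by omega)]
    exact ⟨le_refl _, zero_le_one⟩

end Net

end Crest.Agent.R289.Assemble118
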