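import Crest.Agent.R289.HeckeTwo_622

/-!
Row 289, block A, leaf A.BASE part (2) of post 6164 (helper605): averaging over the two tori,
passage from sums over vectors to sums over points, and the count of the support of `w0`.
-/

set_option autoImplicit false

namespace Crest.Agent.R289.Avg277

open Finset Crest.Agent.R289.Hecke622 Crest.Agent.R289.HeckeTwo622

set_option linter.unusedSectionVars false

variable {K : Type*} [Field K] [Fintype K] [DecidableEq K]

/-- `q² = 0` in `K` -/
theorem cast_card_zero {q : ℕ} (hK : Fintype.card K = q ^ 2) : ((q : K)) ^ 2 = 0 := by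
  have h := Nat.cast_card_eq_zero K
  rw [hK] at h
  exact_mod_cast h

/-- the number of non-zero elements is `-1` -/
theorem card_ne_zero' {q : ℕ} (hK : Fintype.card K = q ^ 2) :
    (∑ c : K, if c = 0 then (0 : K) else 1) = -1 := by
  have h1 : (∑ c : K, if c = 0 then (0 : K) else 1) = ∑ c : K, ((1 : K) - if c = 0 then 1 else 0) := by
    refine Finset.sum_congr rfl fun c _ => ?_
    split_ifs <;> simp
  rw [h1, Finset.sum_sub_distrib, Finset.sum_const, Finset.card_univ, hK]
  simp only [nsmul_eq_mul, mul_one, Finset.sum_ite_eq', Finset.mem_univ, if_true]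
  push_cast
  rw [cast_card_zero hK]
  ring

/-- averaging over the two tori -/
theorem avg {q : ℕ} (hK : Fintype.card K = q ^ 2) (W F : K × K → K × K → K) (s : ℕ)
    (hF : ∀ (c d : K) (l m : K × K), c ≠ 0 → d ≠ 0 →
      F (c • l) (d • m) = c ^ s * d ^ s * F l m) :
    ∑ l, ∑ m, W l m * F l m = ∑ l, ∑ m, F l m * ∑ c : K, ∑ d : K,
      (if c = 0 ∨ d = 0 then 0 else c ^ s * d ^ s * W (c • l) (d • m)) := by
  classical
  have h1 : ∀ c d : K, ∑ l : K × K, ∑ m : K × K,
      F l m * (if c = 0 ∨ d = 0 then 0 else c ^ s * d ^ s * W (c • l) (d • m))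
      = (if c = 0 then (0 : K) else 1) * (if d = 0 then (0 : K) else 1)
        * ∑ l, ∑ m, W l m * F l m := by
    intro c d
    by_cases hc : c = 0
    · simp [hc]
    by_cases hd : d = 0
    · simp [hd]
    rw [if_neg hc, if_neg hd, one_mul, one_mul]
    have e1 : ∀ l m : K × K, F l m * (if c = 0 ∨ d = 0 then 0 else
        c ^ s * d ^ s * W (c • l) (d • m)) = W (c • l) (d • m) * F (c • l) (d • m) := by
      intro l m
      rw [if_neg (by tauto), hF c d l m hc hd]
      ring
    simp only [e1]
    have e2 : ∀ l : K × K, ∑ m : K × K, W (c • l) (d • m) * F (c • l) (d • m)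
        = ∑ m : K × K, W (c • l) m * F (c • l) m := by
      intro l
      exact Equiv.sum_comp (MulAction.toPerm (Units.mk0 d hd) : Equiv.Perm (K × K))
        (fun m => W (c • l) m * F (c • l) m)
    simp only [e2]
    exact Equiv.sum_comp (MulAction.toPerm (Units.mk0 c hc) : Equiv.Perm (K × K))
      (fun l => ∑ m : K × K, W l m * F l m)
  have h2 : ∑ l : K × K, ∑ m : K × K, F l m * ∑ c : K, ∑ d : K,
      (if c = 0 ∨ d = 0 then 0 else c ^ s * d ^ s * W (c • l) (d • m))
      = ∑ c : K, ∑ d : K, ∑ l : K × K, ∑ m : K × K,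
      F l m * (if c = 0 ∨ d = 0 then 0 else c ^ s * d ^ s * W (c • l) (d • m)) := by
    simp only [Finset.mul_sum]
    rw [show (∑ l : K × K, ∑ m : K × K, ∑ c : K, ∑ d : K,
        F l m * (if c = 0 ∨ d = 0 then 0 else c ^ s * d ^ s * W (c • l) (d • m)))
        = ∑ l : K × K, ∑ c : K, ∑ m : K × K, ∑ d : K,
        F l m * (if c = 0 ∨ d = 0 then 0 else c ^ s * d ^ s * W (c • l) (d • m)) from
        Finset.sum_congr rfl fun l _ => Finset.sum_comm]
    rw [Finset.sum_comm]
    refine Finset.sum_congr rfl fun c _ => ?_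
    rw [show (∑ l : K × K, ∑ m : K × K, ∑ d : K,
        F l m * (if c = 0 ∨ d = 0 then 0 else c ^ s * d ^ s * W (c • l) (d • m)))
        = ∑ l : K × K, ∑ d : K, ∑ m : K × K,
        F l m * (if c = 0 ∨ d = 0 then 0 else c ^ s * d ^ s * W (c • l) (d • m)) from
        Finset.sum_congr rfl fun l _ => Finset.sum_comm]
    rw [Finset.sum_comm]
  rw [h2]
  simp only [h1]
  rw [show (∑ c : K, ∑ d : K, (if c = 0 then (0 : K) else 1) * (if d = 0 then (0 : K) else 1)
      * ∑ l, ∑ m, W l m * F l m)
      = (∑ c : K, if c = 0 then (0 : K) else 1) * (∑ d : K, if d = 0 then (0 : K) else 1)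
        * ∑ l, ∑ m, W l m * F l m by
    rw [Finset.sum_mul_sum, Finset.sum_mul]
    refine Finset.sum_congr rfl fun c _ => ?_
    rw [Finset.sum_mul]]
  rw [card_ne_zero' hK]
  ring

/-- one variable: sum over vectors = minus the sum over points -/
theorem proj1 {q : ℕ} (hK : Fintype.card K = q ^ 2) (f : K × K → K)
    (hf : ∀ (c : K) (l : K × K), c ≠ 0 → f (c • l) = f l) (h0 : f 0 = 0) :
    ∑ l : K × K, f l = - ∑ i : Option K, f (rp i) := by
  classical
  have h1 : ∑ l : K × K, f l = ∑ l ∈ univ.filter (fun l : K × K => l ≠ 0), f l := by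
    rw [Finset.sum_filter]
    refine Finset.sum_congr rfl fun l _ => ?_
    by_cases hl : l = 0
    · rw [if_neg (by simp [hl]), hl, h0]
    · rw [if_pos hl]
  have h2 : ∑ l ∈ univ.filter (fun l : K × K => l ≠ 0), f l
      = ∑ p ∈ (univ : Finset (Option K)) ×ˢ univ.filter (fun c : K => c ≠ 0), f (rp p.1) := by
    refine Finset.sum_nbij' (fun l => (ptv l, scv l)) (fun p => p.2 • rp p.1) ?_ ?_ ?_ ?_ ?_
    · intro l hl
      rw [Finset.mem_filter] at hl
      rw [Finset.mem_product, Finset.mem_filter]
      exact ⟨mem_univ _, mem_univ _, scv_ne hl.2⟩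
    · intro p hp
      rw [Finset.mem_product, Finset.mem_filter] at hp
      rw [Finset.mem_filter]
      exact ⟨mem_univ _, smul_ne_zero hp.2.2 (rp_ne_zero _)⟩
    · intro l _
      exact scv_smul_rp l
    · rintro ⟨i, c⟩ hp
      rw [Finset.mem_product, Finset.mem_filter] at hp
      have hc : c ≠ 0 := hp.2.2
      refine Prod.ext ?_ ?_
      · change ptv (c • rp i) = i
        rw [ptv_smul hc, ptv_rp]
      · change scv (c • rp i) = c
        rw [scv_smul hc, scv_rp, mul_one]
    · intro l hl
      rw [Finset.mem_filter] at hl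
      conv_lhs => rw [← scv_smul_rp l]
      exact hf _ _ (scv_ne hl.2)
  rw [h1, h2, Finset.sum_product]
  have h3 : ∀ i : Option K, ∑ _c ∈ univ.filter (fun c : K => c ≠ 0), f (rp i)
      = (-1) * f (rp i) := by
    intro i
    rw [← card_ne_zero' hK, Finset.sum_mul, Finset.sum_filter]
    refine Finset.sum_congr rfl fun c _ => ?_
    by_cases hc : c = 0
    · simp [hc]
    · simp [hc]
  simp only [h3]
  rw [← Finset.mul_sum]
  ring

/-- sums over pairs of vectors = sums over pairs of points -/
theorem proj_sum {q : ℕ} (hK : Fintype.card K = q ^ 2) (G : K × K → K × K → K)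
    (hG : ∀ (c d : K) (l m : K × K), c ≠ 0 → d ≠ 0 → G (c • l) (d • m) = G l m)
    (h1 : ∀ m, G 0 m = 0) (h2 : ∀ l, G l 0 = 0) :
    ∑ l : K × K, ∑ m : K × K, G l m = ∑ i : Option K, ∑ j : Option K, G (rp i) (rp j) := by
  have e1 : ∀ l : K × K, ∑ m : K × K, G l m = - ∑ j : Option K, G l (rp j) := by
    intro l
    refine proj1 hK (G l) (fun c m hc => ?_) (h2 l)
    have := hG 1 c l m one_ne_zero hc
    rwa [one_smul] at this
  simp only [e1]
  rw [Finset.sum_neg_distrib, Finset.sum_comm]
  have e2 : ∀ j : Option K, ∑ l : K × K, G l (rp j) = - ∑ i : Option K, G (rp i) (rp j) := by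
    intro j
    refine proj1 hK (fun l => G l (rp j)) (fun c l hc => ?_) (h1 _)
    have := hG c 1 l (rp j) hc one_ne_zero
    rwa [one_smul] at this
  simp only [e2]
  rw [Finset.sum_neg_distrib, neg_neg, Finset.sum_comm]

/-- the base word -/
def w0 (q : ℕ) (x y : K) (l m : K × K) : K :=
  ((l.1 * m.2 - l.2 * m.1) * (x * l.2 * m.1 - y * l.1 * m.2)) ^ (q - 1)

theorem pow_card_sub_one' {q : ℕ} (hK : Fintype.card K = q ^ 2) (a : K) :
    (a ^ (q - 1)) ^ q * a ^ (q - 1) = if a = 0 then 0 else 1 := by
  have hq : 2 ≤ q := by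
    by_contra h
    have h1 := Fintype.one_lt_card (α := K)
    rw [hK] at h1
    have h2 : q ≤ 1 := by omega
    have h3 : q ^ 2 ≤ 1 := by
      calc q ^ 2 ≤ 1 ^ 2 := Nat.pow_le_pow_left h2 2
        _ = 1 := by norm_num
    omega
  split_ifs with h
  · rw [h, zero_pow (by omega : q - 1 ≠ 0), mul_zero]
  · have h1 := FiniteField.pow_card_sub_one_eq_one a h
    rw [hK] at h1
    rw [← pow_mul, ← pow_add]
    have h2 : (q - 1) * q + (q - 1) = q ^ 2 - 1 := by
      obtain ⟨n, rfl⟩ : ∃ n, q = n + 1 := ⟨q - 1, by omega⟩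
      simp only [Nat.add_sub_cancel]
      have : (n + 1) ^ 2 = n * (n + 1) + n + 1 := by ring
      rw [this, Nat.add_sub_cancel]
    rw [h2, h1]

/-- the number of pairs of points with `w0 ≠ 0` is `1` modulo the characteristic -/
theorem count {q : ℕ} (hK : Fintype.card K = q ^ 2) (σ : K → K) (hσ : ∀ a, σ a = a ^ q)
    {x y : K} (hx : x ≠ 0) (hy : y ≠ 0) (hxy : x ≠ y) :
    ∑ i : Option K, ∑ j : Option K,
      σ (w0 q x y (rp i) (rp j)) * w0 q x y (rp i) (rp j) = 1 := by
  classical
  have hw : ∀ l m : K × K, σ (w0 q x y l m) * w0 q x y l m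
      = if (l.1 * m.2 - l.2 * m.1) * (x * l.2 * m.1 - y * l.1 * m.2) = 0 then 0 else 1 := by
    intro l m
    unfold w0
    rw [hσ]
    exact pow_card_sub_one' hK _
  simp only [hw]
  have hq0 := cast_card_zero (K := K) hK
  have hsum1 : (∑ _w : K, (1 : K)) = 0 := by
    rw [Finset.sum_const, Finset.card_univ, hK]
    simp only [nsmul_eq_mul, mul_one]
    push_cast
    exact hq0
  rw [Fintype.sum_option]
  -- the point at infinity
  have hinf : (∑ j : Option K, if ((rp (none : Option K)).1 * (rp j).2
      - (rp (none : Option K)).2 * (rp j).1) * (x * (rp (none : Option K)).2 * (rp j).1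
      - y * (rp (none : Option K)).1 * (rp j).2) = 0 then (0 : K) else 1) = 0 := by
    rw [Fintype.sum_option]
    have e0 : ∀ w : K, (if ((rp (none : Option K)).1 * (rp (some w)).2
        - (rp (none : Option K)).2 * (rp (some w)).1) * (x * (rp (none : Option K)).2
        * (rp (some w)).1 - y * (rp (none : Option K)).1 * (rp (some w)).2) = 0
        then (0 : K) else 1) = 1 := by
      intro w
      simp [rp, rp0, rp1, hy]
    simp only [e0]
    rw [hsum1]
    simp [rp, rp0, rp1]
  rw [hinf, zero_add]
  have hz : ∀ z : K, (∑ j : Option K, if ((rp (some z)).1 * (rp j).2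
      - (rp (some z)).2 * (rp j).1) * (x * (rp (some z)).2 * (rp j).1
      - y * (rp (some z)).1 * (rp j).2) = 0 then (0 : K) else 1)
      = (if z = 0 then 1 else 0) - 1 := by
    intro z
    rw [Fintype.sum_option]
    have e0 : (if ((rp (some z)).1 * (rp (none : Option K)).2
        - (rp (some z)).2 * (rp (none : Option K)).1) * (x * (rp (some z)).2
        * (rp (none : Option K)).1 - y * (rp (some z)).1 * (rp (none : Option K)).2) = 0
        then (0 : K) else 1) = 1 := by
      simp [rp, rp0, rp1, hx]
    rw [e0]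
    have e1 : ∀ w : K, (if ((rp (some z)).1 * (rp (some w)).2
        - (rp (some z)).2 * (rp (some w)).1) * (x * (rp (some z)).2
        * (rp (some w)).1 - y * (rp (some z)).1 * (rp (some w)).2) = 0
        then (0 : K) else 1) = 1 - (if w = z then 1 else 0)
          - (if w = y * z / x then 1 else 0) + (if w = z ∧ z = 0 then 1 else 0) := by
      intro w
      simp only [rp, rp0, rp1, mul_one, one_mul]
      by_cases h1 : w = z
      · subst h1
        by_cases h2 : w = 0
        · subst h2
          simp
        · have h3 : w ≠ y * w / x := by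
            intro h
            rw [eq_div_iff hx] at h
            have : x = y := by
              have h5 : w * (x - y) = 0 := by linear_combination h
              rcases mul_eq_zero.1 h5 with h6 | h6
              · exact absurd h6 h2
              · exact sub_eq_zero.1 h6
            exact hxy this
          rw [if_neg h3, if_neg (by tauto : ¬ (w = w ∧ w = 0))]
          simp
      · by_cases h2 : w = y * z / x
        · have h3 : x * w - y * z = 0 := by
            rw [h2]
            field_simp
            ring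
          rw [if_pos (by rw [h3, mul_zero]), if_neg h1, if_pos h2, if_neg (by tauto)]
          ring
        · have h3 : x * w - y * z ≠ 0 := by
            intro h
            apply h2
            rw [eq_div_iff hx]
            linear_combination h
          have h4 : z - w ≠ 0 := sub_ne_zero.2 (Ne.symm h1)
          rw [if_neg (mul_ne_zero h4 h3), if_neg h1, if_neg h2, if_neg (by tauto)]
          ring
    simp only [e1]
    rw [Finset.sum_add_distrib, Finset.sum_sub_distrib, Finset.sum_sub_distrib, hsum1]
    have e2 : (∑ w : K, if w = z ∧ z = 0 then (1 : K) else 0) = if z = 0 then 1 else 0 := by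
      by_cases h : z = 0
      · simp [h]
      · simp [h]
    rw [e2]
    simp only [Finset.sum_ite_eq', Finset.mem_univ, if_true]
    ring
  simp only [hz]
  rw [Finset.sum_sub_distrib, hsum1]
  simp

end Crest.Agent.R289.Avg277
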