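import Mathlib
/-!
# BLR linearity testing with values in an arbitrary abelian group (helper192, row 289)

`G` finite abelian group, `A` any abelian group, `F : G → A`.  If fewer than `|G|^2/6` of the tests
`F x + F y = F (x+y)` fail, then `F` agrees with a homomorphism outside `2 * bad / |G|` points.
`K`-linear version with scalar tests, distance of homomorphisms, self-correction (few wrong reads).
-/
set_option autoImplicit false

namespace Crest.Agent.R289.BLR192

open Finset

section General

variable {G A : Type*} [AddCommGroup G] [Fintype G] [DecidableEq G] [AddCommGroup A] [DecidableEq A]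

/-- number of failing additivity tests -/
def bad (F : G → A) : ℕ := (univ.filter fun p : G × G => F p.1 + F p.2 ≠ F (p.1 + p.2)).card

/-- number of `y` with `F (x+y) - F y = c` -/
def cnt (F : G → A) (x : G) (c : A) : ℕ := (univ.filter fun y : G => F (x + y) - F y = c).card

/-- pairs `(y,y')` on which the two votes for `F x` differ -/
theorem diff_pairs (F : G → A) (x : G) :
    (univ.filter fun p : G × G => F (x + p.1) - F p.1 ≠ F (x + p.2) - F p.2).card
      ≤ 2 * bad F := by
  classical
  have hsub : (univ.filter fun p : G × G => F (x + p.1) - F p.1 ≠ F (x + p.2) - F p.2) ⊆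
      (univ.filter fun p : G × G => F (x + p.1) + F p.2 ≠ F (x + p.1 + p.2)) ∪
      (univ.filter fun p : G × G => F (x + p.2) + F p.1 ≠ F (x + p.2 + p.1)) := by
    rintro ⟨y, y'⟩ hp
    simp only [mem_union, mem_filter, mem_univ, true_and] at hp ⊢
    by_contra hcon
    push Not at hcon
    obtain ⟨h1, h2⟩ := hcon
    have h3 : x + y' + y = x + y + y' := by abel
    rw [h3, ← h1] at h2
    apply hp
    rw [sub_eq_sub_iff_add_eq_add]
    exact h2.symm
  refine (Finset.card_le_card hsub).trans ((Finset.card_union_le _ _).trans ?_)
  have e1 : (univ.filter fun p : G × G => F (x + p.1) + F p.2 ≠ F (x + p.1 + p.2)).card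
      = bad F := by
    unfold bad
    refine Finset.card_bij (fun p _ => (x + p.1, p.2)) ?_ ?_ ?_
    · intro p hp
      simpa using hp
    · intro p _ q _ h
      simp only [Prod.mk.injEq, add_right_inj] at h
      exact Prod.ext h.1 h.2
    · intro p hp
      refine ⟨(p.1 - x, p.2), ?_, ?_⟩
      · simp only [mem_filter, mem_univ, true_and] at hp ⊢
        simpa using hp
      · simp
  have e2 : (univ.filter fun p : G × G => F (x + p.2) + F p.1 ≠ F (x + p.2 + p.1)).card
      = bad F := by
    unfold bad
    refine Finset.card_bij (fun p _ => (x + p.2, p.1)) ?_ ?_ ?_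
    · intro p hp
      simpa using hp
    · intro p _ q _ h
      simp only [Prod.mk.injEq, add_right_inj] at h
      exact Prod.ext h.2 h.1
    · intro p hp
      refine ⟨(p.2, p.1 - x), ?_, ?_⟩
      · simp only [mem_filter, mem_univ, true_and] at hp ⊢
        simpa using hp
      · simp
  rw [e1, e2]; omega

/-- there is a very popular value of the vote at `x` -/
theorem exists_maj (F : G → A) (x : G) : ∃ c : A,
    Fintype.card G * (univ.filter fun y : G => F (x + y) - F y ≠ c).card ≤ 2 * bad F := by
  classical
  by_contra hcon
  push Not at hcon
  -- sum over y of #{y' : votes differ}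
  have h := diff_pairs F x
  have hn : 0 < Fintype.card G := Fintype.card_pos_iff.mpr ⟨0⟩
  have hs : (univ.filter fun p : G × G => F (x + p.1) - F p.1 ≠ F (x + p.2) - F p.2).card
      = ∑ y : G, (univ.filter fun y' : G => F (x + y) - F y ≠ F (x + y') - F y').card := by
    simp only [Finset.card_filter]
    rw [Fintype.sum_prod_type]
  rw [hs] at h
  have h2 : ∑ y : G, (Fintype.card G * (univ.filter fun y' : G =>
      F (x + y) - F y ≠ F (x + y') - F y').card) ≤ Fintype.card G * (2 * bad F) := by
    rw [← Finset.mul_sum]
    exact Nat.mul_le_mul_left _ h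
  have h3 : ∑ y : G, (2 * bad F + 1) ≤ ∑ y : G, (Fintype.card G * (univ.filter fun y' : G =>
      F (x + y) - F y ≠ F (x + y') - F y').card) := by
    refine Finset.sum_le_sum fun y _ => ?_
    have := hcon (F (x + y) - F y)
    have e : (univ.filter fun y' : G => F (x + y') - F y' ≠ F (x + y) - F y)
        = (univ.filter fun y' : G => F (x + y) - F y ≠ F (x + y') - F y') := by
      ext y'
      simp [ne_comm]
    rw [e] at this
    omega
  rw [Finset.sum_const, Finset.card_univ, smul_eq_mul] at h3
  nlinarith

/-- the self-corrected function -/
noncomputable def maj (F : G → A) (x : G) : A := (exists_maj F x).choose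

theorem maj_minor (F : G → A) (x : G) :
    Fintype.card G * (univ.filter fun y : G => F (x + y) - F y ≠ maj F x).card ≤ 2 * bad F :=
  (exists_maj F x).choose_spec

theorem maj_small (F : G → A) (hF : 6 * bad F < Fintype.card G ^ 2) (z : G) :
    3 * (univ.filter fun y : G => F (z + y) - F y ≠ maj F z).card < Fintype.card G := by
  have := maj_minor F z
  have hn : 0 < Fintype.card G := Fintype.card_pos_iff.mpr ⟨0⟩
  by_contra hcon
  push Not at hcon
  nlinarith

theorem maj_add (F : G → A) (hF : 6 * bad F < Fintype.card G ^ 2) (x y : G) :
    maj F (x + y) = maj F x + maj F y := by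
  classical
  set S := univ.filter fun z : G => F (x + z) - F z ≠ maj F x with hS
  set B := univ.filter fun z : G => F (y + (x + z)) - F (x + z) ≠ maj F y with hB
  set C := univ.filter fun z : G => F (x + y + z) - F z ≠ maj F (x + y) with hC
  have hBc : B.card = (univ.filter fun z : G => F (y + z) - F z ≠ maj F y).card := by
    refine Finset.card_bij (fun z _ => x + z) ?_ ?_ ?_
    · intro z hz
      simpa [hB] using hz
    · intro a _ b _ h
      exact add_left_cancel h
    · intro z hz
      refine ⟨z - x, ?_, ?_⟩
      · simpa [hB] using hz
      · simp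
  have hlt : (S ∪ B ∪ C).card < (univ : Finset G).card := by
    have h1 := maj_small F hF x
    have h2 := maj_small F hF y
    have h3 := maj_small F hF (x + y)
    rw [← hBc] at h2
    have h4 : (S ∪ B ∪ C).card ≤ S.card + B.card + C.card :=
      (Finset.card_union_le _ _).trans (Nat.add_le_add_right (Finset.card_union_le _ _) _)
    rw [Finset.card_univ]
    have h1' : 3 * S.card < Fintype.card G := h1
    have h3' : 3 * C.card < Fintype.card G := h3
    omega
  obtain ⟨z, -, hz⟩ := Finset.exists_mem_notMem_of_card_lt_card hlt
  simp only [mem_union, not_or] at hz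
  obtain ⟨⟨hzA, hzB⟩, hzC⟩ := hz
  simp only [hS, hB, hC, mem_filter, mem_univ, true_and, not_not] at hzA hzB hzC
  have e : y + (x + z) = x + y + z := by abel
  rw [e] at hzB
  rw [← hzA, ← hzB, ← hzC]
  abel

theorem maj_dist (F : G → A) (hF : 6 * bad F < Fintype.card G ^ 2) :
    Fintype.card G * (univ.filter fun x => F x ≠ maj F x).card ≤ 2 * bad F := by
  classical
  set T := univ.filter fun x => F x ≠ maj F x with hT
  have hsub : (T.sigma fun x => univ.filter fun y : G => F (x + y) - F y = maj F x).card
      ≤ bad F := by
    unfold bad
    refine Finset.card_le_card_of_injOn (fun s => (s.1, s.2)) ?_ ?_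
    · rintro ⟨x, y⟩ hs
      simp only [coe_sigma, Set.mem_sigma_iff, mem_coe, hT, mem_filter, mem_univ, true_and] at hs
      simp only [coe_filter, mem_univ, true_and, Set.mem_ofPred_eq]
      intro hcon
      apply hs.1
      rw [← hs.2, ← hcon]
      abel
    · rintro ⟨x, y⟩ _ ⟨x', y'⟩ _ h
      simp only [Prod.mk.injEq] at h
      obtain ⟨rfl, rfl⟩ := h
      rfl
  rw [Finset.card_sigma] at hsub
  have hmaj : ∀ x : G, Fintype.card G ≤
      2 * (univ.filter fun y : G => F (x + y) - F y = maj F x).card := by
    intro x
    have h1 := maj_small F hF x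
    have h2 := Finset.card_filter_add_card_filter_not (s := (univ : Finset G))
      (fun y : G => F (x + y) - F y = maj F x)
    rw [Finset.card_univ] at h2
    have h3 : (univ.filter fun y : G => ¬ (F (x + y) - F y = maj F x)).card =
      (univ.filter fun y : G => F (x + y) - F y ≠ maj F x).card := rfl
    omega
  have hge : T.card * Fintype.card G
      ≤ 2 * ∑ x ∈ T, (univ.filter fun y : G => F (x + y) - F y = maj F x).card := by
    rw [Finset.mul_sum, ← smul_eq_mul, ← Finset.sum_const]
    exact Finset.sum_le_sum fun x _ => hmaj x
  nlinarith

/-- **BLR** : few failing additivity tests => close to a homomorphism. -/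
theorem blr (F : G → A) (hF : 6 * bad F < Fintype.card G ^ 2) :
    ∃ g : G →+ A, Fintype.card G * (univ.filter fun x => F x ≠ g x).card ≤ 2 * bad F := by
  have h0 : maj F 0 = 0 := by
    have := maj_add F hF 0 0
    rw [add_zero] at this
    simpa using this
  exact ⟨⟨⟨maj F, h0⟩, maj_add F hF⟩, maj_dist F hF⟩

/-- two different homomorphisms differ on at least half of the points -/
theorem hom_dist (g h : G →+ A) (hne : g ≠ h) :
    Fintype.card G ≤ 2 * (univ.filter fun x => g x ≠ h x).card := by
  classical
  obtain ⟨a, ha⟩ : ∃ a, g a ≠ h a := by
    by_contra hcon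
    push Not at hcon
    exact hne (AddMonoidHom.ext hcon)
  have h1 : (univ.filter fun x => g x = h x).card ≤ (univ.filter fun x => g x ≠ h x).card := by
    refine Finset.card_le_card_of_injOn (fun x => x + a) ?_ ?_
    · intro x hx
      simp only [coe_filter, mem_univ, true_and, Set.mem_ofPred_eq] at hx ⊢
      rw [map_add, map_add, hx]
      intro hcon
      exact ha (add_left_cancel hcon)
    · intro x _ y _ h
      exact add_right_cancel h
  have h2 := Finset.card_filter_add_card_filter_not (s := (univ : Finset G))
    (fun x : G => g x = h x)
  rw [Finset.card_univ] at h2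
  have h3 : (univ.filter fun x : G => ¬ (g x = h x)).card =
    (univ.filter fun x : G => g x ≠ h x).card := rfl
  omega

/-- the homomorphism near `F` is unique (if the two error counts are together `< |G|/2`) -/
theorem hom_unique (F : G → A) (g h : G →+ A)
    (hlt : 2 * ((univ.filter fun x => F x ≠ g x).card + (univ.filter fun x => F x ≠ h x).card)
      < Fintype.card G) : g = h := by
  classical
  by_contra hne
  have h1 := hom_dist g h hne
  have h2 : (univ.filter fun x => g x ≠ h x).card ≤
      (univ.filter fun x => F x ≠ g x).card + (univ.filter fun x => F x ≠ h x).card := by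
    refine le_trans (Finset.card_le_card ?_) (Finset.card_union_le _ _)
    intro x hx
    simp only [mem_union, mem_filter, mem_univ, true_and] at hx ⊢
    by_contra hcon
    push Not at hcon
    exact hx (hcon.1.symm.trans hcon.2)
  omega

end General

section Linear

variable {K G A : Type*} [Field K] [AddCommGroup G] [Module K G] [Fintype G] [DecidableEq G]
  [AddCommGroup A] [Module K A] [DecidableEq A]

/-- number of points where the scalar test for `c` fails -/
def badS (F : G → A) (c : K) : ℕ := (univ.filter fun x : G => F (c • x) ≠ c • F x).card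

/-- a homomorphism close to `F`, where `F` passes the scalar test for `c ≠ 0` often, commutes
with `c`. -/
theorem hom_smul (F : G → A) (g : G →+ A) (c : K) (hc : c ≠ 0)
    (hlt : 2 * (2 * (univ.filter fun x => F x ≠ g x).card + badS F c) < Fintype.card G) (x : G) :
    g (c • x) = c • g x := by
  classical
  set g1 : G →+ A := g.comp (DistribSMul.toAddMonoidHom G c) with hg1
  set g2 : G →+ A := (DistribSMul.toAddMonoidHom A c).comp g with hg2
  have : g1 = g2 := by
    by_contra hne
    have h1 := hom_dist g1 g2 hne
    have h2 : (univ.filter fun x => g1 x ≠ g2 x).card ≤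
        2 * (univ.filter fun x => F x ≠ g x).card + badS F c := by
      have hsub : (univ.filter fun x => g1 x ≠ g2 x) ⊆
          ((univ.filter fun x => F x ≠ g x) ∪ (univ.filter fun x => F (c • x) ≠ g (c • x))) ∪
          (univ.filter fun x : G => F (c • x) ≠ c • F x) := by
        intro x hx
        simp only [mem_union, mem_filter, mem_univ, true_and] at hx ⊢
        by_contra hcon
        push Not at hcon
        obtain ⟨⟨ha, hb⟩, hd⟩ := hcon
        apply hx
        show g (c • x) = c • g x
        rw [← hb, hd, ha]
      have e : (univ.filter fun x => F (c • x) ≠ g (c • x)).card =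
          (univ.filter fun x => F x ≠ g x).card := by
        refine Finset.card_bij (fun x _ => c • x) ?_ ?_ ?_
        · intro x hx
          simpa using hx
        · intro x _ y _ h
          exact smul_right_injective G hc h
        · intro x hx
          refine ⟨c⁻¹ • x, ?_, ?_⟩
          · simp only [mem_filter, mem_univ, true_and] at hx ⊢
            rw [smul_inv_smul₀ hc]
            exact hx
          · exact smul_inv_smul₀ hc x
      refine (Finset.card_le_card hsub).trans ((Finset.card_union_le _ _).trans ?_)
      have := Finset.card_union_le (univ.filter fun x => F x ≠ g x)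
        (univ.filter fun x => F (c • x) ≠ g (c • x))
      unfold badS
      omega
    omega
  exact DFunLike.congr_fun this x

/-- **BLR, linear version**: additivity tests and scalar tests for every `c ≠ 0` (a constant
number of scalars). -/
theorem blr_linear (F : G → A) (hF : 6 * bad F < Fintype.card G ^ 2)
    (hs : ∀ c : K, c ≠ 0 → 2 * (4 * bad F + Fintype.card G * badS F c) < Fintype.card G ^ 2) :
    ∃ g : G →ₗ[K] A, Fintype.card G * (univ.filter fun x => F x ≠ g x).card ≤ 2 * bad F := by
  obtain ⟨g, hg⟩ := blr F hF
  have hn : 0 < Fintype.card G := Fintype.card_pos_iff.mpr ⟨0⟩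
  refine ⟨{ toFun := g, map_add' := g.map_add, map_smul' := ?_ }, hg⟩
  intro c x
  by_cases hc : c = 0
  · subst hc
    simp
  · refine hom_smul F g c hc ?_ x
    have h := hs c hc
    by_contra hcon
    push Not at hcon
    nlinarith

end Linear

section SelfCorrect

variable {G A : Type*} [AddCommGroup G] [Fintype G] [DecidableEq G] [AddCommGroup A]
  [DecidableEq A]

/-- Reading a homomorphism through `F (x + r) - F r` is wrong for at most `2 e` shifts `r`. -/
theorem read_shift (F : G → A) (g : G →+ A) (x : G) :
    (univ.filter fun r : G => F (x + r) - F r ≠ g x).card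
      ≤ 2 * (univ.filter fun x => F x ≠ g x).card := by
  classical
  have hsub : (univ.filter fun r : G => F (x + r) - F r ≠ g x) ⊆
      (univ.filter fun r => F r ≠ g r) ∪ (univ.filter fun r => F (x + r) ≠ g (x + r)) := by
    intro r hr
    simp only [mem_union, mem_filter, mem_univ, true_and] at hr ⊢
    by_contra hcon
    push Not at hcon
    apply hr
    rw [hcon.1, hcon.2, map_add]
    abel
  have e : (univ.filter fun r => F (x + r) ≠ g (x + r)).card =
      (univ.filter fun x => F x ≠ g x).card := by
    refine Finset.card_bij (fun r _ => x + r) ?_ ?_ ?_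
    · intro r hr
      simpa using hr
    · intro a _ b _ h
      exact add_left_cancel h
    · intro r hr
      refine ⟨r - x, ?_, ?_⟩
      · simpa using hr
      · simp
  refine (Finset.card_le_card hsub).trans ((Finset.card_union_le _ _).trans ?_)
  omega

end SelfCorrect

end Crest.Agent.R289.BLR192
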