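import Mathlib

/-!
Row 289 (helper46): the Blum-Luby-Rubinfeld lemma with values in an arbitrary commutative group,
its linear version, and the long code (dictator) test.  Mathlib only.
-/

set_option autoImplicit false
set_option linter.unusedSectionVars false

namespace Crest.Agent.R289.BLR46

open Finset

section blr

variable {G V : Type*} [Fintype G] [AddCommGroup G] [AddCommGroup V] [DecidableEq V]

/-- violated additive tests -/
def bad (h : G → V) : Finset (G × G) :=
  univ.filter fun p => h p.1 + h p.2 ≠ h (p.1 + p.2)

/-- the points `y` which vote for the value `v` at `x` -/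
def votes (h : G → V) (x : G) (v : V) : Finset G :=
  univ.filter fun y => h (x + y) - h y = v

/-- the points `y` which do not vote for the value `v` at `x` -/
def contra (h : G → V) (x : G) (v : V) : Finset G :=
  univ.filter fun y => ¬ h (x + y) - h y = v

theorem votes_add_contra (h : G → V) (x : G) (v : V) :
    (votes h x v).card + (contra h x v).card = Fintype.card G := by
  unfold votes contra
  rw [Finset.card_filter_add_card_filter_not]
  rfl

/-- pairs of votes that differ -/
theorem card_differ_le (h : G → V) (x : G) :
    (univ.filter fun p : G × G => ¬ h (x + p.2) - h p.2 = h (x + p.1) - h p.1).card ≤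
      2 * (bad h).card := by
  classical
  have h1 : (univ.filter fun p : G × G => (x + p.1, p.2) ∈ bad h).card ≤ (bad h).card := by
    refine Finset.card_le_card_of_injOn (fun p => (x + p.1, p.2)) ?_ ?_
    · intro p hp
      simpa using hp
    · rintro ⟨a, b⟩ _ ⟨c, d⟩ _ hpq
      simp only [Prod.mk.injEq, add_right_inj] at hpq
      exact Prod.ext hpq.1 hpq.2
  have h2 : (univ.filter fun p : G × G => (x + p.2, p.1) ∈ bad h).card ≤ (bad h).card := by
    refine Finset.card_le_card_of_injOn (fun p => (x + p.2, p.1)) ?_ ?_
    · intro p hp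
      simpa using hp
    · rintro ⟨a, b⟩ _ ⟨c, d⟩ _ hpq
      simp only [Prod.mk.injEq, add_right_inj] at hpq
      exact Prod.ext hpq.2 hpq.1
  have hsub : (univ.filter fun p : G × G => ¬ h (x + p.2) - h p.2 = h (x + p.1) - h p.1) ⊆
      (univ.filter fun p : G × G => (x + p.1, p.2) ∈ bad h) ∪
        (univ.filter fun p : G × G => (x + p.2, p.1) ∈ bad h) := by
    rintro ⟨y, z⟩ hp
    simp only [mem_filter, mem_univ, true_and, mem_union, bad] at hp ⊢
    by_contra hc
    push Not at hc
    obtain ⟨e1, e2⟩ := hc
    apply hp
    have e3 : x + y + z = x + z + y := by abel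
    rw [e3] at e1
    have e4 : h (x + y) + h z = h (x + z) + h y := e1.trans e2.symm
    rw [sub_eq_sub_iff_add_eq_add]
    exact e4.symm
  calc _ ≤ _ := Finset.card_le_card hsub
    _ ≤ _ := Finset.card_union_le _ _
    _ ≤ _ := by omega

/-- some value gets almost all votes -/
theorem exists_votes (h : G → V) (x : G) : ∃ v, Fintype.card G * (contra h x v).card ≤
    2 * (bad h).card := by
  classical
  by_contra hc
  push Not at hc
  have hs : ∑ y : G, (contra h x (h (x + y) - h y)).card ≤ 2 * (bad h).card := by
    refine le_trans (le_of_eq ?_) (card_differ_le h x)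
    rw [Finset.card_filter, Fintype.sum_prod_type]
    refine Finset.sum_congr rfl fun y _ => ?_
    unfold contra
    rw [Finset.card_filter]
  have hN : 0 < Fintype.card G := Fintype.card_pos
  have h3 : ∑ y : G, Fintype.card G * (contra h x (h (x + y) - h y)).card >
      ∑ _y : G, 2 * (bad h).card :=
    Finset.sum_lt_sum_of_nonempty univ_nonempty fun y _ => hc _
  rw [← Finset.mul_sum, Finset.sum_const, Finset.card_univ, smul_eq_mul] at h3
  exact absurd (lt_of_mul_lt_mul_left h3 (Nat.zero_le _)) (not_lt.2 hs)

/-- **Blum-Luby-Rubinfeld**, self-correcting form, values in any commutative group -/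
theorem blr (h : G → V) (hb : 6 * (bad h).card < Fintype.card G * Fintype.card G) :
    ∃ g : G →+ V, (∀ x, Fintype.card G * (contra h x (g x)).card ≤ 2 * (bad h).card) ∧
      Fintype.card G * (univ.filter fun x => ¬ h x = g x).card ≤ 2 * (bad h).card := by
  classical
  choose g hg using exists_votes h
  have hN : 0 < Fintype.card G := Fintype.card_pos
  have hadd : ∀ a b, g (a + b) = g a + g b := by
    intro a b
    have hsh : (univ.filter fun y => b + y ∈ contra h a (g a)).card ≤ (contra h a (g a)).card := by
      refine Finset.card_le_card_of_injOn (fun y => b + y) ?_ ?_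
      · intro y hy
        simpa using hy
      · intro y _ z _ hyz
        simpa using hyz
    have hlt : ((univ.filter fun y => b + y ∈ contra h a (g a)) ∪ contra h b (g b) ∪
        contra h (a + b) (g (a + b))).card < Fintype.card G := by
      have e1 := hg a
      have e2 := hg b
      have e3 := hg (a + b)
      have e4 : Fintype.card G * ((univ.filter fun y => b + y ∈ contra h a (g a)) ∪
          contra h b (g b) ∪ contra h (a + b) (g (a + b))).card ≤ 6 * (bad h).card := by
        calc _ ≤ Fintype.card G * ((contra h a (g a)).card + (contra h b (g b)).card +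
              (contra h (a + b) (g (a + b))).card) := by
                refine Nat.mul_le_mul_left _ ((Finset.card_union_le _ _).trans ?_)
                have := Finset.card_union_le (univ.filter fun y => b + y ∈ contra h a (g a))
                  (contra h b (g b))
                omega
          _ ≤ _ := by
                rw [Nat.mul_add, Nat.mul_add]
                omega
      exact lt_of_mul_lt_mul_left (e4.trans_lt hb) (Nat.zero_le _)
    obtain ⟨y, hy⟩ : ∃ y, y ∉ ((univ.filter fun y => b + y ∈ contra h a (g a)) ∪
        contra h b (g b) ∪ contra h (a + b) (g (a + b))) := by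
      by_contra hc
      push Not at hc
      rw [Finset.eq_univ_of_forall hc, Finset.card_univ] at hlt
      exact lt_irrefl _ hlt
    simp only [mem_union, mem_filter, mem_univ, true_and, contra, not_or, not_not] at hy
    obtain ⟨⟨y1, y2⟩, y3⟩ := hy
    rw [← y1, ← y2, ← y3, add_assoc]
    abel
  refine ⟨AddMonoidHom.mk' g hadd, hg, ?_⟩
  set D := univ.filter fun x => ¬ h x = (AddMonoidHom.mk' g hadd) x with hD
  have h1 : ∑ x ∈ D, (votes h x (g x)).card ≤ (bad h).card := by
    have e : ∀ x ∈ D, (votes h x (g x)).card ≤ ((bad h).filter fun p => p.1 = x).card := by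
      intro x hx
      have hx' : ¬ h x = g x := by
        rw [hD] at hx
        simpa using hx
      refine Finset.card_le_card_of_injOn (fun y => (x, y)) ?_ ?_
      · intro y hy
        simp only [votes, coe_filter, mem_univ, true_and, Set.mem_ofPred_eq] at hy
        simp only [bad, coe_filter, mem_filter, mem_univ, true_and, and_true, Set.mem_ofPred_eq]
        intro hcon
        apply hx'
        rw [← hy, ← hcon]
        abel
      · intro y _ z _ hyz
        simpa using hyz
    refine (Finset.sum_le_sum e).trans ?_
    rw [← Finset.card_biUnion]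
    · refine Finset.card_le_card ?_
      intro p hp
      simp only [mem_biUnion, mem_filter] at hp
      obtain ⟨_, _, hp, _⟩ := hp
      exact hp
    · intro x _ z _ hxz
      rw [Function.onFun, Finset.disjoint_left]
      intro p hp hq
      simp only [mem_filter] at hp hq
      exact hxz (hp.2.symm.trans hq.2)
  have h2 : ∑ x ∈ D, (Fintype.card G * Fintype.card G - 2 * (bad h).card) ≤
      Fintype.card G * (bad h).card := by
    refine le_trans ?_ (Nat.mul_le_mul_left _ h1)
    rw [Finset.mul_sum]
    refine Finset.sum_le_sum fun x _ => ?_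
    have e1 := hg x
    have e2 := votes_add_contra h x (g x)
    have e3 : Fintype.card G * (votes h x (g x)).card + Fintype.card G * (contra h x (g x)).card =
        Fintype.card G * Fintype.card G := by rw [← Nat.mul_add, e2]
    omega
  rw [Finset.sum_const, smul_eq_mul] at h2
  -- `D.card * (N^2 - 2b) ≤ N b`, `6 b < N^2`
  by_contra hc
  push Not at hc
  have h4 : D.card * (2 * (Fintype.card G * Fintype.card G)) ≤
      D.card * (3 * (Fintype.card G * Fintype.card G - 2 * (bad h).card)) :=
    Nat.mul_le_mul_left _ (by omega)
  have h5 : Fintype.card G * (2 * (Fintype.card G * D.card)) ≤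
      Fintype.card G * (3 * (bad h).card) := by
    calc _ = D.card * (2 * (Fintype.card G * Fintype.card G)) := by ring
      _ ≤ _ := h4
      _ = 3 * (D.card * (Fintype.card G * Fintype.card G - 2 * (bad h).card)) := by ring
      _ ≤ 3 * (Fintype.card G * (bad h).card) := Nat.mul_le_mul_left _ h2
      _ = _ := by ring
  have h6 := Nat.le_of_mul_le_mul_left h5 hN
  omega

/-- additive maps that agree on more than half of the group are equal -/
theorem eq_of_agree (f g : G →+ V) (h : Fintype.card G < 2 * (univ.filter fun x => f x = g x).card) :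
    f = g := by
  classical
  ext x
  set A := univ.filter fun x => f x = g x with hA
  have h1 : (univ.filter fun y => x + y ∈ A).card = A.card := by
    refine Finset.card_bij (fun y _ => x + y) ?_ ?_ ?_
    · intro y hy
      simpa using hy
    · intro y _ z _ hyz
      simpa using hyz
    · intro z hz
      refine ⟨z - x, ?_, by abel⟩
      simpa using hz
  obtain ⟨y, hy⟩ : ∃ y, y ∈ A ∩ (univ.filter fun y => x + y ∈ A) := by
    by_contra hc
    push Not at hc
    have h2 := Finset.card_union_add_card_inter A (univ.filter fun y => x + y ∈ A)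
    rw [Finset.eq_empty_of_forall_notMem hc, Finset.card_empty] at h2
    have h3 : (A ∪ (univ.filter fun y => x + y ∈ A)).card ≤ Fintype.card G :=
      Finset.card_le_univ _
    omega
  simp only [hA, mem_inter, mem_filter, mem_univ, true_and] at hy
  have e := hy.2
  rw [map_add, map_add, hy.1] at e
  exact add_right_cancel e

/-- the self-corrected value is the value of the homomorphism: uniqueness -/
theorem unique_of_close (h : G → V) (f g : G →+ V)
    (hf : 4 * (univ.filter fun x => ¬ h x = f x).card < Fintype.card G)
    (hg : 4 * (univ.filter fun x => ¬ h x = g x).card < Fintype.card G) : f = g := by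
  classical
  refine eq_of_agree f g ?_
  have h1 : Fintype.card G ≤ (univ.filter fun x => f x = g x).card +
      ((univ.filter fun x => ¬ h x = f x).card + (univ.filter fun x => ¬ h x = g x).card) := by
    rw [← Finset.card_univ]
    refine le_trans (Finset.card_le_card (t := (univ.filter fun x => f x = g x) ∪
      ((univ.filter fun x => ¬ h x = f x) ∪ (univ.filter fun x => ¬ h x = g x))) ?_) ?_
    · intro x _
      simp only [mem_union, mem_filter, mem_univ, true_and]
      by_contra hc
      push Not at hc
      exact hc.1 (hc.2.1.symm.trans hc.2.2)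
    · refine (Finset.card_union_le _ _).trans ?_
      have := Finset.card_union_le (univ.filter fun x => ¬ h x = f x)
        (univ.filter fun x => ¬ h x = g x)
      omega
  omega

end blr

section linear

variable {K G V : Type*} [Field K] [Fintype G] [AddCommGroup G] [AddCommGroup V] [DecidableEq V]
  [Module K G] [Module K V]

/-- one scalar test gives homogeneity for this scalar -/
theorem smul_of_test (h : G → V) (g : G →+ V) {a : K} (ha : a ≠ 0)
    (ht : 2 * (2 * (univ.filter fun x => ¬ h x = g x).card +
      (univ.filter fun y : G => ¬ h (a • y) = a • h y).card) < Fintype.card G) (y : G) :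
    g (a • y) = a • g y := by
  classical
  have key : g.comp (DistribSMul.toAddMonoidHom G a) =
      (DistribSMul.toAddMonoidHom V a).comp g := by
    refine eq_of_agree _ _ ?_
    have hsh : (univ.filter fun y : G => ¬ h (a • y) = g (a • y)).card ≤
        (univ.filter fun x => ¬ h x = g x).card := by
      refine Finset.card_le_card_of_injOn (fun y => a • y) ?_ ?_
      · intro y hy
        simpa using hy
      · intro y _ z _ hyz
        exact smul_right_injective G ha hyz
    have h1 : Fintype.card G ≤ (univ.filter fun x =>
        (g.comp (DistribSMul.toAddMonoidHom G a)) x =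
          ((DistribSMul.toAddMonoidHom V a).comp g) x).card +
        ((univ.filter fun y : G => ¬ h (a • y) = g (a • y)).card +
          (univ.filter fun x => ¬ h x = g x).card +
          (univ.filter fun y : G => ¬ h (a • y) = a • h y).card) := by
      rw [← Finset.card_univ]
      refine le_trans (Finset.card_le_card (t := (univ.filter fun x =>
        (g.comp (DistribSMul.toAddMonoidHom G a)) x =
          ((DistribSMul.toAddMonoidHom V a).comp g) x) ∪
          (((univ.filter fun y : G => ¬ h (a • y) = g (a • y)) ∪
          (univ.filter fun x => ¬ h x = g x)) ∪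
          (univ.filter fun y : G => ¬ h (a • y) = a • h y))) ?_) ?_
      · intro x _
        simp only [mem_union, mem_filter, mem_univ, true_and]
        by_contra hc
        push Not at hc
        obtain ⟨c0, ⟨c1, c2⟩, c3⟩ := hc
        apply c0
        change g (a • x) = a • g x
        rw [← c1, c3, c2]
      · refine (Finset.card_union_le _ _).trans ?_
        have e1 := Finset.card_union_le ((univ.filter fun y : G => ¬ h (a • y) = g (a • y)) ∪
          (univ.filter fun x => ¬ h x = g x)) (univ.filter fun y : G => ¬ h (a • y) = a • h y)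
        have e2 := Finset.card_union_le (univ.filter fun y : G => ¬ h (a • y) = g (a • y))
          (univ.filter fun x => ¬ h x = g x)
        omega
    omega
  exact DFunLike.congr_fun key y

/-- homogeneous for a generator of `K^*` ⇒ linear -/
theorem linear_of_gen (g : G →+ V) (a : K) (hgen : ∀ b : K, b ≠ 0 → ∃ n : ℕ, b = a ^ n)
    (ha : ∀ y, g (a • y) = a • g y) : ∃ f : G →ₗ[K] V, ∀ y, f y = g y := by
  have hp : ∀ n : ℕ, ∀ y, g (a ^ n • y) = a ^ n • g y := by
    intro n
    induction n with
    | zero => intro y; simp
    | succ n ih => intro y; rw [pow_succ', mul_smul, ha, ih, ← mul_smul]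
  refine ⟨{ toFun := g, map_add' := g.map_add, map_smul' := ?_ }, fun _ => rfl⟩
  intro b y
  by_cases hb : b = 0
  · simp [hb]
  · obtain ⟨n, rfl⟩ := hgen b hb
    exact hp n y

/-- a non-zero functional is non-zero on at least `(q-1)/q` of the points -/
theorem card_ne_zero_ge [Fintype K] [DecidableEq K] (f : G →ₗ[K] K) (hf : f ≠ 0) :
    (Fintype.card K - 1) * Fintype.card G ≤
      Fintype.card K * (univ.filter fun x => ¬ f x = 0).card := by
  classical
  obtain ⟨e, he⟩ : ∃ e, f e = 1 := by
    obtain ⟨x, hx⟩ : ∃ x, f x ≠ 0 := by
      by_contra hc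
      push Not at hc
      exact hf (LinearMap.ext hc)
    exact ⟨(f x)⁻¹ • x, by rw [map_smul, smul_eq_mul, inv_mul_cancel₀ hx]⟩
  have h1 : Fintype.card K * (univ.filter fun x => f x = 0).card ≤ Fintype.card G := by
    rw [← Finset.card_univ (α := G), mul_comm, ← Finset.card_univ (α := K), ← Finset.card_product]
    refine Finset.card_le_card_of_injOn (fun p => p.1 + p.2 • e) (fun _ _ => by simp) ?_
    rintro ⟨x, t⟩ hx ⟨x', t'⟩ hx' hxx
    simp only [coe_product, coe_filter, mem_univ, true_and, Set.mem_prod] at hx hx'
    have e1 := congrArg f hxx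
    simp only [map_add, map_smul, he, smul_eq_mul, mul_one] at e1
    have h0 : f x = 0 := hx.1
    have h0' : f x' = 0 := hx'.1
    rw [h0, h0', zero_add, zero_add] at e1
    subst e1
    have e2 : x = x' := add_right_cancel hxx
    rw [e2]
  have h2 := Finset.card_filter_add_card_filter_not (s := (univ : Finset G))
    (fun x => f x = 0)
  rw [Finset.card_univ] at h2
  have hq : 1 ≤ Fintype.card K := Fintype.card_pos
  have h3 : Fintype.card K * (univ.filter fun x => f x = 0).card +
      Fintype.card K * (univ.filter fun x => ¬ f x = 0).card =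
      Fintype.card K * Fintype.card G := by rw [← Nat.mul_add, h2]
  rw [Nat.sub_mul, one_mul]
  omega

/-- a non-zero bilinear form is non-zero on at least `((q-1)/q)^2` of the pairs -/
theorem card_bilin_ge [Fintype K] [DecidableEq K] (β : G →ₗ[K] G →ₗ[K] K) (hβ : β ≠ 0) :
    (Fintype.card K - 1) ^ 2 * Fintype.card G ^ 2 ≤
      Fintype.card K ^ 2 * (univ.filter fun p : G × G => ¬ β p.1 p.2 = 0).card := by
  classical
  obtain ⟨y0, hy0⟩ : ∃ y, β y ≠ 0 := by
    by_contra hc
    push Not at hc
    exact hβ (LinearMap.ext hc)
  obtain ⟨z0, hz0⟩ : ∃ z, β y0 z ≠ 0 := by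
    by_contra hc
    push Not at hc
    exact hy0 (LinearMap.ext hc)
  have h1 : (Fintype.card K - 1) * Fintype.card G ≤
      Fintype.card K * (univ.filter fun y => ¬ β y = 0).card := by
    have hf : β.flip z0 ≠ 0 := fun h => hz0 (by
      have := DFunLike.congr_fun h y0
      simpa using this)
    refine (card_ne_zero_ge (β.flip z0) hf).trans (Nat.mul_le_mul_left _ ?_)
    refine Finset.card_le_card fun y hy => ?_
    rw [mem_filter] at hy ⊢
    refine ⟨mem_univ _, fun h => hy.2 ?_⟩
    rw [LinearMap.flip_apply, h]
    rfl
  have h2 : (univ.filter fun y => ¬ β y = 0).card * ((Fintype.card K - 1) * Fintype.card G) ≤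
      Fintype.card K * (univ.filter fun p : G × G => ¬ β p.1 p.2 = 0).card := by
    have e : (univ.filter fun p : G × G => ¬ β p.1 p.2 = 0).card =
        ∑ y : G, (univ.filter fun z => ¬ β y z = 0).card := by
      rw [Finset.card_filter, Fintype.sum_prod_type]
      refine Finset.sum_congr rfl fun y _ => ?_
      rw [Finset.card_filter]
    rw [e, Finset.mul_sum, ← smul_eq_mul, ← Finset.sum_const]
    refine le_trans (Finset.sum_le_sum fun y hy => ?_)
      (Finset.sum_le_sum_of_subset (Finset.filter_subset _ _))
    exact card_ne_zero_ge (β y) (by simpa using hy)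
  calc (Fintype.card K - 1) ^ 2 * Fintype.card G ^ 2
      = ((Fintype.card K - 1) * Fintype.card G) * ((Fintype.card K - 1) * Fintype.card G) := by ring
    _ ≤ (Fintype.card K * (univ.filter fun y => ¬ β y = 0).card) *
        ((Fintype.card K - 1) * Fintype.card G) := Nat.mul_le_mul_right _ h1
    _ = Fintype.card K * ((univ.filter fun y => ¬ β y = 0).card *
        ((Fintype.card K - 1) * Fintype.card G)) := by ring
    _ ≤ Fintype.card K * (Fintype.card K *
        (univ.filter fun p : G × G => ¬ β p.1 p.2 = 0).card) := Nat.mul_le_mul_left _ h2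
    _ = _ := by ring

end linear

section longcode

variable {K ι : Type*} [Field K] [Fintype K] [DecidableEq K] [Fintype ι] [DecidableEq ι]

/-- the multiplicative defect of a functional on `K^ι` -/
def defect (g : (ι → K) →ₗ[K] K) : (ι → K) →ₗ[K] (ι → K) →ₗ[K] K :=
  LinearMap.mk₂ K (fun y z => g (y * z) - g y * g z)
    (by intro y y' z; simp only [add_mul, map_add]; ring)
    (by intro c y z; simp only [smul_mul_assoc, map_smul, smul_eq_mul]; ring)
    (by intro y z z'; simp only [mul_add, map_add]; ring)
    (by intro c y z; simp only [mul_smul_comm, map_smul, smul_eq_mul]; ring)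

theorem defect_apply (g : (ι → K) →ₗ[K] K) (y z : ι → K) :
    defect g y z = g (y * z) - g y * g z := rfl

/-- a multiplicative functional is zero or a coordinate -/
theorem coord_of_mul (g : (ι → K) →ₗ[K] K) (hg : ∀ y z, g (y * z) = g y * g z) :
    g = 0 ∨ ∃ j, ∀ y, g y = y j := by
  by_cases h0 : ∀ i, g (Pi.single i 1) = 0
  · left
    refine LinearMap.pi_ext' fun i => LinearMap.ext_ring ?_
    simpa using h0 i
  · right
    push Not at h0
    obtain ⟨j, hj⟩ := h0
    have h1 : g (Pi.single j 1) = 1 := by
      have e := hg (Pi.single j 1) (Pi.single j 1)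
      have e' : (Pi.single j (1 : K) : ι → K) * Pi.single j 1 = Pi.single j 1 := by
        rw [← Pi.single_mul, one_mul]
      rw [e'] at e
      exact (mul_right_cancel₀ hj (by rw [one_mul]; exact e)).symm
    refine ⟨j, fun y => ?_⟩
    have e := hg y (Pi.single j 1)
    have e' : y * (Pi.single j (1 : K) : ι → K) = y j • Pi.single j 1 := by
      ext i
      by_cases hij : i = j
      · subst hij; simp
      · simp [hij]
    rw [e', map_smul, h1, smul_eq_mul, mul_one, mul_one] at e
    exact e.symm

/-- **the long code test for functionals** -/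
theorem coord_of_test (g : (ι → K) →ₗ[K] K)
    (ht : Fintype.card K ^ 2 * (univ.filter fun p : (ι → K) × (ι → K) =>
      ¬ g (p.1 * p.2) = g p.1 * g p.2).card < (Fintype.card K - 1) ^ 2 *
        Fintype.card (ι → K) ^ 2) :
    g = 0 ∨ ∃ j, ∀ y, g y = y j := by
  classical
  by_cases hd : defect g = 0
  · refine coord_of_mul g fun y z => ?_
    have := DFunLike.congr_fun (DFunLike.congr_fun hd y) z
    rw [defect_apply] at this
    exact sub_eq_zero.1 this
  · exfalso
    have h1 := card_bilin_ge (defect g) hd
    have h2 : (univ.filter fun p : (ι → K) × (ι → K) => ¬ defect g p.1 p.2 = 0).card =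
        (univ.filter fun p : (ι → K) × (ι → K) => ¬ g (p.1 * p.2) = g p.1 * g p.2).card := by
      congr 1
      ext p
      simp only [mem_filter, mem_univ, true_and, defect_apply, sub_eq_zero]
    rw [h2] at h1
    exact absurd ht (not_lt.2 h1)

/-- violated multiplicative tests (self-corrected at the product) -/
def badMul (h : (ι → K) → K) : Finset ((ι → K) × (ι → K) × (ι → K)) :=
  univ.filter fun p => ¬ h (p.1 * p.2.1 + p.2.2) - h p.2.2 = h p.1 * h p.2.1

/-- the test of `h` bounds the test of the corrected functional -/
theorem mul_test_of_test (h : (ι → K) → K) (g : (ι → K) →ₗ[K] K)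
    (hc : ∀ x, Fintype.card (ι → K) * (contra h x (g x)).card ≤ 2 * (bad h).card)
    (hd : Fintype.card (ι → K) * (univ.filter fun x => ¬ h x = g x).card ≤ 2 * (bad h).card) :
    Fintype.card (ι → K) * (univ.filter fun p : (ι → K) × (ι → K) =>
      ¬ g (p.1 * p.2) = g p.1 * g p.2).card ≤
        (badMul h).card + 6 * (bad h).card * Fintype.card (ι → K) := by
  classical
  set N := Fintype.card (ι → K) with hN
  set S := univ.filter fun p : (ι → K) × (ι → K) => ¬ g (p.1 * p.2) = g p.1 * g p.2 with hS
  set D := univ.filter fun x => ¬ h x = g x with hD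
  -- all triples over `S`
  have h0 : N * S.card = (S ×ˢ (univ : Finset (ι → K))).card := by
    rw [Finset.card_product, Finset.card_univ, mul_comm]
  set T1 : Finset (((ι → K) × (ι → K)) × (ι → K)) :=
    univ.filter fun p => (p.1.1, p.1.2, p.2) ∈ badMul h with hT1
  set T2 : Finset (((ι → K) × (ι → K)) × (ι → K)) :=
    univ.filter fun p => p.2 ∈ contra h (p.1.1 * p.1.2) (g (p.1.1 * p.1.2)) with hT2
  set T3 : Finset (((ι → K) × (ι → K)) × (ι → K)) :=
    univ.filter fun p => p.1.1 ∈ D with hT3
  set T4 : Finset (((ι → K) × (ι → K)) × (ι → K)) :=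
    univ.filter fun p => p.1.2 ∈ D with hT4
  have hsub : S ×ˢ (univ : Finset (ι → K)) ⊆ (T1 ∪ T2) ∪ (T3 ∪ T4) := by
    rintro ⟨⟨y, z⟩, r⟩ hp
    simp only [hS, mem_product, mem_filter, mem_univ, true_and, and_true] at hp
    by_contra hcon
    simp only [hT1, hT2, hT3, hT4, hD, badMul, contra, mem_union, mem_filter, mem_univ, true_and,
      not_or, not_not] at hcon
    obtain ⟨⟨c1, c2⟩, c3, c4⟩ := hcon
    exact hp (by rw [← c2, c1, c3, c4])
  have c1 : T1.card ≤ (badMul h).card := by
    refine Finset.card_le_card_of_injOn (fun p => (p.1.1, p.1.2, p.2)) ?_ ?_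
    · intro p hp
      simpa [hT1] using hp
    · rintro ⟨⟨a, b⟩, c⟩ _ ⟨⟨a', b'⟩, c'⟩ _ hpq
      simp only [Prod.mk.injEq] at hpq
      obtain ⟨rfl, rfl, rfl⟩ := hpq
      rfl
  have c2 : T2.card ≤ N * (2 * (bad h).card) := by
    have e : T2.card = ∑ p : (ι → K) × (ι → K), (contra h (p.1 * p.2) (g (p.1 * p.2))).card := by
      rw [hT2, Finset.card_filter, Fintype.sum_prod_type]
      refine Finset.sum_congr rfl fun p _ => ?_
      rw [Finset.card_eq_sum_ones, ← Finset.sum_filter]
      refine Finset.sum_congr ?_ fun _ _ => rfl
      ext x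
      simp
    have e2 : N * T2.card ≤ N * (N * (2 * (bad h).card)) := by
      rw [e, Finset.mul_sum]
      refine (Finset.sum_le_sum fun p _ => hc _).trans ?_
      rw [Finset.sum_const, Finset.card_univ, Fintype.card_prod, smul_eq_mul, ← hN]
      exact le_of_eq (by ring)
    exact Nat.le_of_mul_le_mul_left e2 Fintype.card_pos
  have c3 : T3.card ≤ N * (2 * (bad h).card) := by
    have e : T3.card = D.card * N * N := by
      have : T3 = (D ×ˢ univ) ×ˢ univ := by
        ext ⟨⟨a, b⟩, c⟩
        simp [hT3]
      rw [this, Finset.card_product, Finset.card_product, Finset.card_univ]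
    rw [e]
    calc D.card * N * N = N * (N * D.card) := by ring
      _ ≤ _ := Nat.mul_le_mul_left _ hd
  have c4 : T4.card ≤ N * (2 * (bad h).card) := by
    have e : T4.card = N * D.card * N := by
      have : T4 = (univ ×ˢ D) ×ˢ univ := by
        ext ⟨⟨a, b⟩, c⟩
        simp [hT4]
      rw [this, Finset.card_product, Finset.card_product, Finset.card_univ]
    rw [e]
    calc N * D.card * N = N * (N * D.card) := by ring
      _ ≤ _ := Nat.mul_le_mul_left _ hd
  rw [h0]
  calc _ ≤ _ := Finset.card_le_card hsub
    _ ≤ (T1.card + T2.card) + (T3.card + T4.card) :=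
        (Finset.card_union_le _ _).trans (Nat.add_le_add (Finset.card_union_le _ _)
          (Finset.card_union_le _ _))
    _ ≤ (badMul h).card + N * (2 * (bad h).card) + (N * (2 * (bad h).card) +
        N * (2 * (bad h).card)) := by omega
    _ = _ := by ring

/-- **LONG CODE TEST.**  `h : K^ι → K` passes additive tests, one scalar test (generator of `K^*`),
the multiplicative test and the unit test: then `h` is close to one coordinate `j`, and every
self-corrected value is the coordinate. -/
theorem longCode (h : (ι → K) → K) (a : K) (ha : a ≠ 0) (hgen : ∀ b : K, b ≠ 0 → ∃ n : ℕ, b = a ^ n)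
    (hb : 6 * (bad h).card < Fintype.card (ι → K) * Fintype.card (ι → K))
    (hs : 8 * (bad h).card + 2 * (Fintype.card (ι → K) *
      (univ.filter fun y : ι → K => ¬ h (a • y) = a • h y).card) <
        Fintype.card (ι → K) * Fintype.card (ι → K))
    (hm : Fintype.card K ^ 2 * ((badMul h).card + 6 * (bad h).card * Fintype.card (ι → K)) <
      (Fintype.card K - 1) ^ 2 * Fintype.card (ι → K) ^ 3)
    (h1 : 2 * (bad h).card + Fintype.card (ι → K) *
      (univ.filter fun r : ι → K => ¬ h (1 + r) - h r = 1).card <
        Fintype.card (ι → K) * Fintype.card (ι → K)) :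
    ∃ j : ι, (∀ x, Fintype.card (ι → K) * (contra h x (x j)).card ≤ 2 * (bad h).card) ∧
      Fintype.card (ι → K) * (univ.filter fun x => ¬ h x = x j).card ≤ 2 * (bad h).card := by
  classical
  obtain ⟨g, hg, hd⟩ := blr h hb
  have hN : 0 < Fintype.card (ι → K) := Fintype.card_pos
  have hsm : ∀ y, g (a • y) = a • g y := by
    refine smul_of_test h g ha ?_
    refine lt_of_mul_lt_mul_left (a := Fintype.card (ι → K)) ?_ (Nat.zero_le _)
    refine lt_of_le_of_lt ?_ hs
    have e : Fintype.card (ι → K) * (2 * (2 * (univ.filter fun x => ¬ h x = g x).card +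
        (univ.filter fun y : ι → K => ¬ h (a • y) = a • h y).card)) =
        4 * (Fintype.card (ι → K) * (univ.filter fun x => ¬ h x = g x).card) +
        2 * (Fintype.card (ι → K) *
          (univ.filter fun y : ι → K => ¬ h (a • y) = a • h y).card) := by ring
    rw [e]
    omega
  obtain ⟨f, hf⟩ := linear_of_gen g a hgen hsm
  have hg' : ∀ x, Fintype.card (ι → K) * (contra h x (f x)).card ≤ 2 * (bad h).card := by
    intro x; rw [hf]; exact hg x
  have hd' : Fintype.card (ι → K) * (univ.filter fun x => ¬ h x = f x).card ≤
      2 * (bad h).card := by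
    simpa only [hf] using hd
  have ht := mul_test_of_test h f hg' hd'
  have hcoord := coord_of_test f (by
    refine lt_of_mul_lt_mul_left (a := Fintype.card (ι → K)) ?_ (Nat.zero_le _)
    calc _ = Fintype.card K ^ 2 * (Fintype.card (ι → K) *
          (univ.filter fun p : (ι → K) × (ι → K) => ¬ f (p.1 * p.2) = f p.1 * f p.2).card) := by
            ring
      _ ≤ _ := Nat.mul_le_mul_left _ ht
      _ < _ := hm
      _ = _ := by ring)
  rcases hcoord with h0 | ⟨j, hj⟩
  · exfalso
    -- `f 1 = 1`
    have hlt : (contra h 1 (f 1) ∪ univ.filter fun r : ι → K => ¬ h (1 + r) - h r = 1).card <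
        Fintype.card (ι → K) := by
      refine lt_of_mul_lt_mul_left (a := Fintype.card (ι → K)) ?_ (Nat.zero_le _)
      refine lt_of_le_of_lt ?_ h1
      calc _ ≤ Fintype.card (ι → K) * ((contra h 1 (f 1)).card +
            (univ.filter fun r : ι → K => ¬ h (1 + r) - h r = 1).card) :=
              Nat.mul_le_mul_left _ (Finset.card_union_le _ _)
        _ ≤ _ := by rw [Nat.mul_add]; exact Nat.add_le_add_right (hg' 1) _
    obtain ⟨r, hr⟩ : ∃ r, r ∉ (contra h 1 (f 1) ∪
        univ.filter fun r : ι → K => ¬ h (1 + r) - h r = 1) := by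
      by_contra hc
      push Not at hc
      rw [Finset.eq_univ_of_forall hc, Finset.card_univ] at hlt
      exact lt_irrefl _ hlt
    simp only [contra, mem_union, mem_filter, mem_univ, true_and, not_or, not_not] at hr
    have e := hr.1.symm.trans hr.2
    rw [h0] at e
    simp at e
  · refine ⟨j, fun x => ?_, ?_⟩
    · have := hg' x
      rwa [hj] at this
    · simpa only [hj] using hd'

end longcode

end Crest.Agent.R289.BLR46
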