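import Mathlib

/-!
# Row 289: homomorphism testing (Blum-Luby-Rubinfeld) with values in an arbitrary abelian group

`G` a finite abelian group, `H` any abelian group, `f : G → H`.  `bad f` = number of pairs `(x, y)`
with `f (x + y) ≠ f x + f y`.  If `6 * bad f < |G|^2` there is a homomorphism `φ : G →+ H` with
`2 * |G| * #{x | f x ≠ φ x} ≤ 3 * bad f`, and `φ x` is the value of `f (x + y) - f y` for all but
`2 * bad f / |G|` of the `y`.
-/

set_option autoImplicit false

namespace Crest.Agent.R289.BLR954

open Finset

section Additive

variable {G H : Type*} [AddCommGroup G] [Fintype G] [DecidableEq G] [AddCommGroup H]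
  [DecidableEq H]

/-- number of violated additivity tests -/
def bad (f : G → H) : ℕ :=
  (univ.filter fun p : G × G => f (p.1 + p.2) ≠ f p.1 + f p.2).card

/-- number of disagreements -/
def dis (f g : G → H) : ℕ := (univ.filter fun x => f x ≠ g x).card

/-- for every `x`: few pairs `(y, z)` with different votes -/
theorem collision (f : G → H) (x : G) :
    (univ.filter fun p : G × G => f (x + p.1) - f p.1 ≠ f (x + p.2) - f p.2).card ≤
      2 * bad f := by
  have h1 : (univ.filter fun p : G × G => f (x + p.1 + p.2) ≠ f (x + p.1) + f p.2).card = bad f := by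
    refine card_bij (fun p _ => (x + p.1, p.2)) ?_ ?_ ?_
    · intro p hp
      simpa using hp
    · rintro ⟨a, b⟩ _ ⟨c, d⟩ _ h
      simp only [Prod.mk.injEq, add_right_inj] at h
      exact Prod.ext h.1 h.2
    · rintro ⟨a, b⟩ h
      refine ⟨(a - x, b), ?_, ?_⟩
      · simpa using h
      · simp
  have h2 : (univ.filter fun p : G × G => f (x + p.2 + p.1) ≠ f (x + p.2) + f p.1).card = bad f := by
    rw [← h1]
    refine card_bij (fun p _ => (p.2, p.1)) ?_ ?_ ?_
    · intro p hp
      simpa using hp
    · rintro ⟨a, b⟩ _ ⟨c, d⟩ _ h
      simp only [Prod.mk.injEq] at h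
      exact Prod.ext h.2 h.1
    · rintro ⟨a, b⟩ h
      exact ⟨(b, a), by simpa using h, rfl⟩
  calc (univ.filter fun p : G × G => f (x + p.1) - f p.1 ≠ f (x + p.2) - f p.2).card
      ≤ ((univ.filter fun p : G × G => f (x + p.1 + p.2) ≠ f (x + p.1) + f p.2) ∪
          (univ.filter fun p : G × G => f (x + p.2 + p.1) ≠ f (x + p.2) + f p.1)).card := by
        refine card_le_card fun p hp => ?_
        simp only [mem_filter, mem_univ, true_and, mem_union] at hp ⊢
        by_contra hn
        push Not at hn
        apply hp
        have e : x + p.1 + p.2 = x + p.2 + p.1 := by abel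
        have h3 := hn.1
        rw [e, hn.2] at h3
        rw [sub_eq_sub_iff_add_eq_add]
        rw [← h3]
    _ ≤ bad f + bad f := by
        refine (card_union_le _ _).trans ?_
        rw [h1, h2]
    _ = 2 * bad f := by ring

/-- the votes for the value at `x`: number of `y` with `f (x + y) - f y = v` -/
def votes (f : G → H) (x : G) (v : H) : ℕ := (univ.filter fun y => f (x + y) - f y = v).card

/-- there is a value with many votes -/
theorem exists_votes (f : G → H) (x : G) :
    ∃ v : H, Fintype.card G * (Fintype.card G - votes f x v) ≤ 2 * bad f := by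
  classical
  -- choose a value with the most votes among the values at some `y`
  obtain ⟨y0, -, hy0⟩ := exists_max_image (univ : Finset G)
    (fun y => votes f x (f (x + y) - f y)) ⟨0, mem_univ _⟩
  refine ⟨f (x + y0) - f y0, ?_⟩
  set m := votes f x (f (x + y0) - f y0) with hm
  have hcard : ∀ y : G,
      Fintype.card G - m ≤ (univ.filter fun z => f (x + y) - f y ≠ f (x + z) - f z).card := by
    intro y
    have h1 := hy0 y (mem_univ _)
    have h2 : (univ.filter fun z => f (x + y) - f y ≠ f (x + z) - f z).card +
        votes f x (f (x + y) - f y) = Fintype.card G := by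
      unfold votes
      rw [← card_univ (α := G), ← card_filter_add_card_filter_not
        (s := (univ : Finset G)) (fun z => f (x + z) - f z = f (x + y) - f y), add_comm]
      congr 2
      exact filter_congr fun z _ => ⟨fun h h' => h h'.symm, fun h h' => h h'.symm⟩
    omega
  have hsum : (univ.filter fun p : G × G => f (x + p.1) - f p.1 ≠ f (x + p.2) - f p.2).card =
      ∑ y : G, (univ.filter fun z => f (x + y) - f y ≠ f (x + z) - f z).card := by
    simp only [card_filter]
    rw [← univ_product_univ, sum_product]
  refine le_trans ?_ (collision f x)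
  rw [hsum]
  calc Fintype.card G * (Fintype.card G - m) = ∑ _y : G, (Fintype.card G - m) := by simp
    _ ≤ _ := sum_le_sum fun y _ => hcard y

omit [DecidableEq G] in
theorem votes_le (f : G → H) (x : G) (v : H) : votes f x v ≤ Fintype.card G :=
  (card_le_univ _)

omit [DecidableEq G] in
/-- number of `y` voting against `v` -/
theorem against (f : G → H) (x : G) (v : H) :
    (univ.filter fun y => f (x + y) - f y ≠ v).card = Fintype.card G - votes f x v := by
  have h := card_filter_add_card_filter_not (s := (univ : Finset G))
    (fun y => f (x + y) - f y = v)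
  rw [card_univ] at h
  unfold votes
  have : (univ.filter fun y => f (x + y) - f y ≠ v) =
      univ.filter fun y => ¬ (f (x + y) - f y = v) := rfl
  rw [this]
  omega

/-- **Homomorphism testing.** -/
theorem exists_hom (f : G → H) (hb : 6 * bad f < Fintype.card G ^ 2) :
    ∃ φ : G →+ H, (∀ x, Fintype.card G *
        (univ.filter fun y => f (x + y) - f y ≠ φ x).card ≤ 2 * bad f) ∧
      2 * Fintype.card G * dis f φ ≤ 3 * bad f := by
  classical
  choose v hv using exists_votes f
  have hv' : ∀ x, Fintype.card G * (univ.filter fun y => f (x + y) - f y ≠ v x).card ≤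
      2 * bad f := fun x => by rw [against]; exact hv x
  set n := Fintype.card G with hn
  have hnpos : 0 < n := Fintype.card_pos
  have hadd : ∀ x x', v (x + x') = v x + v x' := by
    intro x x'
    -- the three bad sets
    set A := univ.filter fun y => f (x + x' + y) - f y ≠ v (x + x') with hA
    set B := univ.filter fun y => f (x + y) - f y ≠ v x with hB
    set C := univ.filter fun y => f (x' + y) - f y ≠ v x' with hC
    set B' := univ.filter fun y => f (x + (x' + y)) - f (x' + y) ≠ v x with hB'
    have hBB : B'.card = B.card := by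
      refine card_bij (fun y _ => x' + y) ?_ ?_ ?_
      · intro y hy
        simpa [hB, hB'] using hy
      · intro a _ b _ h
        exact add_left_cancel h
      · intro y hy
        refine ⟨y - x', ?_, by abel⟩
        have e : x' + (y - x') = y := by abel
        simp only [hB', mem_filter, mem_univ, true_and, e]
        simpa [hB] using hy
    have hU : (A ∪ B' ∪ C).card < n := by
      have h1 : n * (A ∪ B' ∪ C).card ≤ 6 * bad f := by
        have h2 := card_union_le (A ∪ B') C
        have h3 := card_union_le A B'
        have hAc := hv' (x + x')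
        have hBc := hv' x
        have hCc := hv' x'
        calc n * (A ∪ B' ∪ C).card ≤ n * (A.card + B.card + C.card) :=
              Nat.mul_le_mul_left _ (by omega)
          _ = n * A.card + n * B.card + n * C.card := by ring
          _ ≤ 2 * bad f + 2 * bad f + 2 * bad f := by
              exact Nat.add_le_add (Nat.add_le_add hAc hBc) hCc
          _ = 6 * bad f := by ring
      have h4 : n * (A ∪ B' ∪ C).card < n * n := by
        refine lt_of_le_of_lt h1 (lt_of_lt_of_eq hb (by ring))
      exact Nat.lt_of_mul_lt_mul_left h4
    obtain ⟨y, hy⟩ : ∃ y, y ∉ A ∪ B' ∪ C := by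
      by_contra hcon
      push Not at hcon
      have : A ∪ B' ∪ C = univ := eq_univ_iff_forall.2 hcon
      rw [this, card_univ] at hU
      exact lt_irrefl _ hU
    simp only [mem_union, not_or, hA, hB', hC, mem_filter, mem_univ, true_and, not_not] at hy
    obtain ⟨⟨h1, h2⟩, h3⟩ := hy
    rw [← h1, ← h2, ← h3, ← add_assoc x x' y]
    abel
  refine ⟨AddMonoidHom.mk' v hadd, fun x => hv' x, ?_⟩
  -- distance
  have hdis : dis f v * (n * n - 2 * bad f) ≤ n * bad f := by
    have key : ∀ x, f x ≠ v x →
        n - (univ.filter fun y => f (x + y) - f y ≠ v x).card ≤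
          (univ.filter fun y => f (x + y) ≠ f x + f y).card := by
      intro x hx
      have h := card_filter_add_card_filter_not (s := (univ : Finset G))
        (fun y => f (x + y) - f y = v x)
      rw [card_univ] at h
      have h' : (univ.filter fun y => f (x + y) - f y = v x).card ≤
          (univ.filter fun y => f (x + y) ≠ f x + f y).card := by
        refine card_le_card fun y hy => ?_
        simp only [mem_filter, mem_univ, true_and] at hy ⊢
        intro hc
        apply hx
        rw [← hy, hc]
        abel
      have h'' : (univ.filter fun y => ¬ (f (x + y) - f y = v x)).card =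
          (univ.filter fun y => f (x + y) - f y ≠ v x).card := rfl
      omega
    have hbad : bad f = ∑ x : G, (univ.filter fun y => f (x + y) ≠ f x + f y).card := by
      unfold bad
      simp only [card_filter]
      rw [← univ_product_univ, sum_product]
    have h1 : ∑ x ∈ univ.filter (fun x => f x ≠ v x),
        (n * n - 2 * bad f) ≤ n * bad f := by
      calc ∑ x ∈ univ.filter (fun x => f x ≠ v x), (n * n - 2 * bad f)
          ≤ ∑ x ∈ univ.filter (fun x => f x ≠ v x),
              n * (univ.filter fun y => f (x + y) ≠ f x + f y).card := by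
            refine sum_le_sum fun x hx => ?_
            have hx' := (mem_filter.1 hx).2
            refine le_trans ?_ (Nat.mul_le_mul_left n (key x hx'))
            rw [Nat.mul_sub]
            exact Nat.sub_le_sub_left (hv' x) _
        _ ≤ ∑ x : G, n * (univ.filter fun y => f (x + y) ≠ f x + f y).card :=
            sum_le_sum_of_subset (subset_univ _)
        _ = n * bad f := by rw [hbad, mul_sum]
    rw [sum_const, smul_eq_mul] at h1
    exact h1
  have hgoal : 2 * n * dis f v ≤ 3 * bad f := by
    have h2 : 2 * (n * n) ≤ 3 * (n * n - 2 * bad f) := by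
      have : 6 * bad f < n * n := by
        rw [← sq]; exact hb
      omega
    have h3 : dis f v * (2 * (n * n)) ≤ 3 * (n * bad f) :=
      calc dis f v * (2 * (n * n)) ≤ dis f v * (3 * (n * n - 2 * bad f)) :=
            Nat.mul_le_mul_left _ h2
        _ = 3 * (dis f v * (n * n - 2 * bad f)) := by ring
        _ ≤ 3 * (n * bad f) := Nat.mul_le_mul_left _ hdis
    have h4 : n * (2 * n * dis f v) ≤ n * (3 * bad f) := by
      calc n * (2 * n * dis f v) = dis f v * (2 * (n * n)) := by ring
        _ ≤ 3 * (n * bad f) := h3
        _ = n * (3 * bad f) := by ring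
    exact Nat.le_of_mul_le_mul_left h4 hnpos
  exact hgoal

/-- self-correction: if `f` is close to `φ` then `f (x + y) - f y = φ x` for most `y` -/
theorem self_correct (f : G → H) (φ : G →+ H) (x : G) :
    (univ.filter fun y => f (x + y) - f y ≠ φ x).card ≤ 2 * dis f φ := by
  have h1 : (univ.filter fun y => f (x + y) ≠ φ (x + y)).card = dis f φ := by
    refine card_bij (fun y _ => x + y) ?_ ?_ ?_
    · intro y hy
      simpa using hy
    · intro a _ b _ h
      exact add_left_cancel h
    · intro y hy
      refine ⟨y - x, ?_, by abel⟩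
      have e : x + (y - x) = y := by abel
      simp only [mem_filter, mem_univ, true_and, e]
      simpa using hy
  calc (univ.filter fun y => f (x + y) - f y ≠ φ x).card
      ≤ ((univ.filter fun y => f (x + y) ≠ φ (x + y)) ∪
          (univ.filter fun y => f y ≠ φ y)).card := by
        refine card_le_card fun y hy => ?_
        simp only [mem_filter, mem_univ, true_and, mem_union] at hy ⊢
        by_contra hn
        push Not at hn
        apply hy
        rw [hn.1, hn.2, map_add]
        abel
    _ ≤ dis f φ + dis f φ := by
        refine (card_union_le _ _).trans ?_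
        rw [h1]
        rfl
    _ = 2 * dis f φ := by ring

/-- two homomorphisms which agree on more than half of the group are equal -/
theorem hom_ext_of_half {φ ψ : G →+ H} (h : 2 * dis (φ : G → H) ψ < Fintype.card G) : φ = ψ := by
  ext x
  have h1 : (univ.filter fun y => φ (x + y) ≠ ψ (x + y)).card = dis (φ : G → H) ψ := by
    refine card_bij (fun y _ => x + y) ?_ ?_ ?_
    · intro y hy
      simpa using hy
    · intro a _ b _ h
      exact add_left_cancel h
    · intro y hy
      refine ⟨y - x, ?_, by abel⟩
      have e : x + (y - x) = y := by abel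
      simp only [mem_filter, mem_univ, true_and, e]
      simpa using hy
  have h2 : ((univ.filter fun y => φ (x + y) ≠ ψ (x + y)) ∪
      (univ.filter fun y => φ y ≠ ψ y)).card < Fintype.card G := by
    refine lt_of_le_of_lt (card_union_le _ _) ?_
    rw [h1]
    have : (univ.filter fun y => φ y ≠ ψ y).card = dis (φ : G → H) ψ := rfl
    omega
  obtain ⟨y, hy⟩ : ∃ y, y ∉ ((univ.filter fun y => φ (x + y) ≠ ψ (x + y)) ∪
      (univ.filter fun y => φ y ≠ ψ y)) := by
    by_contra hcon
    push Not at hcon
    rw [eq_univ_iff_forall.2 hcon, card_univ] at h2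
    exact lt_irrefl _ h2
  simp only [mem_union, not_or, mem_filter, mem_univ, true_and, not_not] at hy
  have h3 := hy.1
  rw [map_add, map_add, hy.2] at h3
  exact add_right_cancel h3

/-- a nonzero homomorphism is nonzero on at least half of the group -/
theorem half_ne_zero {φ : G →+ H} (h : φ ≠ 0) :
    Fintype.card G ≤ 2 * (univ.filter fun x => φ x ≠ 0).card := by
  by_contra hlt
  push Not at hlt
  apply h
  apply hom_ext_of_half
  have : dis (φ : G → H) ((0 : G →+ H) : G → H) = (univ.filter fun x => φ x ≠ 0).card := rfl
  omega

/-- a nonzero bi-additive map is nonzero on at least a quarter of the pairs -/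
theorem quarter_ne_zero {G' : Type*} [AddCommGroup G'] [Fintype G'] [DecidableEq G']
    {B : G →+ G' →+ H} (h : B ≠ 0) :
    Fintype.card G * Fintype.card G' ≤
      4 * (univ.filter fun p : G × G' => B p.1 p.2 ≠ 0).card := by
  classical
  have h1 : Fintype.card G ≤ 2 * (univ.filter fun x => B x ≠ 0).card := half_ne_zero h
  have h2 : (univ.filter fun p : G × G' => B p.1 p.2 ≠ 0).card =
      ∑ x : G, (univ.filter fun y => B x y ≠ 0).card := by
    simp only [card_filter]
    rw [← univ_product_univ, sum_product]
  have h3 : (univ.filter fun x => B x ≠ 0).card * Fintype.card G' ≤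
      2 * ∑ x : G, (univ.filter fun y => B x y ≠ 0).card := by
    calc (univ.filter fun x => B x ≠ 0).card * Fintype.card G'
        = ∑ x ∈ univ.filter (fun x => B x ≠ 0), Fintype.card G' := by
          rw [sum_const, smul_eq_mul]
      _ ≤ ∑ x ∈ univ.filter (fun x => B x ≠ 0), 2 * (univ.filter fun y => B x y ≠ 0).card :=
          sum_le_sum fun x hx => half_ne_zero (mem_filter.1 hx).2
      _ ≤ ∑ x : G, 2 * (univ.filter fun y => B x y ≠ 0).card :=
          sum_le_sum_of_subset (subset_univ _)
      _ = 2 * ∑ x : G, (univ.filter fun y => B x y ≠ 0).card := by rw [mul_sum]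
  rw [h2]
  calc Fintype.card G * Fintype.card G'
      ≤ 2 * (univ.filter fun x => B x ≠ 0).card * Fintype.card G' := Nat.mul_le_mul_right _ h1
    _ = 2 * ((univ.filter fun x => B x ≠ 0).card * Fintype.card G') := by ring
    _ ≤ 2 * (2 * ∑ x : G, (univ.filter fun y => B x y ≠ 0).card) := Nat.mul_le_mul_left _ h3
    _ = 4 * ∑ x : G, (univ.filter fun y => B x y ≠ 0).card := by ring

/-- equivariance of the decoded homomorphism: if `f (a x) = b (f x)` for most `x` (`a` an
automorphism of `G`, `b` an endomorphism of `H`) then `φ (a x) = b (φ x)` for all `x` -/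
theorem hom_equivariant (f : G → H) (φ : G →+ H) (a : G ≃+ G) (b : H →+ H)
    (h : 2 * (2 * dis f φ + (univ.filter fun x => f (a x) ≠ b (f x)).card) < Fintype.card G)
    (x : G) : φ (a x) = b (φ x) := by
  have h1 : (univ.filter fun y => f (a y) ≠ φ (a y)).card = dis f φ := by
    refine card_bij (fun y _ => a y) ?_ ?_ ?_
    · intro y hy
      simpa using hy
    · intro u _ w _ h'
      exact a.injective h'
    · intro y hy
      refine ⟨a.symm y, ?_, by simp⟩
      simpa using hy
  have key : φ.comp a.toAddMonoidHom = b.comp φ := by
    apply hom_ext_of_half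
    refine lt_of_le_of_lt (Nat.mul_le_mul_left 2 ?_) h
    calc dis (φ.comp a.toAddMonoidHom : G → H) (b.comp φ)
        ≤ (((univ.filter fun y => f (a y) ≠ φ (a y)) ∪ (univ.filter fun y => f y ≠ φ y)) ∪
            (univ.filter fun x => f (a x) ≠ b (f x))).card := by
          refine card_le_card fun y hy => ?_
          simp only [mem_filter, mem_univ, true_and, mem_union] at hy ⊢
          by_contra hn
          push Not at hn
          obtain ⟨⟨h3, h4⟩, h5⟩ := hn
          apply hy
          simp only [AddMonoidHom.coe_comp, Function.comp_apply, AddEquiv.toAddMonoidHom_eq_coe,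
            AddMonoidHom.coe_coe]
          rw [← h3, h5, h4]
      _ ≤ (dis f φ + dis f φ) + (univ.filter fun x => f (a x) ≠ b (f x)).card := by
          refine (card_union_le _ _).trans (Nat.add_le_add_right ?_ _)
          refine (card_union_le _ _).trans ?_
          rw [h1]
          rfl
      _ = 2 * dis f φ + (univ.filter fun x => f (a x) ≠ b (f x)).card := by ring
  exact DFunLike.congr_fun key x

end Additive

section Linear

variable {K V W : Type*} [Field K] [AddCommGroup V] [Module K V] [Fintype V] [DecidableEq V]
  [AddCommGroup W] [Module K W] [DecidableEq W]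

/-- **Linearity testing over a field**: additivity tests and the scaling tests for every scalar -/
theorem exists_linear (f : V → W) (hb : 6 * bad f < Fintype.card V ^ 2)
    (hs : ∀ c : K, c ≠ 0 →
      6 * bad f + 2 * Fintype.card V * (univ.filter fun x => f (c • x) ≠ c • f x).card <
        Fintype.card V ^ 2) :
    ∃ φ : V →ₗ[K] W, (∀ x, Fintype.card V *
        (univ.filter fun y => f (x + y) - f y ≠ φ x).card ≤ 2 * bad f) ∧
      2 * Fintype.card V * dis f φ ≤ 3 * bad f := by
  obtain ⟨φ, h1, h2⟩ := exists_hom f hb
  have hn : 0 < Fintype.card V := Fintype.card_pos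
  have hsm : ∀ (c : K) (x : V), φ (c • x) = c • φ x := by
    intro c x
    rcases eq_or_ne c 0 with rfl | hc
    · simp
    · have h3 := hs c hc
      have h4 : 2 * (2 * dis f φ + (univ.filter fun x => f (c • x) ≠ c • f x).card) <
          Fintype.card V := by
        have h5 : Fintype.card V *
            (2 * (2 * dis f φ + (univ.filter fun x => f (c • x) ≠ c • f x).card)) <
            Fintype.card V * Fintype.card V := by
          calc Fintype.card V *
              (2 * (2 * dis f φ + (univ.filter fun x => f (c • x) ≠ c • f x).card))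
              = 2 * (2 * Fintype.card V * dis f φ) +
                2 * Fintype.card V * (univ.filter fun x => f (c • x) ≠ c • f x).card := by ring
            _ ≤ 2 * (3 * bad f) +
                2 * Fintype.card V * (univ.filter fun x => f (c • x) ≠ c • f x).card :=
                Nat.add_le_add_right (Nat.mul_le_mul_left 2 h2) _
            _ = 6 * bad f +
                2 * Fintype.card V * (univ.filter fun x => f (c • x) ≠ c • f x).card := by ring
            _ < Fintype.card V ^ 2 := h3
            _ = Fintype.card V * Fintype.card V := sq _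
        exact Nat.lt_of_mul_lt_mul_left h5
      let a : V ≃+ V :=
        { toFun := fun x => c • x
          invFun := fun x => c⁻¹ • x
          left_inv := fun x => by simp [smul_smul, hc]
          right_inv := fun x => by simp [smul_smul, hc]
          map_add' := fun x y => smul_add c x y }
      let b : W →+ W := DistribSMul.toAddMonoidHom W c
      exact hom_equivariant f φ a b h4 x
  exact ⟨{ φ with map_smul' := hsm }, h1, h2⟩

end Linear

section Dictator

variable {K ι : Type*} [Field K] [Fintype K] [DecidableEq K] [Fintype ι] [DecidableEq ι]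

omit [Fintype K] in
/-- a multiplicative linear functional on `K^ι` with `φ 1 = 1` is a coordinate -/
theorem eq_proj (φ : (ι → K) →ₗ[K] K) (hm : ∀ x y, φ (x * y) = φ x * φ y) (h1 : φ 1 = 1) :
    ∃ i, ∀ x, φ x = x i := by
  have hsum : (1 : ι → K) = ∑ i, Pi.single i (1 : K) := by
    ext j
    simp [Finset.sum_apply, Pi.single_apply]
  obtain ⟨i, hi⟩ : ∃ i, φ (Pi.single i 1) ≠ 0 := by
    by_contra hcon
    push Not at hcon
    rw [hsum, map_sum] at h1
    simp [hcon] at h1
  have hone : φ (Pi.single i 1) = 1 := by
    have h2 := hm (Pi.single i 1) (Pi.single i 1)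
    have h3 : (Pi.single i (1 : K) : ι → K) * Pi.single i 1 = Pi.single i 1 := by
      ext j
      by_cases hj : j = i
      · subst hj; simp
      · simp [hj]
    rw [h3] at h2
    exact mul_left_cancel₀ hi (h2.symm.trans (mul_one _).symm)
  refine ⟨i, fun x => ?_⟩
  have h4 : x * Pi.single i (1 : K) = x i • (Pi.single i (1 : K) : ι → K) := by
    ext j
    by_cases hj : j = i
    · subst hj; simp
    · simp [hj]
  have h5 := hm x (Pi.single i 1)
  rw [h4, map_smul, hone, mul_one, smul_eq_mul, mul_one] at h5
  exact h5.symm

/-- **Dictator test**: additivity, scaling and (self-corrected) multiplicativity and unit tests.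
`mulBad` = number of violated triples `f (x * y + r) - f r = f x * f y`; `oneBad` = number of `r`
with `f (1 + r) - f r ≠ 1`. -/
theorem exists_dictator (f : (ι → K) → K) (hb : 6 * bad f < Fintype.card (ι → K) ^ 2)
    (hs : ∀ c : K, c ≠ 0 →
      6 * bad f + 2 * Fintype.card (ι → K) * (univ.filter fun x => f (c • x) ≠ c • f x).card <
        Fintype.card (ι → K) ^ 2)
    (hmul : 24 * Fintype.card (ι → K) * bad f +
      4 * (univ.filter fun t : ((ι → K) × (ι → K)) × (ι → K) =>
        f (t.1.1 * t.1.2 + t.2) - f t.2 ≠ f t.1.1 * f t.1.2).card <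
      Fintype.card (ι → K) ^ 3)
    (hone : 2 * bad f + Fintype.card (ι → K) *
      (univ.filter fun r => f (1 + r) - f r ≠ 1).card < Fintype.card (ι → K) ^ 2) :
    ∃ i, 2 * Fintype.card (ι → K) * dis f (fun x => x i) ≤ 3 * bad f := by
  obtain ⟨φ, hv, hd⟩ := exists_linear (K := K) f hb hs
  set n := Fintype.card (ι → K) with hn
  have hnpos : 0 < n := Fintype.card_pos
  -- `φ 1 = 1`
  have hφ1 : φ 1 = 1 := by
    have h1 : ((univ.filter fun y => f (1 + y) - f y ≠ φ 1) ∪
        (univ.filter fun r => f (1 + r) - f r ≠ 1)).card < n := by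
      have h2 := card_union_le (univ.filter fun y => f (1 + y) - f y ≠ φ 1)
        (univ.filter fun r => f (1 + r) - f r ≠ 1)
      have h3 : n * ((univ.filter fun y => f (1 + y) - f y ≠ φ 1) ∪
          (univ.filter fun r => f (1 + r) - f r ≠ 1)).card < n * n := by
        calc n * ((univ.filter fun y => f (1 + y) - f y ≠ φ 1) ∪
              (univ.filter fun r => f (1 + r) - f r ≠ 1)).card
            ≤ n * ((univ.filter fun y => f (1 + y) - f y ≠ φ 1).card +
              (univ.filter fun r => f (1 + r) - f r ≠ 1).card) := Nat.mul_le_mul_left _ h2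
          _ = n * (univ.filter fun y => f (1 + y) - f y ≠ φ 1).card +
              n * (univ.filter fun r => f (1 + r) - f r ≠ 1).card := by ring
          _ ≤ 2 * bad f + n * (univ.filter fun r => f (1 + r) - f r ≠ 1).card :=
              Nat.add_le_add_right (hv 1) _
          _ < n ^ 2 := hone
          _ = n * n := sq n
      exact Nat.lt_of_mul_lt_mul_left h3
    obtain ⟨y, hy⟩ : ∃ y, y ∉ ((univ.filter fun y => f (1 + y) - f y ≠ φ 1) ∪
        (univ.filter fun r => f (1 + r) - f r ≠ 1)) := by
      by_contra hcon
      push Not at hcon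
      rw [eq_univ_iff_forall.2 hcon, card_univ] at h1
      exact lt_irrefl _ h1
    simp only [mem_union, not_or, mem_filter, mem_univ, true_and, not_not] at hy
    rw [← hy.1, hy.2]
  -- multiplicativity
  let B : (ι → K) →+ (ι → K) →+ K :=
    AddMonoidHom.mk' (fun x => AddMonoidHom.mk' (fun y => φ (x * y) - φ x * φ y)
      (fun y y' => by rw [mul_add, map_add, map_add]; ring))
      (fun x x' => by ext y; simp [add_mul, map_add]; ring)
  have hBdef : ∀ x y, B x y = φ (x * y) - φ x * φ y := fun _ _ => rfl
  have hB : B = 0 := by
    by_contra hne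
    have h1 := quarter_ne_zero hne
    -- count triples
    have h2 : n * (univ.filter fun p : (ι → K) × (ι → K) => B p.1 p.2 ≠ 0).card ≤
        (univ.filter fun t : ((ι → K) × (ι → K)) × (ι → K) =>
          f (t.1.1 * t.1.2 + t.2) - f t.2 ≠ f t.1.1 * f t.1.2).card +
        (n * (2 * bad f) + 2 * (n * n * dis f φ)) := by
      have hT : (univ.filter fun t : ((ι → K) × (ι → K)) × (ι → K) =>
          B t.1.1 t.1.2 ≠ 0) ⊆
          (univ.filter fun t : ((ι → K) × (ι → K)) × (ι → K) =>
            f (t.1.1 * t.1.2 + t.2) - f t.2 ≠ f t.1.1 * f t.1.2) ∪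
          ((univ.filter fun t : ((ι → K) × (ι → K)) × (ι → K) =>
            f (t.1.1 * t.1.2 + t.2) - f t.2 ≠ φ (t.1.1 * t.1.2)) ∪
          ((univ.filter fun t : ((ι → K) × (ι → K)) × (ι → K) => f t.1.1 ≠ φ t.1.1) ∪
          (univ.filter fun t : ((ι → K) × (ι → K)) × (ι → K) => f t.1.2 ≠ φ t.1.2))) := by
        intro t ht
        simp only [mem_filter, mem_univ, true_and, mem_union] at ht ⊢
        by_contra hn'
        push Not at hn'
        obtain ⟨h3, h4, h5, h6⟩ := hn'
        apply ht
        rw [hBdef, ← h4, h3, h5, h6, sub_self]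
      have c0 : (univ.filter fun t : ((ι → K) × (ι → K)) × (ι → K) => B t.1.1 t.1.2 ≠ 0).card =
          n * (univ.filter fun p : (ι → K) × (ι → K) => B p.1 p.2 ≠ 0).card := by
        have : (univ.filter fun t : ((ι → K) × (ι → K)) × (ι → K) => B t.1.1 t.1.2 ≠ 0) =
            (univ.filter fun p : (ι → K) × (ι → K) => B p.1 p.2 ≠ 0) ×ˢ univ := by
          ext t; simp
        rw [this, card_product, card_univ, mul_comm]
      have c1 : (univ.filter fun t : ((ι → K) × (ι → K)) × (ι → K) =>
            f (t.1.1 * t.1.2 + t.2) - f t.2 ≠ φ (t.1.1 * t.1.2)).card ≤ n * (2 * bad f) := by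
        have e : (univ.filter fun t : ((ι → K) × (ι → K)) × (ι → K) =>
            f (t.1.1 * t.1.2 + t.2) - f t.2 ≠ φ (t.1.1 * t.1.2)).card =
            ∑ p : (ι → K) × (ι → K),
              (univ.filter fun y => f (p.1 * p.2 + y) - f y ≠ φ (p.1 * p.2)).card := by
          simp only [card_filter]
          rw [← univ_product_univ, sum_product]
        rw [e]
        have h7 : ∀ p : (ι → K) × (ι → K),
            n * (univ.filter fun y => f (p.1 * p.2 + y) - f y ≠ φ (p.1 * p.2)).card ≤
              2 * bad f := fun p => hv _
        have h8 : n * ∑ p : (ι → K) × (ι → K),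
            (univ.filter fun y => f (p.1 * p.2 + y) - f y ≠ φ (p.1 * p.2)).card ≤
            n * (n * (2 * bad f)) := by
          rw [mul_sum]
          calc ∑ p : (ι → K) × (ι → K),
                n * (univ.filter fun y => f (p.1 * p.2 + y) - f y ≠ φ (p.1 * p.2)).card
              ≤ ∑ _p : (ι → K) × (ι → K), 2 * bad f := sum_le_sum fun p _ => h7 p
            _ = n * (n * (2 * bad f)) := by
                rw [sum_const, smul_eq_mul, card_univ, Fintype.card_prod, ← hn]; ring
        exact Nat.le_of_mul_le_mul_left h8 hnpos
      have c2 : (univ.filter fun t : ((ι → K) × (ι → K)) × (ι → K) => f t.1.1 ≠ φ t.1.1).card =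
          n * n * dis f φ := by
        have : (univ.filter fun t : ((ι → K) × (ι → K)) × (ι → K) => f t.1.1 ≠ φ t.1.1) =
            ((univ.filter fun x => f x ≠ φ x) ×ˢ univ) ×ˢ univ := by
          ext t; simp
        rw [this, card_product, card_product, card_univ, ← hn]
        unfold dis
        ring
      have c3 : (univ.filter fun t : ((ι → K) × (ι → K)) × (ι → K) => f t.1.2 ≠ φ t.1.2).card =
          n * n * dis f φ := by
        have : (univ.filter fun t : ((ι → K) × (ι → K)) × (ι → K) => f t.1.2 ≠ φ t.1.2) =
            (univ ×ˢ (univ.filter fun x => f x ≠ φ x)) ×ˢ univ := by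
          ext t; simp
        rw [this, card_product, card_product, card_univ, ← hn]
        unfold dis
        ring
      rw [← c0]
      refine (card_le_card hT).trans ((card_union_le _ _).trans (Nat.add_le_add_left ?_ _))
      refine (card_union_le _ _).trans (Nat.add_le_add c1 ?_)
      refine (card_union_le _ _).trans ?_
      rw [c2, c3]
      omega
    -- conclude
    have h9 : n * n * dis f φ * 2 ≤ 3 * (n * bad f) := by
      calc n * n * dis f φ * 2 = n * (2 * n * dis f φ) := by ring
        _ ≤ n * (3 * bad f) := Nat.mul_le_mul_left _ hd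
        _ = 3 * (n * bad f) := by ring
    have h10 : n ^ 3 ≤ 4 * (n * (univ.filter fun p : (ι → K) × (ι → K) => B p.1 p.2 ≠ 0).card) := by
      calc n ^ 3 = n * (n * n) := by ring
        _ ≤ n * (4 * (univ.filter fun p : (ι → K) × (ι → K) => B p.1 p.2 ≠ 0).card) :=
            Nat.mul_le_mul_left _ h1
        _ = _ := by ring
    have h11 : n * (2 * bad f) = 2 * (n * bad f) := by ring
    have h12 : 24 * n * bad f = 24 * (n * bad f) := by ring
    rw [h12] at hmul
    rw [h11] at h2
    set X := n * bad f
    set Y := n * n * dis f φ
    set Z := (univ.filter fun t : ((ι → K) × (ι → K)) × (ι → K) =>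
        f (t.1.1 * t.1.2 + t.2) - f t.2 ≠ f t.1.1 * f t.1.2).card
    set C := n * (univ.filter fun p : (ι → K) × (ι → K) => B p.1 p.2 ≠ 0).card
    omega
  have hm : ∀ x y, φ (x * y) = φ x * φ y := by
    intro x y
    have := DFunLike.congr_fun (DFunLike.congr_fun hB x) y
    rw [hBdef] at this
    simpa [sub_eq_zero] using this
  obtain ⟨i, hi⟩ := eq_proj φ hm hφ1
  refine ⟨i, ?_⟩
  have : (φ : (ι → K) → K) = fun x => x i := funext hi
  rw [← this]
  exact hd

end Dictator

end Crest.Agent.R289.BLR954
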