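import Crest.Agent.R289.ExpCnt_820

/-!
Row 289, block B, TP4 (core): unique factorisation of the two-place square complex of `K{τ}`.

`Sk σ` (from `ExpCnt_820`) = elements `re + im τ`, `τ² = t`, `τ a = σ a τ`.  `act x l r` = right
action of `r` on the row vector `l` at the place `x` (helper223's normalisation
`l.a = (σ a l₀, a l₁)`, `l.τ = (-x l₁, -l₀)`).
-/

set_option autoImplicit false

namespace Crest.Agent.R289.Fac281

open Polynomial Crest.Agent.R289.Exp820 Crest.Agent.R289.Exp820.Sk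

variable {K : Type*} [Field K] {σ : K →+* K}

/-- right action on row vectors at the place `x` -/
noncomputable def act (x : K) (l : K × K) (r : Sk σ) : K × K :=
  ((sg σ r.re).eval x * l.1 - x * r.im.eval x * l.2,
    r.re.eval x * l.2 - (sg σ r.im).eval x * l.1)

theorem act_one (x : K) (l : K × K) : act x l (1 : Sk σ) = l := by
  ext <;> simp [act]

theorem act_mul (hσ : ∀ a, σ (σ a) = a) (x : K) (l : K × K) (r s : Sk σ) :
    act x l (r * s) = act x (act x l r) s := by
  ext
  · simp only [act, mul_re, mul_im, map_add, map_mul, sg_sg hσ, sg_X, eval_add, eval_mul, eval_X]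
    ring
  · simp only [act, mul_re, mul_im, map_add, map_mul, sg_sg hσ, sg_X, eval_add, eval_mul, eval_X]
    ring

theorem act_smul (x c : K) (l : K × K) (r : Sk σ) : act x (c • l) r = c • act x l r := by
  ext <;> simp only [act, Prod.smul_fst, Prod.smul_snd, smul_eq_mul] <;> ring

theorem act_zero (x : K) (r : Sk σ) : act x 0 r = 0 := by
  ext <;> simp [act]

theorem act_conj (hσ : ∀ a, σ (σ a) = a) (x : K) (l : K × K) (r : Sk σ) :
    act x (act x l r) (conj r) = (N r).eval x • l := by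
  ext
  · simp only [act, conj, N, map_neg, sg_sg hσ, eval_sub, eval_mul, eval_X, eval_neg,
      Prod.smul_fst, smul_eq_mul]
    ring
  · simp only [act, conj, N, map_neg, sg_sg hσ, eval_sub, eval_mul, eval_X, eval_neg,
      Prod.smul_snd, smul_eq_mul]
    ring

theorem act_ne_zero (hσ : ∀ a, σ (σ a) = a) {x : K} {l : K × K} (hl : l ≠ 0) {r : Sk σ}
    (hr : (N r).eval x ≠ 0) : act x l r ≠ 0 := by
  intro h
  have h1 := act_conj hσ x l r
  rw [h, act_zero] at h1
  exact hl ((smul_eq_zero.1 h1.symm).resolve_left hr)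

theorem N_eval_of_act (hσ : ∀ a, σ (σ a) = a) {x : K} {l : K × K} (hl : l ≠ 0) {r : Sk σ}
    (h : act x l r = 0) : (N r).eval x = 0 := by
  by_contra hr
  exact act_ne_zero hσ hl hr h

/-- the norm is fixed by `σ` -/
theorem sg_N (hσ : ∀ a, σ (σ a) = a) (r : Sk σ) : sg σ (N r) = N r := by
  simp only [N, map_sub, map_mul, sg_sg hσ, sg_X]
  ring

theorem eval_sg (p : K[X]) (x : K) : (sg σ p).eval (σ x) = σ (p.eval x) := by
  simp only [sg, coe_mapRingHom, eval_map, eval₂_hom]

theorem N_eval_sigma (hσ : ∀ a, σ (σ a) = a) (r : Sk σ) (x : K) :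
    (N r).eval (σ x) = σ ((N r).eval x) := by
  conv_lhs => rw [← sg_N hσ r]
  exact eval_sg _ _

/-- anisotropy: the norm vanishes only at `0` -/
theorem eq_zero_of_N {r : Sk σ} (h : N r = 0) : r.re = 0 ∧ r.im = 0 := by
  have hinj : Function.Injective σ := σ.injective
  have hdeg : ∀ p : K[X], (sg σ p).natDegree = p.natDegree := fun p => by
    simp only [sg, coe_mapRingHom]
    exact natDegree_map_eq_of_injective hinj p
  have hne : ∀ p : K[X], p ≠ 0 → sg σ p ≠ 0 := fun p hp => by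
    simp only [sg, coe_mapRingHom]
    exact (Polynomial.map_ne_zero_iff hinj).2 hp
  have h' : r.re * sg σ r.re = X * r.im * sg σ r.im := sub_eq_zero.1 h
  by_cases ha : r.re = 0
  · refine ⟨ha, ?_⟩
    rw [ha, zero_mul] at h'
    by_contra hb
    exact (mul_ne_zero (mul_ne_zero X_ne_zero hb) (hne _ hb)) h'.symm
  · by_cases hb : r.im = 0
    · rw [hb, mul_zero, zero_mul] at h'
      exact absurd h' (mul_ne_zero ha (hne _ ha))
    · exfalso
      have hd := congrArg natDegree h'
      rw [natDegree_mul ha (hne _ ha), hdeg,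
        natDegree_mul (mul_ne_zero X_ne_zero hb) (hne _ hb), natDegree_mul X_ne_zero hb, hdeg,
        natDegree_X] at hd
      omega

/-- **(U)**: an element of `τ`-degree `≤ 3` killing a vector at two places is `0`. -/
theorem eq_zero_of_two (hσ : ∀ a, σ (σ a) = a) {x y : K} (hx : σ x ≠ x) (hy : σ y ≠ y)
    (hxy : x ≠ y) (hxy' : σ x ≠ y) {v u : K × K} (hv : v ≠ 0) (hu : u ≠ 0) {r : Sk σ}
    (hre : r.re.natDegree ≤ 1) (him : r.im.natDegree ≤ 1)
    (h1 : act x v r = 0) (h2 : act y u r = 0) : r.re = 0 ∧ r.im = 0 := by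
  classical
  apply eq_zero_of_N
  have hinj : Function.Injective σ := σ.injective
  have hdeg : ∀ p : K[X], (sg σ p).natDegree = p.natDegree := fun p => by
    simp only [sg, coe_mapRingHom]
    exact natDegree_map_eq_of_injective hinj p
  have e1 := N_eval_of_act hσ hv h1
  have e2 := N_eval_of_act hσ hu h2
  have e3 : (N r).eval (σ x) = 0 := by rw [N_eval_sigma hσ, e1, map_zero]
  have e4 : (N r).eval (σ y) = 0 := by rw [N_eval_sigma hσ, e2, map_zero]
  have hd : (N r).natDegree ≤ 3 := by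
    unfold N
    refine (natDegree_sub_le _ _).trans (max_le ?_ ?_)
    · refine natDegree_mul_le.trans ?_
      rw [hdeg]; omega
    · refine natDegree_mul_le.trans ?_
      rw [hdeg]
      have : (X * r.im).natDegree ≤ 1 + r.im.natDegree := by
        refine natDegree_mul_le.trans ?_
        rw [natDegree_X]
      omega
  by_contra hN
  have hsub : ({x, σ x, y, σ y} : Finset K) ⊆ (N r).roots.toFinset := by
    intro a ha
    rw [Multiset.mem_toFinset, mem_roots hN, IsRoot.def]
    simp only [Finset.mem_insert, Finset.mem_singleton] at ha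
    rcases ha with rfl | rfl | rfl | rfl <;> assumption
  have hcard : ({x, σ x, y, σ y} : Finset K).card = 4 := by
    have hxy2 : x ≠ σ y := fun h => hxy' (by rw [h, hσ])
    have hxy3 : σ x ≠ σ y := fun h => hxy (hinj h)
    rw [Finset.card_insert_of_notMem, Finset.card_insert_of_notMem,
      Finset.card_insert_of_notMem, Finset.card_singleton]
    · simpa using hy.symm
    · simp only [Finset.mem_insert, Finset.mem_singleton, not_or]
      exact ⟨hxy', hxy3⟩
    · simp only [Finset.mem_insert, Finset.mem_singleton, not_or]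
      exact ⟨hx.symm, hxy, hxy2⟩
  have := (Finset.card_le_card hsub).trans
    ((Multiset.toFinset_card_le _).trans (card_roots' (N r)))
  omega


theorem ext' {r s : Sk σ} (h1 : r.re = s.re) (h2 : r.im = s.im) : r = s := Sk.ext h1 h2

theorem natDegree_sg (p : K[X]) : (sg σ p).natDegree = p.natDegree := by
  simp only [sg, coe_mapRingHom]
  exact natDegree_map_eq_of_injective σ.injective p

/-- the action is additive in the element -/
theorem act_sub (x : K) (l : K × K) (a b a' b' : K[X]) :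
    act x l (⟨a - a', b - b'⟩ : Sk σ) =
      act x l (⟨a, b⟩ : Sk σ) - act x l (⟨a', b'⟩ : Sk σ) := by
  ext
  · simp only [act, map_sub, eval_sub, Prod.fst_sub]; ring
  · simp only [act, map_sub, eval_sub, Prod.snd_sub]; ring

/-- cancelling `τ` on the right -/
theorem act_tau {x : K} (hx0 : x ≠ 0) {l : K × K} {a b : K[X]}
    (h : act x l (⟨X * b, a⟩ : Sk σ) = 0) : act x l (⟨a, b⟩ : Sk σ) = 0 := by
  have h1 := congrArg Prod.fst h
  have h2 := congrArg Prod.snd h
  simp only [act, map_mul, sg_X, eval_mul, eval_X, Prod.fst_zero, Prod.snd_zero] at h1 h2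
  ext
  · simp only [act, Prod.fst_zero]
    linear_combination -h2
  · simp only [act, Prod.snd_zero]
    have : x * (a.eval x * l.2 - (sg σ b).eval x * l.1) = 0 := by linear_combination -h1
    exact (mul_eq_zero.1 this).resolve_left hx0

/-- **(U')**: constant term `0`, `τ`-degree `≤ 4`, killing a vector at two places: `0`. -/
theorem eq_zero_of_two' (hσ : ∀ a, σ (σ a) = a) {x y : K} (hx : σ x ≠ x) (hy : σ y ≠ y)
    (hxy : x ≠ y) (hxy' : σ x ≠ y) {v u : K × K} (hv : v ≠ 0) (hu : u ≠ 0) {a b : K[X]}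
    (ha : a.natDegree ≤ 1) (hb : b.natDegree ≤ 1)
    (h1 : act x v (⟨X * b, a⟩ : Sk σ) = 0) (h2 : act y u (⟨X * b, a⟩ : Sk σ) = 0) :
    a = 0 ∧ b = 0 := by
  have hx0 : x ≠ 0 := fun h => hx (by rw [h, map_zero])
  have hy0 : y ≠ 0 := fun h => hy (by rw [h, map_zero])
  exact eq_zero_of_two hσ hx hy hxy hxy' hv hu (r := ⟨a, b⟩) ha hb (act_tau hx0 h1)
    (act_tau hy0 h2)

/-! ### the quadratic elements -/

/-- `a ↦ a σ a` -/
def nm (σ : K →+* K) (a : K) : K := a * σ a

theorem nm_fix (hσ : ∀ a, σ (σ a) = a) (a : K) : σ (nm σ a) = nm σ a := by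
  simp only [nm, map_mul, hσ]; ring

theorem nm_ne_zero {a : K} (h : a ≠ 0) : nm σ a ≠ 0 :=
  mul_ne_zero h ((map_ne_zero σ).2 h)

/-- the form `N l₀ - x N l₁` -/
def Q (σ : K →+* K) (x : K) (l : K × K) : K := nm σ l.1 - x * nm σ l.2

theorem Q_sigma (hσ : ∀ a, σ (σ a) = a) (x : K) (l : K × K) :
    σ (Q σ x l) = nm σ l.1 - σ x * nm σ l.2 := by
  simp only [Q, map_sub, map_mul, nm_fix hσ]

theorem Q_ne_zero (hσ : ∀ a, σ (σ a) = a) {x : K} (hx : σ x ≠ x) {l : K × K} (hl : l ≠ 0) :
    Q σ x l ≠ 0 := by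
  intro h
  have h' : nm σ l.1 = x * nm σ l.2 := sub_eq_zero.1 h
  by_cases h2 : l.2 = 0
  · have h1 : l.1 = 0 := by
      by_contra h1
      apply nm_ne_zero (σ := σ) h1
      rw [h', h2]; simp [nm]
    exact hl (Prod.ext h1 h2)
  · have hn := nm_ne_zero (σ := σ) h2
    have hs := congrArg σ h'
    rw [map_mul, nm_fix hσ, nm_fix hσ, h'] at hs
    exact hx (mul_right_cancel₀ hn hs).symm

/-- coefficient of `τ²` -/
noncomputable def gam (σ : K →+* K) (x : K) (l : K × K) : K := -(σ (Q σ x l) / Q σ x l) / σ x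

/-- coefficient of `τ` -/
noncomputable def bet (σ : K →+* K) (x : K) (l : K × K) : K :=
  (x - σ x) / x * (l.1 * σ l.2 / σ (Q σ x l))

/-- the element `1 + bet τ + gam τ²` of norm `X / X(0)` killing `l` -/
noncomputable def be (σ : K →+* K) (x : K) (l : K × K) : Sk σ :=
  ⟨1 + C (gam σ x l) * X, C (bet σ x l)⟩

theorem be_re_coeff (x : K) (l : K × K) : (be σ x l).re.coeff 0 = 1 := by
  simp [be]

theorem be_re_deg (x : K) (l : K × K) : (be σ x l).re.natDegree ≤ 1 := by
  simp only [be]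
  compute_degree

theorem be_im_deg (x : K) (l : K × K) : (be σ x l).im.natDegree = 0 := by
  simp [be]

theorem x_ne_zero {x : K} (hx : σ x ≠ x) : x ≠ 0 := fun h => hx (by rw [h, map_zero])

theorem act_be (hσ : ∀ a, σ (σ a) = a) {x : K} (hx : σ x ≠ x) {l : K × K} (hl : l ≠ 0) :
    act x l (be σ x l) = 0 := by
  have hx0 : x ≠ 0 := x_ne_zero hx
  have hsx0 : σ x ≠ 0 := (map_ne_zero σ).2 hx0
  have hQ := Q_ne_zero hσ hx hl
  have hQs : σ (Q σ x l) ≠ 0 := (map_ne_zero σ).2 hQ
  have hsg : sg σ (1 + C (gam σ x l) * X) = 1 + C (σ (gam σ x l)) * X := by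
    simp only [map_add, map_one, map_mul, sg_C, sg_X]
  have hgs : σ (gam σ x l) = -(Q σ x l / σ (Q σ x l)) / x := by
    simp only [gam, map_div₀, map_neg, hσ]
  have hbs : σ (bet σ x l) = (σ x - x) / σ x * (σ l.1 * l.2 / Q σ x l) := by
    simp only [bet, map_div₀, map_mul, map_sub, hσ]
  have e1 : σ (Q σ x l) = nm σ l.1 - σ x * nm σ l.2 := Q_sigma hσ x l
  ext
  · simp only [act, be, hsg, eval_add, eval_one, eval_mul, eval_C, eval_X, hgs, Prod.fst_zero]
    have : (1 + -(Q σ x l / σ (Q σ x l)) / x * x) * l.1 - x * bet σ x l * l.2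
        = l.1 * ((σ (Q σ x l) - Q σ x l) - (x - σ x) * nm σ l.2) / σ (Q σ x l) := by
      simp only [bet, nm]
      field_simp
      ring
    rw [this, e1]
    simp only [Q]
    ring_nf
  · simp only [act, be, sg_C, eval_add, eval_one, eval_mul, eval_C, eval_X, hbs, Prod.snd_zero]
    have : (1 + gam σ x l * x) * l.2 - (σ x - x) / σ x * (σ l.1 * l.2 / Q σ x l) * l.1
        = l.2 * (σ x * Q σ x l - x * σ (Q σ x l) - (σ x - x) * nm σ l.1) / (σ x * Q σ x l) := by
      simp only [gam, nm]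
      field_simp
      ring
    rw [this, e1]
    simp only [Q]
    ring_nf


/-- the norm of `be` -/
theorem N_be (hσ : ∀ a, σ (σ a) = a) {x : K} (hx : σ x ≠ x) {l : K × K} (hl : l ≠ 0) :
    N (be σ x l) = C (x * σ x)⁻¹ * XX σ x := by
  have hx0 : x ≠ 0 := x_ne_zero hx
  have hsx0 : σ x ≠ 0 := (map_ne_zero σ).2 hx0
  have hQ := Q_ne_zero hσ hx hl
  have hQs : σ (Q σ x l) ≠ 0 := (map_ne_zero σ).2 hQ
  have hgs : σ (gam σ x l) = -(Q σ x l / σ (Q σ x l)) / x := by
    simp only [gam, map_div₀, map_neg, hσ]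
  have hbs : σ (bet σ x l) = (σ x - x) / σ x * (σ l.1 * l.2 / Q σ x l) := by
    simp only [bet, map_div₀, map_mul, map_sub, hσ]
  have e1 : σ (Q σ x l) = nm σ l.1 - σ x * nm σ l.2 := Q_sigma hσ x l
  have hL : N (be σ x l) = 1 + C (gam σ x l + σ (gam σ x l) - bet σ x l * σ (bet σ x l)) * X +
      C (gam σ x l * σ (gam σ x l)) * X ^ 2 := by
    simp only [N, be, map_add, map_one, map_mul, sg_C, sg_X, C_add, C_sub, C_mul]
    ring
  have hR : C (x * σ x)⁻¹ * XX σ x = 1 + C (-(x⁻¹ + (σ x)⁻¹)) * X + C ((x * σ x)⁻¹) * X ^ 2 := by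
    have h1 : C (x * σ x)⁻¹ * (C x * C (σ x)) = (1 : K[X]) := by
      rw [← C_mul, ← C_mul, inv_mul_cancel₀ (mul_ne_zero hx0 hsx0), C_1]
    have h2 : C (x * σ x)⁻¹ * (C x + C (σ x)) = (C (x⁻¹ + (σ x)⁻¹) : K[X]) := by
      rw [← C_add, ← C_mul]; congr 1; field_simp; ring
    simp only [XX, C_neg]
    linear_combination h1 - X * h2
  rw [hL, hR]
  have k1 : gam σ x l + σ (gam σ x l) - bet σ x l * σ (bet σ x l) = -(x⁻¹ + (σ x)⁻¹) := by
    rw [hgs, hbs]
    simp only [gam, bet]
    field_simp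
    rw [e1]
    simp only [Q, nm]
    ring
  have k2 : gam σ x l * σ (gam σ x l) = (x * σ x)⁻¹ := by
    rw [hgs]
    simp only [gam]
    field_simp
  rw [k1, k2]

theorem N_be_eval (hσ : ∀ a, σ (σ a) = a) {x : K} (hx : σ x ≠ x) {l : K × K} (hl : l ≠ 0)
    (y : K) : (N (be σ x l)).eval y = (x * σ x)⁻¹ * ((y - x) * (y - σ x)) := by
  rw [N_be hσ hx hl]
  simp [XX]

theorem N_be_eval_ne (hσ : ∀ a, σ (σ a) = a) {x : K} (hx : σ x ≠ x) {l : K × K} (hl : l ≠ 0)
    {y : K} (hxy : x ≠ y) (hxy' : σ x ≠ y) : (N (be σ x l)).eval y ≠ 0 := by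
  have hx0 : x ≠ 0 := x_ne_zero hx
  rw [N_be_eval hσ hx hl]
  exact mul_ne_zero (inv_ne_zero (mul_ne_zero hx0 ((map_ne_zero σ).2 hx0)))
    (mul_ne_zero (sub_ne_zero.2 hxy.symm) (sub_ne_zero.2 hxy'.symm))

/-- uniqueness of `be` -/
theorem be_unique (hσ : ∀ a, σ (σ a) = a) {x : K} (hx : σ x ≠ x) {l : K × K} (hl : l ≠ 0)
    {g b : K} (h : act x l (⟨1 + C g * X, C b⟩ : Sk σ) = 0) :
    g = gam σ x l ∧ b = bet σ x l := by
  have hx0 : x ≠ 0 := x_ne_zero hx
  have h1 : act x l (⟨X * C (g - gam σ x l), C (b - bet σ x l)⟩ : Sk σ) = 0 := by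
    have h2 := act_sub (σ := σ) x l (1 + C g * X) (C b) (1 + C (gam σ x l) * X) (C (bet σ x l))
    have h3 : act x l (⟨1 + C (gam σ x l) * X, C (bet σ x l)⟩ : Sk σ) = 0 := act_be hσ hx hl
    rw [h, h3, sub_zero] at h2
    rw [← h2]
    congr 2
    · simp only [C_sub]; ring
    · simp only [C_sub]
  have h4 := N_eval_of_act hσ hl (act_tau hx0 h1)
  simp only [N, sg_C, eval_sub, eval_mul, eval_C, eval_X] at h4
  set u := b - bet σ x l
  set v := g - gam σ x l
  have h5 : u * σ u = x * (v * σ v) := by linear_combination h4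
  have hv : v = 0 := by
    by_contra hv
    have hn : nm σ v ≠ 0 := nm_ne_zero hv
    have h6 := congrArg σ h5
    rw [map_mul, map_mul, hσ, map_mul, hσ] at h6
    apply hx
    apply mul_right_cancel₀ hn
    simp only [nm]
    linear_combination h5 - h6
  have hu : u = 0 := by
    by_contra hu
    apply nm_ne_zero (σ := σ) hu
    simp only [nm]
    rw [h5, hv]; simp
  exact ⟨sub_eq_zero.1 hv, sub_eq_zero.1 hu⟩

theorem be_smul (hσ : ∀ a, σ (σ a) = a) {x : K} (hx : σ x ≠ x) {l : K × K} (hl : l ≠ 0) {c : K}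
    (hc : c ≠ 0) : be σ x (c • l) = be σ x l := by
  have h1 : act x (c • l) (⟨1 + C (gam σ x l) * X, C (bet σ x l)⟩ : Sk σ) = 0 := by
    have := act_be hσ hx hl
    simp only [be] at this
    rw [act_smul, this, smul_zero]
  obtain ⟨h2, h3⟩ := be_unique hσ hx (smul_ne_zero hc hl) h1
  simp only [be, ← h2, ← h3]

/-- two vectors killed by the same `be` are proportional -/
theorem prop_of_be (hσ : ∀ a, σ (σ a) = a) {x : K} (hx : σ x ≠ x) {l l' : K × K} (hl : l ≠ 0)
    (hl' : l' ≠ 0) (h : be σ x l = be σ x l') : l.1 * l'.2 = l.2 * l'.1 := by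
  have hx0 : x ≠ 0 := x_ne_zero hx
  have hsx0 : σ x ≠ 0 := (map_ne_zero σ).2 hx0
  have a1 := act_be hσ hx hl
  have a2 := act_be hσ hx hl'
  rw [← h] at a2
  by_contra hd
  set g := gam σ x l with hg
  set b := bet σ x l with hb
  have hsg : sg σ (1 + C g * X) = 1 + C (σ g) * X := by
    simp only [map_add, map_one, map_mul, sg_C, sg_X]
  have f1 := congrArg Prod.fst a1
  have s1 := congrArg Prod.snd a1
  have f2 := congrArg Prod.fst a2
  have s2 := congrArg Prod.snd a2
  simp only [act, be, ← hg, ← hb, hsg, sg_C, eval_add, eval_one, eval_mul, eval_C, eval_X,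
    Prod.fst_zero, Prod.snd_zero] at f1 s1 f2 s2
  have hd' : l.1 * l'.2 - l.2 * l'.1 ≠ 0 := sub_ne_zero.2 hd
  have k1 : 1 + σ g * x = 0 := by
    apply (mul_eq_zero.1 (_ : (l.1 * l'.2 - l.2 * l'.1) * (1 + σ g * x) = 0)).resolve_left hd'
    linear_combination l'.2 * f1 - l.2 * f2
  have k2 : 1 + g * x = 0 := by
    apply (mul_eq_zero.1 (_ : (l.1 * l'.2 - l.2 * l'.1) * (1 + g * x) = 0)).resolve_left hd'
    linear_combination l.1 * s2 - l'.1 * s1
  have k3 := congrArg σ k2
  rw [map_add, map_one, map_mul, map_zero] at k3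
  have hgne : σ g ≠ 0 := fun h0 => by rw [h0, zero_mul, add_zero] at k1; exact one_ne_zero k1
  exact hx (mul_left_cancel₀ hgne (by linear_combination k3 - k1))

/-- **the square relation** -/
theorem comm (hσ : ∀ a, σ (σ a) = a) {x y : K} (hx : σ x ≠ x) (hy : σ y ≠ y)
    (hxy : x ≠ y) (hxy' : σ x ≠ y) {l m : K × K} (hl : l ≠ 0) (hm : m ≠ 0) :
    be σ x l * be σ y (act y m (be σ x l)) = be σ y m * be σ x (act x l (be σ y m)) := by
  have hyx' : σ y ≠ x := fun h => hxy' (by rw [← h, hσ])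
  set M := act y m (be σ x l) with hM
  set L := act x l (be σ y m) with hL
  have hM0 : M ≠ 0 := act_ne_zero hσ hm (N_be_eval_ne hσ hx hl hxy hxy')
  have hL0 : L ≠ 0 := act_ne_zero hσ hl (N_be_eval_ne hσ hy hm hxy.symm hyx')
  have a1 : act x l (be σ x l * be σ y M) = 0 := by
    rw [act_mul hσ, act_be hσ hx hl, act_zero]
  have a2 : act y m (be σ x l * be σ y M) = 0 := by
    rw [act_mul hσ, ← hM, act_be hσ hy hM0]
  have a3 : act y m (be σ y m * be σ x L) = 0 := by
    rw [act_mul hσ, act_be hσ hy hm, act_zero]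
  have a4 : act x l (be σ y m * be σ x L) = 0 := by
    rw [act_mul hσ, ← hL, act_be hσ hx hL0]
  -- the two products in coordinates
  have e1 : (be σ x l * be σ y M).re - (be σ y m * be σ x L).re =
      X * (C (gam σ x l + gam σ y M + bet σ x l * σ (bet σ y M) - gam σ y m - gam σ x L -
        bet σ y m * σ (bet σ x L)) + C (gam σ x l * gam σ y M - gam σ y m * gam σ x L) * X) := by
    simp only [be, mul_re, sg_C, C_add, C_sub, C_mul]
    ring
  have e2 : (be σ x l * be σ y M).im - (be σ y m * be σ x L).im =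
      C (bet σ y M + bet σ x l - bet σ x L - bet σ y m) +
        C (gam σ x l * bet σ y M + bet σ x l * σ (gam σ y M) - gam σ y m * bet σ x L -
          bet σ y m * σ (gam σ x L)) * X := by
    simp only [be, mul_im, map_add, map_one, map_mul, sg_C, sg_X, C_add, C_sub, C_mul]
    ring
  have b1 := act_sub (σ := σ) x l (be σ x l * be σ y M).re (be σ x l * be σ y M).im
    (be σ y m * be σ x L).re (be σ y m * be σ x L).im
  have b2 := act_sub (σ := σ) y m (be σ x l * be σ y M).re (be σ x l * be σ y M).im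
    (be σ y m * be σ x L).re (be σ y m * be σ x L).im
  rw [e1, e2, show (⟨(be σ x l * be σ y M).re, (be σ x l * be σ y M).im⟩ : Sk σ) =
    be σ x l * be σ y M from rfl, show (⟨(be σ y m * be σ x L).re, (be σ y m * be σ x L).im⟩ :
    Sk σ) = be σ y m * be σ x L from rfl, a1, a4, sub_zero] at b1
  rw [e1, e2, show (⟨(be σ x l * be σ y M).re, (be σ x l * be σ y M).im⟩ : Sk σ) =
    be σ x l * be σ y M from rfl, show (⟨(be σ y m * be σ x L).re, (be σ y m * be σ x L).im⟩ :
    Sk σ) = be σ y m * be σ x L from rfl, a2, a3, sub_zero] at b2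
  obtain ⟨c1, c2⟩ := eq_zero_of_two' hσ hx hy hxy hxy' hl hm
    (by compute_degree) (by compute_degree) b1 b2
  rw [c2, mul_zero] at e1
  rw [c1] at e2
  exact ext' (sub_eq_zero.1 e1) (sub_eq_zero.1 e2)

end Crest.Agent.R289.Fac281
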