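import Crest.Agent.R289.OneVar_748
import Crest.Agent.R289.HeckeTwo_622
import Crest.Agent.R289.Fac_281

/-!
Row 289, block A, leaf A.UNIQ (helper975): uniqueness of the two-place base code.

Part 1 (this section): from the functional form of the `x`-odd corner condition
`F(l, m) = G(psi_x l, m.be^x_l)` to the one-variable divisibilities in `w = N(z)`.
The transport is diagonal in `ρ`, `m0/m1 = z (1 + y ρ)/(1 + x ρ)`: `ρ ↦ sg(w) ρ`.
-/

set_option autoImplicit false

namespace Crest.Agent.R289.BaseA975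

open Polynomial Finset BaseDim394 OneVar748

section part1

variable {K : Type*} [Field K]

/-- value of a coefficient table at `l = (z,1)`, `m = (u,1)` -/
def ev (s : ℕ) (F : ℕ → ℕ → K) (z u : K) : K :=
  ∑ n ∈ range (s + 1), ∑ k ∈ range (s + 1), F n k * (z ^ n * u ^ k)

/-- value of a coefficient table at two vectors -/
def ev2 (s : ℕ) (G : ℕ → ℕ → K) (l m : K × K) : K :=
  ∑ n ∈ range (s + 1), ∑ k ∈ range (s + 1),
    G n k * (l.1 ^ n * l.2 ^ (s - n) * (m.1 ^ k * m.2 ^ (s - k)))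

/-- `(1 + yX)^k (1 + xX)^(s-k)` -/
noncomputable def bs (s : ℕ) (x y : K) (k : ℕ) : K[X] :=
  (1 + C y * X) ^ k * (1 + C x * X) ^ (s - k)

theorem natDegree_lin (x : K) : (1 + C x * X : K[X]).natDegree ≤ 1 := by
  compute_degree

theorem natDegree_bs {s k : ℕ} (hk : k ≤ s) (x y : K) : (bs s x y k).natDegree ≤ s := by
  unfold bs
  refine natDegree_mul_le.trans ?_
  have h1 : ((1 + C y * X : K[X]) ^ k).natDegree ≤ k :=
    natDegree_pow_le.trans (by have := natDegree_lin y; nlinarith)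
  have h2 : ((1 + C x * X : K[X]) ^ (s - k)).natDegree ≤ s - k :=
    natDegree_pow_le.trans (by have := natDegree_lin x; nlinarith)
  omega

/-- the part of total degree `N`, dehomogenised on `m` -/
noncomputable def PX (s : ℕ) (x y : K) (F : ℕ → ℕ → K) (N : ℕ) : K[X] :=
  ∑ n ∈ range (s + 1), ∑ k ∈ range (s + 1), if n + k = N then C (F n k) * bs s x y k else 0

/-- the same on the other side -/
noncomputable def PY (s : ℕ) (x y : K) (F : ℕ → ℕ → K) (N : ℕ) : K[X] :=
  PX s y x (fun n k => F k n) N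

/-- collects the `i`-th coefficients -/
noncomputable def A (s : ℕ) (x y : K) (F : ℕ → ℕ → K) (i : ℕ) : K[X] :=
  ∑ n ∈ range (s + 1), ∑ k ∈ range (s + 1), monomial (n + k) (F n k * (bs s x y k).coeff i)

theorem coeff_A (s : ℕ) (x y : K) (F : ℕ → ℕ → K) (i N : ℕ) :
    (A s x y F i).coeff N = (PX s x y F N).coeff i := by
  unfold A PX
  rw [finsetSum_coeff, finsetSum_coeff]
  refine Finset.sum_congr rfl fun n _ => ?_
  rw [finsetSum_coeff, finsetSum_coeff]
  refine Finset.sum_congr rfl fun k _ => ?_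
  rw [coeff_monomial]
  split_ifs with h
  · rw [coeff_C_mul]
  · rw [coeff_zero]

theorem natDegree_A (s : ℕ) (x y : K) (F : ℕ → ℕ → K) (i : ℕ) :
    (A s x y F i).natDegree ≤ 2 * s := by
  unfold A
  refine natDegree_sum_le_of_forall_le _ _ fun n hn => ?_
  refine natDegree_sum_le_of_forall_le _ _ fun k hk => ?_
  refine (natDegree_monomial_le _).trans ?_
  have h1 := Finset.mem_range.1 hn
  have h2 := Finset.mem_range.1 hk
  omega

theorem eval_A (s : ℕ) (x y : K) (F : ℕ → ℕ → K) (i : ℕ) (z : K) :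
    (A s x y F i).eval z = ∑ n ∈ range (s + 1), ∑ k ∈ range (s + 1),
      F n k * (bs s x y k).coeff i * z ^ (n + k) := by
  unfold A
  rw [eval_finsetSum]
  refine Finset.sum_congr rfl fun n _ => ?_
  rw [eval_finsetSum]
  refine Finset.sum_congr rfl fun k _ => ?_
  rw [eval_monomial]

/-- the window polynomial in `w = N(z)` -/
noncomputable def pw (q : ℕ) (P : ℕ → K[X]) (r i : ℕ) : K[X] :=
  ∑ j ∈ range 4, monomial j ((P (r + (q + 1) * j)).coeff i)

theorem PX_zero_of_lt {s : ℕ} (x y : K) (F : ℕ → ℕ → K) {N : ℕ} (h : 2 * s < N) :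
    PX s x y F N = 0 := by
  unfold PX
  refine Finset.sum_eq_zero fun n hn => Finset.sum_eq_zero fun k hk => ?_
  have h1 := Finset.mem_range.1 hn
  have h2 := Finset.mem_range.1 hk
  rw [if_neg]
  omega

theorem cls_A (q s : ℕ) (hs : 2 * s < 4 * (q + 1)) (x y : K) (F : ℕ → ℕ → K) (r i : ℕ) :
    cls q (A s x y F i) r = pw q (PX s x y F) r i := by
  ext t
  rw [coeff_cls, coeff_A, pw, finsetSum_coeff]
  simp only [coeff_monomial]
  rw [Finset.sum_ite_eq' (Finset.range 4) t]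
  split_ifs with h
  · rfl
  · rw [PX_zero_of_lt, coeff_zero]
    have : 4 ≤ t := by simpa using h
    nlinarith

theorem natDegree_PX (s : ℕ) (x y : K) (F : ℕ → ℕ → K) (N : ℕ) :
    (PX s x y F N).natDegree ≤ s := by
  unfold PX
  refine natDegree_sum_le_of_forall_le _ _ fun n hn => ?_
  refine natDegree_sum_le_of_forall_le _ _ fun k hk => ?_
  split_ifs
  · refine natDegree_mul_le.trans ?_
    rw [natDegree_C, zero_add]
    exact natDegree_bs (Nat.lt_succ_iff.1 (Finset.mem_range.1 hk)) x y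
  · simp

theorem natDegree_pw (q : ℕ) (P : ℕ → K[X]) (r i : ℕ) : (pw q P r i).natDegree ≤ 3 := by
  unfold pw
  refine natDegree_sum_le_of_forall_le _ _ fun j hj => ?_
  refine (natDegree_monomial_le _).trans ?_
  have h1 := Finset.mem_range.1 hj
  omega

/-- odd coordinate of the line `l` at the place `x` (up to a constant `conj (l#)`),
`xb` the conjugate of `x` -/
noncomputable def psz (x xb w z : K) : K × K := ((w - x)⁻¹, z / (x * (w - xb)))

/-- `m.be^x_l` for `l = (z,1)`, `m = (u,1)`, `zb` the conjugate of `z`, `w = z zb` -/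
noncomputable def mbz (x xb y w z zb u : K) : K × K :=
  (((x * (w - xb) - y * (w - x)) * u - y * (x - xb) * z) / (x * (w - xb)),
    ((xb * (w - x) - y * (w - xb)) + (x - xb) * zb * u) / (xb * (w - x)))

/-- the transport in the coordinate `ρ` -/
theorem mbz_rho {x xb y w z zb T : K} (hx : x ≠ 0) (hxb : xb ≠ 0) (hwx : w - x ≠ 0)
    (hwxb : w - xb ≠ 0) (hw : w = z * zb) (hT : 1 + x * T ≠ 0) :
    mbz x xb y w z zb (z * (1 + y * T) / (1 + x * T)) =
      (z * (x - y) / x * (1 + y * ((w - x) / (w - xb) * T)) / (1 + x * T),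
        (x - y) / xb * ((w - xb) / (w - x)) * (1 + xb * ((w - x) / (w - xb) * T)) /
          (1 + x * T)) := by
  unfold mbz
  ext
  · field_simp
    ring
  · field_simp
    rw [hw]
    ring

theorem term_eq {s n k : ℕ} (hn : n ≤ s) (hk : k ≤ s) {x xb P R z y B C' D : K}
    (hP : P ≠ 0) (hR : R ≠ 0) (hD : D ≠ 0)
    (h1 : (P / R) ^ (s + 4) = 1) (h2 : P ^ s * (P / R) ^ 2 = 1) :
    (P⁻¹) ^ (s - n) * (z / (x * R)) ^ n * ((z * (x - y) / x * B / D) ^ k *
        ((x - y) / xb * (R / P) * C' / D) ^ (s - k)) * D ^ s =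
      (x - y) ^ s / (x ^ n * x ^ k * xb ^ (s - k)) * z ^ (n + k) * (P / R) ^ (n + k + 6) *
        (B ^ k * C' ^ (s - k)) := by
  have e1 : (P⁻¹) ^ (s - n) = (P / R) ^ 2 * P ^ n := by
    rw [inv_pow]
    refine inv_eq_of_mul_eq_one_right ?_
    have : P ^ (s - n) * P ^ n = P ^ s := by rw [← pow_add, Nat.sub_add_cancel hn]
    rw [← h2, ← this]
    ring
  have e2 : (R / P) ^ (s - k) = (P / R) ^ (k + 4) := by
    have h3 : (R / P) ^ (s - k) * (P / R) ^ (s - k) = 1 := by
      rw [← mul_pow, div_mul_div_comm, mul_comm R P, div_self (mul_ne_zero hP hR), one_pow]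
    have h4 : (P / R) ^ (s - k) * (P / R) ^ (k + 4) = 1 := by
      rw [← pow_add, ← h1]
      congr 1
      omega
    calc (R / P) ^ (s - k) = (R / P) ^ (s - k) * ((P / R) ^ (s - k) * (P / R) ^ (k + 4)) := by
          rw [h4, mul_one]
      _ = (R / P) ^ (s - k) * (P / R) ^ (s - k) * (P / R) ^ (k + 4) := by ring
      _ = _ := by rw [h3, one_mul]
  have e3 : (D⁻¹) ^ k * (D⁻¹) ^ (s - k) * D ^ s = 1 := by
    rw [← pow_add, show k + (s - k) = s by omega, ← mul_pow, inv_mul_cancel₀ hD, one_pow]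
  have e4 : (x - y) ^ k * (x - y) ^ (s - k) = (x - y) ^ s := by
    rw [← pow_add, show k + (s - k) = s by omega]
  calc (P⁻¹) ^ (s - n) * (z / (x * R)) ^ n * ((z * (x - y) / x * B / D) ^ k *
        ((x - y) / xb * (R / P) * C' / D) ^ (s - k)) * D ^ s
      = ((P⁻¹) ^ (s - n) * (R⁻¹) ^ n * (R / P) ^ (s - k)) *
          (z ^ n * z ^ k * ((x - y) ^ k * (x - y) ^ (s - k)) *
            ((x⁻¹) ^ n * (x⁻¹) ^ k * (xb⁻¹) ^ (s - k))) * (B ^ k * C' ^ (s - k)) *
          ((D⁻¹) ^ k * (D⁻¹) ^ (s - k) * D ^ s) := by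
        simp only [div_eq_mul_inv, mul_inv, mul_pow]
        ring
    _ = _ := by
        rw [e1, e2, e3, e4]
        simp only [div_eq_mul_inv, mul_inv, mul_pow, inv_pow]
        ring

/-- the transported table -/
noncomputable def gt (s : ℕ) (x xb y : K) (G : ℕ → ℕ → K) (n k : ℕ) : K :=
  G (s - n) k * ((x - y) ^ s / (x ^ n * x ^ k * xb ^ (s - k)))

theorem ev_rho (s : ℕ) (x y : K) (F : ℕ → ℕ → K) (z T : K) (hT : 1 + x * T ≠ 0) :
    ev s F z (z * (1 + y * T) / (1 + x * T)) * (1 + x * T) ^ s =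
      ∑ n ∈ range (s + 1), ∑ k ∈ range (s + 1),
        F n k * z ^ (n + k) * (bs s x y k).eval T := by
  unfold ev
  rw [Finset.sum_mul]
  refine Finset.sum_congr rfl fun n _ => ?_
  rw [Finset.sum_mul]
  refine Finset.sum_congr rfl fun k hk => ?_
  have hk' := Nat.lt_succ_iff.1 (Finset.mem_range.1 hk)
  have e1 : (1 + x * T) ^ s = (1 + x * T) ^ k * (1 + x * T) ^ (s - k) := by
    rw [← pow_add, show k + (s - k) = s by omega]
  rw [e1, bs]
  simp only [eval_mul, eval_pow, eval_add, eval_one, eval_C, eval_X]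
  rw [div_pow, mul_pow, pow_add]
  have hD := pow_ne_zero k hT
  generalize 1 + x * T = D at hD ⊢
  field_simp

theorem ev2_rho (s : ℕ) {x xb y w z zb T : K} (G : ℕ → ℕ → K) (hx : x ≠ 0) (hxb : xb ≠ 0)
    (hwx : w - x ≠ 0) (hwxb : w - xb ≠ 0) (hw : w = z * zb) (hT : 1 + x * T ≠ 0)
    (h1 : ((w - x) / (w - xb)) ^ (s + 4) = 1)
    (h2 : (w - x) ^ s * ((w - x) / (w - xb)) ^ 2 = 1) :
    ev2 s G (psz x xb w z) (mbz x xb y w z zb (z * (1 + y * T) / (1 + x * T))) *
        (1 + x * T) ^ s =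
      ∑ n ∈ range (s + 1), ∑ k ∈ range (s + 1),
        gt s x xb y G n k * z ^ (n + k) * ((w - x) / (w - xb)) ^ (n + k + 6) *
          (bs s xb y k).eval ((w - x) / (w - xb) * T) := by
  rw [mbz_rho hx hxb hwx hwxb hw hT]
  unfold ev2 psz
  rw [Finset.sum_mul, ← Finset.sum_range_reflect]
  refine Finset.sum_congr rfl fun n hn => ?_
  have hn' := Nat.lt_succ_iff.1 (Finset.mem_range.1 hn)
  rw [Finset.sum_mul]
  refine Finset.sum_congr rfl fun k hk => ?_
  have hk' := Nat.lt_succ_iff.1 (Finset.mem_range.1 hk)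
  have hsn : s + 1 - 1 - n = s - n := by omega
  have hsn' : s - (s - n) = n := by omega
  rw [hsn, hsn', bs, gt]
  simp only [eval_mul, eval_pow, eval_add, eval_one, eval_C, eval_X]
  have := term_eq (s := s) (n := n) (k := k) hn' hk' (x := x) (xb := xb) (P := w - x)
    (R := w - xb) (z := z) (y := y) (B := 1 + y * ((w - x) / (w - xb) * T))
    (C' := 1 + xb * ((w - x) / (w - xb) * T)) (D := 1 + x * T) hwx hwxb hT h1 h2
  linear_combination G (s - n) k * this

end part1

section part2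

variable {K : Type*} [Field K] [Fintype K] {q : ℕ}

/-- coefficientwise transport at one `z` -/
theorem A_transport (hcard : Fintype.card K = q ^ 2) (s : ℕ) (hs : s < q ^ 2 - 1)
    {x xb y w z zb : K} (F G : ℕ → ℕ → K) (hx : x ≠ 0) (hxb : xb ≠ 0)
    (hwx : w - x ≠ 0) (hwxb : w - xb ≠ 0) (hw : w = z * zb)
    (h1 : ((w - x) / (w - xb)) ^ (s + 4) = 1)
    (h2 : (w - x) ^ s * ((w - x) / (w - xb)) ^ 2 = 1)
    (h : ∀ u, ev s F z u = ev2 s G (psz x xb w z) (mbz x xb y w z zb u)) (i : ℕ) :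
    (A s x y F i).eval z = ((w - x) / (w - xb)) ^ (6 + i) *
      (A s xb y (gt s x xb y G) i).eval ((w - x) / (w - xb) * z) := by
  classical
  set sig := (w - x) / (w - xb) with hsig
  set L : K[X] := ∑ n ∈ range (s + 1), ∑ k ∈ range (s + 1),
    C (F n k * z ^ (n + k)) * bs s x y k with hL
  set R : K[X] := ∑ n ∈ range (s + 1), ∑ k ∈ range (s + 1),
    C (gt s x xb y G n k * z ^ (n + k) * sig ^ (n + k + 6)) *
      (bs s xb y k).comp (C sig * X) with hR
  have hLR : L = R := by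
    refine eq_of_eval (n := s) ?_ ?_ (Finset.univ.erase (-x⁻¹)) ?_ ?_
    · refine natDegree_sum_le_of_forall_le _ _ fun n hn => ?_
      refine natDegree_sum_le_of_forall_le _ _ fun k hk => ?_
      exact (natDegree_C_mul_le _ _).trans
        (natDegree_bs (Nat.lt_succ_iff.1 (Finset.mem_range.1 hk)) x y)
    · refine natDegree_sum_le_of_forall_le _ _ fun n hn => ?_
      refine natDegree_sum_le_of_forall_le _ _ fun k hk => ?_
      refine (natDegree_C_mul_le _ _).trans ?_
      refine natDegree_comp_le.trans ?_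
      have e1 : (C sig * X : K[X]).natDegree ≤ 1 := by compute_degree
      have e2 := natDegree_bs (Nat.lt_succ_iff.1 (Finset.mem_range.1 hk)) xb y
      nlinarith
    · rw [Finset.card_erase_of_mem (Finset.mem_univ _), Finset.card_univ, hcard]
      exact hs
    · intro T hT
      have hT' : 1 + x * T ≠ 0 := by
        intro h0
        apply Finset.ne_of_mem_erase hT
        field_simp
        linear_combination h0
      have e1 := ev_rho s x y F z T hT'
      have e2 := ev2_rho s G hx hxb hwx hwxb hw hT' h1 h2 (y := y)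
      rw [← h, e1] at e2
      rw [hL, hR]
      simp only [eval_finsetSum, eval_mul, eval_C, eval_comp, eval_X]
      rw [e2]
  have hc := congrArg (fun p : K[X] => p.coeff i) hLR
  simp only [hL, hR, finsetSum_coeff, coeff_C_mul, comp_C_mul_X_coeff] at hc
  rw [eval_A, eval_A, Finset.mul_sum]
  calc ∑ n ∈ range (s + 1), ∑ k ∈ range (s + 1), F n k * (bs s x y k).coeff i * z ^ (n + k)
      = ∑ n ∈ range (s + 1), ∑ k ∈ range (s + 1),
          F n k * z ^ (n + k) * (bs s x y k).coeff i := by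
        refine Finset.sum_congr rfl fun n _ => Finset.sum_congr rfl fun k _ => ?_
        ring
    _ = _ := hc
    _ = _ := by
        refine Finset.sum_congr rfl fun n _ => ?_
        rw [Finset.mul_sum]
        refine Finset.sum_congr rfl fun k _ => ?_
        ring_nf

theorem qfix (hcard : Fintype.card K = q ^ 2) (z : K) : (z ^ (q + 1)) ^ q = z ^ (q + 1) :=
  norm_fixed hcard z

/-- the `x`-odd corner condition, in coordinates (`s = 2(q-1)`, conjugation = `q`-th power) -/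
def OddX (q : ℕ) (x y : K) (F G : ℕ → ℕ → K) : Prop :=
  ∀ z u : K, z ≠ 0 → ev (2 * (q - 1)) F z u =
    ev2 (2 * (q - 1)) G (psz x (x ^ q) (z ^ (q + 1)) z)
      (mbz x (x ^ q) y (z ^ (q + 1)) z (z ^ q) u)

theorem sg_facts (hcard : Fintype.card K = q ^ 2) {x w : K} (hx : x ^ q ≠ x) (hw : w ^ q = w) :
    ((w - x) / (w - x ^ q)) ^ (q + 1) = 1 ∧
    ((w - x) / (w - x ^ q)) ^ (2 * (q - 1) + 4) = 1 ∧
    (w - x) ^ (2 * (q - 1)) * ((w - x) / (w - x ^ q)) ^ 2 = 1 := by
  have hq := q_pos (K := K) hcard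
  obtain ⟨h1, h2⟩ := sub_ne hcard hx hw
  have h0 := sg_pow hcard hx hw
  unfold sg at h0
  refine ⟨h0, ?_, ?_⟩
  · rw [show 2 * (q - 1) + 4 = (q + 1) * 2 by omega, pow_mul, h0, one_pow]
  · have ha : (w - x) ^ q = w - x ^ q := by rw [sub_pow_q hcard, hw]
    have hb : (w - x) ^ (q - 1) * (w - x) = w - x ^ q := by
      rw [← pow_succ, Nat.sub_add_cancel (by omega), ha]
    have hc : (w - x) ^ (q - 1) * ((w - x) / (w - x ^ q)) = 1 := by
      rw [← mul_div_assoc, hb, div_self h2]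
    rw [mul_comm 2 (q - 1), pow_mul, ← mul_pow, hc, one_pow]

theorem transport (hcard : Fintype.card K = q ^ 2) {x y : K} (hx : x ^ q ≠ x)
    {F G : ℕ → ℕ → K} (h : OddX q x y F G) {w : K} (hw0 : ∃ z : K, z ≠ 0 ∧ z ^ (q + 1) = w)
    {r i : ℕ} (hr : r ≤ q) :
    (pw q (PX (2 * (q - 1)) x y F) r i).eval w =
      ((w - x) / (w - x ^ q)) ^ (r + i + 6) *
        (pw q (PX (2 * (q - 1)) (x ^ q) y (gt (2 * (q - 1)) x (x ^ q) y G)) r i).eval w := by
  have hq := q_pos (K := K) hcard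
  obtain ⟨z, hz, rfl⟩ := hw0
  have hw := qfix hcard z
  have hx0 : x ≠ 0 := by
    rintro rfl
    exact hx (zero_pow (by omega))
  have hxb : x ^ q ≠ 0 := pow_ne_zero _ hx0
  have key : ∀ v : K, v ≠ 0 → v ^ (q + 1) = z ^ (q + 1) →
      1 * (A (2 * (q - 1)) x y F i).eval v =
        ((z ^ (q + 1) - x) / (z ^ (q + 1) - x ^ q)) ^ (6 + i) *
        (A (2 * (q - 1)) (x ^ q) y (gt (2 * (q - 1)) x (x ^ q) y G) i).eval
          ((z ^ (q + 1) - x) / (z ^ (q + 1) - x ^ q) * v) := by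
    intro v hv hvz
    rw [← hvz, one_mul]
    rw [← hvz] at hw
    obtain ⟨h1, h2⟩ := sub_ne hcard hx hw
    obtain ⟨g0, g1, g2⟩ := sg_facts hcard hx hw
    refine A_transport hcard (2 * (q - 1)) ?_ F G hx0 hxb h1 h2 (zb := v ^ q) ?_ g1 g2 ?_ i
    · rw [fac q (by omega), mul_comm]
      exact Nat.mul_lt_mul_of_pos_left (by omega) (by omega)
    · rw [pow_succ, mul_comm]
    · intro u
      exact h v u hv
  have h1 := cls_transport hcard _ _ z hz _ _ _ (sg_facts hcard hx hw).1 key r hr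
  rw [cls_A q _ (by omega), cls_A q _ (by omega), one_mul] at h1
  rw [h1, ← pow_add]
  congr 2
  omega

/-- non-negative window -/
theorem win_pos (hcard : Fintype.card K = q ^ 2) {x y : K} (hx : x ^ q ≠ x)
    {F G : ℕ → ℕ → K} (h : OddX q x y F G) {r i e m : ℕ} (hr : r ≤ q)
    (he : r + i + 6 = e + (q + 1) * m) (he' : e + 3 < q - 1) :
    (X - C x) ^ e ∣ pw q (PX (2 * (q - 1)) x y F) r i := by
  obtain ⟨S, hS, hS'⟩ := norms (K := K) hcard
  refine (dvd_of_transport (u := x) (v := x ^ q) (Ne.symm hx) (M := 3) (r := e) S (by omega)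
    (natDegree_pw _ _ _ _) (p' := pw q (PX (2 * (q - 1)) (x ^ q) y
      (gt (2 * (q - 1)) x (x ^ q) y G)) r i) (natDegree_pw _ _ _ _) ?_).1
  intro w hw
  have h0 := hS' w hw
  have hwq : w ^ q = w := by
    obtain ⟨z, -, rfl⟩ := h0
    exact qfix hcard z
  obtain ⟨h1, h2⟩ := sub_ne hcard hx hwq
  obtain ⟨g0, -, -⟩ := sg_facts hcard hx hwq
  rw [transport hcard hx h h0 hr, he, pow_add, pow_mul, g0, one_pow, mul_one, div_pow]
  field_simp

/-- non-positive window -/
theorem win_neg (hcard : Fintype.card K = q ^ 2) {x y : K} (hx : x ^ q ≠ x)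
    {F G : ℕ → ℕ → K} (h : OddX q x y F G) {r i e m : ℕ} (hr : r ≤ q)
    (he : r + i + 6 + e = (q + 1) * m) (he' : e + 3 < q - 1) :
    (X - C (x ^ q)) ^ e ∣ pw q (PX (2 * (q - 1)) x y F) r i := by
  obtain ⟨S, hS, hS'⟩ := norms (K := K) hcard
  refine (dvd_of_transport (u := x ^ q) (v := x) hx (M := 3) (r := e) S (by omega)
    (natDegree_pw _ _ _ _) (p' := pw q (PX (2 * (q - 1)) (x ^ q) y
      (gt (2 * (q - 1)) x (x ^ q) y G)) r i) (natDegree_pw _ _ _ _) ?_).1
  intro w hw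
  have h0 := hS' w hw
  have hwq : w ^ q = w := by
    obtain ⟨z, -, rfl⟩ := h0
    exact qfix hcard z
  obtain ⟨h1, h2⟩ := sub_ne hcard hx hwq
  obtain ⟨g0, -, -⟩ := sg_facts hcard hx hwq
  have g1 : ((w - x) / (w - x ^ q)) ^ (r + i + 6) * ((w - x) / (w - x ^ q)) ^ e = 1 := by
    rw [← pow_add, he, pow_mul, g0, one_pow]
  have g2 : (w - x) ^ e = ((w - x) / (w - x ^ q)) ^ e * (w - x ^ q) ^ e := by
    rw [← mul_pow, div_mul_cancel₀ _ h2]
  rw [transport hcard hx h h0 hr, g2]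
  linear_combination (w - x ^ q) ^ e * (pw q (PX (2 * (q - 1)) (x ^ q) y
      (gt (2 * (q - 1)) x (x ^ q) y G)) r i).eval w * g1

end part2

end Crest.Agent.R289.BaseA975
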