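import Crest.Agent.R289.HeckeTwo_622
import Crest.Agent.R289.PS_459

/-!
Row 289, block A, leaf A.JOINT (posts 6018 (c), 6038 (1)):
a function on pairs of nonzero vectors is bihomogeneous polynomial iff its rows and columns are
homogeneous polynomial (`mem_BP_iff_slices`), table form (`table_iff`), and the relation with the
polynomial evaluation `ev` on the projective line (`HP_iff_ev`).
-/

set_option autoImplicit false

namespace Crest.Agent.R289.Joint622

open Finset Polynomial
open Crest.Agent.R289.Hecke622 Crest.Agent.R289.HeckeTwo622 Crest.Agent.R289.PS459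

variable {K : Type*} [Field K]

/-! ### one variable -/

/-- `HP` on the projective line = evaluations of polynomials of degree `≤ s` -/
theorem ev_sum (s : ℕ) (c : ℕ → K) (b : Option K) :
    ev s (∑ j ∈ range (s + 1), C (c j) * X ^ j) b
      = ∑ j ∈ range (s + 1), c j * ((rp b).1 ^ j * (rp b).2 ^ (s - j)) := by
  cases b with
  | some z =>
    show (∑ j ∈ range (s + 1), C (c j) * X ^ j : K[X]).eval z = _
    rw [eval_finsetSum]
    apply Finset.sum_congr rfl
    intro j _
    simp [rp, rp0, rp1]
  | none =>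
    show (∑ j ∈ range (s + 1), C (c j) * X ^ j : K[X]).coeff s = _
    rw [finsetSum_coeff, Finset.sum_eq_single s, Finset.sum_eq_single s]
    · simp [rp, rp0, rp1]
    · intro j hj hjs
      have : s - j ≠ 0 := by
        have := Finset.mem_range.1 hj
        omega
      simp [rp, rp0, rp1, this]
    · intro h
      exact absurd (Finset.self_mem_range_succ s) h
    · intro j _ hjs
      rw [coeff_C_mul_X_pow, if_neg (Ne.symm hjs)]
    · intro h
      exact absurd (Finset.self_mem_range_succ s) h

theorem natDegree_sum_le (s : ℕ) (c : ℕ → K) :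
    (∑ j ∈ range (s + 1), C (c j) * X ^ j : K[X]).natDegree ≤ s := by
  refine natDegree_sum_le_of_forall_le _ _ fun j hj => ?_
  exact (natDegree_C_mul_X_pow_le _ _).trans (by
    have := Finset.mem_range.1 hj
    omega)

/-- a table on the projective line is given by a form of degree `s` iff it is `ev s p` -/
theorem HP_iff_ev (s : ℕ) (f : Option K → K) :
    (∃ F ∈ HP K s, ∀ b, f b = F (rp b)) ↔ ∃ p : K[X], p.natDegree ≤ s ∧ ∀ b, f b = ev s p b := by
  constructor
  · rintro ⟨F, hF, h⟩
    obtain ⟨c, hc⟩ := mem_HP.1 hF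
    exact ⟨_, natDegree_sum_le s c, fun b => by rw [h, hc, ev_sum]⟩
  · rintro ⟨p, hp, h⟩
    refine ⟨fun l => ∑ j ∈ range (s + 1), p.coeff j * (l.1 ^ j * l.2 ^ (s - j)),
      mem_HP.2 ⟨_, fun l => rfl⟩, fun b => ?_⟩
    have e : p = ∑ j ∈ range (s + 1), C (p.coeff j) * X ^ j := by
      conv_lhs => rw [p.as_sum_range_C_mul_X_pow' (n := s + 1) (by omega)]
    rw [h]
    conv_lhs => rw [e]
    rw [ev_sum]

/-- the determinant of two vectors -/
def dt (a l : K × K) : K := a.1 * l.2 - a.2 * l.1

theorem dt_rp {i j : Option K} (h : i ≠ j) : dt (rp i) (rp j) ≠ 0 := by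
  intro h0
  apply h
  unfold dt at h0
  cases i with
  | none =>
    cases j with
    | none => rfl
    | some z => simp [rp, rp0, rp1] at h0
  | some y =>
    cases j with
    | none => simp [rp, rp0, rp1] at h0
    | some z =>
      simp only [rp, rp0, rp1, mul_one, one_mul] at h0
      rw [sub_eq_zero.1 h0]

theorem HP_dt (a : K × K) : (fun l => dt a l) ∈ HP K 1 := by
  have h : (fun l => dt a l) = a.1 • (fun l : K × K => l.2) + (-a.2) • (fun l : K × K => l.1) := by
    funext l
    simp [dt]
    ring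
  rw [h]
  exact Submodule.add_mem _ (Submodule.smul_mem _ _ HP_snd) (Submodule.smul_mem _ _ HP_fst)

theorem HP_prod {ι : Type*} [DecidableEq ι] (T : Finset ι) (L : ι → K × K → K)
    (hL : ∀ i ∈ T, L i ∈ HP K 1) : (fun l => ∏ i ∈ T, L i l) ∈ HP K T.card := by
  induction T using Finset.induction_on with
  | empty => simpa using HP_one (K := K)
  | insert a T ha ih =>
    have h1 := ih fun i hi => hL i (Finset.mem_insert_of_mem hi)
    have h2 := HP_mul (hL a (Finset.mem_insert_self a T)) h1
    rw [Finset.card_insert_of_notMem ha, add_comm]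
    have e : (fun l => ∏ i ∈ insert a T, L i l) = fun l => L a l * ∏ i ∈ T, L i l := by
      funext l
      rw [Finset.prod_insert ha]
    rw [e]
    exact h2

/-- a form of degree `s` with `s + 1` zeros on the projective line vanishes -/
theorem HP_eq_zero {s : ℕ} {F : K × K → K} (hF : F ∈ HP K s) (T : Finset (Option K))
    (hT : s < T.card) (h0 : ∀ i ∈ T, F (rp i) = 0) : F = 0 := by
  classical
  obtain ⟨c, hc⟩ := mem_HP.1 hF
  set p : K[X] := ∑ j ∈ range (s + 1), C (c j) * X ^ j with hp
  have hev : ∀ b, F (rp b) = ev s p b := fun b => by rw [hp, ev_sum, hc]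
  have hp0 : p = 0 := by
    by_contra hne
    have h := card_agree (s := s) (p := p) (q := 0) (natDegree_sum_le s c)
      (by simp) hne T (fun i hi => by
        rw [← hev, h0 i hi]
        cases i <;> simp [ev])
    omega
  have hcj : ∀ j ∈ range (s + 1), c j = 0 := by
    intro j hj
    have h1 : p.coeff j = c j := by
      rw [hp, finsetSum_coeff, Finset.sum_eq_single j]
      · simp
      · intro i _ hij
        rw [coeff_C_mul_X_pow, if_neg (Ne.symm hij)]
      · intro h
        exact absurd hj h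
    rw [← h1, hp0, coeff_zero]
  funext l
  rw [hc, Pi.zero_apply]
  exact Finset.sum_eq_zero fun j hj => by rw [hcj j hj, zero_mul]

/-- Lagrange basis of the forms of degree `|T| - 1` -/
noncomputable def lag (T : Finset (Option K)) [DecidableEq (Option K)] (i : Option K)
    (l : K × K) : K :=
  ∏ j ∈ T.erase i, (dt (rp j) (rp i))⁻¹ * dt (rp j) l

theorem lag_mem [DecidableEq (Option K)] {s : ℕ} {T : Finset (Option K)} (hT : T.card = s + 1)
    {i : Option K} (hi : i ∈ T) : lag T i ∈ HP K s := by
  have h := HP_prod (T.erase i) (fun j l => (dt (rp j) (rp i))⁻¹ * dt (rp j) l)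
    (fun j _ => Submodule.smul_mem _ _ (HP_dt _))
  rw [Finset.card_erase_of_mem hi, hT] at h
  exact h

theorem lag_self [DecidableEq (Option K)] {T : Finset (Option K)} (i : Option K) :
    lag T i (rp i) = 1 := by
  unfold lag
  refine Finset.prod_eq_one fun j hj => ?_
  exact inv_mul_cancel₀ (dt_rp (Finset.ne_of_mem_erase hj))

theorem lag_ne [DecidableEq (Option K)] {T : Finset (Option K)} {i j : Option K} (hj : j ∈ T)
    (hij : j ≠ i) : lag T i (rp j) = 0 := by
  unfold lag
  refine Finset.prod_eq_zero (Finset.mem_erase.2 ⟨hij, hj⟩) ?_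
  unfold dt
  ring

/-- interpolation formula -/
theorem HP_interp [DecidableEq (Option K)] {s : ℕ} {T : Finset (Option K)}
    (hT : T.card = s + 1) {F : K × K → K} (hF : F ∈ HP K s) (l : K × K) :
    F l = ∑ i ∈ T, F (rp i) * lag T i l := by
  have hmem : F - (fun l => ∑ i ∈ T, F (rp i) * lag T i l) ∈ HP K s := by
    refine Submodule.sub_mem _ hF ?_
    have e : (fun l => ∑ i ∈ T, F (rp i) * lag T i l) = ∑ i ∈ T, F (rp i) • lag T i := by
      funext l
      rw [Finset.sum_apply]
      rfl
    rw [e]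
    exact Submodule.sum_mem _ fun i hi => Submodule.smul_mem _ _ (lag_mem hT hi)
  have h := HP_eq_zero hmem T (by omega) (fun j hj => by
    rw [Pi.sub_apply]
    show F (rp j) - (∑ i ∈ T, F (rp i) * lag T i (rp j)) = 0
    rw [Finset.sum_eq_single j]
    · rw [lag_self, mul_one, sub_self]
    · intro i _ hi
      rw [lag_ne hj (Ne.symm hi), mul_zero]
    · intro h
      exact absurd hj h)
  have h1 := congrFun h l
  rw [Pi.sub_apply, Pi.zero_apply] at h1
  exact sub_eq_zero.1 h1

/-! ### two variables -/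

/-- the value of a form at a vector in terms of its point -/
theorem HP_vec {s : ℕ} {F : K × K → K} (hF : F ∈ HP K s) (l : K × K) :
    F l = scv l ^ s * F (rp (ptv l)) := by
  conv_lhs => rw [← scv_smul_rp l]
  rw [HP_homog hF]

theorem BP_vec {s t : ℕ} {G : K × K → K × K → K} (hG : G ∈ BP K s t) (l m : K × K) :
    G l m = scv l ^ s * scv m ^ t * G (rp (ptv l)) (rp (ptv m)) := by
  conv_lhs => rw [← scv_smul_rp l, ← scv_smul_rp m]
  rw [BP_homog hG]

/-- **A.JOINT**, vector form: a function on pairs of nonzero vectors is bihomogeneous polynomial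
of bidegree `(s, t)` iff its rows are forms of degree `t` and its columns forms of degree `s` -/
theorem mem_BP_iff_slices [Finite K] {s t : ℕ} (hs : s ≤ Nat.card K)
    (B : K × K → K × K → K) :
    (∃ G ∈ BP K s t, ∀ l m, l ≠ 0 → m ≠ 0 → B l m = G l m) ↔
      (∀ l, l ≠ 0 → ∃ F ∈ HP K t, ∀ m, m ≠ 0 → B l m = F m) ∧
      (∀ m, m ≠ 0 → ∃ F ∈ HP K s, ∀ l, l ≠ 0 → B l m = F l) := by
  classical
  have := Fintype.ofFinite K
  constructor
  · rintro ⟨G, hG, h⟩
    exact ⟨fun l hl => ⟨G l, BP_fix_left hG l, fun m hm => h l m hl hm⟩,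
      fun m hm => ⟨fun l => G l m, BP_fix_right hG m, fun l hl => h l m hl hm⟩⟩
  · rintro ⟨h1, h2⟩
    have hcard : s + 1 ≤ (univ : Finset (Option K)).card := by
      rw [Finset.card_univ, Fintype.card_option, ← Nat.card_eq_fintype_card]
      omega
    obtain ⟨T, _, hT⟩ := Finset.exists_subset_card_eq hcard
    choose! R hR hR' using h1
    choose! Q hQ hQ' using h2
    refine ⟨∑ i ∈ T, (fun l m => lag T i l * R (rp i) m), ?_, ?_⟩
    · exact Submodule.sum_mem _ fun i hi => BP_of (lag_mem hT hi) (hR _ (rp_ne_zero i))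
    · intro l m hl hm
      rw [hQ' m hm l hl, HP_interp hT (hQ m hm) l, Finset.sum_apply, Finset.sum_apply]
      apply Finset.sum_congr rfl
      intro i _
      rw [← hQ' m hm _ (rp_ne_zero i), hR' _ (rp_ne_zero i) m hm, mul_comm]

/-- **A.JOINT**, table form -/
theorem table_iff [Finite K] {s t : ℕ} (hs : s ≤ Nat.card K) (w : Option K → Option K → K) :
    (∃ G ∈ BP K s t, ∀ i j, w i j = G (rp i) (rp j)) ↔
      (∀ i, ∃ p : K[X], p.natDegree ≤ t ∧ ∀ j, w i j = ev t p j) ∧
      (∀ j, ∃ p : K[X], p.natDegree ≤ s ∧ ∀ i, w i j = ev s p i) := by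
  constructor
  · rintro ⟨G, hG, h⟩
    exact ⟨fun i => (HP_iff_ev t (w i)).1 ⟨G (rp i), BP_fix_left hG _, fun j => h i j⟩,
      fun j => (HP_iff_ev s (fun i => w i j)).1
        ⟨fun l => G l (rp j), BP_fix_right hG _, fun i => h i j⟩⟩
  · rintro ⟨h1, h2⟩
    have h := (mem_BP_iff_slices (t := t) hs (ext2 s t w)).2 ⟨?_, ?_⟩
    · obtain ⟨G, hG, h⟩ := h
      refine ⟨G, hG, fun i j => ?_⟩
      rw [← h _ _ (rp_ne_zero i) (rp_ne_zero j), ext2_rp]
    · intro l _
      obtain ⟨F, hF, h⟩ := (HP_iff_ev t (w (ptv l))).2 (h1 (ptv l))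
      refine ⟨scv l ^ s • F, Submodule.smul_mem _ _ hF, fun m _ => ?_⟩
      rw [Pi.smul_apply, smul_eq_mul, HP_vec hF m, ← h]
      unfold ext2
      ring
    · intro m _
      obtain ⟨F, hF, h⟩ := (HP_iff_ev s (fun i => w i (ptv m))).2 (h2 (ptv m))
      refine ⟨scv m ^ t • F, Submodule.smul_mem _ _ hF, fun l _ => ?_⟩
      rw [Pi.smul_apply, smul_eq_mul, HP_vec hF l, ← h]
      unfold ext2
      ring

end Crest.Agent.R289.Joint622
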