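import Crest.Agent.R289.Corner_223
import Crest.Agent.R289.HeckeTwo_622

/-!
Row 289, block A, leaf A.W0 (posts 5969, 6018): the base word
`w0 (l, m) = (det (l, m) · det (l.τ, m.τ)) ^ n`, `n = q - 1`, is a base word at the four types of
vertices (`ee`, `oe`, `eo`, `oo`), in the form of `HeckeTwo622.Corner` (`BP`, bidegree `(2n, 2n)`),
over `Fac281.act`, `Fac281.be`, `Corner223.sharp`.
Key: the transport along an edge is diagonal, `D1(λ, M) = κ D1(l, m) / σ Q`,
`D2(λ, M) = κ D2(l, m) / Q`, `λ = J (ψ l)`, `M = m.be_l`.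
-/

set_option autoImplicit false

namespace Crest.Agent.R289.W0540

open Polynomial Crest.Agent.R289.Exp820 Crest.Agent.R289.Exp820.Sk Crest.Agent.R289.Fac281
  Crest.Agent.R289.Corner223 Crest.Agent.R289.HeckeTwo622

variable {K : Type*} [Field K] {σ : K →+* K}

/-- coordinatewise `σ` -/
def cj (σ : K →+* K) (l : K × K) : K × K := (σ l.1, σ l.2)

/-- odd coordinate `ψ(l) = σ(l#)` -/
noncomputable def psi (σ : K →+* K) (x : K) (l : K × K) : K × K := cj σ (sharp σ x l)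

/-- the intertwiner `(u₀, u₁) ↦ (u₁, u₀ / x)` -/
noncomputable def J (x : K) : (K × K) →ₗ[K] (K × K) where
  toFun u := (u.2, u.1 / x)
  map_add' u v := by ext <;> simp [add_div]
  map_smul' c u := by ext <;> simp [mul_div_assoc]

theorem J_apply (x : K) (u : K × K) : J x u = (u.2, u.1 / x) := rfl

def D1 (l m : K × K) : K := l.1 * m.2 - l.2 * m.1

def D2 (x y : K) (l m : K × K) : K := x * l.2 * m.1 - y * l.1 * m.2

/-- the base word (`n = q - 1`) -/
def w0 (n : ℕ) (x y : K) (l m : K × K) : K := (D1 l m * D2 x y l m) ^ n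

theorem w0_swap (n : ℕ) (x y : K) (l m : K × K) : w0 n x y l m = w0 n y x m l := by
  unfold w0 D1 D2
  congr 1
  ring

theorem w0_smul (n : ℕ) (x y c d : K) (l m : K × K) :
    w0 n x y (c • l) (d • m) = c ^ (2 * n) * d ^ (2 * n) * w0 n x y l m := by
  unfold w0 D1 D2
  rw [pow_mul, pow_mul, ← mul_pow, ← mul_pow]
  congr 1
  simp only [Prod.smul_fst, Prod.smul_snd, smul_eq_mul]
  ring

theorem w0_point (n : ℕ) (x y : K) : w0 n x y (1, 1) (0, 1) = (-y) ^ n := by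
  unfold w0 D1 D2
  congr 1
  ring

/-! ### membership in `BP` -/

theorem BP_pow {s t : ℕ} {B : K × K → K × K → K} (hB : B ∈ BP K s t) (n : ℕ) :
    (fun l m => B l m ^ n) ∈ BP K (n * s) (n * t) := by
  induction n with
  | zero =>
    have := BP_of (K := K) HP_one HP_one
    simpa using this
  | succ n ih =>
    have := BP_mul ih hB
    rw [show (n + 1) * s = n * s + s by ring, show (n + 1) * t = n * t + t by ring]
    simpa only [pow_succ] using this

theorem w0_mem (n : ℕ) (x y : K) : (fun l m => w0 n x y l m) ∈ BP K (2 * n) (2 * n) := by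
  have a1 : (fun l m : K × K => l.1 * m.2) ∈ BP K 1 1 := BP_of HP_fst HP_snd
  have a2 : (fun l m : K × K => l.2 * m.1) ∈ BP K 1 1 := BP_of HP_snd HP_fst
  have h1 : (fun l m : K × K => D1 l m) ∈ BP K 1 1 := Submodule.sub_mem _ a1 a2
  have h2 : (fun l m : K × K => D2 x y l m) ∈ BP K 1 1 := by
    have := Submodule.sub_mem _ (Submodule.smul_mem _ x a2) (Submodule.smul_mem _ y a1)
    have e : (fun l m : K × K => D2 x y l m)
        = x • (fun l m : K × K => l.2 * m.1) - y • (fun l m : K × K => l.1 * m.2) := by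
      funext l m
      simp only [D2, Pi.sub_apply, Pi.smul_apply, smul_eq_mul]
      ring
    rw [e]
    exact this
  have h3 := BP_pow (BP_mul h1 h2) n
  rw [show 2 * n = n * (1 + 1) by ring]
  exact h3

theorem w0_mem' (n : ℕ) (x y c : K) (A B : (K × K) →ₗ[K] (K × K)) :
    (fun l m => c * w0 n x y (A l) (B m)) ∈ BP K (2 * n) (2 * n) :=
  Submodule.smul_mem _ c (BP_comp (w0_mem n x y) A B)

/-! ### the transport along one edge -/

theorem psi_eq (hσ : ∀ a, σ (σ a) = a) (x : K) (l : K × K) :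
    psi σ x l = ((x - σ x) * (l.2 / Q σ x l), (x - σ x) / x * (l.1 / σ (Q σ x l))) := by
  unfold psi cj sharp
  ext <;> simp only [map_mul, map_sub, map_div₀, hσ]

theorem psi_ne_zero (hσ : ∀ a, σ (σ a) = a) {x : K} (hx : σ x ≠ x) {l : K × K} (hl : l ≠ 0) :
    psi σ x l ≠ 0 := by
  intro h
  apply sharp_ne_zero hσ hx hl
  have h1 := congrArg Prod.fst h
  have h2 := congrArg Prod.snd h
  simp only [psi, cj, Prod.fst_zero, Prod.snd_zero, map_eq_zero] at h1 h2
  exact Prod.ext h1 h2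

theorem J_ne_zero {x : K} (hx : x ≠ 0) {u : K × K} (hu : u ≠ 0) : J x u ≠ 0 := by
  intro h
  have h1 := congrArg Prod.fst h
  have h2 := congrArg Prod.snd h
  simp only [J_apply, Prod.fst_zero, Prod.snd_zero, div_eq_zero_iff, hx, or_false] at h1 h2
  exact hu (Prod.ext h2 h1)

/-- the constant of an edge -/
noncomputable def kap (σ : K →+* K) (x y : K) : K := (x - σ x) * (σ x - y) / (x * σ x)

theorem edge (hσ : ∀ a, σ (σ a) = a) {x : K} (hx : σ x ≠ x) (y : K) {l : K × K} (hl : l ≠ 0)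
    (m : K × K) :
    σ (Q σ x l) * D1 (J (σ x) (psi σ x l)) (act y m (be σ x l)) = kap σ x y * D1 l m ∧
    Q σ x l * D2 (σ x) y (J (σ x) (psi σ x l)) (act y m (be σ x l))
      = kap σ x y * D2 x y l m := by
  have hx0 : x ≠ 0 := x_ne_zero hx
  have hsx0 : σ x ≠ 0 := (map_ne_zero σ).2 hx0
  have hQ := Q_ne_zero hσ hx hl
  have hQs : σ (Q σ x l) ≠ 0 := (map_ne_zero σ).2 hQ
  have hsg : sg σ (1 + C (gam σ x l) * X) = 1 + C (σ (gam σ x l)) * X := by
    simp only [map_add, map_one, map_mul, sg_C, sg_X]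
  have hgs : σ (gam σ x l) = -(Q σ x l / σ (Q σ x l)) / x := by
    simp only [gam, map_div₀, map_neg, hσ]
  have hbs : σ (bet σ x l) = (σ x - x) / σ x * (σ l.1 * l.2 / Q σ x l) := by
    simp only [bet, map_div₀, map_mul, map_sub, hσ]
  have e1 : σ (Q σ x l) = nm σ l.1 - σ x * nm σ l.2 := Q_sigma hσ x l
  have hM1 : (act y m (be σ x l)).1
      = (1 + -(Q σ x l / σ (Q σ x l)) / x * y) * m.1
        - y * ((x - σ x) / x * (l.1 * σ l.2 / σ (Q σ x l))) * m.2 := by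
    simp only [act, be, hsg, eval_add, eval_one, eval_mul, eval_C, eval_X, hgs, bet]
  have hM2 : (act y m (be σ x l)).2
      = (1 + -(σ (Q σ x l) / Q σ x l) / σ x * y) * m.2
        - (σ x - x) / σ x * (σ l.1 * l.2 / Q σ x l) * m.1 := by
    simp only [act, be, sg_C, eval_add, eval_one, eval_mul, eval_C, eval_X, hbs, gam]
  rw [psi_eq hσ]
  set A := Q σ x l with hA
  set B := σ A with hB
  have hA' : A = nm σ l.1 - x * nm σ l.2 := rfl
  constructor
  · simp only [D1, J_apply, hM1, hM2, kap]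
    have : B * ((x - σ x) / x * (l.1 / B) *
        ((1 + -(B / A) / σ x * y) * m.2 - (σ x - x) / σ x * (σ l.1 * l.2 / A) * m.1)
        - (x - σ x) * (l.2 / A) / σ x *
        ((1 + -(A / B) / x * y) * m.1 - y * ((x - σ x) / x * (l.1 * σ l.2 / B)) * m.2))
        = (x - σ x) / (x * σ x * A) *
          (l.1 * ((σ x * A - y * B) * m.2 - (σ x - x) * σ l.1 * l.2 * m.1)
            - l.2 * ((x * B - y * A) * m.1 - y * (x - σ x) * l.1 * σ l.2 * m.2)) := by
      field_simp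
      ring
    rw [this]
    have h2 : l.1 * ((σ x * A - y * B) * m.2 - (σ x - x) * σ l.1 * l.2 * m.1)
            - l.2 * ((x * B - y * A) * m.1 - y * (x - σ x) * l.1 * σ l.2 * m.2)
        = (σ x - y) * A * (l.1 * m.2 - l.2 * m.1) := by
      rw [e1, hA']
      simp only [nm]
      ring
    rw [h2]
    field_simp
  · simp only [D2, J_apply, hM1, hM2, kap]
    have : A * (σ x * ((x - σ x) * (l.2 / A) / σ x) *
        ((1 + -(A / B) / x * y) * m.1 - y * ((x - σ x) / x * (l.1 * σ l.2 / B)) * m.2)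
        - y * ((x - σ x) / x * (l.1 / B)) *
        ((1 + -(B / A) / σ x * y) * m.2 - (σ x - x) / σ x * (σ l.1 * l.2 / A) * m.1))
        = (x - σ x) / (x * σ x * B) *
          (σ x * l.2 * ((x * B - y * A) * m.1 - y * (x - σ x) * l.1 * σ l.2 * m.2)
            - y * l.1 * ((σ x * A - y * B) * m.2 - (σ x - x) * σ l.1 * l.2 * m.1)) := by
      field_simp
      ring
    rw [this]
    have h2 : σ x * l.2 * ((x * B - y * A) * m.1 - y * (x - σ x) * l.1 * σ l.2 * m.2)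
            - y * l.1 * ((σ x * A - y * B) * m.2 - (σ x - x) * σ l.1 * l.2 * m.1)
        = (σ x - y) * B * (x * l.2 * m.1 - y * l.1 * m.2) := by
      rw [e1, hA']
      simp only [nm]
      ring
    rw [h2]
    field_simp

theorem kap_ne_zero {x y : K} (hx : σ x ≠ x) (hxy : σ x ≠ y) : kap σ x y ≠ 0 := by
  have hx0 : x ≠ 0 := x_ne_zero hx
  have hsx0 : σ x ≠ 0 := (map_ne_zero σ).2 hx0
  exact div_ne_zero (mul_ne_zero (sub_ne_zero.2 hx.symm) (sub_ne_zero.2 hxy))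
    (mul_ne_zero hx0 hsx0)

/-- `oe`: the base word seen along an `x`-edge -/
theorem w0_oe (hσ : ∀ a, σ (σ a) = a) {n : ℕ} (hn : ∀ c : K, c ≠ 0 → nm σ c ^ n = 1)
    {x y : K} (hx : σ x ≠ x) (hxy : σ x ≠ y) {l : K × K} (hl : l ≠ 0) (m : K × K) :
    w0 n x y l m = ((kap σ x y ^ 2)⁻¹) ^ n *
      w0 n (σ x) y (J (σ x) (psi σ x l)) (act y m (be σ x l)) := by
  obtain ⟨h1, h2⟩ := edge hσ hx y hl m
  have hk := kap_ne_zero (σ := σ) hx hxy
  have hQ := Q_ne_zero hσ hx hl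
  have e : D1 l m * D2 x y l m = (kap σ x y ^ 2)⁻¹ * (nm σ (Q σ x l)) *
      (D1 (J (σ x) (psi σ x l)) (act y m (be σ x l)) *
        D2 (σ x) y (J (σ x) (psi σ x l)) (act y m (be σ x l))) := by
    have h3 : (kap σ x y * D1 l m) * (kap σ x y * D2 x y l m)
        = (σ (Q σ x l) * D1 (J (σ x) (psi σ x l)) (act y m (be σ x l))) *
          (Q σ x l * D2 (σ x) y (J (σ x) (psi σ x l)) (act y m (be σ x l))) := by
      rw [h1, h2]
    unfold nm
    field_simp
    linear_combination h3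
  unfold w0
  rw [e, mul_pow, mul_pow, hn _ hQ, mul_one]

/-- `eo`: the base word seen along a `y`-edge -/
theorem w0_eo (hσ : ∀ a, σ (σ a) = a) {n : ℕ} (hn : ∀ c : K, c ≠ 0 → nm σ c ^ n = 1)
    {x y : K} (hy : σ y ≠ y) (hyx : σ y ≠ x) (l : K × K) {m : K × K} (hm : m ≠ 0) :
    w0 n x y l m = ((kap σ y x ^ 2)⁻¹) ^ n *
      w0 n x (σ y) (act x l (be σ y m)) (J (σ y) (psi σ y m)) := by
  rw [w0_swap, w0_oe hσ hn hy hyx hm l, w0_swap]

/-! ### the `oo` corner -/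

theorem act_J_cj (hσ : ∀ a, σ (σ a) = a) {x : K} (hx0 : x ≠ 0) (u : K × K) (r : Sk σ) :
    act (σ x) (J (σ x) (cj σ u)) r = J (σ x) (cj σ (act x u r)) := by
  have hsx0 : σ x ≠ 0 := (map_ne_zero σ).2 hx0
  have h1 : r.im.eval (σ x) = σ ((sg σ r.im).eval x) := eval_sg_sigma hσ r.im x
  have h2 : (sg σ r.re).eval (σ x) = σ (r.re.eval x) := eval_sg r.re x
  have h3 : r.re.eval (σ x) = σ ((sg σ r.re).eval x) := eval_sg_sigma hσ r.re x
  have h4 : (sg σ r.im).eval (σ x) = σ (r.im.eval x) := eval_sg r.im x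
  ext
  · simp only [act, J_apply, cj, h1, h2, map_sub, map_mul]
    field_simp
  · simp only [act, J_apply, cj, h3, h4, map_sub, map_mul]
    field_simp

theorem cj_smul (c : K) (u : K × K) : cj σ (c • u) = σ c • cj σ u := by
  ext <;> simp [cj]

/-- transport of the odd vector along a `y`-edge -/
theorem psi_transport (hσ : ∀ a, σ (σ a) = a) {x y : K} (hx : σ x ≠ x) (hy : σ y ≠ y)
    (hxy : x ≠ y) (hxy' : σ x ≠ y) {l m : K × K} (hl : l ≠ 0) (hm : m ≠ 0) :
    act (σ x) (J (σ x) (psi σ x l)) (be σ y (act y m (be σ x l)))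
      = σ ((N (be σ y m)).eval x) • J (σ x) (psi σ x (act x l (be σ y m))) := by
  have hx0 : x ≠ 0 := x_ne_zero hx
  have hyx' : σ y ≠ x := fun h => hxy' (by rw [← h, hσ])
  have hN : (N (be σ y m)).eval x ≠ 0 := N_be_eval_ne hσ hy hm hxy.symm hyx'
  obtain ⟨r', h1, -, -, h4, -⟩ := comm_any hσ hx hl (be_re_coeff (σ := σ) y m) hN
  have h5 : be σ y (act y m (be σ x l)) = r' :=
    comm_unique hσ hx hl (comm hσ hx hy hxy hxy' hl hm).symm h1
  unfold psi
  rw [act_J_cj hσ hx0, h5, h4, cj_smul, map_smul, smul_smul, map_inv₀,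
    mul_inv_cancel₀ ((map_ne_zero σ).2 hN), one_smul]

theorem w0_oo (hσ : ∀ a, σ (σ a) = a) {n : ℕ} (hn : ∀ c : K, c ≠ 0 → nm σ c ^ n = 1)
    {x y : K} (hx : σ x ≠ x) (hy : σ y ≠ y) (hxy : x ≠ y) (hxy' : σ x ≠ y)
    {l m : K × K} (hl : l ≠ 0) (hm : m ≠ 0) :
    w0 n x y l m = ((kap σ x y ^ 2)⁻¹) ^ n * (((kap σ y (σ x) ^ 2)⁻¹) ^ n *
      (σ ((N (be σ y m)).eval x) ^ (2 * n) *
        w0 n (σ x) (σ y) (J (σ x) (psi σ x (act x l (be σ y m))))
          (J (σ y) (psi σ y (act y m (be σ x l)))))) := by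
  have hx0 : x ≠ 0 := x_ne_zero hx
  have hM0 : act y m (be σ x l) ≠ 0 := act_ne_zero hσ hm (N_be_eval_ne hσ hx hl hxy hxy')
  have hyx : σ y ≠ σ x := fun h => hxy (σ.injective h).symm
  rw [w0_oe hσ hn hx hxy' hl m, w0_eo hσ hn hy hyx _ hM0, psi_transport hσ hx hy hxy hxy' hl hm]
  have := w0_smul n (σ x) (σ y) (σ ((N (be σ y m)).eval x)) 1
    (J (σ x) (psi σ x (act x l (be σ y m)))) (J (σ y) (psi σ y (act y m (be σ x l))))
  rw [one_smul, one_pow, mul_one] at this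
  rw [this]

/-! ### the four corner codes -/

/-- table form of the base word -/
def w0t (n : ℕ) (x y : K) : Option K → Option K → K := fun i j => w0 n x y (rp i) (rp j)

theorem ext2_w0t (n : ℕ) (x y : K) (l m : K × K) :
    ext2 (2 * n) (2 * n) (w0t n x y) l m = w0 n x y l m := by
  unfold ext2 w0t
  rw [← w0_smul, scv_smul_rp, scv_smul_rp]

theorem w0t_point (n : ℕ) (x y : K) : w0t n x y (some 1) (some 0) = (-y) ^ n :=
  w0_point n x y

/-- condition of a constant word at a corner with coordinates `c1 c2` -/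
def Bc (s : ℕ) (c1 c2 : K × K → K × K → K × K) (φ : Option K → Option K → K) : Prop :=
  ∃ G ∈ BP K s s, ∀ l m, l ≠ 0 → m ≠ 0 → ext2 s s φ l m = G (c1 l m) (c2 l m)

theorem Bc_ee (n : ℕ) (x y : K) :
    Bc (2 * n) (fun l _ => l) (fun _ m => m) (w0t n x y) :=
  ⟨_, w0_mem n x y, fun l m _ _ => ext2_w0t n x y l m⟩

theorem Bc_oe (hσ : ∀ a, σ (σ a) = a) {n : ℕ} (hn : ∀ c : K, c ≠ 0 → nm σ c ^ n = 1)
    {x y : K} (hx : σ x ≠ x) (hxy : σ x ≠ y) :
    Bc (2 * n) (fun l _ => psi σ x l) (fun l m => act y m (be σ x l)) (w0t n x y) :=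
  ⟨_, w0_mem' n (σ x) y (((kap σ x y ^ 2)⁻¹) ^ n) (J (σ x)) LinearMap.id, fun l m hl _ => by
    rw [ext2_w0t]
    exact w0_oe hσ hn hx hxy hl m⟩

theorem Bc_eo (hσ : ∀ a, σ (σ a) = a) {n : ℕ} (hn : ∀ c : K, c ≠ 0 → nm σ c ^ n = 1)
    {x y : K} (hy : σ y ≠ y) (hyx : σ y ≠ x) :
    Bc (2 * n) (fun l m => act x l (be σ y m)) (fun _ m => psi σ y m) (w0t n x y) :=
  ⟨_, w0_mem' n x (σ y) (((kap σ y x ^ 2)⁻¹) ^ n) LinearMap.id (J (σ y)), fun l m _ hm => by
    rw [ext2_w0t]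
    exact w0_eo hσ hn hy hyx l hm⟩

theorem Bc_oo (hσ : ∀ a, σ (σ a) = a) {n : ℕ} (hn : ∀ c : K, c ≠ 0 → nm σ c ^ n = 1)
    {x y : K} (hx : σ x ≠ x) (hy : σ y ≠ y) (hxy : x ≠ y) (hxy' : σ x ≠ y) :
    Bc (2 * n) (fun l m => psi σ x (act x l (be σ y m)))
      (fun l m => psi σ y (act y m (be σ x l))) (w0t n x y) := by
  refine ⟨_, w0_mem' n (σ x) (σ y) (((kap σ x y ^ 2)⁻¹) ^ n * (((kap σ y (σ x) ^ 2)⁻¹) ^ n *
    σ ((C (y * σ y)⁻¹ * XX σ y).eval x) ^ (2 * n))) (J (σ x)) (J (σ y)), fun l m hl hm => ?_⟩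
  rw [ext2_w0t, w0_oo hσ hn hx hy hxy hxy' hl hm, N_be hσ hy hm]
  ring

/-- constant words in a corner code -/
theorem const_mem_Corner {P : Type*} [Group P] {s : ℕ} {tc : K × K → K × K → P}
    {c1 c2 : K × K → K × K → K × K} {φ : Option K → Option K → K} :
    (fun _ => φ) ∈ Corner s s tc c1 c2 ↔ Bc s c1 c2 φ :=
  ⟨fun h => h 1, fun h _ => h⟩

end Crest.Agent.R289.W0540
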