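import Crest.Agent.R289.BaseA_975
import Crest.Agent.R289.Joint_622
import Crest.Agent.R289.W0_540
import Crest.Agent.R289.A1Two_14

/-!
Row 289, block A, leaf A.UNIQ (helper975), part 2: from the literal base corner codes
(`A1Two14.BC`, `Fac281.act`, `Fac281.be`, `W0540.psi`) to the functional form `BaseA975.OddX`,
and from the shape of the polynomials `PX` back to `w0`.
-/

set_option autoImplicit false

namespace Crest.Agent.R289.BaseDim2_975

open Polynomial Finset BaseDim394 OneVar748 BaseA975 HeckeTwo622 Joint622 Fac281 W0540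
open Crest.Agent.R289.Exp820 Crest.Agent.R289.Exp820.Sk

section coef

variable {K : Type*} [Field K]

/-- coefficient form of `BP` -/
theorem BP_coef {s : ℕ} {B : K × K → K × K → K} (hB : B ∈ BP K s s) :
    ∃ c : ℕ → ℕ → K, ∀ l m, B l m = ev2 s c l m := by
  unfold BP at hB
  induction hB using Submodule.span_induction with
  | mem B hB =>
    obtain ⟨F, hF, G, hG, rfl⟩ := hB
    obtain ⟨a, ha⟩ := mem_HP.1 hF
    obtain ⟨b, hb⟩ := mem_HP.1 hG
    refine ⟨fun n k => a n * b k, fun l m => ?_⟩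
    unfold ev2
    show F l * G m = _
    rw [ha, hb, Finset.sum_mul_sum]
    refine Finset.sum_congr rfl fun n _ => Finset.sum_congr rfl fun k _ => ?_
    ring
  | zero => exact ⟨0, fun l m => by simp [ev2]⟩
  | add B1 B2 _ _ h1 h2 =>
    obtain ⟨a, ha⟩ := h1
    obtain ⟨b, hb⟩ := h2
    refine ⟨fun n k => a n k + b n k, fun l m => ?_⟩
    show B1 l m + B2 l m = _
    rw [ha, hb]
    unfold ev2
    rw [← Finset.sum_add_distrib]
    refine Finset.sum_congr rfl fun n _ => ?_
    rw [← Finset.sum_add_distrib]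
    refine Finset.sum_congr rfl fun k _ => ?_
    ring
  | smul a B1 _ h1 =>
    obtain ⟨b, hb⟩ := h1
    refine ⟨fun n k => a * b n k, fun l m => ?_⟩
    show a * B1 l m = _
    rw [hb]
    unfold ev2
    rw [Finset.mul_sum]
    refine Finset.sum_congr rfl fun n _ => ?_
    rw [Finset.mul_sum]
    refine Finset.sum_congr rfl fun k _ => ?_
    ring

theorem ev2_one (s : ℕ) (F : ℕ → ℕ → K) (z u : K) : ev2 s F (z, 1) (u, 1) = ev s F z u := by
  unfold ev2 ev
  refine Finset.sum_congr rfl fun n _ => Finset.sum_congr rfl fun k _ => ?_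
  simp

theorem ev2_smul (s : ℕ) (G : ℕ → ℕ → K) (c : K) (l m : K × K) :
    ev2 s G (c • l) m = c ^ s * ev2 s G l m := by
  unfold ev2
  rw [Finset.mul_sum]
  refine Finset.sum_congr rfl fun n hn => ?_
  have hn' := Nat.lt_succ_iff.1 (Finset.mem_range.1 hn)
  rw [Finset.mul_sum]
  refine Finset.sum_congr rfl fun k _ => ?_
  have e : c ^ s = c ^ n * c ^ (s - n) := by rw [← pow_add, Nat.add_sub_cancel' hn']
  simp only [Prod.smul_fst, Prod.smul_snd, smul_eq_mul, mul_pow, e]
  ring

/-- swapping the two variables -/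
theorem ev2_swap (s : ℕ) (G : ℕ → ℕ → K) (l m : K × K) :
    ev2 s G l m = ev2 s (fun n k => G k n) m l := by
  unfold ev2
  rw [Finset.sum_comm]
  refine Finset.sum_congr rfl fun n _ => Finset.sum_congr rfl fun k _ => ?_
  ring

theorem ev_swap (s : ℕ) (F : ℕ → ℕ → K) (z u : K) :
    ev s F z u = ev s (fun n k => F k n) u z := by
  unfold ev
  rw [Finset.sum_comm]
  refine Finset.sum_congr rfl fun n _ => Finset.sum_congr rfl fun k _ => ?_
  ring

/-- regrouping by total degree -/
theorem sum_PX (s : ℕ) (x y : K) (F : ℕ → ℕ → K) (z T : K) :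
    ∑ n ∈ range (s + 1), ∑ k ∈ range (s + 1), F n k * z ^ (n + k) * (bs s x y k).eval T =
      ∑ N ∈ range (2 * s + 1), z ^ N * (PX s x y F N).eval T := by
  have e : ∀ N, z ^ N * (PX s x y F N).eval T = ∑ n ∈ range (s + 1), ∑ k ∈ range (s + 1),
      if n + k = N then F n k * z ^ N * (bs s x y k).eval T else 0 := by
    intro N
    unfold PX
    rw [eval_finsetSum, Finset.mul_sum]
    refine Finset.sum_congr rfl fun n _ => ?_
    rw [eval_finsetSum, Finset.mul_sum]
    refine Finset.sum_congr rfl fun k _ => ?_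
    split_ifs
    · rw [eval_mul, eval_C]; ring
    · simp
  symm
  rw [Finset.sum_congr rfl fun N _ => e N, Finset.sum_comm]
  refine Finset.sum_congr rfl fun n hn => ?_
  rw [Finset.sum_comm]
  refine Finset.sum_congr rfl fun k hk => ?_
  have h1 := Finset.mem_range.1 hn
  have h2 := Finset.mem_range.1 hk
  rw [Finset.sum_ite_eq (range (2 * s + 1)) (n + k), if_pos (Finset.mem_range.2 (by omega))]

/-- what the core has to deliver -/
def Shape (q : ℕ) (x y : K) (F : ℕ → ℕ → K) : Prop :=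
  (∀ N, N ≠ 2 * (q - 1) → PX (2 * (q - 1)) x y F N = 0) ∧
    ∃ c, PX (2 * (q - 1)) x y F (2 * (q - 1)) = C c * X ^ (q - 1)

theorem eval_of_shape {q : ℕ} {x y : K} {F : ℕ → ℕ → K} (h : Shape q x y F) (hxy : x ≠ y) :
    ∃ c, ∀ z u, z ≠ 0 → x * u - y * z ≠ 0 →
      ev (2 * (q - 1)) F z u = c * ((z - u) * (x * u - y * z)) ^ (q - 1) := by
  obtain ⟨h1, c, h2⟩ := h
  have hxy' := sub_ne_zero.2 hxy
  refine ⟨c / (x - y) ^ (2 * (q - 1)), fun z u hz hu => ?_⟩
  set T := (z - u) / (x * u - y * z) with hT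
  have e0 : T * (x * u - y * z) = z - u := by rw [hT, div_mul_cancel₀ _ hu]
  have e1 : 1 + x * T = z * (x - y) / (x * u - y * z) := by
    rw [eq_div_iff hu]
    linear_combination x * e0
  have e2 : 1 + y * T = u * (x - y) / (x * u - y * z) := by
    rw [eq_div_iff hu]
    linear_combination y * e0
  have hT1 : 1 + x * T ≠ 0 := by
    rw [e1]
    exact div_ne_zero (mul_ne_zero hz hxy') hu
  have e3 : z * (1 + y * T) / (1 + x * T) = u := by
    rw [div_eq_iff hT1]
    have h3 : (z * (1 + y * T) - u * (1 + x * T)) * (x * u - y * z) = 0 := by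
      linear_combination (z * y - u * x) * e0
    have h4 := (mul_eq_zero.1 h3).resolve_right hu
    linear_combination h4
  have e4 := ev_rho (2 * (q - 1)) x y F z T hT1
  rw [e3, sum_PX, Finset.sum_eq_single (2 * (q - 1))] at e4
  · rw [h2, e1, div_pow, mul_pow] at e4
    simp only [eval_mul, eval_C, eval_pow, eval_X] at e4
    rw [hT, div_pow] at e4
    have hz' := pow_ne_zero (2 * (q - 1)) hz
    have hxy2 := pow_ne_zero (2 * (q - 1)) hxy'
    have e5 : (x * u - y * z) ^ (2 * (q - 1)) =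
        (x * u - y * z) ^ (q - 1) * (x * u - y * z) ^ (q - 1) := by
      rw [← pow_add]; congr 1; omega
    have hu' := pow_ne_zero (q - 1) hu
    rw [e5] at e4
    rw [mul_pow]
    generalize (x * u - y * z) ^ (q - 1) = E at e4 hu' ⊢
    generalize (x - y) ^ (2 * (q - 1)) = E' at e4 hxy2 ⊢
    generalize (z - u) ^ (q - 1) = E'' at e4 ⊢
    generalize z ^ (2 * (q - 1)) = E''' at e4 hz' ⊢
    field_simp at e4
    field_simp
    linear_combination e4
  · intro N _ hN
    rw [h1 N hN, eval_zero, mul_zero]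
  · intro hn
    exact absurd (Finset.mem_range.2 (by omega)) hn

end coef

section literal

variable {K : Type*} [Field K] {σ : K →+* K}

theorem Q_z (x z : K) : Q σ x (z, 1) = z * σ z - x := by
  simp [Q, nm]

theorem sQ_z (hσ : ∀ a, σ (σ a) = a) (x z : K) : σ (Q σ x (z, 1)) = z * σ z - σ x := by
  rw [Q_z, map_sub, map_mul, hσ]
  ring

theorem psi_z (hσ : ∀ a, σ (σ a) = a) (x z : K) :
    W0540.psi σ x (z, 1) = (x - σ x) • psz x (σ x) (z * σ z) z := by
  rw [W0540.psi_eq hσ, Q_z, map_sub, map_mul, hσ]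
  unfold psz
  ext
  · simp only [Prod.smul_fst, smul_eq_mul]
    rw [one_div]
  · simp only [Prod.smul_snd, smul_eq_mul]
    rw [mul_comm (σ z) z, div_mul_div_comm, ← mul_div_assoc]

theorem act_z (hσ : ∀ a, σ (σ a) = a) {x z : K} (hx : σ x ≠ x) (y u : K) :
    act y (u, 1) (be σ x (z, 1)) = mbz x (σ x) y (z * σ z) z (σ z) u := by
  have hx0 : x ≠ 0 := x_ne_zero hx
  have hsx0 : σ x ≠ 0 := (map_ne_zero σ).2 hx0
  have hl : ((z, 1) : K × K) ≠ 0 := by
    intro h
    have := congrArg Prod.snd h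
    simp at this
  have hQ := Q_ne_zero hσ hx hl
  have hQs : σ (Q σ x (z, 1)) ≠ 0 := (map_ne_zero σ).2 hQ
  rw [sQ_z hσ] at hQs
  have hsg : sg σ (1 + C (gam σ x (z, 1)) * X) = 1 + C (σ (gam σ x (z, 1))) * X := by
    simp only [map_add, map_one, map_mul, sg_C, sg_X]
  have hgs : σ (gam σ x (z, 1)) = -((z * σ z - x) / (z * σ z - σ x)) / x := by
    simp only [gam, map_div₀, map_neg, hσ, Q_z, map_sub, map_mul]
    rw [mul_comm (σ z) z]
  have hbs : σ (bet σ x (z, 1)) = (σ x - x) / σ x * (σ z / (z * σ z - x)) := by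
    simp only [bet, map_div₀, map_mul, map_sub, hσ, Q_z, map_one]
    rw [mul_one]
  have hg : gam σ x (z, 1) = -((z * σ z - σ x) / (z * σ z - x)) / σ x := by
    simp only [gam, Q_z, map_sub, map_mul, hσ]
    rw [mul_comm (σ z) z]
  have hb : bet σ x (z, 1) = (x - σ x) / x * (z / (z * σ z - σ x)) := by
    simp only [bet, Q_z, map_sub, map_mul, hσ, map_one]
    rw [mul_comm (σ z) z, mul_one]
  rw [Q_z] at hQ
  unfold mbz
  ext
  · simp only [act, be, hsg, eval_add, eval_one, eval_mul, eval_C, eval_X, hgs, hb]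
    generalize z * σ z = w at hQ hQs ⊢
    field_simp
    ring
  · simp only [act, be, sg_C, eval_add, eval_one, eval_mul, eval_C, eval_X, hbs, hg]
    generalize z * σ z = w at hQ hQs ⊢
    field_simp
    ring

variable {q : ℕ}

/-- the literal `x`-odd corner gives `OddX` -/
theorem oddX_of (hσ : ∀ a, σ (σ a) = a) (hq : ∀ a, σ a = a ^ q) {x y : K} (hx : σ x ≠ x)
    {v : Option K → Option K → K} {F : ℕ → ℕ → K}
    (hF : ∀ z u, v (some z) (some u) = ev (2 * (q - 1)) F z u)
    {B : K × K → K × K → K} (hB : B ∈ BP K (2 * (q - 1)) (2 * (q - 1)))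
    (h : ∀ i j, v i j = B (W0540.psi σ x (rp i)) (act y (rp j) (be σ x (rp i)))) :
    ∃ G, OddX q x y F G := by
  obtain ⟨c, hc⟩ := BP_coef hB
  refine ⟨fun n k => (x - σ x) ^ (2 * (q - 1)) * c n k, fun z u _ => ?_⟩
  rw [← hF, h, hc]
  have e1 : (rp (some z) : K × K) = (z, 1) := rfl
  have e2 : (rp (some u) : K × K) = (u, 1) := rfl
  rw [e1, e2, psi_z hσ, act_z hσ hx, ev2_smul]
  have e3 : z * σ z = z ^ (q + 1) := by rw [hq, pow_succ, mul_comm]
  rw [e3, hq x, hq z]
  unfold ev2
  rw [Finset.mul_sum]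
  refine Finset.sum_congr rfl fun n _ => ?_
  rw [Finset.mul_sum]
  refine Finset.sum_congr rfl fun k _ => ?_
  ring

/-- the literal `y`-odd corner -/
theorem oddY_of (hσ : ∀ a, σ (σ a) = a) (hq : ∀ a, σ a = a ^ q) {x y : K} (hy : σ y ≠ y)
    {v : Option K → Option K → K} {F : ℕ → ℕ → K}
    (hF : ∀ z u, v (some z) (some u) = ev (2 * (q - 1)) F z u)
    {B : K × K → K × K → K} (hB : B ∈ BP K (2 * (q - 1)) (2 * (q - 1)))
    (h : ∀ i j, v i j = B (act x (rp i) (be σ y (rp j))) (W0540.psi σ y (rp j))) :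
    ∃ G, OddX q y x (fun n k => F k n) G :=
  oddX_of (x := y) (y := x) (v := fun j i => v i j) (B := fun m l => B l m) hσ hq hy
    (fun z u => by rw [hF, ev_swap]) (BP_swap hB) fun j i => h i j

end literal

section final

variable {K : Type*} [Field K] {σ : K →+* K} {q : ℕ}

/-- the polynomial heart (proved in the core files) -/
def Core (q : ℕ) (x y : K) : Prop :=
  ∀ F G H : ℕ → ℕ → K, OddX q x y F G → OddX q y x (fun n k => F k n) H → Shape q x y F

theorem uniq [Fintype K] (hcard : Fintype.card K = q ^ 2) (h3 : 3 ≤ q)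
    (hσ : ∀ a, σ (σ a) = a) (hq : ∀ a, σ a = a ^ q) {x y : K} (hx : σ x ≠ x) (hy : σ y ≠ y)
    (hxy : x ≠ y) (core : Core q x y) {v : Option K → Option K → K}
    (hff : v ∈ A1Two14.BC (2 * (q - 1)) (2 * (q - 1)) (fun l _ => l) (fun _ m => m))
    (htf : v ∈ A1Two14.BC (2 * (q - 1)) (2 * (q - 1)) (fun l _ => W0540.psi σ x l)
      (fun l m => act y m (be σ x l)))
    (hft : v ∈ A1Two14.BC (2 * (q - 1)) (2 * (q - 1)) (fun l m => act x l (be σ y m))
      (fun _ m => W0540.psi σ y m)) :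
    ∃ c, ∀ i j, v i j = c * w0 (q - 1) x y (rp i) (rp j) := by
  classical
  obtain ⟨B, hB, hvB⟩ := hff
  obtain ⟨F, hF⟩ := BP_coef hB
  have hvF : ∀ z u, v (some z) (some u) = ev (2 * (q - 1)) F z u := by
    intro z u
    rw [hvB, hF]
    exact ev2_one _ _ _ _
  obtain ⟨Gx, hGx, hvx⟩ := htf
  obtain ⟨Gy, hGy, hvy⟩ := hft
  obtain ⟨G, hG⟩ := oddX_of hσ hq hx hvF hGx hvx
  obtain ⟨H, hH⟩ := oddY_of hσ hq hy hvF hGy hvy
  obtain ⟨c, hc⟩ := eval_of_shape (core F G H hG hH) hxy
  refine ⟨c, fun i j => ?_⟩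
  -- the difference
  set D : K × K → K × K → K := B - c • fun l m => w0 (q - 1) x y l m with hD
  have hDmem : D ∈ BP K (2 * (q - 1)) (2 * (q - 1)) :=
    Submodule.sub_mem _ hB (Submodule.smul_mem _ _ (w0_mem (q - 1) x y))
  have hD0 : ∀ z u, z ≠ 0 → x * u - y * z ≠ 0 → D (z, 1) (u, 1) = 0 := by
    intro z u hz hu
    show B (z, 1) (u, 1) - c * w0 (q - 1) x y (z, 1) (u, 1) = 0
    have e1 : B (z, 1) (u, 1) = v (some z) (some u) := (hvB (some z) (some u)).symm
    rw [e1, hvF, hc z u hz hu]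
    unfold w0 D1 D2
    ring
  have hbig : 2 * (q - 1) < (((Finset.univ : Finset (Option K)).erase none).erase
      (some 0)).card ∧ ∀ a : K, 2 * (q - 1) < (((Finset.univ : Finset (Option K)).erase
        none).erase (some a)).card := by
    have : ∀ a : K, 2 * (q - 1) < (((Finset.univ : Finset (Option K)).erase
        none).erase (some a)).card := by
      intro a
      rw [Finset.card_erase_of_mem (by simp), Finset.card_erase_of_mem (by simp),
        Finset.card_univ, Fintype.card_option, hcard]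
      have := fac q (by omega)
      have h4 : (q - 1) * (q + 1) > 2 * (q - 1) := by
        rw [mul_comm 2]
        exact Nat.mul_lt_mul_of_pos_left (by omega) (by omega)
      omega
    exact ⟨this 0, this⟩
  have hx0 : x ≠ 0 := x_ne_zero hx
  have hD1 : ∀ z, z ≠ 0 → D (z, 1) = 0 := by
    intro z hz
    refine HP_eq_zero (BP_fix_left hDmem (z, 1)) _ (hbig.2 (y * z / x)) ?_
    intro k hk
    have h1 := Finset.ne_of_mem_erase hk
    have h2 := Finset.ne_of_mem_erase (Finset.mem_of_mem_erase hk)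
    cases k with
    | none => exact absurd rfl h2
    | some u =>
      refine hD0 z u hz ?_
      intro h0
      apply h1
      congr 1
      rw [eq_div_iff hx0]
      linear_combination h0
  have hD2 : ∀ m, (fun l => D l m) = 0 := by
    intro m
    refine HP_eq_zero (BP_fix_right hDmem m) _ hbig.1 ?_
    intro k hk
    have h1 := Finset.ne_of_mem_erase hk
    have h2 := Finset.ne_of_mem_erase (Finset.mem_of_mem_erase hk)
    cases k with
    | none => exact absurd rfl h2
    | some z =>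
      have hz : z ≠ 0 := fun h0 => h1 (by rw [h0])
      exact congrFun (hD1 z hz) m
  have hfin : D (rp i) (rp j) = 0 := congrFun (hD2 (rp j)) (rp i)
  have e2 : D (rp i) (rp j) = B (rp i) (rp j) - c * w0 (q - 1) x y (rp i) (rp j) := rfl
  rw [e2] at hfin
  rw [hvB]
  exact sub_eq_zero.1 hfin

/-- the form used by `A1Two14.content_corner` -/
theorem hV0 [Fintype K] (hcard : Fintype.card K = q ^ 2) (h3 : 3 ≤ q)
    (hσ : ∀ a, σ (σ a) = a) (hq : ∀ a, σ a = a ^ q) {x y : K} (hx : σ x ≠ x) (hy : σ y ≠ y)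
    (hxy : x ≠ y) (core : Core q x y) {v : Option K → Option K → K}
    (hff : v ∈ A1Two14.BC (2 * (q - 1)) (2 * (q - 1)) (fun l _ => l) (fun _ m => m))
    (htf : v ∈ A1Two14.BC (2 * (q - 1)) (2 * (q - 1)) (fun l _ => W0540.psi σ x l)
      (fun l m => act y m (be σ x l)))
    (hft : v ∈ A1Two14.BC (2 * (q - 1)) (2 * (q - 1)) (fun l m => act x l (be σ y m))
      (fun _ m => W0540.psi σ y m))
    (h0 : v (some 1) (some 0) = 0) : v = 0 := by
  obtain ⟨c, hc⟩ := uniq hcard h3 hσ hq hx hy hxy core hff htf hft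
  have hy0 : y ≠ 0 := x_ne_zero hy
  have h1 := hc (some 1) (some 0)
  rw [h0] at h1
  have e1 : w0 (q - 1) x y (rp (some 1)) (rp (some 0)) = (-y) ^ (q - 1) :=
    w0_point (q - 1) x y
  rw [e1] at h1
  have hc0 : c = 0 := (mul_eq_zero.1 h1.symm).resolve_right (pow_ne_zero _ (neg_ne_zero.2 hy0))
  funext i j
  rw [hc, hc0, zero_mul]
  rfl

end final

end Crest.Agent.R289.BaseDim2_975
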