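import Mathlib

/-!
Row 289, block A, leaf A1_BaseDim (helper394).  One-place base statement `V^P = K w_0`
(`s = 2(q-1)`): the intersection of the even and of the odd words of the base code is the
line of `z^(q-1) = (l0 l1)^(q-1)`.  Coefficient form, all `q ≥ 7`, every `x` with `x^q ≠ x`.
-/

set_option autoImplicit false

namespace Crest.Agent.R289.BaseDim394

open Polynomial Finset

section general

variable {K : Type*} [Field K]

/-- uniqueness: two polynomials of degree `≤ n+1` of the shape `(X-u)^n (a+a'X)` agreeing at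
more than `n+1` points -/
theorem two_forms {u v : K} (huv : u ≠ v) {n : ℕ} (hn : 2 ≤ n) {a a' b b' : K} (S : Finset K)
    (hS : n + 1 < S.card)
    (h : ∀ w ∈ S, (w - u) ^ n * (a + a' * w) = (w - v) ^ n * (b + b' * w)) :
    a = 0 ∧ a' = 0 ∧ b = 0 ∧ b' = 0 := by
  classical
  set P : K[X] := (X - C u) ^ n * (C a + C a' * X) with hP
  set Q : K[X] := (X - C v) ^ n * (C b + C b' * X) with hQ
  have hlin : ∀ c c' : K, (C c + C c' * X : K[X]).natDegree ≤ 1 := fun c c' => by
    refine (natDegree_add_le _ _).trans (max_le (by simp) ?_)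
    exact (natDegree_C_mul_le _ _).trans (by simp)
  have hdeg : ∀ (t c c' : K), ((X - C t) ^ n * (C c + C c' * X) : K[X]).natDegree ≤ n + 1 := by
    intro t c c'
    refine natDegree_mul_le.trans (Nat.add_le_add ?_ (hlin c c'))
    refine (natDegree_pow_le).trans ?_
    rw [natDegree_X_sub_C, mul_one]
  have hPQ : P = Q := by
    refine Polynomial.eq_of_degree_sub_lt_of_eval_finset_eq S ?_ ?_
    · refine lt_of_le_of_lt (degree_sub_le _ _) ?_
      have h1 : P.degree ≤ ((n + 1 : ℕ) : WithBot ℕ) :=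
        (natDegree_le_iff_degree_le).1 (hdeg u a a')
      have h2 : Q.degree ≤ ((n + 1 : ℕ) : WithBot ℕ) :=
        (natDegree_le_iff_degree_le).1 (hdeg v b b')
      refine lt_of_le_of_lt (max_le h1 h2) ?_
      exact_mod_cast hS
    · intro w hw
      simpa [hP, hQ] using h w hw
  have hcop : IsCoprime ((X - C v) ^ n : K[X]) ((X - C u) ^ n) :=
    (isCoprime_X_sub_C_of_isUnit_sub (sub_ne_zero.2 huv.symm).isUnit).pow
  have hdvd : ((X - C v) ^ n : K[X]) ∣ (C a + C a' * X) := by
    refine hcop.dvd_of_dvd_mul_left ?_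
    exact ⟨_, hPQ⟩
  have hz : (C a + C a' * X : K[X]) = 0 := by
    by_contra hne
    have := natDegree_le_of_dvd hdvd hne
    rw [natDegree_pow, natDegree_X_sub_C, mul_one] at this
    have := hlin a a'
    omega
  have hz' : (C b + C b' * X : K[X]) = 0 := by
    have hQ0 : Q = 0 := by rw [← hPQ, hP, hz, mul_zero]
    have hne : ((X - C v) ^ n : K[X]) ≠ 0 := pow_ne_zero _ (X_sub_C_ne_zero v)
    exact (mul_eq_zero.1 hQ0).resolve_left hne
  have hc : ∀ c c' : K, (C c + C c' * X : K[X]) = 0 → c = 0 ∧ c' = 0 := by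
    intro c c' h0
    constructor
    · have := congrArg (fun p : K[X] => p.coeff 0) h0
      simpa using this
    · have := congrArg (fun p : K[X] => p.coeff 1) h0
      simpa [coeff_C] using this
  exact ⟨(hc _ _ hz).1, (hc _ _ hz).2, (hc _ _ hz').1, (hc _ _ hz').2⟩

/-- the same with constants and `n = 1` -/
theorem two_consts {u v : K} (huv : u ≠ v) {a b : K} {w₁ w₂ : K} (hw : w₁ ≠ w₂)
    (h₁ : (w₁ - u) * a = (w₁ - v) * b) (h₂ : (w₂ - u) * a = (w₂ - v) * b) :
    a = 0 ∧ b = 0 := by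
  have h : (w₁ - w₂) * (a - b) = 0 := by linear_combination h₁ - h₂
  have hab : a = b := sub_eq_zero.1 ((mul_eq_zero.1 h).resolve_left (sub_ne_zero.2 hw))
  subst hab
  have : (v - u) * a = 0 := by linear_combination h₁
  have ha := (mul_eq_zero.1 this).resolve_left (sub_ne_zero.2 huv.symm)
  exact ⟨ha, ha⟩

end general

section finite

variable {K : Type*} [Field K] [Fintype K] {q : ℕ}

theorem q_pos (hcard : Fintype.card K = q ^ 2) : 2 ≤ q := by
  have h1 : 1 < Fintype.card K := Fintype.one_lt_card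
  rw [hcard] at h1
  by_contra h
  have : q ≤ 1 := by omega
  interval_cases q <;> simp at h1

/-- `q` is a power of the characteristic -/
theorem q_eq (hcard : Fintype.card K = q ^ 2) :
    ∃ (p m : ℕ), Fact p.Prime ∧ CharP K p ∧ q = p ^ m := by
  obtain ⟨p, hp⟩ := CharP.exists K
  obtain ⟨n, hprime, hn⟩ := FiniteField.card K p
  have hd : q ∣ p ^ (n : ℕ) := by
    rw [← hn, hcard]; exact dvd_pow_self q two_ne_zero
  obtain ⟨m, -, hm⟩ := (Nat.dvd_prime_pow hprime).1 hd
  exact ⟨p, m, ⟨hprime⟩, hp, hm⟩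

theorem sub_pow_q (hcard : Fintype.card K = q ^ 2) (a b : K) : (a - b) ^ q = a ^ q - b ^ q := by
  obtain ⟨p, m, hp, hc, rfl⟩ := q_eq (K := K) hcard
  exact sub_pow_char_pow a b m

theorem add_pow_q (hcard : Fintype.card K = q ^ 2) (a b : K) : (a + b) ^ q = a ^ q + b ^ q := by
  obtain ⟨p, m, hp, hc, rfl⟩ := q_eq (K := K) hcard
  exact add_pow_char_pow a b p m

theorem pow_qq (hcard : Fintype.card K = q ^ 2) (a : K) : (a ^ q) ^ q = a := by
  rw [← pow_mul, ← pow_two, ← hcard, FiniteField.pow_card]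

/-- a generator of `Kˣ`, as an element of `K`: its powers below `q^2-1` are distinct -/
theorem exists_gen (hcard : Fintype.card K = q ^ 2) :
    ∃ g : K, g ≠ 0 ∧ IsPrimitiveRoot g (q ^ 2 - 1) := by
  classical
  obtain ⟨g, hg⟩ := IsCyclic.exists_generator (α := Kˣ)
  refine ⟨(g : K), g.ne_zero, ?_⟩
  have ho : orderOf g = q ^ 2 - 1 := by
    rw [orderOf_eq_card_of_forall_mem_zpowers hg, Nat.card_eq_fintype_card, Fintype.card_units,
      hcard]
  have := IsPrimitiveRoot.orderOf g
  rw [ho] at this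
  exact IsPrimitiveRoot.coe_units_iff.2 this

theorem fac (q : ℕ) (hq : 1 ≤ q) : q ^ 2 - 1 = (q - 1) * (q + 1) := by
  obtain ⟨m, rfl⟩ : ∃ m, q = m + 1 := ⟨q - 1, by omega⟩
  simp only [Nat.add_sub_cancel]
  have : (m + 1) ^ 2 = m * (m + 1 + 1) + 1 := by ring
  omega

/-- a set of `q+1` points with a given norm -/
theorem fibre (hcard : Fintype.card K = q ^ 2) (z : K) (hz : z ≠ 0) :
    ∃ S : Finset K, S.card = q + 1 ∧ ∀ y ∈ S, y ≠ 0 ∧ y ^ (q + 1) = z ^ (q + 1) := by
  classical
  have hq := q_pos (K := K) hcard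
  obtain ⟨g, hg0, hg⟩ := exists_gen (K := K) hcard
  have hz' : IsPrimitiveRoot (g ^ (q - 1)) (q + 1) :=
    hg.pow (by have := fac q (by omega); rw [this]; exact Nat.mul_pos (by omega) (by omega))
      (fac q (by omega))
  set ζ := g ^ (q - 1) with hζ
  refine ⟨(Finset.range (q + 1)).image fun j => z * ζ ^ j, ?_, ?_⟩
  · rw [Finset.card_image_of_injOn, Finset.card_range]
    intro i hi j hj hij
    have h1 : ζ ^ i = ζ ^ j := mul_left_cancel₀ hz hij
    exact hz'.pow_inj (by simpa using hi) (by simpa using hj) h1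
  · intro y hy
    obtain ⟨j, -, rfl⟩ := Finset.mem_image.1 hy
    refine ⟨mul_ne_zero hz (pow_ne_zero _ (pow_ne_zero _ hg0)), ?_⟩
    rw [mul_pow, ← pow_mul, mul_comm j, pow_mul, hz'.pow_eq_one, one_pow, mul_one]

/-- the `q-1` norms -/
theorem norms (hcard : Fintype.card K = q ^ 2) :
    ∃ S : Finset K, S.card = q - 1 ∧ ∀ w ∈ S, ∃ z : K, z ≠ 0 ∧ z ^ (q + 1) = w := by
  classical
  have hq := q_pos (K := K) hcard
  obtain ⟨g, hg0, hg⟩ := exists_gen (K := K) hcard
  have hz' : IsPrimitiveRoot (g ^ (q + 1)) (q - 1) :=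
    hg.pow (by have := fac q (by omega); rw [this]; exact Nat.mul_pos (by omega) (by omega))
      (by rw [fac q (by omega), mul_comm])
  refine ⟨(Finset.range (q - 1)).image fun j => (g ^ (q + 1)) ^ j, ?_, ?_⟩
  · rw [Finset.card_image_of_injOn, Finset.card_range]
    intro i hi j hj hij
    exact hz'.pow_inj (by simpa using hi) (by simpa using hj) hij
  · intro y hy
    obtain ⟨j, -, rfl⟩ := Finset.mem_image.1 hy
    exact ⟨g ^ j, pow_ne_zero _ hg0, by rw [← pow_mul, ← pow_mul, mul_comm]⟩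

/-- `σ(w) = (w - x)/(w - x^q)` -/
noncomputable def sg (q : ℕ) (x w : K) : K := (w - x) / (w - x ^ q)

theorem norm_fixed (hcard : Fintype.card K = q ^ 2) (z : K) :
    (z ^ (q + 1)) ^ q = z ^ (q + 1) := by
  rw [← pow_mul, add_mul, one_mul, pow_add, pow_mul, pow_qq hcard, pow_add, pow_one, mul_comm]

theorem sub_ne (hcard : Fintype.card K = q ^ 2) {x w : K} (hx : x ^ q ≠ x) (hw : w ^ q = w) :
    w - x ≠ 0 ∧ w - x ^ q ≠ 0 := by
  constructor
  · intro h
    have : w = x := sub_eq_zero.1 h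
    exact hx (this ▸ hw)
  · intro h
    have h1 : w = x ^ q := sub_eq_zero.1 h
    apply hx
    have : (x ^ q) ^ q = x ^ q := by rw [← h1]; exact hw
    rw [pow_qq hcard] at this
    exact this.symm

theorem sg_pow (hcard : Fintype.card K = q ^ 2) {x w : K} (hx : x ^ q ≠ x) (hw : w ^ q = w) :
    sg q x w ^ (q + 1) = 1 := by
  obtain ⟨h1, h2⟩ := sub_ne hcard hx hw
  have ha : (w - x) ^ q = w - x ^ q := by rw [sub_pow_q hcard, hw]
  have hb : (w - x ^ q) ^ q = w - x := by rw [sub_pow_q hcard, hw, pow_qq hcard]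
  rw [sg, div_pow, pow_succ, pow_succ, ha, hb, mul_comm, div_self (mul_ne_zero h1 h2)]

/-- splitting into the classes modulo `q+1` -/
theorem class_eq (hcard : Fintype.card K = q ^ 2) (hq : 7 ≤ q) (c : ℕ → K) (z : K) (hz : z ≠ 0)
    (hc : ∀ i, 2 * q - 1 ≤ i → c i = 0)
    (h : ∀ y : K, y ≠ 0 → y ^ (q + 1) = z ^ (q + 1) →
      ∑ i ∈ Finset.range (2 * q - 1), c i * y ^ i = 0) :
    ∀ r ≤ q, c r + c (r + (q + 1)) * z ^ (q + 1) = 0 := by
  classical
  obtain ⟨S, hS, hS'⟩ := fibre hcard z hz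
  set w := z ^ (q + 1) with hw
  have key : ∀ y : K, y ^ (q + 1) = w → ∑ i ∈ Finset.range (2 * q - 1), c i * y ^ i =
      ∑ r ∈ Finset.range (q + 1), (c r + c (r + (q + 1)) * w) * y ^ r := by
    intro y hy
    have e1 : ∑ i ∈ Finset.range (2 * q - 1), c i * y ^ i =
        ∑ i ∈ Finset.range ((q + 1) + (q + 1)), c i * y ^ i := by
      refine Finset.sum_subset (fun i hi => ?_) fun i _ hi => ?_
      · simp only [Finset.mem_range] at hi ⊢; omega
      · rw [hc i (by simpa using hi), zero_mul]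
    rw [e1, Finset.sum_range_add, ← Finset.sum_add_distrib]
    refine Finset.sum_congr rfl fun r _ => ?_
    rw [add_comm (q + 1) r, pow_add, hy]
    ring
  set P : K[X] := ∑ r ∈ Finset.range (q + 1), C (c r + c (r + (q + 1)) * w) * X ^ r with hP
  have hP0 : P = 0 := by
    refine Polynomial.eq_zero_of_degree_lt_of_eval_finset_eq_zero S ?_ ?_
    · refine lt_of_le_of_lt (degree_sum_le _ _) ?_
      refine (Finset.sup_lt_iff (by rw [hS]; exact WithBot.bot_lt_coe _)).2 fun r hr => ?_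
      refine lt_of_le_of_lt (degree_C_mul_X_pow_le _ _) ?_
      rw [hS]
      exact_mod_cast Finset.mem_range.1 hr
    · intro y hy
      obtain ⟨h1, h2⟩ := hS' y hy
      have := h y h1 h2
      rw [key y h2] at this
      simpa [hP, eval_finsetSum] using this
  intro r hr
  have := congrArg (fun p : K[X] => p.coeff r) hP0
  simp only [hP, finsetSum_coeff, coeff_C_mul_X_pow, coeff_zero] at this
  rw [Finset.sum_eq_single r] at this
  · simpa using this
  · intro b _ hb; simp [hb.symm]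
  · intro hn; exact absurd (Finset.mem_range.2 (by omega)) hn

/-- **Base statement.**  `EVEN_0 ∩ ODD_0` is the line of `z^(q-1)`. -/
theorem base_dim (hcard : Fintype.card K = q ^ 2) (hq : 7 ≤ q) {x : K} (hx : x ^ q ≠ x)
    (A Q : ℕ → K)
    (h : ∀ z : K, z ≠ 0 → ∑ i ∈ Finset.range (2 * q - 1), A i * z ^ i =
      ∑ i ∈ Finset.range (2 * q - 1), Q i * z ^ i * sg q x (z ^ (q + 1)) ^ (i + 2)) :
    (∀ i < 2 * q - 1, i ≠ q - 1 → A i = 0 ∧ Q i = 0) ∧ A (q - 1) = Q (q - 1) := by
  classical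
  -- cut off
  set A' : ℕ → K := fun i => if i < 2 * q - 1 then A i else 0 with hA'
  set Q' : ℕ → K := fun i => if i < 2 * q - 1 then Q i else 0 with hQ'
  have hxx : x ≠ x ^ q := fun h => hx h.symm
  obtain ⟨W, hW, hW'⟩ := norms (K := K) hcard
  -- the class relations
  have rel : ∀ w ∈ W, ∀ r ≤ q, A' r + A' (r + (q + 1)) * w =
      sg q x w ^ (r + 2) * (Q' r + Q' (r + (q + 1)) * w) := by
    intro w hw r hr
    obtain ⟨z, hz, rfl⟩ := hW' w hw
    have hfix := norm_fixed hcard z
    have hs := sg_pow hcard hx hfix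
    set σ := sg q x (z ^ (q + 1)) with hσ
    have := class_eq hcard hq (fun i => A' i - Q' i * σ ^ (i + 2)) z hz ?_ ?_ r hr
    · have e : σ ^ (r + (q + 1) + 2) = σ ^ (r + 2) := by
        rw [show r + (q + 1) + 2 = (r + 2) + (q + 1) by ring, pow_add, hs, mul_one]
      rw [e] at this
      linear_combination this
    · intro i hi
      simp [hA', hQ', not_lt.2 hi]
    · intro y hy hyz
      have h1 := h y hy
      rw [hyz, ← hσ] at h1
      have : ∑ i ∈ Finset.range (2 * q - 1), (A' i - Q' i * σ ^ (i + 2)) * y ^ i =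
          ∑ i ∈ Finset.range (2 * q - 1), A i * y ^ i -
            ∑ i ∈ Finset.range (2 * q - 1), Q i * y ^ i * σ ^ (i + 2) := by
        rw [← Finset.sum_sub_distrib]
        refine Finset.sum_congr rfl fun i hi => ?_
        have hi' := Finset.mem_range.1 hi
        simp only [hA', hQ', if_pos hi']
        ring
      rw [this, h1, sub_self]
  have hfixW : ∀ w ∈ W, w ^ q = w := by
    intro w hw
    obtain ⟨z, hz, rfl⟩ := hW' w hw
    exact norm_fixed hcard z
  -- first form
  have rel1 : ∀ w ∈ W, ∀ r ≤ q, (w - x ^ q) ^ (r + 2) * (A' r + A' (r + (q + 1)) * w) =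
      (w - x) ^ (r + 2) * (Q' r + Q' (r + (q + 1)) * w) := by
    intro w hw r hr
    obtain ⟨h1, h2⟩ := sub_ne hcard hx (hfixW w hw)
    rw [rel w hw r hr, sg, div_pow]
    field_simp
  -- second form
  have rel2 : ∀ w ∈ W, ∀ r ≤ q - 1, (w - x) ^ (q - 1 - r) * (A' r + A' (r + (q + 1)) * w) =
      (w - x ^ q) ^ (q - 1 - r) * (Q' r + Q' (r + (q + 1)) * w) := by
    intro w hw r hr
    obtain ⟨h1, h2⟩ := sub_ne hcard hx (hfixW w hw)
    have hs := sg_pow hcard hx (hfixW w hw)
    have e : sg q x w ^ (q - 1 - r) * sg q x w ^ (r + 2) = 1 := by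
      rw [← pow_add, show q - 1 - r + (r + 2) = q + 1 by omega, hs]
    have e2 : (w - x) ^ (q - 1 - r) = (w - x ^ q) ^ (q - 1 - r) * sg q x w ^ (q - 1 - r) := by
      rw [sg, div_pow]; field_simp
    rw [e2, rel w hw r (by omega)]
    linear_combination ((w - x ^ q) ^ (q - 1 - r) * (Q' r + Q' (r + (q + 1)) * w)) * e
  -- main classes
  have main : ∀ r ≤ q - 3, A' r = 0 ∧ A' (r + (q + 1)) = 0 ∧ Q' r = 0 ∧ Q' (r + (q + 1)) = 0 := by
    intro r hr
    by_cases h2 : 2 ≤ r
    · exact two_forms hxx (n := q - 1 - r) (by omega) W (by rw [hW]; omega)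
        fun w hw => rel2 w hw r (by omega)
    · exact two_forms hx (n := r + 2) (by omega) W (by rw [hW]; omega)
        fun w hw => rel1 w hw r (by omega)
  -- two different norms
  obtain ⟨w₁, hw₁, w₂, hw₂, hne⟩ : ∃ w₁ ∈ W, ∃ w₂ ∈ W, w₁ ≠ w₂ := by
    have : 1 < W.card := by rw [hW]; omega
    obtain ⟨a, b, ha, hb, hab⟩ := Finset.one_lt_card_iff.1 this
    exact ⟨a, ha, b, hb, hab⟩
  have z1 : A' (q - 2 + (q + 1)) = 0 := by simp only [hA']; rw [if_neg (by omega)]
  have z2 : Q' (q - 2 + (q + 1)) = 0 := by simp only [hQ']; rw [if_neg (by omega)]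
  have z3 : A' (q + (q + 1)) = 0 := by simp only [hA']; rw [if_neg (by omega)]
  have z4 : Q' (q + (q + 1)) = 0 := by simp only [hQ']; rw [if_neg (by omega)]
  have z5 : A' (q - 1 + (q + 1)) = 0 := by simp only [hA']; rw [if_neg (by omega)]
  have z6 : Q' (q - 1 + (q + 1)) = 0 := by simp only [hQ']; rw [if_neg (by omega)]
  have c1 : A' (q - 2) = 0 ∧ Q' (q - 2) = 0 := by
    have f : ∀ w ∈ W, (w - x) * A' (q - 2) = (w - x ^ q) * Q' (q - 2) := by
      intro w hw
      have := rel2 w hw (q - 2) (by omega)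
      rw [z1, z2, show q - 1 - (q - 2) = 1 by omega] at this
      simpa using this
    exact two_consts hxx hne (f w₁ hw₁) (f w₂ hw₂)
  have c2 : A' q = 0 ∧ Q' q = 0 := by
    have f : ∀ w ∈ W, (w - x ^ q) * A' q = (w - x) * Q' q := by
      intro w hw
      obtain ⟨h1, h2⟩ := sub_ne hcard hx (hfixW w hw)
      have hs := sg_pow hcard hx (hfixW w hw)
      have := rel w hw q le_rfl
      rw [z3, z4, show q + 2 = (q + 1) + 1 by ring, pow_succ, hs, one_mul, zero_mul, add_zero,
        add_zero, sg] at this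
      rw [this]
      field_simp
    exact two_consts hx hne (f w₁ hw₁) (f w₂ hw₂)
  have c3 : A' (q - 1) = Q' (q - 1) := by
    have hs := sg_pow hcard hx (hfixW w₁ hw₁)
    have := rel w₁ hw₁ (q - 1) (by omega)
    rw [z5, z6, show q - 1 + 2 = q + 1 by omega, hs] at this
    simpa using this
  have toA : ∀ i < 2 * q - 1, A' i = A i := fun i hi => by simp only [hA']; rw [if_pos hi]
  have toQ : ∀ i < 2 * q - 1, Q' i = Q i := fun i hi => by simp only [hQ']; rw [if_pos hi]
  refine ⟨fun i hi hne => ?_, ?_⟩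
  · rw [← toA i hi, ← toQ i hi]
    rcases lt_trichotomy i (q - 1) with h1 | h1 | h1
    · rcases Nat.lt_or_ge i (q - 2) with h3 | h3
      · obtain ⟨a, -, b, -⟩ := main i (by omega)
        exact ⟨a, b⟩
      · have : i = q - 2 := by omega
        rw [this]; exact c1
    · exact absurd h1 hne
    · rcases Nat.lt_or_ge i (q + 1) with h3 | h3
      · have : i = q := by omega
        rw [this]; exact c2
      · obtain ⟨j, rfl⟩ : ∃ j, i = j + (q + 1) := ⟨i - (q + 1), by omega⟩
        obtain ⟨-, a, -, b⟩ := main j (by omega)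
        exact ⟨a, b⟩
  · rw [← toA _ (by omega), ← toQ _ (by omega)]
    exact c3

end finite

end Crest.Agent.R289.BaseDim394
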