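import Crest.Agent.R289.PubBits_92
import Crest.Agent.R289.UFam_715
import Crest.Agent.R289.StartTab_810

/-!
# Row 289, leaf E31 (second of helper92): base tables of the family (helper987)

* `TabF` (tables for a finite value type) = `FP₂` tables of `FamPub_715`.
* `baseT`, `baseT_PT`, `baseT_On` : tables of the steps, public data and start labels for the index type of
  well formed instances give `UFam715.BaseT`, `.PT`, `.On`.
* `famT`, `famT_PT` : the same for `FamGlue715.FamT`.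
* `tabF_start` : table of the start label.
* `adT` : address of the units where the solution is read.
-/

set_option autoImplicit false
set_option linter.unusedVariables false
set_option linter.dupNamespace false

namespace Crest.Agent.R289.BaseTab987

open Crest.PPADPCP Crest.Agent.Lib.PT Crest.Agent.Lib.PT.Arith Crest.Agent.R289
  Crest.Agent.R289.YIdx901 Crest.Agent.R289.FamComb715 Crest.Agent.R289.FamPub715
  Crest.Agent.R289.FamGlue715 Crest.Agent.R289.UFam715 Crest.Agent.R289.DefI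
  Crest.Agent.R289.Local782 Crest.Agent.R289.Word508 Crest.Agent.R289.PubBits92

section calculus

variable {ι α : Type} [PTCode α] {raw : ι → α} {U : ι → Type} {n : α → ℕ}
  {e : ∀ i, U i ≃ Fin (n (raw i))}

/-- `FP₂` form of a table with values in a finite type -/
theorem fp_of_tabF {X : Type} [Finite X] {f : ∀ i, U i → X} (h : TabF raw e f) :
    ∃ t : α → ℕ → X, FP₂ t ∧ ∀ i u, t (raw i) (e i u : Fin _) = f i u := by
  let _ := cd X
  obtain ⟨t, ht, hs⟩ := (h : Tab raw e f)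
  exact ⟨t, FP.of_ptf (f := fun x : α × ℕ => t x.1 x.2) ht, hs⟩

theorem tabF_of_fp {X : Type} [Finite X] {f : ∀ i, U i → X}
    (h : ∃ t : α → ℕ → X, FP₂ t ∧ ∀ i u, t (raw i) (e i u : Fin _) = f i u) : TabF raw e f := by
  let _ := cd X
  obtain ⟨t, ht, hs⟩ := h
  exact ⟨t, FP.ptf (f := fun x : α × ℕ => t x.1 x.2) ht, hs⟩

end calculus

section base

variable {ι : Type} {rw : ι → EI} {U : ι → Type} {n : EI → ℕ} {e : ∀ i, U i ≃ Fin (n (rw i))}
  {St A P : Type} [Finite A] [Finite P] {mv : ∀ i, St → U i → U i} {pub : ∀ i, U i → P}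
  {w0 : ∀ i, U i → A}

/-- **base tables** -/
theorem exists_baseT (hn : PTF n) (hmv : ∀ s, Mp rw e e (fun i u => mv i s u))
    (hpub : TabF rw e pub) (hw0 : TabF rw e w0) {len : EI → ℕ} (hlen : PTU len)
    {adN adM : EI × ℕ → ℕ} (hN : PTF adN) (hM : PTF adM) :
    ∃ (mvT : St → EI → ℕ → ℕ) (pubT : EI → ℕ → P) (w0T : EI → ℕ → A),
      (BaseT.mk n mvT pubT w0T len adN adM).PT ∧
      (FamT.mk n mvT pubT w0T len adN adM).PT ∧
      (∀ i s u, mvT s (rw i) (e i u : Fin _) = (e i (mv i s u) : Fin _)) ∧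
      (∀ i u, pubT (rw i) (e i u : Fin _) = pub i u) ∧
      (∀ i u, w0T (rw i) (e i u : Fin _) = w0 i u) := by
  choose t ht hs using hmv
  obtain ⟨p, hp, hps⟩ := fp_of_tabF hpub
  obtain ⟨w, hw, hws⟩ := fp_of_tabF hw0
  exact ⟨t, p, w, ⟨hn, ht, hp, hw, hlen, hN, hM⟩, ⟨hn, ht, hp, hw, hlen, hN, hM⟩,
    fun i s u => hs s i u, hps, hws⟩

/-- well formed instances -/
abbrev WI : Type := {I : EOL // I.WF}

/-- coded input -/
def rI (i : WI) : EI := raw i.1

/-- **clause `H` of `fam289_of_sem` from tables over the well formed instances**; `mem` = member of the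
family that belongs to a well formed instance -/
theorem exists_On {Inst : Type} {U : Inst → Type} {mv : ∀ i, St → U i → U i} {pub : ∀ i, U i → P}
    {w0 : ∀ i, U i → A} {W : ∀ i, Set (U i → A)} {N M : ∀ i, (U i → A) → U i → A}
    {gN gM : A → Bool} {n0 a b : ℕ} (mem : WI → Inst) {n : EI → ℕ}
    {e : ∀ i : WI, U (mem i) ≃ Fin (n (rI i))} (hn : PTF n)
    (hmv : ∀ s, Mp rI e e (fun i u => mv (mem i) s u))
    (hpub : TabF rI e (fun i u => pub (mem i) u)) (hw0 : TabF rI e (fun i u => w0 (mem i) u))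
    {len : EI → ℕ} (hlen : PTU len) {adN adM : EI × ℕ → ℕ} (hN : PTF adN) (hM : PTF adM)
    (h1 : ∀ I : EOL, I.WF → n0 ≤ n (raw I)) (h2 : ∀ I : EOL, I.WF → 0 < n (raw I))
    (h3 : ∀ I : EOL, I.WF →
      n (raw I) ≤ a * I.encode.length * (Nat.clog 2 (I.encode.length + 2)) ^ b)
    (h4 : ∀ I : EOL, I.WF → len (raw I) = I.n)
    (h5 : ∀ i : WI, ∀ w ∈ W (mem i), N (mem i) w = w →
      ∃ v : Fin i.1.n → Bool, i.1.IsSolution v ∧ ∀ j : Fin i.1.n, ∃ u : U (mem i),
        ((e i u : Fin _) : ℕ) = adN (raw i.1, (j : ℕ)) ∧ gN (w u) = v j)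
    (h6 : ∀ i : WI, ∀ w ∈ W (mem i), M (mem i) w = w → w ≠ w0 (mem i) →
      ∃ v : Fin i.1.n → Bool, i.1.IsSolution v ∧ ∀ j : Fin i.1.n, ∃ u : U (mem i),
        ((e i u : Fin _) : ℕ) = adM (raw i.1, (j : ℕ)) ∧ gM (w u) = v j) :
    ∃ T : BaseT St A P, T.PT ∧ ∀ I : EOL, I.WF → ∃ i : Inst,
      T.On I (mv i) (pub i) (w0 i) (W i) (N i) (M i) gN gM n0 a b := by
  obtain ⟨t, p, w, hPT, -, q1, q2, q3⟩ := exists_baseT (rw := rI) (U := fun i => U (mem i))
    (mv := fun i => mv (mem i)) (pub := fun i => pub (mem i)) (w0 := fun i => w0 (mem i))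
    hn hmv hpub hw0 hlen hN hM
  exact ⟨_, hPT, fun I hI => ⟨mem ⟨I, hI⟩, h1 I hI, h2 I hI, h3 I hI, h4 I hI,
    e ⟨I, hI⟩, q1 ⟨I, hI⟩, q2 ⟨I, hI⟩, q3 ⟨I, hI⟩, h5 ⟨I, hI⟩, h6 ⟨I, hI⟩⟩⟩

/-- the same for `fam289_of_top` / `FamT` -/
theorem exists_famT {Inst : Type} {U : Inst → Type} {mv : ∀ i, St → U i → U i}
    {pub : ∀ i, U i → P} {w0 : ∀ i, U i → A} (mem : WI → Inst) {n : EI → ℕ}
    {e : ∀ i : WI, U (mem i) ≃ Fin (n (rI i))} (hn : PTF n)
    (hmv : ∀ s, Mp rI e e (fun i u => mv (mem i) s u))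
    (hpub : TabF rI e (fun i u => pub (mem i) u)) (hw0 : TabF rI e (fun i u => w0 (mem i) u))
    {len : EI → ℕ} (hlen : PTU len) {adN adM : EI × ℕ → ℕ} (hN : PTF adN) (hM : PTF adM) :
    ∃ B : FamT St A P, B.PT ∧ B.len = len ∧ B.adN = adN ∧ B.adM = adM ∧
      ∃ hB : B.n = n, ∀ i : WI, ∃ eU : U (mem i) ≃ Fin (B.n (raw i.1)),
        (∀ u, ((eU u : Fin _) : ℕ) = (e i u : Fin _)) ∧
        (∀ s u, B.nb s (raw i.1) (eU u : Fin (B.n (raw i.1))) =
          (eU (mv (mem i) s u) : Fin (B.n (raw i.1)))) ∧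
        (∀ u, B.pub (raw i.1) (eU u : Fin (B.n (raw i.1))) = pub (mem i) u) ∧
        (∀ u, B.w0 (raw i.1) (eU u : Fin (B.n (raw i.1))) = w0 (mem i) u) := by
  obtain ⟨t, p, w, -, hPT, q1, q2, q3⟩ := exists_baseT (rw := rI) (U := fun i => U (mem i))
    (mv := fun i => mv (mem i)) (pub := fun i => pub (mem i)) (w0 := fun i => w0 (mem i))
    hn hmv hpub hw0 hlen hN hM
  exact ⟨_, hPT, rfl, rfl, rfl, rfl, fun i => ⟨e i, fun _ => rfl, q1 i, q2 i, q3 i⟩⟩

end base

/-! ### start label -/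

section start

open DefC Compile827 StartTab810

variable {K : Type} [Field K] {c : Cst K} {ι α : Type} [PTCode α] [Finite K] [PTCode K]
  {raw : ι → α} {I : ι → Ins c} {nG nT : α → ℕ}
  {eG : ∀ i, (I i).Γ ≃ Fin (nG (raw i))} {eT : ∀ i, (I i).T ≃ Fin (nT (raw i))}

/-- the start label, from the tables of the instance and the table of the clock word of the value `0` -/
theorem tabF_start (h : InsTab raw I nG nT eG eT) {Ck : Type} [Finite Ck]
    [Finite (c.Lab Ck)] (cw : ∀ i, ℕ → (I i).U → Ck)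
    (hcw : TabF (U := fun i => (I i).U) raw (eQ eG eT) (fun i u => cw i 0 u))
    (st0 stz : c.A.Stg) (h0 : ∀ i, (I i).stg0 = st0) (hz : ∀ i, (I i).stgz = stz) :
    TabF (U := fun i => (I i).U) raw (eQ eG eT) (fun i u =>
      (I i).labE (cw i) ⟨.boot, 0, (I i).xz, (I i).zz, (I i).xs, (I i).ent (I i).xs⟩ u) := by
  have hmc : ∀ g : Empty, Mp (U := fun i => (I i).U) (V := fun i => (I i).U) raw (eQ eG eT)
      (eQ eG eT) (fun i u => (fun (x : Empty) (v : (I i).U) => v) g u) := fun g => g.elim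
  have h1 : TabF (U := fun i => (I i).U) raw (eQ eG eT) (fun i u =>
      (startL st0 stz Prod.snd : Ru c Empty Ck Unit (c.Lab Ck)).run
        ((I i).frame (fun _ v => v) (cw i 0)) (fun _ => ()) u) :=
    TabF.run (Fr := fun i => (I i).frame (fun (_ : Empty) v => v) (cw i 0)) (eF := eQ eG eT)
      (fun g => h.mp_frame hmc g) (h.tabF_frame_pub hcw) _
      (TabF.const () : TabF (U := fun i => (I i).U) raw (eQ eG eT) (fun _ _ => ()))
  have h2 : (fun i (u : (I i).U) =>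
      (startL st0 stz Prod.snd : Ru c Empty Ck Unit (c.Lab Ck)).run
        ((I i).frame (fun _ v => v) (cw i 0)) (fun _ => ()) u) = fun i u =>
      (I i).labE (cw i) ⟨.boot, 0, (I i).xz, (I i).zz, (I i).xs, (I i).ent (I i).xs⟩ u := by
    funext i u
    rw [← h0 i, ← hz i]
    exact run_startL (I i) (fun (_ : Empty) v => v) (cw i 0) (fun _ => ()) (cw i) Prod.snd
      (fun _ => rfl) u
  exact h2 ▸ h1

/-- any local rule over the frame of the instance, applied to a tabulated label word -/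
theorem tabF_rule (h : InsTab raw I nG nT eG eT) {Gc Pc Γl Δ : Type} [Finite Pc] [Finite Γl]
    [Finite Δ] {mc : ∀ i, Gc → (I i).U → (I i).U} {pc : ∀ i, (I i).U → Pc}
    (hmc : ∀ g, Mp raw (eQ eG eT) (eQ eG eT) (fun i u => mc i g u))
    (hpc : TabF raw (eQ eG eT) (fun i u => pc i u)) (A : Ru c Gc Pc Γl Δ)
    {w : ∀ i, (I i).U → Γl} (hw : TabF (U := fun i => (I i).U) raw (eQ eG eT) w) :
    TabF (U := fun i => (I i).U) raw (eQ eG eT)
      (fun i u => A.run ((I i).frame (mc i) (pc i)) (w i) u) :=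
  TabF.run (Fr := fun i => (I i).frame (mc i) (pc i)) (eF := eQ eG eT)
    (fun g => h.mp_frame hmc g) (h.tabF_frame_pub hpc) A hw

end start

/-! ### addresses -/

section address

variable {ι : Type} {rw : ι → EI} {Γ T : ι → Type} {nG nT : EI → ℕ}
  {eG : ∀ i, Γ i ≃ Fin (nG (rw i))} {eT : ∀ i, T i ≃ Fin (nT (rw i))}

/-- address of the unit `(al j, t1)` from the addresses of the factors -/
theorem adT (hT : PTF nT) {alN : EI × ℕ → ℕ} {tN : EI → ℕ} (hal : PTF alN) (ht : PTF tN) :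
    PTF (fun x : EI × ℕ => pI (nT x.1) (alN x) (tN x.1)) :=
  ptf_pI (PTF.comp hT PTF.fst) hal (PTF.comp ht PTF.fst)

theorem adT_spec (i : ι) {m : ℕ} {alN : EI × ℕ → ℕ} {tN : EI → ℕ} (al : Fin m → Γ i) (t : T i)
    (h1 : ∀ j : Fin m, alN (rw i, (j : ℕ)) = (eG i (al j) : Fin _))
    (h2 : tN (rw i) = (eT i t : Fin _)) (j : Fin m) :
    ((eQ eG eT i (al j, t) : Fin _) : ℕ) = pI (nT (rw i)) (alN (rw i, (j : ℕ))) (tN (rw i)) := by
  rw [h1, h2]
  exact eP_val _ _ _ _

end address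

end Crest.Agent.R289.BaseTab987
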