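import Mathlib

/-!
# Row 289, block A: uniqueness of the two-place base word (A.UNIQ), helper554

Text: 225 (#6094), 206 (#6146), with the simplification of my claim.
-/

set_option autoImplicit false

namespace Crest.Agent.R289.BaseUq554

open Polynomial Finset

variable {K : Type*} [Field K]

/-! ### linear factors `1 + c X` -/

/-- `1 + c X` -/
noncomputable def Lf (c : K) : K[X] := 1 + C c * X

theorem Lf_coeff_zero (c : K) : (Lf c).coeff 0 = 1 := by simp [Lf]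

theorem Lf_ne (c : K) : Lf c ≠ 0 := by
  intro h
  have := Lf_coeff_zero c
  rw [h] at this
  simp at this

theorem coprime_X_Lf (c : K) : IsCoprime (X : K[X]) (Lf c) :=
  ⟨-C c, 1, by rw [Lf]; ring⟩

theorem coprime_Lf {c d : K} (h : c ≠ d) : IsCoprime (Lf c) (Lf d) := by
  have hdc : d - c ≠ 0 := sub_ne_zero.2 (Ne.symm h)
  refine ⟨C (d / (d - c)), C (-c / (d - c)), ?_⟩
  have e1 : C (d / (d - c)) * C c + C (-c / (d - c)) * C d = (0 : K[X]) := by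
    rw [← C_mul, ← C_mul, ← C_add, ← C_0]
    congr 1
    field_simp
    ring
  have e2 : C (d / (d - c)) + C (-c / (d - c)) = (1 : K[X]) := by
    rw [← C_add, ← C_1]
    congr 1
    field_simp
    ring
  rw [Lf, Lf]
  linear_combination e2 + e1 * X

theorem natDegree_Lf {c : K} (hc : c ≠ 0) : (Lf c).natDegree = 1 := by
  rw [Lf, add_comm]
  have : (C c * X + 1 : K[X]) = C c * X + C 1 := by simp
  rw [this]
  exact natDegree_linear hc

theorem natDegree_Lf_pow {c : K} (hc : c ≠ 0) (m : ℕ) : (Lf c ^ m).natDegree = m := by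
  rw [natDegree_pow, natDegree_Lf hc, mul_one]

/-- a polynomial divisible by a high power of `1 + c X` with a short window of exponents is `0` -/
theorem winZero {c : K} (hc : c ≠ 0) {m α w : ℕ} {P : K[X]} (hd : Lf c ^ m ∣ P)
    (hs : ∀ r, P.coeff r ≠ 0 → α ≤ r ∧ r ≤ α + w) (hw : w < m) : P = 0 := by
  have h1 : X ^ α ∣ P := X_pow_dvd_iff.2 (fun d hd => by
    by_contra h
    exact absurd (hs d h).1 (by omega))
  obtain ⟨R, rfl⟩ := h1
  have h2 : Lf c ^ m ∣ R :=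
    ((coprime_X_Lf c).symm.pow).dvd_of_dvd_mul_left hd
  by_contra h0
  have hR : R ≠ 0 := by
    rintro rfl
    simp at h0
  have hdeg : R.natDegree ≤ w := by
    by_contra hlt
    have hne : R.coeff R.natDegree ≠ 0 := by
      rw [coeff_natDegree]
      exact leadingCoeff_ne_zero.2 hR
    have h3 := hs (R.natDegree + α) (by rwa [coeff_X_pow_mul])
    omega
  have h4 := natDegree_le_of_dvd h2 hR
  rw [natDegree_Lf_pow hc] at h4
  omega

/-! ### low and high digits -/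

/-- `∑ r < q, f r X^r` -/
noncomputable def cut (q : ℕ) (f : ℕ → K) : K[X] := ∑ r ∈ range q, C (f r) * X ^ r

theorem coeff_cut (q : ℕ) (f : ℕ → K) (r : ℕ) : (cut q f).coeff r = if r < q then f r else 0 := by
  rw [cut, finsetSum_coeff]
  simp only [coeff_C_mul, coeff_X_pow]
  simp only [mul_ite, mul_one, mul_zero]
  rw [Finset.sum_ite_eq]
  simp

theorem split {q : ℕ} {P : K[X]} (hP : P.natDegree < 2 * q) :
    P = cut q P.coeff + X ^ q * cut q (fun r => P.coeff (r + q)) := by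
  ext r
  rw [coeff_add, coeff_cut, coeff_X_pow_mul', coeff_cut]
  by_cases h : r < q
  · rw [if_pos h, if_neg (by omega), add_zero]
  · rw [if_neg h, if_pos (by omega), zero_add]
    by_cases h2 : r - q < q
    · rw [if_pos h2]
      congr 1
      omega
    · rw [if_neg h2]
      exact coeff_eq_zero_of_natDegree_lt (by omega)

section pow
variable {q : ℕ} (hpow : ∀ c : K, Lf c ^ q = 1 + C (c ^ q) * X ^ q)
include hpow

/-- coefficients of `(1 + cX)^q L`, `deg L < q` -/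
theorem coeff_pow_mul {c : K} {L : K[X]} (hL : L.natDegree < q) :
    (∀ r < q, (Lf c ^ q * L).coeff r = L.coeff r) ∧
      ∀ r < q, (Lf c ^ q * L).coeff (r + q) = c ^ q * L.coeff r := by
  have e : Lf c ^ q * L = L + C (c ^ q) * (X ^ q * L) := by rw [hpow]; ring
  constructor
  · intro r hr
    rw [e, coeff_add, coeff_C_mul, coeff_X_pow_mul', if_neg (by omega)]
    ring
  · intro r hr
    rw [e, coeff_add, coeff_C_mul, coeff_X_pow_mul', if_pos (by omega),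
      coeff_eq_zero_of_natDegree_lt (by omega : L.natDegree < r + q), zero_add, Nat.add_sub_cancel]

/-- if the two digits live in a short window, they are proportional -/
theorem digits {c : K} (hc : c ≠ 0) {m α w : ℕ} {P : K[X]} (hd : Lf c ^ m ∣ P) (hm : m ≤ q)
    (hP : P.natDegree < 2 * q)
    (hs : ∀ r < q, P.coeff r ≠ 0 ∨ P.coeff (r + q) ≠ 0 → α ≤ r ∧ r ≤ α + w) (hw : w < m) :
    P = Lf c ^ q * cut q P.coeff ∧ ∀ r < q, P.coeff (r + q) = c ^ q * P.coeff r := by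
  set lo := cut q P.coeff with hlo
  set hi := cut q (fun r => P.coeff (r + q)) with hhi
  have e := split hP
  rw [← hlo, ← hhi] at e
  have hd2 : Lf c ^ m ∣ C (c ^ q) * lo - hi := by
    have e2 : C (c ^ q) * lo - hi = C (c ^ q) * P - Lf c ^ q * hi := by
      rw [hpow c]
      conv_rhs => rw [e]
      ring
    rw [e2]
    exact dvd_sub (Dvd.dvd.mul_left hd _) (Dvd.dvd.mul_right (pow_dvd_pow _ hm) _)
  have hz : C (c ^ q) * lo - hi = 0 := by
    refine winZero hc hd2 (α := α) (w := w) ?_ hw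
    intro r hr
    rw [coeff_sub, coeff_C_mul, hlo, hhi, coeff_cut, coeff_cut] at hr
    by_cases hrq : r < q
    · rw [if_pos hrq, if_pos hrq] at hr
      refine hs r hrq ?_
      by_contra hcon
      push Not at hcon
      rw [hcon.1, hcon.2] at hr
      simp at hr
    · rw [if_neg hrq, if_neg hrq] at hr
      simp at hr
  have hz' : hi = C (c ^ q) * lo := (sub_eq_zero.1 hz).symm
  constructor
  · rw [hpow c]
    conv_lhs => rw [e]
    rw [hz']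
    ring
  · intro r hr
    have := congrArg (fun p : K[X] => p.coeff r) hz'
    simp only [coeff_C_mul] at this
    rw [hlo, hhi, coeff_cut, coeff_cut, if_pos hr, if_pos hr] at this
    exact this

/-- the case of a power above `q` -/
theorem bigZero {c : K} (hc : c ≠ 0) (hq : 0 < q) {m α w : ℕ} {P Q : K[X]} (hPQ : P = Lf c ^ (q + m) * Q)
    (hP : P.natDegree ≤ 2 * q - 2)
    (hs : ∀ r, r + 2 ≤ q → P.coeff r ≠ 0 → P.coeff (r + q) ≠ 0 → α ≤ r ∧ r ≤ α + w)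
    (hw : w < m) : P = 0 := by
  by_contra h0
  set L := Lf c ^ m * Q with hL
  have e : P = Lf c ^ q * L := by rw [hPQ, hL]; ring
  have hL0 : L ≠ 0 := by
    intro h
    rw [e, h, mul_zero] at h0
    exact h0 rfl
  have hdeg : P.natDegree = q + L.natDegree := by
    rw [e, natDegree_mul (pow_ne_zero _ (Lf_ne c)) hL0, natDegree_Lf_pow hc]
  have hLq : L.natDegree + 2 ≤ q := by
    have h1 : q + L.natDegree ≤ 2 * q - 2 := hdeg ▸ hP
    omega
  obtain ⟨c1, c2⟩ := coeff_pow_mul hpow (c := c) (L := L) (by omega)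
  rw [← e] at c1 c2
  apply hL0
  refine winZero hc (Dvd.intro _ rfl : Lf c ^ m ∣ L) (α := α) (w := w) ?_ hw
  intro r hr
  have hr2 : r ≤ L.natDegree := le_natDegree_of_ne_zero hr
  refine hs r (by omega) ?_ ?_
  · rw [c1 r (by omega)]; exact hr
  · rw [c2 r (by omega)]; exact mul_ne_zero (pow_ne_zero _ hc) hr

end pow

/-! ### integer arithmetic -/

theorem dvd_cases {Q M : ℤ} (hQ : 0 < Q) (h : Q ∣ M) (lo : -Q < M) (hi : M < 5 * Q) :
    M = 0 ∨ M = Q ∨ M = 2 * Q ∨ M = 3 * Q ∨ M = 4 * Q := by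
  obtain ⟨k, rfl⟩ := h
  have h1 : -1 < k := by
    by_contra hk
    push Not at hk
    nlinarith
  have h2 : k < 5 := by
    by_contra hk
    push Not at hk
    nlinarith
  interval_cases k <;> omega

/-! ### windows -/

/-- exponents of `P` lie in the windows of radius `b` -/
def Sup (q b : ℕ) (n : ℤ) (P : K[X]) : Prop :=
  ∀ r : ℕ, P.coeff r ≠ 0 → ∃ e : ℤ, |e| ≤ b ∧ ((q : ℤ) + 1) ∣ 6 + n + r - e

/-- window property of a family -/
def Win (q : ℕ) (F : ℤ → K[X]) : Prop :=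
  ∀ (n : ℤ) (r : ℕ) (a : ℤ) (b : ℕ),
    (∀ j : ℤ, (F (n + ((q : ℤ) + 1) * j)).coeff r ≠ 0 → a ≤ j ∧ j ≤ a + b) →
    (F n).coeff r ≠ 0 → ∃ e : ℤ, |e| ≤ b ∧ ((q : ℤ) + 1) ∣ 6 + n + r - e

theorem Win.sup {q : ℕ} {F : ℤ → K[X]} (hW : Win q F) {n0 a : ℤ} {b : ℕ}
    (hz : ∀ j : ℤ, (j < a ∨ a + b < j) → F (n0 + ((q : ℤ) + 1) * j) = 0) (i : ℤ) :
    Sup q b (n0 + ((q : ℤ) + 1) * i) (F (n0 + ((q : ℤ) + 1) * i)) := by
  intro r hr
  refine hW _ r (a - i) b ?_ hr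
  intro j hj
  by_contra hcon
  have : F (n0 + ((q : ℤ) + 1) * i + ((q : ℤ) + 1) * j) = 0 := by
    have e : n0 + ((q : ℤ) + 1) * i + ((q : ℤ) + 1) * j = n0 + ((q : ℤ) + 1) * (i + j) := by ring
    rw [e]
    apply hz
    omega
  rw [this] at hj
  simp at hj

/-- the two families -/
structure Sys (q : ℕ) (x y : K) (F F' : ℤ → K[X]) : Prop where
  out : ∀ n : ℤ, (n < 0 ∨ 4 * (q : ℤ) - 4 < n) → F n = 0 ∧ F' n = 0
  deg : ∀ n, (F n).natDegree ≤ 2 * q - 2 ∧ (F' n).natDegree ≤ 2 * q - 2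
  pos : ∀ t : ℕ, t ≤ 2 * q - 2 → ∃ Q : K[X],
    F (2 * (q : ℤ) - 2 - t) = Lf x ^ t * Q ∧ F' (2 * (q : ℤ) - 2 - t) = Lf y ^ t * Q
  neg : ∀ t : ℕ, t ≤ 2 * q - 2 → ∃ Q : K[X],
    F (2 * (q : ℤ) - 2 + t) = Lf y ^ t * Q ∧ F' (2 * (q : ℤ) - 2 + t) = Lf x ^ t * Q
  win : Win q F
  win' : Win q F'

theorem Sys.symm {q : ℕ} {x y : K} {F F' : ℤ → K[X]} (h : Sys q x y F F') :
    Sys q y x F' F where
  out n hn := ⟨(h.out n hn).2, (h.out n hn).1⟩
  deg n := ⟨(h.deg n).2, (h.deg n).1⟩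
  pos t ht := by
    obtain ⟨Q, h1, h2⟩ := h.pos t ht
    exact ⟨Q, h2, h1⟩
  neg t ht := by
    obtain ⟨Q, h1, h2⟩ := h.neg t ht
    exact ⟨Q, h2, h1⟩
  win := h.win'
  win' := h.win

section sys
variable {q : ℕ} (hpow : ∀ c : K, Lf c ^ q = 1 + C (c ^ q) * X ^ q) (hq : 11 ≤ q)
include hpow hq

/-- `t = τ + q + 1` -/
theorem bigPos {x : K} (hx : x ≠ 0) {τ b : ℕ} (h1 : 1 ≤ τ) (h2 : τ + 3 ≤ q)
    (hb : b ≤ 2 ∨ (b ≤ 3 ∧ 5 ≤ τ)) {P Q : K[X]} (hPQ : P = Lf x ^ (τ + q + 1) * Q)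
    (hdeg : P.natDegree ≤ 2 * q - 2) (hS : Sup q b ((q : ℤ) - 3 - τ) P) : P = 0 := by
  have hPQ' : P = Lf x ^ (q + (τ + 1)) * Q := by rw [hPQ]; ring
  have key : ∀ r : ℕ, r + 2 ≤ q → P.coeff r ≠ 0 → P.coeff (r + q) ≠ 0 →
      ((r : ℤ) ≤ τ ∧ b ≤ 2) ∨ ((τ : ℤ) - 4 ≤ r ∧ (r : ℤ) ≤ τ + 1 ∧ 5 ≤ τ) := by
    intro r hr ha hb'
    obtain ⟨e1, he1, hd1⟩ := hS r ha
    obtain ⟨e2, he2, hd2⟩ := hS (r + q) hb'
    rw [abs_le] at he1 he2
    push_cast at hd2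
    have c1 := dvd_cases (by omega) hd1 (by omega) (by omega)
    have c2 := dvd_cases (by omega) hd2 (by omega) (by omega)
    rcases hb with hb | hb <;> rcases c1 with c1 | c1 | c1 | c1 | c1 <;>
      rcases c2 with c2 | c2 | c2 | c2 | c2 <;> omega
  rcases hb with hb | hb
  · refine bigZero hpow hx (by omega) hPQ' hdeg (α := 0) (w := τ) ?_ (by omega)
    intro r hr ha hb'
    have := key r hr ha hb'
    rcases this with h | h
    · omega
    · have hS' := hS r ha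
      obtain ⟨e1, he1, hd1⟩ := hS r ha
      obtain ⟨e2, he2, hd2⟩ := hS (r + q) hb'
      rw [abs_le] at he1 he2
      push_cast at hd2
      have c1 := dvd_cases (by omega) hd1 (by omega) (by omega)
      have c2 := dvd_cases (by omega) hd2 (by omega) (by omega)
      rcases c1 with c1 | c1 | c1 | c1 | c1 <;>
        rcases c2 with c2 | c2 | c2 | c2 | c2 <;> omega
  · refine bigZero hpow hx (by omega) hPQ' hdeg (α := τ - 4) (w := 5) ?_ (by omega)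
    intro r hr ha hb'
    have := key r hr ha hb'
    obtain ⟨e1, he1, hd1⟩ := hS r ha
    obtain ⟨e2, he2, hd2⟩ := hS (r + q) hb'
    rw [abs_le] at he1 he2
    push_cast at hd2
    have c1 := dvd_cases (by omega) hd1 (by omega) (by omega)
    have c2 := dvd_cases (by omega) hd2 (by omega) (by omega)
    rcases c1 with c1 | c1 | c1 | c1 | c1 <;>
      rcases c2 with c2 | c2 | c2 | c2 | c2 <;> omega

/-- `t = -(τ + q + 1)` -/
theorem bigNeg {x : K} (hx : x ≠ 0) {τ b : ℕ} (h1 : 1 ≤ τ) (h2 : τ + 3 ≤ q)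
    (hb : b ≤ 2 ∨ (b ≤ 3 ∧ 5 ≤ τ)) {P Q : K[X]} (hPQ : P = Lf x ^ (τ + q + 1) * Q)
    (hdeg : P.natDegree ≤ 2 * q - 2) (hS : Sup q b (3 * (q : ℤ) - 1 + τ) P) : P = 0 := by
  have hPQ' : P = Lf x ^ (q + (τ + 1)) * Q := by rw [hPQ]; ring
  rcases hb with hb | hb
  · refine bigZero hpow hx (by omega) hPQ' hdeg (α := q - 2 - τ) (w := τ) ?_ (by omega)
    intro r hr ha hb'
    obtain ⟨e1, he1, hd1⟩ := hS r ha
    obtain ⟨e2, he2, hd2⟩ := hS (r + q) hb'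
    rw [abs_le] at he1 he2
    push_cast at hd2
    obtain ⟨k1, hk1⟩ := hd1
    obtain ⟨k2, hk2⟩ := hd2
    have c1 := dvd_cases (M := 6 + (3 * (q : ℤ) - 1 + τ) + r - e1 - (q + 1)) (Q := (q : ℤ) + 1)
      (by omega) ⟨k1 - 1, by rw [hk1]; ring⟩ (by omega) (by omega)
    have c2 := dvd_cases (M := 6 + (3 * (q : ℤ) - 1 + τ) + (r + q) - e2 - 2 * (q + 1))
      (Q := (q : ℤ) + 1)
      (by omega) ⟨k2 - 2, by rw [hk2]; ring⟩ (by omega) (by omega)
    rcases c1 with c1 | c1 | c1 | c1 | c1 <;>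
      rcases c2 with c2 | c2 | c2 | c2 | c2 <;> omega
  · refine bigZero hpow hx (by omega) hPQ' hdeg (α := q - 3 - τ) (w := 5) ?_ (by omega)
    intro r hr ha hb'
    obtain ⟨e1, he1, hd1⟩ := hS r ha
    obtain ⟨e2, he2, hd2⟩ := hS (r + q) hb'
    rw [abs_le] at he1 he2
    push_cast at hd2
    obtain ⟨k1, hk1⟩ := hd1
    obtain ⟨k2, hk2⟩ := hd2
    have c1 := dvd_cases (M := 6 + (3 * (q : ℤ) - 1 + τ) + r - e1 - (q + 1)) (Q := (q : ℤ) + 1)
      (by omega) ⟨k1 - 1, by rw [hk1]; ring⟩ (by omega) (by omega)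
    have c2 := dvd_cases (M := 6 + (3 * (q : ℤ) - 1 + τ) + (r + q) - e2 - 2 * (q + 1))
      (Q := (q : ℤ) + 1)
      (by omega) ⟨k2 - 2, by rw [hk2]; ring⟩ (by omega) (by omega)
    rcases c1 with c1 | c1 | c1 | c1 | c1 <;>
      rcases c2 with c2 | c2 | c2 | c2 | c2 <;> omega

omit hpow hq in
theorem Q_zero {x : K} {t : ℕ} {Q P : K[X]} (h : P = Lf x ^ t * Q) (h0 : P = 0) : Q = 0 := by
  rw [h0] at h
  exact (mul_eq_zero.1 h.symm).resolve_left (pow_ne_zero _ (Lf_ne x))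

variable {x y : K} {F F' : ℤ → K[X]}

theorem posPart (hx : x ≠ 0) (S : Sys q x y F F') {τ b : ℕ} (h1 : 1 ≤ τ) (h2 : τ ≤ q)
    (hb : b ≤ 2 ∨ (b ≤ 3 ∧ 5 ≤ τ))
    (hS : Sup q b (2 * (q : ℤ) - 2 - τ + ((q : ℤ) + 1) * (-1))
      (F (2 * (q : ℤ) - 2 - τ + ((q : ℤ) + 1) * (-1)))) :
    F (2 * (q : ℤ) - 2 - τ + ((q : ℤ) + 1) * (-1)) = 0 ∧
      F' (2 * (q : ℤ) - 2 - τ + ((q : ℤ) + 1) * (-1)) = 0 := by
  by_cases h3 : τ + 3 ≤ q
  · obtain ⟨Q, e1, e2⟩ := S.pos (τ + q + 1) (by omega)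
    have ei : (2 * (q : ℤ) - 2 - ((τ + q + 1 : ℕ) : ℤ)) =
        2 * (q : ℤ) - 2 - τ + ((q : ℤ) + 1) * (-1) := by push_cast; ring
    have ej : 2 * (q : ℤ) - 2 - τ + ((q : ℤ) + 1) * (-1) = (q : ℤ) - 3 - τ := by ring
    rw [ei] at e1 e2
    have hz := bigPos hpow hq hx h1 h3 hb e1 (S.deg _).1 (by rw [ej] at hS ⊢; exact hS)
    refine ⟨hz, ?_⟩
    rw [e2, Q_zero e1 hz, mul_zero]
  · exact S.out _ (Or.inl (by omega))

theorem negPart (hy : y ≠ 0) (S : Sys q x y F F') {τ b : ℕ} (h1 : 1 ≤ τ) (h2 : τ ≤ q)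
    (hb : b ≤ 2 ∨ (b ≤ 3 ∧ τ + 4 ≤ q))
    (hS : Sup q b (2 * (q : ℤ) - 2 - τ + ((q : ℤ) + 1) * 2)
      (F (2 * (q : ℤ) - 2 - τ + ((q : ℤ) + 1) * 2))) :
    F (2 * (q : ℤ) - 2 - τ + ((q : ℤ) + 1) * 2) = 0 ∧
      F' (2 * (q : ℤ) - 2 - τ + ((q : ℤ) + 1) * 2) = 0 := by
  by_cases h3 : 4 ≤ τ
  · obtain ⟨Q, e1, e2⟩ := S.neg (q + 1 - τ + q + 1) (by omega)
    have ei : (2 * (q : ℤ) - 2 + ((q + 1 - τ + q + 1 : ℕ) : ℤ)) =
        2 * (q : ℤ) - 2 - τ + ((q : ℤ) + 1) * 2 := by omega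
    have ej : 2 * (q : ℤ) - 2 - τ + ((q : ℤ) + 1) * 2 =
        3 * (q : ℤ) - 1 + ((q + 1 - τ : ℕ) : ℤ) := by omega
    rw [ei] at e1 e2
    have hz := bigNeg hpow hq hy (τ := q + 1 - τ) (by omega) (by omega) (b := b)
      (by omega) e1 (S.deg _).1 (by rw [← ej]; exact hS)
    refine ⟨hz, ?_⟩
    rw [e2, Q_zero e1 hz, mul_zero]
  · exact S.out _ (Or.inr (by omega))

omit hpow in
theorem far {τ : ℕ} (S : Sys q x y F F') (h1 : 1 ≤ τ) (h2 : τ ≤ q) (j : ℤ) (hj : j < -1 ∨ 2 < j) :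
    F (2 * (q : ℤ) - 2 - τ + ((q : ℤ) + 1) * j) = 0 ∧
      F' (2 * (q : ℤ) - 2 - τ + ((q : ℤ) + 1) * j) = 0 := by
  apply S.out
  rcases hj with hj | hj
  · left
    have h3 : ((q : ℤ) + 1) * j ≤ ((q : ℤ) + 1) * (-2) :=
      mul_le_mul_of_nonneg_left (by omega) (by omega)
    omega
  · right
    have h3 : ((q : ℤ) + 1) * 3 ≤ ((q : ℤ) + 1) * j :=
      mul_le_mul_of_nonneg_left (by omega) (by omega)
    omega

theorem outers (hx : x ≠ 0) (hy : y ≠ 0) (S : Sys q x y F F') {τ : ℕ} (h1 : 1 ≤ τ) (h2 : τ ≤ q) :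
    (F (2 * (q : ℤ) - 2 - τ + ((q : ℤ) + 1) * (-1)) = 0 ∧
      F' (2 * (q : ℤ) - 2 - τ + ((q : ℤ) + 1) * (-1)) = 0) ∧
    (F (2 * (q : ℤ) - 2 - τ + ((q : ℤ) + 1) * 2) = 0 ∧
      F' (2 * (q : ℤ) - 2 - τ + ((q : ℤ) + 1) * 2) = 0) := by
  by_cases h5 : 5 ≤ τ
  · have a1 := posPart hpow hq hx S h1 h2 (b := 3) (Or.inr ⟨le_rfl, h5⟩)
      (S.win.sup (a := -1) (b := 3) (fun j hj => (far hq S h1 h2 j (by omega)).1) (-1))
    refine ⟨a1, negPart hpow hq hy S h1 h2 (b := 2) (Or.inl le_rfl)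
      (S.win.sup (a := 0) (b := 2) (fun j hj => ?_) 2)⟩
    by_cases hj1 : j = -1
    · rw [hj1]; exact a1.1
    · exact (far hq S h1 h2 j (by omega)).1
  · have a1 := negPart hpow hq hy S h1 h2 (b := 3) (Or.inr ⟨le_rfl, by omega⟩)
      (S.win.sup (a := -1) (b := 3) (fun j hj => (far hq S h1 h2 j (by omega)).1) 2)
    refine ⟨posPart hpow hq hx S h1 h2 (b := 2) (Or.inl le_rfl)
      (S.win.sup (a := -1) (b := 2) (fun j hj => ?_) (-1)), a1⟩
    by_cases hj1 : j = 2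
    · rw [hj1]; exact a1.1
    · exact (far hq S h1 h2 j (by omega)).1

/-- windows of radius `1` -/
theorem sup1 (hx : x ≠ 0) (hy : y ≠ 0) (S : Sys q x y F F') {τ : ℕ} (h1 : 1 ≤ τ) (h2 : τ ≤ q)
    (j : ℤ) (hj : j < 0 ∨ 1 < j) : F (2 * (q : ℤ) - 2 - τ + ((q : ℤ) + 1) * j) = 0 := by
  obtain ⟨a, b⟩ := outers hpow hq hx hy S h1 h2
  by_cases hj1 : j = -1
  · rw [hj1]; exact a.1
  · by_cases hj2 : j = 2
    · rw [hj2]; exact b.1
    · exact (far hq S h1 h2 j (by omega)).1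

/-- exponents of `F_0` -/
theorem exps (hx : x ≠ 0) (hy : y ≠ 0) (S : Sys q x y F F') {τ : ℕ} (h1 : 1 ≤ τ) (h2 : τ ≤ q)
    (i : ℤ) (hi : i = 0 ∨ i = 1) (r : ℕ)
    (hr : (F (2 * (q : ℤ) - 2 - τ + ((q : ℤ) + 1) * i)).coeff r ≠ 0) :
    (((τ : ℤ) - 3 ≤ r ∧ (r : ℤ) ≤ τ - 1) ∨ ((τ : ℤ) + q - 2 ≤ r ∧ (r : ℤ) ≤ τ + q)) ∧
      r ≤ 2 * q - 2 := by
  have hr2 : r ≤ 2 * q - 2 := by
    by_contra hcon
    exact hr (coeff_eq_zero_of_natDegree_lt (lt_of_le_of_lt (S.deg _).1 (by omega)))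
  refine ⟨?_, hr2⟩
  obtain ⟨e, he, hd⟩ := (S.win.sup (a := 0) (b := 1)
    (fun j hj => sup1 hpow hq hx hy S h1 h2 j (by omega)) i) r hr
  rw [abs_le] at he
  rcases hi with hi | hi
  · rw [hi] at hd
    have c1 := dvd_cases (by omega) hd (by omega) (by omega)
    push_cast at he
    rcases c1 with c1 | c1 | c1 | c1 | c1 <;> omega
  · rw [hi] at hd
    obtain ⟨k1, hk1⟩ := hd
    have c1 := dvd_cases (M := 6 + (2 * (q : ℤ) - 2 - τ + ((q : ℤ) + 1) * 1) + r - e - (q + 1))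
      (Q := (q : ℤ) + 1) (by omega) ⟨k1 - 1, by rw [hk1]; ring⟩ (by omega) (by omega)
    push_cast at he
    rcases c1 with c1 | c1 | c1 | c1 | c1 <;> omega

/-- if the coefficient of `F_0` at `r` vanishes, the one of `F_1` can only be at the centre -/
theorem exps0 (hx : x ≠ 0) (hy : y ≠ 0) (S : Sys q x y F F') {τ : ℕ} (h1 : 1 ≤ τ) (h2 : τ ≤ q)
    (r : ℕ) (hrq : r < q)
    (h0 : (F (2 * (q : ℤ) - 2 - τ + ((q : ℤ) + 1) * 0)).coeff r = 0)
    (hr : (F (2 * (q : ℤ) - 2 - τ + ((q : ℤ) + 1) * 1)).coeff r ≠ 0) :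
    (r : ℤ) = τ - 2 := by
  have hex := exps hpow hq hx hy S h1 h2 1 (Or.inr rfl) r hr
  have hw := S.win (2 * (q : ℤ) - 2 - τ + ((q : ℤ) + 1) * 1) r 0 0 (by
    intro j hj
    by_contra hcon
    have e : 2 * (q : ℤ) - 2 - τ + ((q : ℤ) + 1) * 1 + ((q : ℤ) + 1) * j =
        2 * (q : ℤ) - 2 - τ + ((q : ℤ) + 1) * (1 + j) := by ring
    rw [e] at hj
    by_cases hj0 : 1 + j = 0
    · rw [hj0] at hj; exact hj h0
    · rw [sup1 hpow hq hx hy S h1 h2 (1 + j) (by omega)] at hj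
      simp at hj) hr
  obtain ⟨e, he, hd⟩ := hw
  rw [abs_le] at he
  push_cast at he
  obtain ⟨k1, hk1⟩ := hd
  have c1 := dvd_cases (M := 6 + (2 * (q : ℤ) - 2 - τ + ((q : ℤ) + 1) * 1) + r - e - (q + 1))
    (Q := (q : ℤ) + 1) (by omega) ⟨k1 - 1, by rw [hk1]; ring⟩ (by omega) (by omega)
  rcases c1 with c1 | c1 | c1 | c1 | c1 <;> omega

omit hq in
/-- the last step for the pair `F_1 = (1+yX)^τ' Q`, `F'_1 = (1+xX)^τ' Q` -/
theorem pairZero (hx : x ≠ 0) (hy : y ≠ 0) (hxy : x ≠ y) {τ v : ℕ} (h1 : 1 ≤ τ) (h2 : τ ≤ q)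
    {P P' Q : K[X]} (e1 : P = Lf y ^ (q + 1 - τ) * Q) (e2 : P' = Lf x ^ (q + 1 - τ) * Q)
    (hv : v + 1 < τ ∨ (τ = 1 ∧ v = 0)) (hv1 : v ≤ 1)
    (d1 : P.natDegree < 2 * q) (d2 : P'.natDegree < 2 * q)
    (low1 : ∀ r < q, P.coeff r ≠ 0 → (τ : ℤ) - 2 ≤ r ∧ (r : ℤ) ≤ τ - 2 + v ∧ r + 2 ≤ q)
    (hi1 : ∀ r < q, P.coeff (r + q) ≠ 0 → (τ : ℤ) - 2 ≤ r ∧ (r : ℤ) ≤ τ ∧ r + 2 ≤ q)
    (low2 : ∀ r < q, P'.coeff r ≠ 0 → (τ : ℤ) - 2 ≤ r ∧ (r : ℤ) ≤ τ - 2 + v ∧ r + 2 ≤ q)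
    (hi2 : ∀ r < q, P'.coeff (r + q) ≠ 0 → (τ : ℤ) - 2 ≤ r ∧ (r : ℤ) ≤ τ ∧ r + 2 ≤ q) :
    P = 0 ∧ P' = 0 := by
  obtain ⟨f1, -⟩ := digits hpow hy (α := τ - 2) (w := min 2 (q - τ)) (P := P)
    (m := q + 1 - τ) (Dvd.intro _ e1.symm) (by omega) d1 (by
      intro r hr h
      rcases h with h | h
      · have := low1 r hr h
        omega
      · have := hi1 r hr h
        omega) (by omega)
  obtain ⟨f2, -⟩ := digits hpow hx (α := τ - 2) (w := min 2 (q - τ)) (P := P')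
    (m := q + 1 - τ) (Dvd.intro _ e2.symm) (by omega) d2 (by
      intro r hr h
      rcases h with h | h
      · have := low2 r hr h
        omega
      · have := hi2 r hr h
        omega) (by omega)
  set L := cut q P.coeff with hL
  set L' := cut q P'.coeff with hL'
  have hrel : Lf x ^ (q + 1 - τ) * (Lf y ^ q * L) = Lf y ^ (q + 1 - τ) * (Lf x ^ q * L') := by
    rw [← f1, ← f2, e1, e2]
    ring
  have hqs : Lf x ^ q = Lf x ^ (q + 1 - τ) * Lf x ^ (τ - 1) := by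
    rw [← pow_add]
    congr 1
    omega
  have hdv : Lf x ^ (τ - 1) ∣ Lf y ^ q * L := by
    have h3 : Lf x ^ (q + 1 - τ) * (Lf y ^ q * L) =
        Lf x ^ (q + 1 - τ) * (Lf x ^ (τ - 1) * (Lf y ^ (q + 1 - τ) * L')) := by
      rw [hrel, hqs]
      ring
    exact Dvd.intro _ (mul_left_cancel₀ (pow_ne_zero _ (Lf_ne x)) h3).symm
  have hdv2 : Lf x ^ (τ - 1) ∣ L :=
    ((coprime_Lf hxy).pow).dvd_of_dvd_mul_left hdv
  have hLc : ∀ r, L.coeff r ≠ 0 → r < q ∧ P.coeff r ≠ 0 := by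
    intro r hr
    rw [hL, coeff_cut] at hr
    by_cases h : r < q
    · rw [if_pos h] at hr
      exact ⟨h, hr⟩
    · rw [if_neg h] at hr
      exact absurd rfl hr
  have hL0 : L = 0 := by
    rcases hv with hv | hv
    · refine winZero hx hdv2 (α := τ - 2) (w := v) ?_ (by omega)
      intro r hr
      have h3 := hLc r hr
      have h4 := low1 r h3.1 h3.2
      omega
    · ext r
      rw [coeff_zero]
      by_contra hr
      have h3 := hLc r hr
      have h4 := low1 r h3.1 h3.2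
      omega
  have hP : P = 0 := by rw [f1, hL0, mul_zero]
  refine ⟨hP, ?_⟩
  have hQ : Q = 0 := by
    rw [hP] at e1
    exact (mul_eq_zero.1 e1.symm).resolve_left (pow_ne_zero _ (Lf_ne y))
  rw [e2, hQ, mul_zero]

/-- only the centre is left when `F_1 = 0` -/
theorem center (hx : x ≠ 0) (hy : y ≠ 0) (S : Sys q x y F F') {τ : ℕ} (h1 : 1 ≤ τ) (h2 : τ ≤ q)
    (hF1 : F (2 * (q : ℤ) - 2 - τ + ((q : ℤ) + 1) * 1) = 0) (r : ℕ)
    (hr : (F (2 * (q : ℤ) - 2 - τ + ((q : ℤ) + 1) * 0)).coeff r ≠ 0) :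
    r + 2 = τ ∨ r + 1 = τ + q := by
  have hex := exps hpow hq hx hy S h1 h2 0 (Or.inl rfl) r hr
  have hw := S.win (2 * (q : ℤ) - 2 - τ + ((q : ℤ) + 1) * 0) r 0 0 (by
    intro j hj
    by_contra hcon
    have e : 2 * (q : ℤ) - 2 - τ + ((q : ℤ) + 1) * 0 + ((q : ℤ) + 1) * j =
        2 * (q : ℤ) - 2 - τ + ((q : ℤ) + 1) * j := by ring
    rw [e] at hj
    by_cases hj0 : j = 1
    · rw [hj0, hF1] at hj; simp at hj
    · rw [sup1 hpow hq hx hy S h1 h2 j (by omega)] at hj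
      simp at hj) hr
  obtain ⟨e, he, hd⟩ := hw
  rw [abs_le] at he
  push_cast at he
  have c1 := dvd_cases (by omega) hd (by omega) (by omega)
  rcases c1 with c1 | c1 | c1 | c1 | c1 <;> omega

/-- `F_0 = (1+xX)^q L` and its exponents, `τ ≥ 4` -/
theorem F0_big (hx : x ≠ 0) (hy : y ≠ 0) (S : Sys q x y F F') {τ : ℕ} (h1 : 4 ≤ τ)
    (h2 : τ ≤ q) :
    F (2 * (q : ℤ) - 2 - τ + ((q : ℤ) + 1) * 0) =
      Lf x ^ q * cut q (F (2 * (q : ℤ) - 2 - τ + ((q : ℤ) + 1) * 0)).coeff ∧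
    ∀ r < q, (F (2 * (q : ℤ) - 2 - τ + ((q : ℤ) + 1) * 0)).coeff r ≠ 0 →
      (F (2 * (q : ℤ) - 2 - τ + ((q : ℤ) + 1) * 0)).coeff (r + q) ≠ 0 ∧
      (τ : ℤ) - 2 ≤ r ∧ (r : ℤ) ≤ τ - 2 + 1 ∧ r + 2 ≤ q := by
  obtain ⟨Q, e1, -⟩ := S.pos τ (by omega)
  have ei : (2 * (q : ℤ) - 2 - (τ : ℤ)) = 2 * (q : ℤ) - 2 - τ + ((q : ℤ) + 1) * 0 := by ring
  rw [ei] at e1
  have hex := exps hpow hq hx hy S (by omega) h2 0 (Or.inl rfl)
  obtain ⟨f1, f2⟩ := digits hpow hx (α := τ - 3) (w := 3) (m := τ)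
    (P := F (2 * (q : ℤ) - 2 - τ + ((q : ℤ) + 1) * 0)) (Dvd.intro _ e1.symm) h2
    (lt_of_le_of_lt (S.deg _).1 (by omega)) (by
      intro r hr h
      rcases h with h | h
      · have := hex r h
        omega
      · have := hex (r + q) h
        omega) (by omega)
  refine ⟨f1, ?_⟩
  intro r hr h
  have h3 : (F (2 * (q : ℤ) - 2 - τ + ((q : ℤ) + 1) * 0)).coeff (r + q) ≠ 0 := by
    rw [f2 r hr]
    exact mul_ne_zero (pow_ne_zero _ hx) h
  have h4 := hex r h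
  have h5 := hex (r + q) h3
  exact ⟨h3, by omega, by omega, by omega⟩

theorem low1_big (hx : x ≠ 0) (hy : y ≠ 0) (S : Sys q x y F F') {τ : ℕ} (h1 : 4 ≤ τ)
    (h2 : τ ≤ q) : ∀ r < q, (F (2 * (q : ℤ) - 2 - τ + ((q : ℤ) + 1) * 1)).coeff r ≠ 0 →
      (τ : ℤ) - 2 ≤ r ∧ (r : ℤ) ≤ τ - 2 + (1 : ℕ) ∧ r + 2 ≤ q := by
  intro r hr h
  by_cases h0 : (F (2 * (q : ℤ) - 2 - τ + ((q : ℤ) + 1) * 0)).coeff r = 0
  · have := exps0 hpow hq hx hy S (by omega) h2 r hr h0 h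
    push_cast
    omega
  · have := (F0_big hpow hq hx hy S h1 h2).2 r hr h0
    push_cast
    omega

theorem hi1_all (hx : x ≠ 0) (hy : y ≠ 0) (S : Sys q x y F F') {τ : ℕ} (h1 : 1 ≤ τ)
    (h2 : τ ≤ q) : ∀ r < q, (F (2 * (q : ℤ) - 2 - τ + ((q : ℤ) + 1) * 1)).coeff (r + q) ≠ 0 →
      (τ : ℤ) - 2 ≤ r ∧ (r : ℤ) ≤ τ ∧ r + 2 ≤ q := by
  intro r hr h
  have := exps hpow hq hx hy S h1 h2 1 (Or.inr rfl) (r + q) h
  omega

/-- classes `τ ≥ 4` -/
theorem classBig (hx : x ≠ 0) (hy : y ≠ 0) (hxy : x ≠ y) (S : Sys q x y F F') {τ : ℕ}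
    (h1 : 4 ≤ τ) (h2 : τ ≤ q) :
    F (2 * (q : ℤ) - 2 - τ + ((q : ℤ) + 1) * 0) = 0 ∧
      F (2 * (q : ℤ) - 2 - τ + ((q : ℤ) + 1) * 1) = 0 := by
  obtain ⟨Q, e1, e2⟩ := S.neg (q + 1 - τ) (by omega)
  have ei : (2 * (q : ℤ) - 2 + ((q + 1 - τ : ℕ) : ℤ)) =
      2 * (q : ℤ) - 2 - τ + ((q : ℤ) + 1) * 1 := by omega
  rw [ei] at e1 e2
  have hz := (pairZero hpow hx hy hxy (by omega) h2 e1 e2 (v := 1) (Or.inl (by omega)) le_rfl
    (lt_of_le_of_lt (S.deg _).1 (by omega)) (lt_of_le_of_lt (S.deg _).2 (by omega))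
    (low1_big hpow hq hx hy S h1 h2) (hi1_all hpow hq hx hy S (by omega) h2)
    (low1_big hpow hq hy hx S.symm h1 h2) (hi1_all hpow hq hy hx S.symm (by omega) h2)).1
  refine ⟨?_, hz⟩
  obtain ⟨f1, f2⟩ := F0_big hpow hq hx hy S h1 h2
  have hc : cut q (F (2 * (q : ℤ) - 2 - τ + ((q : ℤ) + 1) * 0)).coeff = 0 := by
    ext r
    rw [coeff_cut, coeff_zero]
    by_cases hr : r < q
    · rw [if_pos hr]
      by_contra h
      have h3 := f2 r hr h
      have h4 := center hpow hq hx hy S (by omega) h2 hz r h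
      have h5 := center hpow hq hx hy S (by omega) h2 hz (r + q) h3.1
      omega
    · rw [if_neg hr]
  rw [f1, hc, mul_zero]

/-- the low part of `F_0` vanishes -/
theorem lowZero (hx : x ≠ 0) (hy : y ≠ 0) (hxy : x ≠ y) (S : Sys q x y F F') {τ : ℕ}
    (h1 : 1 ≤ τ) (h2 : τ + 2 ≤ q) (r : ℕ) (hr : r < τ) :
    (F (2 * (q : ℤ) - 2 - τ + ((q : ℤ) + 1) * 0)).coeff r = 0 := by
  obtain ⟨Q, e1, e2⟩ := S.pos τ (by omega)
  have ei : (2 * (q : ℤ) - 2 - (τ : ℤ)) = 2 * (q : ℤ) - 2 - τ + ((q : ℤ) + 1) * 0 := by ring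
  rw [ei] at e1 e2
  have hex := exps hpow hq hx hy S (by omega) (by omega : τ ≤ q) 0 (Or.inl rfl)
  have hex' := exps hpow hq hy hx S.symm (by omega) (by omega : τ ≤ q) 0 (Or.inl rfl)
  generalize F (2 * (q : ℤ) - 2 - τ + ((q : ℤ) + 1) * 0) = P at *
  generalize F' (2 * (q : ℤ) - 2 - τ + ((q : ℤ) + 1) * 0) = P' at *
  have cutdeg : ∀ f : ℕ → K, (cut τ f).natDegree ≤ τ - 1 := by
    intro f
    rw [natDegree_le_iff_coeff_eq_zero]
    intro N hN
    rw [coeff_cut, if_neg (by omega)]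
  have d1 : (X : K[X]) ^ (τ + q - 2) ∣ P - cut τ P.coeff := X_pow_dvd_iff.2 (fun d hd => by
    rw [coeff_sub, coeff_cut]
    by_cases h : d < τ
    · rw [if_pos h, sub_self]
    · rw [if_neg h, sub_zero]
      by_contra hc
      have := hex d hc
      omega)
  have d2 : (X : K[X]) ^ (τ + q - 2) ∣ P' - cut τ P'.coeff := X_pow_dvd_iff.2 (fun d hd => by
    rw [coeff_sub, coeff_cut]
    by_cases h : d < τ
    · rw [if_pos h, sub_self]
    · rw [if_neg h, sub_zero]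
      by_contra hc
      have := hex' d hc
      omega)
  have hD : Lf y ^ τ * cut τ P.coeff - Lf x ^ τ * cut τ P'.coeff = 0 := by
    refine eq_zero_of_dvd_of_natDegree_lt (p := (X : K[X]) ^ (τ + q - 2)) ?_ ?_
    · have : Lf y ^ τ * cut τ P.coeff - Lf x ^ τ * cut τ P'.coeff =
          Lf x ^ τ * (P' - cut τ P'.coeff) - Lf y ^ τ * (P - cut τ P.coeff) := by
        have h3 : Lf y ^ τ * P = Lf x ^ τ * P' := by rw [e1, e2]; ring
        linear_combination h3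
      rw [this]
      exact dvd_sub (Dvd.dvd.mul_left d2 _) (Dvd.dvd.mul_left d1 _)
    · rw [natDegree_X_pow]
      have n1 : (Lf y ^ τ * cut τ P.coeff).natDegree ≤ τ + (τ - 1) :=
        natDegree_mul_le_of_le (natDegree_Lf_pow hy τ).le (cutdeg _)
      have n2 : (Lf x ^ τ * cut τ P'.coeff).natDegree ≤ τ + (τ - 1) :=
        natDegree_mul_le_of_le (natDegree_Lf_pow hx τ).le (cutdeg _)
      have n3 := natDegree_sub_le_of_le n1 n2
      omega
  have hdv : Lf x ^ τ ∣ Lf y ^ τ * cut τ P.coeff := ⟨cut τ P'.coeff, sub_eq_zero.1 hD⟩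
  have hdv2 : Lf x ^ τ ∣ cut τ P.coeff := ((coprime_Lf hxy).pow).dvd_of_dvd_mul_left hdv
  have hz : cut τ P.coeff = 0 := by
    refine winZero hx hdv2 (α := 0) (w := τ - 1) ?_ (by omega)
    intro d hd
    rw [coeff_cut] at hd
    by_cases h : d < τ
    · omega
    · rw [if_neg h] at hd
      exact absurd rfl hd
  have h4 := coeff_cut τ P.coeff r
  rw [hz, coeff_zero, if_pos hr] at h4
  exact h4.symm

/-- classes `τ ≤ 3` -/
theorem classSmall (hx : x ≠ 0) (hy : y ≠ 0) (hxy : x ≠ y) (S : Sys q x y F F') {τ : ℕ}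
    (h1 : 1 ≤ τ) (h3 : τ ≤ 3) :
    F (2 * (q : ℤ) - 2 - τ + ((q : ℤ) + 1) * 0) = 0 ∧
      F (2 * (q : ℤ) - 2 - τ + ((q : ℤ) + 1) * 1) = 0 := by
  have h2 : τ ≤ q := by omega
  obtain ⟨Q, e1, e2⟩ := S.neg (q + 1 - τ) (by omega)
  have ei : (2 * (q : ℤ) - 2 + ((q + 1 - τ : ℕ) : ℤ)) =
      2 * (q : ℤ) - 2 - τ + ((q : ℤ) + 1) * 1 := by omega
  rw [ei] at e1 e2
  have hz : F (2 * (q : ℤ) - 2 - τ + ((q : ℤ) + 1) * 1) = 0 := by
    by_cases hτ : τ = 1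
    · by_contra hne
      have hQ : Q ≠ 0 := by
        rintro rfl
        rw [mul_zero] at e1
        exact hne e1
      have eq' : q + 1 - τ = q := by omega
      rw [eq'] at e1
      have hdeg : (F (2 * (q : ℤ) - 2 - τ + ((q : ℤ) + 1) * 1)).natDegree = q + Q.natDegree := by
        rw [e1, natDegree_mul (pow_ne_zero _ (Lf_ne y)) hQ, natDegree_Lf_pow hy]
      have hle := (S.deg (2 * (q : ℤ) - 2 - τ + ((q : ℤ) + 1) * 1)).1
      obtain ⟨c1, c2⟩ := coeff_pow_mul hpow (c := y) (L := Q) (by omega)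
      rw [← e1] at c1 c2
      have hlast : Q.coeff Q.natDegree ≠ 0 := by
        rw [coeff_natDegree]; exact leadingCoeff_ne_zero.2 hQ
      have g1 : (F (2 * (q : ℤ) - 2 - τ + ((q : ℤ) + 1) * 1)).coeff Q.natDegree ≠ 0 := by
        rw [c1 _ (by omega)]; exact hlast
      have g2 := exps hpow hq hx hy S h1 h2 1 (Or.inr rfl) _ g1
      have g3 := lowZero hpow hq hx hy hxy S h1 (by omega) Q.natDegree (by omega)
      have g4 := exps0 hpow hq hx hy S h1 h2 _ (by omega) g3 g1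
      omega
    · have low : ∀ (x y : K) (F F' : ℤ → K[X]), x ≠ 0 → y ≠ 0 → x ≠ y → Sys q x y F F' →
          ∀ r < q, (F (2 * (q : ℤ) - 2 - τ + ((q : ℤ) + 1) * 1)).coeff r ≠ 0 →
          (τ : ℤ) - 2 ≤ r ∧ (r : ℤ) ≤ τ - 2 + (0 : ℕ) ∧ r + 2 ≤ q := by
        intro x y F F' hx hy hxy S r hr h
        have g2 := exps hpow hq hx hy S h1 h2 1 (Or.inr rfl) _ h
        have g3 := lowZero hpow hq hx hy hxy S h1 (by omega) r (by omega)
        have g4 := exps0 hpow hq hx hy S h1 h2 _ hr g3 h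
        push_cast
        omega
      exact (pairZero hpow hx hy hxy h1 h2 e1 e2 (v := 0) (Or.inl (by omega)) (by omega)
        (lt_of_le_of_lt (S.deg _).1 (by omega)) (lt_of_le_of_lt (S.deg _).2 (by omega))
        (low x y F F' hx hy hxy S) (hi1_all hpow hq hx hy S h1 h2)
        (low y x F' F hy hx (Ne.symm hxy) S.symm) (hi1_all hpow hq hy hx S.symm h1 h2)).1
  refine ⟨?_, hz⟩
  obtain ⟨Q0, e3, -⟩ := S.pos τ (by omega)
  have ej : (2 * (q : ℤ) - 2 - (τ : ℤ)) = 2 * (q : ℤ) - 2 - τ + ((q : ℤ) + 1) * 0 := by ring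
  rw [ej] at e3
  refine winZero hx (Dvd.intro _ e3.symm) (α := τ + q - 1) (w := 0) ?_ (by omega)
  intro r hr
  have g1 := center hpow hq hx hy S h1 h2 hz r hr
  rcases g1 with g1 | g1
  · exact absurd (lowZero hpow hq hx hy hxy S h1 (by omega) r (by omega)) hr
  · omega

/-- class of `s`, `t = ± (q + 1)` -/
theorem zeroBig {c d : K} (hc : c ≠ 0) (hcd : c ≠ d) {P P' Q : K[X]}
    (e1 : P = Lf c ^ (q + 1) * Q) (e2 : P' = Lf d ^ (q + 1) * Q)
    (d1 : P.natDegree ≤ 2 * q - 2) (d2 : P'.natDegree ≤ 2 * q - 2)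
    (s1 : ∀ r, r + 2 ≤ q → P.coeff r ≠ 0 → P.coeff (r + q) ≠ 0 → r = 0 ∨ r + 2 = q)
    (s2 : ∀ r, r + 2 ≤ q → P'.coeff r ≠ 0 → P'.coeff (r + q) ≠ 0 → r = 0 ∨ r + 2 = q)
    (hd : d ≠ 0) : P = 0 ∧ P' = 0 := by
  have hQ0 : Q = 0 := by
    by_contra hQ
    have f1 : P = Lf c ^ q * (Lf c * Q) := by rw [e1]; ring
    have f2 : P' = Lf d ^ q * (Lf d * Q) := by rw [e2]; ring
    have g1 : P.natDegree = q + (1 + Q.natDegree) := by
      rw [f1, natDegree_mul (pow_ne_zero _ (Lf_ne c)) (mul_ne_zero (Lf_ne c) hQ),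
        natDegree_Lf_pow hc, natDegree_mul (Lf_ne c) hQ, natDegree_Lf hc]
    have hQd : Q.natDegree + 3 ≤ q := by omega
    have n1 : (Lf c * Q).natDegree < q := by
      rw [natDegree_mul (Lf_ne c) hQ, natDegree_Lf hc]; omega
    have n2 : (Lf d * Q).natDegree < q := by
      rw [natDegree_mul (Lf_ne d) hQ, natDegree_Lf hd]; omega
    obtain ⟨c1, c2⟩ := coeff_pow_mul hpow (c := c) n1
    obtain ⟨c3, c4⟩ := coeff_pow_mul hpow (c := d) n2
    rw [← f1] at c1 c2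
    rw [← f2] at c3 c4
    have k1 : ∀ r, (Lf c * Q).coeff r ≠ 0 → r = 0 ∨ r + 2 = q := by
      intro r hr
      have hr2 : r ≤ (Lf c * Q).natDegree := le_natDegree_of_ne_zero hr
      rw [natDegree_mul (Lf_ne c) hQ, natDegree_Lf hc] at hr2
      refine s1 r (by omega) ?_ ?_
      · rw [c1 r (by omega)]; exact hr
      · rw [c2 r (by omega)]; exact mul_ne_zero (pow_ne_zero _ hc) hr
    have k2 : ∀ r, (Lf d * Q).coeff r ≠ 0 → r = 0 ∨ r + 2 = q := by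
      intro r hr
      have hr2 : r ≤ (Lf d * Q).natDegree := le_natDegree_of_ne_zero hr
      rw [natDegree_mul (Lf_ne d) hQ, natDegree_Lf hd] at hr2
      refine s2 r (by omega) ?_ ?_
      · rw [c3 r (by omega)]; exact hr
      · rw [c4 r (by omega)]; exact mul_ne_zero (pow_ne_zero _ hd) hr
    have k3 : C (d - c) * Q = C d * (Lf c * Q) - C c * (Lf d * Q) := by
      rw [Lf, Lf, C_sub]; ring
    have k4 : ∀ r, Q.coeff r ≠ 0 → r = 0 := by
      intro r hr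
      have hr2 : r ≤ Q.natDegree := le_natDegree_of_ne_zero hr
      have h5 := congrArg (fun p : K[X] => p.coeff r) k3
      simp only [coeff_C_mul, coeff_sub] at h5
      by_contra h0
      have a1 : (Lf c * Q).coeff r = 0 := by
        by_contra h; rcases k1 r h with h | h <;> omega
      have a2 : (Lf d * Q).coeff r = 0 := by
        by_contra h; rcases k2 r h with h | h <;> omega
      rw [a1, a2] at h5
      have : (d - c) * Q.coeff r = 0 := by rw [h5]; ring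
      rcases mul_eq_zero.1 this with h | h
      · exact hcd (sub_eq_zero.1 h).symm
      · exact hr h
    have k5 : Q.coeff 0 ≠ 0 := by
      intro h
      apply hQ
      ext r
      rw [coeff_zero]
      by_contra hr
      have := k4 r hr
      rw [this] at hr
      exact hr h
    have k6 : (Lf c * Q).coeff 1 ≠ 0 := by
      have e : Lf c * Q = Q + C c * (X * Q) := by rw [Lf]; ring
      rw [e, coeff_add, coeff_C_mul]
      have : (X * Q).coeff 1 = Q.coeff 0 := coeff_X_mul Q 0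
      rw [this]
      have h1 : Q.coeff 1 = 0 := by
        by_contra h; have := k4 1 h; omega
      rw [h1, zero_add]
      exact mul_ne_zero hc k5
    rcases k1 1 k6 with h | h <;> omega
  rw [e1, e2, hQ0, mul_zero, mul_zero]
  exact ⟨rfl, rfl⟩

omit hpow in
theorem far0 (S : Sys q x y F F') (j : ℤ) (hj : j < -1 ∨ 1 < j) :
    F (2 * (q : ℤ) - 2 + ((q : ℤ) + 1) * j) = 0 ∧
      F' (2 * (q : ℤ) - 2 + ((q : ℤ) + 1) * j) = 0 := by
  apply S.out
  rcases hj with hj | hj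
  · left
    have h3 : ((q : ℤ) + 1) * j ≤ ((q : ℤ) + 1) * (-2) :=
      mul_le_mul_of_nonneg_left (by omega) (by omega)
    omega
  · right
    have h3 : ((q : ℤ) + 1) * 2 ≤ ((q : ℤ) + 1) * j :=
      mul_le_mul_of_nonneg_left (by omega) (by omega)
    omega

theorem supZ (S : Sys q x y F F') (j : ℤ) (hj : j = -1 ∨ j = 1) (r : ℕ) (hr : r + 2 ≤ q)
    (h1 : (F (2 * (q : ℤ) - 2 + ((q : ℤ) + 1) * j)).coeff r ≠ 0)
    (h2 : (F (2 * (q : ℤ) - 2 + ((q : ℤ) + 1) * j)).coeff (r + q) ≠ 0) : r = 0 ∨ r + 2 = q := by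
  have hs := S.win.sup (a := -1) (b := 2) (n0 := 2 * (q : ℤ) - 2)
    (fun j hj => (far0 hq S j (by omega)).1) j
  obtain ⟨a1, he1, b1⟩ := hs r h1
  obtain ⟨a2, he2, b2⟩ := hs (r + q) h2
  rw [abs_le] at he1 he2
  push_cast at he1 he2 b2
  rcases hj with rfl | rfl
  · have c1 := dvd_cases (by omega) b1 (by omega) (by omega)
    have c2 := dvd_cases (by omega) b2 (by omega) (by omega)
    rcases c1 with c1 | c1 | c1 | c1 | c1 <;> rcases c2 with c2 | c2 | c2 | c2 | c2 <;> omega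
  · obtain ⟨k1, hk1⟩ := b1
    obtain ⟨k2, hk2⟩ := b2
    have c1 := dvd_cases (M := 6 + (2 * (q : ℤ) - 2 + ((q : ℤ) + 1) * 1) + r - a1 - 2 * (q + 1))
      (Q := (q : ℤ) + 1) (by omega) ⟨k1 - 2, by rw [hk1]; ring⟩ (by omega) (by omega)
    have c2 := dvd_cases
      (M := 6 + (2 * (q : ℤ) - 2 + ((q : ℤ) + 1) * 1) + (r + q) - a2 - 2 * (q + 1))
      (Q := (q : ℤ) + 1) (by omega) ⟨k2 - 2, by rw [hk2]; ring⟩ (by omega) (by omega)
    rcases c1 with c1 | c1 | c1 | c1 | c1 <;> rcases c2 with c2 | c2 | c2 | c2 | c2 <;> omega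

/-- **the core of A.UNIQ** -/
theorem core (hx : x ≠ 0) (hy : y ≠ 0) (hxy : x ≠ y) (S : Sys q x y F F') :
    (∀ n : ℤ, n ≠ 2 * (q : ℤ) - 2 → F n = 0) ∧
      ∃ c : K, F (2 * (q : ℤ) - 2) = C c * X ^ (q - 1) := by
  have z0 : ∀ j : ℤ, j ≠ 0 → F (2 * (q : ℤ) - 2 + ((q : ℤ) + 1) * j) = 0 := by
    intro j hj
    by_cases h1 : j = -1
    · subst h1
      obtain ⟨Q, e1, e2⟩ := S.pos (q + 1) (by omega)
      have ei : (2 * (q : ℤ) - 2 - ((q + 1 : ℕ) : ℤ)) =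
          2 * (q : ℤ) - 2 + ((q : ℤ) + 1) * (-1) := by push_cast; ring
      rw [ei] at e1 e2
      exact (zeroBig hpow hq hx hxy e1 e2 (S.deg _).1 (S.deg _).2
        (fun r hr a b => supZ hpow hq S (-1) (Or.inl rfl) r hr a b)
        (fun r hr a b => supZ hpow hq S.symm (-1) (Or.inl rfl) r hr a b) hy).1
    · by_cases h2 : j = 1
      · subst h2
        obtain ⟨Q, e1, e2⟩ := S.neg (q + 1) (by omega)
        have ei : (2 * (q : ℤ) - 2 + ((q + 1 : ℕ) : ℤ)) =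
            2 * (q : ℤ) - 2 + ((q : ℤ) + 1) * 1 := by push_cast; ring
        rw [ei] at e1 e2
        exact (zeroBig hpow hq hy (Ne.symm hxy) e1 e2 (S.deg _).1 (S.deg _).2
          (fun r hr a b => supZ hpow hq S 1 (Or.inr rfl) r hr a b)
          (fun r hr a b => supZ hpow hq S.symm 1 (Or.inr rfl) r hr a b) hx).1
      · exact (far0 hq S j (by omega)).1
  constructor
  · intro n hn
    set M : ℤ := 2 * (q : ℤ) - 2 - n with hM
    have hqp : (0 : ℤ) < (q : ℤ) + 1 := by omega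
    have hm0 := Int.emod_nonneg M hqp.ne'
    have hm1 := Int.emod_lt_of_pos M hqp
    have hm2 := Int.emod_add_mul_ediv M ((q : ℤ) + 1)
    by_cases hτ0 : M % ((q : ℤ) + 1) = 0
    · have e : n = 2 * (q : ℤ) - 2 + ((q : ℤ) + 1) * (-(M / ((q : ℤ) + 1))) := by
        rw [hτ0] at hm2
        linarith [hm2]
      rw [e]
      apply z0
      intro h
      rw [h] at e
      apply hn
      rw [e]
      ring
    · obtain ⟨τ, hτ⟩ := Int.eq_ofNat_of_zero_le hm0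
      have h1 : 1 ≤ τ := by omega
      have h2 : τ ≤ q := by omega
      have e : n = 2 * (q : ℤ) - 2 - τ + ((q : ℤ) + 1) * (-(M / ((q : ℤ) + 1))) := by
        rw [hτ] at hm2
        linarith [hm2]
      rw [e]
      generalize -(M / ((q : ℤ) + 1)) = j
      by_cases hj0 : j = 0
      · rw [hj0]
        by_cases h4 : 4 ≤ τ
        · exact (classBig hpow hq hx hy hxy S h4 h2).1
        · exact (classSmall hpow hq hx hy hxy S h1 (by omega)).1
      · by_cases hj1 : j = 1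
        · rw [hj1]
          by_cases h4 : 4 ≤ τ
          · exact (classBig hpow hq hx hy hxy S h4 h2).2
          · exact (classSmall hpow hq hx hy hxy S h1 (by omega)).2
        · exact sup1 hpow hq hx hy S h1 h2 j (by omega)
  · have hco : ∀ r, (F (2 * (q : ℤ) - 2)).coeff r ≠ 0 → r = q - 1 := by
      intro r hr
      have hr2 : r ≤ 2 * q - 2 := by
        by_contra hcon
        exact hr (coeff_eq_zero_of_natDegree_lt (lt_of_le_of_lt (S.deg _).1 (by omega)))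
      obtain ⟨e, he, hd⟩ := S.win (2 * (q : ℤ) - 2) r 0 0 (by
        intro j hj
        by_contra hcon
        rw [z0 j (by omega)] at hj
        simp at hj) hr
      rw [abs_le] at he
      push_cast at he
      have c1 := dvd_cases (by omega) hd (by omega) (by omega)
      rcases c1 with c1 | c1 | c1 | c1 | c1 <;> omega
    refine ⟨(F (2 * (q : ℤ) - 2)).coeff (q - 1), ?_⟩
    ext r
    rw [coeff_C_mul, coeff_X_pow]
    by_cases h : r = q - 1
    · rw [if_pos h, mul_one, h]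
    · rw [if_neg h, mul_zero]
      by_contra hr
      exact h (hco r hr)

end sys

end Crest.Agent.R289.BaseUq554
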