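import Mathlib

/-!
Row 289, block A, theorem A1 (one place): the base statement for every `q` (post 5602).

`K` is a field with `q^2` elements, `x` an element with `x^q ≠ x`,
`T μ φ (l0, l1) = ∑ a, μ (a^(q+1)) * φ (l0 + x a^q l1, l1 + a l0)`.
With `μ1 u = 1/(1 - x^q u)`, `μ2 u = ((1 - x u)/(1 - x^q u))^2` the operator `T μ1 ∘ T μ2` maps every
homogeneous function of degree `2(q-1)` to a polynomial form of degree `2(q-1)`, and multiplies
`w0 = (l0 l1)^(q-1)` by a nonzero constant.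
-/

set_option autoImplicit false
set_option linter.unusedSectionVars false

namespace Crest.Agent.R289.Base593

open Finset

/-- Standing hypotheses: `K` has `q^2` elements and `a ↦ a^q` is additive. -/
structure Frob (K : Type*) [Field K] [Fintype K] (q : ℕ) : Prop where
  card : Fintype.card K = q ^ 2
  add : ∀ a b : K, (a + b) ^ q = a ^ q + b ^ q
  three : 3 ≤ q

variable {K : Type*} [Field K] [Fintype K] [DecidableEq K] {q : ℕ}

section basic

theorem Frob.neg (F : Frob K q) (a : K) : (-a) ^ q = -(a ^ q) := by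
  have h := F.add a (-a)
  rw [add_neg_cancel, zero_pow (by have := F.three; omega)] at h
  exact (neg_eq_of_add_eq_zero_right h.symm).symm

theorem Frob.sub (F : Frob K q) (a b : K) : (a - b) ^ q = a ^ q - b ^ q := by
  rw [sub_eq_add_neg, F.add, F.neg, sub_eq_add_neg]

theorem Frob.sq (F : Frob K q) (a : K) : (a ^ q) ^ q = a := by
  rw [← pow_mul, ← pow_two, ← F.card, FiniteField.pow_card]

theorem Frob.cast (F : Frob K q) : (q : K) = 0 := by
  have h := FiniteField.cast_card_eq_zero K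
  rw [F.card] at h
  push_cast at h
  exact pow_eq_zero_iff (two_ne_zero) |>.1 h

theorem Frob.sum (F : Frob K q) {ι : Type*} (s : Finset ι) (f : ι → K) :
    (∑ i ∈ s, f i) ^ q = ∑ i ∈ s, f i ^ q := by
  classical
  induction s using Finset.induction_on with
  | empty => simp [zero_pow (show q ≠ 0 by have := F.three; omega)]
  | insert a s ha ih => rw [sum_insert ha, sum_insert ha, F.add, ih]

/-- `(X - Y)^(q-1) = ∑ X^k Y^(q-1-k)` in characteristic `p`. -/
theorem Frob.geom (F : Frob K q) (X Y : K) :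
    (X - Y) ^ (q - 1) = ∑ k ∈ range q, X ^ k * Y ^ (q - 1 - k) := by
  by_cases h : X = Y
  · subst h
    rw [sub_self, zero_pow (by have := F.three; omega)]
    rw [Finset.sum_congr rfl (g := fun _ => X ^ (q - 1))]
    · rw [sum_const, card_range, nsmul_eq_mul, F.cast, zero_mul]
    · intro k hk
      rw [mem_range] at hk
      rw [← pow_add]; congr 1; omega
  · have h0 : X - Y ≠ 0 := sub_ne_zero.2 h
    apply mul_right_cancel₀ h0
    rw [← pow_succ, Nat.sub_add_cancel (by have := F.three; omega), F.sub]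
    exact (Commute.all X Y).geom_sum₂_mul q |>.symm

/-- power sums over `K` -/
theorem sum_pow_eq_zero (m : ℕ) (h : ¬ (Fintype.card K - 1) ∣ m) : ∑ a : K, a ^ m = 0 := by
  have hm : m ≠ 0 := by rintro rfl; exact h (dvd_zero _)
  have h1 : ∑ a : K, a ^ m = ∑ u : Kˣ, ((u : K) ^ m) := by
    rw [← Finset.sum_subset (Finset.subset_univ (Finset.univ.filter fun a : K => a ≠ 0))]
    · symm
      refine Finset.sum_bij (fun u _ => (u : K)) ?_ ?_ ?_ ?_
      · intro u _; simp
      · intro u _ v _ huv; exact Units.ext huv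
      · intro a ha
        rw [Finset.mem_filter] at ha
        exact ⟨Units.mk0 a ha.2, mem_univ _, rfl⟩
      · intro u _; rfl
    · intro a _ ha
      have : a = 0 := by
        by_contra hc
        exact ha (Finset.mem_filter.2 ⟨mem_univ _, hc⟩)
      rw [this, zero_pow hm]
  rw [h1, FiniteField.sum_pow_units K m, if_neg h]

theorem sum_pow_zero : ∑ a : K, a ^ 0 = 0 := by
  simp [FiniteField.cast_card_eq_zero K]

theorem sum_pow_card_sub_one : ∑ a : K, a ^ (Fintype.card K - 1) = -1 := by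
  have hc : 1 < Fintype.card K := Fintype.one_lt_card
  have h1 : ∑ a : K, a ^ (Fintype.card K - 1) = ∑ a : K, (if a = 0 then (0:K) else 1) := by
    apply Finset.sum_congr rfl
    intro a _
    split_ifs with h
    · rw [h, zero_pow (by omega)]
    · exact FiniteField.pow_card_sub_one_eq_one a h
  rw [h1, ← Finset.sum_filter_add_sum_filter_not univ (fun a : K => a = 0)]
  have h2 : ∑ a ∈ univ.filter (fun a : K => a = 0), (if a = 0 then (0:K) else 1) = 0 := by
    apply Finset.sum_eq_zero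
    intro a ha
    rw [Finset.mem_filter] at ha
    rw [if_pos ha.2]
  have h3 : ∑ a : K, (if a = 0 then (0:K) else 1) = ∑ a : K, ((1:K) - if a = 0 then 1 else 0) := by
    apply Finset.sum_congr rfl
    intro a _
    split_ifs <;> simp
  rw [Finset.sum_filter_add_sum_filter_not univ (fun a : K => a = 0), h3, Finset.sum_sub_distrib]
  simp [FiniteField.cast_card_eq_zero K]

end basic

section degree

/-- functions of `a` of total degree at most `n` in `a`, `a^q` -/
def Deg (K : Type*) [Field K] (q n : ℕ) : Submodule K (K → K) :=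
  Submodule.span K {f | ∃ i j : ℕ, i + j ≤ n ∧ f = fun a => a ^ i * (a ^ q) ^ j}

theorem Deg.mono {m n : ℕ} (h : m ≤ n) : Deg K q m ≤ Deg K q n := by
  apply Submodule.span_mono
  rintro f ⟨i, j, hij, rfl⟩
  exact ⟨i, j, hij.trans h, rfl⟩

theorem Deg.const (c : K) (n : ℕ) : (fun _ : K => c) ∈ Deg K q n := by
  have h : (fun a : K => a ^ 0 * (a ^ q) ^ 0) ∈ Deg K q n :=
    Submodule.subset_span ⟨0, 0, by omega, rfl⟩
  have h2 := (Deg K q n).smul_mem c h
  convert h2 using 1
  funext a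
  simp

theorem Deg.id : (fun a : K => a) ∈ Deg K q 1 := by
  have h : (fun a : K => a ^ 1 * (a ^ q) ^ 0) ∈ Deg K q 1 :=
    Submodule.subset_span ⟨1, 0, by omega, rfl⟩
  convert h using 1
  funext a
  simp

theorem Deg.frob : (fun a : K => a ^ q) ∈ Deg K q 1 := by
  have h : (fun a : K => a ^ 0 * (a ^ q) ^ 1) ∈ Deg K q 1 :=
    Submodule.subset_span ⟨0, 1, by omega, rfl⟩
  convert h using 1
  funext a
  simp

theorem Deg.mul {m n : ℕ} {f g : K → K} (hf : f ∈ Deg K q m) (hg : g ∈ Deg K q n) :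
    (fun a => f a * g a) ∈ Deg K q (m + n) := by
  have key : (f * g) ∈ Deg K q (m + n) := by
    have h : Deg K q m * Deg K q n ≤ Deg K q (m + n) := by
      unfold Deg
      rw [Submodule.span_mul_span]
      apply Submodule.span_mono
      rintro _ ⟨_, ⟨i, j, hij, rfl⟩, _, ⟨i', j', hij', rfl⟩, rfl⟩
      refine ⟨i + i', j + j', by omega, ?_⟩
      funext a
      simp only [Pi.mul_apply]
      rw [pow_add, pow_add]; ring
    exact h (Submodule.mul_mem_mul hf hg)
  exact key

theorem Deg.pow {m : ℕ} {f : K → K} (hf : f ∈ Deg K q m) (k : ℕ) :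
    (fun a => f a ^ k) ∈ Deg K q (k * m) := by
  induction k with
  | zero => simpa using Deg.const (K := K) (q := q) 1 0
  | succ k ih =>
    have := Deg.mul ih hf
    rw [Nat.succ_mul]
    have e : (fun a => f a ^ (k + 1)) = fun a => f a ^ k * f a := by
      funext a; rw [pow_succ]
    rw [e]; exact this

theorem Deg.qpow (F : Frob K q) {m : ℕ} {f : K → K} (hf : f ∈ Deg K q m) :
    (fun a => f a ^ q) ∈ Deg K q m := by
  unfold Deg at hf ⊢
  induction hf using Submodule.span_induction with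
  | mem f hf =>
    obtain ⟨i, j, hij, rfl⟩ := hf
    apply Submodule.subset_span
    refine ⟨j, i, by omega, ?_⟩
    funext a
    rw [mul_pow, ← pow_mul, mul_comm i q, pow_mul, ← pow_mul (a ^ q) j q, mul_comm j q, pow_mul,
      F.sq]
    ring
  | zero =>
    convert Submodule.zero_mem _ using 1
    funext a
    simp [show q ≠ 0 by have := F.three; omega]
  | add f g _ _ h1 h2 =>
    convert Submodule.add_mem _ h1 h2 using 1
    funext a
    simp only [Pi.add_apply]
    rw [F.add]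
  | smul c f _ h =>
    convert Submodule.smul_mem _ (c ^ q) h using 1
    funext a
    simp only [Pi.smul_apply, smul_eq_mul]
    rw [mul_pow]

theorem Deg.sum_zero (F : Frob K q) {m : ℕ} (hm : m < 2 * (q - 1)) {f : K → K}
    (hf : f ∈ Deg K q m) : ∑ a, f a = 0 := by
  unfold Deg at hf
  induction hf using Submodule.span_induction with
  | mem f hf =>
    obtain ⟨i, j, hij, rfl⟩ := hf
    have h3 := F.three
    have e : ∀ a : K, a ^ i * (a ^ q) ^ j = a ^ (i + q * j) := by
      intro a; rw [← pow_mul, ← pow_add]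
    simp only [e]
    by_cases hd : (Fintype.card K - 1) ∣ (i + q * j)
    · -- then i = j = 0
      have h0 : i + q * j = 0 := by
        rw [F.card] at hd
        obtain ⟨r, rfl⟩ : ∃ r, q = r + 1 := ⟨q - 1, by omega⟩
        have hq2 : (r + 1) ^ 2 - 1 = r * (r + 2) := by
          have : (r + 1) ^ 2 = r * (r + 2) + 1 := by ring
          omega
        rw [hq2] at hd
        simp only [Nat.add_sub_cancel] at hm
        have h1 : r ∣ i + j := by
          have h2 : r ∣ i + (r + 1) * j := dvd_trans (dvd_mul_right _ _) hd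
          have h3 : i + (r + 1) * j = (i + j) + r * j := by ring
          rw [h3] at h2
          exact (Nat.dvd_add_left (dvd_mul_right _ _)).1 h2
        obtain ⟨t, ht⟩ := h1
        have ht2 : t < 2 := by
          by_contra hc
          have : r * 2 ≤ r * t := Nat.mul_le_mul_left _ (by omega)
          omega
        interval_cases t
        · have hi : i = 0 := by omega
          have hj : j = 0 := by omega
          subst hi; subst hj; simp
        · exfalso
          have h4 : i + (r + 1) * j = r * (1 + j) := by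
            have : i + j = r := by omega
            calc i + (r + 1) * j = (i + j) + r * j := by ring
              _ = r + r * j := by rw [this]
              _ = r * (1 + j) := by ring
          rw [h4] at hd
          have h5 : (r + 2) ∣ (1 + j) := Nat.dvd_of_mul_dvd_mul_left (by omega) hd
          have h6 := Nat.le_of_dvd (by omega) h5
          omega
      rw [h0]
      exact sum_pow_zero
    · exact sum_pow_eq_zero _ hd
  | zero => simp
  | add f g _ _ h1 h2 =>
    simp only [Pi.add_apply]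
    rw [Finset.sum_add_distrib, h1, h2, add_zero]
  | smul c f _ h =>
    simp only [Pi.smul_apply, smul_eq_mul]
    rw [← Finset.mul_sum, h, mul_zero]

end degree

section forms

/-- linear forms -/
def Lin (K : Type*) [Field K] : Submodule K (K × K → K) :=
  Submodule.span K {(fun l => l.1), (fun l => l.2)}

/-- `q`-th powers of linear forms -/
def LinQ (K : Type*) [Field K] (q : ℕ) : Submodule K (K × K → K) :=
  Submodule.span K {(fun l => l.1 ^ q), (fun l => l.2 ^ q)}

theorem Lin.mk (a b : K) : (fun l : K × K => a * l.1 + b * l.2) ∈ Lin K := by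
  have h1 : (fun l : K × K => l.1) ∈ Lin K := Submodule.subset_span (by simp)
  have h2 : (fun l : K × K => l.2) ∈ Lin K := Submodule.subset_span (by simp)
  exact (Lin K).add_mem ((Lin K).smul_mem a h1) ((Lin K).smul_mem b h2)

theorem Lin.cases {f : K × K → K} (hf : f ∈ Lin K) : ∃ a b : K, f = fun l => a * l.1 + b * l.2 := by
  unfold Lin at hf
  rw [Submodule.mem_span_pair] at hf
  obtain ⟨a, b, rfl⟩ := hf
  exact ⟨a, b, rfl⟩

theorem LinQ.mk (a b : K) : (fun l : K × K => a * l.1 ^ q + b * l.2 ^ q) ∈ LinQ K q := by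
  have h1 : (fun l : K × K => l.1 ^ q) ∈ LinQ K q := Submodule.subset_span (by simp)
  have h2 : (fun l : K × K => l.2 ^ q) ∈ LinQ K q := Submodule.subset_span (by simp)
  exact (LinQ K q).add_mem ((LinQ K q).smul_mem a h1) ((LinQ K q).smul_mem b h2)

theorem LinQ.cases {f : K × K → K} (hf : f ∈ LinQ K q) :
    ∃ a b : K, f = fun l => a * l.1 ^ q + b * l.2 ^ q := by
  unfold LinQ at hf
  rw [Submodule.mem_span_pair] at hf
  obtain ⟨a, b, rfl⟩ := hf
  exact ⟨a, b, rfl⟩

theorem qpow_lin (F : Frob K q) {f : K × K → K} (hf : f ∈ Lin K) :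
    (fun l => f l ^ q) ∈ LinQ K q := by
  obtain ⟨a, b, rfl⟩ := Lin.cases hf
  have e : (fun l : K × K => (a * l.1 + b * l.2) ^ q) =
      fun l => a ^ q * l.1 ^ q + b ^ q * l.2 ^ q := by
    funext l; rw [F.add, mul_pow, mul_pow]
  rw [e]
  exact LinQ.mk _ _

/-- the space `U = Sym^1 · (Sym^n)^{(q)}` -/
def U (K : Type*) [Field K] (q n : ℕ) : Submodule K (K × K → K) := Lin K * LinQ K q ^ n

/-- substitution `l ↦ (α l0 + β l1, γ l0 + δ l1)` -/
def sub (α β γ δ : K) (l : K × K) : K × K := (α * l.1 + β * l.2, γ * l.1 + δ * l.2)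

theorem Lin.comp {f : K × K → K} (hf : f ∈ Lin K) (α β γ δ : K) :
    (fun l => f (sub α β γ δ l)) ∈ Lin K := by
  obtain ⟨a, b, rfl⟩ := Lin.cases hf
  have e : (fun l : K × K => a * (sub α β γ δ l).1 + b * (sub α β γ δ l).2) =
      fun l => (a * α + b * γ) * l.1 + (a * β + b * δ) * l.2 := by
    funext l; unfold sub; ring
  rw [e]; exact Lin.mk _ _

theorem LinQ.comp (F : Frob K q) {f : K × K → K} (hf : f ∈ LinQ K q) (α β γ δ : K) :
    (fun l => f (sub α β γ δ l)) ∈ LinQ K q := by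
  obtain ⟨a, b, rfl⟩ := LinQ.cases hf
  have e : (fun l : K × K => a * (sub α β γ δ l).1 ^ q + b * (sub α β γ δ l).2 ^ q) =
      fun l => (a * α ^ q + b * γ ^ q) * l.1 ^ q + (a * β ^ q + b * δ ^ q) * l.2 ^ q := by
    funext l; unfold sub; simp only []; rw [F.add, F.add, mul_pow, mul_pow, mul_pow, mul_pow]; ring
  rw [e]; exact LinQ.mk _ _

theorem mul_comp {M N M' N' : Submodule K (K × K → K)} (σ : K × K → K × K)
    (hM : ∀ f ∈ M, (fun l => f (σ l)) ∈ M') (hN : ∀ f ∈ N, (fun l => f (σ l)) ∈ N')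
    {f : K × K → K} (hf : f ∈ M * N) : (fun l => f (σ l)) ∈ M' * N' := by
  induction hf using Submodule.mul_induction_on' with
  | mem_mul_mem m hm n hn => exact Submodule.mul_mem_mul (hM m hm) (hN n hn)
  | add a _ b _ h1 h2 => exact Submodule.add_mem _ h1 h2

theorem pow_comp {M : Submodule K (K × K → K)} (σ : K × K → K × K)
    (hM : ∀ f ∈ M, (fun l => f (σ l)) ∈ M) (n : ℕ) :
    ∀ f ∈ M ^ n, (fun l => f (σ l)) ∈ M ^ n := by
  induction n with
  | zero =>
    intro f hf
    rw [pow_zero] at hf ⊢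
    rw [Submodule.mem_one] at hf ⊢
    obtain ⟨y, rfl⟩ := hf
    exact ⟨y, by funext l; simp⟩
  | succ n ih =>
    intro f hf
    rw [pow_succ] at hf ⊢
    exact mul_comp σ ih hM hf

theorem U.comp (F : Frob K q) {n : ℕ} {f : K × K → K} (hf : f ∈ U K q n) (α β γ δ : K) :
    (fun l => f (sub α β γ δ l)) ∈ U K q n :=
  mul_comp (sub α β γ δ) (fun f hf => Lin.comp hf α β γ δ)
    (pow_comp _ (fun f hf => LinQ.comp F hf α β γ δ) n) hf

theorem fst_lin : (fun l : K × K => l.1) ∈ Lin K := Submodule.subset_span (by simp)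
theorem snd_lin : (fun l : K × K => l.2) ∈ Lin K := Submodule.subset_span (by simp)
theorem fst_linQ : (fun l : K × K => l.1 ^ q) ∈ LinQ K q := Submodule.subset_span (by simp)
theorem snd_linQ : (fun l : K × K => l.2 ^ q) ∈ LinQ K q := Submodule.subset_span (by simp)

/-- monomials `(l0^i l1^j)^q` -/
theorem mono_linQ (i j : ℕ) :
    (fun l : K × K => (l.1 ^ i * l.2 ^ j) ^ q) ∈ LinQ K q ^ (i + j) := by
  have h1 : ((fun l : K × K => l.1 ^ q) ^ i) ∈ LinQ K q ^ i :=
    Submodule.pow_mem_pow _ fst_linQ i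
  have h2 : ((fun l : K × K => l.2 ^ q) ^ j) ∈ LinQ K q ^ j :=
    Submodule.pow_mem_pow _ snd_linQ j
  have h3 := Submodule.mul_mem_mul h1 h2
  rw [← pow_add] at h3
  convert h3 using 1
  funext l
  simp only [Pi.mul_apply, Pi.pow_apply]
  rw [mul_pow, ← pow_mul, ← pow_mul, ← pow_mul, ← pow_mul, mul_comm i q, mul_comm j q]

end forms

section Ev

/-- the form `E_v` of degree `q+1` -/
def Ev (q : ℕ) (v0 v1 : K) (l : K × K) : K :=
  ∑ k ∈ range (q - 2), v0 ^ (q - 3 - k) * v1 ^ k * (l.1 ^ (k + 2) * l.2 ^ (q - 1 - k))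

theorem J_mk (α β γ δ : K) :
    (fun l : K × K => (α * l.1 + β * l.2) * l.1 ^ q + (γ * l.1 + δ * l.2) * l.2 ^ q) ∈ U K q 1 := by
  unfold U
  rw [pow_one]
  exact Submodule.add_mem _ (Submodule.mul_mem_mul (Lin.mk α β) fst_linQ)
    (Submodule.mul_mem_mul (Lin.mk γ δ) snd_linQ)

theorem Ev_id (F : Frob K q) (w0 w1 v0 v1 : K) :
    (fun l : K × K => (w0 * l.1 + w1 * l.2) ^ 2 * (l.1 * v1 - l.2 * v0) ^ (q - 1)
      - (w0 * v0 + w1 * v1) ^ 2 * Ev q v0 v1 l) ∈ U K q 1 := by
  obtain ⟨r, hr⟩ : ∃ r, q = r + 3 := ⟨q - 3, by have := F.three; omega⟩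
  have hG : ∀ l : K × K, (l.1 * v1 - l.2 * v0) ^ (q - 1) =
      ∑ k ∈ range (r + 3), (l.1 * v1) ^ k * (l.2 * v0) ^ (r + 2 - k) := by
    intro l
    rw [F.geom, hr]
    rfl
  have hE : ∀ l : K × K, Ev q v0 v1 l =
      ∑ k ∈ range (r + 1), v0 ^ (r - k) * v1 ^ k * (l.1 ^ (k + 2) * l.2 ^ (r + 2 - k)) := by
    intro l
    unfold Ev
    rw [hr]
    rfl
  have A00 : ∀ l : K × K, l.1 ^ 2 * (l.1 * v1 - l.2 * v0) ^ (q - 1) - v0 ^ 2 * Ev q v0 v1 l =
      l.1 ^ (r + 3) * v1 ^ (r + 1) * l.2 * v0 + l.1 ^ (r + 4) * v1 ^ (r + 2) := by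
    intro l
    rw [hG, hE, sum_range_succ, sum_range_succ, mul_add, mul_add, mul_sum, mul_sum]
    have : ∑ k ∈ range (r + 1), l.1 ^ 2 * ((l.1 * v1) ^ k * (l.2 * v0) ^ (r + 2 - k)) =
        ∑ k ∈ range (r + 1), v0 ^ 2 * (v0 ^ (r - k) * v1 ^ k * (l.1 ^ (k + 2) * l.2 ^ (r + 2 - k))) := by
      apply Finset.sum_congr rfl
      intro k hk
      rw [mem_range] at hk
      obtain ⟨m, rfl⟩ : ∃ m, r = k + m := ⟨r - k, by omega⟩
      have e1 : k + m + 2 - k = m + 2 := by omega
      have e2 : k + m - k = m := by omega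
      rw [e1, e2, mul_pow, mul_pow]
      ring
    rw [this]
    have e1 : r + 2 - (r + 1) = 1 := by omega
    have e2 : r + 2 - (r + 2) = 0 := by omega
    rw [e1, e2, mul_pow, mul_pow]
    ring
  have A01 : ∀ l : K × K, l.1 * l.2 * (l.1 * v1 - l.2 * v0) ^ (q - 1) - v0 * v1 * Ev q v0 v1 l =
      l.2 ^ (r + 3) * v0 ^ (r + 2) * l.1 + l.1 ^ (r + 3) * v1 ^ (r + 2) * l.2 := by
    intro l
    rw [hG, hE, sum_range_succ, sum_range_succ', mul_add, mul_add, mul_sum, mul_sum]
    have : ∑ k ∈ range (r + 1), l.1 * l.2 * ((l.1 * v1) ^ (k + 1) * (l.2 * v0) ^ (r + 2 - (k + 1))) =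
        ∑ k ∈ range (r + 1), v0 * v1 * (v0 ^ (r - k) * v1 ^ k * (l.1 ^ (k + 2) * l.2 ^ (r + 2 - k))) := by
      apply Finset.sum_congr rfl
      intro k hk
      rw [mem_range] at hk
      obtain ⟨m, rfl⟩ : ∃ m, r = k + m := ⟨r - k, by omega⟩
      have e1 : k + m + 2 - k = m + 2 := by omega
      have e2 : k + m - k = m := by omega
      have e3 : k + m + 2 - (k + 1) = m + 1 := by omega
      rw [e1, e2, e3, mul_pow, mul_pow]
      ring
    rw [this]
    have e2 : r + 2 - (r + 2) = 0 := by omega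
    have e3 : r + 2 - 0 = r + 2 := by omega
    rw [e2, e3, mul_pow, mul_pow]
    ring
  have A11 : ∀ l : K × K, l.2 ^ 2 * (l.1 * v1 - l.2 * v0) ^ (q - 1) - v1 ^ 2 * Ev q v0 v1 l =
      l.2 ^ (r + 3) * v0 ^ (r + 1) * l.1 * v1 + l.2 ^ (r + 4) * v0 ^ (r + 2) := by
    intro l
    rw [hG, hE, sum_range_succ', sum_range_succ', mul_add, mul_add, mul_sum, mul_sum]
    have : ∑ k ∈ range (r + 1), l.2 ^ 2 * ((l.1 * v1) ^ (k + 1 + 1) * (l.2 * v0) ^ (r + 2 - (k + 1 + 1))) =
        ∑ k ∈ range (r + 1), v1 ^ 2 * (v0 ^ (r - k) * v1 ^ k * (l.1 ^ (k + 2) * l.2 ^ (r + 2 - k))) := by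
      apply Finset.sum_congr rfl
      intro k hk
      rw [mem_range] at hk
      obtain ⟨m, rfl⟩ : ∃ m, r = k + m := ⟨r - k, by omega⟩
      have e1 : k + m + 2 - k = m + 2 := by omega
      have e2 : k + m - k = m := by omega
      have e3 : k + m + 2 - (k + 1 + 1) = m := by omega
      rw [e1, e2, e3, mul_pow, mul_pow]
      ring
    rw [this]
    have e2 : r + 2 - (0 + 1) = r + 1 := by omega
    have e3 : r + 2 - 0 = r + 2 := by omega
    rw [e2, e3, mul_pow, mul_pow]
    ring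
  have main : (fun l : K × K => (w0 * l.1 + w1 * l.2) ^ 2 * (l.1 * v1 - l.2 * v0) ^ (q - 1)
      - (w0 * v0 + w1 * v1) ^ 2 * Ev q v0 v1 l) =
      fun l => ((w0 ^ 2 * v1 ^ (r + 2)) * l.1
          + (w0 ^ 2 * v1 ^ (r + 1) * v0 + 2 * w0 * w1 * v1 ^ (r + 2)) * l.2) * l.1 ^ q
        + ((2 * w0 * w1 * v0 ^ (r + 2) + w1 ^ 2 * v0 ^ (r + 1) * v1) * l.1
          + (w1 ^ 2 * v0 ^ (r + 2)) * l.2) * l.2 ^ q := by
    funext l
    have e : (w0 * l.1 + w1 * l.2) ^ 2 * (l.1 * v1 - l.2 * v0) ^ (q - 1)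
        - (w0 * v0 + w1 * v1) ^ 2 * Ev q v0 v1 l
        = w0 ^ 2 * (l.1 ^ 2 * (l.1 * v1 - l.2 * v0) ^ (q - 1) - v0 ^ 2 * Ev q v0 v1 l)
        + 2 * w0 * w1 * (l.1 * l.2 * (l.1 * v1 - l.2 * v0) ^ (q - 1) - v0 * v1 * Ev q v0 v1 l)
        + w1 ^ 2 * (l.2 ^ 2 * (l.1 * v1 - l.2 * v0) ^ (q - 1) - v1 ^ 2 * Ev q v0 v1 l) := by ring
    rw [e, A00, A01, A11, hr]
    ring
  rw [main]
  exact J_mk _ _ _ _

/-- the inverse (adjugate) substitution -/
def N (q : ℕ) (x a : K) (l : K × K) : K × K := sub 1 (-(x * a ^ q)) (-a) 1 l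

theorem Ev_sub (F : Frob K q) (x a t : K) :
    (fun l : K × K => Ev q 1 t (N q x a l)
      - (1 - x * a ^ (q + 1)) ^ 2 * Ev q (1 + x * a ^ q * t) (t + a) l) ∈ U K q 1 := by
  have h1 := U.comp F (Ev_id F 1 0 1 t) 1 (-(x * a ^ q)) (-a) 1
  have h2 := Ev_id F 1 (-(x * a ^ q)) (1 + x * a ^ q * t) (t + a)
  have h3 := Submodule.sub_mem _ h2 h1
  convert h3 using 1
  funext l
  simp only [Pi.sub_apply]
  have e1 : (sub 1 (-(x * a ^ q)) (-a) 1 l).1 * t - (sub 1 (-(x * a ^ q)) (-a) 1 l).2 * 1 =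
      l.1 * (t + a) - l.2 * (1 + x * a ^ q * t) := by
    unfold sub; ring
  rw [e1]
  have e2 : 1 * (sub 1 (-(x * a ^ q)) (-a) 1 l).1 + 0 * (sub 1 (-(x * a ^ q)) (-a) 1 l).2 =
      1 * l.1 + -(x * a ^ q) * l.2 := by
    unfold sub; ring
  rw [e2]
  unfold N
  ring

end Ev

section adjoint

theorem N_fst (x : K) (l : K × K) : (fun a : K => (N q x a l).1) ∈ Deg K q 1 := by
  have e : (fun a : K => (N q x a l).1) = (fun a => l.1 + (-(x * l.2)) * a ^ q) := by
    funext a; unfold N sub; ring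
  rw [e]
  exact Submodule.add_mem _ (Deg.const _ 1) (Submodule.smul_mem _ (-(x * l.2)) Deg.frob)

theorem N_snd (x : K) (l : K × K) : (fun a : K => (N q x a l).2) ∈ Deg K q 1 := by
  have e : (fun a : K => (N q x a l).2) = (fun a => l.2 + (-l.1) * a) := by
    funext a; unfold N sub; ring
  rw [e]
  exact Submodule.add_mem _ (Deg.const _ 1) (Submodule.smul_mem _ (-l.1) Deg.id)

theorem deg_lin (x : K) {f : K × K → K} (hf : f ∈ Lin K) (l : K × K) :
    (fun a : K => f (N q x a l)) ∈ Deg K q 1 := by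
  obtain ⟨α, β, rfl⟩ := Lin.cases hf
  exact Submodule.add_mem _ (Submodule.smul_mem _ α (N_fst x l)) (Submodule.smul_mem _ β (N_snd x l))

theorem deg_linQ (F : Frob K q) (x : K) {f : K × K → K} (hf : f ∈ LinQ K q) (l : K × K) :
    (fun a : K => f (N q x a l)) ∈ Deg K q 1 := by
  obtain ⟨α, β, rfl⟩ := LinQ.cases hf
  exact Submodule.add_mem _ (Submodule.smul_mem _ α (Deg.qpow F (N_fst x l)))
    (Submodule.smul_mem _ β (Deg.qpow F (N_snd x l)))

theorem deg_linQ_pow (F : Frob K q) (x : K) (n : ℕ) :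
    ∀ f ∈ LinQ K q ^ n, ∀ l : K × K, (fun a : K => f (N q x a l)) ∈ Deg K q n := by
  induction n with
  | zero =>
    intro f hf l
    rw [pow_zero, Submodule.mem_one] at hf
    obtain ⟨y, rfl⟩ := hf
    exact Deg.const y 0
  | succ n ih =>
    intro f hf l
    rw [pow_succ] at hf
    induction hf using Submodule.mul_induction_on' with
    | mem_mul_mem m hm k hk => exact Deg.mul (ih m hm l) (deg_linQ F x hk l)
    | add a _ b _ h1 h2 => exact Submodule.add_mem _ h1 h2

theorem deg_U (F : Frob K q) (x : K) (n : ℕ) {f : K × K → K} (hf : f ∈ U K q n) (l : K × K) :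
    (fun a : K => f (N q x a l)) ∈ Deg K q (n + 1) := by
  unfold U at hf
  induction hf using Submodule.mul_induction_on' with
  | mem_mul_mem m hm k hk =>
    rw [add_comm]
    exact Deg.mul (deg_lin x hm l) (deg_linQ_pow F x n k hk l)
  | add a _ b _ h1 h2 => exact Submodule.add_mem _ h1 h2

/-- (a) of post 5602 -/
theorem sum_U_eq_zero (F : Frob K q) (x : K) {f : K × K → K} (hf : f ∈ U K q (q - 2))
    (l : K × K) : ∑ a : K, f (N q x a l) = 0 :=
  Deg.sum_zero F (m := q - 2 + 1) (by have := F.three; omega) (deg_U F x _ hf l)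

theorem deg_Ev (x t : K) (l : K × K) :
    (fun a : K => Ev q (1 + x * a ^ q * t) (t + a) l) ∈ Deg K q (q - 3) := by
  unfold Ev
  have e : (fun a : K => ∑ k ∈ range (q - 2), (1 + x * a ^ q * t) ^ (q - 3 - k) * (t + a) ^ k
      * (l.1 ^ (k + 2) * l.2 ^ (q - 1 - k))) = ∑ k ∈ range (q - 2), fun a : K =>
      (1 + x * a ^ q * t) ^ (q - 3 - k) * (t + a) ^ k * (l.1 ^ (k + 2) * l.2 ^ (q - 1 - k)) := by
    funext a
    rw [Finset.sum_apply]
  rw [e]
  apply Submodule.sum_mem
  intro k hk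
  rw [mem_range] at hk
  have h1 : (fun a : K => 1 + x * a ^ q * t) ∈ Deg K q 1 := by
    have e : (fun a : K => 1 + x * a ^ q * t) = fun a => 1 + (x * t) * a ^ q := by
      funext a; ring
    rw [e]
    exact Submodule.add_mem _ (Deg.const _ 1) (Submodule.smul_mem _ (x * t) Deg.frob)
  have h2 : (fun a : K => t + a) ∈ Deg K q 1 :=
    Submodule.add_mem _ (Deg.const _ 1) Deg.id
  have h3 := Deg.mul (Deg.mul (Deg.pow h1 (q - 3 - k)) (Deg.pow h2 k))
    (Deg.const (K := K) (q := q) (l.1 ^ (k + 2) * l.2 ^ (q - 1 - k)) 0)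
  exact Deg.mono (by omega) h3

/-- (b) of post 5602 -/
theorem adj_Ev_mem (F : Frob K q) (x : K) (hx : ∀ a : K, 1 - x * a ^ (q + 1) ≠ 0) (t : K)
    {m : K × K → K} (hm : m ∈ LinQ K q ^ (q - 3)) :
    (fun l : K × K => ∑ a : K, ((1 - x ^ q * a ^ (q + 1)) / (1 - x * a ^ (q + 1)) ^ 2) *
      (Ev q 1 t (N q x a l) * m (N q x a l))) ∈ U K q (q - 2) := by
  have h3 := F.three
  -- the difference with the vanishing sum
  have hz : ∀ l : K × K, ∑ a : K, (1 - x ^ q * a ^ (q + 1)) *
      (Ev q (1 + x * a ^ q * t) (t + a) l * m (N q x a l)) = 0 := by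
    intro l
    have g1 : (fun a : K => 1 - x ^ q * a ^ (q + 1)) ∈ Deg K q 2 := by
      have e : (fun a : K => 1 - x ^ q * a ^ (q + 1)) = fun a => 1 + (-(x ^ q)) * (a * a ^ q) := by
        funext a; ring
      rw [e]
      have h11 : (fun a : K => a * a ^ q) ∈ Deg K q (1 + 1) := Deg.mul Deg.id Deg.frob
      exact Submodule.add_mem _ (Deg.const _ 2) (Submodule.smul_mem _ (-(x ^ q)) h11)
    have g2 : (fun a : K => Ev q (1 + x * a ^ q * t) (t + a) l * m (N q x a l)) ∈
        Deg K q (q - 3 + (q - 3)) :=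
      Deg.mul (f := fun a : K => Ev q (1 + x * a ^ q * t) (t + a) l)
        (g := fun a : K => m (N q x a l)) (deg_Ev x t l) (deg_linQ_pow F x (q - 3) m hm l)
    have g3 := Deg.mul g1 g2
    exact Deg.sum_zero F (by omega) g3
  have e : (fun l : K × K => ∑ a : K, ((1 - x ^ q * a ^ (q + 1)) / (1 - x * a ^ (q + 1)) ^ 2) *
      (Ev q 1 t (N q x a l) * m (N q x a l))) =
      ∑ a : K, ((1 - x ^ q * a ^ (q + 1)) / (1 - x * a ^ (q + 1)) ^ 2) •
        ((fun l : K × K => Ev q 1 t (N q x a l)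
          - (1 - x * a ^ (q + 1)) ^ 2 * Ev q (1 + x * a ^ q * t) (t + a) l) *
          (fun l : K × K => m (N q x a l))) := by
    funext l
    rw [Finset.sum_apply]
    rw [← sub_zero (∑ a : K, ((1 - x ^ q * a ^ (q + 1)) / (1 - x * a ^ (q + 1)) ^ 2) *
      (Ev q 1 t (N q x a l) * m (N q x a l))), ← hz l, ← Finset.sum_sub_distrib]
    apply Finset.sum_congr rfl
    intro a _
    simp only [Pi.smul_apply, Pi.mul_apply, smul_eq_mul]
    have hD := hx a
    revert hD
    generalize 1 - x * a ^ (q + 1) = D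
    generalize Ev q 1 t (N q x a l) = A
    generalize Ev q (1 + x * a ^ q * t) (t + a) l = B
    generalize m (N q x a l) = C
    generalize 1 - x ^ q * a ^ (q + 1) = E
    intro hD
    field_simp
  rw [e]
  apply Submodule.sum_mem
  intro a _
  apply Submodule.smul_mem
  have h1 := Ev_sub F x a t
  have h2 : (fun l : K × K => m (N q x a l)) ∈ LinQ K q ^ (q - 3) :=
    pow_comp _ (fun f hf => LinQ.comp F hf _ _ _ _) _ m hm
  have h4 := Submodule.mul_mem_mul h1 h2
  unfold U at h4 ⊢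
  rw [mul_assoc, ← pow_add] at h4
  have e5 : 1 + (q - 3) = q - 2 := by omega
  rw [e5] at h4
  exact h4

end adjoint

section pairing

variable (q) in
/-- homogeneous of degree `s` (also for the scalar `0`) -/
def Hom (s : ℕ) (φ : K × K → K) : Prop := ∀ (c : K) (l : K × K), φ (c * l.1, c * l.2) = c ^ s * φ l

/-- the operator `T μ` -/
def T (q : ℕ) (x : K) (μ : K → K) (φ : K × K → K) (l : K × K) : K :=
  ∑ a : K, μ (a ^ (q + 1)) * φ (l.1 + x * a ^ q * l.2, l.2 + a * l.1)

theorem T_hom (x : K) (μ : K → K) {s : ℕ} {φ : K × K → K} (h : Hom s φ) : Hom s (T q x μ φ) := by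
  intro c l
  unfold T
  rw [mul_sum]
  apply Finset.sum_congr rfl
  intro a _
  have := h c (l.1 + x * a ^ q * l.2, l.2 + a * l.1)
  simp only at this
  have e : (c * l.1 + x * a ^ q * (c * l.2), c * l.2 + a * (c * l.1)) =
      (c * (l.1 + x * a ^ q * l.2), c * (l.2 + a * l.1)) := by
    ext <;> simp <;> ring
  simp only
  rw [e, this]
  ring

/-- change of variables -/
theorem pair_T (x : K) (hx : ∀ a : K, 1 - x * a ^ (q + 1) ≠ 0) (μ : K → K)
    (φ ψ : K × K → K) {s : ℕ} (hψ : Hom s ψ) :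
    ∑ l : K × K, T q x μ φ l * ψ l = ∑ l : K × K, φ l *
      ∑ a : K, (μ (a ^ (q + 1)) / (1 - x * a ^ (q + 1)) ^ s) * ψ (N q x a l) := by
  unfold T
  simp only [Finset.sum_mul, Finset.mul_sum]
  rw [Finset.sum_comm]
  conv_rhs => rw [Finset.sum_comm]
  apply Finset.sum_congr rfl
  intro a _
  have hD := hx a
  -- equivalence of K × K
  let e : K × K ≃ K × K :=
    { toFun := fun l => (l.1 + x * a ^ q * l.2, l.2 + a * l.1)
      invFun := fun l => ((1 - x * a ^ (q + 1))⁻¹ * (N q x a l).1, (1 - x * a ^ (q + 1))⁻¹ * (N q x a l).2)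
      left_inv := by
        intro l
        ext
        · simp only [N, sub]
          rw [inv_mul_eq_iff_eq_mul₀ hD, pow_succ]; ring
        · simp only [N, sub]
          rw [inv_mul_eq_iff_eq_mul₀ hD, pow_succ]; ring
      right_inv := by
        intro l
        ext
        · simp only [N, sub]
          have : (1 - x * a ^ (q + 1))⁻¹ * (1 * l.1 + -(x * a ^ q) * l.2) +
              x * a ^ q * ((1 - x * a ^ (q + 1))⁻¹ * (-a * l.1 + 1 * l.2)) =
              (1 - x * a ^ (q + 1))⁻¹ * ((1 - x * a ^ (q + 1)) * l.1) := by rw [pow_succ]; ring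
          rw [this, inv_mul_cancel_left₀ hD]
        · simp only [N, sub]
          have : (1 - x * a ^ (q + 1))⁻¹ * (-a * l.1 + 1 * l.2) +
              a * ((1 - x * a ^ (q + 1))⁻¹ * (1 * l.1 + -(x * a ^ q) * l.2)) =
              (1 - x * a ^ (q + 1))⁻¹ * ((1 - x * a ^ (q + 1)) * l.2) := by rw [pow_succ]; ring
          rw [this, inv_mul_cancel_left₀ hD] }
  rw [← Equiv.sum_comp e.symm]
  apply Finset.sum_congr rfl
  intro l _
  have h1 : (((e.symm l).1 + x * a ^ q * (e.symm l).2, (e.symm l).2 + a * (e.symm l).1) : K × K) = l :=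
    e.apply_symm_apply l
  rw [h1]
  have h2 : ψ (e.symm l) = ((1 - x * a ^ (q + 1))⁻¹) ^ s * ψ (N q x a l) := hψ _ _
  rw [h2, inv_pow]
  field_simp

end pairing

section dual

theorem card_geom (z y : K) : (z - y) ^ (Fintype.card K - 1) =
    ∑ i ∈ range (Fintype.card K), z ^ i * y ^ (Fintype.card K - 1 - i) := by
  have hc : 1 < Fintype.card K := Fintype.one_lt_card
  by_cases h : z = y
  · subst h
    rw [sub_self, zero_pow (by omega)]
    rw [Finset.sum_congr rfl (g := fun _ => z ^ (Fintype.card K - 1))]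
    · rw [sum_const, card_range, nsmul_eq_mul, FiniteField.cast_card_eq_zero, zero_mul]
    · intro k hk
      rw [mem_range] at hk
      rw [← pow_add]; congr 1; omega
  · have h0 : z - y ≠ 0 := sub_ne_zero.2 h
    apply mul_right_cancel₀ h0
    rw [← pow_succ, Nat.sub_add_cancel (by omega), FiniteField.pow_card]
    have := (Commute.all z y).geom_sum₂_mul (Fintype.card K)
    rw [FiniteField.pow_card, FiniteField.pow_card] at this
    exact this.symm

/-- interpolation: coefficients of a function on `K` -/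
theorem interp (g : K → K) (z : K) : g z = ∑ i ∈ range (Fintype.card K),
    (-(∑ y : K, g y * y ^ (Fintype.card K - 1 - i)) + if i = 0 then ∑ y : K, g y else 0) * z ^ i := by
  have hc : 1 < Fintype.card K := Fintype.one_lt_card
  have h1 : g z = ∑ y : K, g y * (1 - (z - y) ^ (Fintype.card K - 1)) := by
    rw [Finset.sum_eq_single z]
    · rw [sub_self, zero_pow (by omega)]; ring
    · intro y _ hy
      rw [FiniteField.pow_card_sub_one_eq_one _ (sub_ne_zero.2 hy.symm)]; ring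
    · intro h; exact absurd (mem_univ z) h
  rw [h1]
  have h2 : ∀ y : K, g y * (1 - (z - y) ^ (Fintype.card K - 1)) =
      g y - ∑ i ∈ range (Fintype.card K), g y * y ^ (Fintype.card K - 1 - i) * z ^ i := by
    intro y
    rw [card_geom, mul_sub, mul_one, mul_sum]
    congr 1
    apply Finset.sum_congr rfl
    intro i _
    ring
  simp only [h2]
  rw [Finset.sum_sub_distrib, Finset.sum_comm]
  simp only [add_mul, Finset.sum_add_distrib, neg_mul, Finset.sum_neg_distrib, Finset.sum_mul]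
  rw [add_comm, ← sub_eq_add_neg]
  have h5 : ∑ i ∈ range (Fintype.card K), (if i = 0 then ∑ y : K, g y else 0) * z ^ i =
      ∑ y : K, g y := by
    rw [Finset.sum_eq_single 0]
    · simp
    · intro i _ hi
      rw [if_neg hi, zero_mul]
    · intro h; exact absurd (mem_range.2 (by omega)) h
  rw [h5]

theorem pair_mono {s s' : ℕ} (hs : s + s' = Fintype.card K - 1) {φ : K × K → K}
    (hφ : Hom s φ) {j : ℕ} (hj : j ≤ s') :
    ∑ l : K × K, φ l * (l.1 ^ (s' - j) * l.2 ^ j) =
      -(∑ z : K, φ (1, z) * z ^ j) - (if j = s' then φ (0, 1) else 0) := by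
  have hc : 1 < Fintype.card K := Fintype.one_lt_card
  rw [Fintype.sum_prod_type]
  have hne : ∀ a : K, a ≠ 0 → ∑ b : K, φ (a, b) * (a ^ (s' - j) * b ^ j) =
      ∑ z : K, φ (1, z) * z ^ j := by
    intro a ha
    rw [← Equiv.sum_comp (Equiv.mulLeft₀ a ha)]
    apply Finset.sum_congr rfl
    intro z _
    have h1 := hφ a (1, z)
    simp only [mul_one] at h1
    show φ (a, a * z) * (a ^ (s' - j) * (a * z) ^ j) = _
    rw [h1, mul_pow]
    have h2 : a ^ s * (a ^ (s' - j) * a ^ j) = 1 := by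
      rw [← pow_add, ← pow_add, show s + (s' - j + j) = Fintype.card K - 1 by omega]
      exact FiniteField.pow_card_sub_one_eq_one a ha
    calc a ^ s * φ (1, z) * (a ^ (s' - j) * (a ^ j * z ^ j))
        = (a ^ s * (a ^ (s' - j) * a ^ j)) * (φ (1, z) * z ^ j) := by ring
      _ = _ := by rw [h2, one_mul]
  have h0 : ∑ b : K, φ (0, b) * ((0 : K) ^ (s' - j) * b ^ j) =
      -(if j = s' then φ (0, 1) else 0) := by
    by_cases hjs : j = s'
    · subst hjs
      rw [if_pos rfl, Nat.sub_self, pow_zero]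
      have h1 : ∀ b : K, φ (0, b) * (1 * b ^ j) = φ (0, 1) * b ^ (Fintype.card K - 1) := by
        intro b
        have h2 := hφ b (0, 1)
        simp only [mul_zero, mul_one] at h2
        rw [h2, ← hs, pow_add]; ring
      simp only [h1]
      rw [← Finset.mul_sum, sum_pow_card_sub_one]; ring
    · rw [if_neg hjs, neg_zero]
      apply Finset.sum_eq_zero
      intro b _
      rw [zero_pow (by omega)]; ring
  rw [← Finset.add_sum_erase univ _ (mem_univ (0 : K))]
  simp only
  rw [h0, Finset.sum_congr rfl (g := fun _ => ∑ z : K, φ (1, z) * z ^ j)]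
  · rw [Finset.sum_const, Finset.card_erase_of_mem (mem_univ _), Finset.card_univ, nsmul_eq_mul,
      Nat.cast_sub (by omega), FiniteField.cast_card_eq_zero]
    push_cast; ring
  · intro a ha
    exact hne a (Finset.ne_of_mem_erase ha)

/-- a homogeneous function orthogonal to all forms of the complementary degree is a form -/
theorem dual {s s' : ℕ} (hs : s + s' = Fintype.card K - 1) (hs0 : 0 < s) {φ : K × K → K}
    (hφ : Hom s φ) (h : ∀ j ≤ s', ∑ l : K × K, φ l * (l.1 ^ (s' - j) * l.2 ^ j) = 0) :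
    ∃ c : ℕ → K, ∀ l, φ l = ∑ i ∈ range (s + 1), c i * (l.1 ^ (s - i) * l.2 ^ i) := by
  have hc : 1 < Fintype.card K := Fintype.one_lt_card
  set c : ℕ → K := fun i => (-(∑ y : K, φ (1, y) * y ^ (Fintype.card K - 1 - i)) +
    if i = 0 then ∑ y : K, φ (1, y) else 0) with hcdef
  have hj : ∀ j ≤ s', -(∑ z : K, φ (1, z) * z ^ j) - (if j = s' then φ (0, 1) else 0) = 0 := by
    intro j hj
    rw [← pair_mono hs hφ hj]; exact h j hj
  have hcs : c s = φ (0, 1) := by
    have h1 := hj s' le_rfl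
    rw [if_pos rfl] at h1
    simp only [hcdef]
    rw [if_neg (by omega), show Fintype.card K - 1 - s = s' by omega]
    linear_combination h1
  have hcz : ∀ i, s < i → i < Fintype.card K → c i = 0 := by
    intro i hi hi2
    have h1 := hj (Fintype.card K - 1 - i) (by omega)
    rw [if_neg (by omega)] at h1
    simp only [hcdef]
    rw [if_neg (by omega)]
    linear_combination h1
  have h1z : ∀ z : K, φ (1, z) = ∑ i ∈ range (s + 1), c i * z ^ i := by
    intro z
    rw [interp (fun z => φ (1, z)) z]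
    symm
    apply Finset.sum_subset
    · intro i hi
      rw [mem_range] at hi ⊢; omega
    · intro i hi hi2
      rw [mem_range] at hi hi2
      have := hcz i (by omega) hi
      rw [this, zero_mul]
  refine ⟨c, ?_⟩
  rintro ⟨a, b⟩
  by_cases ha : a = 0
  · subst ha
    have h2 := hφ b (0, 1)
    simp only [mul_zero, mul_one] at h2
    rw [h2, Finset.sum_eq_single s]
    · rw [Nat.sub_self, hcs]; ring
    · intro i hi hi2
      rw [mem_range] at hi
      simp only
      rw [zero_pow (by omega)]; ring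
    · intro hh; exact absurd (mem_range.2 (by omega)) hh
  · have h2 := hφ a (1, b / a)
    simp only [mul_one, mul_div_cancel₀ _ ha] at h2
    rw [h2, h1z, mul_sum]
    apply Finset.sum_congr rfl
    intro i hi
    rw [mem_range] at hi
    simp only
    have : a ^ s = a ^ (s - i) * a ^ i := by rw [← pow_add]; congr 1; omega
    rw [this, div_pow]
    field_simp

end dual

section main

theorem Hom.mul {s t : ℕ} {f g : K × K → K} (hf : Hom s f) (hg : Hom t g) :
    Hom (s + t) (fun l => f l * g l) := by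
  intro c l
  simp only
  rw [hf c l, hg c l, pow_add]; ring

theorem Hom.add {s : ℕ} {f g : K × K → K} (hf : Hom s f) (hg : Hom s g) : Hom s (f + g) := by
  intro c l
  simp only [Pi.add_apply]
  rw [hf c l, hg c l]; ring

theorem lin_hom {f : K × K → K} (hf : f ∈ Lin K) : Hom 1 f := by
  obtain ⟨a, b, rfl⟩ := Lin.cases hf
  intro c l
  simp only; ring

theorem linQ_hom {f : K × K → K} (hf : f ∈ LinQ K q) : Hom q f := by
  obtain ⟨a, b, rfl⟩ := LinQ.cases hf
  intro c l
  simp only [mul_pow]; ring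

theorem linQ_pow_hom (n : ℕ) : ∀ f ∈ LinQ K q ^ n, Hom (q * n) f := by
  induction n with
  | zero =>
    intro f hf
    rw [pow_zero, Submodule.mem_one] at hf
    obtain ⟨y, rfl⟩ := hf
    intro c l
    simp
  | succ n ih =>
    intro f hf
    rw [pow_succ] at hf
    induction hf using Submodule.mul_induction_on' with
    | mem_mul_mem m hm k hk => exact Hom.mul (ih m hm) (linQ_hom hk)
    | add a _ b _ h1 h2 => exact Hom.add h1 h2

theorem U_hom (n : ℕ) {f : K × K → K} (hf : f ∈ U K q n) : Hom (1 + q * n) f := by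
  unfold U at hf
  induction hf using Submodule.mul_induction_on' with
  | mem_mul_mem m hm k hk => exact Hom.mul (lin_hom hm) (linQ_pow_hom n k hk)
  | add a _ b _ h1 h2 => exact Hom.add h1 h2

theorem Ev_hom (F : Frob K q) (v0 v1 : K) : Hom (q + 1) (Ev q v0 v1) := by
  intro c l
  unfold Ev
  rw [mul_sum]
  apply Finset.sum_congr rfl
  intro k hk
  rw [mem_range] at hk
  have h3 := F.three
  simp only [mul_pow]
  have : c ^ (q + 1) = c ^ (k + 2) * c ^ (q - 1 - k) := by rw [← pow_add]; congr 1; omega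
  rw [this]; ring

/-- the two weights -/
def mu1 (q : ℕ) (x u : K) : K := 1 / (1 - x ^ q * u)
def mu2 (q : ℕ) (x u : K) : K := ((1 - x * u) / (1 - x ^ q * u)) ^ 2

variable {x : K}

theorem norm_q (F : Frob K q) (a : K) : (a ^ (q + 1)) ^ q = a ^ (q + 1) := by
  rw [pow_succ, mul_pow, F.sq, mul_comm]

theorem D_q (F : Frob K q) (a : K) : (1 - x * a ^ (q + 1)) ^ q = 1 - x ^ q * a ^ (q + 1) := by
  rw [F.sub, one_pow, mul_pow, norm_q F]

theorem D'_q (F : Frob K q) (a : K) : (1 - x ^ q * a ^ (q + 1)) ^ q = 1 - x * a ^ (q + 1) := by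
  rw [F.sub, one_pow, mul_pow, norm_q F, F.sq]

theorem D_ne (F : Frob K q) (hx : x ^ q ≠ x) (a : K) : 1 - x * a ^ (q + 1) ≠ 0 := by
  intro h
  have h0 : a ^ (q + 1) ≠ 0 := by
    intro h0; rw [h0] at h; simp at h
  have h1 := D_q (x := x) F a
  rw [h, zero_pow (by have := F.three; omega)] at h1
  have h2 : x ^ q * a ^ (q + 1) = x * a ^ (q + 1) := by linear_combination h + h1
  exact hx (mul_right_cancel₀ h0 h2)

theorem D'_ne (F : Frob K q) (hx : x ^ q ≠ x) (a : K) : 1 - x ^ q * a ^ (q + 1) ≠ 0 := by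
  rw [← D_q F]
  exact pow_ne_zero _ (D_ne F hx a)

theorem D_pow (F : Frob K q) (hx : x ^ q ≠ x) (a : K) :
    (1 - x * a ^ (q + 1)) ^ ((q - 1) ^ 2) =
      ((1 - x * a ^ (q + 1)) / (1 - x ^ q * a ^ (q + 1))) ^ 2 := by
  have h3 := F.three
  have hD := D_ne F hx a
  have hD' := D'_ne F hx a
  have e1 : (1 - x * a ^ (q + 1)) ^ (q - 1) =
      (1 - x ^ q * a ^ (q + 1)) / (1 - x * a ^ (q + 1)) := by
    rw [eq_div_iff hD, ← pow_succ, Nat.sub_add_cancel (by omega), D_q F]
  have e2 : (1 - x ^ q * a ^ (q + 1)) ^ (q - 1) =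
      (1 - x * a ^ (q + 1)) / (1 - x ^ q * a ^ (q + 1)) := by
    rw [eq_div_iff hD', ← pow_succ, Nat.sub_add_cancel (by omega), D'_q F]
  rw [pow_two (q - 1), pow_mul, e1, div_pow, e2, e1]
  field_simp

theorem k1 (F : Frob K q) (hx : x ^ q ≠ x) (a : K) :
    mu1 q x (a ^ (q + 1)) / (1 - x * a ^ (q + 1)) ^ ((q - 1) ^ 2) =
      (1 - x ^ q * a ^ (q + 1)) / (1 - x * a ^ (q + 1)) ^ 2 := by
  rw [D_pow F hx, mu1]
  have hD := D_ne F hx a
  have hD' := D'_ne F hx a
  field_simp

theorem k2 (F : Frob K q) (hx : x ^ q ≠ x) (a : K) :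
    mu2 q x (a ^ (q + 1)) / (1 - x * a ^ (q + 1)) ^ ((q - 1) ^ 2) = 1 := by
  rw [D_pow F hx, mu2]
  exact div_self (pow_ne_zero _ (div_ne_zero (D_ne F hx a) (D'_ne F hx a)))

/-- `T μ2 φ` is orthogonal to `U` -/
theorem pair_U (F : Frob K q) (hx : x ^ q ≠ x) (φ : K × K → K) {θ : K × K → K}
    (hθ : θ ∈ U K q (q - 2)) : ∑ l : K × K, T q x (mu2 q x) φ l * θ l = 0 := by
  have h3 := F.three
  have hh : Hom ((q - 1) ^ 2) θ := by
    have := U_hom _ hθ
    have e : 1 + q * (q - 2) = (q - 1) ^ 2 := by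
      obtain ⟨r, rfl⟩ : ∃ r, q = r + 2 := ⟨q - 2, by omega⟩
      simp only [Nat.add_sub_cancel, show r + 2 - 1 = r + 1 by omega]
      ring
    rwa [e] at this
  rw [pair_T x (D_ne F hx) (mu2 q x) φ θ hh]
  apply Finset.sum_eq_zero
  intro l _
  have : ∑ a : K, (mu2 q x (a ^ (q + 1)) / (1 - x * a ^ (q + 1)) ^ ((q - 1) ^ 2)) * θ (N q x a l)
      = ∑ a : K, θ (N q x a l) := by
    apply Finset.sum_congr rfl
    intro a _
    rw [k2 F hx, one_mul]
  rw [this, sum_U_eq_zero F x hθ l, mul_zero]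

/-- pairing of `T μ1 (T μ2 φ)` with `ψ` whose adjoint image is in `U` -/
theorem pair_12 (F : Frob K q) (hx : x ^ q ≠ x) (φ : K × K → K) {ψ : K × K → K}
    (hψ : Hom ((q - 1) ^ 2) ψ)
    (hU : (fun l : K × K => ∑ a : K, ((1 - x ^ q * a ^ (q + 1)) / (1 - x * a ^ (q + 1)) ^ 2) *
      ψ (N q x a l)) ∈ U K q (q - 2)) :
    ∑ l : K × K, T q x (mu1 q x) (T q x (mu2 q x) φ) l * ψ l = 0 := by
  rw [pair_T x (D_ne F hx) (mu1 q x) _ ψ hψ]
  simp only [k1 F hx]
  exact pair_U F hx φ hU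

theorem pair_12_U (F : Frob K q) (hx : x ^ q ≠ x) (φ : K × K → K) {ψ : K × K → K}
    (hψ : ψ ∈ U K q (q - 2)) :
    ∑ l : K × K, T q x (mu1 q x) (T q x (mu2 q x) φ) l * ψ l = 0 := by
  have h3 := F.three
  apply pair_12 F hx
  · have := U_hom _ hψ
    have e : 1 + q * (q - 2) = (q - 1) ^ 2 := by
      obtain ⟨r, rfl⟩ : ∃ r, q = r + 2 := ⟨q - 2, by omega⟩
      simp only [Nat.add_sub_cancel, show r + 2 - 1 = r + 1 by omega]
      ring
    rwa [e] at this
  · have e : (fun l : K × K => ∑ a : K, ((1 - x ^ q * a ^ (q + 1)) / (1 - x * a ^ (q + 1)) ^ 2) *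
        ψ (N q x a l)) = ∑ a : K, ((1 - x ^ q * a ^ (q + 1)) / (1 - x * a ^ (q + 1)) ^ 2) •
        (fun l : K × K => ψ (N q x a l)) := by
      funext l
      rw [Finset.sum_apply]
      rfl
    rw [e]
    apply Submodule.sum_mem
    intro a _
    exact Submodule.smul_mem _ _ (U.comp F hψ _ _ _ _)

theorem pair_12_Ev (F : Frob K q) (hx : x ^ q ≠ x) (φ : K × K → K) (t : K) {m : K × K → K}
    (hm : m ∈ LinQ K q ^ (q - 3)) :
    ∑ l : K × K, T q x (mu1 q x) (T q x (mu2 q x) φ) l * (Ev q 1 t l * m l) = 0 := by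
  have h3 := F.three
  apply pair_12 F hx
  · have := Hom.mul (Ev_hom F 1 t) (linQ_pow_hom _ m hm)
    have e : q + 1 + q * (q - 3) = (q - 1) ^ 2 := by
      obtain ⟨r, rfl⟩ : ∃ r, q = r + 3 := ⟨q - 3, by omega⟩
      simp only [Nat.add_sub_cancel, show r + 3 - 1 = r + 2 by omega]
      ring
    rwa [e] at this
  · exact adj_Ev_mem F x (D_ne F hx) t hm

theorem Ev_coeff (F : Frob K q) {k : ℕ} (hk : k ≤ q - 3) (l : K × K) :
    l.1 ^ (k + 2) * l.2 ^ (q - 1 - k) =
      -∑ t : K, t ^ (Fintype.card K - 1 - k) * Ev q 1 t l := by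
  have h3 := F.three
  have hq : q < Fintype.card K := by rw [F.card]; nlinarith
  unfold Ev
  simp only [mul_sum]
  rw [Finset.sum_comm, Finset.sum_eq_single k]
  · have : ∀ t : K, t ^ (Fintype.card K - 1 - k) * (1 ^ (q - 3 - k) * t ^ k *
        (l.1 ^ (k + 2) * l.2 ^ (q - 1 - k))) =
        t ^ (Fintype.card K - 1) * (l.1 ^ (k + 2) * l.2 ^ (q - 1 - k)) := by
      intro t
      have : t ^ (Fintype.card K - 1) = t ^ (Fintype.card K - 1 - k) * t ^ k := by
        rw [← pow_add]; congr 1; omega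
      rw [this, one_pow]; ring
    simp only [this]
    rw [← Finset.sum_mul, sum_pow_card_sub_one]; ring
  · intro k' hk' hne
    rw [mem_range] at hk'
    have : ∀ t : K, t ^ (Fintype.card K - 1 - k) * (1 ^ (q - 3 - k') * t ^ k' *
        (l.1 ^ (k' + 2) * l.2 ^ (q - 1 - k'))) =
        t ^ (Fintype.card K - 1 - k + k') * (l.1 ^ (k' + 2) * l.2 ^ (q - 1 - k')) := by
      intro t
      rw [pow_add, one_pow]; ring
    simp only [this]
    rw [← Finset.sum_mul, sum_pow_eq_zero, zero_mul]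
    intro hd
    obtain ⟨c, hc⟩ := hd
    rcases Nat.lt_or_ge c 1 with h | h
    · have : c = 0 := by omega
      subst this; omega
    · rcases Nat.lt_or_ge c 2 with h2 | h2
      · have : c = 1 := by omega
        subst this; omega
      · have : (Fintype.card K - 1) * 2 ≤ (Fintype.card K - 1) * c := Nat.mul_le_mul_left _ h2
        omega
  · intro h; exact absurd (mem_range.2 (by omega)) h

/-- digits of a pair `a + b = (q-1)^2` -/
theorem digits (hq : 3 ≤ q) {a b : ℕ} (hab : a + b = (q - 1) ^ 2) :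
    (a / q + b / q = q - 2 ∧ a % q + b % q = 1) ∨
    (a / q + b / q = q - 3 ∧ a % q + b % q = q + 1) := by
  have ha := Nat.div_add_mod a q
  have hb := Nat.div_add_mod b q
  have ha2 := Nat.mod_lt a (show 0 < q by omega)
  have hb2 := Nat.mod_lt b (show 0 < q by omega)
  generalize a / q = A at *
  generalize b / q = B at *
  generalize a % q = r at *
  generalize b % q = s at *
  obtain ⟨n, rfl⟩ : ∃ n, q = n + 3 := ⟨q - 3, by omega⟩
  have e : (n + 3 - 1) ^ 2 = (n + 3) * (n + 1) + 1 := by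
    rw [show n + 3 - 1 = n + 2 by omega]; ring
  rw [e] at hab
  have h1 : (n + 3) * (A + B) + (r + s) = (n + 3) * (n + 1) + 1 := by
    rw [← hab, ← ha, ← hb]; ring
  have h2 : A + B ≤ n + 1 := by
    by_contra hc
    have : (n + 3) * (n + 2) ≤ (n + 3) * (A + B) := Nat.mul_le_mul_left _ (by omega)
    have e2 : (n + 3) * (n + 2) = (n + 3) * (n + 1) + (n + 3) := by ring
    omega
  have h3 : n ≤ A + B := by
    by_contra hc
    have h4 : (n + 3) * (A + B + 1) ≤ (n + 3) * n := Nat.mul_le_mul_left _ (by omega)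
    have e2 : (n + 3) * (A + B + 1) = (n + 3) * (A + B) + (n + 3) := by ring
    have e3 : (n + 3) * (n + 1) = (n + 3) * n + (n + 3) := by ring
    omega
  have e4 : (n + 3) * (n + 1) = (n + 3) * n + (n + 3) := by ring
  rcases Nat.lt_or_ge (A + B) (n + 1) with h | h
  · right
    have : A + B = n := by omega
    rw [this] at h1
    constructor
    · omega
    · omega
  · left
    have : A + B = n + 1 := by omega
    rw [this] at h1
    constructor
    · omega
    · omega

/-- **the base statement**: `T μ1 ∘ T μ2` maps homogeneous functions of degree `2(q-1)` to forms -/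
theorem base_range (F : Frob K q) (hx : x ^ q ≠ x) {φ : K × K → K} (hφ : Hom (2 * (q - 1)) φ) :
    ∃ c : ℕ → K, ∀ l, T q x (mu1 q x) (T q x (mu2 q x) φ) l =
      ∑ i ∈ range (2 * (q - 1) + 1), c i * (l.1 ^ (2 * (q - 1) - i) * l.2 ^ i) := by
  have h3 := F.three
  have hs : 2 * (q - 1) + (q - 1) ^ 2 = Fintype.card K - 1 := by
    rw [F.card]
    obtain ⟨r, rfl⟩ : ∃ r, q = r + 1 := ⟨q - 1, by omega⟩
    have : (r + 1) ^ 2 = 2 * r + r ^ 2 + 1 := by ring
    simp only [Nat.add_sub_cancel]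
    omega
  apply dual hs (by omega) (T_hom x _ (T_hom x _ hφ))
  intro j hj
  rcases digits (q := q) h3 (a := (q - 1) ^ 2 - j) (b := j) (by omega) with ⟨h1, h2⟩ | ⟨h1, h2⟩
  · -- in U
    apply pair_12_U F hx
    set a := (q - 1) ^ 2 - j with hadef
    have hm := mono_linQ (K := K) (q := q) (a / q) (j / q)
    rw [h1] at hm
    have e : (fun l : K × K => l.1 ^ a * l.2 ^ j) =
        (fun l : K × K => (l.1 ^ (a % q) * l.2 ^ (j % q))) *
        (fun l : K × K => (l.1 ^ (a / q) * l.2 ^ (j / q)) ^ q) := by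
      funext l
      simp only [Pi.mul_apply]
      conv_lhs => rw [← Nat.div_add_mod a q, ← Nat.div_add_mod j q]
      rw [pow_add, pow_add, mul_pow, ← pow_mul, ← pow_mul, mul_comm (a / q) q, mul_comm (j / q) q]
      ring
    rw [e]
    unfold U
    refine Submodule.mul_mem_mul ?_ hm
    rcases Nat.eq_zero_or_pos (a % q) with h0 | h0
    · have h4 : j % q = 1 := by omega
      rw [h0, h4]
      convert snd_lin (K := K) using 1
      funext l; simp
    · have h5 : a % q = 1 := by omega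
      have h4 : j % q = 0 := by omega
      rw [h5, h4]
      convert fst_lin (K := K) using 1
      funext l; simp
  · -- type 2
    set a := (q - 1) ^ 2 - j with hadef
    have hj2 := Nat.mod_lt j (show 0 < q by omega)
    have ha2 := Nat.mod_lt a (show 0 < q by omega)
    obtain ⟨k, hk⟩ : ∃ k, a % q = k + 2 := ⟨a % q - 2, by omega⟩
    have hk2 : k ≤ q - 3 := by omega
    have hj3 : j % q = q - 1 - k := by omega
    have hm := mono_linQ (K := K) (q := q) (a / q) (j / q)
    rw [h1] at hm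
    have e : ∀ l : K × K, l.1 ^ a * l.2 ^ j = -∑ t : K, t ^ (Fintype.card K - 1 - k) *
        (Ev q 1 t l * (l.1 ^ (a / q) * l.2 ^ (j / q)) ^ q) := by
      intro l
      have h5 := Ev_coeff F hk2 l
      conv_lhs => rw [← Nat.div_add_mod a q, ← Nat.div_add_mod j q]
      rw [hk, hj3]
      have e6 : l.1 ^ (q * (a / q) + (k + 2)) * l.2 ^ (q * (j / q) + (q - 1 - k)) =
          (l.1 ^ (k + 2) * l.2 ^ (q - 1 - k)) * (l.1 ^ (a / q) * l.2 ^ (j / q)) ^ q := by
        rw [pow_add, pow_add, mul_pow, ← pow_mul, ← pow_mul, mul_comm (a / q) q, mul_comm (j / q) q]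
        ring
      rw [e6, h5, neg_mul, Finset.sum_mul]
      congr 1
      apply Finset.sum_congr rfl
      intro t _
      ring
    simp only [e]
    simp only [mul_neg, Finset.sum_neg_distrib, Finset.mul_sum]
    rw [Finset.sum_comm, neg_eq_zero]
    apply Finset.sum_eq_zero
    intro t _
    have h6 := pair_12_Ev F hx φ t hm
    have e7 : ∀ l : K × K, T q x (mu1 q x) (T q x (mu2 q x) φ) l * (t ^ (Fintype.card K - 1 - k) *
        (Ev q 1 t l * (l.1 ^ (a / q) * l.2 ^ (j / q)) ^ q)) = t ^ (Fintype.card K - 1 - k) *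
        (T q x (mu1 q x) (T q x (mu2 q x) φ) l *
        (Ev q 1 t l * (l.1 ^ (a / q) * l.2 ^ (j / q)) ^ q)) := by
      intro l; ring
    simp only [e7]
    rw [← Finset.mul_sum, h6, mul_zero]

end main

section eigen

theorem exists_zeta (F : Frob K q) {m : ℕ} (hm : ¬ (q + 1) ∣ m) :
    ∃ ζ : K, ζ ≠ 0 ∧ ζ ^ (q + 1) = 1 ∧ ζ ^ m ≠ 1 := by
  have h3 := F.three
  obtain ⟨g, hg⟩ := IsCyclic.exists_generator (α := Kˣ)
  have ho : orderOf g = Fintype.card K - 1 := by
    rw [orderOf_eq_card_of_forall_mem_zpowers hg, Nat.card_eq_fintype_card, Fintype.card_units]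
  have hcard : Fintype.card K - 1 = (q - 1) * (q + 1) := by
    rw [F.card]
    obtain ⟨r, rfl⟩ : ∃ r, q = r + 1 := ⟨q - 1, by omega⟩
    have : (r + 1) ^ 2 = r * (r + 1 + 1) + 1 := by ring
    simp only [Nat.add_sub_cancel]
    omega
  refine ⟨((g ^ (q - 1) : Kˣ) : K), Units.ne_zero _, ?_, ?_⟩
  · rw [← Units.val_pow_eq_pow_val, ← pow_mul, ← hcard, ← ho, pow_orderOf_eq_one, Units.val_one]
  · intro h
    rw [← Units.val_pow_eq_pow_val, ← pow_mul, Units.val_eq_one] at h
    have h2 := orderOf_dvd_of_pow_eq_one h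
    rw [ho, hcard] at h2
    exact hm (Nat.dvd_of_mul_dvd_mul_left (by omega) h2)

theorem orth (F : Frob K q) (μ : K → K) {m n : ℕ} (hm : m < q) (hn : n < q) (hmn : m ≠ n) :
    ∑ a : K, μ (a ^ (q + 1)) * ((a ^ q) ^ m * a ^ n) = 0 := by
  have h3 := F.three
  have hd : ¬ (q + 1) ∣ (q * m + n) := by
    intro hd
    rcases Nat.lt_or_ge m n with h | h
    · have e : q * m + n = (q + 1) * m + (n - m) := by
        have : (q + 1) * m = q * m + m := by ring
        omega
      rw [e] at hd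
      have := (Nat.dvd_add_right (dvd_mul_right _ _)).1 hd
      have := Nat.le_of_dvd (by omega) this
      omega
    · have e : (q + 1) * m = (q * m + n) + (m - n) := by
        have : (q + 1) * m = q * m + m := by ring
        omega
      have h5 : (q + 1) ∣ (q * m + n) + (m - n) := by rw [← e]; exact dvd_mul_right _ _
      have := (Nat.dvd_add_right hd).1 h5
      have := Nat.le_of_dvd (by omega) this
      omega
  obtain ⟨ζ, hz, hz1, hz2⟩ := exists_zeta F hd
  have h1 : ∑ a : K, μ (a ^ (q + 1)) * ((a ^ q) ^ m * a ^ n) =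
      ζ ^ (q * m + n) * ∑ a : K, μ (a ^ (q + 1)) * ((a ^ q) ^ m * a ^ n) := by
    rw [mul_sum]
    conv_lhs => rw [← Equiv.sum_comp (Equiv.mulLeft₀ ζ hz)]
    apply Finset.sum_congr rfl
    intro a _
    show μ ((ζ * a) ^ (q + 1)) * (((ζ * a) ^ q) ^ m * (ζ * a) ^ n) = _
    have e : ζ ^ (q * m + n) = (ζ ^ q) ^ m * ζ ^ n := by rw [pow_add, pow_mul]
    rw [mul_pow, hz1, one_mul, mul_pow, mul_pow, mul_pow, e]
    generalize μ (a ^ (q + 1)) = M
    ring
  have h2 : (1 - ζ ^ (q * m + n)) * ∑ a : K, μ (a ^ (q + 1)) * ((a ^ q) ^ m * a ^ n) = 0 := by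
    rw [sub_mul, one_mul, ← h1, sub_self]
  rcases mul_eq_zero.1 h2 with h | h
  · exact absurd (sub_eq_zero.1 h).symm hz2
  · exact h

/-- the base word -/
def w0 (q : ℕ) (l : K × K) : K := (l.1 * l.2) ^ (q - 1)

variable {x : K}

theorem T_w0 (F : Frob K q) (μ : K → K) (l : K × K) :
    T q x μ (w0 q) l = (∑ a : K, μ (a ^ (q + 1)) * (1 - x * a ^ (q + 1)) ^ (q - 1)) * w0 q l := by
  have h3 := F.three
  unfold T w0
  have h1 : ∀ a : K, μ (a ^ (q + 1)) * (((l.1 + x * a ^ q * l.2) * (l.2 + a * l.1)) ^ (q - 1)) =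
      ∑ i ∈ range q, ∑ j ∈ range q, μ (a ^ (q + 1)) * ((a ^ q) ^ (q - 1 - i) * a ^ (q - 1 - j)) *
        ((-1) ^ (q - 1 - i) * (-1) ^ (q - 1 - j) * x ^ (q - 1 - i) *
          (l.1 ^ i * l.2 ^ (q - 1 - i)) * (l.2 ^ j * l.1 ^ (q - 1 - j))) := by
    intro a
    have e1 : (l.1 + x * a ^ q * l.2) ^ (q - 1) =
        ∑ i ∈ range q, l.1 ^ i * (-(x * a ^ q * l.2)) ^ (q - 1 - i) := by
      rw [← F.geom]; ring
    have e2 : (l.2 + a * l.1) ^ (q - 1) =
        ∑ j ∈ range q, l.2 ^ j * (-(a * l.1)) ^ (q - 1 - j) := by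
      rw [← F.geom]; ring
    rw [mul_pow, e1, e2, Finset.sum_mul_sum, mul_sum]
    apply Finset.sum_congr rfl
    intro i _
    rw [mul_sum]
    apply Finset.sum_congr rfl
    intro j _
    rw [neg_pow (x * a ^ q * l.2), neg_pow (a * l.1), mul_pow, mul_pow, mul_pow]
    ring
  simp only [h1]
  rw [Finset.sum_comm]
  have h2 : ∀ i ∈ range q, ∑ a : K, ∑ j ∈ range q,
      μ (a ^ (q + 1)) * ((a ^ q) ^ (q - 1 - i) * a ^ (q - 1 - j)) *
        ((-1) ^ (q - 1 - i) * (-1) ^ (q - 1 - j) * x ^ (q - 1 - i) *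
          (l.1 ^ i * l.2 ^ (q - 1 - i)) * (l.2 ^ j * l.1 ^ (q - 1 - j))) =
      ∑ a : K, μ (a ^ (q + 1)) * (x * a ^ (q + 1)) ^ (q - 1 - i) * (l.1 * l.2) ^ (q - 1) := by
    intro i hi
    rw [mem_range] at hi
    rw [Finset.sum_comm, Finset.sum_eq_single i]
    · apply Finset.sum_congr rfl
      intro a _
      have e1 : ((-1 : K)) ^ (q - 1 - i) * (-1) ^ (q - 1 - i) = 1 := by
        rw [← mul_pow]; simp
      have e2 : l.1 ^ i * l.1 ^ (q - 1 - i) = l.1 ^ (q - 1) := by
        rw [← pow_add]; congr 1; omega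
      have e3 : l.2 ^ (q - 1 - i) * l.2 ^ i = l.2 ^ (q - 1) := by
        rw [← pow_add]; congr 1; omega
      calc μ (a ^ (q + 1)) * ((a ^ q) ^ (q - 1 - i) * a ^ (q - 1 - i)) *
            ((-1) ^ (q - 1 - i) * (-1) ^ (q - 1 - i) * x ^ (q - 1 - i) *
              (l.1 ^ i * l.2 ^ (q - 1 - i)) * (l.2 ^ i * l.1 ^ (q - 1 - i)))
          = μ (a ^ (q + 1)) * ((a ^ q) ^ (q - 1 - i) * a ^ (q - 1 - i)) * x ^ (q - 1 - i) *
            (((-1) ^ (q - 1 - i) * (-1) ^ (q - 1 - i)) * (l.1 ^ i * l.1 ^ (q - 1 - i)) *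
            (l.2 ^ (q - 1 - i) * l.2 ^ i)) := by ring
        _ = μ (a ^ (q + 1)) * ((a ^ q) ^ (q - 1 - i) * a ^ (q - 1 - i)) * x ^ (q - 1 - i) *
            (l.1 ^ (q - 1) * l.2 ^ (q - 1)) := by rw [e1, e2, e3]; ring
        _ = _ := by
            rw [mul_pow x, pow_succ a q, mul_pow (a ^ q), mul_pow l.1]; ring
    · intro j hj hne
      rw [mem_range] at hj
      rw [← Finset.sum_mul, orth F μ (m := q - 1 - i) (n := q - 1 - j) (by omega) (by omega)
        (by omega), zero_mul]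
    · intro h; exact absurd (mem_range.2 hi) h
  rw [Finset.sum_congr rfl h2, Finset.sum_comm, Finset.sum_mul]
  apply Finset.sum_congr rfl
  intro a _
  rw [F.geom, Finset.mul_sum, Finset.sum_mul]
  apply Finset.sum_congr rfl
  intro i _
  rw [one_pow, one_mul]

theorem sum_D (F : Frob K q) (y : K) :
    ∑ a : K, (1 - y * a ^ (q + 1)) ^ (q - 1) = -(y ^ (q - 1)) := by
  have h3 := F.three
  have hcard : Fintype.card K - 1 = (q + 1) * (q - 1) := by
    rw [F.card]
    obtain ⟨r, rfl⟩ : ∃ r, q = r + 1 := ⟨q - 1, by omega⟩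
    have : (r + 1) ^ 2 = (r + 1 + 1) * r + 1 := by ring
    simp only [Nat.add_sub_cancel]
    omega
  have h1 : ∀ a : K, (1 - y * a ^ (q + 1)) ^ (q - 1) =
      ∑ k ∈ range q, y ^ (q - 1 - k) * a ^ ((q + 1) * (q - 1 - k)) := by
    intro a
    rw [F.geom]
    apply Finset.sum_congr rfl
    intro k _
    rw [one_pow, one_mul, mul_pow, ← pow_mul]
  simp only [h1]
  rw [Finset.sum_comm, Finset.sum_eq_single 0]
  · rw [← Finset.mul_sum, Nat.sub_zero, ← hcard, sum_pow_card_sub_one]; ring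
  · intro k hk hk0
    rw [mem_range] at hk
    rw [← Finset.mul_sum]
    rcases Nat.eq_zero_or_pos (q - 1 - k) with h | h
    · rw [h, Nat.mul_zero, sum_pow_zero, mul_zero]
    · rw [sum_pow_eq_zero, mul_zero]
      rw [hcard]
      intro hd
      have := Nat.dvd_of_mul_dvd_mul_left (by omega) hd
      have := Nat.le_of_dvd h this
      omega
  · intro h; exact absurd (mem_range.2 (by omega)) h

theorem lam1_ne (F : Frob K q) (hx : x ^ q ≠ x) :
    ∑ a : K, mu1 q x (a ^ (q + 1)) * (1 - x * a ^ (q + 1)) ^ (q - 1) ≠ 0 := by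
  have h3 := F.three
  have hx0 : x ≠ 0 := by
    rintro rfl
    exact hx (by rw [zero_pow (by omega)])
  have hpow : ∀ a : K, (1 - x * a ^ (q + 1)) ^ (q - 1) =
      (1 - x ^ q * a ^ (q + 1)) / (1 - x * a ^ (q + 1)) := by
    intro a
    rw [eq_div_iff (D_ne F hx a), ← pow_succ, Nat.sub_add_cancel (by omega), D_q F]
  -- (x - x^q) * mu1 * (1-xu)^(q-1) = x (1-xu)^(q-1) - x^q
  have h1 : ∀ a : K, (x - x ^ q) * (mu1 q x (a ^ (q + 1)) * (1 - x * a ^ (q + 1)) ^ (q - 1)) =
      x * (1 - x * a ^ (q + 1)) ^ (q - 1) - x ^ q := by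
    intro a
    rw [hpow, mu1]
    have hD := D_ne F hx a
    have hD' := D'_ne F hx a
    rw [div_mul_div_comm, one_mul, mul_div_assoc', mul_div_assoc', div_sub' hD,
      div_eq_div_iff (mul_ne_zero hD' hD) hD]
    ring
  intro h
  have h2 : (x - x ^ q) * ∑ a : K, mu1 q x (a ^ (q + 1)) * (1 - x * a ^ (q + 1)) ^ (q - 1) =
      -(x ^ q) := by
    rw [mul_sum]
    simp only [h1]
    rw [Finset.sum_sub_distrib, ← Finset.mul_sum, sum_D F, Finset.sum_const, Finset.card_univ,
      nsmul_eq_mul, FiniteField.cast_card_eq_zero]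
    have : x ^ q = x * x ^ (q - 1) := by rw [← pow_succ']; congr 1; omega
    rw [this]; ring
  rw [h, mul_zero] at h2
  exact pow_ne_zero q hx0 (neg_eq_zero.1 h2.symm)

theorem lam2_ne (F : Frob K q) (hx : x ^ q ≠ x) :
    ∑ a : K, mu2 q x (a ^ (q + 1)) * (1 - x * a ^ (q + 1)) ^ (q - 1) ≠ 0 := by
  have h3 := F.three
  have hx0 : x ≠ 0 := by
    rintro rfl
    exact hx (by rw [zero_pow (by omega)])
  have h1 : ∀ a : K, mu2 q x (a ^ (q + 1)) * (1 - x * a ^ (q + 1)) ^ (q - 1) =
      (1 - x ^ q * a ^ (q + 1)) ^ (q - 1) := by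
    intro a
    have hD := D_ne F hx a
    have hD' := D'_ne F hx a
    have e1 : (1 - x * a ^ (q + 1)) ^ (q - 1) =
        (1 - x ^ q * a ^ (q + 1)) / (1 - x * a ^ (q + 1)) := by
      rw [eq_div_iff hD, ← pow_succ, Nat.sub_add_cancel (by omega), D_q F]
    have e2 : (1 - x ^ q * a ^ (q + 1)) ^ (q - 1) =
        (1 - x * a ^ (q + 1)) / (1 - x ^ q * a ^ (q + 1)) := by
      rw [eq_div_iff hD', ← pow_succ, Nat.sub_add_cancel (by omega), D'_q F]
    rw [e1, e2, mu2]
    field_simp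
  simp only [h1]
  rw [sum_D F]
  exact neg_ne_zero.2 (pow_ne_zero _ (pow_ne_zero _ hx0))

/-- `T μ1 (T μ2 w0) = lam • w0` with `lam ≠ 0` -/
theorem base_eig (F : Frob K q) (hx : x ^ q ≠ x) :
    ∃ lam : K, lam ≠ 0 ∧ ∀ l, T q x (mu1 q x) (T q x (mu2 q x) (w0 q)) l = lam * w0 q l := by
  refine ⟨_, mul_ne_zero (lam2_ne F hx) (lam1_ne F hx), ?_⟩
  intro l
  have h1 : T q x (mu2 q x) (w0 q) = fun l =>
      (∑ a : K, mu2 q x (a ^ (q + 1)) * (1 - x * a ^ (q + 1)) ^ (q - 1)) * w0 q l := by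
    funext l
    exact T_w0 F _ l
  rw [h1]
  have h2 : ∀ c : K, T q x (mu1 q x) (fun l => c * w0 q l) l = c * T q x (mu1 q x) (w0 q) l := by
    intro c
    unfold T
    rw [mul_sum]
    apply Finset.sum_congr rfl
    intro a _
    ring
  rw [h2, T_w0 F]
  ring

end eigen

end Crest.Agent.R289.Base593
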