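import Mathlib

/-!
# Benes routing on a binary tower (row 289, block C, routing of #5393 (M4))

Everything lives on the numbers below `n`.  A level is an involution `p` (the row partner, in the
group picture `x ↔ h x`) together with a bit `b` (the column) which the partner flips; the
partner of a level does not change the bits of the levels above it.  Every permutation is a
product of row steps: `run` applies, from the top level to the bottom one, the step selected by
`A`, then from the bottom to the top the one selected by `B`.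
-/

set_option autoImplicit false
set_option linter.unusedSectionVars false

namespace Crest.Agent.R289.Benes873

/-! ### minimum over an orbit -/

/-- one step of the computation of the orbit minimum -/
def omStep (s : ℕ → ℕ) (st : ℕ × ℕ) : ℕ × ℕ := (s st.1, min st.2 (s st.1))

/-- minimum of the first `n + 1` iterates -/
def orbMin (n : ℕ) (s : ℕ → ℕ) (x : ℕ) : ℕ := ((omStep s)^[n] (x, x)).2

theorem omStep_fst (s : ℕ → ℕ) (x : ℕ) (k : ℕ) : ((omStep s)^[k] (x, x)).1 = s^[k] x := by
  induction k with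
  | zero => rfl
  | succ k ih =>
    rw [Function.iterate_succ_apply', Function.iterate_succ_apply', ← ih]
    rfl

theorem omStep_le (s : ℕ → ℕ) (x : ℕ) (k : ℕ) :
    ∀ j ≤ k, ((omStep s)^[k] (x, x)).2 ≤ s^[j] x := by
  induction k with
  | zero =>
    intro j hj
    obtain rfl : j = 0 := by omega
    simp
  | succ k ih =>
    intro j hj
    rw [Function.iterate_succ_apply']
    rcases Nat.lt_or_ge j (k + 1) with h | h
    · exact (min_le_left _ _).trans (ih j (by omega))
    · obtain rfl : j = k + 1 := by omega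
      refine (min_le_right _ _).trans (le_of_eq ?_)
      rw [omStep_fst, Function.iterate_succ_apply']

theorem omStep_mem (s : ℕ → ℕ) (x : ℕ) (k : ℕ) :
    ∃ j ≤ k, ((omStep s)^[k] (x, x)).2 = s^[j] x := by
  induction k with
  | zero => exact ⟨0, le_rfl, rfl⟩
  | succ k ih =>
    obtain ⟨j, hj, e⟩ := ih
    rw [Function.iterate_succ_apply']
    rcases le_total ((omStep s)^[k] (x, x)).2 (s ((omStep s)^[k] (x, x)).1) with h | h
    · exact ⟨j, by omega, (min_eq_left h).trans e⟩
    · refine ⟨k + 1, le_rfl, (min_eq_right h).trans ?_⟩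
      rw [omStep_fst s x k, Function.iterate_succ_apply']

section orbit

variable {n : ℕ} {s : ℕ → ℕ}

theorem iter_lt (hs : ∀ x < n, s x < n) (k : ℕ) : ∀ x < n, s^[k] x < n := by
  induction k with
  | zero => exact fun x hx => hx
  | succ k ih => intro x hx; rw [Function.iterate_succ_apply']; exact hs _ (ih x hx)

theorem iter_inj (hs : ∀ x < n, s x < n) (hi : ∀ x < n, ∀ y < n, s x = s y → x = y) (k : ℕ) :
    ∀ x < n, ∀ y < n, s^[k] x = s^[k] y → x = y := by
  induction k with
  | zero => exact fun x _ y _ h => h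
  | succ k ih =>
    intro x hx y hy h
    rw [Function.iterate_succ_apply', Function.iterate_succ_apply'] at h
    exact ih x hx y hy (hi _ (iter_lt hs k x hx) _ (iter_lt hs k y hy) h)

/-- every orbit is periodic with period at most `n` -/
theorem exists_period (hs : ∀ x < n, s x < n) (hi : ∀ x < n, ∀ y < n, s x = s y → x = y)
    {x : ℕ} (hx : x < n) : ∃ d, 0 < d ∧ d ≤ n ∧ s^[d] x = x := by
  classical
  have : ∃ i ∈ Finset.range (n + 1), ∃ j ∈ Finset.range (n + 1), i ≠ j ∧ s^[i] x = s^[j] x :=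
    Finset.exists_ne_map_eq_of_card_lt_of_maps_to (s := Finset.range (n + 1))
      (t := Finset.range n) (by simp) (f := fun i => s^[i] x)
      (fun i _ => by simpa using iter_lt hs i x hx)
  obtain ⟨i, hi', j, hj', hij, e⟩ := this
  simp only [Finset.mem_range] at hi' hj'
  rcases lt_or_gt_of_ne hij with h | h
  · refine ⟨j - i, by omega, by omega, ?_⟩
    have e2 : s^[j] x = s^[i] (s^[j - i] x) := by
      rw [← Function.iterate_add_apply]; congr 1; omega
    rw [e2] at e
    exact (iter_inj hs hi i _ hx _ (iter_lt hs _ x hx) e).symm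
  · refine ⟨i - j, by omega, by omega, ?_⟩
    have e2 : s^[i] x = s^[j] (s^[i - j] x) := by
      rw [← Function.iterate_add_apply]; congr 1; omega
    rw [e2] at e
    exact (iter_inj hs hi j _ hx _ (iter_lt hs _ x hx) e.symm).symm

theorem iter_mul_period {x d : ℕ} (hd : s^[d] x = x) (m : ℕ) : s^[d * m] x = x := by
  induction m with
  | zero => rfl
  | succ m ih => rw [Nat.mul_succ, Function.iterate_add_apply, hd, ih]

/-- the orbit is covered by the first `n` iterates -/
theorem exists_small (hs : ∀ x < n, s x < n) (hi : ∀ x < n, ∀ y < n, s x = s y → x = y)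
    {x : ℕ} (hx : x < n) (k : ℕ) : ∃ j ≤ n, s^[k] x = s^[j] x := by
  obtain ⟨d, hd0, hdn, hd⟩ := exists_period hs hi hx
  refine ⟨k % d, (Nat.mod_lt _ hd0).le.trans hdn, ?_⟩
  conv_lhs => rw [← Nat.mod_add_div k d, Function.iterate_add_apply, iter_mul_period hd]

/-- one can come back along the orbit -/
theorem exists_back (hs : ∀ x < n, s x < n) (hi : ∀ x < n, ∀ y < n, s x = s y → x = y)
    {x : ℕ} (hx : x < n) (k : ℕ) : ∃ m, s^[m] (s^[k] x) = x := by
  obtain ⟨d, hd0, hdn, hd⟩ := exists_period hs hi hx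
  refine ⟨d * k - k, ?_⟩
  rw [← Function.iterate_add_apply]
  have : d * k - k + k = d * k := Nat.sub_add_cancel (Nat.le_mul_of_pos_left k hd0)
  rw [this, iter_mul_period hd]

theorem orbMin_le (hs : ∀ x < n, s x < n) (hi : ∀ x < n, ∀ y < n, s x = s y → x = y)
    {x : ℕ} (hx : x < n) (k : ℕ) : orbMin n s x ≤ s^[k] x := by
  obtain ⟨j, hj, e⟩ := exists_small hs hi hx k
  rw [e]
  exact omStep_le s x n j hj

theorem orbMin_mem (x : ℕ) : ∃ j, orbMin n s x = s^[j] x := by
  obtain ⟨j, _, e⟩ := omStep_mem s x n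
  exact ⟨j, e⟩

theorem orbMin_iter (hs : ∀ x < n, s x < n) (hi : ∀ x < n, ∀ y < n, s x = s y → x = y)
    {x : ℕ} (hx : x < n) (k : ℕ) : orbMin n s (s^[k] x) = orbMin n s x := by
  apply le_antisymm
  · obtain ⟨j, e⟩ := orbMin_mem (n := n) (s := s) x
    obtain ⟨m, hm⟩ := exists_back hs hi hx k
    rw [e]
    have : s^[j] x = s^[j + m] (s^[k] x) := by rw [Function.iterate_add_apply, hm]
    rw [this]
    exact orbMin_le hs hi (iter_lt hs k x hx) _
  · obtain ⟨j, e⟩ := orbMin_mem (n := n) (s := s) (s^[k] x)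
    rw [e, ← Function.iterate_add_apply]
    exact orbMin_le hs hi hx _

theorem orbMin_apply (hs : ∀ x < n, s x < n) (hi : ∀ x < n, ∀ y < n, s x = s y → x = y)
    {x : ℕ} (hx : x < n) : orbMin n s (s x) = orbMin n s x :=
  orbMin_iter hs hi hx 1

/-- equal minima: same orbit -/
theorem orbit_of_orbMin_eq (hs : ∀ x < n, s x < n)
    (hi : ∀ x < n, ∀ y < n, s x = s y → x = y) {x y : ℕ} (hx : x < n) (hy : y < n)
    (h : orbMin n s y = orbMin n s x) : ∃ k, s^[k] x = y := by
  obtain ⟨j, e⟩ := orbMin_mem (n := n) (s := s) x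
  obtain ⟨i, e'⟩ := orbMin_mem (n := n) (s := s) y
  obtain ⟨m, hm⟩ := exists_back hs hi hy i
  refine ⟨m + j, ?_⟩
  rw [Function.iterate_add_apply, ← e, ← h, e', hm]

end orbit

/-! ### two fixed point free involutions have a common proper 2-colouring -/

/-- the colour -/
def col (n : ℕ) (p q : ℕ → ℕ) (x : ℕ) : Bool :=
  decide (orbMin n (fun y => q (p y)) (p x) < orbMin n (fun y => q (p y)) x)

/-- an involution of the numbers below `n` without fixed points -/
structure FPF (n : ℕ) (p : ℕ → ℕ) : Prop where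
  lt : ∀ x < n, p x < n
  inv : ∀ x < n, p (p x) = x
  ne : ∀ x < n, p x ≠ x

section colour

variable {n : ℕ} {p q : ℕ → ℕ} (hp : FPF n p) (hq : FPF n q)

include hp hq

theorem comp_lt : ∀ x < n, (fun y => q (p y)) x < n := fun x hx => hq.lt _ (hp.lt x hx)

theorem comp_inj : ∀ x < n, ∀ y < n, (fun y => q (p y)) x = (fun y => q (p y)) y → x = y := by
  intro x hx y hy h
  have h1 : q (q (p x)) = q (q (p y)) := congrArg q h
  rw [hq.inv _ (hp.lt x hx), hq.inv _ (hp.lt y hy)] at h1
  have h2 := congrArg p h1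
  rwa [hp.inv x hx, hp.inv y hy] at h2

/-- `s^m p s^m = p` for `s = q p` -/
theorem sps (m : ℕ) : ∀ x < n,
    (fun y => q (p y))^[m] (p ((fun y => q (p y))^[m] x)) = p x := by
  induction m with
  | zero => intro x _; rfl
  | succ m ih =>
    intro x hx
    have hy := iter_lt (comp_lt hp hq) m x hx
    rw [Function.iterate_succ_apply' _ m x]
    rw [Function.iterate_succ_apply]
    have : q (p (p (q (p ((fun y => q (p y))^[m] x))))) =
        p ((fun y => q (p y))^[m] x) := by
      rw [hp.inv _ (hq.lt _ (hp.lt _ hy)), hq.inv _ (hp.lt _ hy)]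
    rw [this, ih x hx]

/-- the partner is never in the orbit of `s = q p` -/
theorem iter_ne (k : ℕ) {x : ℕ} (hx : x < n) : (fun y => q (p y))^[k] x ≠ p x := by
  intro h
  obtain ⟨m, rfl | rfl⟩ := Nat.even_or_odd' k
  · have e := sps hp hq m x hx
    rw [← h, two_mul, Function.iterate_add_apply] at e
    have hy := iter_lt (comp_lt hp hq) m x hx
    have := iter_inj (comp_lt hp hq) (comp_inj hp hq) m _ (hp.lt _ hy) _ hy e
    exact hp.ne _ hy this
  · have e := sps hp hq m x hx
    have e2 : (2 * m + 1) = m + (m + 1) := by ring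
    rw [← h, e2, Function.iterate_add_apply] at e
    have hy := iter_lt (comp_lt hp hq) m x hx
    have hy1 := iter_lt (comp_lt hp hq) (m + 1) x hx
    have := iter_inj (comp_lt hp hq) (comp_inj hp hq) m _ (hp.lt _ hy) _ hy1 e
    rw [Function.iterate_succ_apply'] at this
    exact hq.ne _ (hp.lt _ hy) this.symm

theorem orbMin_ne {x : ℕ} (hx : x < n) :
    orbMin n (fun y => q (p y)) (p x) ≠ orbMin n (fun y => q (p y)) x := by
  intro h
  obtain ⟨k, hk⟩ := orbit_of_orbMin_eq (comp_lt hp hq) (comp_inj hp hq) hx (hp.lt x hx) h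
  exact iter_ne hp hq k hx hk

theorem col_p {x : ℕ} (hx : x < n) : col n p q (p x) = !col n p q x := by
  have h := orbMin_ne hp hq hx
  unfold col
  rw [hp.inv x hx]
  rcases lt_or_gt_of_ne h with h | h
  · simp [h, h.le]
  · simp [h, h.le]

theorem col_q {x : ℕ} (hx : x < n) : col n p q (q x) = !col n p q x := by
  have h := orbMin_ne hp hq hx
  have e1 : orbMin n (fun y => q (p y)) (q x) = orbMin n (fun y => q (p y)) (p x) := by
    have := orbMin_apply (comp_lt hp hq) (comp_inj hp hq) (hp.lt x hx)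
    rwa [show q (p (p x)) = q x by rw [hp.inv x hx]] at this
  have e2 : orbMin n (fun y => q (p y)) (p (q x)) = orbMin n (fun y => q (p y)) x := by
    have := orbMin_apply (comp_lt hp hq) (comp_inj hp hq) (hp.lt _ (hq.lt x hx))
    rw [show q (p (p (q x))) = x by rw [hp.inv _ (hq.lt x hx), hq.inv x hx]] at this
    exact this.symm
  unfold col
  rw [e1, e2]
  rcases lt_or_gt_of_ne h with h | h
  · simp [h, h.le]
  · simp [h, h.le]

end colour

/-! ### levels and routing -/

/-- a level: row partner and column bit -/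
structure Lev where
  /-- the row partner -/
  p : ℕ → ℕ
  /-- the column -/
  b : ℕ → Bool

/-- row step on the selected rows -/
def sw (p : ℕ → ℕ) (A : ℕ → Bool) (x : ℕ) : ℕ := bif A x then p x else x

/-- the selections computed for one level -/
def selA (n : ℕ) (L : Lev) (π ι : ℕ → ℕ) (x : ℕ) : Bool :=
  Bool.xor (L.b x) (col n L.p (fun y => ι (L.p (π y))) x)

/-- the selections computed for one level, on the target side -/
def selB (n : ℕ) (L : Lev) (π ι : ℕ → ℕ) (y : ℕ) : Bool :=
  Bool.xor (L.b y) (col n L.p (fun y => ι (L.p (π y))) (ι y))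

/-- what is left to be routed -/
def nextP (p : ℕ → ℕ) (A B : ℕ → Bool) (π : ℕ → ℕ) (x : ℕ) : ℕ := sw p B (π (sw p A x))

/-- the inverse of what is left to be routed -/
def nextI (p : ℕ → ℕ) (A B : ℕ → Bool) (ι : ℕ → ℕ) (x : ℕ) : ℕ := sw p A (ι (sw p B x))

/-- the routing -/
def route (n : ℕ) : List Lev → (ℕ → ℕ) → (ℕ → ℕ) → List ((ℕ → Bool) × (ℕ → Bool))
  | [], _, _ => []
  | L :: ls, π, ι =>
    (selA n L π ι, selB n L π ι) ::
      route n ls (nextP L.p (selA n L π ι) (selB n L π ι) π)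
        (nextI L.p (selA n L π ι) (selB n L π ι) ι)

/-- the network with given selections -/
def run : List Lev → List ((ℕ → Bool) × (ℕ → Bool)) → ℕ → ℕ
  | L :: ls, AB :: r, x => sw L.p AB.2 (run ls r (sw L.p AB.1 x))
  | _, _, x => x

/-- a tower below the upper bits `U`: every level is a fixed point free involution flipping its
own bit and keeping the bits of `U` and of the levels above -/
def Tower (n : ℕ) : List (ℕ → Bool) → List Lev → Prop
  | U, [] => ∀ x < n, ∀ y < n, (∀ b ∈ U, b x = b y) → x = y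
  | U, L :: ls => (∀ x < n, L.p x < n) ∧ (∀ x < n, L.p (L.p x) = x) ∧
      (∀ x < n, L.b (L.p x) = !L.b x) ∧ (∀ b ∈ U, ∀ x < n, b (L.p x) = b x) ∧
      Tower n (L.b :: U) ls

/-- `π` is a permutation of the numbers below `n` with inverse `ι` -/
structure IsPerm (n : ℕ) (π ι : ℕ → ℕ) : Prop where
  lt : ∀ x < n, π x < n
  lt' : ∀ x < n, ι x < n
  left : ∀ x < n, ι (π x) = x
  right : ∀ x < n, π (ι x) = x

theorem sw_lt {n : ℕ} {p : ℕ → ℕ} (hp : ∀ x < n, p x < n) (A : ℕ → Bool) {x : ℕ} (hx : x < n) :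
    sw p A x < n := by
  unfold sw
  cases A x
  · exact hx
  · exact hp x hx

theorem sw_sw {n : ℕ} {p : ℕ → ℕ} (hpi : ∀ x < n, p (p x) = x) {A : ℕ → Bool}
    (hA : ∀ x < n, A (p x) = A x) {x : ℕ} (hx : x < n) : sw p A (sw p A x) = x := by
  unfold sw
  cases h : A x
  · simp [h]
  · simp [hA x hx, h, hpi x hx]

theorem sw_bit {n : ℕ} {p : ℕ → ℕ} {b : ℕ → Bool} (hb : ∀ x < n, b (p x) = b x)
    (A : ℕ → Bool) {x : ℕ} (hx : x < n) : b (sw p A x) = b x := by
  unfold sw
  cases A x
  · rfl
  · exact hb x hx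

section step

variable {n : ℕ} {L : Lev} {π ι : ℕ → ℕ} (hπ : IsPerm n π ι)
  (hlt : ∀ x < n, L.p x < n) (hinv : ∀ x < n, L.p (L.p x) = x)
  (hb : ∀ x < n, L.b (L.p x) = !L.b x)

include hlt hinv hb

theorem fpf_p : FPF n L.p := ⟨hlt, hinv, fun x hx h => by
  have := hb x hx
  rw [h] at this
  cases h' : L.b x <;> simp [h'] at this⟩

include hπ

theorem fpf_q : FPF n (fun y => ι (L.p (π y))) := by
  have hp := fpf_p hlt hinv hb
  refine ⟨fun x hx => hπ.lt' _ (hlt _ (hπ.lt x hx)), fun x hx => ?_, fun x hx h => ?_⟩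
  · show ι (L.p (π (ι (L.p (π x))))) = x
    rw [hπ.right _ (hlt _ (hπ.lt x hx)), hinv _ (hπ.lt x hx), hπ.left x hx]
  · have h1 : π (ι (L.p (π x))) = π x := congrArg π h
    rw [hπ.right _ (hlt _ (hπ.lt x hx))] at h1
    exact hp.ne _ (hπ.lt x hx) h1

theorem selA_p : ∀ x < n, selA n L π ι (L.p x) = selA n L π ι x := by
  intro x hx
  unfold selA
  rw [hb x hx, col_p (fpf_p hlt hinv hb) (fpf_q hπ hlt hinv hb) hx]
  cases L.b x <;> cases col n L.p (fun y => ι (L.p (π y))) x <;> rfl

theorem selB_p : ∀ x < n, selB n L π ι (L.p x) = selB n L π ι x := by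
  intro x hx
  unfold selB
  have e : ι (L.p x) = (fun y => ι (L.p (π y))) (ι x) := by
    show ι (L.p x) = ι (L.p (π (ι x)))
    rw [hπ.right x hx]
  rw [hb x hx, e, col_q (fpf_p hlt hinv hb) (fpf_q hπ hlt hinv hb) (hπ.lt' x hx)]
  cases L.b x <;> cases col n L.p (fun y => ι (L.p (π y))) (ι x) <;> rfl

theorem bit_selA {x : ℕ} (hx : x < n) :
    L.b (sw L.p (selA n L π ι) x) = col n L.p (fun y => ι (L.p (π y))) x := by
  unfold sw selA
  cases h1 : L.b x <;> cases h2 : col n L.p (fun y => ι (L.p (π y))) x <;>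
    simp [h1, hb x hx]

theorem bit_selB {x : ℕ} (hx : x < n) :
    L.b (sw L.p (selB n L π ι) x) = col n L.p (fun y => ι (L.p (π y))) (ι x) := by
  unfold sw selB
  cases h1 : L.b x <;> cases h2 : col n L.p (fun y => ι (L.p (π y))) (ι x) <;>
    simp [h1, hb x hx]

/-- after the step the bit of the level is kept -/
theorem bit_next {x : ℕ} (hx : x < n) :
    L.b (nextP L.p (selA n L π ι) (selB n L π ι) π x) = L.b x := by
  unfold nextP
  have h1 : sw L.p (selA n L π ι) x < n := sw_lt hlt _ hx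
  rw [bit_selB hπ hlt hinv hb (hπ.lt _ h1), hπ.left _ h1,
    ← bit_selA hπ hlt hinv hb h1, sw_sw hinv (selA_p hπ hlt hinv hb) hx]

theorem isPerm_next :
    IsPerm n (nextP L.p (selA n L π ι) (selB n L π ι) π)
      (nextI L.p (selA n L π ι) (selB n L π ι) ι) := by
  have hA := selA_p hπ hlt hinv hb
  have hB := selB_p hπ hlt hinv hb
  refine ⟨fun x hx => ?_, fun x hx => ?_, fun x hx => ?_, fun x hx => ?_⟩
  · exact sw_lt hlt _ (hπ.lt _ (sw_lt hlt _ hx))
  · exact sw_lt hlt _ (hπ.lt' _ (sw_lt hlt _ hx))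
  · unfold nextP nextI
    rw [sw_sw hinv hB (hπ.lt _ (sw_lt hlt _ hx)), hπ.left _ (sw_lt hlt _ hx), sw_sw hinv hA hx]
  · unfold nextP nextI
    rw [sw_sw hinv hA (hπ.lt' _ (sw_lt hlt _ hx)), hπ.right _ (sw_lt hlt _ hx),
      sw_sw hinv hB hx]

end step

/-- **Routing.** -/
theorem run_route (n : ℕ) (ls : List Lev) : ∀ (U : List (ℕ → Bool)) (π ι : ℕ → ℕ),
    Tower n U ls → IsPerm n π ι → (∀ b ∈ U, ∀ x < n, b (π x) = b x) →
    ∀ x < n, run ls (route n ls π ι) x = π x := by
  induction ls with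
  | nil =>
    intro U π ι hT hπ hU x hx
    exact hT x hx _ (hπ.lt x hx) (fun b hb => (hU b hb x hx).symm)
  | cons L ls ih =>
    intro U π ι hT hπ hU x hx
    obtain ⟨hlt, hinv, hb, hUp, hT⟩ := hT
    have hA := selA_p hπ hlt hinv hb
    have hB := selB_p hπ hlt hinv hb
    have h := ih (L.b :: U) _ _ hT (isPerm_next hπ hlt hinv hb) (by
      intro b hbU y hy
      rcases List.mem_cons.1 hbU with rfl | hbU
      · exact bit_next hπ hlt hinv hb hy
      · unfold nextP
        have h1 : sw L.p (selA n L π ι) y < n := sw_lt hlt _ hy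
        rw [sw_bit (hUp b hbU) _ (hπ.lt _ h1), hU b hbU _ h1, sw_bit (hUp b hbU) _ hy])
      (sw L.p (selA n L π ι) x) (sw_lt hlt _ hx)
    show sw L.p (selB n L π ι) (run ls _ (sw L.p (selA n L π ι) x)) = π x
    rw [h]
    unfold nextP
    rw [sw_sw hinv hA hx, sw_sw hinv hB (hπ.lt x hx)]

/-- the selections are unions of rows -/
theorem route_rows (n : ℕ) (ls : List Lev) : ∀ (U : List (ℕ → Bool)) (π ι : ℕ → ℕ),
    Tower n U ls → IsPerm n π ι →
    List.Forall₂ (fun L AB => (∀ x < n, AB.1 (L.p x) = AB.1 x) ∧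
      (∀ x < n, AB.2 (L.p x) = AB.2 x)) ls (route n ls π ι) := by
  induction ls with
  | nil => intro U π ι _ _; exact .nil
  | cons L ls ih =>
    intro U π ι hT hπ
    obtain ⟨hlt, hinv, hb, hUp, hT⟩ := hT
    exact .cons ⟨selA_p hπ hlt hinv hb, selB_p hπ hlt hinv hb⟩
      (ih _ _ _ hT (isPerm_next hπ hlt hinv hb))

end Crest.Agent.R289.Benes873
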