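import Mathlib
import Crest.Agent.Lib.PT.ListFns2
import Crest.Agent.Lib.PT.ArithMore
import Crest.Agent.R289.Benes_873

/-!
# Benes routing with tables, and its poly-time computation (row 289, block C)

The tables are lists; `look n t x` is entry `x` of the table `t`, cut at `n`.  `routeT` computes
the tables of the selections of all levels, `permT` extends a partial injection (a list of pairs)
to a permutation table, `invT` inverts a table.  All are poly-time (`PTF`).
-/

set_option autoImplicit false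
set_option linter.dupNamespace false
set_option linter.unusedSectionVars false

namespace Crest.Agent.R289.Benes873

open Crest.Agent.Lib.PT

/-- lookup in a table of numbers, everything cut at `n` -/
def look (n : ℕ) (t : List ℕ) (x : ℕ) : ℕ := min (t.getD (min x n) 0) n

/-- lookup in a table of bits -/
def lookB (n : ℕ) (t : List Bool) (x : ℕ) : Bool := t.getD (min x n) false

theorem look_le (n : ℕ) (t : List ℕ) (x : ℕ) : look n t x ≤ n := Nat.min_le_right _ _

/-- table of a function -/
def tabN (n : ℕ) (f : ℕ → ℕ) : List ℕ := (List.range n).map f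

/-- table of a Boolean function -/
def tabB (n : ℕ) (f : ℕ → Bool) : List Bool := (List.range n).map f

theorem look_tabN {n : ℕ} {f : ℕ → ℕ} {x : ℕ} (hx : x < n) (hf : f x ≤ n) :
    look n (tabN n f) x = f x := by
  unfold look tabN
  rw [Nat.min_eq_left hx.le, List.getD_eq_getElem?_getD]
  simp [hx, hf]

theorem lookB_tabB {n : ℕ} {f : ℕ → Bool} {x : ℕ} (hx : x < n) :
    lookB n (tabB n f) x = f x := by
  unfold lookB tabB
  rw [Nat.min_eq_left hx.le, List.getD_eq_getElem?_getD]
  simp [hx]

/-- a level given by tables -/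
abbrev TLev := List ℕ × List Bool

/-- the level of a pair of tables -/
def lev (n : ℕ) (L : TLev) : Lev := ⟨look n L.1, lookB n L.2⟩

/-- table of the first selection of a level -/
def aT (n : ℕ) (L : TLev) (tp ti : List ℕ) : List Bool :=
  tabB n (selA n (lev n L) (look n tp) (look n ti))

/-- table of the second selection of a level -/
def bT (n : ℕ) (L : TLev) (tp ti : List ℕ) : List Bool :=
  tabB n (selB n (lev n L) (look n tp) (look n ti))

/-- table of what is left to be routed -/
def pT (n : ℕ) (p : List ℕ) (A B : List Bool) (tp : List ℕ) : List ℕ :=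
  tabN n (nextP (look n p) (lookB n A) (lookB n B) (look n tp))

/-- the routing with tables -/
def routeT (n : ℕ) : List TLev → List ℕ → List ℕ → List (List Bool × List Bool)
  | [], _, _ => []
  | L :: ls, tp, ti =>
    (aT n L tp ti, bT n L tp ti) ::
      routeT n ls (pT n L.1 (aT n L tp ti) (bT n L tp ti) tp)
        (pT n L.1 (bT n L tp ti) (aT n L tp ti) ti)

/-- the selections of a list of tables -/
def fns (n : ℕ) (AB : List (List Bool × List Bool)) : List ((ℕ → Bool) × (ℕ → Bool)) :=
  AB.map fun ab => (lookB n ab.1, lookB n ab.2)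

theorem nextI_eq (p : ℕ → ℕ) (A B : ℕ → Bool) (ι : ℕ → ℕ) : nextI p A B ι = nextP p B A ι := rfl

theorem sw_congr {n : ℕ} {p : ℕ → ℕ} {A A' : ℕ → Bool} (h : ∀ x < n, A x = A' x) {x : ℕ}
    (hx : x < n) : sw p A x = sw p A' x := by
  unfold sw
  rw [h x hx]

theorem nextP_congr {n : ℕ} {p : ℕ → ℕ} {A A' B B' : ℕ → Bool} {π : ℕ → ℕ}
    (hp : ∀ x < n, p x < n) (hπ : ∀ x < n, π x < n)
    (hA : ∀ x < n, A x = A' x) (hB : ∀ x < n, B x = B' x) {x : ℕ} (hx : x < n) :
    nextP p A B π x = nextP p A' B' π x := by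
  unfold nextP
  rw [← sw_congr hA hx, sw_congr hB (hπ _ (sw_lt hp A hx))]

theorem IsPerm.congr {n : ℕ} {π π' ι ι' : ℕ → ℕ} (h : IsPerm n π ι) (e : ∀ x < n, π' x = π x)
    (e' : ∀ x < n, ι' x = ι x) : IsPerm n π' ι' := by
  refine ⟨fun x hx => ?_, fun x hx => ?_, fun x hx => ?_, fun x hx => ?_⟩
  · rw [e x hx]; exact h.lt x hx
  · rw [e' x hx]; exact h.lt' x hx
  · rw [e x hx, e' _ (h.lt x hx)]; exact h.left x hx
  · rw [e' x hx, e _ (h.lt' x hx)]; exact h.right x hx

/-- **Routing with tables.** -/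
theorem run_routeT (n : ℕ) (ls : List TLev) : ∀ (U : List (ℕ → Bool)) (tp ti : List ℕ),
    Tower n U (ls.map (lev n)) → IsPerm n (look n tp) (look n ti) →
    (∀ b ∈ U, ∀ x < n, b (look n tp x) = b x) →
    ∀ x < n, run (ls.map (lev n)) (fns n (routeT n ls tp ti)) x = look n tp x := by
  induction ls with
  | nil =>
    intro U tp ti hT hπ hU x hx
    exact hT x hx _ (hπ.lt x hx) (fun b hb => (hU b hb x hx).symm)
  | cons L ls ih =>
    intro U tp ti hT hπ hU x hx
    obtain ⟨hlt, hinv, hb, hUp, hT⟩ := hT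
    have hA := selA_p hπ hlt hinv hb
    have hB := selB_p hπ hlt hinv hb
    have eA : ∀ x < n, lookB n (aT n L tp ti) x = selA n (lev n L) (look n tp) (look n ti) x :=
      fun x hx => lookB_tabB hx
    have eB : ∀ x < n, lookB n (bT n L tp ti) x = selB n (lev n L) (look n tp) (look n ti) x :=
      fun x hx => lookB_tabB hx
    have hP : ∀ x < n, look n (pT n L.1 (aT n L tp ti) (bT n L tp ti) tp) x =
        nextP (lev n L).p (selA n (lev n L) (look n tp) (look n ti))
          (selB n (lev n L) (look n tp) (look n ti)) (look n tp) x := by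
      intro x hx
      have e := nextP_congr (p := look n L.1) hlt hπ.lt eA eB hx
      have hle : nextP (look n L.1) (lookB n (aT n L tp ti)) (lookB n (bT n L tp ti))
          (look n tp) x ≤ n :=
        (sw_lt hlt _ (hπ.lt _ (sw_lt hlt _ hx))).le
      exact (look_tabN hx hle).trans e
    have hI : ∀ x < n, look n (pT n L.1 (bT n L tp ti) (aT n L tp ti) ti) x =
        nextI (lev n L).p (selA n (lev n L) (look n tp) (look n ti))
          (selB n (lev n L) (look n tp) (look n ti)) (look n ti) x := by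
      intro x hx
      rw [nextI_eq]
      have e := nextP_congr (p := look n L.1) hlt hπ.lt' eB eA hx
      have hle : nextP (look n L.1) (lookB n (bT n L tp ti)) (lookB n (aT n L tp ti))
          (look n ti) x ≤ n :=
        (sw_lt hlt _ (hπ.lt' _ (sw_lt hlt _ hx))).le
      exact (look_tabN hx hle).trans e
    have h := ih ((lev n L).b :: U) _ _ hT ((isPerm_next hπ hlt hinv hb).congr hP hI) (by
      intro b hbU y hy
      rw [hP y hy]
      rcases List.mem_cons.1 hbU with rfl | hbU
      · exact bit_next hπ hlt hinv hb hy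
      · unfold nextP
        have h1 : sw (lev n L).p (selA n (lev n L) (look n tp) (look n ti)) y < n := sw_lt hlt _ hy
        rw [sw_bit (hUp b hbU) _ (hπ.lt _ h1), hU b hbU _ h1, sw_bit (hUp b hbU) _ hy])
      (sw (lev n L).p (lookB n (aT n L tp ti)) x) (sw_lt hlt _ hx)
    show sw (lev n L).p (lookB n (bT n L tp ti))
      (run (ls.map (lev n)) (fns n (routeT n ls _ _)) (sw (lev n L).p (lookB n (aT n L tp ti)) x))
        = look n tp x
    rw [h, hP _ (sw_lt hlt _ hx), sw_congr (p := (lev n L).p) eA hx]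
    unfold nextP
    rw [sw_sw hinv hA hx, sw_congr (p := (lev n L).p) eB (sw_lt hlt _ (hπ.lt x hx)),
      sw_sw hinv hB (hπ.lt x hx)]

/-- the selections are unions of rows -/
theorem routeT_rows (n : ℕ) (ls : List TLev) : ∀ (U : List (ℕ → Bool)) (tp ti : List ℕ),
    Tower n U (ls.map (lev n)) → IsPerm n (look n tp) (look n ti) →
    List.Forall₂ (fun L AB => (∀ x < n, AB.1 (L.p x) = AB.1 x) ∧
      (∀ x < n, AB.2 (L.p x) = AB.2 x)) (ls.map (lev n)) (fns n (routeT n ls tp ti)) := by
  induction ls with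
  | nil => intro U tp ti _ _; exact .nil
  | cons L ls ih =>
    intro U tp ti hT hπ
    obtain ⟨hlt, hinv, hb, hUp, hT⟩ := hT
    have hA := selA_p hπ hlt hinv hb
    have hB := selB_p hπ hlt hinv hb
    have eA : ∀ x < n, lookB n (aT n L tp ti) x = selA n (lev n L) (look n tp) (look n ti) x :=
      fun x hx => lookB_tabB hx
    have eB : ∀ x < n, lookB n (bT n L tp ti) x = selB n (lev n L) (look n tp) (look n ti) x :=
      fun x hx => lookB_tabB hx
    have hP : ∀ x < n, look n (pT n L.1 (aT n L tp ti) (bT n L tp ti) tp) x =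
        nextP (lev n L).p (selA n (lev n L) (look n tp) (look n ti))
          (selB n (lev n L) (look n tp) (look n ti)) (look n tp) x := by
      intro x hx
      have e := nextP_congr (p := look n L.1) hlt hπ.lt eA eB hx
      have hle : nextP (look n L.1) (lookB n (aT n L tp ti)) (lookB n (bT n L tp ti))
          (look n tp) x ≤ n :=
        (sw_lt hlt _ (hπ.lt _ (sw_lt hlt _ hx))).le
      exact (look_tabN hx hle).trans e
    have hI : ∀ x < n, look n (pT n L.1 (bT n L tp ti) (aT n L tp ti) ti) x =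
        nextI (lev n L).p (selA n (lev n L) (look n tp) (look n ti))
          (selB n (lev n L) (look n tp) (look n ti)) (look n ti) x := by
      intro x hx
      rw [nextI_eq]
      have e := nextP_congr (p := look n L.1) hlt hπ.lt' eB eA hx
      have hle : nextP (look n L.1) (lookB n (bT n L tp ti)) (lookB n (aT n L tp ti))
          (look n ti) x ≤ n :=
        (sw_lt hlt _ (hπ.lt' _ (sw_lt hlt _ hx))).le
      exact (look_tabN hx hle).trans e
    refine .cons ⟨fun x hx => ?_, fun x hx => ?_⟩
      (ih ((lev n L).b :: U) _ _ hT ((isPerm_next hπ hlt hinv hb).congr hP hI))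
    · show lookB n (aT n L tp ti) ((lev n L).p x) = lookB n (aT n L tp ti) x
      rw [eA x hx, eA _ (hlt x hx), hA x hx]
    · show lookB n (bT n L tp ti) ((lev n L).p x) = lookB n (bT n L tp ti) x
      rw [eB x hx, eB _ (hlt x hx), hB x hx]

theorem routeT_length (n : ℕ) (ls : List TLev) : ∀ (tp ti : List ℕ),
    (routeT n ls tp ti).length = ls.length := by
  induction ls with
  | nil => intro _ _; rfl
  | cons L ls ih => intro tp ti; simp [routeT, ih]

/-! ### poly-time computation -/

section ptf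

variable {γ : Type} [PTCode γ]

@[fun_prop]
theorem ptu_look {n x : γ → ℕ} {t : γ → List ℕ} (hn : PTU n) (ht : PTF t) (hx : PTF x) :
    PTU (fun c => look (n c) (t c) (x c)) := by
  unfold look
  exact PTF.natMinUn (PTF.getD (PTF.natMinUn hx hn) ht (PTF.const 0)) hn

@[fun_prop]
theorem ptf_look {n x : γ → ℕ} {t : γ → List ℕ} (hn : PTU n) (ht : PTF t) (hx : PTF x) :
    PTF (fun c => look (n c) (t c) (x c)) := (ptu_look hn ht hx).toPTF

@[fun_prop]
theorem ptf_lookB {n x : γ → ℕ} {t : γ → List Bool} (hn : PTU n) (ht : PTF t) (hx : PTF x) :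
    PTF (fun c => lookB (n c) (t c) (x c)) := by
  unfold lookB
  exact PTF.getD (PTF.natMinUn hx hn) ht (PTF.const false)

theorem sz_le_of_le {a b : ℕ} (h : a ≤ b) : sz a ≤ b := by
  rw [sz_nat]
  exact (Nat.size_le_size h).trans (Nat.size_le.2 Nat.lt_two_pow_self)

theorem ptf_orbMin {s : γ → ℕ → ℕ} (hs : PTF₂ s) {n x : γ → ℕ} (hn : PTU n) (hx : PTF x)
    (hb : ∀ c y, s c y ≤ n c) : PTF (fun c => orbMin (n c) (s c) (x c)) := by
  have hf : PTF₂ (fun (c : γ) (st : ℕ × ℕ) => omStep (s c) st) := by
    unfold omStep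
    have h1 : PTF (fun p : γ × (ℕ × ℕ) => s p.1 p.2.1) :=
      PTF.comp₂ hs PTF.fst (PTF.comp PTF.fst PTF.snd)
    exact PTF.prodMk h1 (PTF.natMin (PTF.comp PTF.snd PTF.snd) h1)
  have h := PTF.iterate' (f := fun c st => omStep (s c) st) (a := fun c => (x c, x c)) hn hf
    (by fun_prop) (B := fun c => 3 * (sz (x c) + n c) + 1) (by
      have := hx.sz
      have := hn.pb
      fun_prop) (fun c i hi => by
      have key : ∀ i, sz ((omStep (s c))^[i] (x c, x c)).1 ≤ sz (x c) + n c ∧
          sz ((omStep (s c))^[i] (x c, x c)).2 ≤ sz (x c) := by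
        intro i
        induction i with
        | zero => simp
        | succ i ih =>
          rw [Function.iterate_succ_apply']
          refine ⟨?_, ?_⟩
          · have := sz_le_of_le (hb c ((omStep (s c))^[i] (x c, x c)).1)
            show sz (s c ((omStep (s c))^[i] (x c, x c)).1) ≤ _
            omega
          · refine le_trans ?_ ih.2
            show sz (min _ _) ≤ _
            rw [sz_nat, sz_nat]
            exact Nat.size_le_size (min_le_left _ _)
      have h1 := key i
      rw [sz_prod]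
      change 2 * sz ((omStep (s c))^[i] (x c, x c)).1 + 1 +
        sz ((omStep (s c))^[i] (x c, x c)).2 ≤ 3 * (sz (x c) + n c) + 1
      omega)
  exact PTF.comp (g := fun p : ℕ × ℕ => p.2) PTF.snd h

/-- the data of a routing step -/
abbrev RC := Un × TLev × List ℕ × List ℕ

theorem ptf_col {n x : γ → ℕ} {p tp ti : γ → List ℕ} (hn : PTU n) (hx : PTF x) (hp : PTF p)
    (htp : PTF tp) (hti : PTF ti) :
    PTF (fun c => col (n c) (look (n c) (p c))
      (fun y => look (n c) (ti c) (look (n c) (p c) (look (n c) (tp c) y))) (x c)) := by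
  have hs : PTF₂ (fun (c : γ) (y : ℕ) => look (n c) (ti c) (look (n c) (p c)
      (look (n c) (tp c) (look (n c) (p c) y)))) := by
    have hn' : PTU (fun q : γ × ℕ => n q.1) := PTU.comp hn PTF.fst
    have hp' : PTF (fun q : γ × ℕ => p q.1) := PTF.comp hp PTF.fst
    have htp' : PTF (fun q : γ × ℕ => tp q.1) := PTF.comp htp PTF.fst
    have hti' : PTF (fun q : γ × ℕ => ti q.1) := PTF.comp hti PTF.fst
    exact ptf_look hn' hti' (ptf_look hn' hp' (ptf_look hn' htp' (ptf_look hn' hp' PTF.snd)))
  have h1 := ptf_orbMin hs hn (ptf_look hn hp hx) (fun c y => look_le _ _ _)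
  have h2 := ptf_orbMin hs hn hx (fun c y => look_le _ _ _)
  exact (PTPred.natLt h1 h2).toPTF

theorem ptf_aT {n : γ → ℕ} {L : γ → TLev} {tp ti : γ → List ℕ} (hn : PTU n) (hL : PTF L)
    (htp : PTF tp) (hti : PTF ti) : PTF (fun c => aT (n c) (L c) (tp c) (ti c)) := by
  unfold aT tabB
  refine PTF.tabulate hn ?_
  have hn' : PTU (fun q : γ × ℕ => n q.1) := PTU.comp hn PTF.fst
  have hp' : PTF (fun q : γ × ℕ => (L q.1).1) := PTF.comp PTF.fst (PTF.comp hL PTF.fst)
  have hb' : PTF (fun q : γ × ℕ => (L q.1).2) := PTF.comp PTF.snd (PTF.comp hL PTF.fst)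
  have htp' : PTF (fun q : γ × ℕ => tp q.1) := PTF.comp htp PTF.fst
  have hti' : PTF (fun q : γ × ℕ => ti q.1) := PTF.comp hti PTF.fst
  exact PTF.xor (ptf_lookB hn' hb' PTF.snd) (ptf_col hn' PTF.snd hp' htp' hti')

theorem ptf_bT {n : γ → ℕ} {L : γ → TLev} {tp ti : γ → List ℕ} (hn : PTU n) (hL : PTF L)
    (htp : PTF tp) (hti : PTF ti) : PTF (fun c => bT (n c) (L c) (tp c) (ti c)) := by
  unfold bT tabB
  refine PTF.tabulate hn ?_
  have hn' : PTU (fun q : γ × ℕ => n q.1) := PTU.comp hn PTF.fst
  have hp' : PTF (fun q : γ × ℕ => (L q.1).1) := PTF.comp PTF.fst (PTF.comp hL PTF.fst)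
  have hb' : PTF (fun q : γ × ℕ => (L q.1).2) := PTF.comp PTF.snd (PTF.comp hL PTF.fst)
  have htp' : PTF (fun q : γ × ℕ => tp q.1) := PTF.comp htp PTF.fst
  have hti' : PTF (fun q : γ × ℕ => ti q.1) := PTF.comp hti PTF.fst
  exact PTF.xor (ptf_lookB hn' hb' PTF.snd)
    (ptf_col hn' (ptf_look hn' hti' PTF.snd) hp' htp' hti')

theorem ptf_sw {n x : γ → ℕ} {p : γ → List ℕ} {A : γ → List Bool} (hn : PTU n) (hp : PTF p)
    (hA : PTF A) (hx : PTF x) :
    PTF (fun c => sw (look (n c) (p c)) (lookB (n c) (A c)) (x c)) := by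
  unfold sw
  exact PTF.cond (ptf_lookB hn hA hx) (ptf_look hn hp hx) hx

theorem ptf_pT {n : γ → ℕ} {p tp : γ → List ℕ} {A B : γ → List Bool} (hn : PTU n) (hp : PTF p)
    (hA : PTF A) (hB : PTF B) (htp : PTF tp) :
    PTF (fun c => pT (n c) (p c) (A c) (B c) (tp c)) := by
  unfold pT tabN nextP
  refine PTF.tabulate hn ?_
  have hn' : PTU (fun q : γ × ℕ => n q.1) := PTU.comp hn PTF.fst
  have hp' : PTF (fun q : γ × ℕ => p q.1) := PTF.comp hp PTF.fst
  have hA' : PTF (fun q : γ × ℕ => A q.1) := PTF.comp hA PTF.fst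
  have hB' : PTF (fun q : γ × ℕ => B q.1) := PTF.comp hB PTF.fst
  have htp' : PTF (fun q : γ × ℕ => tp q.1) := PTF.comp htp PTF.fst
  exact ptf_sw hn' hp' hB' (ptf_look hn' htp' (ptf_sw hn' hp' hA' PTF.snd))

/-- one level of the routing, as a step on (output, table, inverse table) -/
def stepT (n : ℕ) (st : List (List Bool × List Bool) × List ℕ × List ℕ) (L : TLev) :
    List (List Bool × List Bool) × List ℕ × List ℕ :=
  (st.1 ++ [(aT n L st.2.1 st.2.2, bT n L st.2.1 st.2.2)],
    pT n L.1 (aT n L st.2.1 st.2.2) (bT n L st.2.1 st.2.2) st.2.1,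
    pT n L.1 (bT n L st.2.1 st.2.2) (aT n L st.2.1 st.2.2) st.2.2)

theorem routeT_eq (n : ℕ) (ls : List TLev) : ∀ (out : List (List Bool × List Bool))
    (tp ti : List ℕ), (ls.foldl (stepT n) (out, tp, ti)).1 = out ++ routeT n ls tp ti := by
  induction ls with
  | nil => intro out tp ti; simp [routeT]
  | cons L ls ih =>
    intro out tp ti
    rw [List.foldl_cons]
    show (ls.foldl (stepT n) (out ++ [(aT n L tp ti, bT n L tp ti)], _, _)).1 = _
    rw [ih]
    simp [routeT]

theorem sz_tabB (n : ℕ) (f : ℕ → Bool) : sz (tabB n f) ≤ n * 3 := by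
  refine (sz_list_le (m := 1) (fun a _ => by simp)).trans ?_
  simp [tabB]

theorem sz_tabN (n : ℕ) (f : ℕ → ℕ) (hf : ∀ x, f x ≤ n + x) : sz (tabN n f) ≤ n * (4 * n + 1) := by
  refine (sz_list_le (m := 2 * n) (fun a ha => ?_)).trans ?_
  · unfold tabN at ha
    rw [List.mem_map] at ha
    obtain ⟨x, hx, rfl⟩ := ha
    rw [List.mem_range] at hx
    have := sz_le_of_le (hf x)
    omega
  · simp only [tabN, List.length_map, List.length_range]
    exact le_of_eq (by ring)

theorem nextP_le (n : ℕ) (p : List ℕ) (A B : ℕ → Bool) (tp : List ℕ) (x : ℕ) :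
    nextP (look n p) A B (look n tp) x ≤ n + x := by
  unfold nextP
  have h : ∀ (C : ℕ → Bool) (y : ℕ), y ≤ n → sw (look n p) C y ≤ n := by
    intro C y hy
    unfold sw
    cases C y
    · exact hy
    · exact look_le _ _ _
  have := h B _ (look_le n tp (sw (look n p) A x))
  omega

theorem ptf_routeT {n : γ → ℕ} {ls : γ → List TLev} {tp ti : γ → List ℕ} (hn : PTU n)
    (hls : PTF ls) (htp : PTF tp) (hti : PTF ti) :
    PTF (fun c => routeT (n c) (ls c) (tp c) (ti c)) := by
  have hf : PTF (fun p : γ × (List (List Bool × List Bool) × List ℕ × List ℕ) × TLev =>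
      stepT (n p.1) p.2.1 p.2.2) := by
    have hn' : PTU (fun p : γ × (List (List Bool × List Bool) × List ℕ × List ℕ) × TLev => n p.1) :=
      PTU.comp hn PTF.fst
    have hL : PTF (fun p : γ × (List (List Bool × List Bool) × List ℕ × List ℕ) × TLev => p.2.2) := by
      fun_prop
    have h1 : PTF (fun p : γ × (List (List Bool × List Bool) × List ℕ × List ℕ) × TLev => p.2.1.1) := by
      fun_prop
    have h2 : PTF (fun p : γ × (List (List Bool × List Bool) × List ℕ × List ℕ) × TLev =>
      p.2.1.2.1) := by fun_prop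
    have h3 : PTF (fun p : γ × (List (List Bool × List Bool) × List ℕ × List ℕ) × TLev =>
      p.2.1.2.2) := by fun_prop
    have hA := ptf_aT hn' hL h2 h3
    have hB := ptf_bT hn' hL h2 h3
    have hp := PTF.comp (g := fun L : TLev => L.1) PTF.fst hL
    unfold stepT
    exact PTF.prodMk (PTF.append h1 (PTF.listCons (PTF.prodMk hA hB) (PTF.const [])))
      (PTF.prodMk (ptf_pT hn' hp hA hB h2) (ptf_pT hn' hp hB hA h3))
  have h := PTF.foldl_add (f := fun c st L => stepT (n c) st L)
    (b := fun c => (([] : List (List Bool × List Bool)), tp c, ti c)) hls hf (by fun_prop)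
    (G := fun c => 2 * (2 * (2 * (n c * 3) + 1 + n c * 3) + 1) + (2 * (n c * (4 * n c + 1)) + 1 +
      n c * (4 * n c + 1)) + 10) (by
        have := hn.pb
        fun_prop) (fun c st L _ => by
      have e1 := sz_tabB (n c) (selA (n c) (lev (n c) L) (look (n c) st.2.1) (look (n c) st.2.2))
      have e2 := sz_tabB (n c) (selB (n c) (lev (n c) L) (look (n c) st.2.1) (look (n c) st.2.2))
      have e3 := sz_tabN (n c) _ (nextP_le (n c) L.1 (lookB (n c) (aT (n c) L st.2.1 st.2.2))
        (lookB (n c) (bT (n c) L st.2.1 st.2.2)) st.2.1)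
      have e4 := sz_tabN (n c) _ (nextP_le (n c) L.1 (lookB (n c) (bT (n c) L st.2.1 st.2.2))
        (lookB (n c) (aT (n c) L st.2.1 st.2.2)) st.2.2)
      unfold stepT
      simp only [sz_prod, sz_append, sz_cons, sz_nil]
      unfold aT bT pT at *
      omega)
  refine PTF.of_eq (PTF.comp (g := fun s : List (List Bool × List Bool) × List ℕ × List ℕ => s.1)
    PTF.fst h) (fun c => ?_)
  rw [routeT_eq]
  rfl

end ptf

end Crest.Agent.R289.Benes873
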