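import Mathlib
import Crest.Agent.Lib.PT.ListFns2
import Crest.Agent.Lib.PT.ArithMore
import Crest.Agent.R289.BenesPT_873

/-!
# Benes routing of partial injections, flat form (row 289, block C)

* `permT n ws`, `invpT n ws`: the tables of a permutation extending the partial injection given by
  the list of pairs `ws`, and of its inverse.
* `flat`: the list of the `2 r` row steps (partner, selection); `pos`: position of a packet after
  `j` steps; `cont`: contents after `j` steps.
-/

set_option autoImplicit false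
set_option linter.dupNamespace false
set_option linter.unusedSectionVars false

namespace Crest.Agent.R289.Benes873

open Crest.Agent.Lib.PT

/-! ### partial injections -/

/-- numbers below `n` which are not in `S` -/
def freeL (n : ℕ) (S : List ℕ) : List ℕ := (List.range n).filter fun x => !decide (x ∈ S)

theorem length_freeL {n : ℕ} {S : List ℕ} (hS : S.Nodup) (h : ∀ x ∈ S, x < n) :
    (freeL n S).length + S.length = n := by
  have h1 : ((List.range n).filter fun x => decide (x ∈ S)).Perm S := by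
    rw [List.perm_ext_iff_of_nodup (List.nodup_range.filter _) hS]
    intro x
    simp only [List.mem_filter, List.mem_range, decide_eq_true_eq]
    exact ⟨fun h => h.2, fun hx => ⟨h x hx, hx⟩⟩
  have h2 := List.length_eq_length_filter_add (l := List.range n) (fun x => decide (x ∈ S))
  rw [h1.length_eq, List.length_range] at h2
  unfold freeL
  omega

theorem mem_freeL {n : ℕ} {S : List ℕ} {x : ℕ} : x ∈ freeL n S ↔ x < n ∧ x ∉ S := by
  simp [freeL]

theorem nodup_freeL (n : ℕ) (S : List ℕ) : (freeL n S).Nodup := List.nodup_range.filter _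

/-- extension of a partial injection to all numbers below `n` -/
def fillP (n : ℕ) (ws : List (ℕ × ℕ)) : List (ℕ × ℕ) :=
  ws ++ (freeL n (ws.map Prod.fst)).zip (freeL n (ws.map Prod.snd))

/-- a partial injection of the numbers below `n` -/
structure PInj (n : ℕ) (ws : List (ℕ × ℕ)) : Prop where
  nd1 : (ws.map Prod.fst).Nodup
  nd2 : (ws.map Prod.snd).Nodup
  lt1 : ∀ w ∈ ws, w.1 < n
  lt2 : ∀ w ∈ ws, w.2 < n

/-- a permutation of the numbers below `n` as a list of pairs -/
structure PFull (n : ℕ) (ps : List (ℕ × ℕ)) : Prop extends PInj n ps where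
  all1 : ∀ x < n, x ∈ ps.map Prod.fst
  all2 : ∀ x < n, x ∈ ps.map Prod.snd

theorem fillP_full {n : ℕ} {ws : List (ℕ × ℕ)} (h : PInj n ws) : PFull n (fillP n ws) := by
  have l1 := length_freeL h.nd1 (fun x hx => by
    obtain ⟨w, hw, rfl⟩ := List.mem_map.1 hx
    exact h.lt1 w hw)
  have l2 := length_freeL h.nd2 (fun x hx => by
    obtain ⟨w, hw, rfl⟩ := List.mem_map.1 hx
    exact h.lt2 w hw)
  simp only [List.length_map] at l1 l2
  have e1 : (fillP n ws).map Prod.fst = ws.map Prod.fst ++ freeL n (ws.map Prod.fst) := by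
    unfold fillP
    rw [List.map_append, List.map_fst_zip (by omega)]
  have e2 : (fillP n ws).map Prod.snd = ws.map Prod.snd ++ freeL n (ws.map Prod.snd) := by
    unfold fillP
    rw [List.map_append, List.map_snd_zip (by omega)]
  refine ⟨⟨?_, ?_, ?_, ?_⟩, ?_, ?_⟩
  · rw [e1, List.nodup_append]
    refine ⟨h.nd1, nodup_freeL _ _, fun a ha b hb hab => ?_⟩
    subst hab
    exact (mem_freeL.1 hb).2 ha
  · rw [e2, List.nodup_append]
    refine ⟨h.nd2, nodup_freeL _ _, fun a ha b hb hab => ?_⟩
    subst hab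
    exact (mem_freeL.1 hb).2 ha
  · intro w hw
    have : w.1 ∈ (fillP n ws).map Prod.fst := List.mem_map_of_mem hw
    rw [e1, List.mem_append] at this
    rcases this with h1 | h1
    · obtain ⟨w', hw', e⟩ := List.mem_map.1 h1
      rw [← e]; exact h.lt1 w' hw'
    · exact (mem_freeL.1 h1).1
  · intro w hw
    have : w.2 ∈ (fillP n ws).map Prod.snd := List.mem_map_of_mem hw
    rw [e2, List.mem_append] at this
    rcases this with h1 | h1
    · obtain ⟨w', hw', e⟩ := List.mem_map.1 h1
      rw [← e]; exact h.lt2 w' hw'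
    · exact (mem_freeL.1 h1).1
  · intro x hx
    rw [e1, List.mem_append]
    by_cases h1 : x ∈ ws.map Prod.fst
    · exact .inl h1
    · exact .inr (mem_freeL.2 ⟨hx, h1⟩)
  · intro x hx
    rw [e2, List.mem_append]
    by_cases h1 : x ∈ ws.map Prod.snd
    · exact .inl h1
    · exact .inr (mem_freeL.2 ⟨hx, h1⟩)

/-- partner of `x` in a list of pairs -/
def fwd (ps : List (ℕ × ℕ)) (x : ℕ) : ℕ := ((ps.find? fun w => w.1 == x).map Prod.snd).getD 0

/-- inverse partner of `x` in a list of pairs -/
def bwd (ps : List (ℕ × ℕ)) (x : ℕ) : ℕ := ((ps.find? fun w => w.2 == x).map Prod.fst).getD 0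

theorem fwd_eq {ps : List (ℕ × ℕ)} (h : (ps.map Prod.fst).Nodup) {x y : ℕ} (hxy : (x, y) ∈ ps) :
    fwd ps x = y := by
  unfold fwd
  cases hf : ps.find? fun w => w.1 == x with
  | none =>
    have := List.find?_eq_none.1 hf _ hxy
    simp at this
  | some w =>
    have h1 := List.find?_some hf
    have h2 := List.mem_of_find?_eq_some hf
    simp only [beq_iff_eq] at h1
    have := List.inj_on_of_nodup_map h h2 hxy h1
    simp [this]

theorem bwd_eq {ps : List (ℕ × ℕ)} (h : (ps.map Prod.snd).Nodup) {x y : ℕ} (hxy : (x, y) ∈ ps) :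
    bwd ps y = x := by
  unfold bwd
  cases hf : ps.find? fun w => w.2 == y with
  | none =>
    have := List.find?_eq_none.1 hf _ hxy
    simp at this
  | some w =>
    have h1 := List.find?_some hf
    have h2 := List.mem_of_find?_eq_some hf
    simp only [beq_iff_eq] at h1
    have := List.inj_on_of_nodup_map h h2 hxy h1
    simp [this]

theorem isPerm_pairs {n : ℕ} {ps : List (ℕ × ℕ)} (h : PFull n ps) :
    IsPerm n (fwd ps) (bwd ps) := by
  have a1 : ∀ x < n, ∃ y, (x, y) ∈ ps := by
    intro x hx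
    obtain ⟨w, hw, rfl⟩ := List.mem_map.1 (h.all1 x hx)
    exact ⟨w.2, hw⟩
  have a2 : ∀ y < n, ∃ x, (x, y) ∈ ps := by
    intro x hx
    obtain ⟨w, hw, rfl⟩ := List.mem_map.1 (h.all2 x hx)
    exact ⟨w.1, hw⟩
  refine ⟨fun x hx => ?_, fun x hx => ?_, fun x hx => ?_, fun x hx => ?_⟩
  · obtain ⟨y, hy⟩ := a1 x hx
    rw [fwd_eq h.nd1 hy]; exact h.lt2 _ hy
  · obtain ⟨y, hy⟩ := a2 x hx
    rw [bwd_eq h.nd2 hy]; exact h.lt1 _ hy
  · obtain ⟨y, hy⟩ := a1 x hx
    rw [fwd_eq h.nd1 hy, bwd_eq h.nd2 hy]
  · obtain ⟨y, hy⟩ := a2 x hx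
    rw [bwd_eq h.nd2 hy, fwd_eq h.nd1 hy]

/-- table of a permutation extending the partial injection `ws` -/
def permT (n : ℕ) (ws : List (ℕ × ℕ)) : List ℕ := tabN n (fwd (fillP n ws))

/-- table of its inverse -/
def invpT (n : ℕ) (ws : List (ℕ × ℕ)) : List ℕ := tabN n (bwd (fillP n ws))

theorem isPerm_permT {n : ℕ} {ws : List (ℕ × ℕ)} (h : PInj n ws) :
    IsPerm n (look n (permT n ws)) (look n (invpT n ws)) := by
  have h1 := isPerm_pairs (fillP_full h)
  exact h1.congr (fun x hx => look_tabN hx (h1.lt x hx).le)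
    (fun x hx => look_tabN hx (h1.lt' x hx).le)

theorem permT_eq {n : ℕ} {ws : List (ℕ × ℕ)} (h : PInj n ws) {x y : ℕ} (hxy : (x, y) ∈ ws) :
    look n (permT n ws) x = y := by
  have h1 := isPerm_pairs (fillP_full h)
  have hx := h.lt1 _ hxy
  exact (look_tabN hx (h1.lt x hx).le).trans
    (fwd_eq (fillP_full h).nd1 (List.mem_append_left _ hxy))

/-- the selections routing the wires `ws` -/
def routeW (n : ℕ) (ls : List TLev) (ws : List (ℕ × ℕ)) : List (List Bool × List Bool) :=
  routeT n ls (permT n ws) (invpT n ws)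

/-- **Routing of a partial injection.** -/
theorem run_routeW {n : ℕ} {ls : List TLev} {ws : List (ℕ × ℕ)}
    (hT : Tower n [] (ls.map (lev n))) (h : PInj n ws) {x y : ℕ} (hxy : (x, y) ∈ ws) :
    run (ls.map (lev n)) (fns n (routeW n ls ws)) x = y := by
  rw [routeW, run_routeT n ls [] _ _ hT (isPerm_permT h) (by simp) x (h.lt1 _ hxy)]
  exact permT_eq h hxy

/-! ### flat form -/

/-- the list of the row steps -/
def flat : List Lev → List ((ℕ → Bool) × (ℕ → Bool)) → List ((ℕ → ℕ) × (ℕ → Bool))
  | L :: ls, AB :: r => (L.p, AB.1) :: (flat ls r ++ [(L.p, AB.2)])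
  | _, _ => []

/-- run of a list of row steps -/
def runF (st : List ((ℕ → ℕ) × (ℕ → Bool))) (x : ℕ) : ℕ := st.foldl (fun y s => sw s.1 s.2 y) x

theorem runF_append (s t : List ((ℕ → ℕ) × (ℕ → Bool))) (x : ℕ) :
    runF (s ++ t) x = runF t (runF s x) := by
  unfold runF
  rw [List.foldl_append]

theorem run_eq_runF (ls : List Lev) : ∀ (AB : List ((ℕ → Bool) × (ℕ → Bool))) (x : ℕ),
    run ls AB x = runF (flat ls AB) x := by
  induction ls with
  | nil => intro AB x; cases AB <;> rfl
  | cons L ls ih =>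
    intro AB x
    cases AB with
    | nil => rfl
    | cons ab r =>
      show sw L.p ab.2 (run ls r (sw L.p ab.1 x)) =
        runF (flat ls r ++ [(L.p, ab.2)]) (sw L.p ab.1 x)
      rw [runF_append, ih]
      rfl

theorem flat_length (ls : List Lev) : ∀ (AB : List ((ℕ → Bool) × (ℕ → Bool))),
    AB.length = ls.length → (flat ls AB).length = 2 * ls.length := by
  induction ls with
  | nil => intro AB _; cases AB <;> rfl
  | cons L ls ih =>
    intro AB h
    cases AB with
    | nil => simp at h
    | cons ab r =>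
      simp only [List.length_cons] at h
      simp only [flat, List.length_cons, List.length_append, List.length_nil, ih r (by omega)]
      omega

/-- a row step: an involution of the numbers below `n` and a selection of rows -/
structure RowStep (n : ℕ) (s : (ℕ → ℕ) × (ℕ → Bool)) : Prop where
  lt : ∀ x < n, s.1 x < n
  inv : ∀ x < n, s.1 (s.1 x) = x
  row : ∀ x < n, s.2 (s.1 x) = s.2 x

theorem flat_rows {n : ℕ} {ls : List Lev} : ∀ {U : List (ℕ → Bool)}
    {AB : List ((ℕ → Bool) × (ℕ → Bool))}, Tower n U ls →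
    List.Forall₂ (fun L AB => (∀ x < n, AB.1 (L.p x) = AB.1 x) ∧
      (∀ x < n, AB.2 (L.p x) = AB.2 x)) ls AB → ∀ s ∈ flat ls AB, RowStep n s := by
  induction ls with
  | nil => intro U AB _ _ s hs; cases AB <;> simp [flat] at hs
  | cons L ls ih =>
    intro U AB hT h s hs
    cases h with
    | cons h1 h2 =>
      obtain ⟨hlt, hinv, hb, hUp, hT⟩ := hT
      simp only [flat, List.mem_cons, List.mem_append, List.not_mem_nil, or_false] at hs
      rcases hs with rfl | hs | rfl
      · exact ⟨hlt, hinv, h1.1⟩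
      · exact ih hT h2 s hs
      · exact ⟨hlt, hinv, h1.2⟩

/-- position of the packet `x` after `j` steps -/
def pos (st : List ((ℕ → ℕ) × (ℕ → Bool))) (j : ℕ) (x : ℕ) : ℕ := runF (st.take j) x

@[simp] theorem pos_zero (st : List ((ℕ → ℕ) × (ℕ → Bool))) (x : ℕ) : pos st 0 x = x := rfl

theorem pos_succ (st : List ((ℕ → ℕ) × (ℕ → Bool))) {j : ℕ} (hj : j < st.length) (x : ℕ) :
    pos st (j + 1) x = sw (st[j]).1 (st[j]).2 (pos st j x) := by
  unfold pos
  rw [List.take_succ_eq_append_getElem hj, runF_append]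
  rfl

theorem pos_length (st : List ((ℕ → ℕ) × (ℕ → Bool))) (x : ℕ) :
    pos st st.length x = runF st x := by
  unfold pos
  rw [List.take_length]

theorem pos_lt {n : ℕ} {st : List ((ℕ → ℕ) × (ℕ → Bool))} (h : ∀ s ∈ st, RowStep n s) {j : ℕ}
    (hj : j ≤ st.length) {x : ℕ} (hx : x < n) : pos st j x < n := by
  induction j with
  | zero => exact hx
  | succ j ih =>
    rw [pos_succ st (by omega)]
    exact sw_lt (h _ (List.getElem_mem _)).lt _ (ih (by omega))

/-- at every time the packets are at different places -/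
theorem pos_inj {n : ℕ} {st : List ((ℕ → ℕ) × (ℕ → Bool))} (h : ∀ s ∈ st, RowStep n s) {j : ℕ}
    (hj : j ≤ st.length) {x y : ℕ} (hx : x < n) (hy : y < n) (e : pos st j x = pos st j y) :
    x = y := by
  induction j with
  | zero => exact e
  | succ j ih =>
    rw [pos_succ st (by omega), pos_succ st (by omega)] at e
    have hs := h _ (List.getElem_mem (show j < st.length by omega))
    have e' := congrArg (sw (st[j]).1 (st[j]).2) e
    rw [sw_sw hs.inv hs.row (pos_lt h (by omega) hx),
      sw_sw hs.inv hs.row (pos_lt h (by omega) hy)] at e'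
    exact ih (by omega) e'

/-- contents which are exchanged by the steps move with the packets -/
theorem content_pos {n : ℕ} {α : Type*} {st : List ((ℕ → ℕ) × (ℕ → Bool))}
    (h : ∀ s ∈ st, RowStep n s) (r : ℕ → ℕ → α)
    (hr : ∀ j (hj : j < st.length), ∀ y < n,
      r (j + 1) y = bif (st[j]).2 y then r j ((st[j]).1 y) else r j y)
    {j : ℕ} (hj : j ≤ st.length) {x : ℕ} (hx : x < n) : r j (pos st j x) = r 0 x := by
  induction j with
  | zero => rfl
  | succ j ih =>
    have hs := h _ (List.getElem_mem (show j < st.length by omega))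
    have hp := pos_lt h (show j ≤ st.length by omega) hx
    rw [pos_succ st (by omega), hr j (by omega) _ (sw_lt hs.lt _ hp), ← ih (by omega)]
    have e := sw_sw hs.inv hs.row hp
    unfold sw at e ⊢
    cases h1 : (st[j]).2 (pos st j x)
    · simp [h1]
    · simp only [h1, cond_true] at e ⊢
      rw [hs.row _ hp, h1]
      simp [hs.inv _ hp]

/-- flat tables -/
def flatT : List TLev → List (List Bool × List Bool) → List (List ℕ × List Bool)
  | L :: ls, AB :: r => (L.1, AB.1) :: (flatT ls r ++ [(L.1, AB.2)])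
  | _, _ => []

theorem flat_tables (n : ℕ) (ls : List TLev) : ∀ (AB : List (List Bool × List Bool)),
    flat (ls.map (lev n)) (fns n AB) = (flatT ls AB).map fun s => (look n s.1, lookB n s.2) := by
  induction ls with
  | nil => intro AB; cases AB <;> rfl
  | cons L ls ih =>
    intro AB
    cases AB with
    | nil => rfl
    | cons ab r =>
      have := ih r
      simp only [fns, List.map_cons, flat, flatT, List.map_append, List.map_nil] at this ⊢
      rw [this]
      rfl

/-- the flat tables routing the wires `ws` -/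
def routeF (n : ℕ) (ls : List TLev) (ws : List (ℕ × ℕ)) : List (List ℕ × List Bool) :=
  flatT ls (routeW n ls ws)

/-- the steps of flat tables -/
def stepsF (n : ℕ) (t : List (List ℕ × List Bool)) : List ((ℕ → ℕ) × (ℕ → Bool)) :=
  t.map fun s => (look n s.1, lookB n s.2)

/-- **Routing of the wires `ws`, flat form:** `2 r` row steps, the packet of every wire ends at
its target. -/
theorem routeF_spec {n : ℕ} {ls : List TLev} {ws : List (ℕ × ℕ)}
    (hT : Tower n [] (ls.map (lev n))) (h : PInj n ws) :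
    (stepsF n (routeF n ls ws)).length = 2 * ls.length ∧
    (∀ s ∈ stepsF n (routeF n ls ws), RowStep n s) ∧
    ∀ x y, (x, y) ∈ ws → pos (stepsF n (routeF n ls ws)) (2 * ls.length) x = y := by
  have e : stepsF n (routeF n ls ws) = flat (ls.map (lev n)) (fns n (routeW n ls ws)) :=
    (flat_tables n ls _).symm
  have hl : (flat (ls.map (lev n)) (fns n (routeW n ls ws))).length = 2 * ls.length := by
    rw [flat_length _ _ (by simp [fns, routeW, routeT_length]), List.length_map]
  refine ⟨by rw [e, hl], ?_, ?_⟩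
  · rw [e]
    exact flat_rows hT (routeT_rows n ls [] _ _ hT (isPerm_permT h))
  · intro x y hxy
    rw [e, ← hl, pos_length, ← run_eq_runF]
    exact run_routeW hT h hxy

/-! ### poly-time computation -/

section ptf

variable {γ : Type} [PTCode γ]

theorem ptf_freeL {n : γ → ℕ} {S : γ → List ℕ} (hn : PTU n) (hS : PTF S) :
    PTF (fun c => freeL (n c) (S c)) := by
  unfold freeL
  refine PTF.filter (PTF.range hn) ?_
  exact PTF.not (PTPred.mem (PTF.snd) (PTF.comp hS PTF.fst)).toPTF

theorem ptf_fillP {n : γ → ℕ} {ws : γ → List (ℕ × ℕ)} (hn : PTU n) (hw : PTF ws) :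
    PTF (fun c => fillP (n c) (ws c)) := by
  unfold fillP
  have h1 : PTF (fun c => (ws c).map Prod.fst) :=
    PTF.map hw (f := fun _ w => w.1) (PTF.comp PTF.fst PTF.snd)
  have h2 : PTF (fun c => (ws c).map Prod.snd) :=
    PTF.map hw (f := fun _ w => w.2) (PTF.comp PTF.snd PTF.snd)
  exact PTF.append hw (PTF.zip (ptf_freeL hn h1) (ptf_freeL hn h2))

theorem ptf_fwd {ps : γ → List (ℕ × ℕ)} {x : γ → ℕ} (hp : PTF ps) (hx : PTF x) :
    PTF (fun c => fwd (ps c) (x c)) := by
  unfold fwd
  have h1 : PTF (fun c => (ps c).find? fun w => w.1 == x c) := by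
    refine PTF.find? hp ?_
    exact PTF.beq (PTF.comp PTF.fst PTF.snd) (PTF.comp hx PTF.fst)
  exact PTF.optionGetD (PTF.optionMap h1 (g := fun _ w => w.2) (PTF.comp PTF.snd PTF.snd))
    (PTF.const 0)

theorem ptf_bwd {ps : γ → List (ℕ × ℕ)} {x : γ → ℕ} (hp : PTF ps) (hx : PTF x) :
    PTF (fun c => bwd (ps c) (x c)) := by
  unfold bwd
  have h1 : PTF (fun c => (ps c).find? fun w => w.2 == x c) := by
    refine PTF.find? hp ?_
    exact PTF.beq (PTF.comp PTF.snd PTF.snd) (PTF.comp hx PTF.fst)
  exact PTF.optionGetD (PTF.optionMap h1 (g := fun _ w => w.1) (PTF.comp PTF.fst PTF.snd))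
    (PTF.const 0)

theorem ptf_permT {n : γ → ℕ} {ws : γ → List (ℕ × ℕ)} (hn : PTU n) (hw : PTF ws) :
    PTF (fun c => permT (n c) (ws c)) := by
  unfold permT tabN
  refine PTF.tabulate hn ?_
  exact ptf_fwd (PTF.comp (ptf_fillP hn hw) PTF.fst) PTF.snd

theorem ptf_invpT {n : γ → ℕ} {ws : γ → List (ℕ × ℕ)} (hn : PTU n) (hw : PTF ws) :
    PTF (fun c => invpT (n c) (ws c)) := by
  unfold invpT tabN
  refine PTF.tabulate hn ?_
  exact ptf_bwd (PTF.comp (ptf_fillP hn hw) PTF.fst) PTF.snd

theorem ptf_routeW {n : γ → ℕ} {ls : γ → List TLev} {ws : γ → List (ℕ × ℕ)} (hn : PTU n)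
    (hls : PTF ls) (hw : PTF ws) : PTF (fun c => routeW (n c) (ls c) (ws c)) :=
  ptf_routeT hn hls (ptf_permT hn hw) (ptf_invpT hn hw)

theorem flatT_eq (ls : List TLev) : ∀ (AB : List (List Bool × List Bool)),
    flatT ls AB = (List.zipWith (fun L ab => (L.1, ab.1)) ls AB) ++
      (List.zipWith (fun (L : TLev) (ab : List Bool × List Bool) => (L.1, ab.2)) ls AB).reverse := by
  induction ls with
  | nil => intro AB; cases AB <;> rfl
  | cons L ls ih =>
    intro AB
    cases AB with
    | nil => rfl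
    | cons ab r => simp [flatT, ih r]

theorem ptf_routeF {n : γ → ℕ} {ls : γ → List TLev} {ws : γ → List (ℕ × ℕ)} (hn : PTU n)
    (hls : PTF ls) (hw : PTF ws) : PTF (fun c => routeF (n c) (ls c) (ws c)) := by
  have hW := ptf_routeW hn hls hw
  refine PTF.of_eq (PTF.append (PTF.zipWith (f := fun _ (L : TLev) (ab : List Bool × List Bool) =>
    (L.1, ab.1)) hls hW (by fun_prop)) (PTF.reverse (PTF.zipWith
      (f := fun _ (L : TLev) (ab : List Bool × List Bool) => (L.1, ab.2)) hls hW (by fun_prop))))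
    (fun c => ?_)
  rw [routeF, flatT_eq]

end ptf

end Crest.Agent.R289.Benes873
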