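import Crest.Agent.R288.PtDp_115

/-!
# Row 289, block E: poly-time shortest generator words (breadth-first search)

Graph format of `Tour_594`: vertices `0 .. N-1`, generators `0 .. d-1`, `nb v g` = neighbour.
`bfs N d nb v` = generator word from the root `0` to `v`: `foldl nb 0 (bfs v) = v`, shortest.
-/

set_option autoImplicit false

namespace Crest.Agent.R289.Bfs594

open Crest.Agent.Lib.PT Crest.Agent.Lib.PT.Arith Crest.Agent.R288.PtDp115

/-- vertices reachable from `R` by at most one step -/
def grow (N d : ℕ) (nb : ℕ → ℕ → ℕ) (R : List ℕ) : List ℕ :=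
  (List.range N).filter fun v => decide (v ∈ R) ||
    (R.any fun u => (List.range d).any fun g => decide (nb u g = v))

/-- ball of radius `n` around the root -/
def ball (N d : ℕ) (nb : ℕ → ℕ → ℕ) (n : ℕ) : List ℕ := (grow N d nb)^[n] [0]

/-- one step of the list of balls (the largest first) -/
def push (N d : ℕ) (nb : ℕ → ℕ → ℕ) (s : List (List ℕ)) : List (List ℕ) :=
  grow N d nb (s.headD []) :: s

/-- balls of radius `n, n-1, .., 0` -/
def balls (N d : ℕ) (nb : ℕ → ℕ → ℕ) (n : ℕ) : List (List ℕ) := (push N d nb)^[n] [[0]]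

/-- go back into the ball `R` -/
def back (d : ℕ) (nb : ℕ → ℕ → ℕ) (s : ℕ × List ℕ) (R : List ℕ) : ℕ × List ℕ :=
  if s.1 ∈ R then s else
    ((R.flatMap fun u => (List.range d).map fun g => (u, g)).find?
      (fun p => decide (nb p.1 p.2 = s.1))).elim s (fun p => (p.1, p.2 :: s.2))

/-- shortest generator word from `0` to `v` -/
def bfs (N d : ℕ) (nb : ℕ → ℕ → ℕ) (v : ℕ) : List ℕ :=
  ((balls N d nb N).foldl (back d nb) (v, [])).2

section spec

variable {N d : ℕ} {nb : ℕ → ℕ → ℕ}

theorem mem_grow {R : List ℕ} {v : ℕ} :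
    v ∈ grow N d nb R ↔ v < N ∧ (v ∈ R ∨ ∃ u ∈ R, ∃ g < d, nb u g = v) := by
  simp only [grow, List.mem_filter, List.mem_range, Bool.or_eq_true, decide_eq_true_eq,
    List.any_eq_true]

theorem ball_succ (n : ℕ) : ball N d nb (n + 1) = grow N d nb (ball N d nb n) :=
  Function.iterate_succ_apply' _ _ _

theorem mem_ball_lt (hN : 0 < N) {n v : ℕ} (h : v ∈ ball N d nb n) : v < N := by
  cases n with
  | zero =>
    simp only [ball, Function.iterate_zero, id_eq, List.mem_singleton] at h
    omega
  | succ n =>
    rw [ball_succ] at h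
    exact (mem_grow.1 h).1

theorem ball_mono (hN : 0 < N) {n v : ℕ} (h : v ∈ ball N d nb n) : v ∈ ball N d nb (n + 1) := by
  rw [ball_succ]
  exact mem_grow.2 ⟨mem_ball_lt hN h, Or.inl h⟩

theorem ball_mono' (hN : 0 < N) {n m v : ℕ} (hnm : n ≤ m) (h : v ∈ ball N d nb n) :
    v ∈ ball N d nb m := by
  induction m, hnm using Nat.le_induction with
  | base => exact h
  | succ m _ ih => exact ball_mono hN ih

theorem balls_zero : balls N d nb 0 = [[0]] := rfl

theorem balls_succ (n : ℕ) : balls N d nb (n + 1) = ball N d nb (n + 1) :: balls N d nb n := by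
  have key : ∀ n, (balls N d nb n).headD [] = ball N d nb n := by
    intro n
    induction n with
    | zero => rfl
    | succ n ih =>
      have e : balls N d nb (n + 1) = push N d nb (balls N d nb n) :=
        Function.iterate_succ_apply' _ _ _
      rw [e, push, ih, ← ball_succ]
      rfl
  have e : balls N d nb (n + 1) = push N d nb (balls N d nb n) :=
    Function.iterate_succ_apply' _ _ _
  rw [e, push, key n, ← ball_succ]

/-- one step back -/
theorem back_spec {s : ℕ × List ℕ} {R : List ℕ}
    (h : s.1 ∈ R ∨ ∃ u ∈ R, ∃ g < d, nb u g = s.1) :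
    (s.1 ∈ R ∧ back d nb s R = s) ∨
      (s.1 ∉ R ∧ ∃ u ∈ R, ∃ g < d, nb u g = s.1 ∧ back d nb s R = (u, g :: s.2)) := by
  by_cases hs : s.1 ∈ R
  · exact Or.inl ⟨hs, by simp [back, hs]⟩
  · right
    refine ⟨hs, ?_⟩
    rcases h with h | ⟨u, hu, g, hg, hug⟩
    · exact absurd h hs
    · cases hf : (R.flatMap fun u => (List.range d).map fun g => (u, g)).find?
        (fun p => decide (nb p.1 p.2 = s.1)) with
      | none =>
        exfalso
        rw [List.find?_eq_none] at hf
        refine hf (u, g) ?_ (by simpa using hug)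
        rw [List.mem_flatMap]
        exact ⟨u, hu, by simpa using hg⟩
      | some p =>
        obtain ⟨u', g'⟩ := p
        have h1 := List.mem_of_find?_eq_some hf
        have h2 := List.find?_some hf
        simp only [decide_eq_true_eq] at h2
        rw [List.mem_flatMap] at h1
        obtain ⟨u'', hu'', h3⟩ := h1
        simp only [List.mem_map, List.mem_range, Prod.mk.injEq] at h3
        obtain ⟨g'', hg'', rfl, rfl⟩ := h3
        refine ⟨_, hu'', _, hg'', h2, ?_⟩
        simp [back, hs, hf]

theorem main (hN : 0 < N) (n : ℕ) : ∀ (v : ℕ) (out : List ℕ),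
    (v ∈ ball N d nb n ∨ ∃ u ∈ ball N d nb n, ∃ g < d, nb u g = v) →
    ∃ w : List ℕ, (balls N d nb n).foldl (back d nb) (v, out) = (0, w ++ out) ∧
      (∀ g ∈ w, g < d) ∧ w.foldl nb 0 = v ∧ ∀ k, v ∈ ball N d nb k → w.length ≤ k := by
  induction n with
  | zero =>
    intro v out h
    rw [balls_zero]
    simp only [List.foldl_cons, List.foldl_nil]
    have hb : ball N d nb 0 = [0] := rfl
    rw [hb] at h
    rcases back_spec (s := (v, out)) h with ⟨h1, h2⟩ | ⟨h1, u, hu, g, hg, h3, h4⟩
    · simp only [List.mem_singleton] at h1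
      subst h1
      exact ⟨[], by simpa using h2, by simp, rfl, fun k _ => by simp⟩
    · simp only [List.mem_singleton] at hu h1
      subst hu
      refine ⟨[g], by simpa using h4, by simpa using hg, by simpa using h3, ?_⟩
      intro k hk
      cases k with
      | zero =>
        exfalso
        rw [hb, List.mem_singleton] at hk
        exact h1 hk
      | succ k => simp
  | succ n ih =>
    intro v out h
    rw [balls_succ, List.foldl_cons]
    rcases back_spec (s := (v, out)) h with ⟨h1, h2⟩ | ⟨h1, u, hu, g, hg, h3, h4⟩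
    · rw [h2]
      refine ih v out ?_
      have h5 : v ∈ ball N d nb (n + 1) := h1
      rw [ball_succ] at h5
      exact (mem_grow.1 h5).2
    · rw [h4]
      have hu' := hu
      rw [ball_succ] at hu'
      obtain ⟨w, hw1, hw2, hw3, hw4⟩ := ih u (g :: out) (mem_grow.1 hu').2
      refine ⟨w ++ [g], ?_, ?_, ?_, ?_⟩
      · simpa using hw1
      · intro g' hg'
        rw [List.mem_append, List.mem_singleton] at hg'
        rcases hg' with hg' | rfl
        · exact hw2 g' hg'
        · exact hg
      · rw [List.foldl_append, hw3]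
        simpa using h3
      · intro k hk
        have h6 := hw4 (n + 1) hu
        have h7 : n + 1 < k := by
          by_contra hlt
          exact h1 (ball_mono' hN (by omega) hk)
        simp only [List.length_append, List.length_cons, List.length_nil]
        omega

/-- words stay in the balls -/
theorem mem_ball_word (hN : 0 < N) (hnb : ∀ v < N, ∀ g < d, nb v g < N) :
    ∀ w : List ℕ, (∀ g ∈ w, g < d) → w.foldl nb 0 ∈ ball N d nb w.length := by
  intro w
  induction w using List.reverseRecOn with
  | nil => intro _; simp [ball]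
  | append_singleton w g ih =>
    intro h
    have h1 := ih (fun g' hg' => h g' (by simp [hg']))
    rw [List.foldl_append, List.length_append]
    simp only [List.foldl_cons, List.foldl_nil, List.length_cons, List.length_nil, zero_add]
    rw [ball_succ]
    have hg : g < d := h g (by simp)
    exact mem_grow.2 ⟨hnb _ (mem_ball_lt hN h1) g hg, Or.inr ⟨_, h1, g, hg, rfl⟩⟩

/-- the ball of radius `N` contains everything that can be reached -/
theorem mem_ball_N (hN : 0 < N) (hnb : ∀ v < N, ∀ g < d, nb v g < N)
    (hconn : ∀ S : ℕ → Prop, S 0 → (∀ v < N, S v → ∀ g < d, S (nb v g)) → ∀ v < N, S v)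
    {v : ℕ} (hv : v < N) : v ∈ ball N d nb N := by
  classical
  -- either some ball is closed or the balls grow
  have key : ∀ n, n < (ball N d nb n).toFinset.card ∨ ∀ v < N, v ∈ ball N d nb n := by
    intro n
    induction n with
    | zero => left; simp [ball]
    | succ n ih =>
      rcases ih with ih | ih
      · by_cases hc : ∀ v ∈ ball N d nb (n + 1), v ∈ ball N d nb n
        · right
          have h0 : (0 : ℕ) ∈ ball N d nb n := ball_mono' hN (Nat.zero_le n) (by simp [ball])
          refine hconn (fun v => v ∈ ball N d nb (n + 1)) (ball_mono hN h0) ?_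
          intro v hv hvb g hg
          rw [ball_succ]
          exact mem_grow.2 ⟨hnb v hv g hg, Or.inr ⟨v, hc v hvb, g, hg, rfl⟩⟩
        · left
          push Not at hc
          obtain ⟨x, hx1, hx2⟩ := hc
          have h1 : (ball N d nb n).toFinset ⊂ (ball N d nb (n + 1)).toFinset := by
            rw [Finset.ssubset_iff_of_subset]
            · exact ⟨x, by simpa using hx1, by simpa using hx2⟩
            · intro y hy
              simp only [List.mem_toFinset] at hy ⊢
              exact ball_mono hN hy
          have := Finset.card_lt_card h1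
          omega
      · right
        intro v hv
        exact ball_mono hN (ih v hv)
  rcases key N with h | h
  · exfalso
    have h1 : (ball N d nb N).toFinset ⊆ Finset.range N := by
      intro y hy
      simp only [List.mem_toFinset] at hy
      exact Finset.mem_range.2 (mem_ball_lt hN hy)
    have := Finset.card_le_card h1
    rw [Finset.card_range] at this
    omega
  · exact h v hv

/-- **breadth-first search**: the word leads from `0` to `v` and is shortest -/
theorem bfs_spec (hN : 0 < N) (hnb : ∀ v < N, ∀ g < d, nb v g < N)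
    (hconn : ∀ S : ℕ → Prop, S 0 → (∀ v < N, S v → ∀ g < d, S (nb v g)) → ∀ v < N, S v)
    {v : ℕ} (hv : v < N) :
    (bfs N d nb v).foldl nb 0 = v ∧ (∀ g ∈ bfs N d nb v, g < d) ∧
      ∀ w : List ℕ, (∀ g ∈ w, g < d) → w.foldl nb 0 = v → (bfs N d nb v).length ≤ w.length := by
  obtain ⟨w, hw1, hw2, hw3, hw4⟩ := main (nb := nb) (d := d) hN N v []
    (Or.inl (mem_ball_N hN hnb hconn hv))
  have e : bfs N d nb v = w := by
    unfold bfs
    rw [hw1]
    simp
  rw [e]
  refine ⟨hw3, hw2, ?_⟩
  intro w' hw' hwv
  refine hw4 _ ?_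
  rw [← hwv]
  exact mem_ball_word hN hnb w' hw'

theorem bfs_length_le (hN : 0 < N) (hnb : ∀ v < N, ∀ g < d, nb v g < N)
    (hconn : ∀ S : ℕ → Prop, S 0 → (∀ v < N, S v → ∀ g < d, S (nb v g)) → ∀ v < N, S v)
    {v : ℕ} (hv : v < N) : (bfs N d nb v).length ≤ N := by
  obtain ⟨w, hw1, hw2, hw3, hw4⟩ := main (nb := nb) (d := d) hN N v []
    (Or.inl (mem_ball_N hN hnb hconn hv))
  have e : bfs N d nb v = w := by
    unfold bfs
    rw [hw1]
    simp
  rw [e]
  exact hw4 N (mem_ball_N hN hnb hconn hv)

end spec

section pt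

variable {γ : Type} [PTCode γ]

theorem ptf_grow {d : ℕ} {N : γ → ℕ} {nb : γ → ℕ → ℕ → ℕ} {R : γ → List ℕ} (hN : PTU N)
    (hnb : PTF (fun p : γ × ℕ × ℕ => nb p.1 p.2.1 p.2.2)) (hR : PTF R) :
    PTF (fun c => grow (N c) d (nb c) (R c)) := by
  unfold grow
  refine PTF.filter (p := fun c v => decide (v ∈ R c) ||
    ((R c).any fun u => (List.range d).any fun g => decide (nb c u g = v))) (PTF.range hN) ?_
  have hR1 : PTF (fun q : γ × ℕ => R q.1) := PTF.comp (g := R) hR PTF.fst
  refine PTF.or (f := fun q : γ × ℕ => decide (q.2 ∈ R q.1))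
    (g := fun q : γ × ℕ => (R q.1).any fun u => (List.range d).any fun g =>
      decide (nb q.1 u g = q.2)) (PTPred.toPTF (PTPred.mem PTF.snd hR1)) ?_
  refine PTF.any (l := fun q : γ × ℕ => R q.1) (p := fun q u => (List.range d).any fun g =>
      decide (nb q.1 u g = q.2)) hR1 ?_
  refine PTF.any (l := fun _ : (γ × ℕ) × ℕ => List.range d)
    (p := fun r g => decide (nb r.1.1 r.2 g = r.1.2)) (PTF.const _) ?_
  refine PTF.beq (f := fun t : ((γ × ℕ) × ℕ) × ℕ => nb t.1.1.1 t.1.2 t.2)
    (g := fun t => t.1.1.2) ?_ (by fun_prop)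
  exact PTF.comp (g := fun p : γ × ℕ × ℕ => nb p.1 p.2.1 p.2.2)
    (f := fun t : ((γ × ℕ) × ℕ) × ℕ => (t.1.1.1, t.1.2, t.2)) hnb (by fun_prop)

theorem ptf_balls {d : ℕ} {N n : γ → ℕ} {nb : γ → ℕ → ℕ → ℕ} (hN : PTU N) (hn : PTU n)
    (hnb : PTF (fun p : γ × ℕ × ℕ => nb p.1 p.2.1 p.2.2)) :
    PTF (fun c => balls (N c) d (nb c) (n c)) := by
  have key : ∀ c i, ((push (N c) d (nb c))^[i] [[0]]).length = i + 1 ∧
      ∀ R ∈ (push (N c) d (nb c))^[i] [[0]], R.length ≤ N c + 1 ∧ ∀ v ∈ R, v ≤ N c := by
    intro c i
    induction i with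
    | zero => simp
    | succ i ih =>
      rw [Function.iterate_succ_apply']
      obtain ⟨h1, h2⟩ := ih
      refine ⟨by simp [push, h1], ?_⟩
      intro R hR
      rcases List.mem_cons.1 hR with rfl | hR
      · constructor
        · unfold grow
          have := List.length_filter_le (fun v => decide (v ∈ ((push (N c) d (nb c))^[i]
            [[0]]).headD []) || ((((push (N c) d (nb c))^[i] [[0]]).headD []).any fun u =>
            (List.range d).any fun g => decide (nb c u g = v))) (List.range (N c))
          rw [List.length_range] at this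
          omega
        · intro v hv
          exact (mem_grow.1 hv).1.le
      · exact h2 R hR
  unfold balls
  refine PTF.iterate' (n := n) (f := fun (c : γ) (s : List (List ℕ)) => push (N c) d (nb c) s)
    (a := fun _ => [[0]])
    (B := fun c => (n c + 1) * (2 * ((N c + 1) * (2 * N c + 1)) + 1)) hn ?_ (PTF.const _) ?_ ?_
  · unfold push
    have h0 : PTF (fun q : γ × List (List ℕ) => q.2.headD []) := by
      refine PTF.of_eq (PTF.optionGetD (PTF.head? (s := fun q : γ × List (List ℕ) => q.2)
        PTF.snd) (PTF.const [])) (fun q => ?_)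
      cases q.2 <;> rfl
    refine PTF.listCons (f := fun q : γ × List (List ℕ) => grow (N q.1) d (nb q.1) (q.2.headD []))
      (g := fun q => q.2) ?_ PTF.snd
    refine ptf_grow (N := fun q : γ × List (List ℕ) => N q.1)
      (nb := fun q => nb q.1) (R := fun q => q.2.headD []) ?_ ?_ h0
    · exact PTF.comp (g := fun c => Un.mk (N c)) hN PTF.fst
    · exact PTF.comp (g := fun p : γ × ℕ × ℕ => nb p.1 p.2.1 p.2.2)
        (f := fun t : (γ × List (List ℕ)) × ℕ × ℕ => (t.1.1, t.2.1, t.2.2)) hnb (by fun_prop)
  · have h1 := hN.pb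
    have h2 := hn.pb
    fun_prop
  · intro c i hi
    obtain ⟨h1, h2⟩ := key c i
    show sz ((push (N c) d (nb c))^[i] [[0]]) ≤ _
    refine (sz_list_le (m := (N c + 1) * (2 * N c + 1)) (fun R hR => ?_)).trans ?_
    · obtain ⟨h3, h4⟩ := h2 R hR
      refine (sz_list_le (m := N c) (fun v hv => (sz_nat_le v).trans (h4 v hv))).trans ?_
      exact Nat.mul_le_mul_right _ h3
    · rw [h1]
      exact Nat.mul_le_mul_right _ (by omega)

theorem ptf_back {d : ℕ} {nb : γ → ℕ → ℕ → ℕ}
    (hnb : PTF (fun p : γ × ℕ × ℕ => nb p.1 p.2.1 p.2.2)) :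
    PTF (fun p : γ × (ℕ × List ℕ) × List ℕ => back d (nb p.1) p.2.1 p.2.2) := by
  have hf : PTF (fun p : γ × (ℕ × List ℕ) × List ℕ =>
      (p.2.2.flatMap fun u => (List.range d).map fun g => (u, g)).find?
        (fun q => decide (nb p.1 q.1 q.2 = p.2.1.1))) := by
    refine PTF.find? (l := fun p : γ × (ℕ × List ℕ) × List ℕ =>
      p.2.2.flatMap fun u => (List.range d).map fun g => (u, g))
      (p := fun p q => decide (nb p.1 q.1 q.2 = p.2.1.1)) ?_ ?_
    · refine PTF.flatMap (l := fun p : γ × (ℕ × List ℕ) × List ℕ => p.2.2)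
        (f := fun _ u => (List.range d).map fun g => (u, g)) (by fun_prop) ?_
      exact PTF.map (l := fun _ : (γ × (ℕ × List ℕ) × List ℕ) × ℕ => List.range d)
        (f := fun r g => (r.2, g)) (PTF.const _)
        (PTF.prodMk (PTF.comp (g := fun q : (γ × (ℕ × List ℕ) × List ℕ) × ℕ => q.2)
          (f := fun q : ((γ × (ℕ × List ℕ) × List ℕ) × ℕ) × ℕ => q.1) PTF.snd PTF.fst) PTF.snd)
    · refine PTF.beq (f := fun t : (γ × (ℕ × List ℕ) × List ℕ) × ℕ × ℕ =>
        nb t.1.1 t.2.1 t.2.2) (g := fun t => t.1.2.1.1) ?_ (by fun_prop)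
      exact PTF.comp (g := fun p : γ × ℕ × ℕ => nb p.1 p.2.1 p.2.2)
        (f := fun t : (γ × (ℕ × List ℕ) × List ℕ) × ℕ × ℕ => (t.1.1, t.2.1, t.2.2)) hnb
        (by fun_prop)
  have h1 := PTF.optionCasesOn (s := fun p : γ × (ℕ × List ℕ) × List ℕ =>
      (p.2.2.flatMap fun u => (List.range d).map fun g => (u, g)).find?
        (fun q => decide (nb p.1 q.1 q.2 = p.2.1.1)))
    (f := fun p => p.2.1) (g := fun p q => (q.1, q.2 :: p.2.1.2)) hf
    (by fun_prop) (PTF.prodMk (by fun_prop) (by fun_prop))
  have h2 : PTF (fun p : γ × (ℕ × List ℕ) × List ℕ => if p.2.1.1 ∈ p.2.2 then p.2.1 else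
      ((p.2.2.flatMap fun u => (List.range d).map fun g => (u, g)).find?
        (fun q => decide (nb p.1 q.1 q.2 = p.2.1.1))).elim p.2.1
        (fun q => (q.1, q.2 :: p.2.1.2))) := by
    refine PTF.ite (PTPred.mem (f := fun p : γ × (ℕ × List ℕ) × List ℕ => p.2.1.1)
      (l := fun p => p.2.2) (by fun_prop) (by fun_prop)) (by fun_prop) ?_
    refine PTF.of_eq h1 (fun p => ?_)
    cases (p.2.2.flatMap fun u => (List.range d).map fun g => (u, g)).find?
        (fun q => decide (nb p.1 q.1 q.2 = p.2.1.1)) <;> rfl
  exact PTF.of_eq h2 (fun p => rfl)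

theorem ptf_bfs {d : ℕ} {N : γ → ℕ} {nb : γ → ℕ → ℕ → ℕ} {v : γ → ℕ} (hN : PTU N)
    (hnb : PTF (fun p : γ × ℕ × ℕ => nb p.1 p.2.1 p.2.2)) (hv : PTF v) :
    PTF (fun c => bfs (N c) d (nb c) (v c)) := by
  unfold bfs
  refine PTF.comp (g := fun s : ℕ × List ℕ => s.2) PTF.snd ?_
  refine PTF.foldl_add (l := fun c => balls (N c) d (nb c) (N c))
    (f := fun (c : γ) (s : ℕ × List ℕ) (R : List ℕ) => back d (nb c) s R)
    (b := fun c => (v c, [])) (ptf_balls hN hN hnb) (ptf_back hnb) (by fun_prop)
    (G := fun c => 2 * sz (balls (N c) d (nb c) (N c)) + 2 * d + 1) ?_ ?_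
  · have := (ptf_balls (d := d) hN hN hnb).sz
    fun_prop
  · intro c s R hR
    have hszR : sz R ≤ sz (balls (N c) d (nb c) (N c)) := by
      have : ∀ (l : List (List ℕ)), R ∈ l → sz R ≤ sz l := by
        intro l
        induction l with
        | nil => intro h; simp at h
        | cons a l ih =>
          intro h
          rw [sz_cons]
          rcases List.mem_cons.1 h with rfl | h
          · omega
          · have := ih h
            omega
      exact this _ hR
    unfold back
    split_ifs with hs
    · omega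
    · cases hf : (R.flatMap fun u => (List.range d).map fun g => (u, g)).find?
        (fun p => decide (nb c p.1 p.2 = s.1)) with
      | none => simp only [Option.elim]; omega
      | some p =>
        simp only [Option.elim]
        have h1 := List.mem_of_find?_eq_some hf
        rw [List.mem_flatMap] at h1
        obtain ⟨u, hu, h3⟩ := h1
        simp only [List.mem_map, List.mem_range] at h3
        obtain ⟨g, hg, rfl⟩ := h3
        have h4 : sz u ≤ sz R := by
          have : ∀ (l : List ℕ), u ∈ l → sz u ≤ sz l := by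
            intro l
            induction l with
            | nil => intro h; simp at h
            | cons a l ih =>
              intro h
              rw [sz_cons]
              rcases List.mem_cons.1 h with rfl | h
              · omega
              · have := ih h
                omega
          exact this _ hu
        have h5 := sz_nat_le g
        obtain ⟨a, o⟩ := s
        simp only [sz_prod, sz_cons]
        omega

end pt

end Crest.Agent.R289.Bfs594
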