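import Crest.Agent.R289.DefC_143

/-!
# Row 289, block C: the ends of the End-of-Line content machine

`blocked_holds : blocked_stmt` of `DefC_143` (no hypothesis on the legal states is needed: the guards
are evaluated on the encoded states).
-/

set_option autoImplicit false
set_option linter.unusedSectionVars false

namespace Crest.Agent.R289.Blocked844

open Crest.Agent.R289.DefC

section eval
variable {K G Γ Λ : Type} {J : ℕ} [CommRing K] (act : G → Equiv.Perm Γ)
  (b : Pb G Λ J → Γ → K) (r : Rg Λ J → Γ → K)

@[simp] theorem ev_sub (e f : Ex K G Λ J) (x : Γ) :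
    (PE.sub e f).evalC act b r x = e.evalC act b r x - f.evalC act b r x := by
  simp [PE.sub, PE.evalC, sub_eq_add_neg]

@[simp] theorem ev_u (x : Γ) : (u : Ex K G Λ J).evalC act b r x = b .U x := rfl

/-- content of a pointer word -/
def pe (p : Pt G J) (x : Γ) : K := (p.ex : Ex K G Λ J).evalC act b r x

theorem pe_cur (j : Fin J) (x : Γ) : pe act b r (.cur j) x = r (.D j) x := rfl

theorem pe_old (g : G) (j : Fin J) (x : Γ) : pe act b r (.old g j) x = r (.D j) (act g x) := rfl

variable [DecidableEq Λ] (out : Λ)

theorem CZ_gE (hU : ∀ x, b .U x = 1) (j : Fin J) (g : G) (j' : Fin J) (p : Pt G J) :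
    (mach (K := K) (G := G) (J := J) out).CZ act b r (.gE j g j' p) ↔
      ∀ x, (1 - b (.E j g j') x) * pe act b r p x = 0 := by
  simp [PMach.CZ, mach, cex, PE.evalC, hU, pe]

theorem CZ_gN (hU : ∀ x, b .U x = 1) (c : Bool) (j : Fin J) (p : Pt G J) :
    (mach (K := K) (G := G) (J := J) out).CZ act b r (.gN c j p) ↔
      ∀ x, b (.Wa c j) x * pe act b r p x = 0 := by
  simp [PMach.CZ, mach, cex, PE.evalC, hU, pe]

theorem CZ_gW (hU : ∀ x, b .U x = 1) (c : Bool) (j : Fin J) (l : Λ) (k : Op G Λ) (p : Pt G J) :
    (mach (K := K) (G := G) (J := J) out).CZ act b r (.gW c j l k p) ↔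
      ∀ x, (1 - b (.W c j l k) x) * pe act b r p x = 0 := by
  simp [PMach.CZ, mach, cex, PE.evalC, hU, pe]

theorem CZ_gA (hU : ∀ x, b .U x = 1) (a : Ar G Λ) (β : Bool) (p : Pt G J) :
    (mach (K := K) (G := G) (J := J) out).CZ act b r (.gA a β p) ↔
      ∀ x, ((a.ex : Ex K G Λ J).evalC act b r x - bt K β) * pe act b r p x = 0 := by
  simp [PMach.CZ, mach, cex, PE.evalC, hU, pe]

end eval

section enc
variable {Γ G Λ : Type} {J : ℕ} (act : G → Equiv.Perm Γ) (out : Λ) (P : Layout Γ G Λ J)
  (K : Type) [CommRing K] [DecidableEq Γ] [DecidableEq Λ]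

/-- only written cells are non-zero -/
theorem run_written (c : Bool) (x : Γ → Bool) (t : ℕ) (a : Γ) (l : Λ)
    (h : P.run act c x t a l = true) :
    ∃ s < t, ∃ k, P.ins c s = some (l, k) ∧ (P.vis s).1 = a := by
  induction t with
  | zero => simp [Layout.run] at h
  | succ t ih =>
    have old : P.run act c x t a l = true →
        ∃ s < t + 1, ∃ k, P.ins c s = some (l, k) ∧ (P.vis s).1 = a := by
      intro h
      obtain ⟨s, hs, k, h1, h2⟩ := ih h
      exact ⟨s, by omega, k, h1, h2⟩
    rw [Layout.run] at h
    cases hi : P.ins c t with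
    | none => rw [hi] at h; exact old h
    | some lk =>
      obtain ⟨l', k⟩ := lk
      rw [hi] at h
      by_cases hc : (P.vis t).1 = a ∧ l' = l
      · exact ⟨t, by omega, k, by rw [hi, hc.2], hc.1⟩
      · simp only [if_neg hc] at h
        exact old h

theorem nm_al (hP : P.OK act out) (v : Fin P.n → Bool) (i : Fin P.n) :
    P.nm v (P.al i) = v i := by
  unfold Layout.nm
  cases hv : v i
  · simp only [decide_eq_false_iff_not, not_exists, not_and]
    intro i' hi'
    rw [hP.al_inj hi', hv]; simp
  · simp only [decide_eq_true_eq]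
    exact ⟨i, rfl, hv⟩

/-- the output word of a full program is the name word of the value -/
theorem out_word (hP : P.OK act out) (c : Bool) (v : Fin P.n → Bool) (a : Γ) :
    P.run act c (P.nm v) P.L a out = P.nm (P.outp act out c v) a := by
  by_cases ha : ∃ i, P.al i = a
  · obtain ⟨i, rfl⟩ := ha
    rw [nm_al act out P hP]
    rfl
  · have h1 : P.nm (P.outp act out c v) a = false := by
      simp only [Layout.nm, decide_eq_false_iff_not, not_exists, not_and]
      intro i hi
      exact absurd ⟨i, hi⟩ ha
    rw [h1]
    by_contra hne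
    have h2 : P.run act c (P.nm v) P.L a out = true := by
      cases h : P.run act c (P.nm v) P.L a out <;> simp_all
    obtain ⟨s, hs, k, h3, h4⟩ := run_written act P c _ _ _ _ h2
    obtain ⟨i, hi⟩ := hP.out_al c s k hs h3
    exact ha ⟨i, hi.trans h4⟩

theorem nm_inj (hP : P.OK act out) {v w : Fin P.n → Bool} (h : ∀ a, P.nm v a = P.nm w a) :
    v = w := by
  funext i
  have := h (P.al i)
  rwa [nm_al act out P hP, nm_al act out P hP] at this

variable {K}

theorem bt_inj [Nontrivial K] {β β' : Bool} (h : bt K β = bt K β') : β = β' := by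
  cases β <;> cases β' <;> simp [bt] at h ⊢

variable (K)

/-- value of an argument at address `a` in the state `(s, t, v)` -/
def argv (s : Sg) (t : ℕ) (v : Fin P.n → Bool) (a : Γ) : Ar G Λ → Bool
  | .no => false
  | .name c => P.nm (if c then P.nY act out s v else P.nX act out s v) a
  | .cell c g l => P.run act c
      (P.nm (if c then P.nY act out s v else P.nX act out s v)) (s.amt P.L t c) (act g a) l

theorem arg_ex (s : Sg) (t : ℕ) (v : Fin P.n → Bool) (a : Γ) (q : Ar G Λ) :
    (q.ex : Ex K G Λ J).evalC act (pubC P K) (encC act out P K s t v) a =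
      bt K (argv act out P s t v a q) := by
  cases q with
  | no => simp [Ar.ex, PE.evalC, argv, bt]
  | name c => cases c <;> simp [Ar.ex, PE.evalC, argv, encC]
  | cell c g l => simp [Ar.ex, PE.evalC, argv, encC]

variable [IsDomain K]

/-- the guards of a fill label, when the pointer word is the delta of `vis m` -/
theorem gd_ok (s : Sg) (t : ℕ) (v : Fin P.n → Bool) (c : Bool) (m : ℕ) (hm : m < P.L)
    (hinj : ∀ s t, s ≤ P.L → t ≤ P.L → P.vis s = P.vis t → s = t) (p : Pt G J)
    (hp : ∀ x, pe act (pubC P K) (encC act out P K s t v) p x = if x = (P.vis m).1 then 1 else 0) :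
    ∃ w : Wr G Λ, ∀ q, gd c (P.vis m).2 (P.dir m) (P.vis (m + 1)).2 w p q →
      (mach (K := K) (G := G) (J := J) out).CZ act (pubC P K) (encC act out P K s t v) q := by
  have hU : ∀ x, pubC (G := G) (Λ := Λ) P K .U x = 1 := fun x => rfl
  have hE : (mach (K := K) (G := G) (J := J) out).CZ act (pubC P K) (encC act out P K s t v)
      (.gE (P.vis m).2 (P.dir m) (P.vis (m + 1)).2 p) := by
    rw [CZ_gE act _ _ out hU]
    intro x
    rw [hp]
    by_cases hx : x = (P.vis m).1
    · have : pubC (G := G) (Λ := Λ) P K (.E (P.vis m).2 (P.dir m) (P.vis (m + 1)).2) x = 1 := by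
        simp only [pubC]
        rw [if_pos]
        exact ⟨m, hm, by rw [hx], rfl, rfl⟩
      rw [this]; simp
    · rw [if_neg hx, mul_zero]
  cases hi : P.ins c m with
  | none =>
    refine ⟨.idle, ?_⟩
    intro q hq
    rcases hq with rfl | rfl
    · exact hE
    · rw [CZ_gN act _ _ out hU]
      intro x
      rw [hp]
      by_cases hx : x = (P.vis m).1
      · have : pubC (G := G) (Λ := Λ) P K (.Wa c (P.vis m).2) x = 0 := by
          simp only [pubC]
          rw [if_neg]
          rintro ⟨s', hs', h1, h2⟩
          rw [hx] at h1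
          have := hinj s' m hs'.le hm.le h1
          subst this
          exact h2 hi
        rw [this, zero_mul]
      · rw [if_neg hx, mul_zero]
  | some lk =>
    obtain ⟨l, k⟩ := lk
    refine ⟨.put l k (argv act out P s t v (P.vis m).1 (k.a1 c))
      (argv act out P s t v (P.vis m).1 (k.a2 c)), ?_⟩
    intro q hq
    rcases hq with rfl | rfl | rfl | rfl
    · exact hE
    · rw [CZ_gW act _ _ out hU]
      intro x
      rw [hp]
      by_cases hx : x = (P.vis m).1
      · have : pubC (G := G) (Λ := Λ) P K (.W c (P.vis m).2 l k) x = 1 := by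
          simp only [pubC]
          rw [if_pos]
          exact ⟨m, hm, by rw [hx], hi⟩
        rw [this]; simp
      · rw [if_neg hx, mul_zero]
    · rw [CZ_gA act _ _ out hU]
      intro x
      rw [hp]
      by_cases hx : x = (P.vis m).1
      · rw [hx, arg_ex]; simp
      · rw [if_neg hx, mul_zero]
    · rw [CZ_gA act _ _ out hU]
      intro x
      rw [hp]
      by_cases hx : x = (P.vis m).1
      · rw [hx, arg_ex]; simp
      · rw [if_neg hx, mul_zero]

/-! ### linear identities -/

omit [IsDomain K] in
theorem IZ_iff (r : Rg Λ J → Γ → K) (i : Id1 Λ J) :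
    (mach (K := K) (G := G) (J := J) out).IZ act (pubC P K) r i ↔
      ∀ x, (iex out i : Ex K G Λ J).evalC act (pubC P K) r x = 0 := Iff.rfl

omit [IsDomain K] in
theorem D_off (s : Sg) (t : ℕ) (v : Fin P.n → Bool) (i : Fin J) (hi : i ≠ (P.vis t).2) :
    (mach (K := K) (G := G) (J := J) out).IZ act (pubC P K) (encC act out P K s t v) (.D i) := by
  rw [IZ_iff]
  intro x
  simp only [iex, PE.evalC, encC]
  rw [if_neg]
  intro h
  exact hi (by rw [h])

omit [IsDomain K] in
theorem d0_ok (s : Sg) (v : Fin P.n → Bool) (i : Fin J) :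
    (mach (K := K) (G := G) (J := J) out).IZ act (pubC P K) (encC act out P K s 0 v) (.d0 i) := by
  rw [IZ_iff]
  intro x
  simp only [iex, ev_sub, PE.evalC, encC, pubC]
  by_cases h : P.vis 0 = (x, i)
  · rw [if_pos h, if_pos h, sub_self]
  · rw [if_neg h, if_neg h, sub_self]

omit [IsDomain K] in
theorem dL_ok (s : Sg) (v : Fin P.n → Bool) (i : Fin J) :
    (mach (K := K) (G := G) (J := J) out).IZ act (pubC P K) (encC act out P K s P.L v)
      (.dL i) := by
  rw [IZ_iff]
  intro x
  simp only [iex, ev_sub, PE.evalC, encC, pubC]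
  by_cases h : P.vis P.L = (x, i)
  · rw [if_pos h, if_pos h, sub_self]
  · rw [if_neg h, if_neg h, sub_self]

/-- `X = FP_out` in the state `(b, L, v)` -/
theorem XP_iff (hP : P.OK act out) (v : Fin P.n → Bool) :
    (mach (K := K) (G := G) (J := J) out).IZ act (pubC P K) (encC act out P K .b P.L v) .XP ↔
      P.outp act out true (P.outp act out false v) = v := by
  rw [IZ_iff]
  have key : ∀ x, (iex out .XP : Ex K G Λ J).evalC act (pubC P K)
      (encC act out P K .b P.L v) x = bt K (P.nm v x) -
        bt K (P.nm (P.outp act out true (P.outp act out false v)) x) := by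
    intro x
    rw [← out_word act out P hP]
    simp [iex, PE.evalC, encC, Layout.nX, Layout.nY, Sg.amt, Sg.prog]
  constructor
  · intro h
    symm
    apply nm_inj act out P hP
    intro a
    have := h a
    rw [key, sub_eq_zero] at this
    exact bt_inj this
  · intro h x
    rw [key, h, sub_self]

/-- `Y = FS_out` in the state `(c, L, w)` -/
theorem YS_iff (hP : P.OK act out) (v : Fin P.n → Bool) :
    (mach (K := K) (G := G) (J := J) out).IZ act (pubC P K) (encC act out P K .c P.L v) .YS ↔
      P.outp act out false (P.outp act out true v) = v := by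
  rw [IZ_iff]
  have key : ∀ x, (iex out .YS : Ex K G Λ J).evalC act (pubC P K)
      (encC act out P K .c P.L v) x = bt K (P.nm v x) -
        bt K (P.nm (P.outp act out false (P.outp act out true v)) x) := by
    intro x
    rw [← out_word act out P hP]
    simp [iex, PE.evalC, encC, Layout.nX, Layout.nY, Sg.amt, Sg.prog]
  constructor
  · intro h
    symm
    apply nm_inj act out P hP
    intro a
    have := h a
    rw [key, sub_eq_zero] at this
    exact bt_inj this
  · intro h x
    rw [key, h, sub_self]

/-! ### existence of fill labels -/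

theorem cur_pe (s : Sg) (t : ℕ) (v : Fin P.n → Bool) (x : Γ) :
    pe act (pubC P K) (encC act out P K s t v) (.cur (P.vis t).2 : Pt G J) x =
      if x = (P.vis t).1 then 1 else 0 := by
  rw [pe_cur]
  simp only [encC]
  by_cases hx : x = (P.vis t).1
  · rw [if_pos hx, if_pos (by rw [hx])]
  · rw [if_neg hx, if_neg]
    intro h
    exact hx (by rw [h])

theorem old_pe (hP : P.OK act out) (s : Sg) (m : ℕ) (hm : m < P.L) (v : Fin P.n → Bool) (x : Γ) :
    pe act (pubC P K) (encC act out P K s (m + 1) v)
      (.old (P.dir m) (P.vis (m + 1)).2 : Pt G J) x = if x = (P.vis m).1 then 1 else 0 := by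
  rw [pe_old]
  simp only [encC]
  have h1 := hP.step m hm
  by_cases hx : x = (P.vis m).1
  · rw [if_pos hx, if_pos]
    rw [hx, ← h1]
  · rw [if_neg hx, if_neg]
    intro h
    apply hx
    apply (act (P.dir m)).injective
    rw [← h1, h]

/-- pointer on `vis t`, label `t -> t + 1` -/
theorem lab_cur (hP : P.OK act out) (s : Sg) (t : ℕ) (ht : t < P.L) (v : Fin P.n → Bool) :
    ∃ w : Wr G Λ,
      (∀ q, gd s.prog (P.vis t).2 (P.dir t) (P.vis (t + 1)).2 w (.cur (P.vis t).2) q →
        (mach (K := K) (G := G) (J := J) out).CZ act (pubC P K) (encC act out P K s t v) q) ∧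
      ∀ i, i ≠ (P.vis t).2 →
        (mach (K := K) (G := G) (J := J) out).IZ act (pubC P K) (encC act out P K s t v)
          (.D i) := by
  obtain ⟨w, hw⟩ := gd_ok act out P K s t v s.prog t ht hP.inj (.cur (P.vis t).2)
    (cur_pe act out P K s t v)
  exact ⟨w, hw, fun i hi => D_off act out P K s t v i hi⟩

/-- pointer on `vis (m + 1)`, label `m -> m + 1` -/
theorem lab_old (hP : P.OK act out) (s : Sg) (m : ℕ) (hm : m < P.L) (v : Fin P.n → Bool) :
    ∃ w : Wr G Λ,
      (∀ q, gd s.prog (P.vis m).2 (P.dir m) (P.vis (m + 1)).2 w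
          (.old (P.dir m) (P.vis (m + 1)).2) q →
        (mach (K := K) (G := G) (J := J) out).CZ act (pubC P K)
          (encC act out P K s (m + 1) v) q) ∧
      ∀ i, i ≠ (P.vis (m + 1)).2 →
        (mach (K := K) (G := G) (J := J) out).IZ act (pubC P K) (encC act out P K s (m + 1) v)
          (.D i) := by
  obtain ⟨w, hw⟩ := gd_ok act out P K s (m + 1) v s.prog m hm hP.inj
    (.old (P.dir m) (P.vis (m + 1)).2) (old_pe act out P K hP s m hm v)
  exact ⟨w, hw, fun i hi => D_off act out P K s (m + 1) v i hi⟩

/-- forward label in a direct stage -/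
theorem fwd_dir (hP : P.OK act out) (s : Sg) (hs : s.inv = false) (t : ℕ) (ht : t < P.L)
    (v : Fin P.n → Bool) :
    ∃ ρ : Lb G Λ J, (mach (K := K) (G := G) (J := J) out).src ρ = s ∧
      (mach (K := K) (G := G) (J := J) out).En act (pubC P K) ρ (encC act out P K s t v) := by
  obtain ⟨w, h1, h2⟩ := lab_cur act out P K hP s t ht v
  refine ⟨.fill s (P.vis t).2 (P.dir t) (P.vis (t + 1)).2 w, rfl, ?_, ?_⟩
  · intro q hq
    apply h1
    simpa [mach, enC, hs] using hq
  · intro i hi
    cases i with
    | D i => exact h2 i (by simpa [mach, enI, hs] using hi)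
    | _ => exact absurd hi (by simp [mach, enI])

/-- backward label in a direct stage -/
theorem bwd_dir (hP : P.OK act out) (s : Sg) (hs : s.inv = false) (m : ℕ) (hm : m < P.L)
    (v : Fin P.n → Bool) :
    ∃ ρ : Lb G Λ J, (mach (K := K) (G := G) (J := J) out).tgt ρ = s ∧
      (mach (K := K) (G := G) (J := J) out).Bk act (pubC P K) ρ
        (encC act out P K s (m + 1) v) := by
  obtain ⟨w, h1, h2⟩ := lab_old act out P K hP s m hm v
  refine ⟨.fill s (P.vis m).2 (P.dir m) (P.vis (m + 1)).2 w, rfl, ?_, ?_⟩
  · intro q hq
    apply h1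
    simpa [mach, bkC, hs] using hq
  · intro i hi
    cases i with
    | D i => exact h2 i (by simpa [mach, bkI, hs] using hi)
    | _ => exact absurd hi (by simp [mach, bkI])

/-- forward label in an inverted stage -/
theorem fwd_inv (hP : P.OK act out) (s : Sg) (hs : s.inv = true) (m : ℕ) (hm : m < P.L)
    (v : Fin P.n → Bool) :
    ∃ ρ : Lb G Λ J, (mach (K := K) (G := G) (J := J) out).src ρ = s ∧
      (mach (K := K) (G := G) (J := J) out).En act (pubC P K) ρ
        (encC act out P K s (m + 1) v) := by
  obtain ⟨w, h1, h2⟩ := lab_old act out P K hP s m hm v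
  refine ⟨.fill s (P.vis m).2 (P.dir m) (P.vis (m + 1)).2 w, rfl, ?_, ?_⟩
  · intro q hq
    apply h1
    simpa [mach, enC, hs] using hq
  · intro i hi
    cases i with
    | D i => exact h2 i (by simpa [mach, enI, hs] using hi)
    | _ => exact absurd hi (by simp [mach, enI])

/-- backward label in an inverted stage -/
theorem bwd_inv (hP : P.OK act out) (s : Sg) (hs : s.inv = true) (t : ℕ) (ht : t < P.L)
    (v : Fin P.n → Bool) :
    ∃ ρ : Lb G Λ J, (mach (K := K) (G := G) (J := J) out).tgt ρ = s ∧
      (mach (K := K) (G := G) (J := J) out).Bk act (pubC P K) ρ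
        (encC act out P K s t v) := by
  obtain ⟨w, h1, h2⟩ := lab_cur act out P K hP s t ht v
  refine ⟨.fill s (P.vis t).2 (P.dir t) (P.vis (t + 1)).2 w, rfl, ?_, ?_⟩
  · intro q hq
    apply h1
    simpa [mach, bkC, hs] using hq
  · intro i hi
    cases i with
    | D i => exact h2 i (by simpa [mach, bkI, hs] using hi)
    | _ => exact absurd hi (by simp [mach, bkI])

/-- no fill label `L -> L + 1` -/
theorem no_fill (hP : P.OK act out) (s : Sg) (v : Fin P.n → Bool) (c : Bool) (j : Fin J) (g : G)
    (j' : Fin J) (w : Wr G Λ)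
    (h1 : ∀ q, gd c j g j' w (.cur j) q →
        (mach (K := K) (G := G) (J := J) out).CZ act (pubC P K) (encC act out P K s P.L v) q)
    (h2 : ∀ i, i ≠ j →
        (mach (K := K) (G := G) (J := J) out).IZ act (pubC P K) (encC act out P K s P.L v)
          (.D i)) : False := by
  have hj : (P.vis P.L).2 = j := by
    by_contra hne
    have h := h2 _ hne
    rw [IZ_iff] at h
    have h3 := h (P.vis P.L).1
    simp [iex, PE.evalC, encC] at h3
  have hE := h1 (.gE j g j' (.cur j)) (Or.inl rfl)
  rw [CZ_gE act _ _ out (fun x => rfl)] at hE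
  have h3 := hE (P.vis P.L).1
  rw [← hj, cur_pe, if_pos rfl, mul_one, sub_eq_zero] at h3
  simp only [pubC] at h3
  by_cases hex : ∃ s < P.L, P.vis s = ((P.vis P.L).1, (P.vis P.L).2) ∧ P.dir s = g ∧
      (P.vis (s + 1)).2 = j'
  · obtain ⟨s', hs', h4, _⟩ := hex
    have := hP.inj s' P.L hs'.le le_rfl h4
    omega
  · rw [if_neg hex] at h3
    exact one_ne_zero h3

/-! ### the ends -/

theorem blocked_fwd (hP : P.OK act out) (s : Sg) (t : ℕ) (v : Fin P.n → Bool) (ht : t ≤ P.L) :
    (¬ ∃ ρ : Lb G Λ J, (mach (K := K) (G := G) (J := J) out).src ρ = s ∧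
        (mach (K := K) (G := G) (J := J) out).En act (pubC P K) ρ (encC act out P K s t v)) ↔
      s = .b ∧ t = P.L ∧ P.outp act out true (P.outp act out false v) ≠ v := by
  constructor
  · intro hn
    cases s with
    | a =>
      exfalso
      rcases ht.lt_or_eq with hlt | rfl
      · exact hn (fwd_dir act out P K hP .a rfl t hlt v)
      · refine hn ⟨.ab, rfl, ?_, ?_⟩
        · intro q hq
          exact absurd hq (by simp [mach, enC])
        · intro i hi
          cases i with
          | dL i => exact dL_ok act out P K .a v i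
          | _ => exact absurd hi (by simp [mach, enI])
    | b =>
      rcases ht.lt_or_eq with hlt | rfl
      · exact absurd (fwd_dir act out P K hP .b rfl t hlt v) hn
      · refine ⟨rfl, rfl, ?_⟩
        intro heq
        refine hn ⟨.bc, rfl, ?_, ?_⟩
        · intro q hq
          exact absurd hq (by simp [mach, enC])
        · intro i hi
          cases i with
          | dL i => exact dL_ok act out P K .b v i
          | XP => exact (XP_iff act out P K hP v).2 heq
          | _ => exact absurd hi (by simp [mach, enI])
    | c =>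
      exfalso
      cases t with
      | succ m => exact hn (fwd_inv act out P K hP .c rfl m ht v)
      | zero =>
        refine hn ⟨.cd, rfl, ?_, ?_⟩
        · intro q hq
          exact absurd hq (by simp [mach, enC])
        · intro i hi
          cases i with
          | d0 i => exact d0_ok act out P K .c v i
          | _ => exact absurd hi (by simp [mach, enI])
    | d =>
      exfalso
      cases t with
      | succ m => exact hn (fwd_inv act out P K hP .d rfl m ht v)
      | zero =>
        refine hn ⟨.da, rfl, ?_, ?_⟩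
        · intro q hq
          exact absurd hq (by simp [mach, enC])
        · intro i hi
          cases i with
          | d0 i => exact d0_ok act out P K .d v i
          | _ => exact absurd hi (by simp [mach, enI])
  · rintro ⟨rfl, rfl, hne⟩ ⟨ρ, hsrc, h1, h2⟩
    cases ρ with
    | fill s j g j' w =>
      have hs : s = .b := hsrc
      subst hs
      refine no_fill act out P K hP .b v _ j g j' w (fun q hq => h1 q hq) (fun i hi => h2 (.D i) ?_)
      simpa [mach, enI, Sg.inv] using hi
    | bc => exact hne ((XP_iff act out P K hP v).1 (h2 .XP trivial))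
    | ab => exact absurd hsrc (by simp [mach])
    | cd => exact absurd hsrc (by simp [mach])
    | da => exact absurd hsrc (by simp [mach])

theorem blocked_bwd (hP : P.OK act out) (s : Sg) (t : ℕ) (v : Fin P.n → Bool) (ht : t ≤ P.L) :
    (¬ ∃ ρ : Lb G Λ J, (mach (K := K) (G := G) (J := J) out).tgt ρ = s ∧
        (mach (K := K) (G := G) (J := J) out).Bk act (pubC P K) ρ (encC act out P K s t v)) ↔
      s = .c ∧ t = P.L ∧ P.outp act out false (P.outp act out true v) ≠ v := by
  constructor
  · intro hn
    cases s with
    | a =>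
      exfalso
      cases t with
      | succ m => exact hn (bwd_dir act out P K hP .a rfl m ht v)
      | zero =>
        refine hn ⟨.da, rfl, ?_, ?_⟩
        · intro q hq
          exact absurd hq (by simp [mach, bkC])
        · intro i hi
          cases i with
          | d0 i => exact d0_ok act out P K .a v i
          | _ => exact absurd hi (by simp [mach, bkI])
    | b =>
      exfalso
      cases t with
      | succ m => exact hn (bwd_dir act out P K hP .b rfl m ht v)
      | zero =>
        refine hn ⟨.ab, rfl, ?_, ?_⟩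
        · intro q hq
          exact absurd hq (by simp [mach, bkC])
        · intro i hi
          cases i with
          | d0 i => exact d0_ok act out P K .b v i
          | _ => exact absurd hi (by simp [mach, bkI])
    | c =>
      rcases ht.lt_or_eq with hlt | rfl
      · exact absurd (bwd_inv act out P K hP .c rfl t hlt v) hn
      · refine ⟨rfl, rfl, ?_⟩
        intro heq
        refine hn ⟨.bc, rfl, ?_, ?_⟩
        · intro q hq
          exact absurd hq (by simp [mach, bkC])
        · intro i hi
          cases i with
          | dL i => exact dL_ok act out P K .c v i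
          | YS => exact (YS_iff act out P K hP v).2 heq
          | _ => exact absurd hi (by simp [mach, bkI])
    | d =>
      exfalso
      rcases ht.lt_or_eq with hlt | rfl
      · exact hn (bwd_inv act out P K hP .d rfl t hlt v)
      · refine hn ⟨.cd, rfl, ?_, ?_⟩
        · intro q hq
          exact absurd hq (by simp [mach, bkC])
        · intro i hi
          cases i with
          | dL i => exact dL_ok act out P K .d v i
          | _ => exact absurd hi (by simp [mach, bkI])
  · rintro ⟨rfl, rfl, hne⟩ ⟨ρ, htgt, h1, h2⟩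
    cases ρ with
    | fill s j g j' w =>
      have hs : s = .c := htgt
      subst hs
      refine no_fill act out P K hP .c v _ j g j' w (fun q hq => h1 q hq) (fun i hi => h2 (.D i) ?_)
      simpa [mach, bkI, Sg.inv] using hi
    | bc => exact hne ((YS_iff act out P K hP v).1 (h2 .YS trivial))
    | ab => exact absurd htgt (by simp [mach])
    | cd => exact absurd htgt (by simp [mach])
    | da => exact absurd htgt (by simp [mach])

theorem blocked_holds (p : ℕ) [CharP K p] [Fact p.Prime] :
    blocked_stmt act out P K p :=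
  fun _ hP s t v ht =>
    ⟨blocked_fwd act out P K hP s t v ht, blocked_bwd act out P K hP s t v ht⟩

end enc

end Crest.Agent.R289.Blocked844
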