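import Mathlib

/-!
Row 289, block C (architecture #5655 (3), #5496 C2a): content level, exact.

* `chain_unique`     : the prefix / pointer relations on `0 .. L`
* `state_iff`        : the pointer relations on a path `p` in an index type
* `masked_iff`       : the same with public masks and translations (`J` visits)
* `builder_iff`      : the cascade builder register `W (p j) = Λ^j w`
* `step_*`, `back_*` : forward and backward step formulas
-/

set_option autoImplicit false
set_option linter.unusedSectionVars false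
set_option linter.unusedVariables false

namespace Crest.Agent.R289.Builder490

section chain

variable {K : Type*} [Ring K] [NoZeroDivisors K] [Nontrivial K]

theorem zero_or_one {x : K} (h : x * x = x) : x = 0 ∨ x = 1 := by
  have : x * (x - 1) = 0 := by rw [mul_sub, h, mul_one, sub_self]
  rcases mul_eq_zero.1 this with h0 | h1
  · exact Or.inl h0
  · exact Or.inr (sub_eq_zero.1 h1)

/-- the relations on a chain determine a unique position -/
theorem chain_unique {L : ℕ} (d m : ℕ → K)
    (hd : ∀ j ≤ L, d j * d j = d j) (hm : ∀ j ≤ L, m j * m j = m j)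
    (hdm : ∀ j ≤ L, d j * m j = 0) (h0 : m 0 + d 0 = 1) (hL : m L = 0)
    (hs : ∀ j < L, m j = m (j + 1) + d (j + 1)) :
    ∃ i ≤ L, (∀ j ≤ L, d j = if j = i then 1 else 0) ∧
      (∀ j ≤ L, m j = if j < i then 1 else 0) := by
  classical
  -- `s j = m j + d j` is `0` or `1`
  have key : ∀ j ≤ L, (m j + d j = 1 ∧ (m j = 1 ∧ d j = 0 ∨ m j = 0 ∧ d j = 1)) ∨
      (m j + d j = 0 ∧ m j = 0 ∧ d j = 0) := by
    intro j hj
    rcases zero_or_one (hm j hj) with h | h <;> rcases zero_or_one (hd j hj) with h' | h'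
    · right; simp [h, h']
    · left; simp [h, h']
    · left; simp [h, h']
    · exfalso
      have := hdm j hj
      rw [h, h', mul_one] at this
      exact one_ne_zero this
  -- once `0`, always `0`
  have hz : ∀ j ≤ L, m j + d j = 0 → ∀ k, j ≤ k → k ≤ L → m k + d k = 0 := by
    intro j _ hj0 k hjk
    induction k, hjk using Nat.le_induction with
    | base => intro _; exact hj0
    | succ k hjk ih =>
      intro hk
      have h1 := ih (by omega)
      rcases key k (by omega) with h | h
      · rw [h1] at h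
        exact absurd h.1 zero_ne_one
      · rw [← hs k (by omega)]
        exact h.2.1
  -- the last `1`
  let P : ℕ → Prop := fun i => i ≤ L ∧ m i + d i = 1
  have hP0 : P 0 := ⟨Nat.zero_le _, h0⟩
  let i := Nat.findGreatest P L
  have hi : P i := Nat.findGreatest_spec (P := P) (Nat.zero_le _) hP0
  have hgt : ∀ k, i < k → k ≤ L → m k + d k = 0 := by
    intro k hk hkL
    have hnk : ¬ P k := Nat.findGreatest_is_greatest hk hkL
    rcases key k hkL with h | h
    · exact absurd ⟨hkL, h.1⟩ hnk
    · exact h.1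
  have hle : ∀ k, k ≤ i → m k + d k = 1 := by
    intro k hk
    rcases key k (hk.trans hi.1) with h | h
    · exact h.1
    · have := hz k (hk.trans hi.1) h.1 i hk hi.1
      rw [hi.2] at this
      exact absurd this one_ne_zero
  have hmlt : ∀ k, k < i → m k = 1 := by
    intro k hk
    rw [hs k (lt_of_lt_of_le hk hi.1)]
    exact hle (k + 1) hk
  have hmi : m i = 0 := by
    rcases Nat.lt_or_ge i L with h | h
    · rw [hs i h]
      exact hgt (i + 1) (Nat.lt_succ_self _) h
    · have : i = L := le_antisymm hi.1 h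
      rw [this]; exact hL
  refine ⟨i, hi.1, ?_, ?_⟩
  · intro j hj
    split_ifs with h
    · subst h
      have := hi.2
      rwa [hmi, zero_add] at this
    · rcases Nat.lt_or_gt_of_ne h with h | h
      · have h1 := hle j h.le
        rw [hmlt j h] at h1
        simpa using h1
      · rcases key j hj with h' | h'
        · rw [hgt j h hj] at h'
          exact absurd h'.1 zero_ne_one
        · exact h'.2.2
  · intro j hj
    split_ifs with h
    · exact hmlt j h
    · rcases Nat.lt_or_ge i j with h' | h'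
      · rcases key j hj with h'' | h''
        · rw [hgt j h' hj] at h''
          exact absurd h''.1 zero_ne_one
        · exact h''.2.1
      · have : j = i := by omega
        rw [this]; exact hmi

end chain

section path

variable {K : Type*} [Ring K] [NoZeroDivisors K] [Nontrivial K] {ι : Type*} [DecidableEq ι]

/-- pointer at position `i` -/
def ptr (K : Type*) [Ring K] {ι : Type*} [DecidableEq ι] (p : ℕ → ι) (i : ℕ) : ι → K :=
  fun x => if x = p i then 1 else 0

/-- prefix: the positions before `i` -/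
noncomputable def pre (K : Type*) [Ring K] {ι : Type*} (p : ℕ → ι) (i : ℕ) : ι → K := by
  classical
  exact fun x => if ∃ j < i, x = p j then 1 else 0

/-- the pointer relations on a path -/
structure PtrRel (p : ℕ → ι) (L : ℕ) (D M : ι → K) : Prop where
  dd : ∀ x, D x * D x = D x
  mm : ∀ x, M x * M x = M x
  dm : ∀ x, D x * M x = 0
  offD : ∀ x, (∀ j ≤ L, x ≠ p j) → D x = 0
  offM : ∀ x, (∀ j ≤ L, x ≠ p j) → M x = 0
  first : M (p 0) + D (p 0) = 1
  last : M (p L) = 0
  step : ∀ j < L, M (p j) = M (p (j + 1)) + D (p (j + 1))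

omit [NoZeroDivisors K] [Nontrivial K] in
theorem ptr_at (p : ℕ → ι) {L : ℕ} (hp : ∀ a ≤ L, ∀ b ≤ L, p a = p b → a = b) {i j : ℕ}
    (hi : i ≤ L) (hj : j ≤ L) : ptr K p i (p j) = if j = i then 1 else 0 := by
  unfold ptr
  by_cases h : j = i
  · simp [h]
  · rw [if_neg h, if_neg]
    exact fun h' => h (hp j hj i hi h')

omit [NoZeroDivisors K] [Nontrivial K] [DecidableEq ι] in
theorem pre_at (p : ℕ → ι) {L : ℕ} (hp : ∀ a ≤ L, ∀ b ≤ L, p a = p b → a = b) {i j : ℕ}
    (hi : i ≤ L) (hj : j ≤ L) : pre K p i (p j) = if j < i then 1 else 0 := by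
  classical
  unfold pre
  by_cases h : j < i
  · rw [if_pos h, if_pos ⟨j, h, rfl⟩]
  · rw [if_neg h, if_neg]
    rintro ⟨k, hk, hk'⟩
    have := hp j hj k (by omega) hk'
    omega

omit [NoZeroDivisors K] [Nontrivial K] in
theorem ptr_off (p : ℕ → ι) {L i : ℕ} (hi : i ≤ L) {x : ι} (hx : ∀ j ≤ L, x ≠ p j) :
    ptr K p i x = 0 := by
  unfold ptr
  rw [if_neg (hx i hi)]

omit [NoZeroDivisors K] [Nontrivial K] [DecidableEq ι] in
theorem pre_off (p : ℕ → ι) {L i : ℕ} (hi : i ≤ L) {x : ι} (hx : ∀ j ≤ L, x ≠ p j) :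
    pre K p i x = 0 := by
  classical
  unfold pre
  rw [if_neg]
  rintro ⟨k, hk, hk'⟩
  exact hx k (by omega) hk'

/-- **(B1)** the pointer relations hold exactly for the `L + 1` pointer states -/
theorem state_iff (p : ℕ → ι) (L : ℕ) (hp : ∀ a ≤ L, ∀ b ≤ L, p a = p b → a = b)
    (D M : ι → K) :
    PtrRel p L D M ↔ ∃ i ≤ L, D = ptr K p i ∧ M = pre K p i := by
  classical
  constructor
  · intro h
    obtain ⟨i, hi, h1, h2⟩ := chain_unique (L := L) (fun j => D (p j)) (fun j => M (p j))
      (fun j _ => h.dd _) (fun j _ => h.mm _) (fun j _ => h.dm _) h.first h.last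
      (fun j hj => h.step j hj)
    refine ⟨i, hi, funext fun x => ?_, funext fun x => ?_⟩
    · by_cases hx : ∀ j ≤ L, x ≠ p j
      · rw [h.offD x hx, ptr_off p hi hx]
      · push Not at hx
        obtain ⟨j, hj, rfl⟩ := hx
        rw [h1 j hj, ptr_at p hp hi hj]
    · by_cases hx : ∀ j ≤ L, x ≠ p j
      · rw [h.offM x hx, pre_off p hi hx]
      · push Not at hx
        obtain ⟨j, hj, rfl⟩ := hx
        rw [h2 j hj, pre_at p hp hi hj]
  · rintro ⟨i, hi, rfl, rfl⟩
    refine ⟨fun x => ?_, fun x => ?_, fun x => ?_, fun x hx => ptr_off p hi hx,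
      fun x hx => pre_off p hi hx, ?_, ?_, fun j hj => ?_⟩
    · unfold ptr; split_ifs <;> simp
    · unfold pre; split_ifs <;> simp
    · by_cases hx : ∀ j ≤ L, x ≠ p j
      · rw [ptr_off p hi hx, zero_mul]
      · push Not at hx
        obtain ⟨j, hj, rfl⟩ := hx
        rw [ptr_at p hp hi hj, pre_at p hp hi hj]
        by_cases h : j = i
        · subst h; simp
        · simp [h]
    · rw [ptr_at p hp hi (Nat.zero_le _), pre_at p hp hi (Nat.zero_le _)]
      rcases Nat.eq_zero_or_pos i with h | h
      · simp [h]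
      · rw [if_pos h, if_neg (by omega), add_zero]
    · rw [pre_at p hp hi le_rfl, if_neg (by omega)]
    · rw [pre_at p hp hi hj.le, pre_at p hp hi hj, ptr_at p hp hi hj]
      by_cases h : j + 1 < i
      · rw [if_pos (by omega), if_pos h, if_neg (by omega), add_zero]
      · by_cases h' : j + 1 = i
        · rw [if_pos (by omega), if_neg h, if_pos h', zero_add]
        · rw [if_neg (by omega), if_neg h, if_neg h', add_zero]

theorem state_unique (p : ℕ → ι) (L : ℕ) (hp : ∀ a ≤ L, ∀ b ≤ L, p a = p b → a = b)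
    {i j : ℕ} (hi : i ≤ L) (hj : j ≤ L) (h : ptr K p i = ptr K p j) : i = j := by
  have h1 := congrFun h (p i)
  rw [ptr_at p hp hi hi, ptr_at p hp hj hi, if_pos rfl] at h1
  by_contra h2
  rw [if_neg h2] at h1
  exact one_ne_zero h1

end path

section masks

variable {K : Type*} [Ring K] [NoZeroDivisors K] [Nontrivial K]
  {G Γ J : Type*} [DecidableEq G] [DecidableEq J]

/-- A walk `vis 0, .., vis L` in `G × J`; step `s` applies the translation `γ s`. -/
structure Walk (G Γ J : Type*) (act : Γ → Equiv.Perm G) where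
  L : ℕ
  vis : ℕ → G × J
  dir : ℕ → Γ
  inj : ∀ a ≤ L, ∀ b ≤ L, vis a = vis b → a = b
  step : ∀ s < L, (vis (s + 1)).1 = act (dir s) (vis s).1

variable {act : Γ → Equiv.Perm G}

/-- public mask: the step after visit `(g, j)` uses `γ` and arrives at visit number `j'` -/
noncomputable def Walk.E (K : Type*) [Ring K] (w : Walk G Γ J act) (j : J) (γ : Γ) (j' : J)
    (g : G) : K := by
  classical
  exact if ∃ s < w.L, w.vis s = (g, j) ∧ w.dir s = γ ∧ (w.vis (s + 1)).2 = j' then 1 else 0

/-- public mask: `(g, j)` is visited -/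
noncomputable def Walk.Vis (K : Type*) [Ring K] (w : Walk G Γ J act) (j : J) (g : G) : K := by
  classical
  exact if ∃ s ≤ w.L, w.vis s = (g, j) then 1 else 0

/-- the relations of #5496 C2 -/
structure MaskRel (w : Walk G Γ J act) (D M : J → G → K) : Prop where
  dd : ∀ j g, D j g * D j g = D j g
  mm : ∀ j g, M j g * M j g = M j g
  dm : ∀ j g, D j g * M j g = 0
  offD : ∀ j g, (1 - w.Vis K j g) * D j g = 0
  offM : ∀ j g, (1 - w.Vis K j g) * M j g = 0
  first : ∀ j g, ptr K w.vis 0 (g, j) * (M j g + D j g - 1) = 0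
  last : ∀ j g, ptr K w.vis w.L (g, j) * M j g = 0
  step : ∀ j γ j' g, w.E K j γ j' g * (M j g - M j' (act γ g) - D j' (act γ g)) = 0

theorem masked_iff_ptrRel (w : Walk G Γ J act) (D M : J → G → K) :
    MaskRel w D M ↔ PtrRel w.vis w.L (fun x => D x.2 x.1) (fun x => M x.2 x.1) := by
  classical
  constructor
  · intro h
    refine ⟨fun x => h.dd _ _, fun x => h.mm _ _, fun x => h.dm _ _, fun x hx => ?_,
      fun x hx => ?_, ?_, ?_, fun j hj => ?_⟩
    · have h1 := h.offD x.2 x.1
      have : w.Vis K x.2 x.1 = 0 := by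
        unfold Walk.Vis
        rw [if_neg]
        rintro ⟨s, hs, hs'⟩
        exact hx s hs hs'.symm
      rwa [this, sub_zero, one_mul] at h1
    · have h1 := h.offM x.2 x.1
      have : w.Vis K x.2 x.1 = 0 := by
        unfold Walk.Vis
        rw [if_neg]
        rintro ⟨s, hs, hs'⟩
        exact hx s hs hs'.symm
      rwa [this, sub_zero, one_mul] at h1
    · have h1 := h.first (w.vis 0).2 (w.vis 0).1
      have : ptr K w.vis 0 ((w.vis 0).1, (w.vis 0).2) = 1 := by unfold ptr; simp
      rw [this, one_mul] at h1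
      exact sub_eq_zero.1 h1
    · have h1 := h.last (w.vis w.L).2 (w.vis w.L).1
      have : ptr K w.vis w.L ((w.vis w.L).1, (w.vis w.L).2) = 1 := by unfold ptr; simp
      rwa [this, one_mul] at h1
    · have h1 := h.step (w.vis j).2 (w.dir j) (w.vis (j + 1)).2 (w.vis j).1
      have : w.E K (w.vis j).2 (w.dir j) (w.vis (j + 1)).2 (w.vis j).1 = 1 := by
        unfold Walk.E
        rw [if_pos]
        exact ⟨j, hj, rfl, rfl, rfl⟩
      rw [this, one_mul, ← w.step j hj, sub_sub] at h1
      exact sub_eq_zero.1 h1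
  · intro h
    refine ⟨fun j g => h.dd (g, j), fun j g => h.mm (g, j), fun j g => h.dm (g, j),
      fun j g => ?_, fun j g => ?_, fun j g => ?_, fun j g => ?_, fun j γ j' g => ?_⟩
    · unfold Walk.Vis
      by_cases h' : ∃ s ≤ w.L, w.vis s = (g, j)
      · rw [if_pos h', sub_self, zero_mul]
      · have := h.offD (g, j) (fun k hk hk' => h' ⟨k, hk, hk'.symm⟩)
        simp only at this
        rw [this, mul_zero]
    · unfold Walk.Vis
      by_cases h' : ∃ s ≤ w.L, w.vis s = (g, j)
      · rw [if_pos h', sub_self, zero_mul]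
      · have := h.offM (g, j) (fun k hk hk' => h' ⟨k, hk, hk'.symm⟩)
        simp only at this
        rw [this, mul_zero]
    · unfold ptr
      split_ifs with h'
      · have := h.first
        rw [← h'] at this
        simp only at this
        rw [this, sub_self, mul_zero]
      · rw [zero_mul]
    · unfold ptr
      split_ifs with h'
      · have := h.last
        rw [← h'] at this
        simp only at this
        rw [this, mul_zero]
      · rw [zero_mul]
    · unfold Walk.E
      split_ifs with h'
      · obtain ⟨s, hs, h1, h2, h3⟩ := h'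
        have h4 := h.step s hs
        have h5 := w.step s hs
        rw [h1, h2] at h5
        simp only at h5
        rw [h1] at h4
        simp only at h4
        rw [h5, h3] at h4
        rw [h4, one_mul, sub_sub, sub_self]
      · rw [zero_mul]

/-- **(B4)** the masked relations (`J` visits per address) hold exactly for the pointer states -/
theorem masked_iff (w : Walk G Γ J act) (D M : J → G → K) :
    MaskRel w D M ↔ ∃ i ≤ w.L, (∀ j g, D j g = ptr K w.vis i (g, j)) ∧
      ∀ j g, M j g = pre K w.vis i (g, j) := by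
  rw [masked_iff_ptrRel, state_iff w.vis w.L w.inj]
  constructor
  · rintro ⟨i, hi, h1, h2⟩
    exact ⟨i, hi, fun j g => congrFun h1 (g, j), fun j g => congrFun h2 (g, j)⟩
  · rintro ⟨i, hi, h1, h2⟩
    exact ⟨i, hi, funext fun x => h1 x.2 x.1, funext fun x => h2 x.2 x.1⟩

end masks

section builder

variable {K : Type*} [Ring K] [NoZeroDivisors K] [Nontrivial K] {T : Type*} [DecidableEq T]
  {A : Type*} [AddCommGroup A] [Module K A]

/-- the cascade on the first `i + 1` points of the path -/
def bld {T : Type*} [DecidableEq T] {A : Type*} [AddCommGroup A] (p : ℕ → T) (Λ : A → A) (w : A)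
    (i : ℕ) : T → A :=
  fun x => ∑ j ∈ Finset.range (i + 1), if x = p j then Λ^[j] w else 0

theorem bld_at (p : ℕ → T) {L : ℕ} (hp : ∀ a ≤ L, ∀ b ≤ L, p a = p b → a = b) (Λ : A → A) (w : A)
    {i j : ℕ} (hi : i ≤ L) (hj : j ≤ L) :
    bld p Λ w i (p j) = if j ≤ i then Λ^[j] w else 0 := by
  unfold bld
  by_cases h : j ≤ i
  · rw [if_pos h, Finset.sum_eq_single j]
    · rw [if_pos rfl]
    · intro k hk hkj
      rw [if_neg]
      intro h'
      have hk' := Finset.mem_range.1 hk
      exact hkj (hp j hj k (by omega) h').symm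
    · intro h'
      exact absurd (Finset.mem_range.2 (by omega)) h'
  · rw [if_neg h]
    refine Finset.sum_eq_zero fun k hk => ?_
    have hk' := Finset.mem_range.1 hk
    rw [if_neg]
    intro h'
    have := hp j hj k (by omega) h'
    omega

theorem bld_off (p : ℕ → T) {L : ℕ} (Λ : A → A) (w : A) {i : ℕ} (hi : i ≤ L) {x : T}
    (hx : ∀ j ≤ L, x ≠ p j) : bld p Λ w i x = 0 := by
  unfold bld
  refine Finset.sum_eq_zero fun k hk => ?_
  have hk' := Finset.mem_range.1 hk
  rw [if_neg (hx k (by omega))]

/-- the relations of the builder register, on the path -/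
structure BldRel (p : ℕ → T) (L : ℕ) (Λ : A → A) (w : A) (D M : T → K) (W : T → A) : Prop where
  off : ∀ x, (1 - M x - D x) • W x = 0
  first : W (p 0) = w
  step : ∀ j < L, (M (p (j + 1)) + D (p (j + 1))) • (W (p (j + 1)) - Λ (W (p j))) = 0

/-- **(B2)** -/
theorem builder_iff (p : ℕ → T) (L : ℕ) (hp : ∀ a ≤ L, ∀ b ≤ L, p a = p b → a = b)
    (Λ : A → A) (w : A) {i : ℕ} (hi : i ≤ L) (W : T → A) :
    BldRel p L Λ w (ptr K p i) (pre K p i) W ↔ W = bld p Λ w i := by
  constructor
  · intro h
    have hlow : ∀ j ≤ i, W (p j) = Λ^[j] w := by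
      intro j
      induction j with
      | zero => intro _; simpa using h.first
      | succ j ih =>
        intro hj
        have h1 := h.step j (by omega)
        rw [ptr_at p hp hi (by omega), pre_at p hp hi (by omega), ih (by omega)] at h1
        have h2 : ((if j + 1 < i then (1 : K) else 0) + if j + 1 = i then 1 else 0) = 1 := by
          by_cases h' : j + 1 = i
          · rw [if_neg (by omega), if_pos h', zero_add]
          · rw [if_pos (by omega), if_neg h', add_zero]
        rw [h2, one_smul, sub_eq_zero] at h1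
        rw [h1, Function.iterate_succ_apply']
    refine funext fun x => ?_
    by_cases hx : ∀ j ≤ L, x ≠ p j
    · have h1 := h.off x
      rw [ptr_off p hi hx, pre_off p hi hx, sub_zero, sub_zero, one_smul] at h1
      rw [h1, bld_off p Λ w hi hx]
    · push Not at hx
      obtain ⟨j, hj, rfl⟩ := hx
      rw [bld_at p hp Λ w hi hj]
      split_ifs with h'
      · exact hlow j h'
      · have h1 := h.off (p j)
        rw [ptr_at p hp hi hj, pre_at p hp hi hj, if_neg (by omega), if_neg (by omega),
          sub_zero, sub_zero, one_smul] at h1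
        exact h1
  · rintro rfl
    refine ⟨fun x => ?_, ?_, fun j hj => ?_⟩
    · by_cases hx : ∀ j ≤ L, x ≠ p j
      · rw [bld_off p Λ w hi hx, smul_zero]
      · push Not at hx
        obtain ⟨j, hj, rfl⟩ := hx
        rw [bld_at p hp Λ w hi hj, ptr_at p hp hi hj, pre_at p hp hi hj]
        by_cases h : j < i
        · rw [if_pos h, if_neg (by omega), sub_self, sub_zero, zero_smul]
        · by_cases h' : j = i
          · rw [if_neg h, if_pos h', sub_zero, sub_self, zero_smul]
          · rw [if_neg (show ¬ j ≤ i by omega), smul_zero]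
    · rw [bld_at p hp Λ w hi (Nat.zero_le _), if_pos (Nat.zero_le _)]
      rfl
    · rw [bld_at p hp Λ w hi hj.le, bld_at p hp Λ w hi (by omega), ptr_at p hp hi (by omega),
        pre_at p hp hi (by omega)]
      by_cases h : j + 1 ≤ i
      · rw [if_pos h, if_pos (show j ≤ i by omega), Function.iterate_succ_apply', sub_self,
          smul_zero]
      · rw [if_neg (show ¬ j + 1 < i by omega), if_neg (show ¬ j + 1 = i by omega), add_zero,
          zero_smul]

/-! ### (B3) step formulas -/

theorem pre_succ (p : ℕ → T) {L : ℕ} (hp : ∀ a ≤ L, ∀ b ≤ L, p a = p b → a = b) {i : ℕ}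
    (hi : i ≤ L) (x : T) : pre K p (i + 1) x = pre K p i x + ptr K p i x := by
  classical
  unfold pre ptr
  by_cases h : x = p i
  · rw [if_pos ⟨i, Nat.lt_succ_self _, h⟩, if_pos h, if_neg, zero_add]
    rintro ⟨k, hk, hk'⟩
    have := hp i hi k (by omega) (h ▸ hk')
    omega
  · rw [if_neg h, add_zero]
    by_cases h' : ∃ j < i, x = p j
    · obtain ⟨j, hj, hj'⟩ := h'
      rw [if_pos ⟨j, by omega, hj'⟩, if_pos ⟨j, hj, hj'⟩]
    · rw [if_neg h', if_neg]
      rintro ⟨k, hk, hk'⟩
      rcases Nat.lt_succ_iff_lt_or_eq.1 hk with h1 | h1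
      · exact h' ⟨k, h1, hk'⟩
      · exact h (h1 ▸ hk')

theorem bld_succ (p : ℕ → T) (Λ : A → A) (w : A) (i : ℕ) (x : T) :
    bld p Λ w (i + 1) x = bld p Λ w i x + ptr K p (i + 1) x • Λ (Λ^[i] w) := by
  unfold bld ptr
  rw [Finset.sum_range_succ]
  congr 1
  split_ifs
  · rw [one_smul, Function.iterate_succ_apply']
  · rw [zero_smul]

/-- forward step of the builder register: `W' = W + D' ⊗ Λ c`, `c = W (p i)` -/
theorem step_W (p : ℕ → T) {L : ℕ} (hp : ∀ a ≤ L, ∀ b ≤ L, p a = p b → a = b) (Λ : A → A) (w : A)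
    {i : ℕ} (hi : i ≤ L) (x : T) :
    bld p Λ w (i + 1) x =
      bld p Λ w i x + ptr K p (i + 1) x • Λ (bld p Λ w i (p i)) := by
  rw [bld_succ (K := K) p Λ w i x, bld_at p hp Λ w hi hi, if_pos le_rfl]

/-- backward step: `W = W' - D' ⊗ c'`, `c' = W' (p (i + 1))` -/
theorem back_W (p : ℕ → T) {L : ℕ} (hp : ∀ a ≤ L, ∀ b ≤ L, p a = p b → a = b) (Λ : A → A) (w : A)
    {i : ℕ} (hi : i + 1 ≤ L) (x : T) :
    bld p Λ w i x =
      bld p Λ w (i + 1) x - ptr K p (i + 1) x • bld p Λ w (i + 1) (p (i + 1)) := by
  rw [bld_at p hp Λ w hi hi, if_pos le_rfl, bld_succ (K := K) p Λ w i x,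
    Function.iterate_succ_apply', add_sub_cancel_right]

end builder

section path1

variable {K : Type*} [Ring K] [NoZeroDivisors K] [Nontrivial K] {T Γ : Type*} [DecidableEq T]
  {A : Type*} [AddCommGroup A] [Module K A]

/-- a path `p 0, .., p L` of distinct points, `nb (dir i) (p i) = p (i + 1)` -/
structure Path1 (T Γ : Type*) (nb : Γ → Equiv.Perm T) where
  L : ℕ
  p : ℕ → T
  dir : ℕ → Γ
  inj : ∀ a ≤ L, ∀ b ≤ L, p a = p b → a = b
  step : ∀ i < L, nb (dir i) (p i) = p (i + 1)

variable {nb : Γ → Equiv.Perm T}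

/-- forward public mask -/
noncomputable def Path1.E (K : Type*) [Ring K] (P : Path1 T Γ nb) (g : Γ) (t : T) : K := by
  classical
  exact if ∃ i < P.L, t = P.p i ∧ P.dir i = g then 1 else 0

/-- backward public mask -/
noncomputable def Path1.Eb (K : Type*) [Ring K] (P : Path1 T Γ nb) (g : Γ) (t : T) : K := by
  classical
  exact if ∃ i < P.L, t = P.p (i + 1) ∧ P.dir i = g then 1 else 0

/-- public mask of the path -/
noncomputable def Path1.Vis (K : Type*) [Ring K] (P : Path1 T Γ nb) (t : T) : K := by
  classical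
  exact if ∃ i ≤ P.L, t = P.p i then 1 else 0

theorem Path1.E_at (P : Path1 T Γ nb) {i : ℕ} (hi : i < P.L) (g : Γ) [Decidable (P.dir i = g)] :
    P.E K g (P.p i) = if P.dir i = g then 1 else 0 := by
  classical
  unfold Path1.E
  by_cases h : P.dir i = g
  · rw [if_pos h, if_pos ⟨i, hi, rfl, h⟩]
  · rw [if_neg h, if_neg]
    rintro ⟨j, hj, h1, h2⟩
    have := P.inj i hi.le j hj.le h1
    subst this
    exact h h2

theorem Path1.Eb_at (P : Path1 T Γ nb) {i : ℕ} (hi : i < P.L) (g : Γ) [Decidable (P.dir i = g)] :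
    P.Eb K g (P.p (i + 1)) = if P.dir i = g then 1 else 0 := by
  classical
  unfold Path1.Eb
  by_cases h : P.dir i = g
  · rw [if_pos h, if_pos ⟨i, hi, rfl, h⟩]
  · rw [if_neg h, if_neg]
    rintro ⟨j, hj, h1, h2⟩
    have := P.inj (i + 1) (by omega) (j + 1) (by omega) h1
    have : i = j := by omega
    subst this
    exact h h2

/-- all content relations of the builder machine with public masks (#5655 (3)) -/
structure AllRel (P : Path1 T Γ nb) (Λ : A → A) (w : A) (D M : T → K) (W : T → A) : Prop where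
  dd : ∀ t, D t * D t = D t
  mm : ∀ t, M t * M t = M t
  dm : ∀ t, D t * M t = 0
  offD : ∀ t, (1 - P.Vis K t) * D t = 0
  offM : ∀ t, (1 - P.Vis K t) * M t = 0
  first : ∀ t, ptr K P.p 0 t * (M t + D t - 1) = 0
  last : ∀ t, ptr K P.p P.L t * M t = 0
  step : ∀ g t, P.E K g t * (M t - M (nb g t) - D (nb g t)) = 0
  offW : ∀ t, (1 - M t - D t) • W t = 0
  firstW : ∀ t, ptr K P.p 0 t • (W t - w) = 0
  stepW : ∀ g t, P.Eb K g t • ((M t + D t) • (W t - Λ (W ((nb g).symm t)))) = 0

theorem allRel_iff (P : Path1 T Γ nb) (Λ : A → A) (w : A) (D M : T → K) (W : T → A) :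
    AllRel P Λ w D M W ↔
      ∃ i ≤ P.L, D = ptr K P.p i ∧ M = pre K P.p i ∧ W = bld P.p Λ w i := by
  classical
  constructor
  · intro h
    have hP : PtrRel P.p P.L D M := by
      refine ⟨h.dd, h.mm, h.dm, fun x hx => ?_, fun x hx => ?_, ?_, ?_, fun j hj => ?_⟩
      · have h1 := h.offD x
        have : P.Vis K x = 0 := by
          unfold Path1.Vis
          rw [if_neg]
          rintro ⟨s, hs, hs'⟩
          exact hx s hs hs'
        rwa [this, sub_zero, one_mul] at h1
      · have h1 := h.offM x
        have : P.Vis K x = 0 := by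
          unfold Path1.Vis
          rw [if_neg]
          rintro ⟨s, hs, hs'⟩
          exact hx s hs hs'
        rwa [this, sub_zero, one_mul] at h1
      · have h1 := h.first (P.p 0)
        rw [ptr_at P.p P.inj (Nat.zero_le _) (Nat.zero_le _), if_pos rfl, one_mul] at h1
        exact sub_eq_zero.1 h1
      · have h1 := h.last (P.p P.L)
        rwa [ptr_at P.p P.inj le_rfl le_rfl, if_pos rfl, one_mul] at h1
      · have h1 := h.step (P.dir j) (P.p j)
        rw [P.E_at hj, if_pos rfl, one_mul, P.step j hj, sub_sub] at h1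
        exact sub_eq_zero.1 h1
    obtain ⟨i, hi, rfl, rfl⟩ := (state_iff P.p P.L P.inj D M).1 hP
    refine ⟨i, hi, rfl, rfl, (builder_iff (K := K) P.p P.L P.inj Λ w hi W).1 ⟨h.offW, ?_, ?_⟩⟩
    · have h1 := h.firstW (P.p 0)
      rw [ptr_at P.p P.inj (Nat.zero_le _) (Nat.zero_le _), if_pos rfl, one_smul] at h1
      exact sub_eq_zero.1 h1
    · intro j hj
      have h1 := h.stepW (P.dir j) (P.p (j + 1))
      rw [P.Eb_at hj, if_pos rfl, one_smul] at h1
      have h2 : (nb (P.dir j)).symm (P.p (j + 1)) = P.p j := by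
        rw [Equiv.symm_apply_eq]
        exact (P.step j hj).symm
      rwa [h2] at h1
  · rintro ⟨i, hi, rfl, rfl, rfl⟩
    have hP := (state_iff (K := K) P.p P.L P.inj _ _).2 ⟨i, hi, rfl, rfl⟩
    have hB := (builder_iff (K := K) P.p P.L P.inj Λ w hi _).2 rfl
    refine ⟨hP.dd, hP.mm, hP.dm, fun t => ?_, fun t => ?_, fun t => ?_, fun t => ?_,
      fun g t => ?_, hB.off, fun t => ?_, fun g t => ?_⟩
    · unfold Path1.Vis
      by_cases h' : ∃ s ≤ P.L, t = P.p s
      · rw [if_pos h', sub_self, zero_mul]
      · rw [hP.offD t (fun k hk hk' => h' ⟨k, hk, hk'⟩), mul_zero]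
    · unfold Path1.Vis
      by_cases h' : ∃ s ≤ P.L, t = P.p s
      · rw [if_pos h', sub_self, zero_mul]
      · rw [hP.offM t (fun k hk hk' => h' ⟨k, hk, hk'⟩), mul_zero]
    · by_cases h' : t = P.p 0
      · subst h'
        rw [hP.first, sub_self, mul_zero]
      · unfold ptr
        rw [if_neg h', zero_mul]
    · by_cases h' : t = P.p P.L
      · subst h'
        rw [hP.last, mul_zero]
      · unfold ptr
        rw [if_neg h', zero_mul]
    · unfold Path1.E
      split_ifs with h'
      · obtain ⟨s, hs, h1, h2⟩ := h'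
        have h4 := hP.step s hs
        have h5 := P.step s hs
        rw [h2, ← h1] at h5
        rw [← h1] at h4
        rw [h5, h4, one_mul, sub_sub, sub_self]
      · rw [zero_mul]
    · by_cases h' : t = P.p 0
      · subst h'
        rw [hB.first, sub_self, smul_zero]
      · unfold ptr
        rw [if_neg h', zero_smul]
    · unfold Path1.Eb
      split_ifs with h'
      · obtain ⟨s, hs, h1, h2⟩ := h'
        have h4 := hB.step s hs
        have h6 : (nb g).symm t = P.p s := by
          rw [Equiv.symm_apply_eq, h1, ← h2]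
          exact (P.step s hs).symm
        rw [h6, h1, h4, smul_zero]
      · rw [zero_smul]

variable [Fintype Γ] [Fintype T]

/-- forward step of the pointer from the read direction bits -/
theorem step_D (P : Path1 T Γ nb) {i : ℕ} (hi : i < P.L) (t : T) :
    ptr K P.p (i + 1) t = ∑ g, P.E K g (P.p i) * ptr K P.p i ((nb g).symm t) := by
  classical
  rw [Finset.sum_eq_single (P.dir i)]
  · rw [P.E_at hi, if_pos rfl, one_mul]
    unfold ptr
    have : ((nb (P.dir i)).symm t = P.p i) ↔ t = P.p (i + 1) := by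
      rw [Equiv.symm_apply_eq, P.step i hi]
    by_cases h : t = P.p (i + 1)
    · rw [if_pos h, if_pos (this.2 h)]
    · rw [if_neg h, if_neg (fun h' => h (this.1 h'))]
  · intro g _ hg
    rw [P.E_at hi, if_neg (Ne.symm hg), zero_mul]
  · intro h
    exact absurd (Finset.mem_univ _) h

/-- backward step of the pointer -/
theorem back_D (P : Path1 T Γ nb) {i : ℕ} (hi : i < P.L) (t : T) :
    ptr K P.p i t = ∑ g, P.Eb K g (P.p (i + 1)) * ptr K P.p (i + 1) (nb g t) := by
  classical
  rw [Finset.sum_eq_single (P.dir i)]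
  · rw [P.Eb_at hi, if_pos rfl, one_mul]
    unfold ptr
    have : (nb (P.dir i) t = P.p (i + 1)) ↔ t = P.p i := by
      rw [← P.step i hi, Equiv.apply_eq_iff_eq]
    by_cases h : t = P.p i
    · rw [if_pos h, if_pos (this.2 h)]
    · rw [if_neg h, if_neg (fun h' => h (this.1 h'))]
  · intro g _ hg
    rw [P.Eb_at hi, if_neg (Ne.symm hg), zero_mul]
  · intro h
    exact absurd (Finset.mem_univ _) h

/-- reads: `Σ_t D t * f t = f (p i)` -/
theorem read_eq (p : ℕ → T) (i : ℕ) (f : T → A) :
    ∑ t, ptr K p i t • f t = f (p i) := by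
  rw [Finset.sum_eq_single (p i)]
  · unfold ptr
    rw [if_pos rfl, one_smul]
  · intro t _ ht
    unfold ptr
    rw [if_neg ht, zero_smul]
  · intro h
    exact absurd (Finset.mem_univ _) h

/-- the read relation of (1b): `f D = c D` pointwise iff `c = f (p i)` -/
theorem read_iff (p : ℕ → T) (i : ℕ) (f : T → A) (c : A) :
    (∀ t, ptr K p i t • (f t - c) = 0) ↔ c = f (p i) := by
  constructor
  · intro h
    have h1 := h (p i)
    unfold ptr at h1
    rw [if_pos rfl, one_smul, sub_eq_zero] at h1
    exact h1.symm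
  · rintro rfl t
    unfold ptr
    split_ifs with h
    · rw [h, sub_self, smul_zero]
    · rw [zero_smul]

end path1

end Crest.Agent.R289.Builder490
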