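import Crest.Agent.R289.ULAsm_406
import Crest.Agent.R289.SampU_560
import Crest.Agent.R289.FamGlue_715

/-!
# Row 289: the last generic joint (helper395)

`fam289_of_top` : semantic data `D : Sem` with uniformly local maps, a local code with uniform
constants, gap, exact step facts (`Top`), and polynomial-time tables of the BASE steps, the public
data and the start labels of ONE unit (`FamT St A P` of `FamGlue_715`, `Desc`) give `Asm12.Fam289`.
Chosen inside: radius of the rules, number of samples, error `γ`, coding of labels and public views,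
all constants.
-/

set_option autoImplicit false
set_option linter.dupNamespace false

namespace Crest.Agent.R289.CTop395

open Crest.PPADPCP Crest.Agent.Lib.PT Crest.Agent.R289 Crest.Agent.R289.DefD
open Crest.Agent.R289.Word508 Crest.Agent.R289.ULoc406 Crest.Agent.R289.ULAsm406
open Crest.Agent.R289.Tab858 Crest.Agent.R289.FamComb715 Crest.Agent.R289.FamPub715
open Crest.Agent.R289.FamGlue715 Crest.Agent.R289.Sampler56 Crest.Agent.R289.SampU560

/-! ### words of steps -/

section walks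

variable {St U V : Type}

theorem walk_comm {mv : St → U → U} {mv' : St → V → V} {φ : U → V}
    (h : ∀ s u, φ (mv s u) = mv' s (φ u)) (l : List St) (u : U) :
    φ (walk mv l u) = walk mv' l (φ u) := by
  induction l generalizing u with
  | nil => rfl
  | cons s l ih =>
    show φ (walk mv l (mv s u)) = walk mv' l (mv' s (φ u))
    rw [ih, h]

theorem ptf_walk {α : Type} [PTCode α] {g : St → α → ℕ → ℕ} (hg : ∀ s, PTF₂ (g s))
    (l : List St) : PTF₂ (fun a u => walk (fun s => g s a) l u) := by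
  induction l with
  | nil => exact ptf₂_id
  | cons s l ih => exact ptf₂_comp (g := fun a u => walk (fun s => g s a) l u) (h := g s) ih (hg s)

theorem nbMult_walk [Fintype U] {mv : St → U → U} {m : ℝ} (h : NbMult mv m) (hm : 1 ≤ m)
    (l : List St) (E : U → Prop) : frac (fun u => E (walk mv l u)) ≤ m ^ l.length * frac E := by
  induction l with
  | nil =>
    show frac E ≤ _
    simp
  | cons s l ih =>
    have h1 := h s (fun u => E (walk mv l u))
    have h2 : frac (fun u => E (walk mv (s :: l) u)) ≤ m * frac (fun u => E (walk mv l u)) := h1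
    calc frac (fun u => E (walk mv (s :: l) u)) ≤ m * frac (fun u => E (walk mv l u)) := h2
      _ ≤ m * (m ^ l.length * frac E) := mul_le_mul_of_nonneg_left ih (by linarith)
      _ = m ^ (s :: l).length * frac E := by rw [List.length_cons, pow_succ]; ring

theorem nbMult_nbS [Fintype U] {mv : St → U → U} {m : ℝ} (h : NbMult mv m) (hm : 1 ≤ m) (n : ℕ) :
    NbMult (nbS mv n) (m ^ n) := by
  intro s E
  refine (nbMult_walk h hm s.1 E).trans ?_
  exact mul_le_mul_of_nonneg_right (pow_le_pow_right₀ hm s.2) (frac_nonneg _)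

end walks

/-! ### tables of the composite slots -/

section tables

variable {St A P : Type}

/-- tables of the slots of radius `n` with `16 ^ t` samples -/
def compT (B : FamT St A P) (n t : ℕ) :
    FamT (Sl St n ⊕ Fin (16 ^ t) × Sl St n) A
      ((Sl St n → P) × (Fin (16 ^ t) → Sl St n → P)) where
  n := B.n
  nb s e u := snb (fun (w : Sl St n) v => walk (fun s' => B.nb s' e) w.1 v)
    (fun (a : Fin (16 ^ t)) v => samp2 (B.n e) t a v) s u
  pub e u := spub (fun v (w : Sl St n) => B.pub e (walk (fun s' => B.nb s' e) w.1 v))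
    (fun (a : Fin (16 ^ t)) v => samp2 (B.n e) t a v) u
  w0 := B.w0
  len := B.len
  adN := B.adN
  adM := B.adM

theorem compT_PT [Finite St] [Finite P] {B : FamT St A P} (h : B.PT) (n t : ℕ) :
    (compT B n t).PT where
  n := h.n
  nb s := ptf_snb (g := fun (w : Sl St n) e u => walk (fun s' => B.nb s' e) w.1 u)
    (sm := fun (a : Fin (16 ^ t)) e u => samp2 (B.n e) t a u)
    (fun w => ptf_walk (g := B.nb) h.nb w.1)
    (fun _ => ptf_samp2 t (PTF.comp h.n PTF.fst) (PTF.const _) PTF.snd) s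
  pub := fp_spub (p := fun e v (w : Sl St n) => B.pub e (walk (fun s' => B.nb s' e) w.1 v))
    (sm := fun (a : Fin (16 ^ t)) e u => samp2 (B.n e) t a u)
    (FP₂.pi (v := fun (w : Sl St n) e v => B.pub e (walk (fun s' => B.nb s' e) w.1 v))
      fun w => FP₂.slot h.pub (ptf_walk (g := B.nb) h.nb w.1))
    (fun _ => ptf_samp2 t (PTF.comp h.n PTF.fst) (PTF.const _) PTF.snd)
  w0 := h.w0
  len := h.len
  adN := h.adN
  adM := h.adM

end tables

/-! ### codes of finite types -/

theorem exists_enc (A : Type) [Finite A] : ∃ (l : ℕ) (enc : A → Fin l → Bool),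
    Function.Injective enc := by
  obtain ⟨n, ⟨e⟩⟩ := Finite.exists_equiv_fin A
  refine ⟨n, fun a j => decide (e a = j), fun a b h => ?_⟩
  have := congrFun h (e a)
  simp only [decide_true] at this
  exact (e.injective (of_decide_eq_true this.symm)).symm

/-! ### the theorem -/

/-- facts of the word-level machines, all instances, uniform constants -/
structure Top {Inst St : Type} {U : Inst → Type} [∀ i, Fintype (U i)]
    {A P ι0 P0 Jr J J' : Type} {V : J → Type} {V' : J' → Type}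
    (D : Sem Inst U A Jr J J' V V') (mv : ∀ i, St → U i → U i) (pub : ∀ i, U i → P)
    (nb0 : ∀ i, ι0 → U i → U i) (pub0 : ∀ i, U i → P0) (R0 : CRules ι0 A P0)
    (C : ∀ i, Set (U i → A)) (w0 : ∀ i, U i → A) (mm m zs r0 d0 c θ g ρ : ℝ) : Prop where
  real : Real mv pub nb0 pub0
  loc : D.Loc mv pub
  mult : ∀ i, NbMult (mv i) mm
  cax : ∀ i, CAx R0 (nb0 i) (pub0 i) (C i) m zs r0 d0 c θ
  gap : ∀ i, ∀ w ∈ C i, (¬ ∀ j u, D.rel j i w u) → ∃ j, g ≤ frac fun u => ¬ D.rel j i w u
  w0_mem : ∀ i, w0 i ∈ D.W i (C i)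
  N_mem : ∀ i, ∀ w ∈ D.W i (C i), D.N i w ∈ D.W i (C i)
  M_mem : ∀ i, ∀ w ∈ D.W i (C i), D.M i w ∈ D.W i (C i)
  MN : ∀ i, ∀ w ∈ D.W i (C i), D.N i w ≠ w → D.M i (D.N i w) = w
  NM : ∀ i, ∀ w ∈ D.W i (C i), D.M i w ≠ w → D.N i (D.M i w) = w
  M_w0 : ∀ i, D.M i (w0 i) = w0 i
  N_w0 : ∀ i, D.N i (w0 i) ≠ w0 i
  cohN : ∀ i, ∀ w ∈ D.W i (C i), ∀ j, Coh (D.vl j i w) ρ
  cohM : ∀ i, ∀ w ∈ D.W i (C i), ∀ j, Coh (D.vl' j i w) ρ

/-- the base tables describe the instance `i` belonging to `I` -/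
def Desc {Inst St : Type} {U : Inst → Type}
    {A P Jr J J' : Type} {V : J → Type} {V' : J' → Type}
    (D : Sem Inst U A Jr J J' V V') (mv : ∀ i, St → U i → U i) (pub : ∀ i, U i → P)
    (C : ∀ i, Set (U i → A)) (w0 : ∀ i, U i → A) (gN gM : A → Bool)
    (B : FamT St A P) (I : EOL) (i : Inst) : Prop :=
  ∃ eU : U i ≃ Fin (B.n (raw I)),
    (∀ s u, B.nb s (raw I) (eU u : Fin (B.n (raw I))) = (eU (mv i s u) : Fin (B.n (raw I)))) ∧
    (∀ u, B.pub (raw I) (eU u : Fin (B.n (raw I))) = pub i u) ∧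
    (∀ u, B.w0 (raw I) (eU u : Fin (B.n (raw I))) = w0 i u) ∧
    (∀ w ∈ D.W i (C i), D.N i w = w → ∃ v : Fin I.n → Bool, I.IsSolution v ∧
      ∀ j : Fin I.n, ∃ u : U i, ((eU u : Fin (B.n (raw I))) : ℕ) = B.adN (raw I, (j : ℕ)) ∧
        gN (w u) = v j) ∧
    (∀ w ∈ D.W i (C i), D.M i w = w → w ≠ w0 i → ∃ v : Fin I.n → Bool, I.IsSolution v ∧
      ∀ j : Fin I.n, ∃ u : U i, ((eU u : Fin (B.n (raw I))) : ℕ) = B.adM (raw I, (j : ℕ)) ∧
        gM (w u) = v j)

/-- **the last generic joint** -/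
theorem fam289_of_top {Inst St : Type} {U : Inst → Type} [∀ i, Fintype (U i)]
    {A P ι0 P0 Jr J J' : Type} [Finite St] [Finite A] [Nonempty A] [Finite P] [Nonempty P]
    [Finite ι0] [Finite Jr] [Fintype J] [Fintype J'] {V : J → Type} {V' : J' → Type}
    [∀ j, Finite (V j)] [∀ j, Finite (V' j)]
    (D : Sem Inst U A Jr J J' V V') (mv : ∀ i, St → U i → U i) (pub : ∀ i, U i → P)
    (nb0 : ∀ i, ι0 → U i → U i) (pub0 : ∀ i, U i → P0) (R0 : CRules ι0 A P0)
    (C : ∀ i, Set (U i → A)) (w0 : ∀ i, U i → A) {mm m zs r0 d0 c θ g ρ : ℝ}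
    (H : Top D mv pub nb0 pub0 R0 C w0 mm m zs r0 d0 c θ g ρ)
    (hmm : 1 ≤ mm) (hzs : 0 < zs) (hr0 : 0 < r0) (hd0 : 0 < d0) (hc : 0 ≤ c)
    (hθ : θ ≤ 1 / 4) (hg : 0 < g) (hρ : 0 < ρ) (gN gM : A → Bool)
    (inst : ℕ → ∀ I : EOL, I.WF → Inst)
    (T : ∀ n0 : ℕ, ∃ (B : FamT St A P) (a b : ℕ), B.PT ∧ ∀ (I : EOL) (hI : I.WF),
      n0 ≤ B.n (raw I) ∧
      B.n (raw I) ≤ a * I.encode.length * (Nat.clog 2 (I.encode.length + 2)) ^ b ∧
      B.len (raw I) = I.n ∧ Desc D mv pub C w0 gN gM B I (inst n0 I hI)) :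
    Asm12.Fam289 := by
  classical
  -- radius and rules
  obtain ⟨n, hn⟩ := exists_rules H.real H.loc
  obtain ⟨R⟩ := hn n le_rfl
  let _ : Fintype (Sl St n) := Fintype.ofFinite _
  -- samples
  set γ0 : ℝ := min r0 d0 / 10 with hγ0
  have hγ0p : 0 < γ0 := by
    have := lt_min hr0 hd0
    positivity
  have hγr : 5 * γ0 < r0 := by
    have h1 := min_le_left r0 d0
    rw [hγ0]
    linarith
  have hγd : 5 * γ0 < d0 := by
    have h1 := min_le_right r0 d0
    rw [hγ0]
    linarith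
  set γ : ℝ := γ0 / (Fintype.card J + Fintype.card J' + 1) with hγ
  have hden : (0 : ℝ) < Fintype.card J + Fintype.card J' + 1 := by positivity
  have hγp : 0 < γ := div_pos hγ0p hden
  have hγm : γ * (Fintype.card J + Fintype.card J' + 1) = γ0 := by
    rw [hγ]
    field_simp
  obtain ⟨t, n1, hS⟩ := samples (θ := 1) (e1 := ρ / 2) (γ := γ) one_pos (by positivity) hγp
  -- codes
  obtain ⟨l, enc, henc⟩ := exists_enc A
  obtain ⟨r, encP, hencP⟩ := exists_enc ((Sl St n → P) × (Fin (16 ^ t) → Sl St n → P))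
  obtain ⟨k, ⟨e⟩⟩ := Finite.exists_equiv_fin (Sl St n ⊕ Fin (16 ^ t) × Sl St n)
  -- constants
  have hm' : (1 : ℝ) ≤ mm ^ n := one_le_pow₀ hmm
  set zs' : ℝ := min zs (g / (2 * (1 + Fintype.card (Sl St n) * mm ^ n * c))) with hzs'
  have hzsp : 0 < zs' := by
    refine lt_min hzs (div_pos hg ?_)
    positivity
  set c1 : ℝ := max 1 (max (c + 1)
    (((16 ^ t : ℕ) + 1) * Fintype.card (Sl St n) * (mm ^ n * 2))) with hc1
  have hc1p : (1 : ℝ) ≤ c1 := le_max_left _ _
  set K : MConst := mconst zs' r0 d0 c1 γ0 hzsp hr0 hd0 hc1p hγ0p.le with hK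
  refine fam289_of (asmRules (16 ^ t) (R.code R0) R.rel R.S R.S') e enc henc encP K gN gM hγr hγd
    fun n0 => ?_
  obtain ⟨B, a, b, hPT, hB⟩ := T (max n0 (max n1 1))
  refine ⟨compT B n t, a, b, compT_PT hPT n t, fun I hI => ?_⟩
  obtain ⟨h1, h2, h3, hdesc⟩ := hB I hI
  generalize inst (max n0 (max n1 1)) I hI = i at hdesc
  obtain ⟨eU, h4, h5, h6, h7, h8⟩ := hdesc
  have hn0 : n0 ≤ B.n (raw I) := (le_max_left _ _).trans h1
  have hn1 : n1 ≤ B.n (raw I) := (le_max_left _ _).trans ((le_max_right _ _).trans h1)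
  have hnp : 0 < B.n (raw I) := (le_max_right _ _).trans ((le_max_right _ _).trans h1)
  refine ⟨hn0, hnp, h2, h3, ?_⟩
  obtain ⟨hs1, hs2, -, -⟩ := hS t le_rfl (U i) (B.n (raw I)) eU hnp hn1
  have hsm : ∀ (a : Fin (16 ^ t)) (u : U i),
      ((eU (uS eU hnp t a u) : Fin (B.n (raw I))) : ℕ) =
        samp2 (B.n (raw I)) t a ((eU u : Fin (B.n (raw I))) : ℕ) := by
    intro a u
    unfold uS
    rw [Equiv.apply_symm_apply]
    rfl
  have hwk : ∀ (w : Sl St n) (u : U i),
      ((eU (nbS (mv i) n w u) : Fin (B.n (raw I))) : ℕ) =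
        walk (fun s' => B.nb s' (raw I)) w.1 ((eU u : Fin (B.n (raw I))) : ℕ) := fun w u =>
    walk_comm (φ := fun u => ((eU u : Fin (B.n (raw I))) : ℕ)) (fun s u => (h4 s u).symm) w.1 u
  have hW : restrictC (nbS (mv i) n) (pubS (mv i) (pub i) n) (C i) R.rel = D.W i (C i) :=
    R.restrictC_eq i (C i)
  refine ⟨U i, inferInstance, eU, snb (nbS (mv i) n) (uS eU hnp t),
    spub (pubS (mv i) (pub i) n) (uS eU hnp t), D.W i (C i), w0 i, D.N i, D.M i, ?_, ?_, h6, ?_,
    h7, h8⟩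
  · intro s u
    exact (snb_comm (φ := fun u => ((eU u : Fin (B.n (raw I))) : ℕ)) hwk hsm s u).symm
  · intro u
    refine spub_comm (φ := fun u => ((eU u : Fin (B.n (raw I))) : ℕ))
      (pub := pubS (mv i) (pub i) n)
      (pub' := fun v (w : Sl St n) => B.pub (raw I) (walk (fun s' => B.nb s' (raw I)) w.1 v))
      hsm (fun v => ?_) u
    funext w
    show B.pub (raw I) (walk (fun s' => B.nb s' (raw I)) w.1 _) = pub i (nbS (mv i) n w v)
    rw [← hwk, h5]
  · have key := asm_Ax (k := k) (l := l) (r := r) (R.code R0) R.rel R.S R.S' (nbS (mv i) n)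
      (pubS (mv i) (pub i) n) (C i) (uS eU hnp t) (m := mm ^ n) (ms := 2) (g := g) (e := ρ / 2)
      (γ := γ) (ρ := ρ)
      (R.cax (H.cax i) (nbMult_nbS (H.mult i) hmm n)) hm' hs2 (by norm_num) hc hg
      (R.gap (H.gap i)) hs1 (by linarith) hγp.le (w0 i) (D.N i) (D.M i)
      (by rw [hW]; exact H.w0_mem i)
      (by rw [hW]; exact H.N_mem i)
      (by rw [hW]; exact H.M_mem i)
      (by rw [hW]; exact H.MN i)
      (by rw [hW]; exact H.NM i)
      (H.M_w0 i) (H.N_w0 i)
      (fun w _ => (R.glob_eq i w).symm)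
      (fun w _ => (R.glob_eq' i w).symm)
      (by rw [hW]; exact fun w hw j => R.coh w j (H.cohN i w hw j))
      (by rw [hW]; exact fun w hw j => R.coh' w j (H.cohM i w hw j))
      (Sl.nil St n) (fun u => rfl) hθ e enc henc encP hencP K le_rfl le_rfl le_rfl
      ((le_max_left _ _).trans (le_max_right _ _))
      ((le_max_right _ _).trans (le_max_right _ _))
      (by
        show (Fintype.card J : ℝ) * γ ≤ γ0
        have : (0 : ℝ) ≤ Fintype.card J' := Nat.cast_nonneg _
        nlinarith)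
      (by
        show (Fintype.card J' : ℝ) * γ ≤ γ0
        have : (0 : ℝ) ≤ Fintype.card J := Nat.cast_nonneg _
        nlinarith)
    rw [hW] at key
    exact key

end Crest.Agent.R289.CTop395
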