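import Mathlib

/-!
# Row 289, leaf C_TR (P2b of post #5912): transcripts of straight-line programs on contents

Content level only.  `Gam` = addresses, `act g` = left translations, `Lane` = lanes.  A program is a
walk `vis : ℕ → Gam × J` (step `s < L` is executed at `(vis s).1`, visits are distinct) together with
`ins : ℕ → Option (Lane × Op)` (what is written at step `s`).

* `Prog.pre x t` = the transcript after `t` steps, `Prog.val x = pre x L`;
* `pre_succ_add` : one step adds `value • delta`;
* `mform_iff`    : the local relations with the prefix masks `M` hold iff `F = pre x t`;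
* `full_iff`     : the local relations with the full masks hold iff `F = val x`.
-/

set_option autoImplicit false

namespace Crest.Agent.R289.CTr89

open Finset

/-- operations: input, constant, NAND of two translated cells -/
inductive Op (G Lane K : Type)
  | inp : Op G Lane K
  | cst : K → Op G Lane K
  | nand : G → Lane → G → Lane → Op G Lane K
  deriving DecidableEq

section defs
variable {Gam G Lane J K : Type} [Field K]

/-- value of an operation at the address `a` -/
def Op.eval (act : G → Equiv.Perm Gam) (x : Gam → K) (F : Lane → Gam → K) (a : Gam) :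
    Op G Lane K → K
  | .inp => x a
  | .cst b => b
  | .nand g1 l1 g2 l2 => 1 - F l1 (act g1 a) * F l2 (act g2 a)

/-- the argument cells of an operation executed at the address `a` -/
def Op.args (act : G → Equiv.Perm Gam) (a : Gam) : Op G Lane K → List (Lane × Gam)
  | .inp => []
  | .cst _ => []
  | .nand g1 l1 g2 l2 => [(l1, act g1 a), (l2, act g2 a)]

theorem Op.eval_congr (act : G → Equiv.Perm Gam) (x : Gam → K) (F F' : Lane → Gam → K) (a : Gam)
    (o : Op G Lane K) (h : ∀ c ∈ o.args act a, F c.1 c.2 = F' c.1 c.2) :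
    o.eval act x F a = o.eval act x F' a := by
  cases o with
  | inp => rfl
  | cst b => rfl
  | nand g1 l1 g2 l2 =>
    have h1 := h (l1, act g1 a) (by simp [Op.args])
    have h2 := h (l2, act g2 a) (by simp [Op.args])
    simp only [Op.eval]
    simp only at h1 h2
    rw [h1, h2]

/-- a straight-line program along a walk -/
structure Prog (Gam G Lane J K : Type) where
  act : G → Equiv.Perm Gam
  L : ℕ
  vis : ℕ → Gam × J
  ins : ℕ → Option (Lane × Op G Lane K)

/-- step `s` writes the cell `(l, a)` -/
def Prog.Wr (P : Prog Gam G Lane J K) (s : ℕ) (l : Lane) (a : Gam) : Prop :=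
  s < P.L ∧ (P.vis s).1 = a ∧ ∃ o, P.ins s = some (l, o)

/-- hypotheses on a program: distinct visits, (W1) no cell is written twice, (W2) the argument cells
of step `s` are only written by smaller steps -/
structure Prog.OK (P : Prog Gam G Lane J K) : Prop where
  inj : ∀ s < P.L, ∀ s' < P.L, P.vis s = P.vis s' → s = s'
  w1 : ∀ s s' l a, P.Wr s l a → P.Wr s' l a → s = s'
  w2 : ∀ s < P.L, ∀ l o, P.ins s = some (l, o) → ∀ c ∈ o.args P.act (P.vis s).1,
    ∀ s', P.Wr s' c.1 c.2 → s' < s

/-- mask: the cell is written at visit `j` by the operation `o` -/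
noncomputable def Prog.W (P : Prog Gam G Lane J K) (j : J) (l : Lane) (o : Op G Lane K) (a : Gam) :
    K := by
  classical exact if ∃ s < P.L, P.vis s = (a, j) ∧ P.ins s = some (l, o) then 1 else 0

/-- prefix mask: `(a, j)` is one of the first `t` visits -/
noncomputable def Prog.M (P : Prog Gam G Lane J K) (t : ℕ) (j : J) (a : Gam) : K := by
  classical exact if ∃ s < t, P.vis s = (a, j) then 1 else 0

variable [DecidableEq Gam] [DecidableEq Lane]

/-- contents after `t` steps -/
def Prog.pre (P : Prog Gam G Lane J K) (x : Gam → K) : ℕ → Lane → Gam → K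
  | 0 => fun _ _ => 0
  | t + 1 => fun l a =>
    match P.ins t with
    | none => P.pre x t l a
    | some (l', o) =>
      if l = l' ∧ a = (P.vis t).1 then o.eval P.act x (P.pre x t) (P.vis t).1 else P.pre x t l a

/-- contents at the end -/
def Prog.val (P : Prog Gam G Lane J K) (x : Gam → K) : Lane → Gam → K := P.pre x P.L

/-- the cell `(l, a)` as a function -/
def delta (l : Lane) (a : Gam) : Lane → Gam → K := fun l' a' => if l' = l ∧ a' = a then 1 else 0

end defs

section thms
variable {Gam G Lane J K : Type} [Field K] [DecidableEq Gam] [DecidableEq Lane]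
variable (P : Prog Gam G Lane J K) (x : Gam → K)

@[simp] theorem pre_zero : P.pre x 0 = fun _ _ => 0 := rfl

theorem pre_succ_none {t : ℕ} (h : P.ins t = none) : P.pre x (t + 1) = P.pre x t := by
  funext l a
  simp [Prog.pre, h]

theorem pre_succ_some {t : ℕ} {l' : Lane} {o : Op G Lane K} (h : P.ins t = some (l', o)) :
    P.pre x (t + 1) = fun l a => if l = l' ∧ a = (P.vis t).1 then
      o.eval P.act x (P.pre x t) (P.vis t).1 else P.pre x t l a := by
  funext l a
  simp [Prog.pre, h]

/-- cells not written before step `t` are `0` -/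
theorem pre_of_not_wr {t : ℕ} (ht : t ≤ P.L) {l : Lane} {a : Gam}
    (h : ∀ s < t, ¬ P.Wr s l a) : P.pre x t l a = 0 := by
  induction t with
  | zero => rfl
  | succ t ih =>
    have ih' := ih (by omega) (fun s hs => h s (by omega))
    rcases ho : P.ins t with _ | ⟨l', o⟩
    · rw [pre_succ_none P x ho]; exact ih'
    · rw [pre_succ_some P x ho]
      have hn : ¬ (l = l' ∧ a = (P.vis t).1) := by
        rintro ⟨rfl, rfl⟩
        exact h t (by omega) ⟨by omega, rfl, o, ho⟩
      simp only [hn, if_false]
      exact ih'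

/-- a cell not written in the steps `t ≤ s < t'` keeps its value -/
theorem pre_stable {t t' : ℕ} (htt : t ≤ t') {l : Lane} {a : Gam} (ht' : t' ≤ P.L)
    (h : ∀ s, t ≤ s → s < t' → ¬ P.Wr s l a) : P.pre x t' l a = P.pre x t l a := by
  induction t', htt using Nat.le_induction with
  | base => rfl
  | succ t' htt ih =>
    have ih' := ih (by omega) (fun s hs hs' => h s hs (by omega))
    rcases ho : P.ins t' with _ | ⟨l', o⟩
    · rw [pre_succ_none P x ho]; exact ih'
    · rw [pre_succ_some P x ho]
      have hn : ¬ (l = l' ∧ a = (P.vis t').1) := by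
        rintro ⟨rfl, rfl⟩
        exact h t' htt (by omega) ⟨by omega, rfl, o, ho⟩
      simp only [hn, if_false]
      exact ih'

variable {P} (hP : P.OK)
include hP

/-- the value written at step `s` (read at any later time) -/
theorem pre_at_wr {s t : ℕ} (hst : s < t) (ht : t ≤ P.L) {l : Lane} {o : Op G Lane K}
    (ho : P.ins s = some (l, o)) :
    P.pre x t l (P.vis s).1 = o.eval P.act x (P.pre x s) (P.vis s).1 := by
  have hw : P.Wr s l (P.vis s).1 := ⟨by omega, rfl, o, ho⟩
  rw [pre_stable P x (show s + 1 ≤ t from hst) ht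
    (fun s' h1 h2 h3 => by have := hP.w1 s s' _ _ hw h3; omega)]
  rw [pre_succ_some P x ho]
  simp

/-- the arguments of step `s` have their final value -/
theorem eval_pre_eq {s t : ℕ} (hst : s ≤ t) (ht : t ≤ P.L) (hs : s < P.L) {l : Lane}
    {o : Op G Lane K} (ho : P.ins s = some (l, o)) :
    o.eval P.act x (P.pre x t) (P.vis s).1 = o.eval P.act x (P.pre x s) (P.vis s).1 := by
  apply Op.eval_congr
  intro c hc
  apply pre_stable P x hst ht
  intro s' h1 h2 h3
  have := hP.w2 s hs l o ho c hc s' h3
  omega

/-- one step adds the value times the delta of the cell -/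
theorem pre_succ_add {t : ℕ} (ht : t < P.L) {l : Lane} {o : Op G Lane K}
    (ho : P.ins t = some (l, o)) :
    P.pre x (t + 1) = fun l' a' => P.pre x t l' a' +
      o.eval P.act x (P.pre x t) (P.vis t).1 * delta l (P.vis t).1 l' a' := by
  funext l' a'
  rw [pre_succ_some P x ho]
  by_cases h : l' = l ∧ a' = (P.vis t).1
  · obtain ⟨rfl, rfl⟩ := h
    have h0 : P.pre x t l' (P.vis t).1 = 0 := by
      apply pre_of_not_wr P x (by omega)
      intro s hs h3
      have := hP.w1 s t _ _ h3 ⟨ht, rfl, o, ho⟩
      omega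
    simp [delta, h0]
  · simp [delta, h]

end thms

section masks
variable {Gam G Lane J K : Type} [Field K]
variable (P : Prog Gam G Lane J K) (x : Gam → K)

theorem W_ne_zero_iff {j : J} {l : Lane} {o : Op G Lane K} {a : Gam} :
    P.W j l o a ≠ 0 ↔ ∃ s < P.L, P.vis s = (a, j) ∧ P.ins s = some (l, o) := by
  classical
  unfold Prog.W
  split_ifs with h
  · simp [h]
  · simp [h]

theorem W_eq_one {s : ℕ} (hs : s < P.L) {j : J} {l : Lane} {o : Op G Lane K} {a : Gam}
    (h : P.vis s = (a, j)) (ho : P.ins s = some (l, o)) : P.W j l o a = 1 := by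
  classical
  unfold Prog.W
  rw [if_pos ⟨s, hs, h, ho⟩]

theorem W_zero_or_one (j : J) (l : Lane) (o : Op G Lane K) (a : Gam) :
    P.W j l o a = 0 ∨ P.W j l o a = 1 := by
  classical
  unfold Prog.W
  split_ifs <;> simp

theorem M_of_lt {t s : ℕ} (hst : s < t) {j : J} {a : Gam} (h : P.vis s = (a, j)) :
    P.M t j a = (1 : K) := by
  classical
  unfold Prog.M
  rw [if_pos ⟨s, hst, h⟩]

variable {P}

theorem M_of_ge (hP : P.OK) {t s : ℕ} (hst : t ≤ s) (hs : s < P.L) {j : J} {a : Gam}
    (h : P.vis s = (a, j)) : P.M t j a = (0 : K) := by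
  classical
  unfold Prog.M
  rw [if_neg]
  rintro ⟨s', h1, h2⟩
  have := hP.inj s hs s' (by omega) (h.trans h2.symm)
  omega

/-- at most one mask is non-zero at a cell -/
theorem W_unique (hP : P.OK) {j j' : J} {l : Lane} {o o' : Op G Lane K} {a : Gam}
    (h : P.W j l o a ≠ 0) (h' : P.W j' l o' a ≠ 0) : j = j' ∧ o = o' := by
  obtain ⟨s, hs, h1, h2⟩ := (W_ne_zero_iff P).1 h
  obtain ⟨s', hs', h1', h2'⟩ := (W_ne_zero_iff P).1 h'
  have : s = s' := hP.w1 s s' l a ⟨hs, by rw [h1], o, h2⟩ ⟨hs', by rw [h1'], o', h2'⟩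
  subst this
  rw [h1] at h1'
  rw [h2] at h2'
  constructor
  · exact (Prod.mk.inj h1').2
  · have := Option.some.inj h2'
    exact (Prod.mk.inj this).2

end masks

section rel
variable {Gam G Lane J K : Type} [Field K]

/-- the local relations of a transcript with prefix masks `Mk` -/
def MRel (P : Prog Gam G Lane J K) (x : Gam → K) (Mk : J → Gam → K) (F : Lane → Gam → K) : Prop :=
  (∀ l a, (∀ j o, P.W j l o a = 0) → F l a = 0) ∧
    ∀ j l o a, P.W j l o a * (F l a - Mk j a * o.eval P.act x F a) = 0

variable [DecidableEq Gam] [DecidableEq Lane]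
variable {P : Prog Gam G Lane J K} (hP : P.OK) (x : Gam → K)

omit [DecidableEq Gam] [DecidableEq Lane] in
/-- a cell is written, or all masks vanish there -/
theorem wr_or (P : Prog Gam G Lane J K) (l : Lane) (a : Gam) :
    (∃ s o, s < P.L ∧ (P.vis s).1 = a ∧ P.ins s = some (l, o)) ∨
      ((∀ j o, P.W j l o a = 0) ∧ ∀ s, ¬ P.Wr s l a) := by
  classical
  by_cases h : ∃ s o, s < P.L ∧ (P.vis s).1 = a ∧ P.ins s = some (l, o)
  · exact Or.inl h
  · refine Or.inr ⟨?_, ?_⟩
    · intro j o
      by_contra hne
      obtain ⟨s, hs, h1, h2⟩ := (W_ne_zero_iff P).1 hne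
      exact h ⟨s, o, hs, by rw [h1], h2⟩
    · rintro s ⟨hs, h1, o, h2⟩
      exact h ⟨s, o, hs, h1, h2⟩

include hP

/-- **P2b**: the relations with the prefix masks of `t` hold iff `F` is the transcript after `t`
steps -/
theorem mform_iff {t : ℕ} (ht : t ≤ P.L) (F : Lane → Gam → K) :
    MRel P x (P.M t) F ↔ F = P.pre x t := by
  constructor
  · rintro ⟨h0, h1⟩
    -- written cells, by strong induction on the step
    have key : ∀ s, ∀ l o, s < P.L → P.ins s = some (l, o) →
        F l (P.vis s).1 = P.pre x t l (P.vis s).1 := by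
      intro s
      induction s using Nat.strong_induction_on with
      | _ s ih =>
        intro l o hs ho
        have hrel := h1 (P.vis s).2 l o (P.vis s).1
        rw [W_eq_one P hs (by rfl) ho, one_mul, sub_eq_zero] at hrel
        by_cases hst : s < t
        · rw [M_of_lt P hst (by rfl), one_mul] at hrel
          rw [hrel, pre_at_wr x hP hst ht ho, ← eval_pre_eq x hP (le_of_lt hst) ht hs ho]
          apply Op.eval_congr
          intro c hc
          rcases wr_or P c.1 c.2 with ⟨s', o', hs', hv', ho'⟩ | ⟨hW, hw⟩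
          · have hlt : s' < s := hP.w2 s hs l o ho c hc s' ⟨hs', hv', o', ho'⟩
            have := ih s' hlt c.1 o' hs' ho'
            rw [hv'] at this
            exact this
          · rw [h0 c.1 c.2 hW, pre_of_not_wr P x ht (fun s' _ => hw s')]
        · rw [M_of_ge hP (not_lt.1 hst) hs (by rfl), zero_mul] at hrel
          rw [hrel, pre_of_not_wr P x ht]
          intro s' hs' hw'
          have := hP.w1 s s' _ _ ⟨hs, rfl, o, ho⟩ hw'
          omega
    funext l a
    rcases wr_or P l a with ⟨s, o, hs, hv, ho⟩ | ⟨hW, hw⟩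
    · rw [← hv]; exact key s l o hs ho
    · rw [h0 l a hW, pre_of_not_wr P x ht (fun s _ => hw s)]
  · rintro rfl
    refine ⟨?_, ?_⟩
    · intro l a hW
      rcases wr_or P l a with ⟨s, o, hs, hv, ho⟩ | ⟨_, hw⟩
      · exfalso
        have := hW (P.vis s).2 o
        rw [W_eq_one P hs (by rw [← hv]) ho] at this
        exact one_ne_zero this
      · exact pre_of_not_wr P x ht (fun s _ => hw s)
    · intro j l o a
      by_cases hW : P.W j l o a = 0
      · rw [hW, zero_mul]
      · obtain ⟨s, hs, hv, ho⟩ := (W_ne_zero_iff P).1 hW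
        have ha : (P.vis s).1 = a := by rw [hv]
        rw [W_eq_one P hs hv ho, one_mul, sub_eq_zero]
        by_cases hst : s < t
        · rw [M_of_lt P hst hv, one_mul, ← ha, pre_at_wr x hP hst ht ho,
            eval_pre_eq x hP (le_of_lt hst) ht hs ho]
        · rw [M_of_ge hP (not_lt.1 hst) hs hv, zero_mul]
          apply pre_of_not_wr P x ht
          intro s' hs' hw'
          have := hP.w1 s s' _ _ ⟨hs, ha, o, ho⟩ hw'
          omega

/-- full form -/
theorem full_iff (F : Lane → Gam → K) : MRel P x (P.M P.L) F ↔ F = P.val x :=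
  mform_iff hP x le_rfl F

/-- forward fill: with the claimed value `β` -/
theorem fill_up {t : ℕ} (ht : t < P.L) {l : Lane} {o : Op G Lane K} (ho : P.ins t = some (l, o))
    {β : K} (hβ : β = o.eval P.act x (P.pre x t) (P.vis t).1) :
    (fun l' a' => P.pre x t l' a' + β * delta l (P.vis t).1 l' a') = P.pre x (t + 1) := by
  rw [pre_succ_add x hP ht ho, hβ]

/-- backward fill -/
theorem fill_dn {t : ℕ} (ht : t < P.L) {l : Lane} {o : Op G Lane K} (ho : P.ins t = some (l, o))
    {β : K} (hβ : β = o.eval P.act x (P.pre x (t + 1)) (P.vis t).1) :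
    (fun l' a' => P.pre x (t + 1) l' a' - β * delta l (P.vis t).1 l' a') = P.pre x t := by
  rw [eval_pre_eq x hP (Nat.le_succ t) ht ht ho] at hβ
  rw [pre_succ_add x hP ht ho, hβ]
  funext l' a'
  ring

end rel

section sums
variable {Gam G Lane J K : Type} [Field K] [Fintype J] [Fintype (Op G Lane K)]
variable {P : Prog Gam G Lane J K}

/-- the sum of the masks of a cell is `1` if it is written and `0` otherwise -/
theorem sum_W (hP : P.OK) (l : Lane) (a : Gam) :
    (∑ j, ∑ o, P.W j l o a = 0 ∧ ∀ j o, P.W j l o a = 0) ∨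
      (∑ j, ∑ o, P.W j l o a = 1 ∧ ∃ j o, P.W j l o a ≠ 0) := by
  classical
  by_cases h : ∀ j o, P.W j l o a = 0
  · left
    refine ⟨?_, h⟩
    apply Finset.sum_eq_zero
    intro j _
    apply Finset.sum_eq_zero
    intro o _
    exact h j o
  · right
    push Not at h
    obtain ⟨j, o, hW⟩ := h
    refine ⟨?_, j, o, hW⟩
    have h1 : P.W j l o a = 1 := (W_zero_or_one P j l o a).resolve_left hW
    rw [Finset.sum_eq_single j, Finset.sum_eq_single o, h1]
    · intro o' _ hne
      by_contra h'
      exact hne (W_unique hP h' hW).2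
    · simp
    · intro j' _ hne
      apply Finset.sum_eq_zero
      intro o' _
      by_contra h'
      exact hne (W_unique hP h' hW).1
    · simp

/-- `(1 - Σ W) F = 0` iff `F` vanishes on the cells that are never written -/
theorem off_iff (hP : P.OK) (F : Lane → Gam → K) (l : Lane) (a : Gam) :
    (1 - ∑ j, ∑ o, P.W j l o a) * F l a = 0 ↔ ((∀ j o, P.W j l o a = 0) → F l a = 0) := by
  rcases sum_W hP l a with ⟨h, h'⟩ | ⟨h, j, o, h'⟩
  · rw [h]
    simp only [sub_zero, one_mul]
    exact ⟨fun hh _ => hh, fun hh => hh h'⟩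
  · rw [h]
    simp only [sub_self, zero_mul, true_iff]
    intro hh
    exact absurd (hh j o) h'

/-- the literal form of (c4) -/
theorem mrel_iff_c4 (hP : P.OK) (x : Gam → K) (Mk : J → Gam → K) (F : Lane → Gam → K) :
    MRel P x Mk F ↔
      (∀ l a, (1 - ∑ j, ∑ o, P.W j l o a) * F l a = 0) ∧
        ∀ j l o a, P.W j l o a * (F l a - Mk j a * o.eval P.act x F a) = 0 := by
  unfold MRel
  constructor
  · rintro ⟨h, h'⟩
    exact ⟨fun l a => (off_iff hP F l a).2 (h l a), h'⟩
  · rintro ⟨h, h'⟩
    exact ⟨fun l a => (off_iff hP F l a).1 (h l a), h'⟩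

end sums

end Crest.Agent.R289.CTr89
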