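import Mathlib

/-!
Row 289, block A (helper464).  Chevalley-Warning sums over `K^n`, `card K = q^2`, for polynomials in
the digits `a` and their conjugates `a ^ q`: the sum vanishes if the total degree is `< 2 n (q - 1)`.
-/

set_option autoImplicit false

namespace Crest.Agent.R289.CW464

open Finset MvPolynomial

variable {K : Type*} [Field K] [Fintype K]

/-- arithmetic core: `q^2 - 1` divides `m + q n` with `m + n < 2 (q - 1)` only for `m = n = 0` -/
theorem arith (q m n : ℕ) (hq : 2 ≤ q) (h : m + n < 2 * (q - 1)) (hd : q ^ 2 - 1 ∣ m + q * n) :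
    m = 0 ∧ n = 0 := by
  obtain ⟨r, rfl⟩ : ∃ r, q = r + 1 := ⟨q - 1, by omega⟩
  have e1 : (r + 1) ^ 2 - 1 = r * (r + 2) := by
    have : (r + 1) ^ 2 = r * (r + 2) + 1 := by ring
    omega
  rw [e1] at hd
  obtain ⟨k, hk⟩ := hd
  have hr : 0 < r := by omega
  simp only [Nat.add_sub_cancel] at h
  -- r ∣ m + n
  have h1 : r ∣ m + n := by
    have h2 : m + n + r * n = r * ((r + 2) * k) := by
      have : m + (r + 1) * n = m + n + r * n := by ring
      rw [← this, hk]; ring
    exact (Nat.dvd_add_iff_left (Dvd.intro n rfl)).2 ⟨_, h2⟩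
  obtain ⟨c, hc⟩ := h1
  have hc2 : c < 2 := by
    by_contra hcon
    have : r * 2 ≤ r * c := Nat.mul_le_mul_left _ (by omega)
    omega
  interval_cases c
  · omega
  · exfalso
    have h3 : r * (n + 1) = r * ((r + 2) * k) := by
      have : m + (r + 1) * n = r * 1 + r * n := by
        have : m + (r + 1) * n = m + n + r * n := by ring
        rw [this, hc]
      have h4 : r * (n + 1) = r * 1 + r * n := by ring
      rw [h4, ← this, hk]; ring
    have h5 : n + 1 = (r + 2) * k := Nat.eq_of_mul_eq_mul_left hr h3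
    have hk0 : 0 < k := by
      rcases Nat.eq_zero_or_pos k with h0 | h0
      · subst h0; simp at h5
      · exact h0
    have : (r + 2) * 1 ≤ (r + 2) * k := Nat.mul_le_mul_left _ hk0
    omega

theorem sum_pow_of_not_dvd (N : ℕ) (hN : ¬ (Fintype.card K - 1 ∣ N) ∨ N = 0) :
    ∑ a : K, a ^ N = 0 := by
  classical
  rcases hN with hN | rfl
  · have hN0 : N ≠ 0 := fun h => hN (h ▸ dvd_zero _)
    have h1 := FiniteField.sum_pow_units K N
    rw [if_neg hN] at h1
    have h2 : ∑ a : K, a ^ N = ∑ a ∈ univ.filter (fun a : K => a ≠ 0), a ^ N := by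
      rw [Finset.sum_filter]
      refine Finset.sum_congr rfl fun a _ => ?_
      by_cases ha : a = 0
      · simp [ha, hN0]
      · simp [ha]
    refine h2.trans (Eq.trans ?_ h1)
    symm
    refine Finset.sum_bij (fun (u : Kˣ) _ => (u : K)) ?_ ?_ ?_ ?_
    · intro u _; simp
    · intro u _ v _ h; exact Units.ext h
    · intro b hb
      simp only [mem_filter, mem_univ, true_and] at hb
      exact ⟨Units.mk0 b hb, mem_univ _, rfl⟩
    · intro u _; simp
  · simp

/-- one digit -/
theorem sum_digit (q m n : ℕ) (hq : 2 ≤ q) (hK : Fintype.card K = q ^ 2)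
    (h : m + n < 2 * (q - 1)) : ∑ a : K, a ^ m * (a ^ q) ^ n = 0 := by
  have e : ∀ a : K, a ^ m * (a ^ q) ^ n = a ^ (m + q * n) := fun a => by
    rw [← pow_mul, ← pow_add]
  simp only [e]
  refine sum_pow_of_not_dvd _ ?_
  by_cases hd : Fintype.card K - 1 ∣ m + q * n
  · right
    rw [hK] at hd
    obtain ⟨rfl, rfl⟩ := arith q m n hq h hd
    simp
  · exact Or.inl hd

/-- the evaluation point: digits (`false`) and conjugate digits (`true`) -/
def pt (q : ℕ) {ι : Type*} (α : ι → K) : ι × Bool → K := fun p => if p.2 then α p.1 ^ q else α p.1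

/-- **Chevalley-Warning for digits and conjugate digits.** -/
theorem sum_eq_zero (q : ℕ) (hq : 2 ≤ q) (hK : Fintype.card K = q ^ 2) {ι : Type*} [Fintype ι]
    [DecidableEq ι] (P : MvPolynomial (ι × Bool) K)
    (hP : P.totalDegree < Fintype.card ι * (2 * (q - 1))) :
    ∑ α : ι → K, eval (pt q α) P = 0 := by
  classical
  simp only [eval_eq]
  rw [Finset.sum_comm]
  refine Finset.sum_eq_zero fun d hd => ?_
  rw [← Finset.mul_sum]
  have hdeg : ∑ p : ι × Bool, d p < Fintype.card ι * (2 * (q - 1)) := by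
    have h1 := le_totalDegree hd
    have h2 : (d.sum fun _ e => e) = ∑ p : ι × Bool, d p := by
      rw [Finsupp.sum_fintype _ _ (fun _ => rfl)]
    omega
  have hmono : ∀ α : ι → K, ∏ p ∈ d.support, pt q α p ^ d p
      = ∏ i : ι, (α i ^ d (i, false) * (α i ^ q) ^ d (i, true)) := by
    intro α
    rw [Finset.prod_subset (Finset.subset_univ d.support) (fun p _ hp => by
      rw [Finsupp.notMem_support_iff.1 hp, pow_zero])]
    rw [← Finset.univ_product_univ, Finset.prod_product]
    refine Finset.prod_congr rfl fun i _ => ?_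
    rw [Fintype.prod_bool]
    simp only [pt, if_true, Bool.false_eq_true, if_false]
    rw [mul_comm]
  simp only [hmono]
  have hpu : ∑ α : ι → K, ∏ i : ι, (α i ^ d (i, false) * (α i ^ q) ^ d (i, true))
      = ∏ i : ι, ∑ a : K, (a ^ d (i, false) * (a ^ q) ^ d (i, true)) := by
    rw [Finset.prod_univ_sum, Fintype.piFinset_univ]
  rw [hpu]
  -- some digit has small degree
  obtain ⟨i, hi⟩ : ∃ i : ι, d (i, false) + d (i, true) < 2 * (q - 1) := by
    by_contra hcon
    push_neg at hcon
    have h1 : ∑ i : ι, 2 * (q - 1) ≤ ∑ i : ι, (d (i, false) + d (i, true)) :=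
      Finset.sum_le_sum fun i _ => hcon i
    have h2 : ∑ p : ι × Bool, d p = ∑ i : ι, (d (i, false) + d (i, true)) := by
      rw [← Finset.univ_product_univ, Finset.sum_product]
      refine Finset.sum_congr rfl fun i _ => ?_
      rw [Fintype.sum_bool, add_comm]
    rw [Finset.sum_const, Finset.card_univ, smul_eq_mul] at h1
    omega
  rw [Finset.prod_eq_zero (Finset.mem_univ i) (sum_digit q _ _ hq hK hi), mul_zero]

end Crest.Agent.R289.CW464
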