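import Crest.Agent.R289.Tan_846

/-!
Row 289, block B/C joint (LEMMA 289-234, post #5760): soundness of chains of one-sided words stored
as memory.  A family of one-sided arrays `X 0, X 1, ..` whose line checks fail only at a fixed small
set of vertices and whose chain relation fails only at a fixed small set of vertices is equal to the
exact chain `w 0, w 1, ..` at all vertices outside ONE small set (all layers at once); nothing
accumulates with the number of layers, and no local testability of the one-sided code is used.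
-/

set_option autoImplicit false
set_option linter.unusedSectionVars false

namespace Crest.Agent.R289.ChainS234

open Finset Crest.Agent.R289.Tan846

variable {U U' I B : Type} [Fintype U] [Fintype U'] [Fintype I]

/-- a set `E` of `U` and a set `F` of `U'`: every vertex of `E` outside `B0` has at least `d` labelled
neighbours in `F` and every vertex of `F` outside `B1` at least `d` in `E`; if both sets are small
then `E` is at most of the size of the exceptional sets -/
theorem closed_le {pi : I → U ≃ U'} {N lam rho th : ℝ} (hN : 0 < N) (hE : Ex pi N lam)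
    (hE' : Ex (fun z => (pi z).symm) N lam) {d : ℕ} (hd : 0 < d)
    (hth0 : 0 ≤ th)
    (hth : (Fintype.card I : ℝ) ^ 2 * (rho + lam ^ 2) ≤ th * (d : ℝ) ^ 2)
    (E : U → Prop) (F : U' → Prop) (B0 : U → Prop) (B1 : U' → Prop)
    (h0 : ∀ u, E u → ¬ B0 u → d ≤ cnt (fun z => F (pi z u)))
    (h1 : ∀ h, F h → ¬ B1 h → d ≤ cnt (fun z => E ((pi z).symm h)))
    (hEs : (cnt E : ℝ) ≤ rho * N) (hFs : (cnt F : ℝ) ≤ rho * N) :
    (cnt E : ℝ) * (1 - th ^ 2) ≤ cnt B0 + th * cnt B1 := by
  obtain ⟨n, hn⟩ : ∃ n : ℝ, n = (Fintype.card I : ℝ) := ⟨_, rfl⟩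
  have hd' : (0 : ℝ) < (d : ℝ) ^ 2 := by positivity
  rw [← hn] at hth
  have est : ∀ (x y : ℕ), (x : ℝ) * (d : ℝ) ^ 2 ≤ n ^ 2 * ((y : ℝ) ^ 2 / N + lam ^ 2 * y) →
      (y : ℝ) ≤ rho * N → (x : ℝ) ≤ th * y := by
    intro x y hxy hy
    have hy0 : (0 : ℝ) ≤ y := Nat.cast_nonneg y
    have h2 : (y : ℝ) ^ 2 / N ≤ rho * y := by
      rw [div_le_iff₀ hN]
      nlinarith
    have h5 : (x : ℝ) * d ^ 2 ≤ (th * y) * d ^ 2 := by
      calc (x : ℝ) * d ^ 2 ≤ n ^ 2 * ((y : ℝ) ^ 2 / N + lam ^ 2 * y) := hxy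
        _ ≤ n ^ 2 * (rho * y + lam ^ 2 * y) := by
            apply mul_le_mul_of_nonneg_left _ (by positivity)
            linarith
        _ = y * (n ^ 2 * (rho + lam ^ 2)) := by ring
        _ ≤ y * (th * d ^ 2) := mul_le_mul_of_nonneg_left hth hy0
        _ = (th * y) * d ^ 2 := by ring
    exact le_of_mul_le_mul_right h5 hd'
  have f1 := few hE E d
  rw [← hn] at f1
  have g1 := est _ _ f1 hEs
  have f2 := few hE' F d
  rw [← hn] at f2
  have g2 := est _ _ f2 hFs
  have c1 : cnt F ≤ cnt B1 + cnt (fun h : U' => d ≤ cnt (fun z : I => E ((pi z).symm h))) := by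
    refine le_trans (cnt_le ?_) (cnt_or _ _)
    intro h hh
    by_cases hb : B1 h
    · exact Or.inl hb
    · exact Or.inr (h1 h hh hb)
  have c2 : cnt E ≤ cnt B0 +
      cnt (fun u : U => d ≤ cnt (fun z : I => F (((pi z).symm).symm u))) := by
    refine le_trans (cnt_le ?_) (cnt_or _ _)
    intro u hu
    by_cases hb : B0 u
    · exact Or.inl hb
    · exact Or.inr (h0 u hu hb)
  have c1' : (cnt F : ℝ) ≤ cnt B1 + th * cnt E := by
    have : (cnt F : ℝ) ≤ cnt B1 +
        (cnt (fun h : U' => d ≤ cnt (fun z : I => E ((pi z).symm h))) : ℝ) := by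
      exact_mod_cast c1
    linarith
  have c2' : (cnt E : ℝ) ≤ cnt B0 + th * cnt F := by
    have : (cnt E : ℝ) ≤ cnt B0 +
        (cnt (fun u : U => d ≤ cnt (fun z : I => F (((pi z).symm).symm u))) : ℝ) := by
      exact_mod_cast c2
    linarith
  have := mul_le_mul_of_nonneg_left c1' hth0
  nlinarith

/-- the set of odd vertices which see an element of `E` -/
theorem cnt_shadow_le (pi : I → U ≃ U') (E : U → Prop) :
    cnt (fun h : U' => ∃ z, E ((pi z).symm h)) ≤ Fintype.card I * cnt E := by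
  classical
  have h1 : cnt (fun h : U' => ∃ z, E ((pi z).symm h)) ≤
      ∑ z : I, cnt (fun h : U' => E ((pi z).symm h)) := by
    unfold cnt
    have hsub : (univ.filter fun h : U' => ∃ z, E ((pi z).symm h)) ⊆
        (univ : Finset I).biUnion fun z => univ.filter fun h : U' => E ((pi z).symm h) := by
      intro h hh
      simp only [mem_filter, mem_univ, true_and] at hh
      obtain ⟨z, hz⟩ := hh
      simp only [mem_biUnion, mem_univ, mem_filter, true_and]
      exact ⟨z, hz⟩
    refine le_trans (le_trans (le_of_eq ?_) (Finset.card_le_card hsub)) card_biUnion_le |>.trans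
      (le_of_eq ?_)
    · congr
    · refine Finset.sum_congr rfl fun z _ => ?_
      congr
  have h2 : ∀ z : I, cnt (fun h : U' => E ((pi z).symm h)) = cnt E := by
    intro z
    unfold cnt
    refine Finset.card_bij' (fun h _ => (pi z).symm h) (fun u _ => pi z u) ?_ ?_ ?_ ?_
    · intro h hh
      simpa using hh
    · intro u hu
      simpa using hu
    · intro h _
      simp
    · intro u _
      simp
  calc cnt (fun h : U' => ∃ z, E ((pi z).symm h))
      ≤ ∑ z : I, cnt (fun h : U' => E ((pi z).symm h)) := h1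
    _ = ∑ z : I, cnt E := Finset.sum_congr rfl fun z _ => h2 z
    _ = Fintype.card I * cnt E := by simp

/-- preimages under `k` permutations -/
theorem cnt_pre_le {k : ℕ} (ga : Fin k → U ≃ U) (E : U → Prop) :
    cnt (fun u : U => ∃ a, E (ga a u)) ≤ k * cnt E := by
  have h := cnt_shadow_le (I := Fin k) (U := U) (U' := U) (fun a => (ga a).symm) E
  simpa using h

/-- **Chain soundness.**  `X j` = stored layers, `w j` = exact layers (one-sided words),
`B0`, `B1` = vertices where SOME layer violates its line check, `Bad` = vertices where SOME relation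
fails; a relation may read all previous layers at `k` fixed neighbours. -/
theorem chain_sound {pi : I → U ≃ U'} {N lam rho th : ℝ} (hN : 0 < N) (hE : Ex pi N lam)
    (hE' : Ex (fun z => (pi z).symm) N lam) {R0 R1 : Set (I → B)} {d : ℕ} (hd : 0 < d)
    (hR0 : Dist R0 d) (hR1 : Dist R1 d)
    (hth0 : 0 ≤ th) (hth1 : th < 1)
    (hth : (Fintype.card I : ℝ) ^ 2 * (rho + lam ^ 2) ≤ th * (d : ℝ) ^ 2)
    (w X : ℕ → U → I → B) (hw : ∀ j, w j ∈ Tan pi R0 R1)
    (B0 : U → Prop) (B1 : U' → Prop) (Bad : U → Prop)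
    (hB0 : ∀ j u, ¬ B0 u → X j u ∈ R0)
    (hB1 : ∀ j h, ¬ B1 h → (fun z => X j ((pi z).symm h) z) ∈ R1)
    {k : ℕ} (ga : Fin k → U ≃ U)
    (hX0 : ∀ u, ¬ Bad u → X 0 u = w 0 u)
    (hXs : ∀ j u, ¬ Bad u → (∀ i ≤ j, ∀ a, X i (ga a u) = w i (ga a u)) → X (j + 1) u = w (j + 1) u)
    {c1 : ℝ} (hc1 : (cnt B0 : ℝ) + th * cnt B1 ≤ c1 * (1 - th ^ 2))
    (hs1 : (cnt Bad : ℝ) + (k + 1) * c1 ≤ rho * N)
    (hs2 : (Fintype.card I : ℝ) * ((cnt Bad : ℝ) + (k + 1) * c1) ≤ rho * N) :
    (cnt (fun u => ∃ j, X j u ≠ w j u) : ℝ) ≤ c1 := by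
  classical
  have h1th : (0 : ℝ) < 1 - th ^ 2 := by nlinarith
  have hc10 : 0 ≤ c1 := by
    have : (0 : ℝ) ≤ c1 * (1 - th ^ 2) := by
      refine le_trans ?_ hc1
      positivity
    exact nonneg_of_mul_nonneg_left this h1th
  -- the union of the error sets up to layer `j`
  have main : ∀ j : ℕ, (cnt (fun u => ∃ i ≤ j, X i u ≠ w i u) : ℝ) ≤
      (cnt Bad : ℝ) + (k + 1) * c1 → (cnt (fun u => ∃ i ≤ j, X i u ≠ w i u) : ℝ) ≤ c1 := by
    intro j hj
    have key := closed_le hN hE hE' hd hth0 hth (fun u => ∃ i ≤ j, X i u ≠ w i u)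
      (fun h : U' => ∃ i ≤ j, (fun z => X i ((pi z).symm h) z) ≠ fun z => w i ((pi z).symm h) z)
      B0 B1 ?_ ?_ (le_trans hj hs1) ?_
    · have : (cnt (fun u => ∃ i ≤ j, X i u ≠ w i u) : ℝ) * (1 - th ^ 2) ≤ c1 * (1 - th ^ 2) :=
        le_trans key hc1
      exact le_of_mul_le_mul_right this h1th
    · rintro u ⟨i, hi, hne⟩ hb
      refine le_trans (hR0 _ (hB0 i u hb) _ ((hw i).1 u) hne) (cnt_le ?_)
      intro z hz
      refine ⟨i, hi, fun he => hz ?_⟩
      have := congrFun he z
      simpa using this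
    · rintro h ⟨i, hi, hne⟩ hb
      refine le_trans (hR1 _ (hB1 i h hb) _ ((hw i).2 h) hne) (cnt_le ?_)
      intro z hz
      exact ⟨i, hi, fun he => hz (congrFun he z)⟩
    · have h2 : cnt (fun h : U' => ∃ i ≤ j,
          (fun z => X i ((pi z).symm h) z) ≠ fun z => w i ((pi z).symm h) z) ≤
          Fintype.card I * cnt (fun u => ∃ i ≤ j, X i u ≠ w i u) := by
        refine le_trans (cnt_le ?_) (cnt_shadow_le pi _)
        rintro h ⟨i, hi, hne⟩
        by_contra hc
        push Not at hc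
        exact hne (funext fun z => congrFun (hc z i hi) z)
      have h3 : (cnt (fun h : U' => ∃ i ≤ j,
          (fun z => X i ((pi z).symm h) z) ≠ fun z => w i ((pi z).symm h) z) : ℝ) ≤
          (Fintype.card I : ℝ) * cnt (fun u => ∃ i ≤ j, X i u ≠ w i u) := by
        exact_mod_cast h2
      refine le_trans h3 (le_trans ?_ hs2)
      exact mul_le_mul_of_nonneg_left hj (by positivity)
  have all : ∀ j : ℕ, (cnt (fun u => ∃ i ≤ j, X i u ≠ w i u) : ℝ) ≤ c1 := by
    intro j
    induction j with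
    | zero =>
      refine main 0 ?_
      have h1 : cnt (fun u => ∃ i ≤ 0, X i u ≠ w i u) ≤ cnt Bad := by
        refine cnt_le ?_
        rintro u ⟨i, hi, hne⟩
        obtain rfl : i = 0 := by omega
        by_contra hb
        exact hne (hX0 u hb)
      have h2 : (cnt (fun u => ∃ i ≤ 0, X i u ≠ w i u) : ℝ) ≤ cnt Bad := by exact_mod_cast h1
      have : (0 : ℝ) ≤ (k + 1) * c1 := by positivity
      linarith
    | succ j ih =>
      refine main (j + 1) ?_
      have h1 : cnt (fun u => ∃ i ≤ j + 1, X i u ≠ w i u) ≤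
          cnt (fun u => ∃ i ≤ j, X i u ≠ w i u) +
            cnt (fun u => Bad u ∨ ∃ a, ∃ i ≤ j, X i (ga a u) ≠ w i (ga a u)) := by
        refine le_trans (cnt_le ?_) (cnt_or _ _)
        rintro u ⟨i, hi, hne⟩
        rcases Nat.lt_or_ge i (j + 1) with hlt | hge
        · exact Or.inl ⟨i, by omega, hne⟩
        · right
          obtain rfl : i = j + 1 := by omega
          by_contra hc
          push Not at hc
          exact hne (hXs j u hc.1 fun i hi a => hc.2 a i hi)
      have h2 : cnt (fun u => Bad u ∨ ∃ a, ∃ i ≤ j, X i (ga a u) ≠ w i (ga a u)) ≤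
          cnt Bad + k * cnt (fun u => ∃ i ≤ j, X i u ≠ w i u) := by
        refine le_trans (cnt_or _ _) ?_
        have := cnt_pre_le ga (fun u => ∃ i ≤ j, X i u ≠ w i u)
        omega
      have h3 : (cnt (fun u => ∃ i ≤ j + 1, X i u ≠ w i u) : ℝ) ≤
          cnt (fun u => ∃ i ≤ j, X i u ≠ w i u) +
            (cnt Bad + k * cnt (fun u => ∃ i ≤ j, X i u ≠ w i u)) := by
        exact_mod_cast le_trans h1 (Nat.add_le_add_left h2 _)
      have hk : (0 : ℝ) ≤ k := Nat.cast_nonneg k
      nlinarith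
  -- all layers at once
  by_contra hcon
  push Not at hcon
  -- every element of the union has a witness index; take the maximum
  have hfin : ∃ j : ℕ, ∀ u, (∃ i, X i u ≠ w i u) → ∃ i ≤ j, X i u ≠ w i u := by
    have hch : ∀ u : U, ∃ m : ℕ, (∃ i, X i u ≠ w i u) → X m u ≠ w m u := by
      intro u
      by_cases h : ∃ i, X i u ≠ w i u
      · obtain ⟨i, hi⟩ := h
        exact ⟨i, fun _ => hi⟩
      · exact ⟨0, fun h' => absurd h' h⟩
    choose m hm using hch
    refine ⟨univ.sup m, fun u hu => ⟨m u, Finset.le_sup (Finset.mem_univ u), hm u hu⟩⟩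
  obtain ⟨j, hj⟩ := hfin
  have h1 : cnt (fun u => ∃ i, X i u ≠ w i u) ≤ cnt (fun u => ∃ i ≤ j, X i u ≠ w i u) :=
    cnt_le hj
  have h2 : (cnt (fun u => ∃ i, X i u ≠ w i u) : ℝ) ≤
      cnt (fun u => ∃ i ≤ j, X i u ≠ w i u) := by exact_mod_cast h1
  linarith [all j]

end Crest.Agent.R289.ChainS234
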