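import Crest.Agent.R289.Clock_311
import Crest.Agent.R289.Word_508

/-!
# Row 289, leaf C_Clock, part 2 (helper311): the clock register as `Word508.CAx`

Slots `CI J = (Fin 6 ⊕ J) ⊕ (Bool × (J × J))` (test reads, correction reads), alphabet `ZMod p`,
no public data.  Code `C = {clk t | t : Fin n}`.
-/

set_option autoImplicit false
set_option linter.unusedSectionVars false

namespace Crest.Agent.R289.Clock311

open Finset LCodeS152 DefD Word508

section ax

variable {p n : ℕ} [Fact p.Prime] {Q : Type} [Fintype Q] {J : Type} [Fintype J]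

/-- slots of the clock register -/
abbrev CI (J : Type) := (Fin 6 ⊕ J) ⊕ (Bool × (J × J))

/-- neighbour maps of the clock register: permutations of the units -/
def cnbp (σ : J → Equiv.Perm (R p n Q)) : CI J → Equiv.Perm (U p n Q)
  | .inl i => tnb σ i
  | .inr i => cnb σ i

/-- neighbour maps as functions -/
def cmap (σ : J → Equiv.Perm (R p n Q)) (i : CI J) (u : U p n Q) : U p n Q := cnbp σ i u

/-- rules of the clock register -/
noncomputable def crules (p : ℕ) (J : Type) [Fact p.Prime] [Fintype J] (P : Type) :
    CRules (CI J) (ZMod p) P where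
  viol x _ := ¬ tok fun i => some (x (.inl i))
  corr x _ := (cfun fun i => some (x (.inr i))).getD 0

/-- the clock code -/
def clkC (p n : ℕ) (Q : Type) : Set (U p n Q → ZMod p) := {w | ∃ t : Fin n, w = clk t}

lemma cmap_inj (σ : J → Equiv.Perm (R p n Q)) (i : CI J) : Function.Injective (cmap σ i) :=
  (cnbp σ i).injective

/-- local form of the correction: reads that are exact outside `E` -/
lemma cfun_eq (σ : J → Equiv.Perm (R p n Q)) (t : Fin n) (u : U p n Q) (E : U p n Q → Prop)
    (s : Bool × (J × J) → Option (ZMod p))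
    (hs : ∀ i, ¬ E (cnb σ i u) → s i = some (clk t (cnb σ i u)))
    (hlt : 2 * cnt (fun i : J × J => E (step2 σ Wadd i u) ∨ E (step2 σ Wsw i u)) <
      Fintype.card J ^ 2) : cfun s = some (clk t u) := by
  classical
  refine maj_eq ?_
  have h1 : cnt (fun i : J × J => E (step2 σ Wadd i u) ∨ E (step2 σ Wsw i u)) +
      cnt (fun i : J × J => ¬ (E (step2 σ Wadd i u) ∨ E (step2 σ Wsw i u))) =
      Fintype.card (J × J) := by
    rw [cnt_eq_filter, cnt_eq_filter, card_filter_add_card_filter_not, card_univ]
  have h3 : cnt (fun i : J × J => ¬ (E (step2 σ Wadd i u) ∨ E (step2 σ Wsw i u))) ≤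
      cnt (fun i : J × J => osub (s (false, i)) (s (true, i)) = some (clk t u)) := by
    refine cnt_mono fun i hi => ?_
    push Not at hi
    obtain ⟨hi1, hi2⟩ := hi
    rw [hs (false, i) hi1, hs (true, i) hi2, cnb_false, cnb_true]
    change some _ = some _
    congr 1
    simp [step2, clk]
  have h4 : Fintype.card (J × J) = Fintype.card J ^ 2 := by rw [Fintype.card_prod, sq]
  omega

/-- **the clock register is a locally testable and correctable code in the sense of `Word508`** -/
theorem clock_CAx [Nonempty Q] [Nonempty J] {σ : J → Equiv.Perm (R p n Q)} {lam : ℝ}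
    (h : Mixes σ lam) (h0 : 0 ≤ lam) (hl : lam ≤ 1 / 2048) {P : Type} (pub : U p n Q → P) :
    CAx (crules p J P) (cmap σ) pub (clkC p n Q) 1 (1 / 205) (1 / 8) (1 / 2) 16 (1 / 4) where
  mult := nbMult_of_injective _ (cmap_inj σ)
  sep := by
    rintro v ⟨t, rfl⟩ w ⟨t', rfl⟩ hne
    exact sep_frac fun hc => hne (by rw [hc])
  sound := by
    intro X hX
    have e : (fun u => (crules p J P).viol (fun i => X (cmap σ i u)) (pub u)) =
        bad σ (fun u => some (X u)) := rfl
    rw [e] at hX ⊢
    obtain ⟨t, ht⟩ := sound_frac h (by linarith) (fun u => some (X u))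
      (lt_of_le_of_lt hX (by norm_num))
    refine ⟨clk t, ⟨t, rfl⟩, ?_⟩
    have e2 : distW X (clk t) = DefD.dist (fun u => some (X u)) (clk t) := by
      unfold distW DefD.dist
      congr 1
      funext u
      simp
    rw [e2]
    exact ht
  compl := by
    rintro w ⟨t, rfl⟩ u hu
    have h1 := compl_frac (Q := Q) σ t (fun u => some (clk t u))
    have h2 : DefD.dist (fun u => some (clk (Q := Q) (p := p) t u)) (clk t) = 0 := by
      unfold DefD.dist
      exact frac_eq_zero fun u => by simp
    rw [h2, mul_zero, frac_eq] at h1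
    have hU : (0 : ℝ) < Fintype.card (U p n Q) := by exact_mod_cast Fintype.card_pos
    rw [div_le_iff₀ hU, zero_mul] at h1
    have h3 : cnt (bad σ (fun u => some (clk (Q := Q) (p := p) t u))) = 0 := by
      have : (cnt (bad σ (fun u => some (clk (Q := Q) (p := p) t u))) : ℝ) = 0 :=
        le_antisymm h1 (Nat.cast_nonneg _)
      exact_mod_cast this
    classical
    rw [cnt_eq_filter, card_eq_zero] at h3
    have h4 : u ∈ (univ.filter fun u => bad σ (fun u => some (clk (Q := Q) (p := p) t u)) u) := by
      rw [mem_filter]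
      exact ⟨mem_univ _, hu⟩
    rw [h3] at h4
    exact absurd h4 (notMem_empty _)
  corr := by
    rintro w ⟨t, rfl⟩ E hE
    classical
    have hU : (0 : ℝ) < Fintype.card (U p n Q) := by exact_mod_cast Fintype.card_pos
    set Ef : Finset (U p n Q) := univ.filter E with hEf
    have hfr : frac E = (Ef.card : ℝ) / (Fintype.card (U p n Q) : ℝ) := by
      rw [frac_eq, cnt_eq_filter]
    have hE8 : 8 * Ef.card ≤ Fintype.card (U p n Q) := by
      rw [hfr, div_le_iff₀ hU] at hE
      have : (8 : ℝ) * Ef.card ≤ Fintype.card (U p n Q) := by linarith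
      exact_mod_cast this
    have hv := vote_contract h h0 hl (mixesX_add (p := p) (n := n) (Q := Q)) mixesX_sw Ef hE8
    have hsub : cnt (fun u => ∃ x : CI J → ZMod p, (∀ i, ¬ E (cmap σ i u) →
        x i = clk t (cmap σ i u)) ∧ (crules p J P).corr x (pub u) ≠ clk t u) ≤
        (univ.filter fun u => Fintype.card J ^ 2 ≤
          2 * (univ.filter fun q : J × J => step2 σ Wadd q u ∈ Ef ∨
            step2 σ Wsw q u ∈ Ef).card).card := by
      rw [cnt_eq_filter]
      refine card_le_card fun u hu => ?_
      rw [mem_filter] at hu ⊢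
      refine ⟨mem_univ _, ?_⟩
      by_contra hlt
      push Not at hlt
      obtain ⟨-, x, hx, hne⟩ := hu
      apply hne
      have hc : cfun (fun i => some (x (.inr i))) = some (clk t u) := by
        refine cfun_eq σ t u E _ (fun i hi => congrArg some (hx (.inr i) hi)) ?_
        refine lt_of_eq_of_lt ?_ hlt
        rw [cnt_eq_filter]
        congr 2
        refine filter_congr fun i _ => ?_
        simp [hEf]
      change (cfun (fun i => some (x (.inr i)))).getD 0 = clk t u
      rw [hc]
      rfl
    rw [hfr, frac_eq, ← mul_div_assoc]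
    refine div_le_div_of_nonneg_right ?_ hU.le
    have h5 : 4 * cnt (fun u => ∃ x : CI J → ZMod p, (∀ i, ¬ E (cmap σ i u) →
        x i = clk t (cmap σ i u)) ∧ (crules p J P).corr x (pub u) ≠ clk t u) ≤ Ef.card := by
      exact (Nat.mul_le_mul_left 4 hsub).trans (by convert hv; rfl)
    have h6 : (4 : ℝ) * cnt (fun u => ∃ x : CI J → ZMod p, (∀ i, ¬ E (cmap σ i u) →
        x i = clk t (cmap σ i u)) ∧ (crules p J P).corr x (pub u) ≠ clk t u) ≤ Ef.card := by
      exact_mod_cast h5
    linarith

/-! ### reads as functions of two symbols -/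

/-- the value read = difference of the two symbols -/
def clkRead (X : U p n Q → ZMod p) (φ : Q → V p n) (u : U p n Q) : ZMod p :=
  X (Wrd φ u) - X (Wrd 0 u)

omit [Fintype Q] in
/-- exact on the clock words, at every unit -/
theorem clkRead_clk (φ : Q → V p n) (t : Fin n) (u : U p n Q) :
    clkRead (clk t) φ u = φ u.2.2.2 t := by
  simp [clkRead, clk]

omit [Fintype Q] in
/-- value at `t` of the guard "the clock is `t0`" -/
theorem clkRead_guard (t0 t : Fin n) (u : U p n Q) :
    clkRead (clk t) (fun _ => Pi.single t0 1) u = if t = t0 then 1 else 0 := by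
  rw [clkRead_clk, Pi.single_apply]

omit [Fintype Q] in
/-- the clock after the move `t ↦ ρ t`, as a function of one permuted symbol -/
theorem clk_move (ρ : Equiv.Perm (Fin n)) (t : Fin n) :
    (fun u : U p n Q => clk t (Wrot ρ u)) = clk (ρ t) := rfl

end ax

end Crest.Agent.R289.Clock311
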