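import Crest.Agent.R289.ClockE_698
import Crest.Agent.R289.ClkTD_766
import Crest.Agent.R289.AsmObj_12

/-!
# Row 289: the clock of the instance of an object (helper698)

* `Q_pow` : `D.Q = D.p ^ e` (from `Obj.OK.isP`); `siz` : the sizes of the units
  `(D.P kP × D.P kR) × D.P kT`;
* `eD` : clock coordinates of the units, `tD`, `ht_D` = hypothesis `ht` of `ClkTD_766`;
* `clkC_eq` : the clock code is `{cw t | t ≤ L}`; `cw_CAx`, `cw_CAx_iter` : the clock register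
  in the words of `ClkTD_766`.
-/

set_option autoImplicit false
set_option linter.unusedSectionVars false

namespace Crest.Agent.R289.ClockObj698

open Finset LCodeS152 Clock311 YIdx901 GkIdx594 ClockPT484 ClockU698 Clock425 Word508 ClockE698
open Asm12 DefI ClkTD766

/-! ### sizes -/

theorem Q_pow {D : Obj} {M0 : ℕ} {lam0 Kr : ℝ} (h : D.OK M0 lam0 Kr) :
    ∃ e : ℕ, 0 < e ∧ D.Q = D.p ^ e := by
  have := Fact.mk h.prime
  obtain ⟨e, he⟩ := (IsPGroup.iff_card (p := D.p) (G := D.P 1)).1 (h.isP 1)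
  have h1 : Nat.card (D.P 1) = D.Q := by
    rw [Nat.card_congr (D.ix 1), Nat.card_eq_fintype_card, Fintype.card_fin, pow_one]
  have h2 : D.Q = D.p ^ e := by rw [← h1, he]
  refine ⟨e, ?_, h2⟩
  rcases Nat.eq_zero_or_pos e with h0 | h0
  · rw [h0, pow_zero] at h2
    have := h.two_le
    omega
  · exact h0

theorem Q_pow3 {D : Obj} {M0 : ℕ} {lam0 Kr : ℝ} (h : D.OK M0 lam0 Kr) (hp : D.p = 3) :
    ∃ e : ℕ, 0 < e ∧ D.Q = 3 ^ e := by
  rw [← hp]; exact Q_pow h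

/-- sizes of the units `(D.P kP × D.P kR) × D.P kT` -/
def siz (D : Obj) {p e : ℕ} (hQ : D.Q = p ^ e) {n kP : ℕ} (kR kT : ℕ) (hw : 3 * n ≤ e * kP) :
    Siz p n where
  nP := D.Q ^ kP
  nR := D.Q ^ kR
  nT := D.Q ^ kT
  a := e * kP
  b := e * kR
  t := e * kT
  hP := by rw [hQ, ← pow_mul]
  hR := by rw [hQ, ← pow_mul]
  hT := by rw [hQ, ← pow_mul]
  hn := hw

/-- the window from `p ^ (3 n) ≤ Q ^ kP` -/
theorem win_of_le {Q p e n kP : ℕ} (hp : 2 ≤ p) (hQ : Q = p ^ e) (h : p ^ (3 * n) ≤ Q ^ kP) :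
    3 * n ≤ e * kP := by
  rw [hQ, ← pow_mul] at h
  exact (Nat.pow_le_pow_iff_right hp).1 h

section obj

variable (D : Obj) {p e : ℕ} [NeZero p] (hQ : D.Q = p ^ e) {n kP : ℕ} (kR kT : ℕ)
  (hw : 3 * n ≤ e * kP)

/-- clock coordinates of the units -/
noncomputable def eD : (D.P kP × D.P kR) × D.P kT ≃
    Clock311.U p n (Fin (siz D hQ kR kT hw).rho) :=
  eU (siz D hQ kR kT hw) (D.ix kP) (D.ix kR) (D.ix kT)

/-- the `T`-component of the public coordinate -/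
def tD (r : Fin (siz D hQ kR kT hw).rho) : D.P kT := tq (siz D hQ kR kT hw) (D.ix kT) r

theorem ht_D (u : (D.P kP × D.P kR) × D.P kT) :
    u.2 = tD D hQ kR kT hw (eD D hQ kR kT hw u).2.2.2 :=
  tq_eU (siz D hQ kR kT hw) (D.ix kP) (D.ix kR) (D.ix kT) u

end obj

/-- neighbour maps of the clock register -/
noncomputable def nbD (D : Obj) {p e : ℕ} [Fact p.Prime] (hQ : D.Q = p ^ e) {n kP : ℕ}
    (kR kT : ℕ) (hw : 3 * n ≤ e * kP) : Clock425.Slot (SJ p) →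
    (D.P kP × D.P kR) × D.P kT → (D.P kP × D.P kR) × D.P kT :=
  cnbr (eD D hQ kR kT hw) (sg (siz D hQ kR kT hw))

/-! ### the clock code in the words of `ClkTD_766` -/

section code

variable {K : Type} [Field K] {c : Cst K} (I : Ins c) {p : ℕ} {Q : Type}
  (e : I.U ≃ Clock311.U p (I.L + 1) Q)

theorem cw_eq (t : ℕ) : cw I e t = clkW e (pos I.L t) := rfl

theorem clkC_eq : clkC e = {w | ∃ t ≤ I.L, w = cw I e t} := by
  ext w
  constructor
  · rintro ⟨t, rfl⟩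
    refine ⟨t, Nat.lt_succ_iff.1 t.2, ?_⟩
    rw [cw_eq]
    congr 1
    exact Fin.ext (pos_val (Nat.lt_succ_iff.1 t.2)).symm
  · rintro ⟨t, _, rfl⟩
    exact ⟨pos I.L t, rfl⟩

theorem cw_mem (t : ℕ) : cw I e t ∈ clkC e := ⟨pos I.L t, rfl⟩

variable [Fact p.Prime] [Fintype Q] [Nonempty Q] {J : Type} [Fintype J] [Nonempty J]

/-- **the clock register of an instance** -/
theorem cw_CAx {σ : J → Equiv.Perm (R p (I.L + 1) Q)} {lam : ℝ} (h : Mixes σ lam)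
    (h0 : 0 ≤ lam) (hl : lam ≤ 1 / 2048) :
    CAx (clkRules p J) (cnbr e σ) (fun _ => ()) {w | ∃ t ≤ I.L, w = cw I e t}
      1 (1 / 205) (1 / 8) (1 / 2) 16 (1 / 4) := by
  rw [← clkC_eq]
  exact clk_CAx e h h0 hl

theorem cw_CAx_iter {σ : J → Equiv.Perm (R p (I.L + 1) Q)} {lam : ℝ} (h : Mixes σ lam)
    (h0 : 0 ≤ lam) (hl : lam ≤ 1 / 2048) (k : ℕ) :
    CAx ((clkRules p J).iter k) (inb (cnbr e σ) k) (ipub (cnbr e σ) (fun _ => ()) k)
      {w | ∃ t ≤ I.L, w = cw I e t} 1 (1 / 205) (1 / 8) (1 / 2) 16 ((1 / 4) ^ (2 ^ k)) := by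
  rw [← clkC_eq]
  exact clk_CAx_iter e h h0 hl k

end code

end Crest.Agent.R289.ClockObj698
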