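import Crest.Agent.R289.MirTab_407
import Crest.Agent.R289.DefI_306

/-!
# R289, leaf E25, part 2: tables of the T-side public words of `DefI.Ins` (helper407)

Number level (relative form): all functions are polynomial-time on the whole coded type `α`, the
specification is proved where the numbers come from a group.

* `mirN` : table of the mirror words of a number table `q`; `ptf_mirN`, `mirN_spec`;
* `kapN`, `kapN'`, `nDN` : number tables of `Level492.kap`, `kap'`, `N *ᵥ D` for the operators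
  `mU`, `mN1`, `mN2` of `DefI.Ins`, with specifications;
* `TabT`, `Tab` : tables over well-formed instances; **`tab_A`**, `tab_B`, `tab_A0`, `tab_B0`.
-/

set_option autoImplicit false
set_option linter.dupNamespace false
set_option linter.unusedSectionVars false

namespace Crest.Agent.R289.MirTab407

open Crest.Agent.Lib.PT Crest.Agent.Lib.PT.Arith Crest.Agent.R288.PtDp115 Crest.Agent.R289
open Crest.Agent.R289.Gauss115 Crest.Agent.R289.Tab858 Crest.Agent.R289.Pub654
open Crest.Agent.R289.Mirror545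

section num

variable {K : Type} [Field K] [Finite K] [PTCode K]
variable {α : Type} [PTCode α]
variable {S J : Type} [Fintype S] [DecidableEq S] [Fintype J]

/-- number table of the mirror words of `q` -/
noncomputable def mirN (s0 : S) (β : {s : S // s ≠ s0} → S → J → K) (n : ℕ) (nb : J → ℕ → ℕ)
    (q : ℕ → K) (s : {s : S // s ≠ s0}) (g : ℕ) : K :=
  getK (solve (n * Fintype.card {s : S // s ≠ s0}) (n * Fintype.card {s : S // s ≠ s0})
    (fun row col => cfm s0 β nb (dec s (row % Fintype.card {s : S // s ≠ s0}))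
      (dec s (col % Fintype.card {s : S // s ≠ s0})) (row / Fintype.card {s : S // s ≠ s0})
      (col / Fintype.card {s : S // s ≠ s0}))
    (fun row => rhm s0 β nb q (dec s (row % Fintype.card {s : S // s ≠ s0}))
      (row / Fintype.card {s : S // s ≠ s0})))
    (g * Fintype.card {s : S // s ≠ s0} + num s)

theorem ptf_mirN (s0 : S) (β : {s : S // s ≠ s0} → S → J → K) {n : α → ℕ}
    {nb : α → J → ℕ → ℕ} {q : α → ℕ → K} (s : {s : S // s ≠ s0}) {g : α → ℕ} (hn : PTU n)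
    (hnb : ∀ j, PTF (fun p : α × ℕ => nb p.1 j p.2)) (hq : PTF (fun p : α × ℕ => q p.1 p.2))
    (hg : PTF g) : PTF (fun a => mirN s0 β (n a) (nb a) (q a) s (g a)) := by
  classical
  unfold mirN
  set m := Fintype.card {s : S // s ≠ s0} with hm
  have hm0 : 0 < m := Fintype.card_pos_iff.2 ⟨s⟩
  have hA : PTF (fun p : α × ℕ × ℕ => cfm s0 β (nb p.1) (dec s (p.2.1 % m)) (dec s (p.2.2 % m))
      (p.2.1 / m) (p.2.2 / m)) := by
    have hG : ∀ i t : ℕ, PTF (fun p : α × ℕ × ℕ => cfm s0 β (nb p.1) (dec s i) (dec s t)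
        (p.2.1 / m) (p.2.2 / m)) := by
      intro i t
      refine ptf_fsum Finset.univ fun j _ => ?_
      have hh : PTF (fun p : α × ℕ × ℕ => p.2.1 / m) :=
        PTF.natDiv (PTF.comp PTF.fst PTF.snd) (PTF.const m)
      have hg : PTF (fun p : α × ℕ × ℕ => p.2.2 / m) :=
        PTF.natDiv (PTF.comp PTF.snd PTF.snd) (PTF.const m)
      have hnb' : PTF (fun p : α × ℕ × ℕ => nb p.1 j (p.2.1 / m)) :=
        PTF.comp (g := fun p : α × ℕ => nb p.1 j p.2)
          (f := fun p : α × ℕ × ℕ => (p.1, p.2.1 / m)) (hnb j) (PTF.prodMk PTF.fst hh)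
      exact PTF.ite (p := fun p : α × ℕ × ℕ => nb p.1 j (p.2.1 / m) = p.2.2 / m)
        (PTPred.eq hnb' hg) (PTF.const _) (PTF.const 0)
    have h1 : PTF (fun p : α × ℕ × ℕ => if p.2.1 % m < m then (if p.2.2 % m < m then
        cfm s0 β (nb p.1) (dec s (p.2.1 % m)) (dec s (p.2.2 % m)) (p.2.1 / m) (p.2.2 / m)
        else 0) else 0) := by
      refine ptf_upto m (f := fun i p => if p.2.2 % m < m then
        cfm s0 β (nb p.1) (dec s i) (dec s (p.2.2 % m)) (p.2.1 / m) (p.2.2 / m) else 0)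
        (d := fun _ : α × ℕ × ℕ => (0 : K)) (fun i _ => ?_) (PTF.const 0)
        (PTF.natMod (PTF.comp PTF.fst PTF.snd) (PTF.const m))
      exact ptf_upto m (f := fun t p => cfm s0 β (nb p.1) (dec s i) (dec s t)
        (p.2.1 / m) (p.2.2 / m)) (d := fun _ : α × ℕ × ℕ => (0 : K)) (fun t _ => hG i t)
        (PTF.const 0) (PTF.natMod (PTF.comp PTF.snd PTF.snd) (PTF.const m))
    refine PTF.of_eq h1 fun p => ?_
    rw [if_pos (Nat.mod_lt _ hm0), if_pos (Nat.mod_lt _ hm0)]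
  have hb : PTF (fun p : α × ℕ => rhm s0 β (nb p.1) (q p.1) (dec s (p.2 % m)) (p.2 / m)) := by
    have hG : ∀ i : ℕ, PTF (fun p : α × ℕ => rhm s0 β (nb p.1) (q p.1) (dec s i) (p.2 / m)) := by
      intro i
      refine ptf_kneg (ptf_fsum Finset.univ fun j _ => ptf_kmul (PTF.const _) ?_)
      have hnb' : PTF (fun p : α × ℕ => nb p.1 j (p.2 / m)) :=
        PTF.comp (g := fun p : α × ℕ => nb p.1 j p.2)
          (f := fun p : α × ℕ => (p.1, p.2 / m)) (hnb j)
          (PTF.prodMk PTF.fst (PTF.natDiv PTF.snd (PTF.const m)))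
      exact PTF.comp (g := fun p : α × ℕ => q p.1 p.2)
        (f := fun p : α × ℕ => (p.1, nb p.1 j (p.2 / m))) hq (PTF.prodMk PTF.fst hnb')
    have h1 : PTF (fun p : α × ℕ => if p.2 % m < m then
        rhm s0 β (nb p.1) (q p.1) (dec s (p.2 % m)) (p.2 / m) else 0) :=
      ptf_upto m (f := fun i p => rhm s0 β (nb p.1) (q p.1) (dec s i) (p.2 / m))
        (d := fun _ : α × ℕ => (0 : K)) (fun i _ => hG i) (PTF.const 0)
        (PTF.natMod PTF.snd (PTF.const m))
    refine PTF.of_eq h1 fun p => ?_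
    rw [if_pos (Nat.mod_lt _ hm0)]
  have hsol := ptf_solve (n := fun a => n a * m) (m := fun a => n a * m)
    (A := fun a row col => cfm s0 β (nb a) (dec s (row % m)) (dec s (col % m)) (row / m)
      (col / m))
    (b := fun a row => rhm s0 β (nb a) (q a) (dec s (row % m)) (row / m))
    (PTU.mul hn (PTU.const m)) (PTU.mul hn (PTU.const m)) hA hb
  exact ptf_getK hsol (PTF.natAdd (PTF.natMul hg (PTF.const m)) (PTF.const (num s)))

omit [Finite K] [PTCode K] in
theorem mirN_spec {T : Type} [Group T] {s0 : S} {β : {s : S // s ≠ s0} → S → J → K} {γ : J → T}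
    {N : ℕ} (e : T ≃ Fin N) {nb : J → ℕ → ℕ}
    (hnb : ∀ j g, nb j (e g : ℕ) = ((e ((γ j)⁻¹ * g) : Fin N) : ℕ)) {qN : ℕ → K} {q : T → K}
    (hq : ∀ g, qN (e g : ℕ) = q g) {U : {s : S // s ≠ s0} → T → K}
    (hU : MirRel s0 β γ q U)
    (huniq : ∀ V : {s : S // s ≠ s0} → T → K,
      MirRel s0 β γ (fun _ => (0 : K)) V → ∀ s g, V s g = 0)
    (s : {s : S // s ≠ s0}) (g : T) : mirN s0 β N nb qN s (e g : ℕ) = U s g := by
  classical
  unfold mirN
  set m := Fintype.card {s : S // s ≠ s0} with hm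
  have hm0 : 0 < m := Fintype.card_pos_iff.2 ⟨s⟩
  have hnb' : ∀ j h (hh : h < N), nb j h = ((e ((γ j)⁻¹ * e.symm ⟨h, hh⟩) : Fin N) : ℕ) := by
    intro j h hh
    have := hnb j (e.symm ⟨h, hh⟩)
    simpa using this
  have hlt : ∀ j h, h < N → nb j h < N := by
    intro j h hh
    rw [hnb' j h hh]
    exact Fin.isLt _
  have key := getK_solve_eq (α := Unit) (n := fun _ => N * m) (m := fun _ => N * m)
    (A := fun _ row col => cfm s0 β nb (dec s (row % m)) (dec s (col % m)) (row / m)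
      (col / m))
    (b := fun _ row => rhm s0 β nb qN (dec s (row % m)) (row / m))
    (x := fun _ j => if h : j / m < N then U (dec s (j % m)) (e.symm ⟨j / m, h⟩) else 0)
    ?_ ?_ () (j := (e g : ℕ) * m + num s) (idx_lt (e g).2 (num_lt s))
  · rw [key]
    have h3 : ((e g : ℕ) * m + num s) / m = (e g : ℕ) := idx_div (num_lt s)
    have h4 : ((e g : ℕ) * m + num s) % m = num s := idx_mod (num_lt s)
    rw [h4, dec_num]
    simp only [h3, Fin.is_lt, dif_pos, Fin.eta, Equiv.symm_apply_apply]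
  · intro _ row hrow
    have hh : row / m < N := Nat.div_lt_of_lt_mul (by rwa [mul_comm] at hrow)
    have e1 := sum_range_mul_card s N (fun g s' => cfm s0 β nb (dec s (row % m)) s'
      (row / m) g * (if h : g < N then U s' (e.symm ⟨g, h⟩) else 0))
    rw [← hm] at e1
    rw [e1, sum_cfm s0 β nb (fun j => hlt j _ hh)]
    have h5 := (mir_scalar.1 hU) (dec s (row % m)) (e.symm ⟨row / m, hh⟩)
    have h6 : ∀ j, nb j (row / m) = ((e ((γ j)⁻¹ * e.symm ⟨row / m, hh⟩) : Fin N) : ℕ) :=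
      fun j => hnb' j _ hh
    simp only [rhm, h6, hq, Fin.is_lt, dif_pos, Fin.eta, Equiv.symm_apply_apply]
    exact h5
  · intro _ y hy j hj
    have hj' : j / m < N := Nat.div_lt_of_lt_mul (by rwa [mul_comm] at hj)
    have key := huniq (fun s' g => y ((e g : ℕ) * m + num s')) ?_ (dec s (j % m))
      (e.symm ⟨j / m, hj'⟩)
    · have key' : y (j / m * m + num (dec s (j % m))) = 0 := by simpa using key
      rw [num_dec s (Nat.mod_lt _ hm0), mul_comm, Nat.div_add_mod] at key'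
      exact key'
    · rw [mir_scalar]
      intro c g
      have h1 := hy ((e g : ℕ) * m + num c) (idx_lt (e g).2 (num_lt _))
      have e1 := sum_range_mul_card s N (fun g' s' => cfm s0 β nb c s'
        (e g : ℕ) g' * y (g' * m + num s'))
      rw [← hm] at e1
      rw [sum_cfm s0 β nb (fun j => hlt j _ (e g).2)] at e1
      simp only [hnb] at e1
      simp only [mul_zero, Finset.sum_const_zero, neg_zero]
      rw [← e1, ← h1]
      refine Finset.sum_congr rfl fun j _ => ?_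
      rw [idx_div (num_lt _), idx_mod (num_lt _), dec_num, num_dec s (Nat.mod_lt _ hm0),
        mul_comm (j / m) m, Nat.div_add_mod]

end num

/-! ### kap words of `DefI.Ins` -/

section ins

open Matrix Crest.Agent.R289.DefI

variable {K : Type} [Field K] {c : Cst K}

theorem mU_mulVec (I : Ins c) (f : I.n → K) (p : I.n) : (I.mU *ᵥ f) p = I.one p * f p := by
  rw [Ins.mU, Matrix.mulVec_diagonal]

theorem mN1_mulVec (I : Ins c) (f : I.n → K) (p : I.n) :
    (I.mN1 *ᵥ f) p = ∑ j, I.E1 j p * f (I.h1 j * p.1, p.2) := by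
  simp only [Matrix.mulVec, dotProduct, Ins.mN1, Finset.sum_mul, ite_mul, zero_mul]
  rw [Finset.sum_comm]
  refine Finset.sum_congr rfl fun j _ => ?_
  rw [Finset.sum_ite_eq' Finset.univ (I.h1 j * p.1, p.2) fun q => I.E1 j p * f q]
  simp

theorem mN2_mulVec (I : Ins c) (f : I.n → K) (p : I.n) :
    (I.mN2 *ᵥ f) p = ∑ j, I.E2 j p * f (I.h2 j * p.1, p.2) := by
  simp only [Matrix.mulVec, dotProduct, Ins.mN2, Finset.sum_mul, ite_mul, zero_mul]
  rw [Finset.sum_comm]
  refine Finset.sum_congr rfl fun j _ => ?_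
  rw [Finset.sum_ite_eq' Finset.univ (I.h2 j * p.1, p.2) fun q => I.E2 j p * f q]
  simp

/-- the public word `kap_t` -/
def kapI (I : Ins c) (t : ℕ) : I.n → K := Level492.kap I.mU I.mN1 I.D t

/-- the public word `kap'_t` -/
def kapI' (I : Ins c) (t : ℕ) : I.n → K := Level492.kap' I.mU I.mN2 I.D t

theorem kapI_apply (I : Ins c) (t : ℕ) (p : I.n) :
    kapI I t p = I.one p * I.D t p - ∑ j, I.E1 j p * I.D (t + 1) (I.h1 j * p.1, p.2) := by
  rw [kapI, Level492.kap, Pi.sub_apply, mU_mulVec, mN1_mulVec]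

theorem kapI'_apply (I : Ins c) (t : ℕ) (p : I.n) :
    kapI' I t p = I.one p * I.Dm t p - ∑ j, I.E2 j p * I.D (t + 1) (I.h2 j * p.1, p.2) := by
  rw [kapI', Level492.kap', Pi.sub_apply, mU_mulVec, mN2_mulVec]
  rfl

/-- `MirK` symbol by symbol -/
theorem mirK_sym {I : Ins c} {q : I.n → K} {U : c.C → I.n → K} (h : I.MirK q U) (s' : c.S') :
    MirRel c.s0' c.bet I.gam (fun τ => q (τ, s')) (fun s τ => U s (τ, s')) :=
  h.map (LinearMap.proj s')

/-- the mirror words of `0` are `0` -/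
theorem mir_uniq {T S ι J : Type} [Group T] [Fintype S] [DecidableEq S] [Fintype ι] [Fintype J]
    {s0 : S} {al : ι → S → J → K} {P : {s : S // s ≠ s0} → ι → K} (hP : IsP s0 al P) {γ : J → T}
    {L : ℕ} (hL : AugNil322.J K T ^ L = ⊥) (V : {s : S // s ≠ s0} → T → K)
    (h : MirRel s0 (bet s0 al P) γ (fun _ => (0 : K)) V) : ∀ s g, V s g = 0 :=
  mir_zero s0 al P hP γ hL h fun _ => rfl

end ins

/-! ### tables over well-formed instances -/

section tab

open Matrix Crest.Agent.R289.DefI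

variable {α ι : Type} [PTCode α] (raw : ι → α) {n : α → ℕ} {U : ι → Type}
  (e : ∀ i, U i ≃ Fin (n (raw i)))

/-- polynomial-time table of a function on units -/
abbrev Tab {β : Type} [PTCode β] (f : ∀ i, U i → β) : Prop :=
  ∃ t : α → ℕ → β, PTF (fun p : α × ℕ => t p.1 p.2) ∧ ∀ i u, t (raw i) (e i u : ℕ) = f i u

/-- the same with a time argument -/
abbrev TabT {β : Type} [PTCode β] (f : ∀ i, ℕ → U i → β) : Prop :=
  ∃ t : α → ℕ → ℕ → β, PTF (fun p : α × ℕ × ℕ => t p.1 p.2.1 p.2.2) ∧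
    ∀ i k u, t (raw i) k (e i u : ℕ) = f i k u

/-- polynomial-time unit map -/
abbrev Slot (g : ∀ i, U i → U i) : Prop :=
  ∃ t : α → ℕ → ℕ, PTF (fun p : α × ℕ => t p.1 p.2) ∧
    ∀ i u, t (raw i) (e i u : ℕ) = ((e i (g i u) : Fin (n (raw i))) : ℕ)

variable {raw e}

theorem TabT.of_tab {β : Type} [PTCode β] {f : ∀ i, U i → β} (hf : Tab raw e f) :
    TabT raw e (fun i _ u => f i u) := by
  obtain ⟨t, ht, hs⟩ := hf
  refine ⟨fun a _ u => t a u, ?_, fun i _ u => hs i u⟩
  exact PTF.comp (g := fun p : α × ℕ => t p.1 p.2) (f := fun p : α × ℕ × ℕ => (p.1, p.2.2)) ht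
    (PTF.prodMk PTF.fst (PTF.comp PTF.snd PTF.snd))

/-- the table at a time that depends on the instance -/
theorem TabT.at {β : Type} [PTCode β] {f : ∀ i, ℕ → U i → β} (hf : TabT raw e f) {k : α → ℕ}
    (hk : PTF k) : Tab raw e (fun i u => f i (k (raw i)) u) := by
  obtain ⟨t, ht, hs⟩ := hf
  refine ⟨fun a u => t a (k a) u, ?_, fun i u => hs i _ u⟩
  exact PTF.comp (g := fun p : α × ℕ × ℕ => t p.1 p.2.1 p.2.2)
    (f := fun p : α × ℕ => (p.1, k p.1, p.2)) ht
    (PTF.prodMk PTF.fst (PTF.prodMk (PTF.comp (g := k) hk PTF.fst) PTF.snd))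

variable {K : Type} [Field K] [Finite K] [PTCode K] {c : Cst K} {I : ι → Ins c}
  {eT : ∀ i, (I i).T ≃ Fin (n (raw i))}

theorem TabT.neg {f : ∀ i, ℕ → U i → K} (hf : TabT raw e f) :
    TabT raw e (fun i k u => - f i k u) := by
  obtain ⟨t, ht, hs⟩ := hf
  exact ⟨fun a k u => - t a k u, ptf_kneg ht, fun i k u => by simp only [hs]⟩

/-- table of `one * D_k` -/
theorem tabT_mulD {f : ∀ i, U i → K} {g : ∀ i, ℕ → U i → K} (hf : Tab raw e f)
    (hg : TabT raw e g) : TabT raw e (fun i k u => f i u * g i k u) := by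
  obtain ⟨t, ht, hs⟩ := TabT.of_tab hf
  obtain ⟨t', ht', hs'⟩ := hg
  exact ⟨fun a k u => t a k u * t' a k u, ptf_kmul ht ht', fun i k u => by simp only [hs, hs']⟩

theorem TabT.sub {f g : ∀ i, ℕ → U i → K} (hf : TabT raw e f) (hg : TabT raw e g) :
    TabT raw e (fun i k u => f i k u - g i k u) := by
  obtain ⟨t, ht, hs⟩ := hf
  obtain ⟨t', ht', hs'⟩ := hg
  exact ⟨fun a k u => t a k u - t' a k u, ptf_ksub ht ht', fun i k u => by simp only [hs, hs']⟩

theorem TabT.sum {κ : Type} (s : Finset κ) {f : κ → ∀ i, ℕ → U i → K}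
    (hf : ∀ j, TabT raw e (f j)) : TabT raw e (fun i k u => ∑ j ∈ s, f j i k u) := by
  choose t ht hs using hf
  refine ⟨fun a k u => ∑ j ∈ s, t j a k u, ptf_fsum s fun j _ => ht j, fun i k u => ?_⟩
  exact Finset.sum_congr rfl fun j _ => hs j i k u

/-- word of time `k` read at a neighbour -/
theorem TabT.slot {β : Type} [PTCode β] {f : ∀ i, ℕ → U i → β} {g : ∀ i, U i → U i}
    (hf : TabT raw e f) (hg : Slot raw e g) : TabT raw e (fun i k u => f i k (g i u)) := by
  obtain ⟨t, ht, hs⟩ := hf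
  obtain ⟨m, hm, hms⟩ := hg
  refine ⟨fun a k u => t a k (m a u), ?_, fun i k u => by simp only [hms, hs]⟩
  refine PTF.comp (g := fun p : α × ℕ × ℕ => t p.1 p.2.1 p.2.2)
    (f := fun p : α × ℕ × ℕ => (p.1, p.2.1, m p.1 p.2.2)) ht
    (PTF.prodMk PTF.fst (PTF.prodMk (PTF.comp PTF.fst PTF.snd) ?_))
  exact PTF.comp (g := fun p : α × ℕ => m p.1 p.2) (f := fun p : α × ℕ × ℕ => (p.1, p.2.2)) hm
    (PTF.prodMk PTF.fst (PTF.comp PTF.snd PTF.snd))

/-- shift of the time -/
theorem TabT.succ {β : Type} [PTCode β] {f : ∀ i, ℕ → U i → β} (hf : TabT raw e f) :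
    TabT raw e (fun i k u => f i (k + 1) u) := by
  obtain ⟨t, ht, hs⟩ := hf
  refine ⟨fun a k u => t a (k + 1) u, ?_, fun i k u => hs i _ u⟩
  exact PTF.comp (g := fun p : α × ℕ × ℕ => t p.1 p.2.1 p.2.2)
    (f := fun p : α × ℕ × ℕ => (p.1, p.2.1 + 1, p.2.2)) ht
    (PTF.prodMk PTF.fst (PTF.prodMk (PTF.natAdd (PTF.comp PTF.fst PTF.snd) (PTF.const 1))
      (PTF.comp PTF.snd PTF.snd)))

/-- the previous word, `0` at time `0` -/
theorem TabT.dm {f : ∀ i, ℕ → U i → K} (hf : TabT raw e f) :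
    TabT raw e (fun i k u => if k = 0 then 0 else f i (k - 1) u) := by
  obtain ⟨t, ht, hs⟩ := hf
  refine ⟨fun a k u => if k = 0 then 0 else t a (k - 1) u, ?_, fun i k u => ?_⟩
  · refine PTF.ite (p := fun p : α × ℕ × ℕ => p.2.1 = 0)
      (PTPred.eq (PTF.comp PTF.fst PTF.snd) (PTF.const 0)) (PTF.const 0) ?_
    exact PTF.comp (g := fun p : α × ℕ × ℕ => t p.1 p.2.1 p.2.2)
      (f := fun p : α × ℕ × ℕ => (p.1, p.2.1 - 1, p.2.2)) ht
      (PTF.prodMk PTF.fst (PTF.prodMk (PTF.natSub (PTF.comp PTF.fst PTF.snd) (PTF.const 1))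
        (PTF.comp PTF.snd PTF.snd)))
  · by_cases hk : k = 0 <;> simp [hk, hs]

/-- the words `kap_k` -/
theorem tabT_kap (hone : ∀ s', Tab raw eT (fun i τ => (I i).one (τ, s')))
    (hE1 : ∀ j s', Tab raw eT (fun i τ => (I i).E1 j (τ, s')))
    (hD : ∀ s', TabT raw eT (fun i k τ => (I i).D k (τ, s')))
    (hh1 : ∀ j, Slot raw eT (fun i τ => (I i).h1 j * τ)) (s' : c.S') :
    TabT raw eT (fun i k τ => kapI (I i) k (τ, s')) := by
  have h := TabT.sub (tabT_mulD (hone s') (hD s')) (TabT.sum (Finset.univ : Finset c.J1)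
    fun j => tabT_mulD (hE1 j s') (((hD s').succ).slot (hh1 j)))
  simpa only [kapI_apply] using h

/-- the words `kap'_k` -/
theorem tabT_kap' (hone : ∀ s', Tab raw eT (fun i τ => (I i).one (τ, s')))
    (hE2 : ∀ j s', Tab raw eT (fun i τ => (I i).E2 j (τ, s')))
    (hD : ∀ s', TabT raw eT (fun i k τ => (I i).D k (τ, s')))
    (hh2 : ∀ j, Slot raw eT (fun i τ => (I i).h2 j * τ)) (s' : c.S') :
    TabT raw eT (fun i k τ => kapI' (I i) k (τ, s')) := by
  have h := TabT.sub (tabT_mulD (hone s') (hD s').dm) (TabT.sum (Finset.univ : Finset c.J2)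
    fun j => tabT_mulD (hE2 j s') (((hD s').succ).slot (hh2 j)))
  have e1 : (fun (i : ι) (k : ℕ) (τ : (I i).T) => kapI' (I i) k (τ, s'))
      = fun i k τ => (I i).one (τ, s') * (if k = 0 then 0 else (I i).D (k - 1) (τ, s'))
        - ∑ j ∈ (Finset.univ : Finset c.J2),
          (I i).E2 j (τ, s') * (I i).D (k + 1) ((I i).h2 j * τ, s') := by
    funext i k τ
    rw [kapI'_apply]
    congr 2
    cases k <;> simp [Ins.Dm, Level492.Dm]
  rw [e1]
  exact h

/-- mirror words, with a time argument -/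
theorem tabT_mir (hn : PTU n) (hγ : ∀ j, Slot raw eT (fun i τ => ((I i).gam j)⁻¹ * τ))
    (huniq : ∀ i (V : c.C → (I i).T → K),
      MirRel c.s0' c.bet (I i).gam (fun _ => (0 : K)) V → ∀ s g, V s g = 0)
    {q : ∀ i, ℕ → (I i).n → K} (hq : ∀ s', TabT raw eT (fun i k τ => q i k (τ, s')))
    {V : ∀ i, ℕ → c.C → (I i).n → K} (hV : ∀ i k, (I i).MirK (q i k) (V i k))
    (s : c.C) (s' : c.S') : TabT raw eT (fun i k τ => V i k s (τ, s')) := by
  choose m hm hms using hγ
  obtain ⟨t, ht, hs⟩ := hq s'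
  refine ⟨fun a k u => mirN c.s0' c.bet (n a) (fun j h => m j a h) (fun g => t a k g) s u, ?_,
    fun i k u => ?_⟩
  · refine ptf_mirN (α := α × ℕ × ℕ) c.s0' c.bet (n := fun p => n p.1)
      (nb := fun p j h => m j p.1 h) (q := fun p g => t p.1 p.2.1 g) s
      (g := fun p => p.2.2) (PTU.comp hn PTF.fst) (fun j => ?_) ?_ (PTF.comp PTF.snd PTF.snd)
    · exact PTF.comp (g := fun p : α × ℕ => m j p.1 p.2)
        (f := fun p : (α × ℕ × ℕ) × ℕ => (p.1.1, p.2)) (hm j)
        (PTF.prodMk (PTF.comp PTF.fst PTF.fst) PTF.snd)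
    · exact PTF.comp (g := fun p : α × ℕ × ℕ => t p.1 p.2.1 p.2.2)
        (f := fun p : (α × ℕ × ℕ) × ℕ => (p.1.1, p.1.2.1, p.2)) ht
        (PTF.prodMk (PTF.comp PTF.fst PTF.fst)
          (PTF.prodMk (PTF.comp PTF.fst (PTF.comp PTF.snd PTF.fst)) PTF.snd))
  · exact mirN_spec (eT i) (γ := (I i).gam) (nb := fun j h => m j (raw i) h)
      (fun j g => hms j i g) (qN := fun g => t (raw i) k g) (q := fun τ => q i k (τ, s'))
      (fun g => hs i k g) (U := fun s τ => V i k s (τ, s')) (mirK_sym (hV i k) s')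
      (huniq i) s u

/-- mirror words -/
theorem tab_mir (hn : PTU n) (hγ : ∀ j, Slot raw eT (fun i τ => ((I i).gam j)⁻¹ * τ))
    (huniq : ∀ i (V : c.C → (I i).T → K),
      MirRel c.s0' c.bet (I i).gam (fun _ => (0 : K)) V → ∀ s g, V s g = 0)
    {q : ∀ i, (I i).n → K} (hq : ∀ s', Tab raw eT (fun i τ => q i (τ, s')))
    {V : ∀ i, c.C → (I i).n → K} (hV : ∀ i, (I i).MirK (q i) (V i))
    (s : c.C) (s' : c.S') : Tab raw eT (fun i τ => V i s (τ, s')) :=
  TabT.at (k := fun _ => 0) (tabT_mir hn hγ huniq (q := fun i _ => q i)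
    (fun s' => TabT.of_tab (hq s')) (V := fun i _ => V i) (fun i _ => hV i) s s') (PTF.const 0)

/-- `N1 D_k` -/
theorem tabT_N1D (hE1 : ∀ j s', Tab raw eT (fun i τ => (I i).E1 j (τ, s')))
    (hD : ∀ s', TabT raw eT (fun i k τ => (I i).D k (τ, s')))
    (hh1 : ∀ j, Slot raw eT (fun i τ => (I i).h1 j * τ)) (s' : c.S') :
    TabT raw eT (fun i k τ => ((I i).mN1 *ᵥ (I i).D k) (τ, s')) := by
  have h := TabT.sum (Finset.univ : Finset c.J1)
    fun j => tabT_mulD (hE1 j s') ((hD s').slot (hh1 j))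
  simpa only [mN1_mulVec] using h

/-- `N2 D_k` -/
theorem tabT_N2D (hE2 : ∀ j s', Tab raw eT (fun i τ => (I i).E2 j (τ, s')))
    (hD : ∀ s', TabT raw eT (fun i k τ => (I i).D k (τ, s')))
    (hh2 : ∀ j, Slot raw eT (fun i τ => (I i).h2 j * τ)) (s' : c.S') :
    TabT raw eT (fun i k τ => ((I i).mN2 *ᵥ (I i).D k) (τ, s')) := by
  have h := TabT.sum (Finset.univ : Finset c.J2)
    fun j => tabT_mulD (hE2 j s') ((hD s').slot (hh2 j))
  simpa only [mN2_mulVec] using h

/-- **all T-side public tables** from the tables of `one`, `E1`, `E2`, `D` and the moves -/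
theorem tside_tables (hn : PTU n)
    (hone : ∀ s', Tab raw eT (fun i τ => (I i).one (τ, s')))
    (hE1 : ∀ j s', Tab raw eT (fun i τ => (I i).E1 j (τ, s')))
    (hE2 : ∀ j s', Tab raw eT (fun i τ => (I i).E2 j (τ, s')))
    (hD : ∀ s', TabT raw eT (fun i k τ => (I i).D k (τ, s')))
    (hh1 : ∀ j, Slot raw eT (fun i τ => (I i).h1 j * τ))
    (hh2 : ∀ j, Slot raw eT (fun i τ => (I i).h2 j * τ))
    (hγ : ∀ j, Slot raw eT (fun i τ => ((I i).gam j)⁻¹ * τ))
    (huniq : ∀ i (V : c.C → (I i).T → K),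
      MirRel c.s0' c.bet (I i).gam (fun _ => (0 : K)) V → ∀ s g, V s g = 0)
    (hA : ∀ i k, (I i).MirK (Level492.kap (I i).mU (I i).mN1 (I i).D k) ((I i).A k))
    (hB : ∀ i k, (I i).MirK (Level492.kap' (I i).mU (I i).mN2 (I i).D k) ((I i).B k))
    (hA0 : ∀ i, (I i).MirK (-((I i).mN1 *ᵥ (I i).D 0)) (I i).A0)
    (hB0 : ∀ i, (I i).MirK (-((I i).mN2 *ᵥ (I i).D 0)) (I i).B0) :
    (∀ s s', TabT raw eT (fun i k τ => (I i).A k s (τ, s'))) ∧
    (∀ s s', TabT raw eT (fun i k τ => (I i).B k s (τ, s'))) ∧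
    (∀ s s', Tab raw eT (fun i τ => (I i).A0 s (τ, s'))) ∧
    ∀ s s', Tab raw eT (fun i τ => (I i).B0 s (τ, s')) := by
  refine ⟨fun s s' => ?_, fun s s' => ?_, fun s s' => ?_, fun s s' => ?_⟩
  · exact tabT_mir hn hγ huniq (q := fun i k => kapI (I i) k)
      (fun s' => tabT_kap hone hE1 hD hh1 s') hA s s'
  · exact tabT_mir hn hγ huniq (q := fun i k => kapI' (I i) k)
      (fun s' => tabT_kap' hone hE2 hD hh2 s') hB s s'
  · exact tab_mir hn hγ huniq (q := fun i => -((I i).mN1 *ᵥ (I i).D 0))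
      (fun s' => TabT.at (k := fun _ => 0) (TabT.neg (tabT_N1D hE1 hD hh1 s')) (PTF.const 0))
      hA0 s s'
  · exact tab_mir hn hγ huniq (q := fun i => -((I i).mN2 *ᵥ (I i).D 0))
      (fun s' => TabT.at (k := fun _ => 0) (TabT.neg (tabT_N2D hE2 hD hh2 s')) (PTF.const 0))
      hB0 s s'

end tab

end Crest.Agent.R289.MirTab407
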