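import Crest.Agent.R289.Gauss_115

/-!
# R289, block E (E17): public words from content tables, in polynomial time (helper117)

`K` a finite field.  A linear code on positions `0..n-1` is given by checks `A c` (`c < m`) and its
content positions `pos i` (`i < h`).

* `enc n m h A pos u : List K` : a code word with content `u` (if there is one; `enc_spec`); it is
  the only one if the restriction to the content positions is injective (`enc_eq`); `ptf_enc`.
* `enc2` : the same for the tensor product of two codes (`enc2_eq`, `ptf_enc2`); `enc3` for three.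
* `enc_sub` : the form for a submodule `V ≤ Ω → K` and enumerations of `Ω` and of the content set.
* `ptf_finFun` : a function of finitely many finite-valued PTF maps is PTF;
  `pack r v < packN K r`, `pack_inj`, `ptf_pack` : `r` symbols of a unit as one number.
-/

set_option autoImplicit false
set_option linter.dupNamespace false

namespace Crest.Agent.R289.Pub117

open Crest.Agent.Lib.PT Crest.Agent.Lib.PT.Arith Crest.Agent.R288.PtDp115
open Crest.Agent.R289.Gauss115

section one

variable {K : Type} [Field K] [Finite K] [PTCode K]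
variable {α : Type} [PTCode α]

/-- `x` satisfies the checks -/
def Chk (n m : ℕ) (A : ℕ → ℕ → K) (x : ℕ → K) : Prop :=
  ∀ c < m, ∑ j ∈ Finset.range n, A c j * x j = 0

/-- the restriction of the code to the content positions is injective -/
def Inj (n m h : ℕ) (A : ℕ → ℕ → K) (pos : ℕ → ℕ) : Prop :=
  ∀ x : ℕ → K, Chk n m A x → (∀ i < h, x (pos i) = 0) → ∀ j < n, x j = 0

/-- left-hand side of the system for a code word with given content -/
def encA (m : ℕ) (A : ℕ → ℕ → K) (pos : ℕ → ℕ) (c j : ℕ) : K :=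
  if c < m then A c j else if j = pos (c - m) then 1 else 0

/-- right-hand side of the system for a code word with given content -/
def encB (m : ℕ) (u : ℕ → K) (c : ℕ) : K := if c < m then 0 else u (c - m)

/-- the table of a code word with content `u` -/
noncomputable def enc (n m h : ℕ) (A : ℕ → ℕ → K) (pos : ℕ → ℕ) (u : ℕ → K) : List K :=
  solve n (m + h) (encA m A pos) (encB m u)

omit [Finite K] [PTCode K] in
theorem length_enc (n m h : ℕ) (A : ℕ → ℕ → K) (pos : ℕ → ℕ) (u : ℕ → K) :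
    (enc n m h A pos u).length = n + 1 := length_sol _ _ _ _

omit [Finite K] [PTCode K] in
theorem encA_lt {m : ℕ} {A : ℕ → ℕ → K} {pos : ℕ → ℕ} {c : ℕ} (hc : c < m) (j : ℕ) :
    encA m A pos c j = A c j := if_pos hc

omit [Finite K] [PTCode K] in
theorem encA_ge {m : ℕ} {A : ℕ → ℕ → K} {pos : ℕ → ℕ} (i j : ℕ) :
    encA m A pos (m + i) j = if j = pos i then 1 else 0 := by
  unfold encA
  rw [if_neg (by omega), Nat.add_sub_cancel_left]

omit [Finite K] [PTCode K] in
theorem encB_lt {m : ℕ} {u : ℕ → K} {c : ℕ} (hc : c < m) : encB m u c = 0 := if_pos hc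

omit [Finite K] [PTCode K] in
theorem encB_ge {m : ℕ} {u : ℕ → K} (i : ℕ) : encB m u (m + i) = u i := by
  unfold encB
  rw [if_neg (by omega), Nat.add_sub_cancel_left]

omit [Finite K] [PTCode K] in
theorem sum_encA_ge {n m : ℕ} {A : ℕ → ℕ → K} {pos : ℕ → ℕ} {i : ℕ} (hi : pos i < n)
    (x : ℕ → K) : ∑ j ∈ Finset.range n, encA m A pos (m + i) j * x j = x (pos i) := by
  rw [Finset.sum_eq_single (pos i)]
  · rw [encA_ge, if_pos rfl, one_mul]
  · intro j _ hj
    rw [encA_ge, if_neg hj, zero_mul]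
  · intro hj
    exact absurd (Finset.mem_range.2 hi) hj

omit [Finite K] [PTCode K] in
/-- `enc` is a code word with the given content, if there is one -/
theorem enc_spec {n m h : ℕ} {A : ℕ → ℕ → K} {pos : ℕ → ℕ} {u : ℕ → K}
    (hpos : ∀ i < h, pos i < n) {x : ℕ → K} (hx : Chk n m A x) (hu : ∀ i < h, x (pos i) = u i) :
    Chk n m A (getK (enc n m h A pos u)) ∧ ∀ i < h, getK (enc n m h A pos u) (pos i) = u i := by
  have h0 := solve_spec (n := n) (m := m + h) (A := encA m A pos) (b := encB m u) (x := x) (by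
    intro c hc
    rcases Nat.lt_or_ge c m with h1 | h1
    · rw [encB_lt h1, ← hx c h1]
      exact Finset.sum_congr rfl (fun j _ => by rw [encA_lt h1])
    · obtain ⟨i, rfl⟩ := Nat.exists_eq_add_of_le h1
      have hi : i < h := by omega
      rw [sum_encA_ge (hpos i hi), encB_ge, hu i hi])
  refine ⟨fun c hc => ?_, fun i hi => ?_⟩
  · have := h0 c (by omega)
    rw [encB_lt hc] at this
    rw [← this]
    exact Finset.sum_congr rfl (fun j _ => by rw [encA_lt hc]; rfl)
  · have := h0 (m + i) (by omega)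
    rw [sum_encA_ge (hpos i hi), encB_ge] at this
    exact this

omit [Finite K] [PTCode K] in
/-- `enc` is the code word with the given content -/
theorem enc_eq {n m h : ℕ} {A : ℕ → ℕ → K} {pos : ℕ → ℕ} {u : ℕ → K}
    (hpos : ∀ i < h, pos i < n) (hinj : Inj n m h A pos) {x : ℕ → K} (hx : Chk n m A x)
    (hu : ∀ i < h, x (pos i) = u i) {j : ℕ} (hj : j < n) :
    getK (enc n m h A pos u) j = x j := by
  obtain ⟨h1, h2⟩ := enc_spec hpos hx hu
  have h3 := hinj (fun j => getK (enc n m h A pos u) j - x j) (fun c hc => by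
      have e1 := h1 c hc
      have e2 := hx c hc
      simp only [mul_sub, Finset.sum_sub_distrib, e1, e2, sub_self])
    (fun i hi => by simp only [h2 i hi, hu i hi, sub_self]) j hj
  exact sub_eq_zero.1 h3

theorem ptf_enc {n m h : α → ℕ} {A : α → ℕ → ℕ → K} {pos : α → ℕ → ℕ} {u : α → ℕ → K}
    (hn : PTU n) (hm : PTU m) (hh : PTU h)
    (hA : PTF (fun p : α × ℕ × ℕ => A p.1 p.2.1 p.2.2))
    (hpos : PTF (fun p : α × ℕ => pos p.1 p.2)) (hu : PTF (fun p : α × ℕ => u p.1 p.2)) :
    PTF (fun a => enc (n a) (m a) (h a) (A a) (pos a) (u a)) := by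
  classical
  unfold enc
  have hm1 : PTF (fun p : α × ℕ × ℕ => m p.1) := PTF.comp (g := m) hm.toPTF PTF.fst
  have hm2 : PTF (fun p : α × ℕ => m p.1) := PTF.comp (g := m) hm.toPTF PTF.fst
  refine ptf_solve hn (PTU.add hm hh) ?_ ?_
  · unfold encA
    refine PTF.ite (PTPred.natLt (by fun_prop) hm1) hA (PTF.ite (PTPred.eq (by fun_prop) ?_)
      (PTF.const 1) (PTF.const 0))
    exact PTF.comp (g := fun p : α × ℕ => pos p.1 p.2)
      (f := fun p : α × ℕ × ℕ => (p.1, p.2.1 - m p.1)) hpos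
      (PTF.prodMk PTF.fst (PTF.natSub (by fun_prop) hm1))
  · unfold encB
    refine PTF.ite (PTPred.natLt (by fun_prop) hm2) (PTF.const 0) ?_
    exact PTF.comp (g := fun p : α × ℕ => u p.1 p.2)
      (f := fun p : α × ℕ => (p.1, p.2 - m p.1)) hu
      (PTF.prodMk PTF.fst (PTF.natSub (by fun_prop) hm2))

end one

section two

variable {K : Type} [Field K] [Finite K] [PTCode K]
variable {α : Type} [PTCode α]

/-- data of a code: number of positions, number of checks, number of content positions, checks,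
content positions -/
structure Cd (K : Type) where
  n : ℕ
  m : ℕ
  h : ℕ
  A : ℕ → ℕ → K
  pos : ℕ → ℕ

/-- content positions are positions and determine the word -/
def Cd.OK (C : Cd K) : Prop := (∀ i < C.h, C.pos i < C.n) ∧ Inj C.n C.m C.h C.A C.pos

/-- `x` is a word -/
def Cd.Mem (C : Cd K) (x : ℕ → K) : Prop := Chk C.n C.m C.A x

/-- the word with content `u` -/
noncomputable def Cd.enc (C : Cd K) (u : ℕ → K) : List K :=
  Pub117.enc C.n C.m C.h C.A C.pos u

omit [Finite K] [PTCode K] in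
theorem Cd.enc_eq {C : Cd K} (hC : C.OK) {u x : ℕ → K} (hx : C.Mem x)
    (hu : ∀ i < C.h, x (C.pos i) = u i) {j : ℕ} (hj : j < C.n) : getK (C.enc u) j = x j :=
  Pub117.enc_eq hC.1 hC.2 hx hu hj

/-- a PTF family of codes -/
structure PTFCd (C : α → Cd K) : Prop where
  n : PTU (fun a => (C a).n)
  m : PTU (fun a => (C a).m)
  h : PTU (fun a => (C a).h)
  A : PTF (fun p : α × ℕ × ℕ => (C p.1).A p.2.1 p.2.2)
  pos : PTF (fun p : α × ℕ => (C p.1).pos p.2)

omit [Field K] [Finite K] in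
theorem PTFCd.comp {β : Type} [PTCode β] {C : α → Cd K} (hC : PTFCd C) {f : β → α}
    (hf : PTF f) : PTFCd (fun b => C (f b)) where
  n := PTU.comp (n := fun a => (C a).n) hC.n hf
  m := PTU.comp (n := fun a => (C a).m) hC.m hf
  h := PTU.comp (n := fun a => (C a).h) hC.h hf
  A := PTF.comp (g := fun p : α × ℕ × ℕ => (C p.1).A p.2.1 p.2.2)
    (f := fun p : β × ℕ × ℕ => (f p.1, p.2)) hC.A (by fun_prop)
  pos := PTF.comp (g := fun p : α × ℕ => (C p.1).pos p.2)
    (f := fun p : β × ℕ => (f p.1, p.2)) hC.pos (by fun_prop)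

theorem ptf_cdEnc {C : α → Cd K} (hC : PTFCd C) {u : α → ℕ → K}
    (hu : PTF (fun p : α × ℕ => u p.1 p.2)) : PTF (fun a => (C a).enc (u a)) :=
  ptf_enc hC.n hC.m hC.h hC.A hC.pos hu

/-- table `C.n × D.n` of the word of `C ⊗ D` with content `u i j`; row-major -/
noncomputable def enc2 (C D : Cd K) (u : ℕ → ℕ → K) : List K :=
  tab2K C.n D.n (fun a b => getK (D.enc (fun j => getK (C.enc (fun i => u i j)) a)) b)

omit [Finite K] [PTCode K] in
theorem enc2_eq {C D : Cd K} (hC : C.OK) (hD : D.OK) {u X : ℕ → ℕ → K}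
    (h1 : ∀ b < D.n, C.Mem (fun a => X a b)) (h2 : ∀ a < C.n, D.Mem (fun b => X a b))
    (hu : ∀ i < C.h, ∀ j < D.h, X (C.pos i) (D.pos j) = u i j) {a b : ℕ} (ha : a < C.n)
    (hb : b < D.n) : get2K (enc2 C D u) D.n a b = X a b := by
  unfold enc2
  rw [get2K_tab2K _ ha hb]
  refine Cd.enc_eq (x := fun b => X a b) hD (h2 a ha) (fun j hj => ?_) hb
  exact (Cd.enc_eq (x := fun a => X a (D.pos j)) hC (h1 _ (hD.1 j hj))
    (fun i hi => hu i hi j hj) ha).symm

theorem ptf_enc2 {C D : α → Cd K} (hC : PTFCd C) (hD : PTFCd D) {u : α → ℕ → ℕ → K}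
    (hu : PTF (fun p : α × ℕ × ℕ => u p.1 p.2.1 p.2.2)) :
    PTF (fun a => enc2 (C a) (D a) (u a)) := by
  unfold enc2
  refine ptf_tab2K hC.n hD.n (ptf_getK ?_ (by fun_prop))
  have h1 : PTFCd (fun p : α × ℕ × ℕ => D p.1) := hD.comp PTF.fst
  refine ptf_cdEnc h1 (ptf_getK ?_ (by fun_prop))
  have h2 : PTFCd (fun p : (α × ℕ × ℕ) × ℕ => C p.1.1) := hC.comp (by fun_prop)
  refine ptf_cdEnc h2 ?_
  exact PTF.comp (g := fun p : α × ℕ × ℕ => u p.1 p.2.1 p.2.2)
    (f := fun q : ((α × ℕ × ℕ) × ℕ) × ℕ => (q.1.1.1, q.2, q.1.2)) hu (by fun_prop)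

/-- table `C.n × D.n × E.n` of the word of `C ⊗ D ⊗ E` with content `u i j k`; the symbol at
`(a, b, c)` has index `(a * D.n + b) * E.n + c` -/
noncomputable def enc3 (C D E : Cd K) (u : ℕ → ℕ → ℕ → K) : List K :=
  tab2K (C.n * D.n) E.n (fun ab c => getK (E.enc (fun k =>
    getK (enc2 C D (fun i j => u i j k)) ab)) c)

omit [Finite K] [PTCode K] in
theorem enc3_eq {C D E : Cd K} (hC : C.OK) (hD : D.OK) (hE : E.OK) {u X : ℕ → ℕ → ℕ → K}
    (h1 : ∀ b < D.n, ∀ c < E.n, C.Mem (fun a => X a b c))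
    (h2 : ∀ a < C.n, ∀ c < E.n, D.Mem (fun b => X a b c))
    (h3 : ∀ a < C.n, ∀ b < D.n, E.Mem (fun c => X a b c))
    (hu : ∀ i < C.h, ∀ j < D.h, ∀ k < E.h, X (C.pos i) (D.pos j) (E.pos k) = u i j k)
    {a b c : ℕ} (ha : a < C.n) (hb : b < D.n) (hc : c < E.n) :
    get2K (enc3 C D E u) E.n (a * D.n + b) c = X a b c := by
  have hab : a * D.n + b < C.n * D.n := by
    calc a * D.n + b < a * D.n + D.n := by omega
      _ = (a + 1) * D.n := by ring
      _ ≤ C.n * D.n := Nat.mul_le_mul_right _ ha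
  unfold enc3
  rw [get2K_tab2K _ hab hc]
  refine Cd.enc_eq (x := fun c => X a b c) hE (h3 a ha b hb) (fun k hk => ?_) hc
  have := enc2_eq (u := fun i j => u i j k) (X := fun a b => X a b (E.pos k)) hC hD
    (fun b hb => h1 b hb _ (hE.1 k hk)) (fun a ha => h2 a ha _ (hE.1 k hk))
    (fun i hi j hj => hu i hi j hj k hk) ha hb
  exact this.symm

theorem ptf_enc3 {C D E : α → Cd K} (hC : PTFCd C) (hD : PTFCd D) (hE : PTFCd E)
    {u : α → ℕ → ℕ → ℕ → K}
    (hu : PTF (fun p : α × ℕ × ℕ × ℕ => u p.1 p.2.1 p.2.2.1 p.2.2.2)) :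
    PTF (fun a => enc3 (C a) (D a) (E a) (u a)) := by
  unfold enc3
  refine ptf_tab2K (PTU.mul hC.n hD.n) hE.n (ptf_getK ?_ (by fun_prop))
  have h1 : PTFCd (fun p : α × ℕ × ℕ => E p.1) := hE.comp PTF.fst
  refine ptf_cdEnc h1 (ptf_getK ?_ (by fun_prop))
  have h2 : PTFCd (fun p : (α × ℕ × ℕ) × ℕ => C p.1.1) := hC.comp (by fun_prop)
  have h3 : PTFCd (fun p : (α × ℕ × ℕ) × ℕ => D p.1.1) := hD.comp (by fun_prop)
  refine ptf_enc2 h2 h3 ?_
  exact PTF.comp (g := fun p : α × ℕ × ℕ × ℕ => u p.1 p.2.1 p.2.2.1 p.2.2.2)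
    (f := fun q : ((α × ℕ × ℕ) × ℕ) × ℕ × ℕ => (q.1.1.1, q.2.1, q.2.2, q.1.2)) hu
    (by fun_prop)

/-! ### `Fin` form -/

omit [Finite K] [PTCode K] in
theorem Cd.mem_iff_fin (C : Cd K) (x : ℕ → K) :
    C.Mem x ↔ ∀ c < C.m, ∑ j : Fin C.n, C.A c j * x j = 0 := by
  unfold Cd.Mem Chk
  refine forall₂_congr (fun c _ => ?_)
  rw [← Fin.sum_univ_eq_sum_range (fun j => C.A c j * x j)]

omit [Finite K] [PTCode K] in
theorem Cd.ok_of_fin {C : Cd K} (hpos : ∀ i < C.h, C.pos i < C.n)
    (hinj : ∀ f : Fin C.n → K, (∀ c < C.m, ∑ j : Fin C.n, C.A c j * f j = 0) →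
      (∀ i (hi : i < C.h), f ⟨C.pos i, hpos i hi⟩ = 0) → f = 0) : C.OK := by
  refine ⟨hpos, fun x hx h0 j hj => ?_⟩
  have := hinj (fun j => x j) ((C.mem_iff_fin x).1 hx) (fun i hi => h0 i hi)
  exact congrFun this ⟨j, hj⟩

omit [Finite K] [PTCode K] in
theorem Cd.enc_fin {C : Cd K} (hC : C.OK) {u : ℕ → K} (f : Fin C.n → K)
    (hf : ∀ c < C.m, ∑ j : Fin C.n, C.A c j * f j = 0)
    (hu : ∀ i (hi : i < C.h), f ⟨C.pos i, hC.1 i hi⟩ = u i) (j : Fin C.n) :
    getK (C.enc u) j = f j := by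
  set x : ℕ → K := fun j => if h : j < C.n then f ⟨j, h⟩ else 0 with hx
  have hxj : ∀ j : Fin C.n, x j = f j := fun j => by rw [hx]; simp
  have := Cd.enc_eq (C := C) hC (u := u) (x := x)
    ((C.mem_iff_fin x).2 (fun c hc => by simpa only [hxj] using hf c hc))
    (fun i hi => by
      have : x (C.pos i) = f ⟨C.pos i, hC.1 i hi⟩ := by rw [hx]; simp [hC.1 i hi]
      rw [this, hu i hi]) j.2
  rw [this, hxj]

end two

/-! ### finitely many finite-valued maps -/

section fin

variable {K : Type} [Finite K] [PTCode K] {α β : Type} [PTCode α] [PTCode β]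

theorem ptf_split {F : K → α → β} {f : α → K} (hf : PTF f) (hF : ∀ x, PTF (F x)) :
    PTF (fun a => F (f a) a) := by
  classical
  let _ := Fintype.ofFinite K
  rcases isEmpty_or_nonempty K with h | h
  · have : IsEmpty α := ⟨fun a => h.false (f a)⟩
    exact PTF.of_finite _
  obtain ⟨x0⟩ := h
  suffices H : ∀ s : Finset K, ∃ g : α → β, PTF g ∧ ∀ a, f a ∈ s → g a = F (f a) a by
    obtain ⟨g, hg, h1⟩ := H Finset.univ
    exact PTF.of_eq hg (fun a => h1 a (Finset.mem_univ _))
  intro s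
  induction s using Finset.induction_on with
  | empty => exact ⟨F x0, hF x0, fun a ha => absurd ha (Finset.notMem_empty _)⟩
  | insert x s _ ih =>
    obtain ⟨g, hg, h1⟩ := ih
    refine ⟨fun a => if f a = x then F x a else g a,
      PTF.ite (PTPred.eq hf (PTF.const x)) (hF x) hg, fun a ha => ?_⟩
    by_cases h2 : f a = x
    · simp only [if_pos h2]
      rw [h2]
    · simp only [if_neg h2]
      exact h1 a ((Finset.mem_insert.1 ha).resolve_left h2)

/-- a function of finitely many finite-valued PTF maps is PTF -/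
theorem ptf_finFun : ∀ {r : ℕ} (F : (Fin r → K) → α → β) (f : Fin r → α → K),
    (∀ i, PTF (f i)) → (∀ v, PTF (F v)) → PTF (fun a => F (fun i => f i a) a)
  | 0, F, f, _, hF => by
    refine PTF.of_eq (hF Fin.elim0) (fun a => ?_)
    congr 1
    exact funext (fun i => i.elim0)
  | r + 1, F, f, hf, hF => by
    have h := ptf_split (F := fun x a => F (Fin.cons x (fun i : Fin r => f i.succ a)) a)
      (hf 0) (fun x => ptf_finFun (fun v a => F (Fin.cons x v) a) (fun i => f i.succ)
        (fun i => hf i.succ) (fun v => hF _))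
    refine PTF.of_eq h (fun a => ?_)
    congr 1
    funext i
    exact Fin.cases rfl (fun i => rfl) i

/-- `r` symbols as one number below `packN K r` -/
noncomputable def pack {r : ℕ} (v : Fin r → K) : ℕ := (Finite.equivFin (Fin r → K) v : ℕ)

/-- number of values of `pack` -/
noncomputable def packN (K : Type) [Finite K] (r : ℕ) : ℕ := Nat.card (Fin r → K)

omit [PTCode K] in
theorem pack_lt {r : ℕ} (v : Fin r → K) : pack v < packN K r :=
  (Finite.equivFin (Fin r → K) v).2

omit [PTCode K] in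
theorem pack_inj {r : ℕ} {v w : Fin r → K} (h : pack v = pack w) : v = w :=
  (Finite.equivFin (Fin r → K)).injective (Fin.ext h)

/-- inverse of `pack` -/
noncomputable def unpack (K : Type) [Finite K] [Nonempty K] (r : ℕ) (t : ℕ) : Fin r → K :=
  Function.invFun (pack (K := K) (r := r)) t

omit [PTCode K] in
theorem unpack_pack [Nonempty K] {r : ℕ} (v : Fin r → K) : unpack K r (pack v) = v :=
  Function.leftInverse_invFun (fun _ _ h => pack_inj h) v

theorem ptf_pack {r : ℕ} {f : Fin r → α → K} (hf : ∀ i, PTF (f i)) :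
    PTF (fun a => pack (fun i => f i a)) :=
  ptf_finFun (fun v _ => pack v) f hf (fun _ => PTF.const _)

end fin

end Crest.Agent.R289.Pub117
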