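import Crest.Agent.R289.Gauss_115

/-!
# R289, block E17: word tables (helper569)

`K` a finite field with a code.  A *linear system* on `n` points is `A : ℕ → ℕ → K` with `m` rows
(checks); the words are the `x : ℕ → K` with `∑ j < n, A i j * x j = 0` for `i < m`.  Contents live
at the positions `h u < n`, `u < N`.

* `IsWord n m A x`, `Rigid n m N A h` (restriction to the positions is bijective).
* `wordT n m N A h c : List K` (length `n`): the word with content `c`: `ptf_wordT`,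
  `wordT_isWord`, `wordT_content`, `wordT_unique`, linearity, `wordT_delta_sum`.
* `wordT2` : the element of `V₁ ⊗ V₂` with a given content table on `N₁ × N₂`: `ptf_wordT2`,
  `wordT2_row`, `wordT2_col`, `wordT2_content`, `wordT2_unique`.
* `checkA` : sparse checks of local codes from the table of the points of a vertex; `ptf_checkA`,
  `isWord_checkA_iff`; `exists_parity`: every local code has a parity check table.
-/

set_option autoImplicit false
set_option linter.dupNamespace false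
set_option linter.unusedSectionVars false

namespace Crest.Agent.R289.WordTab569

open Crest.Agent.Lib.PT Crest.Agent.Lib.PT.Arith Crest.Agent.R288.PtDp115
open Crest.Agent.R289.Gauss115

section basic

variable {K : Type} [Field K]

/-- `x` satisfies the checks -/
def IsWord (n m : ℕ) (A : ℕ → ℕ → K) (x : ℕ → K) : Prop :=
  ∀ i, i < m → ∑ j ∈ Finset.range n, A i j * x j = 0

theorem IsWord.zero (n m : ℕ) (A : ℕ → ℕ → K) : IsWord n m A (fun _ => 0) := by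
  intro i _; simp

theorem IsWord.add {n m : ℕ} {A : ℕ → ℕ → K} {x y : ℕ → K} (hx : IsWord n m A x)
    (hy : IsWord n m A y) : IsWord n m A (fun j => x j + y j) := by
  intro i hi
  simp only [mul_add, Finset.sum_add_distrib, hx i hi, hy i hi, add_zero]

theorem IsWord.smul {n m : ℕ} {A : ℕ → ℕ → K} {x : ℕ → K} (a : K) (hx : IsWord n m A x) :
    IsWord n m A (fun j => a * x j) := by
  intro i hi
  have : ∑ j ∈ Finset.range n, A i j * (a * x j) = a * ∑ j ∈ Finset.range n, A i j * x j := by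
    rw [Finset.mul_sum]; exact Finset.sum_congr rfl fun j _ => by ring
  rw [this, hx i hi, mul_zero]

theorem IsWord.sub {n m : ℕ} {A : ℕ → ℕ → K} {x y : ℕ → K} (hx : IsWord n m A x)
    (hy : IsWord n m A y) : IsWord n m A (fun j => x j - y j) := by
  intro i hi
  simp only [mul_sub, Finset.sum_sub_distrib, hx i hi, hy i hi, sub_zero]

theorem IsWord.sum {ι : Type*} {n m : ℕ} {A : ℕ → ℕ → K} {x : ι → ℕ → K} (s : Finset ι)
    (hx : ∀ a ∈ s, IsWord n m A (x a)) : IsWord n m A (fun j => ∑ a ∈ s, x a j) := by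
  intro i hi
  simp only [Finset.mul_sum]
  rw [Finset.sum_comm]
  exact Finset.sum_eq_zero fun a ha => hx a ha i hi

theorem IsWord.congr {n m : ℕ} {A : ℕ → ℕ → K} {x y : ℕ → K} (hx : IsWord n m A x)
    (h : ∀ j, j < n → x j = y j) : IsWord n m A y := by
  intro i hi
  rw [← hx i hi]
  exact Finset.sum_congr rfl fun j hj => by rw [h j (Finset.mem_range.1 hj)]

/-- restriction of the words to the positions `h` is bijective -/
structure Rigid (n m N : ℕ) (A : ℕ → ℕ → K) (h : ℕ → ℕ) : Prop where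
  lt : ∀ u, u < N → h u < n
  ex : ∀ c : ℕ → K, ∃ x, IsWord n m A x ∧ ∀ u, u < N → x (h u) = c u
  inj : ∀ x, IsWord n m A x → (∀ u, u < N → x (h u) = 0) → ∀ j, j < n → x j = 0

theorem Rigid.uniq {n m N : ℕ} {A : ℕ → ℕ → K} {h : ℕ → ℕ} (R : Rigid n m N A h) {x y : ℕ → K}
    (hx : IsWord n m A x) (hy : IsWord n m A y) (hxy : ∀ u, u < N → x (h u) = y (h u)) :
    ∀ j, j < n → x j = y j := by
  intro j hj
  have := R.inj _ (hx.sub hy) (fun u hu => by simp [hxy u hu]) j hj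
  exact sub_eq_zero.1 this

end basic

section table

variable {K : Type} [Field K]

/-- the rows of the inhomogeneous system: the checks, then the positions -/
def rowsA (m : ℕ) (A : ℕ → ℕ → K) (h : ℕ → ℕ) (i j : ℕ) : K :=
  if i < m then A i j else if j = h (i - m) then 1 else 0

/-- right hand sides -/
def rhsA (m : ℕ) (c : ℕ → K) (i : ℕ) : K := if i < m then 0 else c (i - m)

/-- table of the word with content `c` -/
noncomputable def wordT (n m N : ℕ) (A : ℕ → ℕ → K) (h : ℕ → ℕ) (c : ℕ → K) : List K :=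
  tabK n (getK (solve n (m + N) (rowsA m A h) (rhsA m c)))

@[simp] theorem length_wordT (n m N : ℕ) (A : ℕ → ℕ → K) (h : ℕ → ℕ) (c : ℕ → K) :
    (wordT n m N A h c).length = n := length_tabK _ _

theorem sum_pos {n : ℕ} (p : ℕ) (hp : p < n) (x : ℕ → K) :
    ∑ j ∈ Finset.range n, (if j = p then (1 : K) else 0) * x j = x p := by
  rw [Finset.sum_eq_single p]
  · simp
  · intro b _ hb; simp [hb]
  · intro hb; exact absurd (Finset.mem_range.2 hp) hb

theorem wordT_spec {n m N : ℕ} {A : ℕ → ℕ → K} {h : ℕ → ℕ} {c : ℕ → K}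
    (hlt : ∀ u, u < N → h u < n) (hex : ∃ x, IsWord n m A x ∧ ∀ u, u < N → x (h u) = c u) :
    IsWord n m A (getK (wordT n m N A h c)) ∧
      ∀ u, u < N → getK (wordT n m N A h c) (h u) = c u := by
  obtain ⟨x, hx, hc⟩ := hex
  have key := solve_spec (n := n) (m := m + N) (A := rowsA m A h) (b := rhsA m c) (x := x) (by
    intro i hi
    by_cases him : i < m
    · simp only [rowsA, rhsA, him, if_true]; exact hx i him
    · simp only [rowsA, rhsA, him, if_false]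
      rw [sum_pos _ (hlt _ (by omega))]
      exact hc _ (by omega))
  have hget : ∀ j, j < n → getK (wordT n m N A h c) j =
      getK (solve n (m + N) (rowsA m A h) (rhsA m c)) j := fun j hj => getK_tabK _ hj
  refine ⟨?_, ?_⟩
  · intro i hi
    have h1 := key i (by omega)
    simp only [rowsA, rhsA, hi, if_true] at h1
    rw [← h1]
    exact Finset.sum_congr rfl fun j hj => by rw [hget j (Finset.mem_range.1 hj)]
  · intro u hu
    have h1 := key (m + u) (by omega)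
    have h2 : ¬ m + u < m := by omega
    simp only [rowsA, rhsA, h2, if_false, Nat.add_sub_cancel_left] at h1
    rw [sum_pos _ (hlt u hu)] at h1
    rw [hget _ (hlt u hu), h1]

variable {n m N : ℕ} {A : ℕ → ℕ → K} {h : ℕ → ℕ}

theorem wordT_isWord (R : Rigid n m N A h) (c : ℕ → K) : IsWord n m A (getK (wordT n m N A h c)) :=
  (wordT_spec R.lt (R.ex c)).1

theorem wordT_content (R : Rigid n m N A h) (c : ℕ → K) {u : ℕ} (hu : u < N) :
    getK (wordT n m N A h c) (h u) = c u :=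
  (wordT_spec R.lt (R.ex c)).2 u hu

theorem wordT_unique (R : Rigid n m N A h) {c x : ℕ → K} (hx : IsWord n m A x)
    (hc : ∀ u, u < N → x (h u) = c u) {j : ℕ} (hj : j < n) :
    getK (wordT n m N A h c) j = x j :=
  R.uniq (wordT_isWord R c) hx (fun u hu => by rw [wordT_content R c hu, hc u hu]) j hj

theorem getK_wordT_of_le {c : ℕ → K} {j : ℕ} (hj : n ≤ j) : getK (wordT n m N A h c) j = 0 := by
  rw [getK, List.getD_eq_default]; simpa using hj

theorem wordT_congr (R : Rigid n m N A h) {c c' : ℕ → K} (hc : ∀ u, u < N → c u = c' u) (j : ℕ) :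
    getK (wordT n m N A h c) j = getK (wordT n m N A h c') j := by
  rcases lt_or_ge j n with hj | hj
  · exact wordT_unique R (wordT_isWord R c') (fun u hu => by rw [wordT_content R c' hu, hc u hu]) hj
  · rw [getK_wordT_of_le hj, getK_wordT_of_le hj]

theorem wordT_zero (R : Rigid n m N A h) (j : ℕ) : getK (wordT n m N A h (fun _ => 0)) j = 0 := by
  rcases lt_or_ge j n with hj | hj
  · exact wordT_unique R (IsWord.zero n m A) (fun _ _ => rfl) hj
  · exact getK_wordT_of_le hj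

theorem wordT_add (R : Rigid n m N A h) (c c' : ℕ → K) (j : ℕ) :
    getK (wordT n m N A h (fun u => c u + c' u)) j =
      getK (wordT n m N A h c) j + getK (wordT n m N A h c') j := by
  rcases lt_or_ge j n with hj | hj
  · exact wordT_unique R ((wordT_isWord R c).add (wordT_isWord R c'))
      (fun u hu => by rw [wordT_content R c hu, wordT_content R c' hu]) hj
  · rw [getK_wordT_of_le hj, getK_wordT_of_le hj, getK_wordT_of_le hj, add_zero]

theorem wordT_smul (R : Rigid n m N A h) (a : K) (c : ℕ → K) (j : ℕ) :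
    getK (wordT n m N A h (fun u => a * c u)) j = a * getK (wordT n m N A h c) j := by
  rcases lt_or_ge j n with hj | hj
  · exact wordT_unique R ((wordT_isWord R c).smul a)
      (fun u hu => by rw [wordT_content R c hu]) hj
  · rw [getK_wordT_of_le hj, getK_wordT_of_le hj, mul_zero]

theorem wordT_sum {ι : Type*} (R : Rigid n m N A h) (s : Finset ι) (c : ι → ℕ → K) (j : ℕ) :
    getK (wordT n m N A h (fun u => ∑ a ∈ s, c a u)) j =
      ∑ a ∈ s, getK (wordT n m N A h (c a)) j := by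
  rcases lt_or_ge j n with hj | hj
  · exact wordT_unique R (IsWord.sum s fun a _ => wordT_isWord R (c a))
      (fun u hu => Finset.sum_congr rfl fun a _ => by rw [wordT_content R (c a) hu]) hj
  · rw [getK_wordT_of_le hj]
    exact (Finset.sum_eq_zero fun a _ => getK_wordT_of_le hj).symm

/-- the content `δ_v` -/
def dl (v u : ℕ) : K := if u = v then 1 else 0

/-- every word is the combination of the delta words with its contents -/
theorem wordT_delta_sum (R : Rigid n m N A h) (c : ℕ → K) (j : ℕ) :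
    getK (wordT n m N A h c) j =
      ∑ v ∈ Finset.range N, c v * getK (wordT n m N A h (dl v)) j := by
  have h1 : getK (wordT n m N A h c) j =
      getK (wordT n m N A h (fun u => ∑ v ∈ Finset.range N, c v * dl v u)) j := by
    refine wordT_congr R (fun u hu => ?_) j
    rw [Finset.sum_eq_single u]
    · simp [dl]
    · intro b _ hb; simp [dl, Ne.symm hb]
    · intro hb; exact absurd (Finset.mem_range.2 hu) hb
  rw [h1, wordT_sum R]
  exact Finset.sum_congr rfl fun v _ => wordT_smul R _ _ _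

theorem isWord_delta_sum (R : Rigid n m N A h) {x : ℕ → K} (hx : IsWord n m A x) {j : ℕ}
    (hj : j < n) :
    x j = ∑ v ∈ Finset.range N, x (h v) * getK (wordT n m N A h (dl v)) j := by
  rw [← wordT_delta_sum R (fun v => x (h v)) j]
  exact (wordT_unique R hx (fun _ _ => rfl) hj).symm

end table

section ptf

variable {K : Type} [Field K] [Finite K] [PTCode K]
variable {α : Type} [PTCode α]

theorem ptf_rowsA {m : α → ℕ} {A : α → ℕ → ℕ → K} {h : α → ℕ → ℕ} (hm : PTF m)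
    (hA : PTF (fun p : α × ℕ × ℕ => A p.1 p.2.1 p.2.2))
    (hh : PTF (fun p : α × ℕ => h p.1 p.2)) :
    PTF (fun p : α × ℕ × ℕ => rowsA (m p.1) (A p.1) (h p.1) p.2.1 p.2.2) := by
  unfold rowsA
  refine PTF.ite (PTPred.natLt (by fun_prop) (by fun_prop)) hA ?_
  refine PTF.ite (PTPred.natEq (by fun_prop) ?_) (PTF.const 1) (PTF.const 0)
  exact PTF.comp (g := fun p : α × ℕ => h p.1 p.2)
    (f := fun p : α × ℕ × ℕ => (p.1, p.2.1 - m p.1)) hh (by fun_prop)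

theorem ptf_rhsA {m : α → ℕ} {c : α → ℕ → K} (hm : PTF m)
    (hc : PTF (fun p : α × ℕ => c p.1 p.2)) :
    PTF (fun p : α × ℕ => rhsA (m p.1) (c p.1) p.2) := by
  unfold rhsA
  refine PTF.ite (PTPred.natLt (by fun_prop) (by fun_prop)) (PTF.const 0) ?_
  exact PTF.comp (g := fun p : α × ℕ => c p.1 p.2)
    (f := fun p : α × ℕ => (p.1, p.2 - m p.1)) hc (by fun_prop)

theorem ptf_wordT {n m N : α → ℕ} {A : α → ℕ → ℕ → K} {h : α → ℕ → ℕ} {c : α → ℕ → K}
    (hn : PTU n) (hm : PTU m) (hN : PTU N)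
    (hA : PTF (fun p : α × ℕ × ℕ => A p.1 p.2.1 p.2.2))
    (hh : PTF (fun p : α × ℕ => h p.1 p.2)) (hc : PTF (fun p : α × ℕ => c p.1 p.2)) :
    PTF (fun a => wordT (n a) (m a) (N a) (A a) (h a) (c a)) := by
  unfold wordT
  have hs : PTF (fun a => solve (n a) (m a + N a) (rowsA (m a) (A a) (h a)) (rhsA (m a) (c a))) :=
    ptf_solve hn (PTU.add hm hN) (ptf_rowsA hm.toPTF hA hh) (ptf_rhsA hm.toPTF hc)
  refine ptf_tabK hn ?_
  exact ptf_getK (PTF.comp (g := fun a => solve (n a) (m a + N a) (rowsA (m a) (A a) (h a))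
    (rhsA (m a) (c a))) (f := fun p : α × ℕ => p.1) hs PTF.fst) PTF.snd

end ptf

/-! ### product version: words on `n₁ × n₂` points with contents on `N₁ × N₂` -/

section prod

variable {K : Type} [Field K]
variable (n₁ m₁ N₁ : ℕ) (A₁ : ℕ → ℕ → K) (h₁ : ℕ → ℕ)
variable (n₂ m₂ N₂ : ℕ) (A₂ : ℕ → ℕ → K) (h₂ : ℕ → ℕ)

/-- rows extended by the second system: table `N₁ × n₂` -/
noncomputable def rowsT (c : ℕ → ℕ → K) : List K :=
  tab2K N₁ n₂ (fun u j => getK (wordT n₂ m₂ N₂ A₂ h₂ (c u)) j)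

/-- table `n₁ × n₂` of the word of `V₁ ⊗ V₂` with content `c` on `N₁ × N₂` -/
noncomputable def wordT2 (c : ℕ → ℕ → K) : List K :=
  tab2K n₁ n₂ (fun i j => getK (wordT n₁ m₁ N₁ A₁ h₁
    (fun u => get2K (rowsT N₁ n₂ m₂ N₂ A₂ h₂ c) n₂ u j)) i)

variable {n₁ m₁ N₁ A₁ h₁ n₂ m₂ N₂ A₂ h₂}

theorem get2K_rowsT (c : ℕ → ℕ → K) {u j : ℕ} (hu : u < N₁) (hj : j < n₂) :
    get2K (rowsT N₁ n₂ m₂ N₂ A₂ h₂ c) n₂ u j = getK (wordT n₂ m₂ N₂ A₂ h₂ (c u)) j :=
  get2K_tab2K _ hu hj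

theorem get2K_wordT2 (R₁ : Rigid n₁ m₁ N₁ A₁ h₁) (c : ℕ → ℕ → K) {i j : ℕ} (hi : i < n₁)
    (hj : j < n₂) :
    get2K (wordT2 n₁ m₁ N₁ A₁ h₁ n₂ m₂ N₂ A₂ h₂ c) n₂ i j =
      ∑ u ∈ Finset.range N₁, getK (wordT n₂ m₂ N₂ A₂ h₂ (c u)) j *
        getK (wordT n₁ m₁ N₁ A₁ h₁ (dl u)) i := by
  rw [wordT2, get2K_tab2K _ hi hj, wordT_delta_sum R₁]
  exact Finset.sum_congr rfl fun u hu => by rw [get2K_rowsT c (Finset.mem_range.1 hu) hj]

/-- every row is a word of the second system -/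
theorem wordT2_row (R₁ : Rigid n₁ m₁ N₁ A₁ h₁) (R₂ : Rigid n₂ m₂ N₂ A₂ h₂) (c : ℕ → ℕ → K)
    {i : ℕ} (hi : i < n₁) :
    IsWord n₂ m₂ A₂ (fun j => get2K (wordT2 n₁ m₁ N₁ A₁ h₁ n₂ m₂ N₂ A₂ h₂ c) n₂ i j) := by
  refine IsWord.congr (x := fun j => ∑ u ∈ Finset.range N₁,
    getK (wordT n₁ m₁ N₁ A₁ h₁ (dl u)) i * getK (wordT n₂ m₂ N₂ A₂ h₂ (c u)) j) ?_ ?_
  · exact IsWord.sum _ fun u _ => (wordT_isWord R₂ (c u)).smul _
  · intro j hj
    rw [get2K_wordT2 R₁ c hi hj]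
    exact Finset.sum_congr rfl fun u _ => mul_comm _ _

/-- every column is a word of the first system -/
theorem wordT2_col (R₁ : Rigid n₁ m₁ N₁ A₁ h₁) (c : ℕ → ℕ → K) {j : ℕ} (hj : j < n₂) :
    IsWord n₁ m₁ A₁ (fun i => get2K (wordT2 n₁ m₁ N₁ A₁ h₁ n₂ m₂ N₂ A₂ h₂ c) n₂ i j) := by
  refine IsWord.congr (x := fun i => getK (wordT n₁ m₁ N₁ A₁ h₁
    (fun u => get2K (rowsT N₁ n₂ m₂ N₂ A₂ h₂ c) n₂ u j)) i) (wordT_isWord R₁ _) ?_
  intro i hi
  rw [wordT2, get2K_tab2K _ hi hj]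

theorem wordT2_content (R₁ : Rigid n₁ m₁ N₁ A₁ h₁) (R₂ : Rigid n₂ m₂ N₂ A₂ h₂) (c : ℕ → ℕ → K)
    {u v : ℕ} (hu : u < N₁) (hv : v < N₂) :
    get2K (wordT2 n₁ m₁ N₁ A₁ h₁ n₂ m₂ N₂ A₂ h₂ c) n₂ (h₁ u) (h₂ v) = c u v := by
  rw [wordT2, get2K_tab2K _ (R₁.lt u hu) (R₂.lt v hv), wordT_content R₁ _ hu,
    get2K_rowsT c hu (R₂.lt v hv), wordT_content R₂ _ hv]

/-- uniqueness in `V₁ ⊗ V₂` -/
theorem wordT2_unique (R₁ : Rigid n₁ m₁ N₁ A₁ h₁) (R₂ : Rigid n₂ m₂ N₂ A₂ h₂) {c x : ℕ → ℕ → K}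
    (hrow : ∀ i, i < n₁ → IsWord n₂ m₂ A₂ (x i))
    (hcol : ∀ j, j < n₂ → IsWord n₁ m₁ A₁ (fun i => x i j))
    (hc : ∀ u, u < N₁ → ∀ v, v < N₂ → x (h₁ u) (h₂ v) = c u v) {i j : ℕ} (hi : i < n₁)
    (hj : j < n₂) :
    get2K (wordT2 n₁ m₁ N₁ A₁ h₁ n₂ m₂ N₂ A₂ h₂ c) n₂ i j = x i j := by
  have h1 : ∀ u, u < N₁ → ∀ j, j < n₂ →
      x (h₁ u) j = getK (wordT n₂ m₂ N₂ A₂ h₂ (c u)) j := fun u hu j hj =>
    (wordT_unique R₂ (hrow _ (R₁.lt u hu)) (fun v hv => hc u hu v hv) hj).symm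
  rw [wordT2, get2K_tab2K _ hi hj]
  exact wordT_unique R₁ (hcol j hj) (fun u hu => by rw [get2K_rowsT c hu hj, h1 u hu j hj]) hi

/-- a word of `V₁ ⊗ V₂` (rows and columns) without content is zero -/
theorem tens_inj (R₁ : Rigid n₁ m₁ N₁ A₁ h₁) (R₂ : Rigid n₂ m₂ N₂ A₂ h₂) {x : ℕ → ℕ → K}
    (hrow : ∀ i, i < n₁ → IsWord n₂ m₂ A₂ (x i))
    (hcol : ∀ j, j < n₂ → IsWord n₁ m₁ A₁ (fun i => x i j))
    (hc : ∀ u, u < N₁ → ∀ v, v < N₂ → x (h₁ u) (h₂ v) = 0) {i j : ℕ} (hi : i < n₁)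
    (hj : j < n₂) : x i j = 0 := by
  have h1 : ∀ u, u < N₁ → x (h₁ u) j = 0 := fun u hu =>
    R₂.inj _ (hrow _ (R₁.lt u hu)) (fun v hv => hc u hu v hv) j hj
  exact R₁.inj _ (hcol j hj) h1 i hi

end prod

section prodptf

variable {K : Type} [Field K] [Finite K] [PTCode K]
variable {α : Type} [PTCode α]

theorem ptf_rowsT {N₁ n₂ m₂ N₂ : α → ℕ} {A₂ : α → ℕ → ℕ → K} {h₂ : α → ℕ → ℕ}
    {c : α → ℕ → ℕ → K} (hN₁ : PTU N₁) (hn₂ : PTU n₂) (hm₂ : PTU m₂) (hN₂ : PTU N₂)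
    (hA₂ : PTF (fun p : α × ℕ × ℕ => A₂ p.1 p.2.1 p.2.2))
    (hh₂ : PTF (fun p : α × ℕ => h₂ p.1 p.2))
    (hc : PTF (fun p : α × ℕ × ℕ => c p.1 p.2.1 p.2.2)) :
    PTF (fun a => rowsT (N₁ a) (n₂ a) (m₂ a) (N₂ a) (A₂ a) (h₂ a) (c a)) := by
  unfold rowsT
  refine ptf_tab2K hN₁ hn₂ ?_
  have hfst : PTF (fun p : α × ℕ × ℕ => p.1) := PTF.fst
  have hw : PTF (fun p : α × ℕ × ℕ =>
      wordT (n₂ p.1) (m₂ p.1) (N₂ p.1) (A₂ p.1) (h₂ p.1) (c p.1 p.2.1)) := by
    refine ptf_wordT (n := fun p : α × ℕ × ℕ => n₂ p.1) (m := fun p : α × ℕ × ℕ => m₂ p.1)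
      (N := fun p : α × ℕ × ℕ => N₂ p.1) (A := fun p : α × ℕ × ℕ => A₂ p.1)
      (h := fun p : α × ℕ × ℕ => h₂ p.1) (c := fun p : α × ℕ × ℕ => c p.1 p.2.1)
      (PTU.comp hn₂ hfst) (PTU.comp hm₂ hfst) (PTU.comp hN₂ hfst) ?_ ?_ ?_
    · exact PTF.comp (g := fun p : α × ℕ × ℕ => A₂ p.1 p.2.1 p.2.2)
        (f := fun p : (α × ℕ × ℕ) × ℕ × ℕ => (p.1.1, p.2.1, p.2.2)) hA₂ (by fun_prop)
    · exact PTF.comp (g := fun p : α × ℕ => h₂ p.1 p.2)
        (f := fun p : (α × ℕ × ℕ) × ℕ => (p.1.1, p.2)) hh₂ (by fun_prop)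
    · exact PTF.comp (g := fun p : α × ℕ × ℕ => c p.1 p.2.1 p.2.2)
        (f := fun p : (α × ℕ × ℕ) × ℕ => (p.1.1, p.1.2.1, p.2)) hc (by fun_prop)
  exact ptf_getK hw (by fun_prop)

theorem ptf_wordT2 {n₁ m₁ N₁ n₂ m₂ N₂ : α → ℕ} {A₁ A₂ : α → ℕ → ℕ → K} {h₁ h₂ : α → ℕ → ℕ}
    {c : α → ℕ → ℕ → K} (hn₁ : PTU n₁) (hm₁ : PTU m₁) (hN₁ : PTU N₁)
    (hA₁ : PTF (fun p : α × ℕ × ℕ => A₁ p.1 p.2.1 p.2.2))
    (hh₁ : PTF (fun p : α × ℕ => h₁ p.1 p.2)) (hn₂ : PTU n₂) (hm₂ : PTU m₂) (hN₂ : PTU N₂)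
    (hA₂ : PTF (fun p : α × ℕ × ℕ => A₂ p.1 p.2.1 p.2.2))
    (hh₂ : PTF (fun p : α × ℕ => h₂ p.1 p.2))
    (hc : PTF (fun p : α × ℕ × ℕ => c p.1 p.2.1 p.2.2)) :
    PTF (fun a => wordT2 (n₁ a) (m₁ a) (N₁ a) (A₁ a) (h₁ a) (n₂ a) (m₂ a) (N₂ a) (A₂ a) (h₂ a)
      (c a)) := by
  unfold wordT2
  have hR := ptf_rowsT (N₁ := N₁) hN₁ hn₂ hm₂ hN₂ hA₂ hh₂ hc
  refine ptf_tab2K hn₁ hn₂ ?_
  have hfst : PTF (fun p : α × ℕ × ℕ => p.1) := PTF.fst
  have hw : PTF (fun p : α × ℕ × ℕ =>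
      wordT (n₁ p.1) (m₁ p.1) (N₁ p.1) (A₁ p.1) (h₁ p.1)
        (fun u => get2K (rowsT (N₁ p.1) (n₂ p.1) (m₂ p.1) (N₂ p.1) (A₂ p.1) (h₂ p.1) (c p.1))
          (n₂ p.1) u p.2.2)) := by
    refine ptf_wordT (n := fun p : α × ℕ × ℕ => n₁ p.1) (m := fun p : α × ℕ × ℕ => m₁ p.1)
      (N := fun p : α × ℕ × ℕ => N₁ p.1) (A := fun p : α × ℕ × ℕ => A₁ p.1)
      (h := fun p : α × ℕ × ℕ => h₁ p.1)
      (c := fun p : α × ℕ × ℕ => fun u =>
        get2K (rowsT (N₁ p.1) (n₂ p.1) (m₂ p.1) (N₂ p.1) (A₂ p.1) (h₂ p.1) (c p.1))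
          (n₂ p.1) u p.2.2)
      (PTU.comp hn₁ hfst) (PTU.comp hm₁ hfst) (PTU.comp hN₁ hfst) ?_ ?_ ?_
    · exact PTF.comp (g := fun p : α × ℕ × ℕ => A₁ p.1 p.2.1 p.2.2)
        (f := fun p : (α × ℕ × ℕ) × ℕ × ℕ => (p.1.1, p.2.1, p.2.2)) hA₁ (by fun_prop)
    · exact PTF.comp (g := fun p : α × ℕ => h₁ p.1 p.2)
        (f := fun p : (α × ℕ × ℕ) × ℕ => (p.1.1, p.2)) hh₁ (by fun_prop)
    · refine ptf_get2K (t := fun p : (α × ℕ × ℕ) × ℕ =>
        rowsT (N₁ p.1.1) (n₂ p.1.1) (m₂ p.1.1) (N₂ p.1.1) (A₂ p.1.1) (h₂ p.1.1) (c p.1.1))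
        (PTF.comp (g := fun a => rowsT (N₁ a) (n₂ a) (m₂ a) (N₂ a) (A₂ a) (h₂ a) (c a))
          (f := fun p : (α × ℕ × ℕ) × ℕ => p.1.1) hR (by fun_prop)) ?_ (by fun_prop) (by fun_prop)
      exact PTF.comp (g := n₂) (f := fun p : (α × ℕ × ℕ) × ℕ => p.1.1) hn₂.toPTF (by fun_prop)
  exact ptf_getK hw (by fun_prop)

end prodptf

/-! ### sparse checks of local codes -/

section local_

variable {K : Type} [Field K]

/-- check number `v * r + ρ`: parity check `ρ < r` of the type of `v` on the local view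
`z ↦ x (pt v z)`, `z < d` -/
noncomputable def checkA (d r : ℕ) (H : ℕ → ℕ → ℕ → K) (ty : ℕ → ℕ) (pt : ℕ → ℕ → ℕ)
    (i j : ℕ) : K :=
  ∑ z ∈ Finset.range d, if pt (i / r) z = j then H (ty (i / r)) (i % r) z else 0

theorem sum_checkA {d r n : ℕ} {H : ℕ → ℕ → ℕ → K} {ty : ℕ → ℕ} {pt : ℕ → ℕ → ℕ} {i : ℕ}
    (hpt : ∀ z, z < d → pt (i / r) z < n) (x : ℕ → K) :
    ∑ j ∈ Finset.range n, checkA d r H ty pt i j * x j =
      ∑ z ∈ Finset.range d, H (ty (i / r)) (i % r) z * x (pt (i / r) z) := by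
  simp only [checkA, Finset.sum_mul]
  rw [Finset.sum_comm]
  refine Finset.sum_congr rfl fun z hz => ?_
  rw [Finset.sum_eq_single (pt (i / r) z)]
  · simp
  · intro b _ hb; simp [Ne.symm hb]
  · intro hb; exact absurd (Finset.mem_range.2 (hpt z (Finset.mem_range.1 hz))) hb

/-- all checks hold iff every local view satisfies the parity checks of its type -/
theorem isWord_checkA_iff {d r n nv : ℕ} {H : ℕ → ℕ → ℕ → K} {ty : ℕ → ℕ} {pt : ℕ → ℕ → ℕ}
    (hpt : ∀ v, v < nv → ∀ z, z < d → pt v z < n) (x : ℕ → K) :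
    IsWord n (nv * r) (checkA d r H ty pt) x ↔
      ∀ v, v < nv → ∀ ρ, ρ < r → ∑ z ∈ Finset.range d, H (ty v) ρ z * x (pt v z) = 0 := by
  constructor
  · intro hx v hv ρ hρ
    have hi : v * r + ρ < nv * r := by
      calc v * r + ρ < v * r + r := by omega
        _ = (v + 1) * r := by ring
        _ ≤ nv * r := Nat.mul_le_mul_right _ hv
    have hr : 0 < r := by omega
    have h1 := hx _ hi
    have e1 : (v * r + ρ) / r = v := by
      rw [mul_comm, Nat.mul_add_div hr, Nat.div_eq_of_lt hρ, add_zero]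
    have e2 : (v * r + ρ) % r = ρ := by
      rw [mul_comm, Nat.mul_add_mod, Nat.mod_eq_of_lt hρ]
    rw [sum_checkA (by rw [e1]; exact hpt v hv), e1, e2] at h1
    exact h1
  · intro h i hi
    have hr : 0 < r := by
      rcases Nat.eq_zero_or_pos r with h0 | h0
      · subst h0; simp at hi
      · exact h0
    have hv : i / r < nv := Nat.div_lt_of_lt_mul (by rwa [mul_comm] at hi)
    rw [sum_checkA (hpt _ hv)]
    exact h _ hv _ (Nat.mod_lt _ hr)

theorem exists_parity (d : ℕ) (L : Submodule K (Fin d → K)) :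
    ∃ H : ℕ → ℕ → K, ∀ u : Fin d → K,
      u ∈ L ↔ ∀ ρ, ρ < d → ∑ z : Fin d, H ρ z * u z = 0 := by
  classical
  obtain ⟨W, hW⟩ : ∃ W : Submodule K (Module.Dual K (Fin d → K)), W = L.dualAnnihilator :=
    ⟨_, rfl⟩
  have hfr : Module.finrank K W ≤ d := by
    calc Module.finrank K W ≤ Module.finrank K (Module.Dual K (Fin d → K)) :=
          Submodule.finrank_le _
      _ = d := by rw [Subspace.dual_finrank_eq]; simp
  have : Module.Free K W := Module.Free.of_divisionRing K W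
  let b := Module.finBasis K W
  refine ⟨fun ρ z => if hρ : ρ < Module.finrank K W then
    (if hz : z < d then ((b ⟨ρ, hρ⟩ : W) : Module.Dual K (Fin d → K)) (Pi.single ⟨z, hz⟩ 1) else 0)
      else 0, ?_⟩
  have happ : ∀ (f : Module.Dual K (Fin d → K)) (u : Fin d → K),
      f u = ∑ z : Fin d, f (Pi.single z 1) * u z := by
    intro f u
    conv_lhs => rw [pi_eq_sum_univ' u]
    rw [map_sum]
    refine Finset.sum_congr rfl fun z _ => ?_
    rw [map_smul, smul_eq_mul, mul_comm]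
  intro u
  have hmem : u ∈ L ↔ ∀ f ∈ W, f u = 0 := by
    rw [hW]
    conv_lhs => rw [← Subspace.dualAnnihilator_dualCoannihilator_eq (W := L)]
    rw [Submodule.mem_dualCoannihilator]
  rw [hmem]
  constructor
  · intro h ρ hρ
    by_cases hρ' : ρ < Module.finrank K W
    · have := h _ (b ⟨ρ, hρ'⟩).2
      rw [happ] at this
      simpa [hρ'] using this
    · simp [hρ']
  · intro h f hf
    have h1 : ∀ i, ((b i : W) : Module.Dual K (Fin d → K)) u = 0 := by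
      intro i
      have := h i (lt_of_lt_of_le i.2 hfr)
      rw [happ]
      simpa using this
    have h2 : (⟨f, hf⟩ : W) = ∑ i, b.repr ⟨f, hf⟩ i • b i := (b.sum_repr _).symm
    have h3 : f = ∑ i, b.repr ⟨f, hf⟩ i • ((b i : W) : Module.Dual K (Fin d → K)) := by
      have h4 := congrArg (W.subtype) h2
      rw [map_sum] at h4
      simpa only [map_smul, Submodule.subtype_apply] using h4
    rw [h3]
    simp [LinearMap.sum_apply, h1]

end local_

section localptf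

variable {K : Type} [Field K] [Finite K] [PTCode K]
variable {α : Type} [PTCode α]

theorem ptf_checkA (d r : ℕ) {H : ℕ → ℕ → ℕ → K} {ty : α → ℕ → ℕ} {pt : α → ℕ → ℕ → ℕ}
    (hH : PTF (fun p : ℕ × ℕ × ℕ => H p.1 p.2.1 p.2.2))
    (hty : PTF (fun p : α × ℕ => ty p.1 p.2))
    (hpt : PTF (fun p : α × ℕ × ℕ => pt p.1 p.2.1 p.2.2)) :
    PTF (fun p : α × ℕ × ℕ => checkA d r H (ty p.1) (pt p.1) p.2.1 p.2.2) := by
  unfold checkA
  refine ptf_sumK (n := fun _ : α × ℕ × ℕ => d) (PTU.const d) ?_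
  refine PTF.ite (PTPred.natEq ?_ (by fun_prop)) ?_ (PTF.const 0)
  · exact PTF.comp (g := fun p : α × ℕ × ℕ => pt p.1 p.2.1 p.2.2)
      (f := fun p : (α × ℕ × ℕ) × ℕ => (p.1.1, p.1.2.1 / r, p.2)) hpt (by fun_prop)
  · refine PTF.comp (g := fun p : ℕ × ℕ × ℕ => H p.1 p.2.1 p.2.2)
      (f := fun p : (α × ℕ × ℕ) × ℕ => (ty p.1.1 (p.1.2.1 / r), p.1.2.1 % r, p.2)) hH ?_
    refine PTF.prodMk ?_ (by fun_prop)
    exact PTF.comp (g := fun p : α × ℕ => ty p.1 p.2)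
      (f := fun p : (α × ℕ × ℕ) × ℕ => (p.1.1, p.1.2.1 / r)) hty (by fun_prop)

end localptf

end Crest.Agent.R289.WordTab569
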