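import Crest.Agent.R289.AsmObj_12
import Crest.Agent.R289.Pub_117
import Crest.Agent.R289.WordTab_569
import Crest.Agent.R289.FamComb_715

/-!
# Row 289, E24: the public words of `Obj` as PTF tables (helper683)

`D : Obj` (AsmObj_12).  Positions `(g, l, m)` of the code of level `k` are numbered by
`pos D (ix g) l m = (ix g * nI + eI l) * nI + eI m`.

* `cd D d k : Cd D.K` : the check table of the two-place code of degree `d` at level `k`, content
  positions `(g, z0, w0)`; `cd_mem_iff`, `ptfCd_cd` (from `PTU k`, `PTU (Q ^ k)`), `cd_ok` (`d = 1`).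
* `wordN D k u : List K` : the word of degree one with content `u`; `wordN_eq`, `ptf_wordN`.
-/

set_option autoImplicit false
set_option linter.dupNamespace false
set_option linter.unusedSectionVars false

namespace Crest.Agent.R289.ObjPub683

open Crest.Agent.Lib.PT Crest.Agent.Lib.PT.Arith Crest.Agent.R288.PtDp115
open Crest.Agent.R289.Gauss115 Crest.Agent.R289.Pub117 Crest.Agent.R289.WordTab569
open Crest.Agent.R289.FamComb715 Crest.Agent.R289.TP846 Crest.Agent.R289.Asm12

variable (D : Obj)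

/-- number of labels -/
def nI : ℕ := Fintype.card (Option D.K)

/-- numbering of the labels -/
noncomputable def eI : Option D.K ≃ Fin (nI D) := Fintype.equivFin _

theorem nI_pos : 0 < nI D := Fintype.card_pos

/-- number of the position `(g, l, m)` from the number of `g` -/
noncomputable def pos (g : ℕ) (l m : Option D.K) : ℕ := (g * nI D + eI D l) * nI D + eI D m

/-- number of positions -/
def nPos (k : ℕ) : ℕ := D.Q ^ k * nI D * nI D

theorem pos_lt {k g : ℕ} (hg : g < D.Q ^ k) (l m : Option D.K) : pos D g l m < nPos D k := by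
  unfold pos nPos
  have h1 := (eI D l).2
  have h2 := (eI D m).2
  have h3 : g * nI D + (eI D l : ℕ) < D.Q ^ k * nI D := by
    calc g * nI D + (eI D l : ℕ) < g * nI D + nI D := by omega
      _ = (g + 1) * nI D := by ring
      _ ≤ D.Q ^ k * nI D := Nat.mul_le_mul_right _ hg
  calc (g * nI D + (eI D l : ℕ)) * nI D + (eI D m : ℕ)
      < (g * nI D + (eI D l : ℕ)) * nI D + nI D := by omega
    _ = (g * nI D + (eI D l : ℕ) + 1) * nI D := by ring
    _ ≤ _ := Nat.mul_le_mul_right _ h3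

theorem pos_div (g : ℕ) (l m : Option D.K) : pos D g l m / nI D = g * nI D + eI D l := by
  unfold pos
  rw [mul_comm, Nat.mul_add_div (nI_pos D), Nat.div_eq_of_lt (eI D m).2, add_zero]

theorem pos_mod (g : ℕ) (l m : Option D.K) : pos D g l m % nI D = eI D m := by
  unfold pos
  rw [mul_comm, Nat.mul_add_mod, Nat.mod_eq_of_lt (eI D m).2]

theorem pos_inj {g g' : ℕ} {l m l' m' : Option D.K} (h : pos D g l m = pos D g' l' m') :
    g = g' ∧ l = l' ∧ m = m' := by
  have h1 := pos_div D g l m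
  have h2 := pos_div D g' l' m'
  have h3 := pos_mod D g l m
  have h4 := pos_mod D g' l' m'
  rw [h] at h1 h3
  have hm : m = m' := (eI D).injective (Fin.ext (h3.symm.trans h4))
  have h5 := h1.symm.trans h2
  have h6 : (g * nI D + (eI D l : ℕ)) / nI D = g := by
    rw [mul_comm, Nat.mul_add_div (nI_pos D), Nat.div_eq_of_lt (eI D l).2, add_zero]
  have h7 : (g' * nI D + (eI D l' : ℕ)) / nI D = g' := by
    rw [mul_comm, Nat.mul_add_div (nI_pos D), Nat.div_eq_of_lt (eI D l').2, add_zero]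
  have h8 : g = g' := by rw [← h6, h5, h7]
  subst h8
  have h9 : (eI D l : ℕ) = eI D l' := by omega
  exact ⟨rfl, (eI D).injective (Fin.ext h9), hm⟩

/-- every position is some `pos` -/
theorem exists_pos {k j : ℕ} (hj : j < nPos D k) :
    ∃ (g : D.P k) (l m : Option D.K), j = pos D (D.ix k g) l m := by
  unfold nPos at hj
  have hI := nI_pos D
  have h1 : j / nI D < D.Q ^ k * nI D := Nat.div_lt_of_lt_mul (by rwa [mul_comm] at hj)
  have h2 : j / nI D / nI D < D.Q ^ k := Nat.div_lt_of_lt_mul (by rwa [mul_comm] at h1)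
  refine ⟨(D.ix k).symm ⟨_, h2⟩, (eI D).symm ⟨j / nI D % nI D, Nat.mod_lt _ hI⟩,
    (eI D).symm ⟨j % nI D, Nat.mod_lt _ hI⟩, ?_⟩
  unfold pos
  simp only [Equiv.apply_symm_apply]
  rw [Nat.div_add_mod', Nat.div_add_mod']

/-! ### edges -/

/-- edge types: `(true, j, z)` = x-edges of type `j` and label `z`, `(false, i, w)` = y-edges -/
abbrev ETy : Type := Bool × Bool × Option D.K

/-- number of edge types -/
def nT : ℕ := Fintype.card (ETy D)

/-- numbering of the edge types -/
noncomputable def eT : ETy D ≃ Fin (nT D) := Fintype.equivFin _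

theorem nT_pos : 0 < nT D := Fintype.card_pos

/-- the `l` with `xl j l m = z`, absolute form -/
noncomputable def liA (j : Bool) (m z : Option D.K) : Option D.K :=
  if j then Function.invFun (fun l => D.L l m) z else z

/-- the `m` with `yl i l m = w`, absolute form -/
noncomputable def miA (i : Bool) (l w : Option D.K) : Option D.K :=
  if i then Function.invFun (D.M l) w else w

/-- labels of the point number `x` of an edge -/
noncomputable def ptl (t : ETy D) (x : Option D.K) : Option D.K × Option D.K :=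
  if t.1 then (liA D t.2.1 x t.2.2, x) else (x, miA D t.2.1 x t.2.2)

/-- number of the base of the point number `x` of an edge with base number `h` -/
def stp (t : ETy D) (x : Option D.K) (k h : ℕ) : ℕ :=
  if t.2.1 then D.mulN (Un.mk k, h,
    D.invN (Un.mk k, if t.1 then D.bN x (Un.mk k) else D.aN x (Un.mk k))) else h

/-- number of the point number `x` of an edge -/
noncomputable def pt (t : ETy D) (x : Option D.K) (k h : ℕ) : ℕ :=
  pos D (stp D t x k h) (ptl D t x).1 (ptl D t x).2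

/-- the point number `x` of an edge -/
noncomputable def ptG (k : ℕ) (t : ETy D) (x : Option D.K) (h : D.P k) :
    D.P k × Option D.K × Option D.K :=
  if t.1 then (D.tp k).sqX t.2.1 h t.2.2 x else (D.tp k).sqY t.2.1 h t.2.2 x

/-- code of an edge -/
def EC (d : ℕ) (t : ETy D) : Submodule D.K (Option D.K → D.K) :=
  if t.1 then D.X d t.2.1 t.2.2 else D.Y d t.2.1 t.2.2

variable {D} in
theorem li_eq {M0 : ℕ} {lam0 Kr : ℝ} (h : D.OK M0 lam0 Kr) (k : ℕ) (j : Bool)
    (m z : Option D.K) : (D.tp k).li j m z = liA D j m z := by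
  cases j
  · rfl
  · have hb := (D.tp k).L_bij m
    have h1 : (D.tp k).L ((D.tp k).li true m z) m = z := (D.tp k).xl_li true m z
    have h2 : (D.tp k).L (Function.invFun (fun l => (D.tp k).L l m) z) m = z :=
      Function.invFun_eq (f := fun l => (D.tp k).L l m) (hb.2 z)
    have h3 := hb.1 (h1.trans h2.symm)
    rw [h3]
    simp only [liA, if_true, h.L_eq]

variable {D} in
theorem mi_eq {M0 : ℕ} {lam0 Kr : ℝ} (h : D.OK M0 lam0 Kr) (k : ℕ) (i : Bool)
    (l w : Option D.K) : (D.tp k).mi i l w = miA D i l w := by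
  cases i
  · rfl
  · have hb := (D.tp k).M_bij l
    have h1 : (D.tp k).M l ((D.tp k).mi true l w) = w := (D.tp k).yl_mi true l w
    have h2 : (D.tp k).M l (Function.invFun ((D.tp k).M l) w) = w :=
      Function.invFun_eq (hb.2 w)
    have h3 := hb.1 (h1.trans h2.symm)
    rw [h3]
    simp only [miA, if_true, h.M_eq]

variable {D} in
/-- **the number of a point of an edge** -/
theorem pt_eq {M0 : ℕ} {lam0 Kr : ℝ} (hD : D.OK M0 lam0 Kr) (k : ℕ) (t : ETy D)
    (x : Option D.K) (h : D.P k) :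
    pt D t x k (D.ix k h) =
      pos D (D.ix k (ptG D k t x h).1) (ptG D k t x h).2.1 (ptG D k t x h).2.2 := by
  obtain ⟨ax, j, z⟩ := t
  unfold pt ptG stp ptl
  cases ax
  · simp only [Bool.false_eq_true, if_false, TP.sqY, mi_eq hD]
    cases j
    · simp [TP.ai]
    · simp only [if_true, TP.ai, hD.aN_eq, hD.inv_eq, hD.mul_eq]
  · simp only [if_true, TP.sqX, li_eq hD]
    cases j
    · simp [TP.bj]
    · simp only [if_true, TP.bj, hD.bN_eq, hD.inv_eq, hD.mul_eq]

/-! ### code of degree `d` -/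

/-- reading of a number table as an array -/
noncomputable def arr (k : ℕ) (x : ℕ → D.K) (g : D.P k) (l m : Option D.K) : D.K := x (pos D (D.ix k g) l m)

/-- membership in the code, edge by edge -/
theorem mem_C_iff (k d : ℕ) (f : D.P k → Option D.K → Option D.K → D.K) :
    f ∈ D.C k d ↔ ∀ (t : ETy D) (h : D.P k),
      (fun x => f (ptG D k t x h).1 (ptG D k t x h).2.1 (ptG D k t x h).2.2) ∈ EC D d t := by
  constructor
  · rintro ⟨h1, h2⟩ ⟨ax, j, z⟩ h
    cases ax
    · exact h2 j h z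
    · exact h1 j h z
  · intro h
    exact ⟨fun j g z => h (true, j, z) g, fun i g w => h (false, i, w) g⟩

/-- code of an edge on `Fin nI` -/
noncomputable def ECF (d : ℕ) (t : ETy D) : Submodule D.K (Fin (nI D) → D.K) :=
  (EC D d t).comap (LinearMap.funLeft D.K D.K (eI D))

theorem mem_ECF (d : ℕ) (t : ETy D) (u : Fin (nI D) → D.K) :
    u ∈ ECF D d t ↔ (fun x => u (eI D x)) ∈ EC D d t := Iff.rfl

/-- parity checks of the edge codes, indexed by type, row, point -/
noncomputable def HE (d : ℕ) (t : ETy D) : ℕ → ℕ → D.K :=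
  (exists_parity (nI D) (ECF D d t)).choose

theorem HE_spec (d : ℕ) (t : ETy D) (u : Fin (nI D) → D.K) :
    u ∈ ECF D d t ↔ ∀ ρ, ρ < nI D → ∑ z : Fin (nI D), HE D d t ρ z * u z = 0 :=
  (exists_parity (nI D) (ECF D d t)).choose_spec u

/-- the same as a finite table -/
noncomputable def HN (d : ℕ) (t ρ z : ℕ) : D.K :=
  dispE (eT D) (fun t => disp (fun ρ : Fin (nI D) => disp (fun z : Fin (nI D) =>
    HE D d t ρ z) 0 z) 0 ρ) 0 t

/-- number of the point number `z` of the edge number `v` -/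
noncomputable def ptN (k v z : ℕ) : ℕ :=
  dispE (eT D) (fun t => dispE (eI D) (fun x => pt D t x k (v / nT D)) 0 z) 0 (v % nT D)

/-- **the check table of the code of degree `d` at level `k`** -/
noncomputable def cd (d k : ℕ) : Cd D.K where
  n := nPos D k
  m := D.Q ^ k * nT D * nI D
  h := D.Q ^ k
  A := checkA (nI D) (nI D) (HN D d) (fun v => v % nT D) (ptN D k)
  pos := fun i => pos D i D.z0 D.w0

theorem edge_div {h : ℕ} (t : ETy D) : (h * nT D + (eT D t : ℕ)) / nT D = h := by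
  rw [mul_comm, Nat.mul_add_div (nT_pos D), Nat.div_eq_of_lt (eT D t).2, add_zero]

theorem edge_mod {h : ℕ} (t : ETy D) : (h * nT D + (eT D t : ℕ)) % nT D = eT D t := by
  rw [mul_comm, Nat.mul_add_mod, Nat.mod_eq_of_lt (eT D t).2]

theorem edge_lt {k h : ℕ} (hh : h < D.Q ^ k) (t : ETy D) :
    h * nT D + (eT D t : ℕ) < D.Q ^ k * nT D := by
  calc h * nT D + (eT D t : ℕ) < h * nT D + nT D := by
        have := (eT D t).2
        omega
    _ = (h + 1) * nT D := by ring
    _ ≤ _ := Nat.mul_le_mul_right _ hh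

theorem exists_edge {k v : ℕ} (hv : v < D.Q ^ k * nT D) :
    ∃ (h : D.P k) (t : ETy D), v = (D.ix k h : ℕ) * nT D + eT D t := by
  have hT := nT_pos D
  have h2 : v / nT D < D.Q ^ k := Nat.div_lt_of_lt_mul (by rwa [mul_comm] at hv)
  refine ⟨(D.ix k).symm ⟨_, h2⟩, (eT D).symm ⟨v % nT D, Nat.mod_lt _ hT⟩, ?_⟩
  simp only [Equiv.apply_symm_apply]
  rw [Nat.div_add_mod']

theorem ptN_edge (k h : ℕ) (t : ETy D) (x : Option D.K) :
    ptN D k (h * nT D + eT D t) (eI D x) = pt D t x k h := by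
  unfold ptN
  rw [edge_mod, edge_div, dispE_apply, dispE_apply]

theorem HN_edge (d : ℕ) (t : ETy D) {ρ z : ℕ} (hρ : ρ < nI D) (hz : z < nI D) :
    HN D d (eT D t) ρ z = HE D d t ρ z := by
  unfold HN
  rw [dispE_apply, disp_of_lt _ _ hρ, disp_of_lt _ _ hz]

variable {D} in
/-- **words of the check table = words of the code** -/
theorem cd_mem_iff {M0 : ℕ} {lam0 Kr : ℝ} (hD : D.OK M0 lam0 Kr) (d k : ℕ) (x : ℕ → D.K) :
    (cd D d k).Mem x ↔ (fun g l m => x (pos D (D.ix k g) l m)) ∈ D.C k d := by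
  have hpt : ∀ v, v < D.Q ^ k * nT D → ∀ z, z < nI D → ptN D k v z < nPos D k := by
    intro v hv z hz
    obtain ⟨h, t, rfl⟩ := exists_edge D hv
    have hz' : z = (eI D ((eI D).symm ⟨z, hz⟩) : ℕ) := by simp
    rw [hz', ptN_edge, pt_eq hD]
    exact pos_lt D (D.ix k _).2 _ _
  have h1 : (cd D d k).Mem x ↔ IsWord (nPos D k) (D.Q ^ k * nT D * nI D)
      (checkA (nI D) (nI D) (HN D d) (fun v => v % nT D) (ptN D k)) x := Iff.rfl
  rw [h1, isWord_checkA_iff hpt, mem_C_iff]
  have key : ∀ (t : ETy D) (h : D.P k),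
      ((fun x' => x (pos D (D.ix k (ptG D k t x' h).1) (ptG D k t x' h).2.1
        (ptG D k t x' h).2.2)) ∈ EC D d t ↔
      ∀ ρ, ρ < nI D → ∑ z ∈ Finset.range (nI D),
        HN D d (((D.ix k h : ℕ) * nT D + eT D t) % nT D) ρ z *
          x (ptN D k ((D.ix k h : ℕ) * nT D + eT D t) z) = 0) := by
    intro t h
    have h2 : (fun x' => x (pos D (D.ix k (ptG D k t x' h).1) (ptG D k t x' h).2.1
        (ptG D k t x' h).2.2)) = fun x' => (fun z : Fin (nI D) =>
          x (ptN D k ((D.ix k h : ℕ) * nT D + eT D t) z)) (eI D x') := by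
      funext x'
      simp only [ptN_edge, pt_eq hD]
    rw [h2]
    refine (mem_ECF D d t (fun z : Fin (nI D) =>
      x (ptN D k ((D.ix k h : ℕ) * nT D + eT D t) z))).symm.trans ?_
    rw [HE_spec]
    refine forall₂_congr fun ρ hρ => ?_
    rw [edge_mod, ← Fin.sum_univ_eq_sum_range (fun z => HN D d (eT D t) ρ z *
      x (ptN D k ((D.ix k h : ℕ) * nT D + eT D t) z))]
    refine Eq.congr (Finset.sum_congr rfl fun z _ => ?_) rfl
    rw [HN_edge D d t hρ z.2]
  constructor
  · intro h t g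
    rw [key]
    exact h _ (edge_lt D (D.ix k g).2 t)
  · intro h v hv
    obtain ⟨g, t, rfl⟩ := exists_edge D hv
    exact (key t g).1 (h t g)

variable {D} in
theorem content_inj {M0 : ℕ} {lam0 Kr : ℝ} (hD : D.OK M0 lam0 Kr) (k : ℕ)
    {f f' : D.P k → Option D.K → Option D.K → D.K} (hf : f ∈ D.C k 1) (hf' : f' ∈ D.C k 1)
    (h : ∀ g, f g D.z0 D.w0 = f' g D.z0 D.w0) : f = f' :=
  (hD.content k fun g => f' g D.z0 D.w0).unique ⟨hf, h⟩ ⟨hf', fun _ => rfl⟩

theorem zero_mem_C (k d : ℕ) : (fun _ _ _ => 0) ∈ D.C k d := by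
  rw [mem_C_iff]
  intro t h
  exact (EC D d t).zero_mem

variable {D} in
theorem cd_ok {M0 : ℕ} {lam0 Kr : ℝ} (hD : D.OK M0 lam0 Kr) (k : ℕ) : (cd D 1 k).OK := by
  refine ⟨fun i hi => pos_lt D hi _ _, ?_⟩
  intro x hx h0 j hj
  have h1 := (cd_mem_iff hD 1 k x).1 hx
  have h2 := content_inj hD k h1 (zero_mem_C D k 1) (fun g => h0 _ (D.ix k g).2)
  obtain ⟨g, l, m, rfl⟩ := exists_pos D hj
  exact congrFun (congrFun (congrFun h2 g) l) m

/-- symbol at the unit number `g`, slot `(l, m)`, of the word of degree one with content `u` -/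
noncomputable def sym (k : ℕ) (u : ℕ → D.K) (g : ℕ) (l m : Option D.K) : D.K :=
  getK ((cd D 1 k).enc u) (pos D g l m)

/-- reading of an array as a number table -/
noncomputable def nat (k : ℕ) (f : D.P k → Option D.K → Option D.K → D.K) (j : ℕ) : D.K := by
  classical
  exact if h : ∃ p : D.P k × Option D.K × Option D.K, j = pos D (D.ix k p.1) p.2.1 p.2.2 then
    f h.choose.1 h.choose.2.1 h.choose.2.2 else 0

theorem nat_pos (k : ℕ) (f : D.P k → Option D.K → Option D.K → D.K) (g : D.P k)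
    (l m : Option D.K) : nat D k f (pos D (D.ix k g) l m) = f g l m := by
  have h : ∃ p : D.P k × Option D.K × Option D.K,
      pos D (D.ix k g) l m = pos D (D.ix k p.1) p.2.1 p.2.2 := ⟨(g, l, m), rfl⟩
  unfold nat
  rw [dif_pos h]
  obtain ⟨h2, h3, h4⟩ := pos_inj D h.choose_spec
  have h5 : g = h.choose.1 := (D.ix k).injective (Fin.ext h2)
  rw [← h3, ← h4, ← h5]

variable {D} in
/-- **the symbols of the word with content `u`** -/
theorem sym_eq {M0 : ℕ} {lam0 Kr : ℝ} (hD : D.OK M0 lam0 Kr) (k : ℕ) {u : ℕ → D.K}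
    {f : D.P k → Option D.K → Option D.K → D.K} (hf : f ∈ D.C k 1)
    (hu : ∀ g, f g D.z0 D.w0 = u (D.ix k g)) (g : D.P k) (l m : Option D.K) :
    sym D k u (D.ix k g) l m = f g l m := by
  unfold sym
  have hx : (cd D 1 k).Mem (nat D k f) := by
    rw [cd_mem_iff hD]
    simpa only [nat_pos] using hf
  rw [Cd.enc_eq (x := nat D k f) (cd_ok hD k) hx ?_ (pos_lt D (D.ix k g).2 _ _), nat_pos]
  intro i hi
  have hi' : i = (D.ix k ((D.ix k).symm ⟨i, hi⟩) : ℕ) := by simp
  show nat D k f (pos D i D.z0 D.w0) = u i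
  rw [hi', nat_pos, hu]

/-! ### polynomial time -/

section ptf

variable {α : Type} [PTCode α]

theorem ptf_pos {g : α → ℕ} (hg : PTF g) (l m : Option D.K) :
    PTF (fun a => pos D (g a) l m) := by
  unfold pos
  fun_prop

variable {D} in
theorem ptf_stp {M0 : ℕ} {lam0 Kr : ℝ} (hD : D.OK M0 lam0 Kr) (t : ETy D) (x : Option D.K)
    {k h : α → ℕ} (hk : PTU k) (hQ : PTU fun a => D.Q ^ k a) (hh : PTF h) :
    PTF (fun a => stp D t x (k a) (h a)) := by
  unfold stp
  by_cases h1 : t.2.1 = true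
  · simp only [h1, if_true]
    refine hD.ptf_mul k h _ hk hQ hh (hD.ptf_inv k _ hk hQ ?_)
    by_cases h2 : t.1 = true
    · simp only [h2, if_true]
      exact hD.ptf_b x k hk hQ
    · simp only [h2]
      exact hD.ptf_a x k hk hQ
  · simp only [h1]
    exact hh

variable {D} in
theorem ptf_pt {M0 : ℕ} {lam0 Kr : ℝ} (hD : D.OK M0 lam0 Kr) (t : ETy D) (x : Option D.K)
    {k h : α → ℕ} (hk : PTU k) (hQ : PTU fun a => D.Q ^ k a) (hh : PTF h) :
    PTF (fun a => pt D t x (k a) (h a)) := by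
  unfold pt
  exact ptf_pos D (ptf_stp hD t x hk hQ hh) _ _

variable {D} in
theorem ptf_ptN {M0 : ℕ} {lam0 Kr : ℝ} (hD : D.OK M0 lam0 Kr)
    {k v z : α → ℕ} (hk : PTU k) (hQ : PTU fun a => D.Q ^ k a) (hv : PTF v) (hz : PTF z) :
    PTF (fun a => ptN D (k a) (v a) (z a)) := by
  unfold ptN
  refine ptf_dispE (eT D) (f := fun t a => dispE (eI D)
    (fun x => pt D t x (k a) (v a / nT D)) 0 (z a)) (fun t => ?_) (PTF.const 0) (by fun_prop)
  refine ptf_dispE (eI D) (f := fun x a => pt D t x (k a) (v a / nT D)) (fun x => ?_)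
    (PTF.const 0) hz
  exact ptf_pt hD t x hk hQ (by fun_prop)

theorem ptf_HN (d : ℕ) : PTF (fun p : ℕ × ℕ × ℕ => HN D d p.1 p.2.1 p.2.2) := by
  unfold HN
  refine ptf_dispE (eT D) (f := fun t (p : ℕ × ℕ × ℕ) => disp (fun ρ : Fin (nI D) =>
    disp (fun z : Fin (nI D) => HE D d t ρ z) 0 p.2.2) 0 p.2.1) (fun t => ?_) (PTF.const 0)
    (by fun_prop)
  refine ptf_disp (f := fun (ρ : Fin (nI D)) (p : ℕ × ℕ × ℕ) =>
    disp (fun z : Fin (nI D) => HE D d t ρ z) 0 p.2.2) (fun ρ => ?_) (PTF.const 0) (by fun_prop)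
  exact ptf_disp (f := fun (z : Fin (nI D)) (_ : ℕ × ℕ × ℕ) => HE D d t ρ z)
    (fun z => PTF.const _) (PTF.const 0) (by fun_prop)

variable {D} in
theorem ptfCd_cd {M0 : ℕ} {lam0 Kr : ℝ} (hD : D.OK M0 lam0 Kr) (d : ℕ)
    {k : α → ℕ} (hk : PTU k) (hQ : PTU fun a => D.Q ^ k a) :
    PTFCd (fun a => cd D d (k a)) where
  n := PTU.mul (PTU.mul hQ (PTU.const _)) (PTU.const _)
  m := PTU.mul (PTU.mul hQ (PTU.const _)) (PTU.const _)
  h := hQ
  A := by
    show PTF (fun p : α × ℕ × ℕ => checkA (nI D) (nI D) (HN D d) (fun v => v % nT D)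
      (ptN D (k p.1)) p.2.1 p.2.2)
    refine ptf_checkA (nI D) (nI D) (ty := fun _ v => v % nT D) (pt := fun a => ptN D (k a))
      (ptf_HN D d) (by fun_prop) ?_
    refine ptf_ptN (k := fun p : α × ℕ × ℕ => k p.1) hD (PTU.comp (n := k) hk PTF.fst)
      (PTU.comp (n := fun a => D.Q ^ k a) hQ PTF.fst) (by fun_prop) (by fun_prop)
  pos := ptf_pos D (by fun_prop) _ _

variable {D} in
theorem ptf_sym {M0 : ℕ} {lam0 Kr : ℝ} (hD : D.OK M0 lam0 Kr)
    {k : α → ℕ} (hk : PTU k) (hQ : PTU fun a => D.Q ^ k a) {u : α → ℕ → D.K}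
    (hu : PTF (fun p : α × ℕ => u p.1 p.2)) {g : α → ℕ} (hg : PTF g) (l m : Option D.K) :
    PTF (fun a => sym D (k a) (u a) (g a) l m) := by
  unfold sym
  exact ptf_getK (ptf_cdEnc (ptfCd_cd hD 1 hk hQ) hu) (ptf_pos D hg l m)

end ptf

end Crest.Agent.R289.ObjPub683
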