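import Crest.Agent.R289.ObjPub3_117
import Crest.Agent.R289.ObjPub_683
import Crest.Agent.R289.FamComb_715

/-!
# R289, leaf E24 (third part): public words of the content group `P kP × P kR` of an `Obj` as tables

Units of the content group are numbered by `eP (ix kP) (ix kR)`; a symbol of a unit is
`((l, m), (l', m'))`.

* `rep1` : the table `cd D 1 k` of 683 as a represented object; `symS` its symbols.
* `symG D kP kR u n s` : symbol `s` at the unit number `n`, of the word of `V_P ⊗ V_R` with content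
  `u` (a function of unit numbers); `symG_eq`, `ptf_symG`.
* `tabG`, `tabT` : the same in the form `∃ t, PTF₂ t ∧ ∀ i u, t (raw i) (e u) = F i u s`.
-/

set_option autoImplicit false
set_option linter.dupNamespace false

namespace Crest.Agent.R289.ObjPubG117

open Crest.Agent.Lib.PT Crest.Agent.R289.Asm12 Crest.Agent.R289.Gauss115
open Crest.Agent.R289.Pub117 Crest.Agent.R289.ObjPub683 Crest.Agent.R289.YIdx901

variable {α : Type} [PTCode α] {D : Obj} {M0 : ℕ} {lam0 Kr : ℝ}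

/-- symbols of a unit of `P k` -/
abbrev S1 (D : Obj) : Type := Option D.K × Option D.K

/-- words of degree `d` as functions of unit and symbol -/
def CS (D : Obj) (k d : ℕ) : Set (D.P k → S1 D → D.K) := {F | (fun g l m => F g (l, m)) ∈ D.C k d}

theorem mem_CS {k d : ℕ} {F : D.P k → S1 D → D.K} :
    F ∈ CS D k d ↔ (fun g l m => F g (l, m)) ∈ D.C k d := Iff.rfl

/-- the table of 683 represents the words of degree `1` -/
theorem rep1 (hD : D.OK M0 lam0 Kr) (k : ℕ) :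
    Rep (cd D 1 k) (CS D k 1) (fun g s => pos D (D.ix k g) s.1 s.2) (fun g => D.ix k g)
      (D.z0, D.w0) where
  ok := cd_ok hD k
  lt g s := pos_lt D (D.ix k g).2 s.1 s.2
  inj := by
    rintro g ⟨l, m⟩ g' ⟨l', m'⟩ h
    obtain ⟨h1, h2, h3⟩ := pos_inj D h
    exact ⟨(D.ix k).injective (Fin.ext h1), Prod.ext h2 h3⟩
  surj := by
    intro j hj
    obtain ⟨g, l, m, h⟩ := exists_pos D (k := k) hj
    exact ⟨g, (l, m), h.symm⟩
  mem := by
    intro F hF x hx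
    rw [cd_mem_iff hD]
    have : (fun g l m => x (pos D (D.ix k g) l m)) = fun g l m => F g (l, m) := by
      funext g l m
      exact hx g (l, m)
    rw [this]
    exact hF
  cont := by
    intro i hi
    exact ⟨(D.ix k).symm ⟨i, hi⟩, by simp, by simp [cd]⟩

/-- symbol `s` at unit number `n` of the word of level `k` with content `u` -/
noncomputable def symS (D : Obj) (k : ℕ) (u : ℕ → D.K) (n : ℕ) (s : S1 D) : D.K :=
  getK ((cd D 1 k).enc u) (pos D n s.1 s.2)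

theorem symS_eq (hD : D.OK M0 lam0 Kr) {k : ℕ} {F : D.P k → S1 D → D.K} (hF : F ∈ CS D k 1)
    {u : ℕ → D.K} (hu : ∀ g, F g (D.z0, D.w0) = u (D.ix k g)) (g : D.P k) (s : S1 D) :
    symS D k u (D.ix k g) s = F g s :=
  (rep1 hD k).enc_eq hF hu g s

/-- symbol `s` at unit number `n` of the word of `V_P ⊗ V_R` with content `u` -/
noncomputable def symG (D : Obj) (k k' : ℕ) (u : ℕ → D.K) (n : ℕ) (s : S1 D × S1 D) : D.K :=
  getK (((cd D 1 k).prod (cd D 1 k')).enc u)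
    (pos D (n / D.Q ^ k') s.1.1 s.1.2 * (cd D 1 k').n + pos D (n % D.Q ^ k') s.2.1 s.2.2)

theorem symG_eq (hD : D.OK M0 lam0 Kr) {k k' : ℕ} {F : D.P k × D.P k' → S1 D × S1 D → D.K}
    (hF : F ∈ tens (CS D k 1) (CS D k' 1)) {u : ℕ → D.K}
    (hu : ∀ g, F g ((D.z0, D.w0), (D.z0, D.w0)) = u (eP (D.ix k) (D.ix k') g : Fin _))
    (g : D.P k × D.P k') (s : S1 D × S1 D) :
    symG D k k' u (eP (D.ix k) (D.ix k') g : Fin _) s = F g s := by
  obtain ⟨g, g'⟩ := g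
  unfold symG
  rw [eP_div, eP_mod]
  refine ((rep1 hD k).prod (rep1 hD k')).enc_eq hF (fun γ => ?_) (g, g') s
  rw [hu γ]
  congr 1
  rw [show (γ : D.P k × D.P k') = (γ.1, γ.2) from rfl, eP_val]
  unfold pI
  show _ = (D.ix k γ.1 : ℕ) * D.Q ^ k' + (D.ix k' γ.2 : ℕ)
  ring

theorem ptf_symS (hD : D.OK M0 lam0 Kr) {k : α → ℕ} (hk : PTU k) (hQ : PTU fun a => D.Q ^ k a)
    {u : α → ℕ → D.K} (hu : PTF fun p : α × ℕ => u p.1 p.2) {n : α → ℕ} (hn : PTF n) (s : S1 D) :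
    PTF fun a => symS D (k a) (u a) (n a) s := by
  unfold symS
  exact ptf_getK (ptf_cdEnc (ptfCd_cd hD 1 hk hQ) hu) (ptf_pos D hn _ _)

theorem ptf_symG (hD : D.OK M0 lam0 Kr) {k k' : α → ℕ} (hk : PTU k)
    (hQ : PTU fun a => D.Q ^ k a) (hk' : PTU k') (hQ' : PTU fun a => D.Q ^ k' a)
    {u : α → ℕ → D.K} (hu : PTF fun p : α × ℕ => u p.1 p.2) {n : α → ℕ} (hn : PTF n)
    (s : S1 D × S1 D) : PTF fun a => symG D (k a) (k' a) (u a) (n a) s := by
  unfold symG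
  have h1 := ptfCd_cd hD 1 hk hQ
  have h2 := ptfCd_cd hD 1 hk' hQ'
  refine ptf_getK (ptf_cdEnc (h1.prod h2) hu) ?_
  exact PTF.natAdd (PTF.natMul (ptf_pos D (PTF.natDiv hn hQ'.toPTF) _ _) h2.n.toPTF)
    (ptf_pos D (PTF.natMod hn hQ'.toPTF) _ _)

/-! ### the existence form -/

section tab

variable {ι : Type} {raw : ι → α}

/-- public words of one object -/
theorem tabT (hD : D.OK M0 lam0 Kr) {k : α → ℕ} (hk : PTU k) (hQ : PTU fun a => D.Q ^ k a)
    {F : ∀ i : ι, D.P (k (raw i)) → S1 D → D.K} (hF : ∀ i, F i ∈ CS D (k (raw i)) 1)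
    (hc : ∃ T : α → ℕ → D.K, PTF (fun p : α × ℕ => T p.1 p.2) ∧
      ∀ i g, T (raw i) (D.ix (k (raw i)) g) = F i g (D.z0, D.w0)) (s : S1 D) :
    ∃ t : α → ℕ → D.K, PTF (fun p : α × ℕ => t p.1 p.2) ∧
      ∀ i g, t (raw i) (D.ix (k (raw i)) g) = F i g s := by
  obtain ⟨T, hT, h⟩ := hc
  refine ⟨fun a n => symS D (k a) (T a) n s, ?_, fun i g =>
    symS_eq hD (hF i) (fun g => (h i g).symm) g s⟩
  have hk1 : PTU fun p : α × ℕ => k p.1 := PTU.comp (n := k) hk PTF.fst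
  have hQ1 : PTU fun p : α × ℕ => D.Q ^ k p.1 := PTU.comp (n := fun a => D.Q ^ k a) hQ PTF.fst
  refine ptf_symS hD hk1 hQ1 (u := fun p => T p.1) ?_ PTF.snd s
  exact PTF.comp (g := fun p : α × ℕ => T p.1 p.2) (f := fun q : (α × ℕ) × ℕ => (q.1.1, q.2)) hT
    (by fun_prop)

/-- public words of the content group -/
theorem tabG (hD : D.OK M0 lam0 Kr) {k k' : α → ℕ} (hk : PTU k)
    (hQ : PTU fun a => D.Q ^ k a) (hk' : PTU k') (hQ' : PTU fun a => D.Q ^ k' a)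
    {F : ∀ i : ι, D.P (k (raw i)) × D.P (k' (raw i)) → S1 D × S1 D → D.K}
    (hF : ∀ i, F i ∈ tens (CS D (k (raw i)) 1) (CS D (k' (raw i)) 1))
    (hc : ∃ T : α → ℕ → D.K, PTF (fun p : α × ℕ => T p.1 p.2) ∧
      ∀ i g, T (raw i) (eP (D.ix (k (raw i))) (D.ix (k' (raw i))) g : Fin _) =
        F i g ((D.z0, D.w0), (D.z0, D.w0))) (s : S1 D × S1 D) :
    ∃ t : α → ℕ → D.K, PTF (fun p : α × ℕ => t p.1 p.2) ∧
      ∀ i g, t (raw i) (eP (D.ix (k (raw i))) (D.ix (k' (raw i))) g : Fin _) = F i g s := by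
  obtain ⟨T, hT, h⟩ := hc
  refine ⟨fun a n => symG D (k a) (k' a) (T a) n s, ?_, fun i g =>
    symG_eq hD (hF i) (fun g => (h i g).symm) g s⟩
  have hk1 : PTU fun p : α × ℕ => k p.1 := PTU.comp (n := k) hk PTF.fst
  have hQ1 : PTU fun p : α × ℕ => D.Q ^ k p.1 := PTU.comp (n := fun a => D.Q ^ k a) hQ PTF.fst
  have hk2 : PTU fun p : α × ℕ => k' p.1 := PTU.comp (n := k') hk' PTF.fst
  have hQ2 : PTU fun p : α × ℕ => D.Q ^ k' p.1 :=
    PTU.comp (n := fun a => D.Q ^ k' a) hQ' PTF.fst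
  refine ptf_symG hD hk1 hQ1 hk2 hQ2 (u := fun p => T p.1) ?_ PTF.snd s
  exact PTF.comp (g := fun p : α × ℕ => T p.1 p.2) (f := fun q : (α × ℕ) × ℕ => (q.1.1, q.2)) hT
    (by fun_prop)

end tab

end Crest.Agent.R289.ObjPubG117
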