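import Crest.Agent.R289.DefC_143
import Crest.Agent.R288.PtDp_115

/-!
# Row 289, leaf E20 (2): contents of the public words of `DefC_143` as polynomial-time tables

`bitP P pb x` is the proposition behind `pubC P K pb x` (`pubC_eq`).  `LayPT` = polynomial-time data
of a family of layouts (addresses numbered by `e a : Γ a ≃ Fin (N a)`).  For every public word the
content bit is a polynomial-time predicate of (instance, address number): `LayPT.bit`, `LayPT.pub`.
-/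

set_option autoImplicit false
set_option linter.unusedSectionVars false

namespace Crest.Agent.R289.PubC965

open Crest.Agent.Lib.PT Crest.Agent.Lib.PT.Arith Crest.Agent.R289.DefC

section bits

variable {Γ G Λ : Type} {J : ℕ} (P : Layout Γ G Λ J)

/-- the proposition behind the content of a public word -/
def bitP : Pb G Λ J → Γ → Prop
  | .U, _ => True
  | .IN, a => ∃ i, P.al i = a
  | .Vis j, a => ∃ s ≤ P.L, P.vis s = (a, j)
  | .E j g j', a => ∃ s < P.L, P.vis s = (a, j) ∧ P.dir s = g ∧ (P.vis (s + 1)).2 = j'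
  | .Fi j, a => P.vis 0 = (a, j)
  | .La j, a => P.vis P.L = (a, j)
  | .W c j l k, a => ∃ s < P.L, P.vis s = (a, j) ∧ P.ins c s = some (l, k)
  | .Wa c j, a => ∃ s < P.L, P.vis s = (a, j) ∧ P.ins c s ≠ none
  | .Wc c l, a => ∃ s < P.L, (P.vis s).1 = a ∧ ∃ k, P.ins c s = some (l, k)
  | .D0 j, a => P.vis 0 = (a, j)
  | .DL j, a => P.vis P.L = (a, j)
  | .Full j, a => ∃ s < P.L, P.vis s = (a, j)

open Classical in
theorem pubC_eq (K : Type) [CommRing K] (pb : Pb G Λ J) (a : Γ) :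
    pubC P K pb a = if bitP P pb a then 1 else 0 := by
  cases pb with
  | U => exact (if_pos trivial).symm
  | _ => exact if_congr Iff.rfl rfl rfl

end bits

/-! ### families of layouts -/

section fam

variable {α : Type} [PTCode α] {G Λ : Type} {J : ℕ}

/-- a relation between instances and times `≤ L` is decided in polynomial time -/
def OnL (L : α → ℕ) (R : α → ℕ → Prop) : Prop :=
  ∃ q : α × ℕ → Prop, PTPred q ∧ ∀ a s, s ≤ L a → (q (a, s) ↔ R a s)

/-- polynomial-time data of a family of layouts -/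
structure LayPT (Γ : α → Type) (N : α → ℕ) (e : ∀ a, Γ a ≃ Fin (N a))
    (P : ∀ a, Layout (Γ a) G Λ J) where
  hL : PTU (fun a => (P a).L)
  hn : PTU (fun a => (P a).n)
  /-- address number of the visit `s ≤ L` -/
  va : α → ℕ → ℕ
  hva : PTF (fun p : α × ℕ => va p.1 p.2)
  va_eq : ∀ a s, s ≤ (P a).L → va a s = (e a ((P a).vis s).1 : ℕ)
  /-- address number of the name position `i` -/
  al : α → ℕ → ℕ
  hal : PTF (fun p : α × ℕ => al p.1 p.2)
  al_eq : ∀ a (i : Fin (P a).n), al a i = (e a ((P a).al i) : ℕ)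
  lane : ∀ j : Fin J, OnL (fun a => (P a).L) (fun a s => ((P a).vis s).2 = j)
  dir : ∀ g : G, OnL (fun a => (P a).L) (fun a s => s < (P a).L → (P a).dir s = g)
  ins : ∀ (c : Bool) (l : Λ) (k : Op G Λ),
    OnL (fun a => (P a).L) (fun a s => s < (P a).L → (P a).ins c s = some (l, k))
  emp : ∀ c : Bool, OnL (fun a => (P a).L) (fun a s => s < (P a).L → (P a).ins c s = none)
  wrt : ∀ (c : Bool) (l : Λ),
    OnL (fun a => (P a).L) (fun a s => s < (P a).L → ∃ k, (P a).ins c s = some (l, k))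

variable {Γ : α → Type} {N : α → ℕ} {e : ∀ a, Γ a ≃ Fin (N a)} {P : ∀ a, Layout (Γ a) G Λ J}

theorem num_eq_iff (a : α) {x y : Γ a} : ((e a x : ℕ) = (e a y : ℕ)) ↔ x = y := by
  rw [Fin.val_inj, (e a).apply_eq_iff_eq]

theorem vis_iff (H : LayPT Γ N e P) (a : α) {s : ℕ} (hs : s ≤ (P a).L) (x : Γ a) (j : Fin J) :
    (P a).vis s = (x, j) ↔ H.va a s = (e a x : ℕ) ∧ ((P a).vis s).2 = j := by
  rw [H.va_eq a s hs, num_eq_iff, Prod.ext_iff]

/-- bounded search over the times `s < L` -/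
theorem ex_lt (H : LayPT Γ N e P) {R : α × ℕ → ℕ → Prop}
    (hR : PTPred (fun p : (α × ℕ) × ℕ => R p.1 p.2)) :
    PTPred (fun p : α × ℕ => ∃ s < (P p.1).L, R p s) :=
  PTPred.exists_lt (n := fun p : α × ℕ => (P p.1).L) (PTU.comp (n := fun a => (P a).L) H.hL PTF.fst)
    hR

theorem ex_le (H : LayPT Γ N e P) {R : α × ℕ → ℕ → Prop}
    (hR : PTPred (fun p : (α × ℕ) × ℕ => R p.1 p.2)) :
    PTPred (fun p : α × ℕ => ∃ s ≤ (P p.1).L, R p s) := by
  have h := PTPred.exists_lt (n := fun p : α × ℕ => (P p.1).L + 1)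
    (PTU.add (PTU.comp (n := fun a => (P a).L) H.hL PTF.fst) (PTU.const 1)) hR
  refine h.of_iff fun p => ?_
  simp only [Nat.lt_succ_iff]

theorem ptf_vaq (H : LayPT Γ N e P) :
    PTF (fun q : (α × ℕ) × ℕ => H.va q.1.1 q.2) :=
  PTF.comp (g := fun p : α × ℕ => H.va p.1 p.2) (f := fun q : (α × ℕ) × ℕ => (q.1.1, q.2))
    H.hva (by fun_prop)

theorem pt_vaEq (H : LayPT Γ N e P) :
    PTPred (fun q : (α × ℕ) × ℕ => H.va q.1.1 q.2 = q.1.2) :=
  PTPred.natEq (ptf_vaq H) (by fun_prop)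

theorem pt_q {q : α × ℕ → Prop} (hq : PTPred q) :
    PTPred (fun p : (α × ℕ) × ℕ => q (p.1.1, p.2)) :=
  hq.comp (f := fun p : (α × ℕ) × ℕ => (p.1.1, p.2)) (by fun_prop)

theorem pt_q1 {q : α × ℕ → Prop} (hq : PTPred q) :
    PTPred (fun p : (α × ℕ) × ℕ => q (p.1.1, p.2 + 1)) :=
  hq.comp (f := fun p : (α × ℕ) × ℕ => (p.1.1, p.2 + 1)) (by fun_prop)

/-- **content bits of all public words are polynomial-time** -/
theorem LayPT.bit (H : LayPT Γ N e P) (pb : Pb G Λ J) :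
    ∃ q : α × ℕ → Prop, PTPred q ∧ ∀ a (x : Γ a), q (a, (e a x : ℕ)) ↔ bitP (P a) pb x := by
  have hva0 : PTF (fun p : α × ℕ => H.va p.1 0) :=
    PTF.comp (g := fun p : α × ℕ => H.va p.1 p.2) (f := fun p : α × ℕ => (p.1, 0)) H.hva
      (by fun_prop)
  have hLf : PTF (fun p : α × ℕ => (P p.1).L) := (PTU.comp (n := fun a => (P a).L) H.hL
    (PTF.fst (α := α) (β := ℕ))).toPTF
  have hvaL : PTF (fun p : α × ℕ => H.va p.1 (P p.1).L) :=
    PTF.comp (g := fun p : α × ℕ => H.va p.1 p.2) (f := fun p : α × ℕ => (p.1, (P p.1).L)) H.hva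
      (by fun_prop)
  cases pb with
  | U => exact ⟨fun _ => True, PTPred.const True, fun a x => Iff.rfl⟩
  | IN =>
    refine ⟨fun p => ∃ i < (P p.1).n, H.al p.1 i = p.2, ?_, fun a x => ?_⟩
    · refine PTPred.exists_lt (n := fun p : α × ℕ => (P p.1).n)
        (PTU.comp (n := fun a => (P a).n) H.hn PTF.fst) (PTPred.natEq ?_ (by fun_prop))
      exact PTF.comp (g := fun p : α × ℕ => H.al p.1 p.2)
        (f := fun q : (α × ℕ) × ℕ => (q.1.1, q.2)) H.hal (by fun_prop)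
    · constructor
      · rintro ⟨i, hi, h⟩
        refine ⟨⟨i, hi⟩, ?_⟩
        rw [← num_eq_iff (e := e) a, ← H.al_eq a ⟨i, hi⟩]
        exact h
      · rintro ⟨i, rfl⟩
        exact ⟨i, i.2, H.al_eq a i⟩
  | Vis j =>
    obtain ⟨ql, hql, hl⟩ := H.lane j
    refine ⟨fun p => ∃ s ≤ (P p.1).L, H.va p.1 s = p.2 ∧ ql (p.1, s), ?_, fun a x => ?_⟩
    · exact ex_le H ((pt_vaEq H).and (pt_q hql))
    · constructor
      · rintro ⟨s, hs, h1, h2⟩
        exact ⟨s, hs, (vis_iff H a hs x j).2 ⟨h1, (hl a s hs).1 h2⟩⟩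
      · rintro ⟨s, hs, h⟩
        have h' := (vis_iff H a hs x j).1 h
        exact ⟨s, hs, h'.1, (hl a s hs).2 h'.2⟩
  | E j g j' =>
    obtain ⟨ql, hql, hl⟩ := H.lane j
    obtain ⟨qm, hqm, hm⟩ := H.lane j'
    obtain ⟨qd, hqd, hd⟩ := H.dir g
    refine ⟨fun p => ∃ s < (P p.1).L, (H.va p.1 s = p.2 ∧ ql (p.1, s)) ∧
      (qd (p.1, s) ∧ qm (p.1, s + 1)), ?_, fun a x => ?_⟩
    · exact ex_lt H (((pt_vaEq H).and (pt_q hql)).and ((pt_q hqd).and (pt_q1 hqm)))
    · constructor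
      · rintro ⟨s, hs, ⟨h1, h2⟩, h3, h4⟩
        exact ⟨s, hs, (vis_iff H a hs.le x j).2 ⟨h1, (hl a s hs.le).1 h2⟩,
          (hd a s hs.le).1 h3 hs, (hm a (s + 1) hs).1 h4⟩
      · rintro ⟨s, hs, h, h3, h4⟩
        have h' := (vis_iff H a hs.le x j).1 h
        exact ⟨s, hs, ⟨h'.1, (hl a s hs.le).2 h'.2⟩, (hd a s hs.le).2 fun _ => h3,
          (hm a (s + 1) hs).2 h4⟩
  | Fi j =>
    obtain ⟨ql, hql, hl⟩ := H.lane j
    refine ⟨fun p => H.va p.1 0 = p.2 ∧ ql (p.1, 0), ?_, fun a x => ?_⟩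
    · exact (PTPred.natEq hva0 (by fun_prop)).and
        (hql.comp (f := fun p : α × ℕ => (p.1, 0)) (by fun_prop))
    · change _ ↔ (P a).vis 0 = (x, j)
      exact (and_congr Iff.rfl (hl a 0 (Nat.zero_le _))).trans
        (vis_iff H a (Nat.zero_le _) x j).symm
  | La j =>
    obtain ⟨ql, hql, hl⟩ := H.lane j
    refine ⟨fun p => H.va p.1 (P p.1).L = p.2 ∧ ql (p.1, (P p.1).L), ?_, fun a x => ?_⟩
    · exact (PTPred.natEq hvaL (by fun_prop)).and
        (hql.comp (f := fun p : α × ℕ => (p.1, (P p.1).L)) (by fun_prop))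
    · change _ ↔ (P a).vis (P a).L = (x, j)
      exact (and_congr Iff.rfl (hl a _ le_rfl)).trans (vis_iff H a le_rfl x j).symm
  | W c j l k =>
    obtain ⟨ql, hql, hl⟩ := H.lane j
    obtain ⟨qi, hqi, hi⟩ := H.ins c l k
    refine ⟨fun p => ∃ s < (P p.1).L, (H.va p.1 s = p.2 ∧ ql (p.1, s)) ∧ qi (p.1, s), ?_,
      fun a x => ?_⟩
    · exact ex_lt H (((pt_vaEq H).and (pt_q hql)).and (pt_q hqi))
    · constructor
      · rintro ⟨s, hs, ⟨h1, h2⟩, h3⟩
        exact ⟨s, hs, (vis_iff H a hs.le x j).2 ⟨h1, (hl a s hs.le).1 h2⟩,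
          (hi a s hs.le).1 h3 hs⟩
      · rintro ⟨s, hs, h, h3⟩
        have h' := (vis_iff H a hs.le x j).1 h
        exact ⟨s, hs, ⟨h'.1, (hl a s hs.le).2 h'.2⟩, (hi a s hs.le).2 fun _ => h3⟩
  | Wa c j =>
    obtain ⟨ql, hql, hl⟩ := H.lane j
    obtain ⟨qi, hqi, hi⟩ := H.emp c
    refine ⟨fun p => ∃ s < (P p.1).L, (H.va p.1 s = p.2 ∧ ql (p.1, s)) ∧ ¬ qi (p.1, s), ?_,
      fun a x => ?_⟩
    · exact ex_lt H (((pt_vaEq H).and (pt_q hql)).and (pt_q hqi).not)
    · constructor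
      · rintro ⟨s, hs, ⟨h1, h2⟩, h3⟩
        exact ⟨s, hs, (vis_iff H a hs.le x j).2 ⟨h1, (hl a s hs.le).1 h2⟩,
          fun h => h3 ((hi a s hs.le).2 fun _ => h)⟩
      · rintro ⟨s, hs, h, h3⟩
        have h' := (vis_iff H a hs.le x j).1 h
        exact ⟨s, hs, ⟨h'.1, (hl a s hs.le).2 h'.2⟩, fun h4 => h3 ((hi a s hs.le).1 h4 hs)⟩
  | Wc c l =>
    obtain ⟨qi, hqi, hi⟩ := H.wrt c l
    refine ⟨fun p => ∃ s < (P p.1).L, H.va p.1 s = p.2 ∧ qi (p.1, s), ?_, fun a x => ?_⟩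
    · exact ex_lt H ((pt_vaEq H).and (pt_q hqi))
    · constructor
      · rintro ⟨s, hs, h1, h3⟩
        refine ⟨s, hs, ?_, (hi a s hs.le).1 h3 hs⟩
        rw [← num_eq_iff (e := e) a, ← H.va_eq a s hs.le]
        exact h1
      · rintro ⟨s, hs, rfl, h3⟩
        exact ⟨s, hs, H.va_eq a s hs.le, (hi a s hs.le).2 fun _ => h3⟩
  | D0 j =>
    obtain ⟨ql, hql, hl⟩ := H.lane j
    refine ⟨fun p => H.va p.1 0 = p.2 ∧ ql (p.1, 0), ?_, fun a x => ?_⟩
    · exact (PTPred.natEq hva0 (by fun_prop)).and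
        (hql.comp (f := fun p : α × ℕ => (p.1, 0)) (by fun_prop))
    · change _ ↔ (P a).vis 0 = (x, j)
      exact (and_congr Iff.rfl (hl a 0 (Nat.zero_le _))).trans
        (vis_iff H a (Nat.zero_le _) x j).symm
  | DL j =>
    obtain ⟨ql, hql, hl⟩ := H.lane j
    refine ⟨fun p => H.va p.1 (P p.1).L = p.2 ∧ ql (p.1, (P p.1).L), ?_, fun a x => ?_⟩
    · exact (PTPred.natEq hvaL (by fun_prop)).and
        (hql.comp (f := fun p : α × ℕ => (p.1, (P p.1).L)) (by fun_prop))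
    · change _ ↔ (P a).vis (P a).L = (x, j)
      exact (and_congr Iff.rfl (hl a _ le_rfl)).trans (vis_iff H a le_rfl x j).symm
  | Full j =>
    obtain ⟨ql, hql, hl⟩ := H.lane j
    refine ⟨fun p => ∃ s < (P p.1).L, H.va p.1 s = p.2 ∧ ql (p.1, s), ?_, fun a x => ?_⟩
    · exact ex_lt H ((pt_vaEq H).and (pt_q hql))
    · constructor
      · rintro ⟨s, hs, h1, h2⟩
        exact ⟨s, hs, (vis_iff H a hs.le x j).2 ⟨h1, (hl a s hs.le).1 h2⟩⟩
      · rintro ⟨s, hs, h⟩
        have h' := (vis_iff H a hs.le x j).1 h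
        exact ⟨s, hs, h'.1, (hl a s hs.le).2 h'.2⟩

/-- the content of a public word as a polynomial-time table with values in `K` -/
theorem LayPT.pub (H : LayPT Γ N e P) {K : Type} [CommRing K] [PTCode K] (pb : Pb G Λ J) :
    ∃ T : α → ℕ → K, PTF (fun p : α × ℕ => T p.1 p.2) ∧
      ∀ a (x : Γ a), T a (e a x : ℕ) = pubC (P a) K pb x := by
  classical
  obtain ⟨q, hq, h⟩ := H.bit pb
  refine ⟨fun a n => if q (a, n) then 1 else 0, ?_, fun a x => ?_⟩
  · exact PTF.ite (p := fun p : α × ℕ => q (p.1, p.2))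
      (hq.comp (f := fun p : α × ℕ => (p.1, p.2)) (by fun_prop)) (PTF.const 1) (PTF.const 0)
  · rw [pubC_eq]
    simp only [h a x]

/-! ### from numbers -/

/-- operations as an option / sum type -/
def opSum : Op G Λ → Option (Bool ⊕ (G × Λ × G × Λ))
  | .inp => none
  | .cst b => some (Sum.inl b)
  | .nand g l g' l' => some (Sum.inr (g, l, g', l'))

theorem opSum_inj : Function.Injective (opSum (G := G) (Λ := Λ)) := by
  intro x y h
  cases x <;> cases y <;> simp_all [opSum]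

instance instFiniteOp [Finite G] [Finite Λ] : Finite (Op G Λ) := Finite.of_injective _ opSum_inj

/-- layouts whose visits, directions and instructions are given by numbers -/
theorem exists_layPT_of_num [Finite G] [Finite Λ] (eG : G → ℕ) (hG : Function.Injective eG)
    (eI : Option (Λ × Op G Λ) → ℕ) (hI : Function.Injective eI)
    (hL : PTU (fun a => (P a).L)) (hn : PTU (fun a => (P a).n))
    (va vl dg : α → ℕ → ℕ) (ic : Bool → α → ℕ → ℕ) (al : α → ℕ → ℕ)
    (hva : PTF (fun p : α × ℕ => va p.1 p.2)) (hvl : PTF (fun p : α × ℕ => vl p.1 p.2))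
    (hdg : PTF (fun p : α × ℕ => dg p.1 p.2)) (hic : ∀ c, PTF (fun p : α × ℕ => ic c p.1 p.2))
    (hal : PTF (fun p : α × ℕ => al p.1 p.2))
    (va_eq : ∀ a s, s ≤ (P a).L → va a s = (e a ((P a).vis s).1 : ℕ))
    (vl_eq : ∀ a s, s ≤ (P a).L → vl a s = (((P a).vis s).2 : ℕ))
    (dg_eq : ∀ a s, s < (P a).L → dg a s = eG ((P a).dir s))
    (ic_eq : ∀ c a s, s < (P a).L → ic c a s = eI ((P a).ins c s))
    (al_eq : ∀ a (i : Fin (P a).n), al a i = (e a ((P a).al i) : ℕ)) :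
    Nonempty (LayPT Γ N e P) := by
  have key : ∀ {f : α → ℕ → ℕ}, PTF (fun p : α × ℕ => f p.1 p.2) → ∀ m : ℕ,
      PTPred (fun p : α × ℕ => (p.2 < (P p.1).L → f p.1 p.2 = m)) := by
    intro f hf m
    refine (PTPred.natLt (by fun_prop) ?_).imp (PTPred.natEq hf (PTF.const m))
    exact (PTU.comp (n := fun a => (P a).L) hL (PTF.fst (α := α) (β := ℕ))).toPTF
  refine ⟨{ hL := hL, hn := hn, va := va, hva := hva, va_eq := va_eq, al := al, hal := hal,
            al_eq := al_eq, lane := fun j => ?_, dir := fun g => ?_, ins := fun c l k => ?_,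
            emp := fun c => ?_, wrt := fun c l => ?_ }⟩
  · refine ⟨fun p => vl p.1 p.2 = (j : ℕ), PTPred.natEq hvl (PTF.const _), fun a s hs => ?_⟩
    change vl a s = (j : ℕ) ↔ ((P a).vis s).2 = j
    rw [vl_eq a s hs, Fin.val_inj]
  · refine ⟨fun p => (p.2 < (P p.1).L → dg p.1 p.2 = eG g), key hdg _, fun a s hs => ?_⟩
    refine forall_congr' fun h => ?_
    change dg a s = eG g ↔ (P a).dir s = g
    rw [dg_eq a s h, hG.eq_iff]
  · refine ⟨fun p => (p.2 < (P p.1).L → ic c p.1 p.2 = eI (some (l, k))), key (hic c) _,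
      fun a s hs => ?_⟩
    refine forall_congr' fun h => ?_
    change ic c a s = _ ↔ (P a).ins c s = some (l, k)
    rw [ic_eq c a s h, hI.eq_iff]
  · refine ⟨fun p => (p.2 < (P p.1).L → ic c p.1 p.2 = eI none), key (hic c) _,
      fun a s hs => ?_⟩
    refine forall_congr' fun h => ?_
    change ic c a s = _ ↔ (P a).ins c s = none
    rw [ic_eq c a s h, hI.eq_iff]
  · classical
    obtain ⟨S, hS⟩ := (Set.toFinite {m : ℕ | ∃ k : Op G Λ, eI (some (l, k)) = m}).exists_finset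
    refine ⟨fun p => (p.2 < (P p.1).L → ic c p.1 p.2 ∈ S.toList), ?_, fun a s hs => ?_⟩
    · refine (PTPred.natLt (by fun_prop) ?_).imp (PTPred.mem (hic c) (PTF.const S.toList))
      exact (PTU.comp (n := fun a => (P a).L) hL (PTF.fst (α := α) (β := ℕ))).toPTF
    · refine forall_congr' fun h => ?_
      change ic c a s ∈ S.toList ↔ ∃ k, (P a).ins c s = some (l, k)
      rw [Finset.mem_toList, hS, ic_eq c a s h]
      constructor
      · rintro ⟨k, hk⟩
        exact ⟨k, (hI hk).symm⟩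
      · rintro ⟨k, hk⟩
        exact ⟨k, by rw [hk]⟩

end fam

end Crest.Agent.R289.PubC965
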