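import Crest.Agent.R289.PathObj_992
import Crest.Agent.R289.TOInst_112
import Crest.Agent.R289.ObjPub_683
import Crest.Agent.R289.ObjApi_12

/-!
# Row 289, E25_MirTab (T-side inputs): number tables of `one`, `D t`, `E1 a`, `E2 a` on `T = P k`

`O = TOInst112.tO h k`, `P = PathObj992.walkO h hlam k L hL`.  Symbols `s : Sy D`.

* `word_sym` : the symbols of `O.word c` from a number table of the content `c`;
* `oneN, DN, E1N, E2N` : number functions; `one_eq, D_eq, E1_eq, E2_eq` : they are the tables of the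
  words of `TSide492`; `ptf_oneN, ptf_DN, ptf_E1N, ptf_E2N` : polynomial time (`k`, `Q ^ k`, `L`
  unary; the time of `D` is any number, clamped by `L`);
* slots of the moves `h1 j`, `h2 j` (left multiplication by `g1 j`, `g2 j`) and of `(gam r)⁻¹`:
  `h1N, h2N, gamN`.
-/

set_option autoImplicit false
set_option linter.unusedVariables false
set_option linter.unusedSectionVars false

namespace Crest.Agent.R289.TTab569

open Crest.Agent.Lib.PT Crest.Agent.R289.Asm12 Crest.Agent.R289.TSide492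
open Crest.Agent.R289.TOInst112 Crest.Agent.R289.PathT992 Crest.Agent.R289.PathObj992
open Crest.Agent.R289.ObjPub683 Crest.Agent.R289.Ham613

/-- index type of the steps -/
abbrev J1 (D : Obj) : Type := Fin ((dT D + 1) ^ 3)

/-- index type of the double steps -/
abbrev J2 (D : Obj) : Type := J1 D × J1 D

section num
variable (D : Obj)

/-- table of the word with content `1` -/
noncomputable def oneN (k : ℕ) (s : Sy D) (v : ℕ) : D.K := sym D k (fun _ => 1) v s.1 s.2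

/-- table of `D i`, `i ≤ L` -/
noncomputable def DN (k L : ℕ) (s : Sy D) (i v : ℕ) : D.K :=
  sym D k (fun g => if cDN (D.Q ^ k) (dT D) (nbO D k) (min i L) g then 1 else 0) v s.1 s.2

/-- table of `E1 j` -/
noncomputable def E1N (k L : ℕ) (j : J1 D) (s : Sy D) (v : ℕ) : D.K :=
  sym D k (fun g => if cE1N (D.Q ^ k) (dT D) (nbO D k) L j g then 1 else 0) v s.1 s.2

/-- table of `E2 j` -/
noncomputable def E2N (k L : ℕ) (j : J2 D) (s : Sy D) (v : ℕ) : D.K :=
  sym D k (fun g => if cE2N (D.Q ^ k) (dT D) (nbO D k) L j.1 j.2 g then 1 else 0) v s.1 s.2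

/-- slot of `h1 j` -/
noncomputable def h1N (k : ℕ) (j : J1 D) (v : ℕ) : ℕ := nb3 (dT D) (nbO D k) v j

/-- slot of `h2 j` -/
noncomputable def h2N (k : ℕ) (j : J2 D) (v : ℕ) : ℕ := h1N D k j.2 (h1N D k j.1 v)

/-- slot of `(gam r)⁻¹` -/
noncomputable def gamN (k : ℕ) (r : ObjApi12.Rs D) (v : ℕ) : ℕ :=
  match r with
  | .inl (true, m) => D.mulN (Un.mk k, D.bN m (Un.mk k), v)
  | .inr (true, l) => D.mulN (Un.mk k, D.aN l (Un.mk k), v)
  | _ => v

end num

variable {D : Obj} {M0 : ℕ} {lam0 Kr : ℝ} (h : D.OK M0 lam0 Kr)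
include h

/-- **the symbols of a word from the number table of its content** -/
theorem word_sym {k : ℕ} {c : D.P k → D.K} {u : ℕ → D.K} (hu : ∀ g, c g = u (D.ix k g))
    (g : D.P k) (s : Sy D) :
    (tO h k).word c g s = sym D k u (D.ix k g) s.1 s.2 := by
  have h1 : (fun g l m => (tO h k).word c g (l, m)) ∈ D.C k 1 := (tO h k).word_mem c
  have h2 := sym_eq h k h1 (u := u) (fun g => ((tO h k).word_s0 c g).trans (hu g)) g s.1 s.2
  exact h2.symm

theorem one_eq (k : ℕ) (g : D.P k) (s : Sy D) :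
    Uw (tO h k) g s = oneN D k s (D.ix k g) :=
  word_sym h (c := fun _ => 1) (u := fun _ => 1) (fun _ => rfl) g s

section path
variable (hlam : lam0 ^ 2 ≤ 1 / 8) (k : ℕ) {L : ℕ} (hL : L + 1 ≤ D.Q ^ k)

theorem D_eq {i : ℕ} (hi : i ≤ L) (g : D.P k) (s : Sy D) :
    Dw (tO h k) (walkO h hlam k L hL) i (g, s) = DN D k L s i (D.ix k g) := by
  unfold DN
  rw [Nat.min_eq_left hi]
  exact word_sym h (fun g => cD_eq (gtO h hlam k) hL i g) g s

theorem E1_eq (j : J1 D) (g : D.P k) (s : Sy D) :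
    TSide492.E1 (tO h k) (walkO h hlam k L hL) j g s = E1N D k L j s (D.ix k g) :=
  word_sym h (fun g => cE1_eq (gtO h hlam k) hL j g) g s

theorem E2_eq (j : J2 D) (g : D.P k) (s : Sy D) :
    TSide492.E2 (tO h k) (walkO h hlam k L hL) j g s = E2N D k L j s (D.ix k g) :=
  word_sym h (fun g => cE2_eq (gtO h hlam k) hL j g) g s

theorem h1_eq (j : J1 D) (g : D.P k) :
    h1N D k j (D.ix k g) = D.ix k ((walkO h hlam k L hL).g1 j * g) :=
  nb3_eq (gtO h hlam k) g j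

theorem h2_eq (j : J2 D) (g : D.P k) :
    h2N D k j (D.ix k g) = D.ix k ((walkO h hlam k L hL).g2 j * g) := by
  unfold h2N
  rw [h1_eq h hlam k hL, h1_eq h hlam k hL, ← mul_assoc]
  rfl

end path

theorem gam_eq (k : ℕ) (r : ObjApi12.Rs D) (g : D.P k) :
    gamN D k r (D.ix k g) = D.ix k ((ObjApi12.gam D k r)⁻¹ * g) := by
  rcases r with ⟨j, m⟩ | ⟨i, l⟩
  · cases j
    · simp [gamN, ObjApi12.gam, TP846.TP.bj]
    · simp only [gamN, ObjApi12.gam, TP846.TP.bj, if_true, inv_inv]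
      rw [h.bN_eq, h.mul_eq]
  · cases i
    · simp [gamN, ObjApi12.gam, TP846.TP.ai]
    · simp only [gamN, ObjApi12.gam, TP846.TP.ai, if_true, inv_inv]
      rw [h.aN_eq, h.mul_eq]

/-! ### polynomial time -/

section ptf
variable {γ : Type} [PTCode γ] {k : γ → ℕ} (hk : PTU k) (hQ : PTU (fun c => D.Q ^ k c))
include hk hQ

theorem ptf_oneN (s : Sy D) {v : γ → ℕ} (hv : PTF v) : PTF (fun c => oneN D (k c) s (v c)) :=
  ptf_sym (u := fun (_ : γ) (_ : ℕ) => (1 : D.K)) h hk hQ (PTF.const 1) hv s.1 s.2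

theorem ptf_DN {L : γ → ℕ} (hL : PTU L) (s : Sy D) {i v : γ → ℕ} (hi : PTF i) (hv : PTF v) :
    PTF (fun c => DN D (k c) (L c) s (i c) (v c)) := by
  have hk' : PTU (fun p : γ × ℕ => k p.1) := PTU.comp hk PTF.fst
  have hQ' : PTU (fun p : γ × ℕ => D.Q ^ k p.1) :=
    PTU.comp (n := fun c => D.Q ^ k c) hQ PTF.fst
  have hm : PTU (fun p : γ × ℕ => min (i p.1) (L p.1)) :=
    PTF.natMinUn (PTF.comp (g := i) hi PTF.fst) (PTU.comp hL PTF.fst)
  refine ptf_sym (u := fun (c : γ) (g : ℕ) =>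
    if cDN (D.Q ^ k c) (dT D) (nbO D (k c)) (min (i c) (L c)) g then (1 : D.K) else 0)
    h hk hQ ?_ hv s.1 s.2
  exact (PTF.cond (ptf_cDO (k := fun p : γ × ℕ => k p.1) h hk' hQ' hm PTF.snd)
    (PTF.const (1 : D.K)) (PTF.const (0 : D.K))).of_eq fun p => Bool.cond_eq_ite _ _ _

theorem ptf_E1N {L : γ → ℕ} (hL : PTU L) (j : J1 D) (s : Sy D) {v : γ → ℕ} (hv : PTF v) :
    PTF (fun c => E1N D (k c) (L c) j s (v c)) := by
  have hk' : PTU (fun p : γ × ℕ => k p.1) := PTU.comp hk PTF.fst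
  have hQ' : PTU (fun p : γ × ℕ => D.Q ^ k p.1) :=
    PTU.comp (n := fun c => D.Q ^ k c) hQ PTF.fst
  refine ptf_sym (u := fun (c : γ) (g : ℕ) =>
    if cE1N (D.Q ^ k c) (dT D) (nbO D (k c)) (L c) j g then (1 : D.K) else 0)
    h hk hQ ?_ hv s.1 s.2
  exact (PTF.cond (ptf_cE1O (k := fun p : γ × ℕ => k p.1) h hk' hQ' (PTU.comp hL PTF.fst)
    (PTF.const (j : ℕ)) PTF.snd) (PTF.const (1 : D.K)) (PTF.const (0 : D.K))).of_eq
    fun p => Bool.cond_eq_ite _ _ _

theorem ptf_E2N {L : γ → ℕ} (hL : PTU L) (j : J2 D) (s : Sy D) {v : γ → ℕ} (hv : PTF v) :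
    PTF (fun c => E2N D (k c) (L c) j s (v c)) := by
  have hk' : PTU (fun p : γ × ℕ => k p.1) := PTU.comp hk PTF.fst
  have hQ' : PTU (fun p : γ × ℕ => D.Q ^ k p.1) :=
    PTU.comp (n := fun c => D.Q ^ k c) hQ PTF.fst
  refine ptf_sym (u := fun (c : γ) (g : ℕ) =>
    if cE2N (D.Q ^ k c) (dT D) (nbO D (k c)) (L c) j.1 j.2 g then (1 : D.K) else 0)
    h hk hQ ?_ hv s.1 s.2
  exact (PTF.cond (ptf_cE2O (k := fun p : γ × ℕ => k p.1) h hk' hQ' (PTU.comp hL PTF.fst)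
    (PTF.const (j.1 : ℕ)) (PTF.const (j.2 : ℕ)) PTF.snd) (PTF.const (1 : D.K))
    (PTF.const (0 : D.K))).of_eq fun p => Bool.cond_eq_ite _ _ _

theorem ptf_h1N (j : J1 D) {v : γ → ℕ} (hv : PTF v) : PTF (fun c => h1N D (k c) j (v c)) := by
  have h1 := ptf_nb3 (d := dT D) (nb := fun c => nbO D (k c)) (ptf_nbO h hk hQ)
  exact PTF.comp (g := fun p : γ × ℕ × ℕ => nb3 (dT D) (nbO D (k p.1)) p.2.1 p.2.2)
    (f := fun c => (c, v c, (j : ℕ))) h1 (by fun_prop)

theorem ptf_h2N (j : J2 D) {v : γ → ℕ} (hv : PTF v) : PTF (fun c => h2N D (k c) j (v c)) :=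
  ptf_h1N h hk hQ j.2 (ptf_h1N h hk hQ j.1 hv)

theorem ptf_gamN (r : ObjApi12.Rs D) {v : γ → ℕ} (hv : PTF v) :
    PTF (fun c => gamN D (k c) r (v c)) := by
  rcases r with ⟨j, m⟩ | ⟨i, l⟩
  · cases j
    · exact hv
    · exact h.ptf_mul k _ v hk hQ (h.ptf_b m k hk hQ) hv
  · cases i
    · exact hv
    · exact h.ptf_mul k _ v hk hQ (h.ptf_a l k hk hQ) hv

end ptf

end Crest.Agent.R289.TTab569
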