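import Crest.Agent.R289.InsLem_576
import Crest.Agent.R289.PubBits_92
import Crest.Agent.R289.MirTab2_407
import Crest.Agent.R289.TTab_569
import Crest.Agent.R289.ObjPubG_117
import Crest.Agent.R289.PubC_965
import Crest.Agent.R289.UMap_965

/-!
# R289, leaf E30: all scalar tables of the instance of `InsObj_576`

`insF h hlam kP kR kT L hL lay i` : the family of instances of the levels `kP, kR, kT : α → ℕ` and
lengths `L : α → ℕ` at `raw i : α`, with layouts `lay i`; units of the content group are numbered by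
`eP (D.ix kP) (D.ix kR)`, units of `T` by `D.ix kT`.

* `insTab` : `PubBits92.InsTab` of `insF`, from the tables of the contents `DefC.pubC (lay i)`.
* `insTab_lay` : the same from `PubC965.LayPT`.
-/

set_option autoImplicit false
set_option linter.dupNamespace false
set_option linter.unusedSectionVars false

namespace Crest.Agent.R289.InsTab117

open Crest.Agent.Lib.PT Crest.Agent.Lib.PT.Arith Crest.Agent.R289.Asm12 Crest.Agent.R289.DefC
open Crest.Agent.R289.DefI Crest.Agent.R289.BootC515 Crest.Agent.R289.YIdx901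
open Crest.Agent.R289.InsObj576 Crest.Agent.R289.PubBits92 Crest.Agent.R289.FamComb715
open Crest.Agent.R289.PathObj992 Crest.Agent.R289.UMap965
open Crest.Agent.R289.TOInst112 (Sy s0 tO)

/-! ### moves -/

section moves

variable {D : Obj} {M0 : ℕ} {lam0 Kr : ℝ} (h : D.OK M0 lam0 Kr)
variable {ι α : Type} [PTCode α] {raw : ι → α} {k kP kR kT L : α → ℕ}

include h in
theorem el_lv (hk : PTU k) (hQ : PTU fun a => D.Q ^ k a) (x : Ltr D) :
    PEl raw (eO D raw k) (fun i => lv D (k (raw i)) x) := by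
  rcases x with ⟨_ | _, _ | _, z⟩
  · exact PEl.aO h hk hQ z
  · exact PEl.invO h hk hQ (PEl.aO h hk hQ z)
  · exact PEl.bO h hk hQ z
  · exact PEl.invO h hk hQ (PEl.bO h hk hQ z)

include h in
theorem el_ov (hk : PTU k) (hQ : PTU fun a => D.Q ^ k a) (o : Option (Ltr D)) :
    PEl raw (eO D raw k) (fun i => ov D (k (raw i)) o) := by
  cases o with
  | none => exact PEl.oneO h hk hQ
  | some x => exact el_lv h hk hQ x

include h in
theorem el_wv3 (hk : PTU k) (hQ : PTU fun a => D.Q ^ k a) (w : W3 D) :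
    PEl raw (eO D raw k) (fun i => wv3 D (k (raw i)) w) :=
  PEl.mulO h hk hQ (PEl.mulO h hk hQ (el_ov h hk hQ _) (el_ov h hk hQ _)) (el_ov h hk hQ _)

include h in
/-- left multiplication by elements with tables, on the content group -/
theorem pmap_left₂ (hkP : PTU kP) (hQP : PTU fun a => D.Q ^ kP a) (hkR : PTU kR)
    (hQR : PTU fun a => D.Q ^ kR a) {u : ∀ i, D.P (kP (raw i))} {v : ∀ i, D.P (kR (raw i))}
    (hu : PEl raw (eO D raw kP) u) (hv : PEl raw (eO D raw kR) v) :
    PMap raw (eP' (eO D raw kP) (eO D raw kR)) (eP' (eO D raw kP) (eO D raw kR))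
      (fun i x => (u i * x.1, v i * x.2)) :=
  PMap.map (PSz.of hQR.toPTF) (PSz.of hQR.toPTF) (PMap.leftO h hkP hQP hu)
    (PMap.leftO h hkR hQR hv)

end moves

/-! ### the family of instances -/

section fam

variable {D : Obj} {M0 : ℕ} {lam0 Kr : ℝ} (h : D.OK M0 lam0 Kr) (hlam : lam0 ^ 2 ≤ 1 / 8)
variable {ι α : Type} [PTCode α] {raw : ι → α} {kP kR kT L : α → ℕ}
  (hL : ∀ a, L a + 1 ≤ D.Q ^ kT a)
  (lay : ∀ i, Layout (D.P (kP (raw i)) × D.P (kR (raw i))) (G D) (Fin 28) 128)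

/-- **the family of instances** -/
@[reducible] noncomputable def insF (i : ι) : Ins (cst h ((dT D + 1) ^ 3)) :=
  ins h ((dT D + 1) ^ 3) (kP (raw i)) (kR (raw i)) (kT (raw i))
    (walkO h hlam (kT (raw i)) (L (raw i)) (hL (raw i))) (lay i)

variable (D raw kP kR kT) in
/-- numbering of the content group -/
def eGi (i : ι) : D.P (kP (raw i)) × D.P (kR (raw i)) ≃
    Fin (D.Q ^ kP (raw i) * D.Q ^ kR (raw i)) :=
  eP (D.ix (kP (raw i))) (D.ix (kR (raw i)))

variable (D raw kT) in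
/-- numbering of `T` -/
def eTi (i : ι) : D.P (kT (raw i)) ≃ Fin (D.Q ^ kT (raw i)) := D.ix (kT (raw i))

variable (D kP kR) in
/-- size of the content group -/
def nGa (a : α) : ℕ := D.Q ^ kP a * D.Q ^ kR a

variable (D kT) in
/-- size of `T` -/
def nTa (a : α) : ℕ := D.Q ^ kT a

section P

variable (hkP : PTU kP) (hQP : PTU fun a => D.Q ^ kP a) (hkR : PTU kR)
  (hQR : PTU fun a => D.Q ^ kR a)
include hkP hQP hkR hQR

include h in
theorem mp_act (g : G D) : Mp raw (n := nGa D kP kR) (m := nGa D kP kR) (eGi D raw kP kR)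
    (eGi D raw kP kR) (fun i x => act D (kP (raw i)) (kR (raw i)) g x) :=
  (pmap_left₂ (raw := raw) h hkP hQP hkR hQR (el_wv3 h hkP hQP g.1) (el_wv3 h hkR hQR g.2))

include h in
theorem mp_acti (g : G D) : Mp raw (n := nGa D kP kR) (m := nGa D kP kR) (eGi D raw kP kR)
    (eGi D raw kP kR) (fun i x => (act D (kP (raw i)) (kR (raw i)) g).symm x) :=
  (pmap_left₂ (raw := raw) h hkP hQP hkR hQR (PEl.invO h hkP hQP (el_wv3 h hkP hQP g.1))
    (PEl.invO h hkR hQR (el_wv3 h hkR hQR g.2)))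

include h in
theorem mp_mv (j : Option D.K × Option D.K) :
    Mp raw (n := nGa D kP kR) (m := nGa D kP kR) (eGi D raw kP kR) (eGi D raw kP kR)
      (fun i x => Equiv.mulLeft (ga D (kP (raw i)) (kR (raw i)) j)⁻¹ x) :=
  (pmap_left₂ (raw := raw) h hkP hQP hkR hQR (PEl.invO h hkP hQP (PEl.aO h hkP hQP j.1))
    (PEl.invO h hkR hQR (PEl.aO h hkR hQR j.2)))

/-- tables of the public words of the content group -/
theorem tab_pubW
    (hc : ∀ b, Tab raw (n := nGa D kP kR) (eGi D raw kP kR) (fun i x => pubC (lay i) D.K b x))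
    (b : Pb (G D) (Fin 28) 128) (s : SG D) :
    Tab raw (n := nGa D kP kR) (eGi D raw kP kR)
      (fun i x => pubW h (kP (raw i)) (kR (raw i)) (lay i) b (x, s)) := by
  obtain ⟨T, hT, hTs⟩ := hc b
  exact ObjPubG117.tabG h hkP hQP hkR hQR
    (F := fun i g s => pubW h (kP (raw i)) (kR (raw i)) (lay i) b (g, s))
    (fun i => ⟨fun g' s' => (pubW_mem h (lay i) b).1 g' s',
      fun g s => (pubW_mem h (lay i) b).2 g s⟩)
    ⟨T, hT, fun i g => (hTs i g).trans (pubW_s0 h (lay i) b g).symm⟩ s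

/-- tables of the start registers -/
theorem tab_x0
    (hc : ∀ b, Tab raw (n := nGa D kP kR) (eGi D raw kP kR) (fun i x => pubC (lay i) D.K b x))
    (r : Rg (Fin 28) 128) (s : SG D) :
    Tab raw (n := nGa D kP kR) (eGi D raw kP kR)
      (fun i x => (insF h hlam hL lay i).x0 r (x, s)) := by
  cases r with
  | D j => exact tab_pubW h lay hkP hQP hkR hQR hc _ s
  | X => exact Tab.const 0
  | Y => exact Tab.const 0
  | F c l => exact Tab.const 0
  | M j => exact Tab.const 0

end P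

section T

variable (hkT : PTU kT) (hQT : PTU fun a => D.Q ^ kT a) (huL : PTU L)

include h hlam in
/-- content of `D i` for every `i` -/
theorem cDN_min {k : ℕ} (i v : ℕ) :
    PathT992.cDN (D.Q ^ k) (dT D) (nbO D k) (min i (D.Q ^ k)) v
      = PathT992.cDN (D.Q ^ k) (dT D) (nbO D k) i v := by
  unfold PathT992.cDN
  rcases le_total i (D.Q ^ k) with hi | hi
  · rw [min_eq_left hi]
  · rw [min_eq_right hi]
    have hlen : (Ham613.ham (D.Q ^ k) (dT D) (nbO D k)).length = D.Q ^ k :=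
      (PathT992.ham_all (gtO h hlam k) (Qk_pos h k)).1
    have e1 : PathT992.ttN (D.Q ^ k) (dT D) (nbO D k) (D.Q ^ k) = 0 := by
      unfold PathT992.ttN
      rw [List.getD_eq_default _ _ hlen.le]
    have e2 : PathT992.ttN (D.Q ^ k) (dT D) (nbO D k) i = 0 := by
      unfold PathT992.ttN
      rw [List.getD_eq_default _ _ (hlen.le.trans hi)]
    rw [e1, e2]

/-- symbols of `D i` for every `i` -/
theorem D_eq {k : ℕ} {L : ℕ} (hL : L + 1 ≤ D.Q ^ k) (i : ℕ) (g : D.P k) (s : Sy D) :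
    TSide492.Dw (tO h k) (walkO h hlam k L hL) i (g, s)
      = TTab569.DN D k (D.Q ^ k) s i (D.ix k g) := by
  unfold TTab569.DN
  refine TTab569.word_sym h (fun g => ?_) g s
  rw [cDN_min h hlam]
  exact PathT992.cD_eq (gtO h hlam k) hL i g

include hkT hQT

theorem tab_one (s : Sy D) : Tab raw (n := nTa D kT) (eTi D raw kT)
    (fun i x => (insF h hlam hL lay i).one (x, s)) :=
  ⟨fun a v => TTab569.oneN D (kT a) s v,
    TTab569.ptf_oneN (γ := α × ℕ) (k := fun p => kT p.1) h (PTU.comp (n := kT) hkT PTF.fst)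
      (PTU.comp (n := fun a => D.Q ^ kT a) hQT PTF.fst) s PTF.snd,
    fun i x => (TTab569.one_eq h (kT (raw i)) x s).symm⟩

include h in
theorem mp_h1 (j : Fin ((dT D + 1) ^ 3)) : Mp raw (n := nTa D kT) (m := nTa D kT)
    (eTi D raw kT) (eTi D raw kT) (fun i x => (insF h hlam hL lay i).h1 j * x) :=
  ⟨fun a v => TTab569.h1N D (kT a) j v,
    TTab569.ptf_h1N (γ := α × ℕ) (k := fun p => kT p.1) h (PTU.comp (n := kT) hkT PTF.fst)
      (PTU.comp (n := fun a => D.Q ^ kT a) hQT PTF.fst) j PTF.snd,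
    fun i x => TTab569.h1_eq h hlam (kT (raw i)) (hL (raw i)) j x⟩

include h in
theorem mp_h2 (j : Fin ((dT D + 1) ^ 3) × Fin ((dT D + 1) ^ 3)) :
    Mp raw (n := nTa D kT) (m := nTa D kT)
      (eTi D raw kT) (eTi D raw kT) (fun i x => (insF h hlam hL lay i).h2 j * x) :=
  ⟨fun a v => TTab569.h2N D (kT a) j v,
    TTab569.ptf_h2N (γ := α × ℕ) (k := fun p => kT p.1) h (PTU.comp (n := kT) hkT PTF.fst)
      (PTU.comp (n := fun a => D.Q ^ kT a) hQT PTF.fst) j PTF.snd,
    fun i x => TTab569.h2_eq h hlam (kT (raw i)) (hL (raw i)) j x⟩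

include h in
theorem mp_gam (j : ObjApi12.Rs D) : Mp raw (n := nTa D kT) (m := nTa D kT)
    (eTi D raw kT) (eTi D raw kT) (fun i x => ((insF h hlam hL lay i).gam j)⁻¹ * x) :=
  ⟨fun a v => TTab569.gamN D (kT a) j v,
    TTab569.ptf_gamN (γ := α × ℕ) (k := fun p => kT p.1) h (PTU.comp (n := kT) hkT PTF.fst)
      (PTU.comp (n := fun a => D.Q ^ kT a) hQT PTF.fst) j PTF.snd,
    fun i x => TTab569.gam_eq h (kT (raw i)) j x⟩

theorem tab_D (s : Sy D) : MirTab407.TabT raw (n := nTa D kT) (eTi D raw kT)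
    (fun i k x => (insF h hlam hL lay i).D k (x, s)) :=
  ⟨fun a k v => TTab569.DN D (kT a) (D.Q ^ kT a) s k v,
    TTab569.ptf_DN (γ := α × ℕ × ℕ) (k := fun p => kT p.1) (L := fun p => D.Q ^ kT p.1) h
      (PTU.comp (n := kT) hkT PTF.fst) (PTU.comp (n := fun a => D.Q ^ kT a) hQT PTF.fst)
      (PTU.comp (n := fun a => D.Q ^ kT a) hQT PTF.fst) s (PTF.comp PTF.fst PTF.snd)
      (PTF.comp PTF.snd PTF.snd),
    fun i k x => (D_eq h hlam (hL (raw i)) k x s).symm⟩

include huL

theorem tab_E1 (j : Fin ((dT D + 1) ^ 3)) (s : Sy D) : Tab raw (n := nTa D kT) (eTi D raw kT)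
    (fun i x => (insF h hlam hL lay i).E1 j (x, s)) :=
  ⟨fun a v => TTab569.E1N D (kT a) (L a) j s v,
    TTab569.ptf_E1N (γ := α × ℕ) (k := fun p => kT p.1) (L := fun p => L p.1) h
      (PTU.comp (n := kT) hkT PTF.fst)
      (PTU.comp (n := fun a => D.Q ^ kT a) hQT PTF.fst) (PTU.comp (n := L) huL PTF.fst) j s
      PTF.snd,
    fun i x => (TTab569.E1_eq h hlam (kT (raw i)) (hL (raw i)) j x s).symm⟩

theorem tab_E2 (j : Fin ((dT D + 1) ^ 3) × Fin ((dT D + 1) ^ 3)) (s : Sy D) :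
    Tab raw (n := nTa D kT) (eTi D raw kT) (fun i x => (insF h hlam hL lay i).E2 j (x, s)) :=
  ⟨fun a v => TTab569.E2N D (kT a) (L a) j s v,
    TTab569.ptf_E2N (γ := α × ℕ) (k := fun p => kT p.1) (L := fun p => L p.1) h
      (PTU.comp (n := kT) hkT PTF.fst)
      (PTU.comp (n := fun a => D.Q ^ kT a) hQT PTF.fst) (PTU.comp (n := L) huL PTF.fst) j s
      PTF.snd,
    fun i x => (TTab569.E2_eq h hlam (kT (raw i)) (hL (raw i)) j x s).symm⟩

/-! mirror tables -/

omit hkT hQT huL [PTCode α] in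
theorem uniq_gam (i : ι) (V : (cst h ((dT D + 1) ^ 3)).C → (insF h hlam hL lay i).T → D.K)
    (hV : Mirror545.MirRel (s0 D) (cst h ((dT D + 1) ^ 3)).bet (insF h hlam hL lay i).gam
      (fun _ => (0 : D.K)) V) : ∀ s g, V s g = 0 := by
  have h1 := ((md h (kT (raw i))).rel_iff (M := D.K) (fun _ => 0) V).1 hV
  rw [(md h (kT (raw i))).mir_zero] at h1
  intro s g
  exact congrFun (congrFun h1 s) g

omit hkT hQT huL [PTCode α] in
theorem mirA0 (i : ι) : (insF h hlam hL lay i).MirK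
    (-((insF h hlam hL lay i).mN1.mulVec ((insF h hlam hL lay i).D 0))) (insF h hlam hL lay i).A0 := by
  refine (ins_MirK_iff h _ (lay i)).2 ?_
  rw [← TSide492.mulVec_eq_act, Matrix.mulVec_neg]
  rfl

omit hkT hQT huL [PTCode α] in
theorem mirB0 (i : ι) : (insF h hlam hL lay i).MirK
    (-((insF h hlam hL lay i).mN2.mulVec ((insF h hlam hL lay i).D 0))) (insF h hlam hL lay i).B0 := by
  refine (ins_MirK_iff h _ (lay i)).2 ?_
  rw [← TSide492.mulVec_eq_act, Matrix.mulVec_neg]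
  rfl

theorem mir_tables :
    (∀ s s', MirTab407.TabT raw (n := nTa D kT) (eTi D raw kT)
      (fun i k τ => (insF h hlam hL lay i).A k s (τ, s'))) ∧
    (∀ s s', MirTab407.TabT raw (n := nTa D kT) (eTi D raw kT)
      (fun i k τ => (insF h hlam hL lay i).B k s (τ, s'))) ∧
    (∀ s s', MirTab407.Tab raw (n := nTa D kT) (eTi D raw kT)
      (fun i τ => (insF h hlam hL lay i).A0 s (τ, s'))) ∧
    ∀ s s', MirTab407.Tab raw (n := nTa D kT) (eTi D raw kT)
      (fun i τ => (insF h hlam hL lay i).B0 s (τ, s')) := by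
  refine MirTab407.tside_tables (I := fun i => insF h hlam hL lay i) (n := nTa D kT)
    (eT := eTi D raw kT) hQT
    (fun s => tab_one h hlam hL lay hkT hQT s)
    (fun j s => tab_E1 h hlam hL lay hkT hQT huL j s)
    (fun j s => tab_E2 h hlam hL lay hkT hQT huL j s)
    (fun s => tab_D h hlam hL lay hkT hQT s)
    (fun j => mp_h1 h hlam hL lay hkT hQT j)
    (fun j => mp_h2 h hlam hL lay hkT hQT j)
    (fun j => mp_gam h hlam hL lay hkT hQT j)
    (fun i V hV => uniq_gam h hlam hL lay i V hV) ?_ ?_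
    (fun i => mirA0 h hlam hL lay i) (fun i => mirB0 h hlam hL lay i)
  · intro i k
    rw [ins_mU]
    exact ins_A h _ (lay i) k
  · intro i k
    rw [ins_mU]
    exact ins_B h _ (lay i) k

end T

section all

variable (hkP : PTU kP) (hQP : PTU fun a => D.Q ^ kP a) (hkR : PTU kR)
  (hQR : PTU fun a => D.Q ^ kR a) (hkT : PTU kT) (hQT : PTU fun a => D.Q ^ kT a) (huL : PTU L)
include hkP hQP hkR hQR hkT hQT huL

omit hkP hQP hkR hQR hkT hQT huL in
theorem tabT_of {T : ι → ℕ} {β : Type} [PTCode β] {f : ∀ i, ℕ → D.P (kT (raw i)) → β}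
    (hf : MirTab407.TabT raw (n := nTa D kT) (eTi D raw kT) f) :
    TabT raw (n := nTa D kT) (eTi D raw kT) T f := by
  obtain ⟨t, ht, hs⟩ := hf
  exact ⟨t, ht, fun i k _ u => hs i k u⟩

/-- **all scalar tables of the family of instances** -/
theorem insTab
    (hc : ∀ b, Tab raw (n := nGa D kP kR) (eGi D raw kP kR) (fun i x => pubC (lay i) D.K b x)) :
    InsTab raw (fun i => insF h hlam hL lay i) (nGa D kP kR) (nTa D kT) (eGi D raw kP kR)
      (eTi D raw kT) where
  nG := PTF.natMul hQP.toPTF hQR.toPTF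
  nT := hQT.toPTF
  L := ⟨L, huL.toPTF, fun _ => rfl⟩
  act g := mp_act h hkP hQP hkR hQR g
  acti g := mp_acti h hkP hQP hkR hQR g
  mv j := mp_mv h hkP hQP hkR hQR j
  h1 j := mp_h1 h hlam hL lay hkT hQT j
  h2 j := mp_h2 h hlam hL lay hkT hQT j
  gam j := mp_gam h hlam hL lay hkT hQT j
  pubP b s := tab_pubW h lay hkP hQP hkR hQR hc b s
  x0 r s := tab_x0 h hlam hL lay hkP hQP hkR hQR hc r s
  one s := tab_one h hlam hL lay hkT hQT s
  E1 j s := tab_E1 h hlam hL lay hkT hQT huL j s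
  E2 j s := tab_E2 h hlam hL lay hkT hQT huL j s
  D s := tabT_of (tab_D h hlam hL lay hkT hQT s)
  A q s := tabT_of ((mir_tables h hlam hL lay hkT hQT huL).1 q s)
  B q s := tabT_of ((mir_tables h hlam hL lay hkT hQT huL).2.1 q s)
  A0 q s := (mir_tables h hlam hL lay hkT hQT huL).2.2.1 q s
  B0 q s := (mir_tables h hlam hL lay hkT hQT huL).2.2.2 q s

/-- **the same from the tables of the layouts** (`PubC965.LayPT`) -/
theorem insTab_lay {P : ∀ a, Layout (D.P (kP a) × D.P (kR a)) (G D) (Fin 28) 128}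
    (H : PubC965.LayPT (fun a => D.P (kP a) × D.P (kR a)) (nGa D kP kR)
      (fun a => eP (D.ix (kP a)) (D.ix (kR a))) P) :
    InsTab raw (fun i => insF h hlam hL (fun i => P (raw i)) i) (nGa D kP kR) (nTa D kT)
      (eGi D raw kP kR) (eTi D raw kT) :=
  insTab h hlam hL (fun i => P (raw i)) hkP hQP hkR hQR hkT hQT huL fun b => by
    obtain ⟨T, hT, hTs⟩ := H.pub (K := D.K) b
    exact ⟨T, hT, fun i x => hTs (raw i) x⟩

end all

end fam

end Crest.Agent.R289.InsTab117
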