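import Crest.Agent.R289.Window_954
import Crest.Agent.R289.Route_649
import Crest.Agent.R289.GlueD2_194

/-!
# Row 289, block C: the level functions of the machine (helper782)

`Lv Q c c0 n0 x C kP kR kT L` : level functions `kP kR kT : EI → ℕ` of the three factors
`P`, `T_r`, `T` (orders `Q ^ k`) and number of layers `L`, with ALL size windows at once:
cells, routing colours (`Route649`), clock window, slots of the layers, quasi-linear size.
`levels` : they exist for all constants.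
-/

set_option autoImplicit false

namespace Crest.Agent.R289.LevObj782

open Crest.PPADPCP Crest.Agent.Lib.PT Crest.Agent.R289 Crest.Agent.R289.Size954
open Crest.Agent.R289.Window954 Crest.Agent.R289.GlueD194

/-- number of colours that the routing needs at level `k` -/
def colQ (Q k : ℕ) : ℕ := Route649.ncol (2 * (Nat.clog 2 (Q ^ k) + 1)) (Q ^ k)

/-- level functions with all windows -/
structure Lv (Q c c0 n0 x C : ℕ) (kP kR kT L : EI → ℕ) : Prop where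
  uP : PTU kP
  uR : PTU kR
  uT : PTU kT
  uL : PTU L
  uQP : PTU fun a => Q ^ kP a
  uQR : PTU fun a => Q ^ kR a
  uQT : PTU fun a => Q ^ kT a
  /-- cells -/
  cells : ∀ a, c * ((eN a).length + 1) ≤ Q ^ kP a
  /-- large machines -/
  big : ∀ a, n0 ≤ Q ^ kP a
  bigk : ∀ a, n0 ≤ kP a
  /-- window between `P` and `T_r` -/
  win : ∀ a, C * (Q ^ kR a) ^ 3 ≤ Q ^ kP a
  /-- routing colours -/
  col : ∀ a, colQ Q (kP a) + x ≤ Q ^ kR a
  /-- number of layers -/
  L_eq : ∀ a, L a = LB (3 ^ 5) c0 (Q ^ (kP a + kR a))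
  /-- slots of the layers -/
  slots : ∀ a, L a + x ≤ Q ^ kT a
  /-- quasi-linear size -/
  size : ∃ A b, ∀ I : EOL, Q ^ (kP (raw I) + kR (raw I) + kT (raw I)) ≤
    A * I.encode.length * (Nat.clog 2 (I.encode.length + 2)) ^ b

/-! ### growth in the level -/

theorem clog_pow_le {Q : ℕ} (k : ℕ) : Nat.clog 2 (Q ^ k) ≤ Q * k := by
  refine (Nat.clog_le_iff_le_pow (by norm_num)).2 ?_
  rw [pow_mul]
  exact Nat.pow_le_pow_left (Nat.lt_two_pow_self).le k

theorem size_pow_le {Q : ℕ} (k : ℕ) : (Q ^ k + 1).size ≤ Q * k + 2 := by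
  rw [Nat.size_le]
  have h1 : Q ^ k ≤ 2 ^ (Q * k) := by
    rw [pow_mul]
    exact Nat.pow_le_pow_left (Nat.lt_two_pow_self).le k
  have h2 : 1 ≤ 2 ^ (Q * k) := Nat.one_le_two_pow
  calc Q ^ k + 1 ≤ 2 ^ (Q * k) + 2 ^ (Q * k) := by omega
    _ < 2 ^ (Q * k) * 2 ^ 2 := by omega
    _ = 2 ^ (Q * k + 2) := by rw [pow_add]

theorem colQ_le {Q : ℕ} (k : ℕ) :
    colQ Q k ≤ (4 * (2 * (Q + 2) + 3) ^ 2 + 1) * (Q + 2) * (k + 1) ^ 3 := by
  unfold colQ Route649.ncol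
  have h1 := clog_pow_le (Q := Q) k
  have h2 := size_pow_le (Q := Q) k
  have h3 : Q * k + 2 ≤ (Q + 2) * (k + 1) := by nlinarith
  have h4 : 2 * (Nat.clog 2 (Q ^ k) + 1) + 1 ≤ (2 * (Q + 2) + 3) * (k + 1) := by nlinarith
  calc (4 * (2 * (Nat.clog 2 (Q ^ k) + 1) + 1) ^ 2 + 1) * (Q ^ k + 1).size
      ≤ (4 * ((2 * (Q + 2) + 3) * (k + 1)) ^ 2 + 1) * ((Q + 2) * (k + 1)) := by
        refine Nat.mul_le_mul ?_ (h2.trans h3)
        have := Nat.pow_le_pow_left h4 2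
        omega
    _ ≤ ((4 * (2 * (Q + 2) + 3) ^ 2 + 1) * (k + 1) ^ 2) * ((Q + 2) * (k + 1)) := by
        refine Nat.mul_le_mul_right _ ?_
        have h5 : 1 ≤ (k + 1) ^ 2 := Nat.one_le_pow _ _ (by omega)
        nlinarith
    _ = (4 * (2 * (Q + 2) + 3) ^ 2 + 1) * (Q + 2) * (k + 1) ^ 3 := by ring

/-- a polynomial of the level is eventually below `Q ^ k` -/
theorem exists_level {Q : ℕ} (hQ : 2 ≤ Q) (A b : ℕ) : ∃ k0, ∀ k, k0 ≤ k →
    A * (k + 1) ^ b ≤ Q ^ k := by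
  have h1 : Filter.Tendsto (fun n : ℕ => (n : ℝ) ^ b / (2 : ℝ) ^ n) Filter.atTop (nhds 0) :=
    tendsto_pow_const_div_const_pow_of_one_lt b (by norm_num)
  have h2 : ∀ᶠ n : ℕ in Filter.atTop, (n : ℝ) ^ b / (2 : ℝ) ^ n < 1 / (2 * (A + 1)) :=
    h1.eventually (gt_mem_nhds (by positivity))
  obtain ⟨k0, hk⟩ := Filter.eventually_atTop.1 h2
  refine ⟨k0, fun k hk' => ?_⟩
  have h3 := hk (k + 1) (by omega)
  rw [div_lt_div_iff₀ (by positivity) (by positivity)] at h3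
  have h4 : ((A : ℝ)) * ((k + 1 : ℕ) : ℝ) ^ b ≤ (2 : ℝ) ^ k := by
    have h5 : (0 : ℝ) ≤ ((k + 1 : ℕ) : ℝ) ^ b := by positivity
    rw [pow_succ] at h3
    nlinarith
  have h6 : A * (k + 1) ^ b ≤ 2 ^ k := by exact_mod_cast h4
  exact h6.trans (Nat.pow_le_pow_left hQ k)

/-! ### the theorem -/

/-- level of the small factor at level `k` of the large one -/
def kRQ (Q x k : ℕ) : ℕ := Nat.clog Q (colQ Q k + (x + 1))

theorem pow_kRQ_le {Q : ℕ} (hQ : 2 ≤ Q) (x k : ℕ) :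
    Q ^ kRQ Q x k ≤
      (Q * ((4 * (2 * (Q + 2) + 3) ^ 2 + 1) * (Q + 2) + (x + 1))) * (k + 1) ^ 3 := by
  unfold kRQ
  refine (pow_clog_le hQ (by omega)).trans ?_
  have h1 := colQ_le (Q := Q) k
  have h2 : 1 ≤ (k + 1) ^ 3 := Nat.one_le_pow _ _ (by omega)
  calc Q * (colQ Q k + (x + 1))
      ≤ Q * ((4 * (2 * (Q + 2) + 3) ^ 2 + 1) * (Q + 2) * (k + 1) ^ 3 + (x + 1) * (k + 1) ^ 3) := by
        refine Nat.mul_le_mul_left _ (Nat.add_le_add h1 ?_)
        exact Nat.le_mul_of_pos_right _ h2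
    _ = _ := by ring

theorem one_le_natBits (n : ℕ) : 1 ≤ (natBits n).length := by
  unfold natBits
  simp

theorem one_le_eN (a : EI) : 1 ≤ (eN a).length := by
  unfold eN
  rw [List.flatMap_cons, List.length_append]
  exact (one_le_natBits a.1).trans (Nat.le_add_right _ _)

/-- **the levels**: all windows at once, for all constants -/
theorem levels {Q : ℕ} (hQ : 2 ≤ Q) (c c0 n0 x C : ℕ) :
    ∃ kP kR kT L : EI → ℕ, Lv Q c c0 n0 x C kP kR kT L := by
  -- constants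
  set A1 : ℕ := Q * ((4 * (2 * (Q + 2) + 3) ^ 2 + 1) * (Q + 2) + (x + 1)) with hA1
  obtain ⟨k0, hk0⟩ := exists_level hQ (C * A1 ^ 3) 9
  set c1 : ℕ := c + n0 + Q ^ (k0 + n0) + 1 with hc1
  set g : EI → ℕ := fun a => (eN a).length + 1 with hg
  have hg1 : ∀ a, 1 ≤ g a := fun a => by rw [hg]; exact Nat.le_add_left _ _
  have ug : PTU g := PTU.add (PTU.length ptf_eN) (PTU.const 1)
  set kP : EI → ℕ := fun a => lev Q c1 0 (g a) with hkP
  have hPle : ∀ a, c1 * g a ≤ Q ^ kP a := fun a => mul_le_pow_lev hQ c1 0 (g a)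
  have hPBL : BL (fun a => Q ^ kP a) g := BL_pow_lev hQ c1 0 (BL.refl g) hg1
  have uP : PTU kP := ptu_lev c1 0 hQ ug.toPTF
  have uQP : PTU fun a => Q ^ kP a := ptu_pow_lev c1 0 hQ ug
  have hkPL : PL kP g := PL_lev hQ c1 0 (BL.refl g)
  have hk0P : ∀ a, k0 + n0 ≤ kP a := by
    intro a
    have h1 : Q ^ (k0 + n0) ≤ Q ^ kP a := by
      refine le_trans ?_ (hPle a)
      have h2 : c1 ≤ c1 * g a := Nat.le_mul_of_pos_right _ (hg1 a)
      omega
    exact (Nat.pow_le_pow_iff_right (by omega)).1 h1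
  -- small factor
  set kR : EI → ℕ := fun a => kRQ Q x (kP a) with hkR
  have hRle : ∀ a, Q ^ kR a ≤ A1 * (kP a + 1) ^ 3 := fun a => pow_kRQ_le hQ x (kP a)
  have hRPL : PL (fun a => Q ^ kR a) g :=
    ((PL.const A1 g).mul ((hkPL.add (PL.const 1 g)).pow 3)).mono_left hRle
  have pcol : PTF fun a => colQ Q (kP a) := by
    have hP := uQP.toPTF
    have h1 : PTF fun a => Nat.clog 2 (Q ^ kP a) := ptf_clog (PTF.const 2) hP
    unfold colQ Route649.ncol
    fun_prop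
  have pR : PTF kR := ptf_clog (PTF.const Q) (PTF.natAdd pcol (PTF.const (x + 1)))
  have kR_le : ∀ a, kR a ≤ Q ^ kR a := fun a => (Nat.lt_pow_self (by omega)).le
  have uR : PTU kR := pR.toPTU ((hRPL.pb ug.pb).mono kR_le)
  have uQR : PTU fun a => Q ^ kR a := ptu_pow_of_pb Q uR (hRPL.pb ug.pb)
  -- layers
  set L : EI → ℕ := fun a => LB (3 ^ 5) c0 (Q ^ (kP a + kR a)) with hL
  have hGBL : BL (fun a => Q ^ (kP a + kR a)) g :=
    (hPBL.mul_PL hRPL).mono_left fun a => le_of_eq (pow_add _ _ _)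
  have pG : PTF fun a => Q ^ (kP a + kR a) :=
    PTF.natPow (PTF.const Q) (PTU.add uP uR)
  have uL : PTU L := ptu_LB (by norm_num) c0 pG
  have hLPL : PL L g := PL_LB (by norm_num) c0 hGBL
  set kT : EI → ℕ := fun a => Nat.clog Q (L a + (x + 1)) with hkT
  have hTle : ∀ a, Q ^ kT a ≤ Q * (L a + (x + 1)) := fun a => pow_clog_le hQ (by omega)
  have hTPL : PL (fun a => Q ^ kT a) g :=
    ((PL.const Q g).mul (hLPL.add (PL.const (x + 1) g))).mono_left hTle
  have pT : PTF kT := ptf_clog (PTF.const Q) (PTF.natAdd uL.toPTF (PTF.const (x + 1)))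
  have kT_le : ∀ a, kT a ≤ Q ^ kT a := fun a => (Nat.lt_pow_self (by omega)).le
  have uT : PTU kT := pT.toPTU ((hTPL.pb ug.pb).mono kT_le)
  have uQT : PTU fun a => Q ^ kT a := ptu_pow_of_pb Q uT (hTPL.pb ug.pb)
  refine ⟨kP, kR, kT, L, uP, uR, uT, uL, uQP, uQR, uQT, ?_, ?_, ?_, ?_, ?_, fun _ => rfl, ?_, ?_⟩
  · intro a
    refine le_trans (Nat.mul_le_mul_right _ ?_) (hPle a)
    omega
  · intro a
    refine le_trans ?_ (hPle a)
    have h2 : c1 ≤ c1 * g a := Nat.le_mul_of_pos_right _ (hg1 a)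
    omega
  · intro a
    have := hk0P a
    omega
  · intro a
    calc C * (Q ^ kR a) ^ 3 ≤ C * (A1 * (kP a + 1) ^ 3) ^ 3 :=
          Nat.mul_le_mul_left _ (Nat.pow_le_pow_left (hRle a) 3)
      _ = (C * A1 ^ 3) * (kP a + 1) ^ 9 := by ring
      _ ≤ Q ^ kP a := hk0 _ (by have := hk0P a; omega)
  · intro a
    have h := Nat.le_pow_clog (b := Q) (by omega) (colQ Q (kP a) + (x + 1))
    exact le_trans (by omega) h
  · intro a
    have h := Nat.le_pow_clog (b := Q) (by omega) (L a + (x + 1))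
    exact le_trans (by omega) h
  · have h1 : BL (fun a => Q ^ kP a * Q ^ kR a * Q ^ kT a) g := hPBL.mul_PL₂ hRPL hTPL
    have h2 : BL g (fun a => (eN a).length) :=
      ((BL.refl _).mul_const 2).mono_left fun a => by
        have := one_le_eN a
        show (eN a).length + 1 ≤ 2 * (eN a).length
        omega
    obtain ⟨A, b, h3⟩ := (h1.trans h2).elim
    refine ⟨A, b, fun I => ?_⟩
    have h4 := h3 (raw I)
    rw [eN_raw] at h4
    rwa [pow_add, pow_add]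

/-! ### consequences -/

section
variable {Q c c0 n0 x C : ℕ} {kP kR kT L : EI → ℕ} (h : Lv Q c c0 n0 x C kP kR kT L)

include h

/-- layers: `|Gam| < (3^5)^L` -/
theorem Lv.lt_pow (a : EI) : Q ^ (kP a + kR a) < (3 ^ 5) ^ L a := by
  rw [h.L_eq]
  exact lt_pow_LB (by norm_num) c0 _

/-- clock: the triples of clock positions fit into `|P| = 3 ^ m` -/
theorem Lv.clock (hQ : 2 ≤ Q) (hC : 3 ^ (3 * 5) * ((3 ^ 5) ^ (c0 + 1)) ^ 3 ≤ C) (a : EI) {m : ℕ}
    (hm : Q ^ kP a = 3 ^ m) : 3 * (L a + 1) ≤ m := by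
  have h1 := h.win a
  have h2 : 3 ^ (3 * 5) * ((3 ^ 5) ^ (c0 + 1)) ^ 3 * (Q ^ kR a) ^ 3 ≤ 3 ^ m := by
    rw [← hm]
    exact (Nat.mul_le_mul_right _ hC).trans h1
  have h3 := clock_exp_LB (p := 3) (r := 5) c0 (by norm_num) (by norm_num)
    (Nat.one_le_pow _ _ (by omega)) h2
  rw [h.L_eq, pow_add, hm]
  exact h3

theorem Lv.posP (hx : 1 ≤ n0) (a : EI) : 1 ≤ kP a := hx.trans (h.bigk a)

theorem Lv.posR (hx : 2 ≤ x) (a : EI) : 1 ≤ kR a := by
  by_contra h0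
  have h1 := h.col a
  have h2 : kR a = 0 := by omega
  rw [h2, pow_zero] at h1
  omega

theorem Lv.posT (hx : 2 ≤ x) (a : EI) : 1 ≤ kT a := by
  by_contra h0
  have h1 := h.slots a
  have h2 : kT a = 0 := by omega
  rw [h2, pow_zero] at h1
  omega

/-- total number of units in unary -/
theorem Lv.uN : PTU fun a => Q ^ (kP a + kR a + kT a) :=
  (PTU.mul (PTU.mul h.uQP h.uQR) h.uQT).of_eq fun a => by rw [pow_add, pow_add]

end

end Crest.Agent.R289.LevObj782
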