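import Crest.Agent.R289.MemB_12
import Crest.Agent.R289.LevObj_782
import Crest.Agent.R289.ClockObj_698
import Crest.Agent.R289.InsTabObj_117

/-!
# Row 289: the family of members over the well formed instances (helper12)

`Fd h` : levels, number of layers, layouts and their content tables, for all instances;
`Fd.mem F i : Mem h ((dT D + 1) ^ 3) 0` : the member for the well formed instance `i`;
`Fd.eU` : numbering of its units.
-/

set_option autoImplicit false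

namespace Crest.Agent.R289.MemF12

open Crest.PPADPCP Crest.Agent.Lib.PT Crest.Agent.R289 Crest.Agent.R289.Asm12
  Crest.Agent.R289.DefC Crest.Agent.R289.DefI Crest.Agent.R289.InsObj576
  Crest.Agent.R289.FamComb715 Crest.Agent.R289.PubBits92 Crest.Agent.R289.YIdx901
  Crest.Agent.R289.PathObj992 Crest.Agent.R289.InsTab117 Crest.Agent.R289.LevObj782
  Crest.Agent.R289.Window954 Crest.Agent.R289.GlueD194 Crest.Agent.R289.Mem12

/-- well formed instances -/
abbrev WI : Type := {I : EOL // I.WF}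

/-- code of a well formed instance -/
def rI (i : WI) : EI := raw i.1

/-- data of the family of members -/
structure Fd {D : Obj} {M0 : ℕ} {lam0 Kr : ℝ} (h : D.OK M0 lam0 Kr) where
  hlam : lam0 ^ 2 ≤ 1 / 8
  e : ℕ
  hQe : D.Q = 3 ^ e
  kP : EI → ℕ
  kR : EI → ℕ
  kT : EI → ℕ
  L : EI → ℕ
  uP : PTU kP
  uR : PTU kR
  uT : PTU kT
  uL : PTU L
  uQP : PTU fun a => D.Q ^ kP a
  uQR : PTU fun a => D.Q ^ kR a
  uQT : PTU fun a => D.Q ^ kT a
  hL : ∀ a, L a + 1 ≤ D.Q ^ kT a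
  L_eq : ∀ a, L a = LB (3 ^ 5) 0 (D.Q ^ (kP a + kR a))
  hn : ∀ a, 3 * (L a + 1) ≤ e * kP a
  big : ∀ a, 4096 ≤ D.Q ^ (kP a + kR a)
  lay : ∀ i : WI, Layout (D.P (kP (rI i)) × D.P (kR (rI i))) (G D) (Fin 28) 128
  ok : ∀ i, (lay i).OK (act D (kP (rI i)) (kR (rI i))) (26 : Fin 28)
  h0 : ∀ i, BootC515.H0 (act D (kP (rI i)) (kR (rI i))) (26 : Fin 28) (lay i)
  hc : ∀ b, Tab rI (n := nGa D kP kR) (eGi D rI kP kR) (fun i x => pubC (lay i) D.K b x)

namespace Fd

variable {D : Obj} {M0 : ℕ} {lam0 Kr : ℝ} {h : D.OK M0 lam0 Kr} (F : Fd h)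

/-- exponents -/
theorem pow_eq (k : ℕ) : D.Q ^ k = 3 ^ (F.e * k) := by
  rw [pow_mul, ← F.hQe]

/-- the member of the well formed instance `i` -/
noncomputable def mem (i : WI) : Mem h ((dT D + 1) ^ 3) 0 where
  kP := F.kP (rI i)
  kR := F.kR (rI i)
  kT := F.kT (rI i)
  P := walkO h F.hlam (F.kT (rI i)) (F.L (rI i)) (F.hL (rI i))
  lay := F.lay i
  ok := F.ok i
  h0 := F.h0 i
  L_eq := F.L_eq (rI i)
  a := F.e * F.kP (rI i)
  b := F.e * F.kR (rI i)
  t := F.e * F.kT (rI i)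
  hP := F.pow_eq _
  hR := F.pow_eq _
  hT := F.pow_eq _
  hn := F.hn (rI i)
  big := F.big (rI i)

/-- the instance is the one of `InsTabObj_117` -/
theorem mem_I (i : WI) : (F.mem i).I = insF (raw := rI) h F.hlam F.hL F.lay i := rfl

/-- number of units -/
def nU (a : EI) : ℕ := nGa D F.kP F.kR a * nTa D F.kT a

/-- numbering of the units -/
def eU (i : WI) : (F.mem i).I.U ≃ Fin (F.nU (rI i)) :=
  eP (eGi D rI F.kP F.kR i) (eTi D rI F.kT i)

theorem ptu_nU : PTU F.nU := PTU.mul (PTU.mul F.uQP F.uQR) F.uQT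

/-- all scalar tables of the family of instances -/
theorem insTab : InsTab rI (fun i => (F.mem i).I) (nGa D F.kP F.kR) (nTa D F.kT)
    (eGi D rI F.kP F.kR) (eTi D rI F.kT) :=
  InsTab117.insTab h F.hlam F.hL F.lay F.uP F.uQP F.uR F.uQR F.uT F.uQT F.uL F.hc

/-- from the level functions of `LevObj_782` -/
def ofLv (hlam : lam0 ^ 2 ≤ 1 / 8) {e : ℕ} (hQe : D.Q = 3 ^ e) {c n0 x C : ℕ}
    {kP kR kT L : EI → ℕ} (lv : Lv D.Q c 0 n0 x C kP kR kT L) (hx : 1 ≤ x)
    (hC : 3 ^ (3 * 5) * ((3 ^ 5) ^ (0 + 1)) ^ 3 ≤ C) (hn0 : 4096 ≤ n0)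
    (lay : ∀ i : WI, Layout (D.P (kP (rI i)) × D.P (kR (rI i))) (G D) (Fin 28) 128)
    (ok : ∀ i, (lay i).OK (act D (kP (rI i)) (kR (rI i))) (26 : Fin 28))
    (h0 : ∀ i, BootC515.H0 (act D (kP (rI i)) (kR (rI i))) (26 : Fin 28) (lay i))
    (hc : ∀ b, Tab rI (n := nGa D kP kR) (eGi D rI kP kR)
      (fun i x => pubC (lay i) D.K b x)) : Fd h where
  hlam := hlam
  e := e
  hQe := hQe
  kP := kP
  kR := kR
  kT := kT
  L := L
  uP := lv.uP
  uR := lv.uR
  uT := lv.uT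
  uL := lv.uL
  uQP := lv.uQP
  uQR := lv.uQR
  uQT := lv.uQT
  hL a := (Nat.add_le_add_left hx _).trans (lv.slots a)
  L_eq := lv.L_eq
  hn a := lv.clock h.two_le hC a (by rw [pow_mul, ← hQe])
  big a := by
    refine hn0.trans ((lv.big a).trans ?_)
    exact Nat.pow_le_pow_right (by have := h.two_le; omega) (Nat.le_add_right _ _)
  lay := lay
  ok := ok
  h0 := h0
  hc := hc

end Fd

end Crest.Agent.R289.MemF12
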