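import Crest.Agent.R289.ClockMem_698
import Crest.Agent.R289.MemF_12

/-!
# Row 289: the clock tables of the family `MemF_12.Fd` (helper698)

* `fs F` : sizes; `mp_mc` : the clock moves, `mp_nbc` : the slots of the clock register, as `Mp`s of
  `PubBits_92` in the numbering `F.eU`.
-/

set_option autoImplicit false
set_option linter.unusedSectionVars false

namespace Crest.Agent.R289.ClockFd698

open Crest.Agent.Lib.PT Crest.Agent.R289.Asm12 Crest.Agent.R289.InsObj576
  Crest.Agent.R289.ClkTD766 Crest.Agent.R289.ClockU698 Crest.Agent.R289.ClockTab698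
  Crest.Agent.R289.ClockMem698 Crest.Agent.R289.UMap965 Crest.Agent.R289.PubBits92
  Crest.Agent.R289.MemF12

variable {D : Obj} {M0 : ℕ} {lam0 Kr : ℝ} {h : D.OK M0 lam0 Kr} (F : Fd h)

/-- sizes of the clock -/
theorem fs : FS rI (fun i => (F.mem i).siz) :=
  fs_mem F.mem F.hQe ⟨F.L, F.uL, fun _ => rfl⟩ ⟨F.kP, F.uP, fun _ => rfl⟩
    ⟨F.kR, F.uR, fun _ => rfl⟩ ⟨F.kT, F.uT, fun _ => rfl⟩

/-- **clock moves** -/
theorem mp_mc (g : CG (cst h ((PathObj992.dT D + 1) ^ 3))) :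
    Mp rI F.eU F.eU (fun i u => (F.mem i).mc g u) := by
  obtain ⟨t, ht, hs⟩ := pmap_mcM F.mem F.insTab (fun _ _ => rfl) (fs F) g
  exact ⟨t, ht, fun i u => hs i u⟩

/-- **slots of the clock register** -/
theorem mp_nbc (q : Clock425.Slot (SJ 3)) :
    Mp rI F.eU F.eU (fun i u => (F.mem i).nbc q u) := by
  obtain ⟨t, ht, hs⟩ := pmap_nbc F.mem (fs F) q
  exact ⟨t, ht, fun i u => hs i u⟩

end Crest.Agent.R289.ClockFd698
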