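import Crest.Agent.R289.ClockTab_698
import Crest.Agent.R289.MemB_12

/-!
# Row 289: the clock tables of the family `Mem_12` (helper698)

`mem : ι → Mem h W c0`, `raw : ι → α`; numbering of the units `ixM i = ixU i.siz (D.ix ..) ..`.

* `pmap_nbc` : the slots of the clock register; `pmap_mcM` : the clock moves (from `InsTab`);
* `fs_mem` : the sizes from the levels.
-/

set_option autoImplicit false
set_option linter.unusedSectionVars false
set_option linter.dupNamespace false

namespace Crest.Agent.R289.ClockMem698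

open Crest.Agent.Lib.PT Crest.Agent.Lib.PT.Arith
open YIdx901 GkIdx594 ClockPT484 ClockU698 ClockE698 UMap965 PubBits92 ClockTab698
open Asm12 DefI InsObj576 ClkTD766 Mem12

variable {D : Obj} {M0 : ℕ} {lam0 Kr : ℝ} {h : D.OK M0 lam0 Kr} {W c0 : ℕ}

/-- numbering of the units of a member -/
def ixM (i : Mem h W c0) : i.I.U ≃ Fin i.siz.nU :=
  ixU i.siz (D.ix i.kP) (D.ix i.kR) (D.ix i.kT)

theorem ixM_eq (i : Mem h W c0) :
    ixM i = eP (eP (D.ix i.kP) (D.ix i.kR)) (D.ix i.kT) := rfl

variable {α ι : Type} [PTCode α] {raw : ι → α} (mem : ι → Mem h W c0)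

/-- **slots of the clock register** -/
theorem pmap_nbc (hs : FS raw (fun i => (mem i).siz)) (q : Clock425.Slot (SJ 3)) :
    PMap raw (fun i => ixM (mem i)) (fun i => ixM (mem i)) (fun i => (mem i).nbc q) :=
  pmap_nbU (p := 3) (s := fun i => (mem i).siz) (fun i => D.ix (mem i).kP)
    (fun i => D.ix (mem i).kR) (fun i => D.ix (mem i).kT) hs q

/-- **clock moves** -/
theorem pmap_mcM {nG nT : α → ℕ}
    {eG : ∀ i, (mem i).I.Γ ≃ Fin (nG (raw i))} {eT : ∀ i, (mem i).I.T ≃ Fin (nT (raw i))}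
    (hI : InsTab raw (fun i => (mem i).I) nG nT eG eT)
    (heT : ∀ i (τ : D.P (mem i).kT), ((eT i τ : Fin _) : ℕ) = (D.ix (mem i).kT τ : Fin _))
    (hs : FS raw (fun i => (mem i).siz)) (g : CG (cst h W)) :
    PMap raw (fun i => ixM (mem i)) (fun i => ixM (mem i)) (fun i => (mem i).mc g) := by
  refine pmap_mc (p := 3) (I := fun i => (mem i).I) hI hs.n hs.rho (fun i => ixM (mem i))
    (fun i => (mem i).siz.nU_eq) (fun i => (mem i).tq) (fun i r => ?_) g
  have h1 : nT (raw i) = (mem i).siz.nT := by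
    have h2 := Fintype.card_congr (eT i)
    have h3 := Fintype.card_congr (D.ix (mem i).kT)
    rw [Fintype.card_fin] at h2 h3
    have h4 : @Fintype.card (mem i).I.T _ = @Fintype.card (D.P (mem i).kT) _ := by
      exact Fintype.card_congr (Equiv.refl _)
    rw [← h2]
    exact h4.trans h3
  have h5 := heT i ((mem i).tq r)
  refine h5.trans ?_
  rw [h1]
  show ((D.ix (mem i).kT ((D.ix (mem i).kT).symm ⟨(r : ℕ) % (mem i).siz.nT, _⟩) : Fin _) : ℕ) = _
  rw [Equiv.apply_symm_apply]

/-- the sizes of the family from the levels -/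
theorem fs_mem {e : ℕ} (hQ : D.Q = 3 ^ e) (hL : PSzU raw (fun i => (mem i).P.L))
    (hP : PSzU raw (fun i => (mem i).kP)) (hR : PSzU raw (fun i => (mem i).kR))
    (hT : PSzU raw (fun i => (mem i).kT)) : FS raw (fun i => (mem i).siz) := by
  have key : ∀ {k a : ι → ℕ}, PSzU raw k → (∀ i, D.Q ^ k i = 3 ^ a i) → PSzU raw a := by
    rintro k a ⟨f, hf, sf⟩ h1
    refine ⟨fun x => e * f x, PTU.mul (PTU.const e) hf, fun i => ?_⟩
    show e * f (raw i) = a i
    have h2 := h1 i
    rw [hQ, ← pow_mul] at h2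
    rw [sf]
    exact Nat.pow_right_injective (le_refl 2 |>.trans (by norm_num)) h2
  refine ⟨?_, key hP fun i => (mem i).hP, key hR fun i => (mem i).hR, key hT fun i => (mem i).hT⟩
  obtain ⟨f, hf, sf⟩ := hL
  exact ⟨fun x => f x + 1, PTU.succ hf, fun i => by
    show f (raw i) + 1 = _
    rw [sf]⟩

end Crest.Agent.R289.ClockMem698
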