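import Crest.Agent.R289.ClockPT3_484
import Crest.Agent.R289.Mem_12
import Crest.Agent.R289.PubBits_92

/-!
# Row 289, block E: clock symbols and clock slots as tables over a family (helper484)

* `cwN p m ρ t w` : the `t`-th digit of the first clock coordinate of the unit number `w`
  (= `ClkTD766.cw I e t u` at `ClockE698.eU`), PTF.
* `Exps raw s` : the numbers of a family of sizes `s i : Siz p (nn i)` as unary tables.
* `mp_slot` : every slot of `ClockE698.nbU` is a tabulated map (`PubBits92.Mp`).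
* `tabF_cw`, `tabF_cw0`, `tabF_pc` : clock symbols at tabulated times, and `(cw 0 u, cw L u)`.
* `Mem.tabF_cw0`, `Mem.tabF_pc`, `Mem.mp_nb` : the same for a family of members of `Mem_12`.
-/

set_option autoImplicit false
set_option linter.dupNamespace false
set_option linter.unusedSectionVars false

namespace Crest.Agent.R289.ClockPc484

open Crest.Agent.Lib.PT Crest.Agent.R289.GkIdx594 Crest.Agent.R289.YIdx901
open Crest.Agent.R289.ClockPT484 Crest.Agent.R289.PubBits92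
open Crest.Agent.R289.Clock425 (Slot)
open Crest.Agent.R289.ClockU698 (SJ)
open Crest.Agent.R289.ClockE698 (Siz ixU nbU)

/-- clock symbol of the time `t` from the unit number -/
noncomputable def cwN (p : ℕ) [NeZero p] (m ρ t w : ℕ) : ZMod p :=
  coI (ZMod p) m (cX (p ^ m) ρ w) t

section spec

variable {p n : ℕ} [NeZero p] (s : Siz p n) {P R T : Type}
  (iP : P ≃ Fin s.nP) (iR : R ≃ Fin s.nR) (iT : T ≃ Fin s.nT)

theorem cwN_spec (u : (P × R) × T) {t : ℕ} (ht : t < n) :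
    cwN p n s.rho t ((ixU s iP iR iT u : Fin _) : ℕ) =
      (ClockE698.eU s iP iR iT u).1 ⟨t, ht⟩ := by
  have h1 := (coords (ZMod p) n s.nU_eq (ixU s iP iR iT) u).1
  unfold cwN
  rw [← qKm p n, h1]
  unfold iV
  rw [coI_spec, Stack827.ent_of_lt _ ht]
  rfl

end spec

theorem ptf_cwN {p : ℕ} [NeZero p] [PTCode (ZMod p)] {α : Type} [PTCode α] {m ρ t w : α → ℕ}
    (hm : PTU m) (hρ : PTF ρ) (ht : PTF t) (hw : PTF w) :
    PTF (fun a => cwN p (m a) (ρ a) (t a) (w a)) :=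
  ptf_coI hm (ptf_cX (PTF.natPow (PTF.const _) hm) hρ hw) ht

/-! ### families -/

section family

variable {p : ℕ} {ι α : Type} [PTCode α] {nn : ι → ℕ}

/-- the numbers of a family of sizes as tables -/
structure Exps (raw : ι → α) (s : ∀ i, Siz p (nn i)) where
  n : α → ℕ
  a : α → ℕ
  b : α → ℕ
  t : α → ℕ
  hn : PTU n
  ha : PTU a
  hb : PTU b
  ht : PTU t
  n_eq : ∀ i, n (raw i) = nn i
  a_eq : ∀ i, a (raw i) = (s i).a
  b_eq : ∀ i, b (raw i) = (s i).b
  t_eq : ∀ i, t (raw i) = (s i).t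

variable {raw : ι → α} {s : ∀ i, Siz p (nn i)}

namespace Exps

variable (E : Exps raw s)

/-- table of `rho` -/
def rho (x : α) : ℕ := rhoN p (E.n x) (E.a x) (E.b x) (E.t x)
/-- table of `N` -/
def N (x : α) : ℕ := sideN p (E.n x) (E.a x) (E.b x) (E.t x)
/-- table of `c` -/
def c (x : α) : ℕ := facN p (E.n x) (E.a x) (E.b x) (E.t x)

theorem rho_eq (i : ι) : E.rho (raw i) = (s i).rho := by
  rw [rho, E.n_eq, E.a_eq, E.b_eq, E.t_eq, ClockPT484.rho_eq]

theorem N_eq (i : ι) : E.N (raw i) = (s i).N := by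
  rw [N, E.n_eq, E.a_eq, E.b_eq, E.t_eq, ClockPT484.side_eq]

theorem c_eq (i : ι) : E.c (raw i) = (s i).c := by
  rw [c, E.n_eq, E.a_eq, E.b_eq, E.t_eq, ClockPT484.fac_eq]

theorem ptf_rho : PTF E.rho := ptf_rhoN p E.hn E.ha E.hb E.ht
theorem ptf_N : PTF E.N := ptf_sideN p E.hn E.ha E.hb E.ht
theorem ptf_c : PTF E.c := ptf_facN p E.hn E.ha E.hb E.ht

end Exps

variable {P R T : ι → Type} (iP : ∀ i, P i ≃ Fin (s i).nP) (iR : ∀ i, R i ≃ Fin (s i).nR)
  (iT : ∀ i, T i ≃ Fin (s i).nT) {nU : α → ℕ}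
  {e : ∀ i, (P i × R i) × T i ≃ Fin (nU (raw i))}

/-- **every clock slot is a tabulated map** -/
theorem mp_slot [Fact p.Prime] [∀ i, Fintype (P i)] [∀ i, Fintype (R i)] [∀ i, Fintype (T i)]
    (E : Exps raw s)
    (he : ∀ i u, ((e i u : Fin _) : ℕ) = ((ixU (s i) (iP i) (iR i) (iT i) u : Fin _) : ℕ))
    (q : Slot (SJ p)) : Mp raw e e (fun i u => nbU (s i) (iP i) (iR i) (iT i) q u) := by
  letI := ptcZ p
  refine ⟨fun x w => slotN p (E.n x) (E.rho x) (E.N x) (E.c x) q w, ?_, fun i u => ?_⟩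
  · exact ptf_slotN q (PTU.comp E.hn PTF.fst) (PTF.comp E.ptf_rho PTF.fst)
      (PTF.comp E.ptf_N PTF.fst) (PTF.comp E.ptf_c PTF.fst) PTF.snd
  · change slotN p (E.n (raw i)) (E.rho (raw i)) (E.N (raw i)) (E.c (raw i)) q _ = _
    rw [E.n_eq, E.rho_eq, E.N_eq, E.c_eq, he, he]
    exact slotN_spec (s i) (iP i) (iR i) (iT i) q u

variable [NeZero p]

/-- clock symbols at a tabulated time -/
theorem tabF_cw (E : Exps raw s)
    (he : ∀ i u, ((e i u : Fin _) : ℕ) = ((ixU (s i) (iP i) (iR i) (iT i) u : Fin _) : ℕ))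
    {tN : α → ℕ} (htN : PTF tN) (ht : ∀ i, tN (raw i) < nn i) :
    TabF raw e (fun i u => (ClockE698.eU (s i) (iP i) (iR i) (iT i) u).1 ⟨tN (raw i), ht i⟩) := by
  letI := cd (ZMod p)
  refine ⟨fun x w => cwN p (E.n x) (E.rho x) (tN x) w, ?_, fun i u => ?_⟩
  · exact ptf_cwN (PTU.comp E.hn PTF.fst) (PTF.comp E.ptf_rho PTF.fst) (PTF.comp htN PTF.fst)
      PTF.snd
  · change cwN p (E.n (raw i)) (E.rho (raw i)) (tN (raw i)) _ = _
    rw [E.n_eq, E.rho_eq, he]
    exact cwN_spec (s i) (iP i) (iR i) (iT i) u (ht i)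

end family

/-! ### members of `Mem_12` -/

section mem

open Crest.Agent.R289.Asm12 Crest.Agent.R289.InsObj576 Crest.Agent.R289.Mem12
  Crest.Agent.R289.ClkTD766

variable {D : Obj} {M0 : ℕ} {lam0 Kr : ℝ} {h : D.OK M0 lam0 Kr} {W c0 : ℕ}
  {ι α : Type} [PTCode α] {raw : ι → α} {mem : ι → Mem h W c0}

/-- the sizes of a family of members -/
abbrev sz (mem : ι → Mem h W c0) (i : ι) : Siz 3 ((mem i).P.L + 1) := (mem i).siz

variable {nU : α → ℕ} {e : ∀ i, (mem i).U ≃ Fin (nU (raw i))}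

/-- the numbering of the units is the product numbering -/
def IsIx (mem : ι → Mem h W c0) (raw : ι → α) {nU : α → ℕ}
    (e : ∀ i, (mem i).U ≃ Fin (nU (raw i))) : Prop :=
  ∀ i (u : (mem i).U), ((e i u : Fin _) : ℕ) =
    ((eP (eP (D.ix (mem i).kP) (D.ix (mem i).kR)) (D.ix (mem i).kT) u : Fin _) : ℕ)

theorem mp_nb (E : Exps raw (sz mem)) (he : IsIx mem raw e) (q : Slot (SJ 3)) :
    Mp raw e e (fun i u => nbU (mem i).siz (D.ix (mem i).kP) (D.ix (mem i).kR) (D.ix (mem i).kT)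
      q u) :=
  mp_slot (s := sz mem) (fun i => D.ix (mem i).kP) (fun i => D.ix (mem i).kR)
    (fun i => D.ix (mem i).kT) E he q

/-- **table of a clock word** -/
theorem tabF_cwM (E : Exps raw (sz mem)) (he : IsIx mem raw e) {tN : α → ℕ} (htN : PTF tN)
    (ht : ∀ i, tN (raw i) ≤ (mem i).P.L) :
    TabF raw e (fun i u => (mem i).cw (tN (raw i)) u) := by
  have h1 := tabF_cw (s := sz mem) (fun i => D.ix (mem i).kP) (fun i => D.ix (mem i).kR)
    (fun i => D.ix (mem i).kT) E he htN (fun i => Nat.lt_succ_of_le (ht i))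
  have h2 : (fun (i : ι) (u : (mem i).U) => (mem i).cw (tN (raw i)) u) = fun i u =>
      (ClockE698.eU (sz mem i) (D.ix (mem i).kP) (D.ix (mem i).kR) (D.ix (mem i).kT) u).1
        ⟨tN (raw i), Nat.lt_succ_of_le (ht i)⟩ := by
    funext i u
    have h3 : pos (mem i).I.L (tN (raw i)) = ⟨tN (raw i), Nat.lt_succ_of_le (ht i)⟩ :=
      Fin.ext (pos_val (ht i))
    change ((mem i).e u).1 (pos (mem i).I.L (tN (raw i))) = _
    rw [h3]
    rfl
  rw [h2]
  exact h1

/-- clock word `0` (`hck` of `BaseTab92.tabF_start`) -/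
theorem tabF_cw0 (E : Exps raw (sz mem)) (he : IsIx mem raw e) :
    TabF raw e (fun i u => (mem i).cw 0 u) :=
  tabF_cwM (tN := fun _ => 0) E he (PTF.const _) fun _ => Nat.zero_le _

/-- clock word `L` -/
theorem tabF_cwL (E : Exps raw (sz mem)) (he : IsIx mem raw e) :
    TabF raw e (fun i u => (mem i).cw (mem i).I.L u) := by
  have h1 : PTF (fun x => E.n x - 1) := PTF.natSub E.hn.toPTF (PTF.const 1)
  have h2 : ∀ i, (fun x => E.n x - 1) (raw i) = (mem i).P.L := fun i => by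
    change E.n (raw i) - 1 = _
    rw [E.n_eq]
    rfl
  have h3 := tabF_cwM (tN := fun x => E.n x - 1) E he h1 fun i => (h2 i).le
  have h4 : (fun (i : ι) (u : (mem i).U) => (mem i).cw (mem i).I.L u) = fun i u =>
      (mem i).cw ((fun x => E.n x - 1) (raw i)) u := by
    funext i u
    rw [h2]
    rfl
  rw [h4]
  exact h3

/-- **the public clock data** `(cw 0 u, cw L u)` -/
theorem tabF_pc (E : Exps raw (sz mem)) (he : IsIx mem raw e) :
    TabF raw e (fun i u => ((mem i).cw 0 u, (mem i).cw (mem i).I.L u)) :=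
  (tabF_cw0 E he).pair (tabF_cwL E he)

end mem

end Crest.Agent.R289.ClockPc484
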