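import Crest.Agent.R289.ClockAx_311
import Crest.Agent.R289.YIdx_901
import Crest.Agent.R289.SamplerPT_56

/-!
# Row 289: the clock on the concrete units `(P × R) × T` (helper698)

* `walk` : the walk on any set of `N * N * c` elements, `c = 1` or `c = p`, slots
  `Fin (16 ^ 94) × Fin p`; `mixes_walk : Mixes _ (1 / 2048)`; `walk_val` : index function `walkN`.
* `eC : (P × R) × T ≃ Clock311.U p n (Qt ..)` from numberings `P ≃ Fin nP`, `nP = p ^ a`,
  `3 * n ≤ a`; numbers are unchanged (`eC_val`); the `R`- and `T`-components are part of `Qt`.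
-/

set_option autoImplicit false
set_option linter.unusedSectionVars false

namespace Crest.Agent.R289.ClockU698

open Finset LCodeS152 Clock311 YIdx901 GkIdx594

/-! ### the walk on `N * N * c` elements -/

section walk

lemma shift_mean {p c : ℕ} [NeZero p] [NeZero c] (hc : c = 1 ∨ c = p) (G : ZMod c → ℝ)
    (x : ZMod c) :
    (∑ s : Fin p, G (x + ((s : ℕ) : ZMod c))) / (p : ℝ) = (∑ y, G y) / (c : ℝ) := by
  rcases hc with rfl | rfl
  · have h1 : ∀ y : ZMod 1, G y = G x := fun y => congrArg G (Subsingleton.elim _ _)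
    have hp : (p : ℝ) ≠ 0 := by exact_mod_cast NeZero.ne p
    rw [sum_congr rfl fun s _ => h1 _, sum_congr rfl fun y _ => h1 y]
    simp [hp]
  · congr 1
    have h1 : ∑ s : Fin c, G (x + ((s : ℕ) : ZMod c)) = ∑ y : ZMod c, G (x + y) := by
      refine sum_bij (fun s _ => ((s : ℕ) : ZMod c)) (fun _ _ => mem_univ _) ?_ ?_ ?_
      · intro s _ s' _ h
        have h2 := congrArg ZMod.val h
        rw [ZMod.val_natCast_of_lt s.2, ZMod.val_natCast_of_lt s'.2] at h2
        exact Fin.ext h2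
      · intro y _
        exact ⟨⟨y.val, ZMod.val_lt y⟩, mem_univ _, by simp⟩
      · intro _ _
        rfl
    rw [h1]
    exact Equiv.sum_comp (Equiv.addLeft x) G

/-- product of a family with the shifts of a small factor -/
def sig2 {A J : Type} (p c : ℕ) (σ : J → Equiv.Perm A) (q : J × Fin p) :
    Equiv.Perm (A × ZMod c) :=
  Equiv.prodCongr (σ q.1) (Equiv.addRight (((q.2 : ℕ)) : ZMod c))

lemma sig2_apply {A J : Type} (p c : ℕ) (σ : J → Equiv.Perm A) (q : J × Fin p)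
    (r : A × ZMod c) : sig2 p c σ q r = (σ q.1 r.1, r.2 + ((q.2 : ℕ) : ZMod c)) := rfl

theorem mixes_sig2 {A J : Type} [Fintype A] [Fintype J] {σ : J → Equiv.Perm A} {lam : ℝ}
    (h : Mixes σ lam) (h0 : 0 ≤ lam) {p c : ℕ} [NeZero p] [NeZero c] (hc : c = 1 ∨ c = p) :
    Mixes (sig2 p c σ) lam := by
  intro F
  have hc0 : (0 : ℝ) < c := by exact_mod_cast Nat.pos_of_ne_zero (NeZero.ne c)
  have hp0 : (0 : ℝ) < p := by exact_mod_cast Nat.pos_of_ne_zero (NeZero.ne p)
  set G : A → ℝ := fun a => (∑ y : ZMod c, F (a, y)) / (c : ℝ) with hG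
  have h1 := h G
  have e1 : ∀ r : A × ZMod c, (∑ q : J × Fin p, F (sig2 p c σ q r)) /
      (Fintype.card (J × Fin p) : ℝ) = (∑ j, G (σ j r.1)) / (Fintype.card J : ℝ) := by
    intro r
    rw [Fintype.sum_prod_type, Fintype.card_prod, Fintype.card_fin]
    have e : ∀ j : J, ∑ s : Fin p, F (sig2 p c σ (j, s) r) = (p : ℝ) * G (σ j r.1) := by
      intro j
      have h2 := shift_mean hc (fun y => F (σ j r.1, y)) r.2
      rw [div_eq_iff hp0.ne'] at h2
      simp only [sig2_apply, hG]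
      rw [h2]
      ring
    rw [sum_congr rfl fun j _ => e j, ← mul_sum]
    push_cast
    rw [mul_comm (Fintype.card J : ℝ) (p : ℝ), mul_div_mul_left _ _ hp0.ne']
  have e2 : (∑ r : A × ZMod c, F r) / (Fintype.card (A × ZMod c) : ℝ) =
      (∑ a, G a) / (Fintype.card A : ℝ) := by
    rw [Fintype.sum_prod_type, Fintype.card_prod, ZMod.card]
    simp only [hG]
    rw [← sum_div, div_div]
    push_cast
    rw [mul_comm]
  have e3 : ∑ a, G a ^ 2 ≤ (∑ r : A × ZMod c, F r ^ 2) / (c : ℝ) := by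
    rw [Fintype.sum_prod_type, sum_div]
    refine sum_le_sum fun a _ => ?_
    simp only [hG]
    rw [div_pow, sq (c : ℝ), ← div_div]
    refine div_le_div_of_nonneg_right ?_ hc0.le
    rw [div_le_iff₀ hc0]
    have h3 := sq_sum_le_card_mul_sum_sq (s := (univ : Finset (ZMod c))) (f := fun y => F (a, y))
    rw [card_univ, ZMod.card] at h3
    linarith [h3, mul_comm (c : ℝ) (∑ y : ZMod c, F (a, y) ^ 2)]
  calc ∑ r : A × ZMod c, ((∑ q : J × Fin p, F (sig2 p c σ q r)) /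
        (Fintype.card (J × Fin p) : ℝ) - (∑ r, F r) / (Fintype.card (A × ZMod c) : ℝ)) ^ 2
      = ∑ r : A × ZMod c, ((∑ j, G (σ j r.1)) / (Fintype.card J : ℝ) -
          (∑ a, G a) / (Fintype.card A : ℝ)) ^ 2 := by
        refine sum_congr rfl fun r _ => ?_
        rw [e1, e2]
    _ = (c : ℝ) * ∑ a, ((∑ j, G (σ j a)) / (Fintype.card J : ℝ) -
          (∑ a, G a) / (Fintype.card A : ℝ)) ^ 2 := by
        rw [Fintype.sum_prod_type, mul_sum]
        refine sum_congr rfl fun a _ => ?_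
        simp [ZMod.card]
    _ ≤ (c : ℝ) * (lam * ∑ a, G a ^ 2) := mul_le_mul_of_nonneg_left h1 hc0.le
    _ ≤ (c : ℝ) * (lam * ((∑ r : A × ZMod c, F r ^ 2) / (c : ℝ))) :=
        mul_le_mul_of_nonneg_left (mul_le_mul_of_nonneg_left e3 h0) hc0.le
    _ = lam * ∑ r, F r ^ 2 := by field_simp

/-- `Fin N ≃ ZMod N` by values -/
def zf (N : ℕ) [NeZero N] : Fin N ≃ ZMod N where
  toFun i := ((i : ℕ) : ZMod N)
  invFun z := ⟨z.val, ZMod.val_lt z⟩
  left_inv i := Fin.ext (ZMod.val_natCast_of_lt i.2)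
  right_inv z := by simp

/-- mixed radix splitting of a number `< N * N * c` -/
def spl (N c : ℕ) [NeZero N] [NeZero c] :
    Fin (N * N * c) ≃ (ZMod N × ZMod N) × ZMod c :=
  (eP (eP (zf N).symm (zf N).symm) (zf c).symm).symm

/-- slots of the walk -/
abbrev SJ (p : ℕ) : Type := Fin (16 ^ 94) × Fin p

/-- the walk -/
def walk {A : Type} {N c : ℕ} [NeZero N] [NeZero c] (p : ℕ) (f : A ≃ Fin (N * N * c))
    (q : SJ p) : Equiv.Perm A :=
  ((f.trans (spl N c)).trans (sig2 p c (fun j : Fin (16 ^ 94) =>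
    sigX (Equiv.refl (ZMod N)) 94 j) q)).trans (f.trans (spl N c)).symm

theorem mixes_base (N : ℕ) [NeZero N] :
    Mixes (fun j : Fin (16 ^ 94) => sigX (Equiv.refl (ZMod N)) 94 j) (1 / 2048) := by
  intro F
  have h := walkX (Equiv.refl (ZMod N)) 94 F
  have h2 : (0 : ℝ) ≤ ∑ x, F x ^ 2 := sum_nonneg fun _ _ => sq_nonneg _
  have h3 : ((0.96 : ℝ) ^ 2) ^ 94 ≤ 1 / 2048 := by norm_num
  have h4 : (Fintype.card (Fin (16 ^ 94)) : ℝ) = 16 ^ 94 := by
    rw [Fintype.card_fin]; norm_num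
  rw [h4]
  exact h.trans (mul_le_mul_of_nonneg_right h3 h2)

/-- **the walk mixes** -/
theorem mixes_walk {A : Type} [Fintype A] {N c p : ℕ} [NeZero N] [NeZero c] [NeZero p]
    (hc : c = 1 ∨ c = p) (f : A ≃ Fin (N * N * c)) : Mixes (walk p f) (1 / 2048) :=
  Mixes.congr (mixes_sig2 (mixes_base N) (by norm_num) hc) (f.trans (spl N c))

/-- index function of the walk -/
def walkN (N c j s w : ℕ) : ℕ :=
  pI c (pI N (Sampler56.sigN N 94 j (w / c / N, w / c % N)).1
    (Sampler56.sigN N 94 j (w / c / N, w / c % N)).2) ((w % c + s) % c)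

lemma zf_symm_val {N : ℕ} [NeZero N] (z : ZMod N) : (((zf N).symm z : Fin N) : ℕ) = z.val := rfl

theorem walk_val {A : Type} {N c p : ℕ} [NeZero N] [NeZero c] (f : A ≃ Fin (N * N * c))
    (q : SJ p) (a : A) : (f (walk p f q a) : ℕ) = walkN N c q.1 q.2 (f a) := by
  have hN : 0 < N := Nat.pos_of_ne_zero (NeZero.ne N)
  obtain ⟨⟨⟨x, y⟩, s⟩, hb⟩ : ∃ b, spl N c (f a) = b := ⟨_, rfl⟩
  have hfa : f a = eP (eP (zf N).symm (zf N).symm) (zf c).symm ((x, y), s) := by
    rw [← hb]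
    simp [spl]
  have h1 : (f a : ℕ) % c = s.val := by
    rw [hfa, eP_mod]; rfl
  have h2 : (f a : ℕ) / c / N = x.val := by
    rw [hfa, eP_div, eP_div]; rfl
  have h3 : (f a : ℕ) / c % N = y.val := by
    rw [hfa, eP_div, eP_mod]; rfl
  have h4 : f (walk p f q a) = eP (eP (zf N).symm (zf N).symm) (zf c).symm
      (sig2 p c (fun j : Fin (16 ^ 94) => sigX (Equiv.refl (ZMod N)) 94 j) q ((x, y), s)) := by
    simp only [walk, Equiv.trans_apply, Equiv.symm_trans_apply, hb, Equiv.apply_symm_apply]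
    rfl
  have h4' : (f (walk p f q a) : ℕ) =
      pI c (pI N (sigX (Equiv.refl (ZMod N)) 94 q.1 (x, y)).1.val
        (sigX (Equiv.refl (ZMod N)) 94 q.1 (x, y)).2.val) (s + ((q.2 : ℕ) : ZMod c)).val := by
    rw [h4]; rfl
  rw [h4']
  simp only [walkN, h1, h2, h3]
  have h5 : Sampler56.cz N (Sampler56.sigN N 94 q.1 (x.val, y.val)) =
      sigX (Equiv.refl (ZMod N)) 94 q.1 (x, y) := by
    rw [Sampler56.cz_sigN hN 94 q.1 (x.val, y.val) (ZMod.val_lt x) (ZMod.val_lt y), sigX_apply]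
    simp [Sampler56.cz]
  obtain ⟨h6, h7⟩ := Sampler56.sigN_lt hN 94 q.1 (x.val, y.val) (ZMod.val_lt x) (ZMod.val_lt y)
  have h8 : (sigX (Equiv.refl (ZMod N)) 94 q.1 (x, y)).1.val =
      (Sampler56.sigN N 94 q.1 (x.val, y.val)).1 := by
    rw [← h5]; exact ZMod.val_natCast_of_lt h6
  have h9 : (sigX (Equiv.refl (ZMod N)) 94 q.1 (x, y)).2.val =
      (Sampler56.sigN N 94 q.1 (x.val, y.val)).2 := by
    rw [← h5]; exact ZMod.val_natCast_of_lt h7
  rw [h8, h9, ZMod.val_add, ZMod.val_natCast, Nat.add_mod_mod]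

end walk

end Crest.Agent.R289.ClockU698
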