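import Crest.Agent.R289.LCodeS_152
import Crest.Agent.R289.BLR_46
import Crest.Agent.R289.DefD_721

/-!
# Row 289, leaf C_Clock (helper311): the clock register of post 5756

Units `U = V × R`, `V = Fin n → ZMod p` (position in the long code), `R = V × V × Q` (fibre; `Q` is
the rest of the unit set).  The clock words are the dictators `clk t u = u.1 t`.

* `sound`  : few violated tests ⇒ near a clock word (`204 ν < |U|` ⇒ distance `≤ 16 ν`)
* `compl`  : violated tests `≤ (6 + |J|) *` distance
* `sep`    : two clock words differ on at least half of the units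
* `corr_contract` : local correction divides the distance by 4
* `read`   : a public function `φ : Q → V` of the clock is read with two queries
* `rot`    : the shift of the clock is a permutation of the units
-/

set_option autoImplicit false
set_option linter.unusedSectionVars false

namespace Crest.Agent.R289.Clock311

open Finset LCodeS152

section perms

variable {p n : ℕ} {Q : Type}

/-- positions of the long code -/
abbrev V (p n : ℕ) := Fin n → ZMod p
/-- the fibre over a position -/
abbrev R (p n : ℕ) (Q : Type) := V p n × V p n × Q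
/-- the units -/
abbrev U (p n : ℕ) (Q : Type) := V p n × R p n Q

/-- `(x, y, z, q) ↦ (x + y, y, z, q)` -/
def Wadd : Equiv.Perm (U p n Q) where
  toFun u := (u.1 + u.2.1, u.2.1, u.2.2)
  invFun u := (u.1 - u.2.1, u.2.1, u.2.2)
  left_inv u := by simp
  right_inv u := by simp

/-- `(x, y, z, q) ↦ (y, x, z, q)` -/
def Wsw : Equiv.Perm (U p n Q) where
  toFun u := (u.2.1, u.1, u.2.2)
  invFun u := (u.2.1, u.1, u.2.2)
  left_inv u := by simp
  right_inv u := by simp

/-- `(x, y, z, q) ↦ (x * y + z, x, y, q)` -/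
def Wmul : Equiv.Perm (U p n Q) where
  toFun u := (u.1 * u.2.1 + u.2.2.1, u.1, u.2.1, u.2.2.2)
  invFun u := (u.2.1, u.2.2.1, u.1 - u.2.1 * u.2.2.1, u.2.2.2)
  left_inv u := by simp
  right_inv u := by simp

/-- `(x, y, z, q) ↦ (φ q + z, x, y, q)` -/
def Wrd (φ : Q → V p n) : Equiv.Perm (U p n Q) where
  toFun u := (φ u.2.2.2 + u.2.2.1, u.1, u.2.1, u.2.2.2)
  invFun u := (u.2.1, u.2.2.1, u.1 - φ u.2.2.2, u.2.2.2)
  left_inv u := by simp
  right_inv u := by simp

/-- `(x, y, z, q) ↦ (1 + x, y, z, q)` -/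
def Wone : Equiv.Perm (U p n Q) where
  toFun u := (1 + u.1, u.2)
  invFun u := (u.1 - 1, u.2)
  left_inv u := by simp
  right_inv u := by simp

/-- shift of the positions: `(x ∘ ρ, ...)` -/
def Wrot (ρ : Equiv.Perm (Fin n)) : Equiv.Perm (U p n Q) where
  toFun u := (u.1 ∘ ρ, u.2)
  invFun u := (u.1 ∘ ρ.symm, u.2)
  left_inv u := by ext <;> simp
  right_inv u := by ext <;> simp

/-- walk in the fibre -/
def Wf {J : Type} (σ : J → Equiv.Perm (R p n Q)) (j : J) : Equiv.Perm (U p n Q) :=
  Equiv.prodCongr (Equiv.refl _) (σ j)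

@[simp] lemma Wadd_apply (u : U p n Q) : Wadd u = (u.1 + u.2.1, u.2.1, u.2.2) := rfl
@[simp] lemma Wsw_apply (u : U p n Q) : Wsw u = (u.2.1, u.1, u.2.2) := rfl
@[simp] lemma Wmul_apply (u : U p n Q) :
    Wmul u = (u.1 * u.2.1 + u.2.2.1, u.1, u.2.1, u.2.2.2) := rfl
@[simp] lemma Wrd_apply (φ : Q → V p n) (u : U p n Q) :
    Wrd φ u = (φ u.2.2.2 + u.2.2.1, u.1, u.2.1, u.2.2.2) := rfl
@[simp] lemma Wone_apply (u : U p n Q) : Wone u = (1 + u.1, u.2) := rfl
@[simp] lemma Wrot_apply (ρ : Equiv.Perm (Fin n)) (u : U p n Q) : Wrot ρ u = (u.1 ∘ ρ, u.2) := rfl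
@[simp] lemma Wf_apply {J : Type} (σ : J → Equiv.Perm (R p n Q)) (j : J) (u : U p n Q) :
    Wf σ j u = (u.1, σ j u.2) := rfl

/-- the clock word `t` -/
def clk (t : Fin n) (u : U p n Q) : ZMod p := u.1 t

end perms

section main

variable {p n : ℕ} [Fact p.Prime] {Q : Type} [Fintype Q] {J : Type} [Fintype J]

/-- reads of the test of one unit: own symbol, position `y`, position `x + y`, position
`x * y + z`, position `z`, position `1 + x`; and the walk in the fibre -/
def tnb (σ : J → Equiv.Perm (R p n Q)) : Fin 6 ⊕ J → Equiv.Perm (U p n Q)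
  | .inl 0 => 1
  | .inl 1 => Wsw
  | .inl 2 => Wadd
  | .inl 3 => Wmul
  | .inl 4 => Wrd 0
  | .inl 5 => Wone
  | .inr j => Wf σ j

/-- the test as a predicate of the symbols read -/
def tok (s : Fin 6 ⊕ J → Option (ZMod p)) : Prop :=
  ∃ g : Fin 6 → ZMod p, (∀ i, s (.inl i) = some (g i)) ∧ (∀ j, s (.inr j) = some (g 0)) ∧
    g 0 + g 1 = g 2 ∧ g 3 - g 4 = g 0 * g 1 ∧ g 5 - g 0 = 1

/-- the test of the unit `u` fails -/
def bad (σ : J → Equiv.Perm (R p n Q)) (X : U p n Q → Option (ZMod p)) (u : U p n Q) : Prop :=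
  ¬ tok fun i => X (tnb σ i u)

open Classical in
/-- number of units with a property -/
noncomputable def cnt {α : Type} [Fintype α] (P : α → Prop) : ℕ := (univ.filter P).card

lemma cnt_mono {α : Type} [Fintype α] {P P' : α → Prop} (h : ∀ a, P a → P' a) : cnt P ≤ cnt P' := by
  classical
  unfold cnt
  exact card_le_card (monotone_filter_right _ fun a _ => h a)

lemma cnt_or {α : Type} [Fintype α] (P P' : α → Prop) :
    cnt (fun a => P a ∨ P' a) ≤ cnt P + cnt P' := by
  classical
  unfold cnt
  refine le_trans (card_le_card ?_) (card_union_le _ _)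
  intro a ha
  simpa using ha

lemma cnt_perm {α : Type} [Fintype α] (e : Equiv.Perm α) (P : α → Prop) :
    cnt (fun a => P (e a)) = cnt P := by
  classical
  unfold cnt
  refine card_bij (fun a _ => e a) ?_ ?_ ?_
  · intro a ha
    simpa using ha
  · intro a _ b _ h
    exact e.injective h
  · intro b hb
    exact ⟨e.symm b, by simpa using hb, by simp⟩

lemma cnt_le_card {α : Type} [Fintype α] (P : α → Prop) : cnt P ≤ Fintype.card α := by
  classical
  unfold cnt
  exact card_le_univ _

lemma cnt_ex {α ι : Type} [Fintype α] [Fintype ι] (P : ι → α → Prop) :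
    cnt (fun a => ∃ i, P i a) ≤ ∑ i, cnt (P i) := by
  classical
  unfold cnt
  refine le_trans (card_le_card ?_) card_biUnion_le
  intro a ha
  simpa using ha

/-- completeness of the test -/
theorem compl (σ : J → Equiv.Perm (R p n Q)) (t : Fin n) (X : U p n Q → Option (ZMod p)) :
    cnt (bad σ X) ≤ (6 + Fintype.card J) * cnt (fun u => X u ≠ some (clk t u)) := by
  classical
  have h1 : cnt (bad σ X) ≤ cnt (fun u => ∃ i : Fin 6 ⊕ J,
      X (tnb σ i u) ≠ some (clk t (tnb σ i u))) := by
    refine cnt_mono fun u hu => ?_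
    by_contra hc
    push Not at hc
    refine hu ⟨fun i => clk t (tnb σ (.inl i) u), fun i => hc _, fun j => ?_, ?_, ?_, ?_⟩
    · change X (tnb σ (.inr j) u) = _
      rw [hc]
      simp [tnb, clk]
    · simp [tnb, clk]
    · simp [tnb, clk]
    · simp [tnb, clk]
  refine h1.trans ((cnt_ex _).trans ?_)
  have h2 : ∀ i : Fin 6 ⊕ J, cnt (fun u => X (tnb σ i u) ≠ some (clk t (tnb σ i u))) =
      cnt (fun u => X u ≠ some (clk t u)) := fun i =>
    cnt_perm (tnb σ i) (fun u => X u ≠ some (clk t u))
  rw [sum_congr rfl fun i _ => h2 i, sum_const, smul_eq_mul, card_univ]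
  simp

open Classical in
/-- in a mixing fibre a set of density at most `1/2` has many points with a neighbour outside -/
lemma fibre_half {Rr : Type} [Fintype Rr] [Nonempty Rr] [Nonempty J] {σ : J → Equiv.Perm Rr}
    {lam : ℝ} (h : Mixes σ lam) (hl : lam ≤ 1 / 8) (A : Finset Rr)
    (hA : 2 * A.card ≤ Fintype.card Rr) :
    A.card ≤ 2 * (A.filter fun r => ∃ j, σ j r ∉ A).card := by
  classical
  have hR : (0 : ℝ) < Fintype.card Rr := by exact_mod_cast Fintype.card_pos
  have hJ : (0 : ℝ) < Fintype.card J := by exact_mod_cast Fintype.card_pos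
  have h1 := h fun r => if r ∈ A then (1 : ℝ) else 0
  have hs1 : ∑ r : Rr, (if r ∈ A then (1 : ℝ) else 0) = A.card := by simp
  have hs2 : ∑ r : Rr, (if r ∈ A then (1 : ℝ) else 0) ^ 2 = A.card := by simp
  rw [hs1, hs2] at h1
  set α : ℝ := (A.card : ℝ) / (Fintype.card Rr : ℝ) with hα
  have hα2 : α ≤ 1 / 2 := by
    rw [hα, div_le_iff₀ hR]
    have : (2 : ℝ) * A.card ≤ Fintype.card Rr := by exact_mod_cast hA
    linarith
  have h2 : ∑ r ∈ A.filter (fun r => ∀ j, σ j r ∈ A), (1 / 4 : ℝ) ≤
      ∑ r : Rr, ((∑ j, if σ j r ∈ A then (1 : ℝ) else 0) / (Fintype.card J : ℝ) - α) ^ 2 := by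
    refine le_trans (sum_le_sum fun r hr => ?_)
      (sum_le_sum_of_subset_of_nonneg (subset_univ _) fun _ _ _ => sq_nonneg _)
    have hr' := (mem_filter.1 hr).2
    have e : (∑ j, if σ j r ∈ A then (1 : ℝ) else 0) = Fintype.card J := by
      rw [sum_congr rfl fun j _ => if_pos (hr' j)]
      simp
    rw [e, div_self hJ.ne']
    nlinarith
  rw [sum_const, nsmul_eq_mul] at h2
  have h3 : ((A.filter fun r => ∀ j, σ j r ∈ A).card : ℝ) * (1 / 4) ≤ lam * A.card :=
    h2.trans h1
  have h4 : (A.filter fun r => ∀ j, σ j r ∈ A).card + (A.filter fun r => ∃ j, σ j r ∉ A).card =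
      A.card := by
    rw [← card_filter_add_card_filter_not (s := A) (fun r => ∀ j, σ j r ∈ A)]
    congr 2
    exact filter_congr fun r _ => by push Not; exact Iff.rfl
  have h5 : (0 : ℝ) ≤ A.card := by positivity
  have h6 : ((A.filter fun r => ∀ j, σ j r ∈ A).card : ℝ) * 2 ≤ A.card := by nlinarith
  have h7 : (A.filter fun r => ∀ j, σ j r ∈ A).card * 2 ≤ A.card := by exact_mod_cast h6
  omega

/-- one fibre: some value differs from at most `2 *` (number of failing comparisons) symbols -/
lemma fibre_value {Rr Y : Type} [Fintype Rr] [Nonempty Rr] [Nonempty J] [Nonempty Y]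
    {σ : J → Equiv.Perm Rr} {lam : ℝ} (h : Mixes σ lam) (hl : lam ≤ 1 / 8) (X : Rr → Option Y) :
    ∃ y : Y, cnt (fun r => X r ≠ some y) ≤ 2 * cnt (fun r => X r = none ∨ ∃ j, X (σ j r) ≠ X r) := by
  classical
  set bd : Finset Rr := univ.filter fun r => X r = none ∨ ∃ j, X (σ j r) ≠ X r with hbd
  have hcell : ∀ o : Option Y, 2 * (univ.filter fun r => X r = o).card ≤ Fintype.card Rr →
      (univ.filter fun r => X r = o).card ≤ 2 * (bd.filter fun r => X r = o).card := by
    intro o ho
    refine (fibre_half h hl _ ho).trans (Nat.mul_le_mul_left 2 (card_le_card fun r hr => ?_))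
    simp only [hbd, mem_filter, mem_univ, true_and] at hr ⊢
    obtain ⟨hr1, j, hj⟩ := hr
    exact ⟨Or.inr ⟨j, fun hc => hj (hc.trans hr1)⟩, hr1⟩
  -- number of symbols with a value in a set of options, all of whose cells are small
  have hsum : ∀ P : Option Y → Prop, (∀ o, P o →
      2 * (univ.filter fun r => X r = o).card ≤ Fintype.card Rr) →
      (univ.filter fun r => P (X r)).card ≤ 2 * bd.card := by
    intro P hP
    have e1 : (univ.filter fun r => P (X r)).card =
        ∑ o ∈ (univ.image X).filter P, (univ.filter fun r => X r = o).card := by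
      rw [← card_biUnion]
      · congr 1
        ext r
        simp only [mem_filter, mem_univ, true_and, mem_biUnion, mem_image]
        constructor
        · intro hr
          exact ⟨X r, ⟨⟨r, rfl⟩, hr⟩, rfl⟩
        · rintro ⟨o, ⟨_, ho⟩, hro⟩
          rw [hro]; exact ho
      · intro a _ b _ hab
        rw [Function.onFun, disjoint_left]
        intro r hr1 hr2
        simp only [mem_filter, mem_univ, true_and] at hr1 hr2
        exact hab (hr1.symm.trans hr2)
    have e2 : ∑ o ∈ (univ.image X).filter P, (bd.filter fun r => X r = o).card ≤ bd.card := by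
      rw [← card_biUnion]
      · refine card_le_card fun r hr => ?_
        simp only [mem_biUnion, mem_filter] at hr
        obtain ⟨_, _, hr, _⟩ := hr
        exact hr
      · intro a _ b _ hab
        rw [Function.onFun, disjoint_left]
        intro r hr1 hr2
        simp only [mem_filter] at hr1 hr2
        exact hab (hr1.2.symm.trans hr2.2)
    rw [e1]
    calc ∑ o ∈ (univ.image X).filter P, (univ.filter fun r => X r = o).card
        ≤ ∑ o ∈ (univ.image X).filter P, 2 * (bd.filter fun r => X r = o).card :=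
          sum_le_sum fun o ho => hcell o (hP o (mem_filter.1 ho).2)
      _ = 2 * ∑ o ∈ (univ.image X).filter P, (bd.filter fun r => X r = o).card := by
          rw [mul_sum]
      _ ≤ 2 * bd.card := Nat.mul_le_mul_left 2 e2
  have hbdc : cnt (fun r => X r = none ∨ ∃ j, X (σ j r) ≠ X r) = bd.card := by
    unfold cnt
    rw [hbd]
    congr
  rw [hbdc]
  by_cases hbig : ∃ o : Option Y, Fintype.card Rr < 2 * (univ.filter fun r => X r = o).card
  · obtain ⟨o, ho⟩ := hbig
    have hother : ∀ o', o' ≠ o → 2 * (univ.filter fun r => X r = o').card ≤ Fintype.card Rr := by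
      intro o' ho'
      have hd : Disjoint (univ.filter fun r => X r = o) (univ.filter fun r => X r = o') := by
        rw [disjoint_left]
        intro r hr1 hr2
        simp only [mem_filter, mem_univ, true_and] at hr1 hr2
        exact ho' (hr2.symm.trans hr1)
      have h1 := card_le_univ ((univ.filter fun r => X r = o) ∪ (univ.filter fun r => X r = o'))
      rw [card_union_of_disjoint hd] at h1
      omega
    cases o with
    | some y =>
      refine ⟨y, ?_⟩
      exact hsum (fun o' => o' ≠ some y) hother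
    | none =>
      refine ⟨Classical.arbitrary Y, ?_⟩
      have h1 : (univ.filter fun r => X r = none).card ≤ bd.card :=
        card_le_card fun r hr => by
          simp only [hbd, mem_filter, mem_univ, true_and] at hr ⊢
          exact Or.inl hr
      have h2 := cnt_le_card (fun r => X r ≠ some (Classical.arbitrary Y))
      omega
  · push Not at hbig
    refine ⟨Classical.arbitrary Y, ?_⟩
    exact hsum (fun o' => o' ≠ some (Classical.arbitrary Y)) fun o' _ => hbig o'

/-- sum over the fibres -/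
lemma cnt_prod {α β : Type} [Fintype α] [Fintype β] (P : α × β → Prop) :
    cnt P = ∑ a, cnt (fun b => P (a, b)) := by
  classical
  unfold cnt
  simp only [card_filter]
  rw [Fintype.sum_prod_type]

lemma cnt_fst {α β : Type} [Fintype α] [Fintype β] (P : α → Prop) :
    cnt (fun u : α × β => P u.1) = cnt P * Fintype.card β := by
  classical
  unfold cnt
  rw [← card_univ, ← card_product]
  congr 1
  ext u
  simp

lemma cnt_eq_filter {α : Type} [Fintype α] (P : α → Prop) [DecidablePred P] :
    cnt P = (univ.filter P).card := by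
  unfold cnt
  congr

/-- fibre step of soundness: a table of values -/
theorem exists_table [Nonempty Q] [Nonempty J] {σ : J → Equiv.Perm (R p n Q)} {lam : ℝ}
    (h : Mixes σ lam) (hl : lam ≤ 1 / 8) (X : U p n Q → Option (ZMod p)) :
    ∃ f : V p n → ZMod p, cnt (fun u => X u ≠ some (f u.1)) ≤ 2 * cnt (bad σ X) := by
  classical
  choose f hf using fun x : V p n => fibre_value (Y := ZMod p) h hl (fun r => X (x, r))
  refine ⟨f, ?_⟩
  rw [cnt_prod, cnt_prod, mul_sum]
  refine sum_le_sum fun x _ => (hf x).trans (Nat.mul_le_mul_left 2 (cnt_mono fun r hr => ?_))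
  intro hok
  obtain ⟨g, h1, h2, -⟩ := hok
  have h0 : X (x, r) = some (g 0) := h1 0
  rcases hr with hr | ⟨j, hj⟩
  · rw [hr] at h0
    exact absurd h0 (by simp)
  · exact hj ((h2 j).trans h0.symm)

/-- number of additive defects, lifted to the units -/
lemma lift_add (f : V p n → ZMod p) :
    (BLR46.bad f).card * (Fintype.card (V p n) * Fintype.card Q) =
      cnt (fun u : U p n Q => ¬ f u.1 + f u.2.1 = f (u.1 + u.2.1)) := by
  classical
  rw [cnt_eq_filter, ← Fintype.card_prod, ← card_univ, ← card_product]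
  refine card_bij (fun a _ => (a.1.1, a.1.2, a.2)) ?_ ?_ ?_
  · rintro ⟨⟨a, b⟩, c⟩ ha
    simpa [BLR46.bad] using ha
  · rintro ⟨⟨a, b⟩, c⟩ _ ⟨⟨a', b'⟩, c'⟩ _ hh
    simp only [Prod.mk.injEq] at hh
    obtain ⟨rfl, rfl, rfl⟩ := hh
    rfl
  · rintro ⟨a, b, c⟩ hb
    exact ⟨((a, b), c), by simpa [BLR46.bad] using hb, rfl⟩

lemma lift_mul (f : V p n → ZMod p) :
    (BLR46.badMul f).card * Fintype.card Q =
      cnt (fun u : U p n Q => ¬ f (u.1 * u.2.1 + u.2.2.1) - f u.2.2.1 = f u.1 * f u.2.1) := by
  classical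
  rw [cnt_eq_filter, ← card_univ, ← card_product]
  refine card_bij (fun a _ => (a.1.1, a.1.2.1, a.1.2.2, a.2)) ?_ ?_ ?_
  · rintro ⟨⟨a, b, d⟩, c⟩ ha
    simpa [BLR46.badMul] using ha
  · rintro ⟨⟨a, b, d⟩, c⟩ _ ⟨⟨a', b', d'⟩, c'⟩ _ hh
    simp only [Prod.mk.injEq] at hh
    obtain ⟨rfl, rfl, rfl, rfl⟩ := hh
    rfl
  · rintro ⟨a, b, d, c⟩ hb
    exact ⟨((a, b, d), c), by simpa [BLR46.badMul] using hb, rfl⟩

/-- homomorphisms to `ZMod p` commute with scalars: the scalar test is automatic -/
lemma smul_bad (f : V p n → ZMod p) (hb : 6 * (BLR46.bad f).card <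
    Fintype.card (V p n) * Fintype.card (V p n)) (a : ZMod p) (ha : a ≠ 0) :
    Fintype.card (V p n) * (univ.filter fun y : V p n => ¬ f (a • y) = a • f y).card ≤
      4 * (BLR46.bad f).card := by
  classical
  obtain ⟨g, -, hg⟩ := BLR46.blr f hb
  have hsm : ∀ y, g (a • y) = a • g y := fun y =>
    (AddMonoidHom.toZModLinearMap p g).map_smul a y
  have h1 : (univ.filter fun y : V p n => ¬ f (a • y) = a • f y).card ≤
      (univ.filter fun x => ¬ f x = g x).card + (univ.filter fun x => ¬ f x = g x).card := by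
    have h2 : (univ.filter fun y : V p n => ¬ f (a • y) = g (a • y)).card ≤
        (univ.filter fun x => ¬ f x = g x).card := by
      refine card_le_card_of_injOn (fun y => a • y) ?_ ?_
      · intro y hy
        simpa using hy
      · intro y _ z _ hyz
        exact smul_right_injective _ ha hyz
    refine le_trans (card_le_card ?_) ((card_union_le _ _).trans (Nat.add_le_add_right h2 _))
    intro y hy
    simp only [mem_filter, mem_univ, true_and, mem_union] at hy ⊢
    by_contra hc
    push Not at hc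
    apply hy
    rw [hc.1, hsm, hc.2]
  calc _ ≤ Fintype.card (V p n) * ((univ.filter fun x => ¬ f x = g x).card +
        (univ.filter fun x => ¬ f x = g x).card) := Nat.mul_le_mul_left _ h1
    _ = 2 * (Fintype.card (V p n) * (univ.filter fun x => ¬ f x = g x).card) := by ring
    _ ≤ 2 * (2 * (BLR46.bad f).card) := Nat.mul_le_mul_left _ hg
    _ = _ := by ring

/-- **SOUNDNESS of the clock test.** -/
theorem sound [Nonempty Q] [Nonempty J] {σ : J → Equiv.Perm (R p n Q)} {lam : ℝ}
    (h : Mixes σ lam) (hl : lam ≤ 1 / 8) (X : U p n Q → Option (ZMod p))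
    (hv : 204 * cnt (bad σ X) < Fintype.card (U p n Q)) :
    ∃ t : Fin n, cnt (fun u => X u ≠ some (clk t u)) ≤ 16 * cnt (bad σ X) := by
  classical
  obtain ⟨f, hf⟩ := exists_table h hl X
  set ν := cnt (bad σ X) with hν
  set B := cnt (fun u => X u ≠ some (f u.1)) with hB
  set N := Fintype.card (V p n) with hN
  set m := Fintype.card Q with hm
  have hNpos : 0 < N := Fintype.card_pos
  have hmpos : 0 < m := Fintype.card_pos
  have hcard : Fintype.card (U p n Q) = N * (N * (N * m)) := by
    rw [Fintype.card_prod, Fintype.card_prod, Fintype.card_prod]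
  have hBp : ∀ e : Equiv.Perm (U p n Q), cnt (fun u => X (e u) ≠ some (f (e u).1)) = B :=
    fun e => cnt_perm e (fun u => X u ≠ some (f u.1))
  -- additive defects
  have hadd : cnt (fun u : U p n Q => ¬ f u.1 + f u.2.1 = f (u.1 + u.2.1)) ≤ 7 * ν := by
    have h1 : cnt (fun u : U p n Q => ¬ f u.1 + f u.2.1 = f (u.1 + u.2.1)) ≤
        cnt (fun u => bad σ X u ∨ (X u ≠ some (f u.1) ∨
          (X (Wsw u) ≠ some (f (Wsw u).1) ∨ X (Wadd u) ≠ some (f (Wadd u).1)))) := by
      refine cnt_mono fun u hu => ?_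
      by_contra hc
      push Not at hc
      obtain ⟨c0, c1, c2, c3⟩ := hc
      unfold bad at c0
      rw [not_not] at c0
      obtain ⟨g, g1, -, g2, -⟩ := c0
      have a0 : X u = some (g 0) := g1 0
      have a1 : X (Wsw u) = some (g 1) := g1 1
      have a2 : X (Wadd u) = some (g 2) := g1 2
      rw [c1] at a0
      rw [c2] at a1
      rw [c3] at a2
      apply hu
      have b0 := Option.some.inj a0
      have b1 := Option.some.inj a1
      have b2 := Option.some.inj a2
      simp only [Wsw_apply, Wadd_apply] at b1 b2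
      rw [b0, b1, b2, g2]
    have h2 := cnt_or (fun u => bad σ X u) (fun u => X u ≠ some (f u.1) ∨
          (X (Wsw u) ≠ some (f (Wsw u).1) ∨ X (Wadd u) ≠ some (f (Wadd u).1)))
    have h3 := cnt_or (fun u => X u ≠ some (f u.1)) (fun u =>
          (X (Wsw u) ≠ some (f (Wsw u).1) ∨ X (Wadd u) ≠ some (f (Wadd u).1)))
    have h4 := cnt_or (fun u => X (Wsw u) ≠ some (f (Wsw u).1))
      (fun u => X (Wadd u) ≠ some (f (Wadd u).1))
    rw [hBp, hBp] at h4
    have h5 : cnt (fun u => bad σ X u) = ν := rfl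
    omega
  have hmul : cnt (fun u : U p n Q =>
      ¬ f (u.1 * u.2.1 + u.2.2.1) - f u.2.2.1 = f u.1 * f u.2.1) ≤ 9 * ν := by
    have h1 : cnt (fun u : U p n Q =>
        ¬ f (u.1 * u.2.1 + u.2.2.1) - f u.2.2.1 = f u.1 * f u.2.1) ≤
        cnt (fun u => bad σ X u ∨ (X u ≠ some (f u.1) ∨
          (X (Wsw u) ≠ some (f (Wsw u).1) ∨ (X (Wmul u) ≠ some (f (Wmul u).1) ∨
          X (Wrd 0 u) ≠ some (f (Wrd 0 u).1))))) := by
      refine cnt_mono fun u hu => ?_
      by_contra hc
      push Not at hc
      obtain ⟨c0, c1, c2, c3, c4⟩ := hc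
      unfold bad at c0
      rw [not_not] at c0
      obtain ⟨g, g1, -, -, g2, -⟩ := c0
      have a0 : X u = some (g 0) := g1 0
      have a1 : X (Wsw u) = some (g 1) := g1 1
      have a3 : X (Wmul u) = some (g 3) := g1 3
      have a4 : X (Wrd 0 u) = some (g 4) := g1 4
      rw [c1] at a0
      rw [c2] at a1
      rw [c3] at a3
      rw [c4] at a4
      apply hu
      have b0 := Option.some.inj a0
      have b1 := Option.some.inj a1
      have b3 := Option.some.inj a3
      have b4 := Option.some.inj a4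
      simp only [Wsw_apply, Wmul_apply, Wrd_apply, Pi.zero_apply, zero_add] at b1 b3 b4
      rw [b0, b1, b3, b4, g2]
    have h2 := cnt_or (fun u => bad σ X u) (fun u => X u ≠ some (f u.1) ∨
          (X (Wsw u) ≠ some (f (Wsw u).1) ∨ (X (Wmul u) ≠ some (f (Wmul u).1) ∨
          X (Wrd 0 u) ≠ some (f (Wrd 0 u).1))))
    have h3 := cnt_or (fun u => X u ≠ some (f u.1)) (fun u =>
          (X (Wsw u) ≠ some (f (Wsw u).1) ∨ (X (Wmul u) ≠ some (f (Wmul u).1) ∨
          X (Wrd 0 u) ≠ some (f (Wrd 0 u).1))))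
    have h4 := cnt_or (fun u => X (Wsw u) ≠ some (f (Wsw u).1))
      (fun u => (X (Wmul u) ≠ some (f (Wmul u).1) ∨ X (Wrd 0 u) ≠ some (f (Wrd 0 u).1)))
    have h5 := cnt_or (fun u => X (Wmul u) ≠ some (f (Wmul u).1))
      (fun u => X (Wrd 0 u) ≠ some (f (Wrd 0 u).1))
    rw [hBp, hBp] at h5
    rw [hBp] at h4
    have h6 : cnt (fun u => bad σ X u) = ν := rfl
    omega
  have hone : cnt (fun u : U p n Q => ¬ f (1 + u.1) - f u.1 = 1) ≤ 5 * ν := by
    have h1 : cnt (fun u : U p n Q => ¬ f (1 + u.1) - f u.1 = 1) ≤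
        cnt (fun u => bad σ X u ∨ (X u ≠ some (f u.1) ∨ X (Wone u) ≠ some (f (Wone u).1))) := by
      refine cnt_mono fun u hu => ?_
      by_contra hc
      push Not at hc
      obtain ⟨c0, c1, c2⟩ := hc
      unfold bad at c0
      rw [not_not] at c0
      obtain ⟨g, g1, -, -, -, g2⟩ := c0
      have a0 : X u = some (g 0) := g1 0
      have a5 : X (Wone u) = some (g 5) := g1 5
      rw [c1] at a0
      rw [c2] at a5
      apply hu
      have b0 := Option.some.inj a0
      have b5 := Option.some.inj a5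
      simp only [Wone_apply] at b5
      rw [b0, b5, g2]
    have h2 := cnt_or (fun u => bad σ X u)
      (fun u => X u ≠ some (f u.1) ∨ X (Wone u) ≠ some (f (Wone u).1))
    have h3 := cnt_or (fun u => X u ≠ some (f u.1)) (fun u => X (Wone u) ≠ some (f (Wone u).1))
    rw [hBp] at h3
    have h6 : cnt (fun u => bad σ X u) = ν := rfl
    omega
  -- pass to the table
  have e1 : (BLR46.bad f).card * (N * m) ≤ 7 * ν := (lift_add (Q := Q) f).trans_le hadd
  have e2 : (BLR46.badMul f).card * m ≤ 9 * ν := (lift_mul (Q := Q) f).trans_le hmul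
  have e3 : (univ.filter fun r : V p n => ¬ f (1 + r) - f r = 1).card * (N * (N * m)) ≤
      5 * ν := by
    have h1 := cnt_fst (β := R p n Q) (fun r : V p n => ¬ f (1 + r) - f r = 1)
    rw [Fintype.card_prod, Fintype.card_prod, cnt_eq_filter (fun r : V p n => ¬ f (1 + r) - f r = 1)]
      at h1
    exact h1.symm.trans_le hone
  rw [hcard] at hv
  -- cancel
  have hb : 6 * (BLR46.bad f).card < N * N := by
    refine lt_of_mul_lt_mul_right (a := N * m) ?_ (Nat.zero_le _)
    calc 6 * (BLR46.bad f).card * (N * m) = 6 * ((BLR46.bad f).card * (N * m)) := by ring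
      _ ≤ 6 * (7 * ν) := Nat.mul_le_mul_left 6 e1
      _ < N * (N * (N * m)) := by omega
      _ = N * N * (N * m) := by ring
  have hp2 : 2 ≤ Fintype.card (ZMod p) := by
    rw [ZMod.card]
    exact (Fact.out : p.Prime).two_le
  obtain ⟨a, ha⟩ := IsCyclic.exists_generator (α := (ZMod p)ˣ)
  have hgen : ∀ b : ZMod p, b ≠ 0 → ∃ k : ℕ, b = (a : ZMod p) ^ k := by
    intro b hb0
    obtain ⟨k, hk⟩ := mem_powers_iff_mem_zpowers.2 (ha (Units.mk0 b hb0))
    exact ⟨k, by simpa using (congrArg Units.val hk).symm⟩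
  have hs := smul_bad f hb a a.ne_zero
  have hs' : 8 * (BLR46.bad f).card + 2 * (N *
      (univ.filter fun y : V p n => ¬ f ((a : ZMod p) • y) = (a : ZMod p) • f y).card) < N * N := by
    refine lt_of_mul_lt_mul_right (a := N * m) ?_ (Nat.zero_le _)
    calc _ ≤ (8 * (BLR46.bad f).card + 2 * (4 * (BLR46.bad f).card)) * (N * m) :=
          Nat.mul_le_mul_right _ (Nat.add_le_add_left (Nat.mul_le_mul_left 2 hs) _)
      _ = 16 * ((BLR46.bad f).card * (N * m)) := by ring
      _ ≤ 16 * (7 * ν) := Nat.mul_le_mul_left 16 e1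
      _ < N * (N * (N * m)) := by omega
      _ = N * N * (N * m) := by ring
  have hm' : Fintype.card (ZMod p) ^ 2 * ((BLR46.badMul f).card + 6 * (BLR46.bad f).card * N) <
      (Fintype.card (ZMod p) - 1) ^ 2 * N ^ 3 := by
    refine lt_of_mul_lt_mul_right (a := m) ?_ (Nat.zero_le _)
    have h1 : ((BLR46.badMul f).card + 6 * (BLR46.bad f).card * N) * m ≤ 51 * ν := by
      calc _ = (BLR46.badMul f).card * m + 6 * ((BLR46.bad f).card * (N * m)) := by ring
        _ ≤ 9 * ν + 6 * (7 * ν) := Nat.add_le_add e2 (Nat.mul_le_mul_left 6 e1)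
        _ = 51 * ν := by ring
    have h2 : Fintype.card (ZMod p) ≤ 2 * (Fintype.card (ZMod p) - 1) := by omega
    have h3 : Fintype.card (ZMod p) ^ 2 ≤ 4 * (Fintype.card (ZMod p) - 1) ^ 2 := by
      calc _ ≤ (2 * (Fintype.card (ZMod p) - 1)) ^ 2 := Nat.pow_le_pow_left h2 2
        _ = _ := by ring
    have h4 : 0 < (Fintype.card (ZMod p) - 1) ^ 2 := by
      have : 0 < Fintype.card (ZMod p) - 1 := by omega
      positivity
    calc _ = Fintype.card (ZMod p) ^ 2 *
          (((BLR46.badMul f).card + 6 * (BLR46.bad f).card * N) * m) := by ring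
      _ ≤ (4 * (Fintype.card (ZMod p) - 1) ^ 2) * (51 * ν) := Nat.mul_le_mul h3 h1
      _ = (Fintype.card (ZMod p) - 1) ^ 2 * (204 * ν) := by ring
      _ < (Fintype.card (ZMod p) - 1) ^ 2 * (N * (N * (N * m))) :=
          Nat.mul_lt_mul_of_pos_left hv h4
      _ = _ := by ring
  have h1' : 2 * (BLR46.bad f).card + N *
      (univ.filter fun r : V p n => ¬ f (1 + r) - f r = 1).card < N * N := by
    refine lt_of_mul_lt_mul_right (a := N * m) ?_ (Nat.zero_le _)
    calc _ = 2 * ((BLR46.bad f).card * (N * m)) +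
          (univ.filter fun r : V p n => ¬ f (1 + r) - f r = 1).card * (N * (N * m)) := by ring
      _ ≤ 2 * (7 * ν) + 5 * ν := Nat.add_le_add (Nat.mul_le_mul_left 2 e1) e3
      _ < N * (N * (N * m)) := by omega
      _ = N * N * (N * m) := by ring
  obtain ⟨t, -, ht⟩ := BLR46.longCode f (a : ZMod p) a.ne_zero hgen hb hs' hm' h1'
  refine ⟨t, ?_⟩
  -- distance of the table from the coordinate
  have e4 : cnt (fun u : U p n Q => ¬ f u.1 = u.1 t) ≤ 14 * ν := by
    have h1 := cnt_fst (β := R p n Q) (fun r : V p n => ¬ f r = r t)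
    rw [Fintype.card_prod, Fintype.card_prod, cnt_eq_filter (fun r : V p n => ¬ f r = r t)] at h1
    refine h1.le.trans ?_
    calc _ = N * (univ.filter fun r : V p n => ¬ f r = r t).card * (N * m) := by ring
      _ ≤ 2 * (BLR46.bad f).card * (N * m) := Nat.mul_le_mul_right _ ht
      _ = 2 * ((BLR46.bad f).card * (N * m)) := by ring
      _ ≤ 2 * (7 * ν) := Nat.mul_le_mul_left 2 e1
      _ = 14 * ν := by ring
  have h5 : cnt (fun u => X u ≠ some (clk t u)) ≤
      cnt (fun u => X u ≠ some (f u.1) ∨ ¬ f u.1 = u.1 t) := by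
    refine cnt_mono fun u hu => ?_
    by_contra hc
    push Not at hc
    exact hu (by rw [hc.1, hc.2]; rfl)
  have h6 := cnt_or (fun u => X u ≠ some (f u.1)) (fun u : U p n Q => ¬ f u.1 = u.1 t)
  omega

/-- **SEPARATION** -/
theorem sep {t t' : Fin n} (h : t ≠ t') :
    Fintype.card (U p n Q) ≤ 2 * cnt (fun u : U p n Q => clk t u ≠ clk t' u) := by
  classical
  have h1 : Fintype.card (V p n) ≤ 2 * cnt (fun x : V p n => x t ≠ x t') := by
    obtain ⟨φ, hφ⟩ : ∃ φ : V p n →ₗ[ZMod p] ZMod p, ∀ x, φ x = x t - x t' :=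
      ⟨LinearMap.proj (R := ZMod p) (φ := fun _ : Fin n => ZMod p) t - LinearMap.proj t',
        fun x => by rw [LinearMap.sub_apply]; rfl⟩
    have hne : φ ≠ 0 := by
      intro h0
      have h00 := DFunLike.congr_fun h0 (Pi.single t 1)
      rw [hφ] at h00
      simp [h.symm] at h00
    have h2 := BLR46.card_ne_zero_ge φ hne
    have hp2 : 2 ≤ Fintype.card (ZMod p) := by
      rw [ZMod.card]
      exact (Fact.out : p.Prime).two_le
    have h3 : (univ.filter fun x : V p n => ¬ φ x = 0).card =
        cnt (fun x : V p n => x t ≠ x t') := by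
      rw [cnt_eq_filter]
      congr 1
      ext x
      simp [hφ, sub_eq_zero]
    rw [h3] at h2
    by_contra hlt
    push Not at hlt
    have h4 : Fintype.card (ZMod p) * (2 * cnt (fun x : V p n => x t ≠ x t')) <
        Fintype.card (ZMod p) * Fintype.card (V p n) := Nat.mul_lt_mul_of_pos_left hlt (by omega)
    have h5 : Fintype.card (ZMod p) * Fintype.card (V p n) ≤
        2 * ((Fintype.card (ZMod p) - 1) * Fintype.card (V p n)) := by
      rw [← mul_assoc]
      exact Nat.mul_le_mul_right _ (by omega)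
    have h6 : Fintype.card (ZMod p) * (2 * cnt (fun x : V p n => x t ≠ x t')) =
        2 * (Fintype.card (ZMod p) * cnt (fun x : V p n => x t ≠ x t')) := by ring
    omega
  have h2 := cnt_fst (β := R p n Q) (fun x : V p n => x t ≠ x t')
  calc Fintype.card (U p n Q) = Fintype.card (V p n) * Fintype.card (R p n Q) :=
        Fintype.card_prod _ _
    _ ≤ 2 * cnt (fun x : V p n => x t ≠ x t') * Fintype.card (R p n Q) :=
        Nat.mul_le_mul_right _ h1
    _ = 2 * (cnt (fun x : V p n => x t ≠ x t') * Fintype.card (R p n Q)) := by ring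
    _ = 2 * cnt (fun u : U p n Q => clk t u ≠ clk t' u) := by rw [← h2]; rfl

/-! ### local correction -/

/-- the two permutations used by the self correction satisfy the mixing condition -/
lemma mixesX_add [Nonempty Q] : MixesX (Wadd : Equiv.Perm (U p n Q)) := by
  intro f x
  have hQ : (0 : ℝ) < Fintype.card Q := by exact_mod_cast Fintype.card_pos
  have hV : (0 : ℝ) < Fintype.card (V p n) := by exact_mod_cast Fintype.card_pos
  have h1 : ∑ r : R p n Q, f (Wadd (x, r)).1 =
      (∑ x, f x) * ((Fintype.card (V p n) : ℝ) * Fintype.card Q) := by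
    rw [Fintype.sum_prod_type]
    simp only [Wadd_apply, sum_const, card_univ, nsmul_eq_mul, Fintype.card_prod, Nat.cast_mul]
    have h2 : ∑ y, f (x + y) = ∑ y, f y := Equiv.sum_comp (Equiv.addLeft x) f
    rw [← mul_sum, mul_comm, h2]
  rw [h1, Fintype.card_prod, Fintype.card_prod]
  push_cast
  field_simp

lemma mixesX_sw [Nonempty Q] : MixesX (Wsw : Equiv.Perm (U p n Q)) := by
  intro f x
  have hQ : (0 : ℝ) < Fintype.card Q := by exact_mod_cast Fintype.card_pos
  have hV : (0 : ℝ) < Fintype.card (V p n) := by exact_mod_cast Fintype.card_pos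
  have h1 : ∑ r : R p n Q, f (Wsw (x, r)).1 =
      (∑ x, f x) * ((Fintype.card (V p n) : ℝ) * Fintype.card Q) := by
    rw [Fintype.sum_prod_type]
    simp only [Wsw_apply, sum_const, card_univ, nsmul_eq_mul, Fintype.card_prod, Nat.cast_mul]
    rw [← mul_sum, mul_comm]
  rw [h1, Fintype.card_prod, Fintype.card_prod]
  push_cast
  field_simp

/-- strict majority value of a family of optional symbols -/
noncomputable def maj {ι Y : Type} [Fintype ι] (v : ι → Option Y) : Option Y :=
  open Classical in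
  if h : ∃ y, Fintype.card ι < 2 * cnt (fun i => v i = some y) then some h.choose else none

lemma maj_eq {ι Y : Type} [Fintype ι] {v : ι → Option Y} {y : Y}
    (h : Fintype.card ι < 2 * cnt (fun i => v i = some y)) : maj v = some y := by
  classical
  have he : ∃ y, Fintype.card ι < 2 * cnt (fun i => v i = some y) := ⟨y, h⟩
  unfold maj
  rw [dif_pos he]
  have h2 := he.choose_spec
  by_contra hne
  have hne' : he.choose ≠ y := fun hc => hne (by rw [hc])
  generalize he.choose = z at h2 hne'
  have h3 : cnt (fun i => v i = some z) + cnt (fun i => v i = some y) ≤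
      Fintype.card ι := by
    rw [cnt_eq_filter, cnt_eq_filter, ← card_union_of_disjoint]
    · exact card_le_univ _
    · rw [disjoint_left]
      intro i hi hi'
      simp only [mem_filter, mem_univ, true_and] at hi hi'
      exact hne' (Option.some.inj (hi.symm.trans hi'))
  omega

/-- the reads of the corrector -/
def cnb (σ : J → Equiv.Perm (R p n Q)) : Bool × (J × J) → Equiv.Perm (U p n Q)
  | (false, i) => (Wf σ i.1).trans (Wadd.trans (Wf σ i.2))
  | (true, i) => (Wf σ i.1).trans (Wsw.trans (Wf σ i.2))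

/-- difference of two optional symbols -/
def osub (a b : Option (ZMod p)) : Option (ZMod p) :=
  match a, b with
  | some a, some b => some (a - b)
  | _, _ => none

/-- the corrector as a function of the symbols read -/
noncomputable def cfun (s : Bool × (J × J) → Option (ZMod p)) : Option (ZMod p) :=
  maj fun i : J × J => osub (s (false, i)) (s (true, i))

/-- the corrector -/
noncomputable def corr (σ : J → Equiv.Perm (R p n Q)) (X : U p n Q → Option (ZMod p))
    (u : U p n Q) : Option (ZMod p) := cfun fun i => X (cnb σ i u)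

lemma cnb_false (σ : J → Equiv.Perm (R p n Q)) (i : J × J) (u : U p n Q) :
    cnb σ (false, i) u = step2 σ Wadd i u := rfl

lemma cnb_true (σ : J → Equiv.Perm (R p n Q)) (i : J × J) (u : U p n Q) :
    cnb σ (true, i) u = step2 σ Wsw i u := rfl

/-- **CORRECTION** -/
theorem corr_contract [Nonempty Q] [Nonempty J] {σ : J → Equiv.Perm (R p n Q)} {lam : ℝ}
    (h : Mixes σ lam) (h0 : 0 ≤ lam) (hl : lam ≤ 1 / 2048) (t : Fin n)
    (X : U p n Q → Option (ZMod p))
    (hE : 8 * cnt (fun u => X u ≠ some (clk t u)) ≤ Fintype.card (U p n Q)) :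
    4 * cnt (fun u => corr σ X u ≠ some (clk t u)) ≤ cnt (fun u => X u ≠ some (clk t u)) := by
  classical
  set E : Finset (U p n Q) := univ.filter fun u => X u ≠ some (clk t u) with hEdef
  have hEc : cnt (fun u => X u ≠ some (clk t u)) = E.card := cnt_eq_filter _
  rw [hEc] at hE ⊢
  have hv := vote_contract h h0 hl (mixesX_add (p := p) (n := n) (Q := Q)) mixesX_sw E hE
  refine le_trans (Nat.mul_le_mul_left 4 ?_) hv
  rw [cnt_eq_filter]
  refine card_le_card fun u hu => ?_
  rw [mem_filter] at hu ⊢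
  refine ⟨mem_univ _, ?_⟩
  by_contra hlt
  push Not at hlt
  apply hu.2
  refine maj_eq ?_
  change Fintype.card (J × J) < 2 * cnt (fun i : J × J =>
    osub (X (cnb σ (false, i) u)) (X (cnb σ (true, i) u)) = some (clk t u))
  have h1 : cnt (fun i : J × J => step2 σ Wadd i u ∈ E ∨ step2 σ Wsw i u ∈ E) +
      cnt (fun i : J × J => ¬ (step2 σ Wadd i u ∈ E ∨ step2 σ Wsw i u ∈ E)) =
      Fintype.card (J × J) := by
    rw [cnt_eq_filter, cnt_eq_filter, card_filter_add_card_filter_not, card_univ]
  have hlt' : 2 * cnt (fun i : J × J => step2 σ Wadd i u ∈ E ∨ step2 σ Wsw i u ∈ E) <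
      Fintype.card J ^ 2 := by
    refine lt_of_eq_of_lt ?_ hlt
    rw [cnt_eq_filter]
    congr
  have h3 : cnt (fun i : J × J => ¬ (step2 σ Wadd i u ∈ E ∨ step2 σ Wsw i u ∈ E)) ≤
      cnt (fun i : J × J => osub (X (cnb σ (false, i) u)) (X (cnb σ (true, i) u)) =
        some (clk t u)) := by
    refine cnt_mono fun i hi => ?_
    push Not at hi
    obtain ⟨hi1, hi2⟩ := hi
    simp only [hEdef, mem_filter, mem_univ, true_and, not_not] at hi1 hi2
    rw [cnb_false, cnb_true, hi1, hi2]
    change some _ = some _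
    congr 1
    simp [step2, clk]
  have h4 : Fintype.card (J × J) = Fintype.card J ^ 2 := by rw [Fintype.card_prod, sq]
  omega

/-! ### reads of public functions of the clock -/

/-- read of the public function `φ` -/
def rd (φ : Q → V p n) (X : U p n Q → Option (ZMod p)) (u : U p n Q) : Option (ZMod p) :=
  osub (X (Wrd φ u)) (X (Wrd 0 u))

/-- on the exact clock word the read is exact -/
theorem rd_exact (φ : Q → V p n) (t : Fin n) (u : U p n Q) :
    rd φ (fun u => some (clk t u)) u = some (φ u.2.2.2 t) := by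
  change some _ = some _
  congr 1
  simp [clk]

/-- **READ** -/
theorem rd_err (φ : Q → V p n) (t : Fin n) (X : U p n Q → Option (ZMod p)) :
    cnt (fun u => rd φ X u ≠ some (φ u.2.2.2 t)) ≤ 2 * cnt (fun u => X u ≠ some (clk t u)) := by
  have h1 : cnt (fun u => rd φ X u ≠ some (φ u.2.2.2 t)) ≤
      cnt (fun u => X (Wrd φ u) ≠ some (clk t (Wrd φ u)) ∨
        X (Wrd 0 u) ≠ some (clk t (Wrd 0 u))) := by
    refine cnt_mono fun u hu => ?_
    by_contra hc
    push Not at hc
    apply hu
    rw [← rd_exact φ t u]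
    unfold rd
    rw [hc.1, hc.2]
  have h2 := cnt_or (fun u => X (Wrd φ u) ≠ some (clk t (Wrd φ u)))
    (fun u : U p n Q => X (Wrd 0 u) ≠ some (clk t (Wrd 0 u)))
  rw [cnt_perm (Wrd φ) (fun u => X u ≠ some (clk t u)),
    cnt_perm (Wrd 0) (fun u => X u ≠ some (clk t u))] at h2
  omega

/-- **SHIFT**: the clock word `ρ t` is the clock word `t` read at permuted units -/
theorem clk_rot (ρ : Equiv.Perm (Fin n)) (t : Fin n) (u : U p n Q) :
    clk (ρ t) u = clk t (Wrot ρ u) := rfl

theorem rot_err (ρ : Equiv.Perm (Fin n)) (t : Fin n) (X : U p n Q → Option (ZMod p)) :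
    cnt (fun u => X (Wrot ρ u) ≠ some (clk (ρ t) u)) = cnt (fun u => X u ≠ some (clk t u)) :=
  cnt_perm (Wrot ρ) (fun u => X u ≠ some (clk t u))

/-! ### the same in the vocabulary of `DefD` -/

lemma frac_eq {α : Type} [Fintype α] (P : α → Prop) :
    DefD.frac P = (cnt P : ℝ) / (Fintype.card α : ℝ) := by
  unfold DefD.frac cnt
  rfl

theorem compl_frac [Nonempty Q] (σ : J → Equiv.Perm (R p n Q)) (t : Fin n)
    (X : U p n Q → Option (ZMod p)) :
    DefD.frac (bad σ X) ≤ (6 + Fintype.card J : ℝ) * DefD.dist X (clk t) := by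
  unfold DefD.dist
  rw [frac_eq, frac_eq, ← mul_div_assoc]
  refine div_le_div_of_nonneg_right ?_ (Nat.cast_nonneg _)
  have := compl σ t X
  exact_mod_cast this

theorem sound_frac [Nonempty Q] [Nonempty J] {σ : J → Equiv.Perm (R p n Q)} {lam : ℝ}
    (h : Mixes σ lam) (hl : lam ≤ 1 / 8) (X : U p n Q → Option (ZMod p))
    (hv : DefD.frac (bad σ X) < 1 / 204) :
    ∃ t : Fin n, DefD.dist X (clk t) ≤ 16 * DefD.frac (bad σ X) := by
  have hU : (0 : ℝ) < Fintype.card (U p n Q) := by exact_mod_cast Fintype.card_pos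
  rw [frac_eq, div_lt_iff₀ hU] at hv
  obtain ⟨t, ht⟩ := sound h hl X (by
    have : (204 : ℝ) * cnt (bad σ X) < Fintype.card (U p n Q) := by linarith
    exact_mod_cast this)
  refine ⟨t, ?_⟩
  unfold DefD.dist
  rw [frac_eq, frac_eq, ← mul_div_assoc]
  refine div_le_div_of_nonneg_right ?_ (Nat.cast_nonneg _)
  exact_mod_cast ht

theorem sep_frac [Nonempty Q] {t t' : Fin n} (h : t ≠ t') :
    1 / 2 ≤ DefD.distW (clk (Q := Q) (p := p) t) (clk t') := by
  have hU : (0 : ℝ) < Fintype.card (U p n Q) := by exact_mod_cast Fintype.card_pos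
  unfold DefD.distW
  rw [frac_eq, le_div_iff₀ hU]
  have h1 := sep (p := p) (Q := Q) h
  have : (Fintype.card (U p n Q) : ℝ) ≤ 2 * cnt (fun u : U p n Q => clk t u ≠ clk t' u) := by
    exact_mod_cast h1
  linarith

theorem corr_frac [Nonempty Q] [Nonempty J] {σ : J → Equiv.Perm (R p n Q)} {lam : ℝ}
    (h : Mixes σ lam) (h0 : 0 ≤ lam) (hl : lam ≤ 1 / 2048) (t : Fin n)
    (X : U p n Q → Option (ZMod p)) (hE : DefD.dist X (clk t) ≤ 1 / 8) :
    DefD.dist (corr σ X) (clk t) ≤ DefD.dist X (clk t) / 4 := by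
  have hU : (0 : ℝ) < Fintype.card (U p n Q) := by exact_mod_cast Fintype.card_pos
  unfold DefD.dist at hE ⊢
  rw [frac_eq] at hE
  rw [frac_eq, frac_eq, div_div, div_le_div_iff₀ hU (by positivity)]
  rw [div_le_iff₀ hU] at hE
  have h1 := corr_contract h h0 hl t X (by
    have : (8 : ℝ) * cnt (fun u => X u ≠ some (clk t u)) ≤ Fintype.card (U p n Q) := by linarith
    exact_mod_cast this)
  have h2 : (4 : ℝ) * cnt (fun u => corr σ X u ≠ some (clk t u)) ≤
      cnt (fun u => X u ≠ some (clk t u)) := by exact_mod_cast h1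
  nlinarith

theorem rd_frac [Nonempty Q] (φ : Q → V p n) (t : Fin n) (X : U p n Q → Option (ZMod p)) :
    DefD.frac (fun u => rd φ X u ≠ some (φ u.2.2.2 t)) ≤ 2 * DefD.dist X (clk t) := by
  unfold DefD.dist
  rw [frac_eq, frac_eq, ← mul_div_assoc]
  refine div_le_div_of_nonneg_right ?_ (Nat.cast_nonneg _)
  have := rd_err φ t X
  exact_mod_cast this

/-! ### the walk in the fibre: an instance of `Mixes` -/

omit [Fact p.Prime] [Fintype J] in
/-- transport of the mixing family along a bijection of the fibre -/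
lemma Mixes.congr {J A B : Type} [Fintype J] [Fintype A] [Fintype B] {σ : J → Equiv.Perm A}
    {lam : ℝ} (h : Mixes σ lam) (e : B ≃ A) :
    Mixes (fun j => (e.trans (σ j)).trans e.symm) lam := by
  intro F
  have h1 := h fun a => F (e.symm a)
  rw [Fintype.card_congr e]
  rw [← Equiv.sum_comp e] at h1
  have e1 : ∑ a : A, F (e.symm a) = ∑ b, F b := by
    rw [← Equiv.sum_comp e]; simp
  have e2 : ∑ a : A, F (e.symm a) ^ 2 = ∑ b, F b ^ 2 := by
    rw [← Equiv.sum_comp e]; simp
  rw [e1, e2] at h1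
  simpa using h1

end main

/-- **WALK**: on every fibre in bijection with `ZMod N × ZMod N` there is a family of
`16 ^ 94` permutations with `Mixes σ (1 / 2048)` -/
theorem exists_walk {A : Type} [Fintype A] {N : ℕ} [NeZero N] (e : A ≃ ZMod N × ZMod N) :
    Mixes (fun j : Fin (16 ^ 94) => (e.trans (sigX (Equiv.refl (ZMod N)) 94 j)).trans e.symm)
      (1 / 2048) := by
  refine Mixes.congr (σ := fun j : Fin (16 ^ 94) => sigX (Equiv.refl (ZMod N)) 94 j) ?_ e
  intro F
  have h := walkX (Equiv.refl (ZMod N)) 94 F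
  have h2 : (0 : ℝ) ≤ ∑ x, F x ^ 2 := sum_nonneg fun _ _ => sq_nonneg _
  have h3 : ((0.96 : ℝ) ^ 2) ^ 94 ≤ 1 / 2048 := by norm_num
  have h4 : (Fintype.card (Fin (16 ^ 94)) : ℝ) = 16 ^ 94 := by
    rw [Fintype.card_fin]; norm_num
  rw [h4]
  exact h.trans (mul_le_mul_of_nonneg_right h3 h2)

end Crest.Agent.R289.Clock311
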