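import Crest.Agent.R289.LCa_72
import Crest.Agent.R289.Word_508
import Crest.Agent.R289.LCodeS_152
import Crest.Agent.R289.BLR_954

/-!
# Row 289, block B/C: the clock register (a dictator word, one symbol per unit)

Units `Un G R = G × (G × (G × R))`, `G = ι → ZMod p` (positions of the clock, one coordinate per time),
`R` any finite set.  The clock word of time `t : ι` has the symbol `x t` at the unit `(x, (y, z, r))`.
Tests, soundness, completeness, distance, local correction, exact reads of public functions of `t`,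
move `t ↦ t + 1` (coordinate shift).  All maps of units are permutations.
-/

set_option autoImplicit false
set_option linter.unusedSectionVars false

namespace Crest.Agent.R289.Clock698

open Finset
open Crest.Agent.R289.DefD (frac dist distW)
open Crest.Agent.R289.LCa72
open Crest.Agent.R289.LCodeS152 (Mixes MixesX step2 vote_contract)

/-! ### nearly constant fibres (helper72, LCb_72) -/

section Fibre

variable {S J V : Type} [Fintype S] [Nonempty S] [Fintype J] [Nonempty J]

open Classical in
/-- a set of density at most one half is left from a quarter of its points -/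
lemma leave {σ : J → Equiv.Perm S} {L : ℝ} (hm : Mixes σ L) (hL : L ≤ 1 / 16) (B : S → Prop)
    (hB : frac B ≤ 1 / 2) : frac (fun s => B s ∧ ∀ j, B (σ j s)) ≤ 3 / 4 * frac B := by
  have hS : (0 : ℝ) < (Fintype.card S : ℝ) := by exact_mod_cast Fintype.card_pos
  have hJ : (0 : ℝ) < (Fintype.card J : ℝ) := by exact_mod_cast Fintype.card_pos
  set f : S → ℝ := fun s => if B s then 1 else 0 with hf
  set g : S → ℝ := fun s => (∑ j, f (σ j s)) / (Fintype.card J : ℝ) with hg
  have hsum : ∑ s, f s = frac B * (Fintype.card S : ℝ) := by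
    rw [frac_eq_sum, div_mul_cancel₀ _ hS.ne']
  have hsq : ∑ s, (f s) ^ 2 = ∑ s, f s := Finset.sum_congr rfl fun s _ => by
    by_cases h : B s <;> simp [hf, h]
  have h1 := hm f
  rw [hsq] at h1
  have hff : (∑ s, f s) / (Fintype.card S : ℝ) = frac B := by
    rw [hsum, mul_div_cancel_right₀ _ hS.ne']
  rw [hff] at h1
  -- Cauchy-Schwarz
  have h2 : (∑ s, f s * (g s - frac B)) ^ 2 ≤ (∑ s, (f s) ^ 2) * ∑ s, (g s - frac B) ^ 2 :=
    Finset.sum_mul_sq_le_sq_mul_sq _ _ _
  rw [hsq] at h2
  have hn : 0 ≤ ∑ s, f s := Finset.sum_nonneg fun s _ => by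
    by_cases h : B s <;> simp [hf, h]
  have h3 : (∑ s, f s * (g s - frac B)) ^ 2 ≤ ((1 / 4) * ∑ s, f s) ^ 2 := by
    have : (∑ s, f s) * ∑ s, (g s - frac B) ^ 2 ≤ (∑ s, f s) * (L * ∑ s, f s) :=
      mul_le_mul_of_nonneg_left h1 hn
    nlinarith [mul_nonneg hn hn]
  have h4 : ∑ s, f s * (g s - frac B) ≤ (1 / 4) * ∑ s, f s := by
    have := abs_le_of_sq_le_sq h3 (by positivity)
    exact le_of_abs_le this
  have h5 : ∑ s, f s * (g s - frac B) = ∑ s, f s * g s - frac B * ∑ s, f s := by
    rw [Finset.mul_sum, ← Finset.sum_sub_distrib]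
    exact Finset.sum_congr rfl fun s _ => by ring
  have h6 : frac (fun s => B s ∧ ∀ j, B (σ j s)) * (Fintype.card S : ℝ) ≤ ∑ s, f s * g s := by
    rw [frac_eq_sum, div_mul_cancel₀ _ hS.ne']
    refine Finset.sum_le_sum fun s _ => ?_
    have hg0 : 0 ≤ g s := by
      refine div_nonneg (Finset.sum_nonneg fun j _ => ?_) hJ.le
      by_cases h : B (σ j s) <;> simp [hf, h]
    by_cases h : B s ∧ ∀ j, B (σ j s)
    · have : g s = 1 := by
        have hh : ∑ j, f (σ j s) = (Fintype.card J : ℝ) := by
          rw [Finset.sum_congr rfl (g := fun _ => (1 : ℝ)) (fun j _ => by simp [hf, h.2 j])]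
          simp
        simp only [hg, hh]
        exact div_self hJ.ne'
      simp [this, hf, h.1, h]
    · simp only [h, if_false]
      refine mul_nonneg ?_ hg0
      by_cases h' : B s <;> simp [hf, h']
  have h7 : frac (fun s => B s ∧ ∀ j, B (σ j s)) * (Fintype.card S : ℝ) ≤
      3 / 4 * (frac B * (Fintype.card S : ℝ)) := by
    rw [← hsum]
    nlinarith
  have : frac (fun s => B s ∧ ∀ j, B (σ j s)) * (Fintype.card S : ℝ) ≤
      (3 / 4 * frac B) * (Fintype.card S : ℝ) := by rw [mul_assoc]; exact h7
  exact le_of_mul_le_mul_right this hS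

/-- nearly constant fibres have a majority value -/
lemma fibre [Fintype V] [Nonempty V] {σ : J → Equiv.Perm S} {L : ℝ} (hm : Mixes σ L) (hL : L ≤ 1 / 16)
    (a : S → Option V) :
    ∃ b : V, frac (fun s => a s ≠ some b) ≤
      4 * frac (fun s => ¬ ∃ v, a s = some v ∧ ∀ j, a (σ j s) = some v) := by
  classical
  set viol : S → Prop := fun s => ¬ ∃ v, a s = some v ∧ ∀ j, a (σ j s) = some v with hv
  by_cases h : ∃ b : V, 1 / 2 ≤ frac (fun s => a s = some b)
  · obtain ⟨b, hb⟩ := h
    refine ⟨b, ?_⟩
    have h1 := frac_add_not (fun s => a s = some b)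
    have h2 := leave hm hL (fun s => a s ≠ some b) (by
      have : frac (fun s => a s ≠ some b) = frac (fun s => ¬ a s = some b) := rfl
      rw [this]; linarith)
    have h3 : frac (fun s => a s ≠ some b) ≤
        frac (fun s => a s ≠ some b ∧ ∀ j, a (σ j s) ≠ some b) + frac viol := by
      refine frac_or_le fun s hs => ?_
      by_cases h4 : ∀ j, a (σ j s) ≠ some b
      · exact Or.inl ⟨hs, h4⟩
      · right
        push Not at h4
        obtain ⟨j, hj⟩ := h4
        rintro ⟨v, hv1, hv2⟩
        rw [hv2 j] at hj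
        rw [hv1] at hs
        exact hs hj
    linarith
  · push Not at h
    obtain ⟨b0⟩ := (inferInstance : Nonempty V)
    refine ⟨b0, ?_⟩
    have h1 := frac_le_one (fun s => a s ≠ some b0)
    have h2 : frac (fun s => ¬ viol s) ≤
        ∑ b : V, frac (fun s => a s = some b ∧ ∀ j, a (σ j s) = some b) := by
      refine (frac_mono (q := fun s => ∃ b, a s = some b ∧ ∀ j, a (σ j s) = some b) ?_).trans
        (frac_exists_le _)
      intro s hs
      simp only [hv, not_not] at hs
      exact hs
    have h3 : ∑ b : V, frac (fun s => a s = some b ∧ ∀ j, a (σ j s) = some b) ≤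
        ∑ b : V, 3 / 4 * frac (fun s => a s = some b) := by
      refine Finset.sum_le_sum fun b _ => ?_
      exact leave hm hL (fun s => a s = some b) (h b).le
    rw [← Finset.mul_sum] at h3
    have h4 : ∑ b : V, frac (fun s => a s = some b) ≤ 1 := by
      have hS : (0 : ℝ) < (Fintype.card S : ℝ) := by exact_mod_cast Fintype.card_pos
      simp only [frac_eq_sum]
      rw [← Finset.sum_div, div_le_one hS, Finset.sum_comm]
      refine (Finset.sum_le_sum (g := fun _ => (1 : ℝ)) fun s _ => ?_).trans (by simp)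
      rcases h0 : a s with _ | v
      · simp
      · simp only [Option.some.injEq, Finset.sum_ite_eq, mem_univ, if_true, le_refl]
    have h5 := frac_add_not viol
    linarith

end Fibre

/-- positions -/
abbrev Po (p : ℕ) (ι : Type) : Type := ι → ZMod p

/-- units of the clock: position `x`, second position `y`, base point `z`, rest `r` -/
abbrev Un (G R : Type) : Type := G × (G × (G × R))

section Maps

variable {G R V J : Type} [AddCommGroup G] [AddCommGroup V]

/-- the word of a function of the position -/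
def wd (l : G → V) : Un G R → V := fun u => l u.1

/-- `(x, (y, z, r)) ↦ (y, (x, z, r))` -/
def mSwap : Equiv.Perm (Un G R) where
  toFun u := (u.2.1, (u.1, u.2.2))
  invFun u := (u.2.1, (u.1, u.2.2))
  left_inv _ := rfl
  right_inv _ := rfl

/-- `(x, (y, z, r)) ↦ (x + y, (y, z, r))` -/
def mSum : Equiv.Perm (Un G R) where
  toFun u := (u.1 + u.2.1, u.2)
  invFun u := (u.1 - u.2.1, u.2)
  left_inv u := by simp
  right_inv u := by simp

/-- `(x, (y, z, r)) ↦ (q x y r + z, (x, y, r))`: the far end of a self-corrected read of `q x y r` -/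
def mRead (q : G → G → R → G) : Equiv.Perm (Un G R) where
  toFun u := (q u.1 u.2.1 u.2.2.2 + u.2.2.1, (u.1, (u.2.1, u.2.2.2)))
  invFun u := (u.2.1, (u.2.2.1, (u.1 - q u.2.1 u.2.2.1 u.2.2.2, u.2.2.2)))
  left_inv u := by simp
  right_inv u := by simp

/-- `(x, (y, z, r)) ↦ (z, (x, y, r))`: the base of the self-corrected reads -/
def mBase : Equiv.Perm (Un G R) where
  toFun u := (u.2.2.1, (u.1, (u.2.1, u.2.2.2)))
  invFun u := (u.2.1, (u.2.2.1, (u.1, u.2.2.2)))
  left_inv _ := rfl
  right_inv _ := rfl

/-- walk in the fibre -/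
def mSig (σ : J → Equiv.Perm (G × (G × R))) (j : J) : Equiv.Perm (Un G R) :=
  Equiv.prodCongr (Equiv.refl G) (σ j)

@[simp] lemma mSwap_apply (u : Un G R) : mSwap u = (u.2.1, (u.1, u.2.2)) := rfl
@[simp] lemma mSum_apply (u : Un G R) : mSum u = (u.1 + u.2.1, u.2) := rfl
@[simp] lemma mRead_apply (q : G → G → R → G) (u : Un G R) :
    mRead q u = (q u.1 u.2.1 u.2.2.2 + u.2.2.1, (u.1, (u.2.1, u.2.2.2))) := rfl
@[simp] lemma mBase_apply (u : Un G R) : mBase u = (u.2.2.1, (u.1, (u.2.1, u.2.2.2))) := rfl
@[simp] lemma mSig_apply (σ : J → Equiv.Perm (G × (G × R))) (j : J) (u : Un G R) :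
    mSig σ j u = (u.1, σ j u.2) := rfl

/-- difference of two optional values -/
def osub (a b : Option V) : Option V :=
  match a, b with
  | some a, some b => some (a - b)
  | _, _ => none

@[simp] lemma osub_some (a b : V) : osub (some a) (some b) = some (a - b) := rfl

lemma osub_eq_some {a b : Option V} {v : V} :
    osub a b = some v ↔ ∃ x y, a = some x ∧ b = some y ∧ x - y = v := by
  rcases a with _ | a <;> rcases b with _ | b <;> simp [osub]

/-- self-corrected read of the position `q x y r` -/
def rd (A : Un G R → Option V) (q : G → G → R → G) (u : Un G R) : Option V :=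
  osub (A (mRead q u)) (A (mBase u))

lemma rd_eq {A : Un G R → Option V} {l : G → V} (hl : ∀ x y, l (x + y) = l x + l y)
    {q : G → G → R → G} {u : Un G R} (h1 : A (mRead q u) = some (wd l (mRead q u)))
    (h2 : A (mBase u) = some (wd l (mBase u))) : rd A q u = some (l (q u.1 u.2.1 u.2.2.2)) := by
  unfold rd
  rw [h1, h2]
  simp only [wd, mRead_apply, mBase_apply, osub_some, hl, add_sub_cancel_right]

/-- reads of an exact word are exact -/
lemma rd_exact {l : G → V} (hl : ∀ x y, l (x + y) = l x + l y) (q : G → G → R → G) (u : Un G R) :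
    rd (fun v => some (wd l v)) q u = some (l (q u.1 u.2.1 u.2.2.2)) :=
  rd_eq hl rfl rfl

end Maps

section Sound

variable {p : ℕ} [Fact p.Prime] {ι R J : Type} [Fintype ι] [DecidableEq ι] [Fintype R] [Nonempty R]
  [Fintype J] [Nonempty J]

/-- the clock word of time `t` -/
def cw (t : ι) : Un (Po p ι) R → ZMod p := fun u => u.1 t

lemma cw_eq (t : ι) : (cw t : Un (Po p ι) R → ZMod p) = wd fun x => x t := rfl

/-- product position -/
def qMul : (Po p ι) → (Po p ι) → R → (Po p ι) := fun x y _ => x * y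

/-- all-one position -/
def qOne : (Po p ι) → (Po p ι) → R → (Po p ι) := fun _ _ _ => 1

/-- all tests hold at the unit -/
def okC (σ : J → Equiv.Perm (Po p ι × (Po p ι × R))) (A : Un (Po p ι) R → Option (ZMod p)) (u : Un (Po p ι) R) : Prop :=
  ∃ a b, A u = some a ∧ (∀ j, A (mSig σ j u) = some a) ∧ A (mSwap u) = some b ∧
    A (mSum u) = some (a + b) ∧ rd A qMul u = some (a * b) ∧ rd A qOne u = some 1

/-- a read is wrong on at most twice the distance -/
lemma rd_le {V : Type} [AddCommGroup V] {H : Type} [AddCommGroup H] [Fintype H] {l : H → V}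
    (hl : ∀ x y, l (x + y) = l x + l y) (A : Un H R → Option V) (q : H → H → R → H) :
    frac (fun u : Un H R => rd A q u ≠ some (l (q u.1 u.2.1 u.2.2.2))) ≤
      2 * dist A (wd l) := by
  have h := frac_or_le (r := fun u : Un H R => rd A q u ≠ some (l (q u.1 u.2.1 u.2.2.2)))
    (p := fun u : Un H R => A (mRead q u) ≠ some (wd l (mRead q u)))
    (q := fun u : Un H R => A (mBase u) ≠ some (wd l (mBase u))) (by
      intro u hu
      by_contra hc
      push Not at hc
      exact hu (rd_eq hl hc.1 hc.2))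
  have h1 := frac_equiv (mRead q) (fun u : Un H R => A u ≠ some (wd l u))
  have h2 := frac_equiv (mBase (G := H) (R := R)) (fun u : Un H R => A u ≠ some (wd l u))
  rw [h1, h2] at h
  unfold DefD.dist
  linarith

/-- multiplicativity fails nowhere or on a quarter of the pairs -/
lemma gap_mul (l : Po p ι → ZMod p) (hl : ∀ x y, l (x + y) = l x + l y)
    (h : frac (fun z : Po p ι × Po p ι => l (z.1 * z.2) ≠ l z.1 * l z.2) < 1 / 4) (x y : Po p ι) :
    l (x * y) = l x * l y := by
  by_contra hne
  have hx : 1 / 2 ≤ frac (fun a : Po p ι => l (a * y) - l a * l y ≠ 0) :=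
    half (fun a : Po p ι => l (a * y) - l a * l y) (fun a b => by
      rw [add_mul, hl, hl, add_mul]; abel) x (sub_ne_zero.2 hne)
  have h1 := mul_le_frac_prod (p := fun z : Po p ι × Po p ι => l (z.1 * z.2) ≠ l z.1 * l z.2)
    (q := fun a : Po p ι => l (a * y) - l a * l y ≠ 0) (c := 1 / 2) (by
      intro a ha
      have h2 := half (fun b : Po p ι => l (a * b) - l a * l b) (fun b c => by
        rw [mul_add, hl, hl, mul_add]; abel) y ha
      refine h2.trans (frac_mono fun b hb => ?_)
      exact sub_ne_zero.1 hb)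
  linarith

/-- an additive multiplicative function with `l 1 = 1` is a coordinate -/
lemma dictator (l : Po p ι → ZMod p) (hl : ∀ x y, l (x + y) = l x + l y)
    (hm : ∀ x y, l (x * y) = l x * l y) (h1 : l 1 = 1) : ∃ t, l = fun x => x t := by
  obtain ⟨t, ht⟩ := BLR954.eq_proj
    (AddMonoidHom.toZModLinearMap p (AddMonoidHom.mk' l hl)) hm h1
  exact ⟨t, funext fun x => ht x⟩

/-- fraction over pairs = fraction over units -/
lemma frac_pair (P : Po p ι × Po p ι → Prop) :
    frac P = frac (fun u : Un (Po p ι) R => P (u.1, u.2.1)) := by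
  have h1 : frac P = frac (fun w : (Po p ι × Po p ι) × (Po p ι × R) => P w.1) :=
    (frac_fst (V := Po p ι × R) P).symm
  rw [h1]
  exact frac_equiv (Equiv.prodAssoc (Po p ι) (Po p ι) (Po p ι × R))
    (fun u : Un (Po p ι) R => P (u.1, u.2.1))

/-- SOUNDNESS -/
theorem sound (σ : J → Equiv.Perm (Po p ι × (Po p ι × R))) {L : ℝ} (hm : Mixes σ L)
    (hL : L ≤ 1 / 16) (A : Un (Po p ι) R → Option (ZMod p))
    (hv : frac (fun u => ¬ okC σ A u) ≤ 1 / 1000) :
    ∃ t, dist A (cw t) ≤ 30 * frac (fun u => ¬ okC σ A u) := by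
  classical
  set v := frac (fun u => ¬ okC σ A u) with hvdef
  have hv0 : 0 ≤ v := frac_nn _
  -- fibres
  have hf : ∀ x : Po p ι, ∃ b : ZMod p, frac (fun s : Po p ι × (Po p ι × R) => A (x, s) ≠ some b) ≤
      4 * frac (fun s : Po p ι × (Po p ι × R) =>
        ¬ ∃ v, A (x, s) = some v ∧ ∀ j, A (x, σ j s) = some v) :=
    fun x => fibre hm hL fun s => A (x, s)
  choose F hF using hf
  have hAF : frac (fun u : Un (Po p ι) R => A u ≠ some (F u.1)) ≤ 4 * v := by
    have h3 := frac_prod_mono (p := fun u : Un (Po p ι) R => A u ≠ some (F u.1))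
      (q := fun u : Un (Po p ι) R => ¬ ∃ v, A (u.1, u.2) = some v ∧ ∀ j, A (u.1, σ j u.2) = some v)
      (c := 4) hF
    have h4 : frac (fun u : Un (Po p ι) R =>
        ¬ ∃ v, A (u.1, u.2) = some v ∧ ∀ j, A (u.1, σ j u.2) = some v)
        ≤ frac (fun u => ¬ okC σ A u) := frac_mono fun u hu hc => by
      obtain ⟨a, b, h1, h2, -⟩ := hc
      exact hu ⟨a, h1, fun j => h2 j⟩
    linarith
  -- BLR
  have hblr : frac (fun z : Po p ι × Po p ι => F (z.1 + z.2) ≠ F z.1 + F z.2) ≤ 13 * v := by
    rw [frac_pair (R := R)]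
    have h3 := frac_equiv (mSwap (G := Po p ι) (R := R)) (fun u => A u ≠ some (F u.1))
    have h4 := frac_equiv (mSum (G := Po p ι) (R := R)) (fun u => A u ≠ some (F u.1))
    have h5 : frac (fun u : Un (Po p ι) R => F (u.1 + u.2.1) ≠ F u.1 + F u.2.1) ≤
        frac (fun u : Un (Po p ι) R => A u ≠ some (F u.1)) +
        (frac (fun u : Un (Po p ι) R => A (mSwap u) ≠ some (F (mSwap u).1)) +
        (frac (fun u : Un (Po p ι) R => A (mSum u) ≠ some (F (mSum u).1)) +
        frac (fun u => ¬ okC σ A u))) := by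
      refine (frac_or_le (p := fun u : Un (Po p ι) R => A u ≠ some (F u.1))
        (q := fun u : Un (Po p ι) R => A (mSwap u) ≠ some (F (mSwap u).1) ∨
          (A (mSum u) ≠ some (F (mSum u).1) ∨ ¬ okC σ A u)) ?_).trans
        (add_le_add le_rfl ((frac_or _ _).trans (add_le_add le_rfl (frac_or _ _))))
      intro u hu
      by_contra hc
      push Not at hc
      obtain ⟨c1, c2, c3, c4⟩ := hc
      obtain ⟨a, b, a1, -, a2, a3, -⟩ := c4
      rw [c1, Option.some.injEq] at a1
      rw [c2, Option.some.injEq] at a2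
      rw [c3, Option.some.injEq] at a3
      apply hu
      rw [a1]
      simp only [mSwap_apply, mSum_apply] at a2 a3
      rw [a2, a3]
    linarith
  obtain ⟨l, hl, hd⟩ := blr F (ε := 13 * v) (by linarith) hblr
  have hdist : dist A (wd l) ≤ 30 * v := by
    have h3 : dist A (wd l) ≤ frac (fun u : Un (Po p ι) R => A u ≠ some (F u.1)) +
        frac (fun u : Un (Po p ι) R => F u.1 ≠ l u.1) := by
      refine frac_or_le fun u hu => ?_
      by_contra hc
      push Not at hc
      apply hu
      rw [hc.1, hc.2]; rfl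
    have h4 : frac (fun u : Un (Po p ι) R => F u.1 ≠ l u.1) = frac (fun x => F x ≠ l x) :=
      frac_fst (V := Po p ι × (Po p ι × R)) (fun x => F x ≠ l x)
    rw [h4] at h3
    linarith
  -- multiplicativity
  have hA := hdist
  have hmul : ∀ x y, l (x * y) = l x * l y := by
    refine gap_mul l hl ?_
    rw [frac_pair (R := R)]
    have h1 := rd_le hl A (qMul (R := R))
    have h2 := frac_equiv (mSwap (G := Po p ι) (R := R)) (fun u => A u ≠ some (wd l u))
    have h5 : frac (fun u : Un (Po p ι) R => l (u.1 * u.2.1) ≠ l u.1 * l u.2.1) ≤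
        frac (fun u : Un (Po p ι) R => A u ≠ some (wd l u)) +
        (frac (fun u : Un (Po p ι) R => A (mSwap u) ≠ some (wd l (mSwap u))) +
        (frac (fun u : Un (Po p ι) R => rd A qMul u ≠ some (l (qMul u.1 u.2.1 u.2.2.2))) +
        frac (fun u => ¬ okC σ A u))) := by
      refine (frac_or_le (p := fun u : Un (Po p ι) R => A u ≠ some (wd l u))
        (q := fun u : Un (Po p ι) R => A (mSwap u) ≠ some (wd l (mSwap u)) ∨
          (rd A qMul u ≠ some (l (qMul u.1 u.2.1 u.2.2.2)) ∨ ¬ okC σ A u)) ?_).trans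
        (add_le_add le_rfl ((frac_or _ _).trans (add_le_add le_rfl (frac_or _ _))))
      intro u hu
      by_contra hc
      push Not at hc
      obtain ⟨c1, c2, c3, c4⟩ := hc
      obtain ⟨a, b, a1, -, a2, -, a3, -⟩ := c4
      rw [c1, Option.some.injEq] at a1
      rw [c2, Option.some.injEq] at a2
      rw [c3, Option.some.injEq] at a3
      apply hu
      rw [← a1, ← a2] at a3
      exact a3
    have h6 : frac (fun u : Un (Po p ι) R => A u ≠ some (wd l u)) = dist A (wd l) := rfl
    rw [h2, h6] at h5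
    linarith
  have hone : l 1 = 1 := by
    have h1 := rd_le hl A (qOne (R := R))
    have h2 : frac (fun u : Un (Po p ι) R =>
        rd A qOne u ≠ some (l (qOne u.1 u.2.1 u.2.2.2)) ∨ ¬ okC σ A u) < 1 := by
      refine lt_of_le_of_lt (frac_or _ _) ?_
      linarith
    obtain ⟨u, hu⟩ := exists_of_frac_lt_one h2
    push Not at hu
    obtain ⟨c1, a, b, -, -, -, -, -, c2⟩ := hu
    rw [c1, Option.some.injEq] at c2
    exact c2
  obtain ⟨t, rfl⟩ := dictator l hl hmul hone
  exact ⟨t, hdist⟩

/-- COMPLETENESS -/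
theorem compl (σ : J → Equiv.Perm (Po p ι × (Po p ι × R))) (t : ι)
    (A : Un (Po p ι) R → Option (ZMod p)) :
    frac (fun u => ¬ okC σ A u) ≤ (7 + (Fintype.card J : ℝ)) * dist A (cw t) := by
  classical
  set bad : Un (Po p ι) R → Prop := fun u => A u ≠ some (cw t u) with hbad
  have hd : dist A (cw t) = frac bad := rfl
  have hl : ∀ x y : Po p ι, (x + y) t = x t + y t := fun _ _ => rfl
  have h0 : frac (fun u => ¬ okC σ A u) ≤
      frac bad + (frac (fun u : Un (Po p ι) R => ∃ j, bad (mSig σ j u)) +
      (frac (fun u : Un (Po p ι) R => bad (mSwap u)) +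
      (frac (fun u : Un (Po p ι) R => bad (mSum u)) +
      (frac (fun u : Un (Po p ι) R => rd A qMul u ≠ some (qMul u.1 u.2.1 u.2.2.2 t)) +
      frac (fun u : Un (Po p ι) R => rd A qOne u ≠ some (qOne u.1 u.2.1 u.2.2.2 t)))))) := by
    refine (frac_or_le (p := bad) (q := fun u : Un (Po p ι) R => (∃ j, bad (mSig σ j u)) ∨
      (bad (mSwap u) ∨ (bad (mSum u) ∨ (rd A qMul u ≠ some (qMul u.1 u.2.1 u.2.2.2 t) ∨
        rd A qOne u ≠ some (qOne u.1 u.2.1 u.2.2.2 t))))) ?_).trans
      (add_le_add le_rfl ((frac_or _ _).trans (add_le_add le_rfl ((frac_or _ _).trans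
        (add_le_add le_rfl ((frac_or _ _).trans (add_le_add le_rfl (frac_or _ _))))))))
    intro u hu
    by_contra hc
    push Not at hc
    obtain ⟨c1, c2, c3, c4, c5, c6⟩ := hc
    simp only [hbad, not_not] at c1 c2 c3 c4
    exact hu ⟨u.1 t, u.2.1 t, c1, c2, c3, c4, c5, c6⟩
  have h2 : frac (fun u : Un (Po p ι) R => ∃ j, bad (mSig σ j u)) ≤
      (Fintype.card J : ℝ) * frac bad := by
    refine (frac_exists_le _).trans ?_
    rw [Finset.sum_congr rfl (g := fun _ => frac bad) (fun j _ => frac_equiv (mSig σ j) bad)]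
    simp
  have h3 := frac_equiv (mSwap (G := Po p ι) (R := R)) bad
  have h4 := frac_equiv (mSum (G := Po p ι) (R := R)) bad
  have h5 := rd_le (l := fun x : Po p ι => x t) hl A (qMul (R := R))
  have h6 := rd_le (l := fun x : Po p ι => x t) hl A (qOne (R := R))
  have h7 : dist A (wd fun x : Po p ι => x t) = frac bad := rfl
  rw [h7] at h5 h6
  rw [h3, h4] at h0
  rw [hd]
  nlinarith

/-- DISTANCE -/
theorem sep {t t' : ι} (h : t ≠ t') :
    1 / 2 ≤ distW (cw t : Un (Po p ι) R → ZMod p) (cw t') := by
  have h1 := half (fun x : Po p ι => x t - x t') (fun x y => by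
    simp only [Pi.add_apply]; abel) (Pi.single t 1) (by
      simp [h.symm])
  have h2 : distW (cw t : Un (Po p ι) R → ZMod p) (cw t') = frac (fun x : Po p ι => x t ≠ x t') :=
    frac_fst (V := Po p ι × (Po p ι × R)) (fun x : Po p ι => x t ≠ x t')
  have h3 : frac (fun x : Po p ι => x t ≠ x t') = frac (fun x : Po p ι => x t - x t' ≠ 0) :=
    frac_congr fun x => sub_ne_zero.symm
  rw [h2, h3]; exact h1

end Sound

/-! ### the walk in the fibre -/

section Walk

variable {S : Type} [Fintype S]

/-- words of length `n` of the Gabber-Galil walk, transported to `S ≃ ZMod N × ZMod N` -/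
def sigE {N : ℕ} (e : S ≃ ZMod N × ZMod N) (n : ℕ) (j : Fin (16 ^ n)) : Equiv.Perm S :=
  (e.trans (LCodeS152.sigP N n j)).trans e.symm

theorem mixes_sigE {N : ℕ} [NeZero N] (e : S ≃ ZMod N × ZMod N) (n : ℕ) :
    Mixes (sigE e n) (((0.96 : ℝ) ^ 2) ^ n) := by
  intro F
  have h := Sampler56.walk_var N n (fun z => F (e.symm z))
  have hc : (Fintype.card S : ℝ) = (N : ℝ) ^ 2 := by
    rw [Fintype.card_congr e, Fintype.card_prod, ZMod.card]
    push_cast; ring
  have e1 : ∀ H : S → ℝ, ∑ z, H (e.symm z) = ∑ x, H x := fun H => Equiv.sum_comp e.symm H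
  rw [e1 F, e1 (fun x => F x ^ 2)] at h
  rw [hc]
  refine le_trans (le_of_eq ?_) h
  rw [← Equiv.sum_comp e]
  refine Finset.sum_congr rfl fun x _ => ?_
  congr 2
  rw [Finset.sum_range (fun j => F (e.symm (Sampler56.sig N n j (e x))))]
  simp only [sigE, Equiv.trans_apply, LCodeS152.sigP_apply, Fintype.card_fin]
  rw [div_eq_inv_mul, one_div]
  push_cast
  rfl

/-- walk length used by the clock -/
def wl : ℕ := 94

lemma wl_le : (((0.96 : ℝ) ^ 2) ^ wl) ≤ 1 / 2048 := by
  unfold wl
  norm_num

end Walk

/-! ### the clock as a locally testable and correctable code -/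

section Code

open Crest.Agent.R289.Word508 (CRules CAx NbMult nbMult_of_injective)

/-- neighbour slots of the clock -/
inductive Slot (J : Type)
  | self | swap | sum | mul | one | base
  | sig (j : J)
  | v1 (j : J × J)
  | v2 (j : J × J)

/-- the slots as a sum type -/
def slotEquiv (J : Type) : Slot J ≃ Fin 6 ⊕ (J ⊕ ((J × J) ⊕ (J × J))) where
  toFun
    | .self => .inl 0
    | .swap => .inl 1
    | .sum => .inl 2
    | .mul => .inl 3
    | .one => .inl 4
    | .base => .inl 5
    | .sig j => .inr (.inl j)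
    | .v1 j => .inr (.inr (.inl j))
    | .v2 j => .inr (.inr (.inr j))
  invFun
    | .inl 0 => .self
    | .inl 1 => .swap
    | .inl 2 => .sum
    | .inl 3 => .mul
    | .inl 4 => .one
    | .inl 5 => .base
    | .inr (.inl j) => .sig j
    | .inr (.inr (.inl j)) => .v1 j
    | .inr (.inr (.inr j)) => .v2 j
  left_inv s := by cases s <;> rfl
  right_inv s := by
    rcases s with i | j | j | j
    · fin_cases i <;> rfl
    · rfl
    · rfl
    · rfl

instance {J : Type} [Fintype J] : Fintype (Slot J) := Fintype.ofEquiv _ (slotEquiv J).symm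

variable {p : ℕ} [Fact p.Prime] {ι R J : Type} [Fintype ι] [DecidableEq ι] [Fintype R] [Nonempty R]
  [Fintype J] [Nonempty J]

/-- end of the two-step walk as a permutation -/
def mStep {X S : Type} (σ : J → Equiv.Perm S) (W : Equiv.Perm (X × S)) (q : J × J) :
    Equiv.Perm (X × S) :=
  ((Equiv.prodCongr (Equiv.refl X) (σ q.1)).trans W).trans (Equiv.prodCongr (Equiv.refl X) (σ q.2))

lemma mStep_apply {X S : Type} (σ : J → Equiv.Perm S) (W : Equiv.Perm (X × S)) (q : J × J)
    (u : X × S) : mStep σ W q u = step2 σ W q u := rfl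

/-- the neighbour maps of the clock (permutations of the units) -/
def nbC (σ : J → Equiv.Perm (Po p ι × (Po p ι × R))) : Slot J → Equiv.Perm (Un (Po p ι) R)
  | .self => Equiv.refl _
  | .swap => mSwap
  | .sum => mSum
  | .mul => mRead qMul
  | .one => mRead qOne
  | .base => mBase
  | .sig j => mSig σ j
  | .v1 q => mStep σ mSum q
  | .v2 q => mStep σ mSwap q

open Classical in
/-- strict majority -/
noncomputable def maj {K V : Type} [Fintype K] [Zero V] (f : K → V) : V :=
  if h : ∃ v, Fintype.card K < 2 * (univ.filter fun k => f k = v).card then h.choose else 0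

open Classical in
lemma maj_eq {K V : Type} [Fintype K] [Zero V] (f : K → V) (v : V)
    (h : Fintype.card K < 2 * (univ.filter fun k => f k = v).card) : maj f = v := by
  have hex : ∃ v, Fintype.card K < 2 * (univ.filter fun k => f k = v).card := ⟨v, h⟩
  unfold maj
  rw [dif_pos hex]
  by_contra hne
  have h1 := hex.choose_spec
  have h2 : (univ.filter fun k => f k = hex.choose).card + (univ.filter fun k => f k = v).card ≤
      Fintype.card K := by
    rw [← card_union_of_disjoint]
    · exact card_le_univ _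
    · rw [disjoint_left]
      intro k hk hk'
      simp only [mem_filter, mem_univ, true_and] at hk hk'
      exact hne (hk.symm.trans hk')
  omega

/-- local rules of the clock -/
noncomputable def rules (p : ℕ) (J P : Type) [Fintype J] : CRules (Slot J) (ZMod p) P where
  viol x _ := ¬ ((∀ j, x (.sig j) = x .self) ∧ x .sum = x .self + x .swap ∧
    x .mul - x .base = x .self * x .swap ∧ x .one - x .base = 1)
  corr x _ := maj fun q : J × J => x (.v1 q) - x (.v2 q)

lemma viol_iff {P : Type} (σ : J → Equiv.Perm (Po p ι × (Po p ι × R)))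
    (X : Un (Po p ι) R → ZMod p) (u : Un (Po p ι) R) (q : P) :
    (rules p J P).viol (fun i => X (nbC σ i u)) q ↔ ¬ okC σ (fun v => some (X v)) u := by
  rw [not_iff_not.symm]
  simp only [rules, not_not]
  constructor
  · rintro ⟨h1, h2, h3, h4⟩
    refine ⟨X u, X (mSwap u), rfl, fun j => ?_, rfl, ?_, ?_, ?_⟩
    · exact congrArg some (h1 j)
    · exact congrArg some h2
    · exact congrArg some h3
    · exact congrArg some h4
  · rintro ⟨a, b, h1, h2, h3, h4, h5, h6⟩
    simp only [Option.some.injEq] at h1 h2 h3 h4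
    subst h1 h3
    refine ⟨fun j => h2 j, h4, ?_, ?_⟩
    · exact Option.some.inj h5
    · exact Option.some.inj h6

lemma mixesX_sum : MixesX (mSum : Equiv.Perm (Un (Po p ι) R)) := by
  intro f x
  have hR : (0 : ℝ) < Fintype.card R := by exact_mod_cast Fintype.card_pos
  have hG : (0 : ℝ) < Fintype.card (Po p ι) := by exact_mod_cast Fintype.card_pos
  have h1 : ∑ r : Po p ι × (Po p ι × R), f (mSum (x, r)).1 =
      (Fintype.card (Po p ι × R) : ℝ) * ∑ y, f y := by
    rw [Fintype.sum_prod_type]
    simp only [mSum_apply, Finset.sum_const, card_univ, nsmul_eq_mul]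
    rw [← Finset.mul_sum]
    congr 1
    exact Equiv.sum_comp (Equiv.addLeft x) f
  rw [h1]
  simp only [Fintype.card_prod]
  push_cast
  field_simp

lemma mixesX_swap : MixesX (mSwap : Equiv.Perm (Un (Po p ι) R)) := by
  intro f x
  have hR : (0 : ℝ) < Fintype.card R := by exact_mod_cast Fintype.card_pos
  have hG : (0 : ℝ) < Fintype.card (Po p ι) := by exact_mod_cast Fintype.card_pos
  have h1 : ∑ r : Po p ι × (Po p ι × R), f (mSwap (x, r)).1 =
      (Fintype.card (Po p ι × R) : ℝ) * ∑ y, f y := by
    rw [Fintype.sum_prod_type]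
    simp only [mSwap_apply, Finset.sum_const, card_univ, nsmul_eq_mul]
    rw [← Finset.mul_sum]
  rw [h1]
  simp only [Fintype.card_prod]
  push_cast
  field_simp

lemma quarter_aux {a b : ℕ} (h : 4 * a ≤ b) : (a : ℝ) ≤ 1 / 4 * b := by
  have : (4 : ℝ) * a ≤ b := by exact_mod_cast h
  linarith

/-- THE CLOCK CODE -/
theorem clock_CAx {P : Type} (σ : J → Equiv.Perm (Po p ι × (Po p ι × R))) {L : ℝ}
    (hm : Mixes σ L) (h0 : 0 ≤ L) (hL : L ≤ 1 / 2048) (pub : Un (Po p ι) R → P) :
    CAx (rules p J P) (fun i u => nbC σ i u) pub (Set.range (cw (p := p) (R := R)))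
      1 (1 / 1000) (1 / 8) (1 / 2) 30 (1 / 4) where
  mult := nbMult_of_injective _ fun i => (nbC σ i).injective
  sep := by
    rintro _ ⟨t, rfl⟩ _ ⟨t', rfl⟩ hne
    exact sep fun h => hne (by rw [h])
  sound := by
    intro X hX
    simp only [viol_iff] at hX ⊢
    obtain ⟨t, ht⟩ := sound σ hm (hL.trans (by norm_num)) (fun v => some (X v)) hX
    refine ⟨cw t, ⟨t, rfl⟩, ?_⟩
    refine le_trans (le_of_eq ?_) ht
    unfold DefD.distW DefD.dist
    exact frac_congr fun u => by simp
  compl := by
    rintro _ ⟨t, rfl⟩ u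
    rw [viol_iff, not_not]
    refine ⟨u.1 t, u.2.1 t, rfl, fun j => rfl, rfl, rfl, ?_, ?_⟩
    · exact rd_exact (l := fun x : Po p ι => x t) (fun _ _ => rfl) qMul u
    · exact rd_exact (l := fun x : Po p ι => x t) (fun _ _ => rfl) qOne u
  corr := by
    classical
    rintro _ ⟨t, rfl⟩ E hE
    obtain ⟨F, hF⟩ : ∃ F : Finset (Un (Po p ι) R), ∀ u, u ∈ F ↔ E u :=
      ⟨univ.filter E, fun u => by simp⟩
    have hFc : (univ.filter E) = F := by ext u; simp [hF u]
    have hU : (0 : ℝ) < Fintype.card (Un (Po p ι) R) := by exact_mod_cast Fintype.card_pos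
    rw [frac_def, div_le_iff₀ hU, hFc] at hE
    have hE' : 8 * F.card ≤ Fintype.card (Un (Po p ι) R) := by
      have : (8 : ℝ) * F.card ≤ Fintype.card (Un (Po p ι) R) := by linarith
      exact_mod_cast this
    have hv := vote_contract hm h0 hL mixesX_sum mixesX_swap F hE'
    have hsub : (univ.filter fun u : Un (Po p ι) R => ∃ x : Slot J → ZMod p,
        (∀ i, ¬ E (nbC σ i u) → x i = cw t (nbC σ i u)) ∧ (rules p J P).corr x (pub u) ≠ cw t u) ⊆
        (univ.filter fun u => Fintype.card J ^ 2 ≤
          2 * (univ.filter fun q : J × J => step2 σ mSum q u ∈ F ∨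
            step2 σ mSwap q u ∈ F).card) := by
      intro u hu
      simp only [mem_filter, mem_univ, true_and] at hu ⊢
      obtain ⟨x, hx, hne⟩ := hu
      by_contra hlt
      push Not at hlt
      apply hne
      have hgood : ∀ q : J × J, ¬ (step2 σ mSum q u ∈ F ∨ step2 σ mSwap q u ∈ F) →
          x (.v1 q) - x (.v2 q) = cw t u := by
        intro q hq
        push Not at hq
        have h1 := hx (.v1 q) (fun h => hq.1 ((hF _).2 h))
        have h2 := hx (.v2 q) (fun h => hq.2 ((hF _).2 h))
        rw [h1, h2]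
        show (u.1 + (σ q.1 u.2).1) t - (σ q.1 u.2).1 t = u.1 t
        simp
      have hcount : (univ.filter fun q : J × J =>
          ¬ (step2 σ mSum q u ∈ F ∨ step2 σ mSwap q u ∈ F)).card ≤
          (univ.filter fun q : J × J => x (.v1 q) - x (.v2 q) = cw t u).card := by
        refine card_le_card fun q hq => ?_
        rw [mem_filter] at hq ⊢
        exact ⟨mem_univ _, hgood q hq.2⟩
      have hsum := card_filter_add_card_filter_not (s := (univ : Finset (J × J)))
        (fun q => step2 σ mSum q u ∈ F ∨ step2 σ mSwap q u ∈ F)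
      rw [card_univ, Fintype.card_prod] at hsum
      have hsq : Fintype.card J ^ 2 = Fintype.card J * Fintype.card J := sq _
      have key : Fintype.card (J × J) < 2 *
          (univ.filter fun q : J × J => x (.v1 q) - x (.v2 q) = cw t u).card := by
        rw [Fintype.card_prod]
        omega
      refine maj_eq _ _ ?_
      convert key
    have hv' : 4 * (univ.filter fun u => Fintype.card J ^ 2 ≤
        2 * (univ.filter fun q : J × J => step2 σ mSum q u ∈ F ∨
          step2 σ mSwap q u ∈ F).card).card ≤ F.card := by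
      convert hv
    have h1 := (Nat.mul_le_mul_left 4 (card_le_card hsub)).trans hv'
    rw [frac_def, frac_def, ← mul_div_assoc, hFc]
    refine div_le_div_of_nonneg_right ?_ hU.le
    refine quarter_aux (le_trans (le_of_eq ?_) h1)
    congr!

end Code

end Crest.Agent.R289.Clock698
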