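import Crest.Agent.R289.Compile_827

/-!
# Row 289: closure facts of the compiled machine for words of any kind

`wd` = word of a configuration (any type `W`), `Leg` = set of the words of the states of an
`LM`, `N`, `M` = maps that agree with `stepN`, `stepM` on these words.  Then all exact fields of
`UMach209.WMach.Exact` / `Word508.asm_Ax` hold, and the dead ends are those of the machine.
-/

set_option autoImplicit false

namespace Crest.Agent.R289.Closure89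

open Crest.Agent.R289.Compile827

/-- `wd`, `Leg`, `N`, `M` realise the machine -/
structure Realises {X Z R W : Type} (m : LM X Z R) (wd : Conf X Z R → W) (Leg : Set W)
    (N M : W → W) : Prop where
  inj : ∀ a b : m.CSt, wd (m.conf a) = wd (m.conf b) → m.conf a = m.conf b
  leg : ∀ w, w ∈ Leg ↔ ∃ a : m.CSt, w = wd (m.conf a)
  hN : ∀ a : m.CSt, N (wd (m.conf a)) = wd (m.stepN (m.conf a))
  hM : ∀ a : m.CSt, M (wd (m.conf a)) = wd (m.stepM (m.conf a))

variable {X Z R W : Type} {m : LM X Z R} {wd : Conf X Z R → W} {Leg : Set W} {N M : W → W}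

/-- the clock of a state is at most `L` -/
theorem conf_t_le (a : m.CSt) : (m.conf a).t ≤ m.L := by
  cases a with
  | boot t ht => exact ht
  | rest x hx => exact Nat.zero_le _
  | fw ρ x hx h t ht => exact ht
  | bw ρ x hx h t ht => exact ht

theorem stepN_conf (a : m.CSt) : ∃ b : m.CSt, m.stepN (m.conf a) = m.conf b :=
  (m.legal_iff _).1 (m.legal_stepN (m.legal_conf a))

theorem stepM_conf (a : m.CSt) : ∃ b : m.CSt, m.stepM (m.conf a) = m.conf b :=
  (m.legal_iff _).1 (m.legal_stepM (m.legal_conf a))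

namespace Realises

variable (H : Realises m wd Leg N M)
include H

theorem w0_mem : wd m.c0 ∈ Leg :=
  (H.leg _).2 ⟨.boot 0 (Nat.zero_le _), by rw [← m.c0_eq]⟩

theorem N_mem : ∀ w ∈ Leg, N w ∈ Leg := by
  intro w hw
  obtain ⟨a, rfl⟩ := (H.leg w).1 hw
  obtain ⟨b, hb⟩ := stepN_conf (m := m) a
  rw [H.hN, hb]
  exact (H.leg _).2 ⟨b, rfl⟩

theorem M_mem : ∀ w ∈ Leg, M w ∈ Leg := by
  intro w hw
  obtain ⟨a, rfl⟩ := (H.leg w).1 hw
  obtain ⟨b, hb⟩ := stepM_conf (m := m) a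
  rw [H.hM, hb]
  exact (H.leg _).2 ⟨b, rfl⟩

theorem MN : ∀ w ∈ Leg, N w ≠ w → M (N w) = w := by
  intro w hw hne
  obtain ⟨a, rfl⟩ := (H.leg w).1 hw
  rw [H.hN] at hne
  have h1 : m.stepN (m.conf a) ≠ m.conf a := fun h => hne (by rw [h])
  have h2 := m.stepM_stepN (m.legal_conf a) h1
  obtain ⟨b, hb⟩ := stepN_conf (m := m) a
  rw [H.hN, hb, H.hM, ← hb, h2]

theorem NM : ∀ w ∈ Leg, M w ≠ w → N (M w) = w := by
  intro w hw hne
  obtain ⟨a, rfl⟩ := (H.leg w).1 hw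
  rw [H.hM] at hne
  have h1 : m.stepM (m.conf a) ≠ m.conf a := fun h => hne (by rw [h])
  have h2 := m.stepN_stepM (m.legal_conf a) h1
  obtain ⟨b, hb⟩ := stepM_conf (m := m) a
  rw [H.hM, hb, H.hN, ← hb, h2]

theorem M_w0 : M (wd m.c0) = wd m.c0 := by
  rw [m.c0_eq, H.hM, ← m.c0_eq, m.stepM_c0]

theorem N_w0 : N (wd m.c0) ≠ wd m.c0 := by
  rw [m.c0_eq, H.hN]
  intro h
  obtain ⟨b, hb⟩ := stepN_conf (m := m) (.boot 0 (Nat.zero_le _))
  rw [hb] at h
  have h2 := H.inj _ _ h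
  have h3 := m.stepN_c0
  rw [m.c0_eq] at h3
  exact h3 (hb.trans h2)

theorem ends_N (w : W) (hw : w ∈ Leg) (h : N w = w) :
    ∃ x, ∃ hx : m.IsL x, w = wd (m.conf (.rest x hx)) ∧ ∀ ρ, ¬ m.en ρ x := by
  obtain ⟨a, rfl⟩ := (H.leg w).1 hw
  rw [H.hN] at h
  obtain ⟨b, hb⟩ := stepN_conf (m := m) a
  rw [hb] at h
  have h2 := H.inj _ _ h
  obtain ⟨x, hx, h3, h4⟩ := (m.stepN_eq_self (m.legal_conf a)).1 (hb.trans h2)
  exact ⟨x, hx, by rw [h3], h4⟩

theorem ends_M (w : W) (hw : w ∈ Leg) (h : M w = w) :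
    w = wd m.c0 ∨ ∃ x, ∃ hx : m.IsL x, w = wd (m.conf (.rest x hx)) ∧
      (∀ ρ, ¬ m.bk ρ x) ∧ x ≠ m.x0 := by
  obtain ⟨a, rfl⟩ := (H.leg w).1 hw
  rw [H.hM] at h
  obtain ⟨b, hb⟩ := stepM_conf (m := m) a
  rw [hb] at h
  have h2 := H.inj _ _ h
  rcases (m.stepM_eq_self (m.legal_conf a)).1 (hb.trans h2) with h3 | ⟨x, hx, h3, h4, h5⟩
  · left
    rw [h3]
  · exact Or.inr ⟨x, hx, by rw [h3], h4, h5⟩

/-- the form used by the decoder: a fixed legal word is the word of a legal configuration fixed by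
the step map -/
theorem fix_N (w : W) (hw : w ∈ Leg) (h : N w = w) :
    ∃ f, m.Legal f ∧ m.stepN f = f ∧ w = wd f := by
  obtain ⟨a, rfl⟩ := (H.leg w).1 hw
  rw [H.hN] at h
  obtain ⟨b, hb⟩ := stepN_conf (m := m) a
  rw [hb] at h
  exact ⟨m.conf a, m.legal_conf a, hb.trans (H.inj _ _ h), rfl⟩

theorem fix_M (w : W) (hw : w ∈ Leg) (h : M w = w) :
    ∃ f, m.Legal f ∧ m.stepM f = f ∧ w = wd f := by
  obtain ⟨a, rfl⟩ := (H.leg w).1 hw
  rw [H.hM] at h
  obtain ⟨b, hb⟩ := stepM_conf (m := m) a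
  rw [hb] at h
  exact ⟨m.conf a, m.legal_conf a, hb.trans (H.inj _ _ h), rfl⟩

end Realises

end Crest.Agent.R289.Closure89
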