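import Mathlib

/-!
# Row 289, TP4a: the two-place commutation `π^x_l π^y_{M l m} = π^y_m π^x_{L l m}`

Pure field lemmas (coefficientwise, no skew ring needed).  `K` a field with an involution `s`,
`be^z_v = 1 + bet z v τ + gam z v τ²` (`τ a = s a τ`), `act z (b, g) v = v.(1 + b τ + g τ²)`.
-/

set_option autoImplicit false

namespace Crest.Agent.R289.Comm510

variable {K : Type*} [Field K] (s : K →+* K)

/-- norm -/
def nm (a : K) : K := a * s a
/-- `N(v0) - z N(v1)` -/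
def Q (z v0 v1 : K) : K := nm s v0 - z * nm s v1
/-- `N(v0) - s z N(v1)` -/
def Qb (z v0 v1 : K) : K := nm s v0 - s z * nm s v1
/-- coefficient of `τ` in `be^z_v` -/
def bet (z v0 v1 : K) : K := (z - s z) / z * (v0 * s v1 / Qb s z v0 v1)
/-- coefficient of `τ²` in `be^z_v` -/
def gam (z v0 v1 : K) : K := -(Qb s z v0 v1 / Q s z v0 v1) / s z
/-- first component of `v.(1 + b τ + g τ²)` at the place `z` -/
def act0 (z b g v0 v1 : K) : K := v0 * (1 + z * s g) - z * b * v1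
/-- second component of `v.(1 + b τ + g τ²)` at the place `z` -/
def act1 (z b g v0 v1 : K) : K := v1 * (1 + z * g) - s b * v0

section basic

variable {s}

theorem nm_mul (a b : K) : nm s (a * b) = nm s a * nm s b := by
  simp only [nm, map_mul]; ring

theorem nm_eq_zero {a : K} (h : nm s a = 0) : a = 0 := by
  rcases mul_eq_zero.1 h with h | h
  · exact h
  · exact (map_eq_zero s).1 h

theorem s_nm (hs : ∀ a, s (s a) = a) (a : K) : s (nm s a) = nm s a := by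
  simp only [nm, map_mul, hs]; ring

theorem s_Q (hs : ∀ a, s (s a) = a) (z v0 v1 : K) : s (Q s z v0 v1) = Qb s z v0 v1 := by
  simp only [Q, Qb, map_sub, map_mul, s_nm hs]

theorem s_Qb (hs : ∀ a, s (s a) = a) (z v0 v1 : K) : s (Qb s z v0 v1) = Q s z v0 v1 := by
  simp only [Q, Qb, map_sub, map_mul, s_nm hs, hs]

theorem Q_ne (hs : ∀ a, s (s a) = a) {z v0 v1 : K} (hz : s z ≠ z) (hv : v0 ≠ 0 ∨ v1 ≠ 0) :
    Q s z v0 v1 ≠ 0 := by
  intro h
  have h1 : nm s v0 = z * nm s v1 := sub_eq_zero.1 h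
  have h2 : nm s v0 = s z * nm s v1 := by
    have := congrArg s h1
    rwa [map_mul, s_nm hs, s_nm hs] at this
  have h3 : (s z - z) * nm s v1 = 0 := by rw [sub_mul, ← h1, ← h2, sub_self]
  rcases mul_eq_zero.1 h3 with h3 | h3
  · exact hz (sub_eq_zero.1 h3)
  · have hv1 := nm_eq_zero h3
    rw [h3, mul_zero] at h1
    exact hv.elim (fun h => h (nm_eq_zero h1)) (fun h => h hv1)

theorem Qb_ne (hs : ∀ a, s (s a) = a) {z v0 v1 : K} (hz : s z ≠ z) (hv : v0 ≠ 0 ∨ v1 ≠ 0) :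
    Qb s z v0 v1 ≠ 0 := by
  rw [← s_Q hs]
  exact fun h => Q_ne hs hz hv ((map_eq_zero s).1 h)

theorem s_gam (hs : ∀ a, s (s a) = a) (z v0 v1 : K) :
    s (gam s z v0 v1) = -(Q s z v0 v1 / Qb s z v0 v1) / z := by
  simp only [gam, map_div₀, map_neg, s_Q hs, s_Qb hs, hs]

theorem s_bet (hs : ∀ a, s (s a) = a) (z v0 v1 : K) :
    s (bet s z v0 v1) = (s z - z) / s z * (s v0 * v1 / Q s z v0 v1) := by
  simp only [bet, map_div₀, map_mul, map_sub, s_Qb hs, hs]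

/-- `be^z_{c v} = be^z_v` -/
theorem bet_smul {z c v0 v1 : K} (hc : c ≠ 0) : bet s z (c * v0) (c * v1) = bet s z v0 v1 := by
  have hc' : s c ≠ 0 := fun h => hc ((map_eq_zero s).1 h)
  have h : Qb s z (c * v0) (c * v1) = (c * s c) * Qb s z v0 v1 := by
    simp only [Qb, nm, map_mul]; ring
  rw [bet, bet, h, map_mul,
    show c * v0 * (s c * s v1) = (c * s c) * (v0 * s v1) by ring,
    mul_div_mul_left _ _ (mul_ne_zero hc hc')]

theorem gam_smul {z c v0 v1 : K} (hc : c ≠ 0) : gam s z (c * v0) (c * v1) = gam s z v0 v1 := by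
  have hc' : s c ≠ 0 := fun h => hc ((map_eq_zero s).1 h)
  have h : Qb s z (c * v0) (c * v1) = (c * s c) * Qb s z v0 v1 := by
    simp only [Qb, nm, map_mul]; ring
  have h' : Q s z (c * v0) (c * v1) = (c * s c) * Q s z v0 v1 := by
    simp only [Q, nm, map_mul]; ring
  rw [gam, gam, h, h', mul_div_mul_left _ _ (mul_ne_zero hc hc')]

/-- `v.be^z_v = 0`, first component -/
theorem act0_self (hs : ∀ a, s (s a) = a) {z v0 v1 : K} (hz0 : z ≠ 0) (hz : s z ≠ z)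
    (hv : v0 ≠ 0 ∨ v1 ≠ 0) : act0 s z (bet s z v0 v1) (gam s z v0 v1) v0 v1 = 0 := by
  have hQ := Q_ne hs hz hv
  have hQb := Qb_ne hs hz hv
  rw [act0, s_gam hs, bet]
  have e : Qb s z v0 v1 = Q s z v0 v1 + (z - s z) * nm s v1 := by simp only [Q, Qb]; ring
  have e2 : v0 * (1 + z * (-(Q s z v0 v1 / Qb s z v0 v1) / z)) -
      z * ((z - s z) / z * (v0 * s v1 / Qb s z v0 v1)) * v1 =
      v0 * (Qb s z v0 v1 - Q s z v0 v1 - (z - s z) * nm s v1) / Qb s z v0 v1 := by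
    simp only [nm]
    field_simp
    ring
  rw [e2, e]
  simp

/-- `v.be^z_v = 0`, second component -/
theorem act1_self (hs : ∀ a, s (s a) = a) {z v0 v1 : K} (hz0 : z ≠ 0) (hz : s z ≠ z)
    (hv : v0 ≠ 0 ∨ v1 ≠ 0) : act1 s z (bet s z v0 v1) (gam s z v0 v1) v0 v1 = 0 := by
  have hQ := Q_ne hs hz hv
  have hQb := Qb_ne hs hz hv
  have hz0' : s z ≠ 0 := fun h => hz0 ((map_eq_zero s).1 h)
  rw [act1, s_bet hs, gam]
  have e : s z * Q s z v0 v1 - z * Qb s z v0 v1 = (s z - z) * nm s v0 := by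
    simp only [Q, Qb]; ring
  have e2 : v1 * (1 + z * (-(Qb s z v0 v1 / Q s z v0 v1) / s z)) -
      (s z - z) / s z * (s v0 * v1 / Q s z v0 v1) * v0 =
      v1 * ((s z * Q s z v0 v1 - z * Qb s z v0 v1) - (s z - z) * nm s v0) /
        (s z * Q s z v0 v1) := by
    simp only [nm]
    field_simp
    ring
  rw [e2, e]
  simp

/-- norm relation 1 -/
theorem norm1 (hs : ∀ a, s (s a) = a) {z v0 v1 : K} (hz0 : z ≠ 0) (hz : s z ≠ z)
    (hv : v0 ≠ 0 ∨ v1 ≠ 0) :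
    gam s z v0 v1 + s (gam s z v0 v1) - nm s (bet s z v0 v1) = -(z + s z) / (z * s z) := by
  have hQ := Q_ne hs hz hv
  have hQb := Qb_ne hs hz hv
  have hz0' : s z ≠ 0 := fun h => hz0 ((map_eq_zero s).1 h)
  have h1 : nm s (bet s z v0 v1) =
      (z - s z) * (s z - z) * (nm s v0 * nm s v1) / (z * s z * (Q s z v0 v1 * Qb s z v0 v1)) := by
    rw [nm, s_bet hs, bet]
    simp only [nm]
    field_simp
  rw [h1, s_gam hs, gam]
  have e : z * Qb s z v0 v1 ^ 2 + s z * Q s z v0 v1 ^ 2 - (z - s z) ^ 2 * (nm s v0 * nm s v1) =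
      (z + s z) * (Q s z v0 v1 * Qb s z v0 v1) := by
    simp only [Q, Qb]; ring
  have e2 : -(Qb s z v0 v1 / Q s z v0 v1) / s z + -(Q s z v0 v1 / Qb s z v0 v1) / z -
      (z - s z) * (s z - z) * (nm s v0 * nm s v1) / (z * s z * (Q s z v0 v1 * Qb s z v0 v1)) =
      -(z * Qb s z v0 v1 ^ 2 + s z * Q s z v0 v1 ^ 2 - (z - s z) ^ 2 * (nm s v0 * nm s v1)) /
        (z * s z * (Q s z v0 v1 * Qb s z v0 v1)) := by
    field_simp
    ring
  rw [e2, e]
  field_simp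

/-- norm relation 2 -/
theorem norm2 (hs : ∀ a, s (s a) = a) {z v0 v1 : K} (hz0 : z ≠ 0) (hz : s z ≠ z)
    (hv : v0 ≠ 0 ∨ v1 ≠ 0) : nm s (gam s z v0 v1) = 1 / (z * s z) := by
  have hQ := Q_ne hs hz hv
  have hQb := Qb_ne hs hz hv
  have hz0' : s z ≠ 0 := fun h => hz0 ((map_eq_zero s).1 h)
  rw [nm, s_gam hs, gam]
  field_simp

/-- determinant of the action of `be^z_v` at the place `t` -/
theorem det_be (hs : ∀ a, s (s a) = a) {z v0 v1 : K} (hz0 : z ≠ 0) (hz : s z ≠ z)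
    (hv : v0 ≠ 0 ∨ v1 ≠ 0) (t : K) :
    (1 + t * s (gam s z v0 v1)) * (1 + t * gam s z v0 v1) - t * nm s (bet s z v0 v1) =
      (t - z) * (t - s z) / (z * s z) := by
  have h1 := norm1 hs hz0 hz hv
  have h2 := norm2 hs hz0 hz hv
  have hz0' : s z ≠ 0 := fun h => hz0 ((map_eq_zero s).1 h)
  have e : (1 + t * s (gam s z v0 v1)) * (1 + t * gam s z v0 v1) - t * nm s (bet s z v0 v1) =
      1 + t * (gam s z v0 v1 + s (gam s z v0 v1) - nm s (bet s z v0 v1)) +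
        t ^ 2 * nm s (gam s z v0 v1) := by
    simp only [nm]; ring
  rw [e, h1, h2]
  field_simp
  ring

theorem det_ne (hs : ∀ a, s (s a) = a) {z v0 v1 : K} (hz0 : z ≠ 0) (hz : s z ≠ z)
    (hv : v0 ≠ 0 ∨ v1 ≠ 0) {t : K} (h1 : t ≠ z) (h2 : t ≠ s z) :
    (1 + t * s (gam s z v0 v1)) * (1 + t * gam s z v0 v1) - t * nm s (bet s z v0 v1) ≠ 0 := by
  have hz0' : s z ≠ 0 := fun h => hz0 ((map_eq_zero s).1 h)
  rw [det_be hs hz0 hz hv]
  exact div_ne_zero (mul_ne_zero (sub_ne_zero.2 h1) (sub_ne_zero.2 h2)) (mul_ne_zero hz0 hz0')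

end basic

/-! ### products -/

section prod

variable {s}

/-- action of a product of two elements `1 + b τ + g τ²` -/
theorem act0_mul (hs : ∀ a, s (s a) = a) (z b g b' g' v0 v1 : K) :
    act0 s z b' g' (act0 s z b g v0 v1) (act1 s z b g v0 v1) =
      v0 * (1 + z * s (g + b * s b' + g') + z ^ 2 * s (g * g')) -
        v1 * (z * (b + b') + z ^ 2 * (b * s g' + g * b')) := by
  simp only [act0, act1, map_add, map_mul, hs]; ring

theorem act1_mul (hs : ∀ a, s (s a) = a) (z b g b' g' v0 v1 : K) :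
    act1 s z b' g' (act0 s z b g v0 v1) (act1 s z b g v0 v1) =
      v1 * (1 + z * (g + b * s b' + g') + z ^ 2 * (g * g')) -
        v0 * (s (b + b') + z * s (b * s g' + g * b')) := by
  simp only [act0, act1, map_add, map_mul, hs]; ring

/-- cross product and determinant -/
theorem act_cross (z b g v0 v1 w0 w1 : K) :
    act0 s z b g v0 v1 * act1 s z b g w0 w1 - act1 s z b g v0 v1 * act0 s z b g w0 w1 =
      ((1 + z * s g) * (1 + z * g) - z * nm s b) * (v0 * w1 - v1 * w0) := by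
  simp only [act0, act1, nm]; ring

/-- a non-zero determinant keeps vectors non-zero -/
theorem act_ne {z b g v0 v1 : K} (hd : (1 + z * s g) * (1 + z * g) - z * nm s b ≠ 0)
    (hv : v0 ≠ 0 ∨ v1 ≠ 0) : act0 s z b g v0 v1 ≠ 0 ∨ act1 s z b g v0 v1 ≠ 0 := by
  by_contra hc
  push Not at hc
  obtain ⟨h0, h1⟩ := hc
  have e0 : ((1 + z * s g) * (1 + z * g) - z * nm s b) * v0 = 0 := by
    have : ((1 + z * s g) * (1 + z * g) - z * nm s b) * v0 =
        (1 + z * g) * act0 s z b g v0 v1 + z * b * act1 s z b g v0 v1 := by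
      simp only [act0, act1, nm]; ring
    rw [this, h0, h1]; ring
  have e1 : ((1 + z * s g) * (1 + z * g) - z * nm s b) * v1 = 0 := by
    have : ((1 + z * s g) * (1 + z * g) - z * nm s b) * v1 =
        s b * act0 s z b g v0 v1 + (1 + z * s g) * act1 s z b g v0 v1 := by
      simp only [act0, act1, nm]; ring
    rw [this, h0, h1]; ring
  rcases hv with hv | hv
  · exact hv ((mul_eq_zero.1 e0).resolve_left hd)
  · exact hv ((mul_eq_zero.1 e1).resolve_left hd)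

/-- a cubic with four distinct roots is zero -/
theorem cubic_zero {c0 c1 c2 c3 : K} {a b c d : K} (hab : a ≠ b) (hac : a ≠ c) (had : a ≠ d)
    (hbc : b ≠ c) (hbd : b ≠ d) (hcd : c ≠ d)
    (ha : c0 + c1 * a + c2 * a ^ 2 + c3 * a ^ 3 = 0)
    (hb : c0 + c1 * b + c2 * b ^ 2 + c3 * b ^ 3 = 0)
    (hc : c0 + c1 * c + c2 * c ^ 2 + c3 * c ^ 3 = 0)
    (hd : c0 + c1 * d + c2 * d ^ 2 + c3 * d ^ 3 = 0) : c0 = 0 ∧ c1 = 0 ∧ c2 = 0 ∧ c3 = 0 := by
  have dab : c1 + c2 * (a + b) + c3 * (a ^ 2 + a * b + b ^ 2) = 0 := by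
    have : (a - b) * (c1 + c2 * (a + b) + c3 * (a ^ 2 + a * b + b ^ 2)) = 0 := by
      linear_combination ha - hb
    exact (mul_eq_zero.1 this).resolve_left (sub_ne_zero.2 hab)
  have dac : c1 + c2 * (a + c) + c3 * (a ^ 2 + a * c + c ^ 2) = 0 := by
    have : (a - c) * (c1 + c2 * (a + c) + c3 * (a ^ 2 + a * c + c ^ 2)) = 0 := by
      linear_combination ha - hc
    exact (mul_eq_zero.1 this).resolve_left (sub_ne_zero.2 hac)
  have dad : c1 + c2 * (a + d) + c3 * (a ^ 2 + a * d + d ^ 2) = 0 := by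
    have : (a - d) * (c1 + c2 * (a + d) + c3 * (a ^ 2 + a * d + d ^ 2)) = 0 := by
      linear_combination ha - hd
    exact (mul_eq_zero.1 this).resolve_left (sub_ne_zero.2 had)
  have dabc : c2 + c3 * (a + b + c) = 0 := by
    have : (b - c) * (c2 + c3 * (a + b + c)) = 0 := by linear_combination dab - dac
    exact (mul_eq_zero.1 this).resolve_left (sub_ne_zero.2 hbc)
  have dabd : c2 + c3 * (a + b + d) = 0 := by
    have : (b - d) * (c2 + c3 * (a + b + d)) = 0 := by linear_combination dab - dad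
    exact (mul_eq_zero.1 this).resolve_left (sub_ne_zero.2 hbd)
  have h3 : c3 = 0 := by
    have : (c - d) * c3 = 0 := by linear_combination dabc - dabd
    exact (mul_eq_zero.1 this).resolve_left (sub_ne_zero.2 hcd)
  have h2 : c2 = 0 := by simpa [h3] using dabc
  have h1 : c1 = 0 := by simpa [h3, h2] using dab
  have h0 : c0 = 0 := by simpa [h3, h2, h1] using ha
  exact ⟨h0, h1, h2, h3⟩

/-- **uniqueness**: `d₁ τ + … + d₄ τ⁴` killed by `l ≠ 0` at `x` and by `m ≠ 0` at `y` is zero -/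
theorem uniq4 (hs : ∀ a, s (s a) = a) {x y : K} (hx0 : x ≠ 0) (hy0 : y ≠ 0) (hx : s x ≠ x)
    (hy : s y ≠ y) (hxy : x ≠ y) (hxy' : x ≠ s y) {l0 l1 m0 m1 : K} (hl : l0 ≠ 0 ∨ l1 ≠ 0)
    (hm : m0 ≠ 0 ∨ m1 ≠ 0) {d1 d2 d3 d4 : K}
    (h1 : l0 * (x * s d2 + x ^ 2 * s d4) - l1 * (x * d1 + x ^ 2 * d3) = 0)
    (h2 : l1 * (x * d2 + x ^ 2 * d4) - l0 * (s d1 + x * s d3) = 0)
    (h3 : m0 * (y * s d2 + y ^ 2 * s d4) - m1 * (y * d1 + y ^ 2 * d3) = 0)
    (h4 : m1 * (y * d2 + y ^ 2 * d4) - m0 * (s d1 + y * s d3) = 0) :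
    d1 = 0 ∧ d2 = 0 ∧ d3 = 0 ∧ d4 = 0 := by
  -- the cubic
  have key : ∀ z v0 v1 : K, z ≠ 0 → (v0 ≠ 0 ∨ v1 ≠ 0) →
      v0 * (z * s d2 + z ^ 2 * s d4) - v1 * (z * d1 + z ^ 2 * d3) = 0 →
      v1 * (z * d2 + z ^ 2 * d4) - v0 * (s d1 + z * s d3) = 0 →
      -nm s d1 + (nm s d2 - (s d1 * d3 + s d3 * d1)) * z +
        ((d2 * s d4 + d4 * s d2) - nm s d3) * z ^ 2 + nm s d4 * z ^ 3 = 0 := by
    intro z v0 v1 hz hv a1 a2
    have b0 : v0 * (z * (-nm s d1 + (nm s d2 - (s d1 * d3 + s d3 * d1)) * z +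
        ((d2 * s d4 + d4 * s d2) - nm s d3) * z ^ 2 + nm s d4 * z ^ 3)) = 0 := by
      simp only [nm]
      linear_combination (z * d2 + z ^ 2 * d4) * a1 + (z * d1 + z ^ 2 * d3) * a2
    have b1 : v1 * (z * (-nm s d1 + (nm s d2 - (s d1 * d3 + s d3 * d1)) * z +
        ((d2 * s d4 + d4 * s d2) - nm s d3) * z ^ 2 + nm s d4 * z ^ 3)) = 0 := by
      simp only [nm]
      linear_combination (z * s d2 + z ^ 2 * s d4) * a2 + (s d1 + z * s d3) * a1
    have b : z * (-nm s d1 + (nm s d2 - (s d1 * d3 + s d3 * d1)) * z +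
        ((d2 * s d4 + d4 * s d2) - nm s d3) * z ^ 2 + nm s d4 * z ^ 3) = 0 := by
      rcases hv with hv | hv
      · exact (mul_eq_zero.1 b0).resolve_left hv
      · exact (mul_eq_zero.1 b1).resolve_left hv
    exact (mul_eq_zero.1 b).resolve_left hz
  have kx := key x l0 l1 hx0 hl h1 h2
  have ky := key y m0 m1 hy0 hm h3 h4
  have conj : ∀ z : K, -nm s d1 + (nm s d2 - (s d1 * d3 + s d3 * d1)) * z +
        ((d2 * s d4 + d4 * s d2) - nm s d3) * z ^ 2 + nm s d4 * z ^ 3 = 0 →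
      -nm s d1 + (nm s d2 - (s d1 * d3 + s d3 * d1)) * s z +
        ((d2 * s d4 + d4 * s d2) - nm s d3) * s z ^ 2 + nm s d4 * s z ^ 3 = 0 := by
    intro z h
    have := congrArg s h
    simp only [map_add, map_sub, map_mul, map_neg, map_pow, map_zero, s_nm hs, hs] at this
    rw [← this]
    ring
  have kx' := conj x kx
  have ky' := conj y ky
  obtain ⟨c0, c1, c2, c3⟩ := cubic_zero (a := x) (b := s x) (c := y) (d := s y)
    (fun h => hx h.symm) hxy hxy' (fun h => hxy' (by rw [← h, hs]))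
    (fun h => hxy (s.injective h)) (fun h => hy h.symm) kx kx' ky ky'
  have e4 : d4 = 0 := nm_eq_zero c3
  have e1 : d1 = 0 := nm_eq_zero (neg_eq_zero.1 c0)
  have e2 : d2 = 0 := nm_eq_zero (by simpa [e1] using c1)
  have e3 : d3 = 0 := nm_eq_zero (by simpa [e4] using c2)
  exact ⟨e1, e2, e3, e4⟩

end prod

/-! ### the two steps -/

/-- `m.be^x_l` at the place `y`, first component -/
def M0 (x y l0 l1 m0 m1 : K) : K := act0 s y (bet s x l0 l1) (gam s x l0 l1) m0 m1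
/-- `m.be^x_l` at the place `y`, second component -/
def M1 (x y l0 l1 m0 m1 : K) : K := act1 s y (bet s x l0 l1) (gam s x l0 l1) m0 m1

section steps

variable {s}

theorem M_smul_left {x y c l0 l1 m0 m1 : K} (hc : c ≠ 0) :
    M0 s x y (c * l0) (c * l1) m0 m1 = M0 s x y l0 l1 m0 m1 ∧
      M1 s x y (c * l0) (c * l1) m0 m1 = M1 s x y l0 l1 m0 m1 := by
  simp only [M0, M1, bet_smul hc, gam_smul hc, and_self]

theorem M_smul_right (x y c l0 l1 m0 m1 : K) :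
    M0 s x y l0 l1 (c * m0) (c * m1) = c * M0 s x y l0 l1 m0 m1 ∧
      M1 s x y l0 l1 (c * m0) (c * m1) = c * M1 s x y l0 l1 m0 m1 := by
  simp only [M0, M1, act0, act1]
  constructor <;> ring

theorem M_ne (hs : ∀ a, s (s a) = a) {x y : K} (hx0 : x ≠ 0) (hx : s x ≠ x) (hxy : x ≠ y)
    (hxy' : x ≠ s y) {l0 l1 m0 m1 : K} (hl : l0 ≠ 0 ∨ l1 ≠ 0) (hm : m0 ≠ 0 ∨ m1 ≠ 0) :
    M0 s x y l0 l1 m0 m1 ≠ 0 ∨ M1 s x y l0 l1 m0 m1 ≠ 0 :=
  act_ne (det_ne hs hx0 hx hl (t := y) hxy.symm fun h => hxy' (by rw [h, hs])) hm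

/-- `m ↦ m.be^x_l` is injective on lines -/
theorem M_line (hs : ∀ a, s (s a) = a) {x y : K} (hx0 : x ≠ 0) (hx : s x ≠ x) (hxy : x ≠ y)
    (hxy' : x ≠ s y) {l0 l1 m0 m1 n0 n1 : K} (hl : l0 ≠ 0 ∨ l1 ≠ 0)
    (h : M0 s x y l0 l1 m0 m1 * M1 s x y l0 l1 n0 n1 -
      M1 s x y l0 l1 m0 m1 * M0 s x y l0 l1 n0 n1 = 0) : m0 * n1 - m1 * n0 = 0 := by
  rw [M0, M1, M0, M1, act_cross] at h
  exact (mul_eq_zero.1 h).resolve_left
    (det_ne hs hx0 hx hl (t := y) hxy.symm fun h => hxy' (by rw [h, hs]))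

/-- **commutation**, coefficientwise:
`be^x_l * be^y_{M l m} = be^y_m * be^x_{L l m}` with `M l m = m.be^x_l`, `L l m = l.be^y_m` -/
theorem comm (hs : ∀ a, s (s a) = a) {x y : K} (hx0 : x ≠ 0) (hy0 : y ≠ 0) (hx : s x ≠ x)
    (hy : s y ≠ y) (hxy : x ≠ y) (hxy' : x ≠ s y) {l0 l1 m0 m1 : K} (hl : l0 ≠ 0 ∨ l1 ≠ 0)
    (hm : m0 ≠ 0 ∨ m1 ≠ 0) {b g b' g' c h c' h' : K}
    (eb : b = bet s x l0 l1) (eg : g = gam s x l0 l1)
    (ec : c = bet s y m0 m1) (eh : h = gam s y m0 m1)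
    (eb' : b' = bet s y (M0 s x y l0 l1 m0 m1) (M1 s x y l0 l1 m0 m1))
    (eg' : g' = gam s y (M0 s x y l0 l1 m0 m1) (M1 s x y l0 l1 m0 m1))
    (ec' : c' = bet s x (M0 s y x m0 m1 l0 l1) (M1 s y x m0 m1 l0 l1))
    (eh' : h' = gam s x (M0 s y x m0 m1 l0 l1) (M1 s y x m0 m1 l0 l1)) :
    b + b' = c + c' ∧ g + b * s b' + g' = h + c * s c' + h' ∧
      b * s g' + g * b' = c * s h' + h * c' ∧ g * g' = h * h' := by
  have hyx' : y ≠ s x := fun h => hxy' (by rw [h, hs])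
  have hMn : M0 s x y l0 l1 m0 m1 ≠ 0 ∨ M1 s x y l0 l1 m0 m1 ≠ 0 :=
    M_ne hs hx0 hx hxy hxy' hl hm
  have hLn : M0 s y x m0 m1 l0 l1 ≠ 0 ∨ M1 s y x m0 m1 l0 l1 ≠ 0 :=
    M_ne hs hy0 hy hxy.symm hyx' hm hl
  -- `l` kills both products at `x`
  have p0 : act0 s x b' g' (act0 s x b g l0 l1) (act1 s x b g l0 l1) = 0 := by
    have e0 : act0 s x b g l0 l1 = 0 := by rw [eb, eg]; exact act0_self hs hx0 hx hl
    have e1 : act1 s x b g l0 l1 = 0 := by rw [eb, eg]; exact act1_self hs hx0 hx hl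
    rw [e0, e1]; simp [act0]
  have p1 : act1 s x b' g' (act0 s x b g l0 l1) (act1 s x b g l0 l1) = 0 := by
    have e0 : act0 s x b g l0 l1 = 0 := by rw [eb, eg]; exact act0_self hs hx0 hx hl
    have e1 : act1 s x b g l0 l1 = 0 := by rw [eb, eg]; exact act1_self hs hx0 hx hl
    rw [e0, e1]; simp [act1]
  have q0 : act0 s x c' h' (act0 s x c h l0 l1) (act1 s x c h l0 l1) = 0 := by
    rw [ec', eh', ec, eh]; exact act0_self hs hx0 hx hLn
  have q1 : act1 s x c' h' (act0 s x c h l0 l1) (act1 s x c h l0 l1) = 0 := by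
    rw [ec', eh', ec, eh]; exact act1_self hs hx0 hx hLn
  -- `m` kills both products at `y`
  have r0 : act0 s y b' g' (act0 s y b g m0 m1) (act1 s y b g m0 m1) = 0 := by
    rw [eb', eg', eb, eg]; exact act0_self hs hy0 hy hMn
  have r1 : act1 s y b' g' (act0 s y b g m0 m1) (act1 s y b g m0 m1) = 0 := by
    rw [eb', eg', eb, eg]; exact act1_self hs hy0 hy hMn
  have t0 : act0 s y c' h' (act0 s y c h m0 m1) (act1 s y c h m0 m1) = 0 := by
    have e0 : act0 s y c h m0 m1 = 0 := by rw [ec, eh]; exact act0_self hs hy0 hy hm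
    have e1 : act1 s y c h m0 m1 = 0 := by rw [ec, eh]; exact act1_self hs hy0 hy hm
    rw [e0, e1]; simp [act0]
  have t1 : act1 s y c' h' (act0 s y c h m0 m1) (act1 s y c h m0 m1) = 0 := by
    have e0 : act0 s y c h m0 m1 = 0 := by rw [ec, eh]; exact act0_self hs hy0 hy hm
    have e1 : act1 s y c h m0 m1 = 0 := by rw [ec, eh]; exact act1_self hs hy0 hy hm
    rw [e0, e1]; simp [act1]
  rw [act0_mul hs] at p0 q0 r0 t0
  rw [act1_mul hs] at p1 q1 r1 t1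
  have u := uniq4 hs hx0 hy0 hx hy hxy hxy' hl hm
    (d1 := (b + b') - (c + c')) (d2 := (g + b * s b' + g') - (h + c * s c' + h'))
    (d3 := (b * s g' + g * b') - (c * s h' + h * c')) (d4 := g * g' - h * h')
    (by rw [map_sub, map_sub]; linear_combination p0 - q0)
    (by rw [map_sub, map_sub]; linear_combination p1 - q1)
    (by rw [map_sub, map_sub]; linear_combination r0 - t0)
    (by rw [map_sub, map_sub]; linear_combination r1 - t1)
  exact ⟨sub_eq_zero.1 u.1, sub_eq_zero.1 u.2.1, sub_eq_zero.1 u.2.2.1, sub_eq_zero.1 u.2.2.2⟩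

/-- equal coefficients ⇒ equal lines -/
theorem line_of_be (hs : ∀ a, s (s a) = a) {z : K} (hz0 : z ≠ 0) (hz : s z ≠ z) {v0 v1 w0 w1 : K}
    (hv : v0 ≠ 0 ∨ v1 ≠ 0) (hw : w0 ≠ 0 ∨ w1 ≠ 0) (hb : bet s z v0 v1 = bet s z w0 w1)
    (hg : gam s z v0 v1 = gam s z w0 w1) : v0 * w1 - v1 * w0 = 0 := by
  have a0 := act0_self hs hz0 hz hv
  have a1 := act1_self hs hz0 hz hv
  have b0 := act0_self hs hz0 hz hw
  have b1 := act1_self hs hz0 hz hw
  rw [hb, hg] at a0 a1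
  have hQ := Q_ne hs hz hw
  have hQb := Qb_ne hs hz hw
  have hz0' : s z ≠ 0 := fun h => hz0 ((map_eq_zero s).1 h)
  set B := bet s z w0 w1
  set G := gam s z w0 w1 with hG
  rw [act0] at a0 b0
  rw [act1] at a1 b1
  have c0 : (1 + z * s G) * (v0 * w1 - v1 * w0) = 0 := by
    linear_combination w1 * a0 - v1 * b0
  have c1 : (1 + z * G) * (v0 * w1 - v1 * w0) = 0 := by
    linear_combination v0 * b1 - w0 * a1
  have d : (1 + z * s G) ≠ 0 ∨ (1 + z * G) ≠ 0 := by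
    have e0 : 1 + z * s G = (z - s z) * nm s w1 / Qb s z w0 w1 := by
      rw [hG, s_gam hs]
      have e : Qb s z w0 w1 - Q s z w0 w1 = (z - s z) * nm s w1 := by simp only [Q, Qb]; ring
      rw [← e]
      field_simp
      ring
    have e1 : 1 + z * G = (s z - z) * nm s w0 / (s z * Q s z w0 w1) := by
      rw [hG, gam]
      have e : s z * Q s z w0 w1 - z * Qb s z w0 w1 = (s z - z) * nm s w0 := by
        simp only [Q, Qb]; ring
      rw [← e]
      field_simp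
      ring
    rcases hw with hw | hw
    · right
      rw [e1]
      exact div_ne_zero (mul_ne_zero (sub_ne_zero.2 hz) fun h => hw (nm_eq_zero h))
        (mul_ne_zero hz0' hQ)
    · left
      rw [e0]
      exact div_ne_zero (mul_ne_zero (sub_ne_zero.2 hz.symm) fun h => hw (nm_eq_zero h)) hQb
  rcases d with d | d
  · exact (mul_eq_zero.1 c0).resolve_left d
  · exact (mul_eq_zero.1 c1).resolve_left d

/-- norm of `(u τ + w τ²)(1 + b τ + g τ²)` -/
theorem norm_mul (hs : ∀ a, s (s a) = a) (u w b g t : K) :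
    t * ((w + u * s b) + t * (w * g)) * (s (w + u * s b) + t * s (w * g)) -
      (s u + t * s (u * s g + w * b)) * (u + t * (u * s g + w * b)) =
    (-nm s u + t * nm s w) * ((1 + t * s g) * (1 + t * g) - t * nm s b) := by
  simp only [nm, map_add, map_mul, hs]; ring

/-- **the odd-odd labels determine the square**: equal `M` lines and equal `L` lines force equal
`l` lines and equal `m` lines -/
theorem pair_inj (hs : ∀ a, s (s a) = a) {x y : K} (hx0 : x ≠ 0) (hy0 : y ≠ 0) (hx : s x ≠ x)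
    (hy : s y ≠ y) (hxy : x ≠ y) (hxy' : x ≠ s y) {l0 l1 m0 m1 l0' l1' m0' m1' : K}
    (hl : l0 ≠ 0 ∨ l1 ≠ 0) (hm : m0 ≠ 0 ∨ m1 ≠ 0) (hl' : l0' ≠ 0 ∨ l1' ≠ 0)
    (hm' : m0' ≠ 0 ∨ m1' ≠ 0) {c d : K} (hc : c ≠ 0) (hd : d ≠ 0)
    (hM0 : M0 s x y l0' l1' m0' m1' = c * M0 s x y l0 l1 m0 m1)
    (hM1 : M1 s x y l0' l1' m0' m1' = c * M1 s x y l0 l1 m0 m1)
    (hL0 : M0 s y x m0' m1' l0' l1' = d * M0 s y x m0 m1 l0 l1)
    (hL1 : M1 s y x m0' m1' l0' l1' = d * M1 s y x m0 m1 l0 l1) :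
    l0 * l1' - l1 * l0' = 0 ∧ m0 * m1' - m1 * m0' = 0 := by
  have hyx' : y ≠ s x := fun h => hxy' (by rw [h, hs])
  have hMn : M0 s x y l0 l1 m0 m1 ≠ 0 ∨ M1 s x y l0 l1 m0 m1 ≠ 0 :=
    M_ne hs hx0 hx hxy hxy' hl hm
  have hLn : M0 s y x m0 m1 l0 l1 ≠ 0 ∨ M1 s y x m0 m1 l0 l1 ≠ 0 :=
    M_ne hs hy0 hy hxy.symm hyx' hm hl
  obtain ⟨A1, A2, A3, A4⟩ := comm hs hx0 hy0 hx hy hxy hxy' hl hm rfl rfl rfl rfl rfl rfl rfl rfl
  obtain ⟨B1, B2, B3, B4⟩ := comm hs hx0 hy0 hx hy hxy hxy' hl' hm' rfl rfl rfl rfl rfl rfl rfl rfl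
  rw [hM0, hM1, hL0, hL1, bet_smul hc, gam_smul hc, bet_smul hd, gam_smul hd] at B2 B3
  rw [hM0, hM1, hL0, hL1, gam_smul hc, gam_smul hd] at B4
  rw [hM0, hM1, hL0, hL1, bet_smul hc, bet_smul hd] at B1
  set b := bet s x l0 l1
  set g := gam s x l0 l1
  set b2 := bet s x l0' l1' with hb2
  set g2 := gam s x l0' l1' with hg2
  set p := bet s y m0 m1
  set r := gam s y m0 m1
  set p2 := bet s y m0' m1' with hp2
  set r2 := gam s y m0' m1' with hr2
  set β := bet s y (M0 s x y l0 l1 m0 m1) (M1 s x y l0 l1 m0 m1) with hβ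
  set γ := gam s y (M0 s x y l0 l1 m0 m1) (M1 s x y l0 l1 m0 m1) with hγ
  set β' := bet s x (M0 s y x m0 m1 l0 l1) (M1 s y x m0 m1 l0 l1) with hβ'
  set γ' := gam s x (M0 s y x m0 m1 l0 l1) (M1 s y x m0 m1 l0 l1) with hγ'
  -- `(u τ + w τ²) be_{M} = (u' τ + w' τ²) be_{L}`
  have E1 : b - b2 = p - p2 := by linear_combination A1 - B1
  have E2 : (g - g2) + (b - b2) * s β = (r - r2) + (p - p2) * s β' := by
    linear_combination A2 - B2
  have E3 : (b - b2) * s γ + (g - g2) * β = (p - p2) * s γ' + (r - r2) * β' := by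
    linear_combination A3 - B3
  have E4 : (g - g2) * γ = (r - r2) * γ' := by linear_combination A4 - B4
  have N : ∀ t : K, (-nm s (b - b2) + t * nm s (g - g2)) *
        ((1 + t * s γ) * (1 + t * γ) - t * nm s β) =
      (-nm s (p - p2) + t * nm s (r - r2)) *
        ((1 + t * s γ') * (1 + t * γ') - t * nm s β') := by
    intro t
    rw [← norm_mul hs, ← norm_mul hs, E2, E3, E4, E1]
  have fin : ∀ {z u w : K}, s z ≠ z →
      -nm s u + z * nm s w = 0 → u = 0 ∧ w = 0 := by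
    intro z u w hz h
    have h' := congrArg s h
    rw [map_add, map_neg, map_mul, s_nm hs, s_nm hs, map_zero] at h'
    have h'' : (s z - z) * nm s w = 0 := by linear_combination h' - h
    have hw := nm_eq_zero ((mul_eq_zero.1 h'').resolve_left (sub_ne_zero.2 hz))
    refine ⟨nm_eq_zero (s := s) ?_, hw⟩
    rw [hw] at h
    simpa [nm] using h
  constructor
  · have h := N x
    have z1 : (1 + x * s γ') * (1 + x * γ') - x * nm s β' = 0 := by
      rw [hγ', hβ', det_be hs hx0 hx hLn]; simp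
    have z2 : (1 + x * s γ) * (1 + x * γ) - x * nm s β ≠ 0 := by
      rw [hγ, hβ]; exact det_ne hs hy0 hy hMn hxy hxy'
    rw [z1, mul_zero] at h
    obtain ⟨e1, e2⟩ := fin hx ((mul_eq_zero.1 h).resolve_right z2)
    exact line_of_be hs hx0 hx hl hl' (sub_eq_zero.1 e1) (sub_eq_zero.1 e2)
  · have h := N y
    have z1 : (1 + y * s γ) * (1 + y * γ) - y * nm s β = 0 := by
      rw [hγ, hβ, det_be hs hy0 hy hMn]; simp
    have z2 : (1 + y * s γ') * (1 + y * γ') - y * nm s β' ≠ 0 := by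
      rw [hγ', hβ']; exact det_ne hs hx0 hx hLn hxy.symm hyx'
    rw [z1, mul_zero] at h
    obtain ⟨e1, e2⟩ := fin hy ((mul_eq_zero.1 h.symm).resolve_right z2)
    exact line_of_be hs hy0 hy hm hm' (sub_eq_zero.1 e1) (sub_eq_zero.1 e2)

end steps

end Crest.Agent.R289.Comm510
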