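import Crest.Agent.R289.DefE_217
import Crest.Agent.R289.Units_726

/-!
# Row 289, block E, leaf E5b: compilation of a table of rules to gate templates

`tmpl S t` is the template (in the format of `Units_726`) of a unit of type `t`; slots `0 .. L-1`
are the variables, the next slots are the nodes of the rules in post-order.
-/

set_option autoImplicit false

namespace Crest.Agent.R289.Comp217

open Crest.PPADPCP Crest.Agent.R289 Crest.Agent.R289.Units726

theorem size_pos (e : PExp) : 0 < e.size := by cases e <;> simp [PExp.size]

/-- gates of an expression, the node of its root is `b + e.size - 1` -/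
def comp (SS : ℕ) : ℕ → PExp → List GGate
  | b, .var k l => [GGate.copy ((k + 1) * SS + l) b]
  | b, .const q => [GGate.const q b]
  | b, .scale q e => comp SS b e ++ [GGate.scale q (b + e.size - 1) (b + e.size)]
  | b, .add e f => comp SS b e ++ (comp SS (b + e.size) f ++
      [GGate.add (b + e.size - 1) (b + e.size + f.size - 1) (b + e.size + f.size)])
  | b, .sub e f => comp SS b e ++ (comp SS (b + e.size) f ++
      [GGate.sub (b + e.size - 1) (b + e.size + f.size - 1) (b + e.size + f.size)])

theorem comp_out (SS : ℕ) (e : PExp) (b : ℕ) :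
    (comp SS b e).map GGate.out = List.range' b e.size := by
  induction e generalizing b with
  | var k l => simp [comp, PExp.size, GGate.out]
  | const q => simp [comp, PExp.size, GGate.out]
  | scale q e ih =>
    simp only [comp, List.map_append, ih, PExp.size, List.map_cons, List.map_nil, GGate.out]
    rw [List.range'_concat]
    simp
  | add e f ihe ihf =>
    simp only [comp, List.map_append, ihe, ihf, PExp.size, List.map_cons, List.map_nil, GGate.out]
    rw [List.range'_concat, ← List.append_assoc, List.range'_append_1]
    simp [Nat.add_assoc]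
  | sub e f ihe ihf =>
    simp only [comp, List.map_append, ihe, ihf, PExp.size, List.map_cons, List.map_nil, GGate.out]
    rw [List.range'_concat, ← List.append_assoc, List.range'_append_1]
    simp [Nat.add_assoc]

theorem comp_length (SS : ℕ) (e : PExp) (b : ℕ) : (comp SS b e).length = e.size := by
  have h := congrArg List.length (comp_out SS e b)
  simpa using h

/-- all nodes are below `(K + 1) * SS` -/
theorem comp_WF {SS K L : ℕ} (hL : L ≤ SS) {e : PExp} (he : e.WF K L) {b : ℕ}
    (hb : b + e.size ≤ SS) : ∀ g ∈ comp SS b e, g.WF ((K + 1) * SS) := by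
  have hSS : ∀ r, r < SS → r < (K + 1) * SS := fun r hr => lt_of_lt_of_le hr (by nlinarith)
  induction e generalizing b with
  | var k l =>
    intro g hg
    simp only [comp, List.mem_singleton] at hg
    subst hg
    simp only [PExp.WF] at he
    simp only [PExp.size] at hb
    simp only [GGate.WF]
    refine ⟨?_, hSS _ (by omega)⟩
    have h1 : (k + 2) * SS ≤ (K + 1) * SS := Nat.mul_le_mul_right _ (by omega)
    have h2 : (k + 2) * SS = (k + 1) * SS + SS := by ring
    omega
  | const q =>
    intro g hg
    simp only [comp, List.mem_singleton] at hg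
    subst hg
    simp only [PExp.WF] at he
    simp only [PExp.size] at hb
    exact ⟨he.1, he.2, hSS _ (by omega)⟩
  | scale q e ih =>
    intro g hg
    simp only [PExp.WF] at he
    simp only [PExp.size] at hb
    simp only [comp, List.mem_append, List.mem_singleton] at hg
    have hp := size_pos e
    rcases hg with hg | rfl
    · exact ih he.2 (by omega) g hg
    · exact ⟨he.1.1, he.1.2, hSS _ (by omega), hSS _ (by omega)⟩
  | add e f ihe ihf =>
    intro g hg
    simp only [PExp.WF] at he
    simp only [PExp.size] at hb
    simp only [comp, List.mem_append, List.mem_singleton] at hg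
    have hp := size_pos e
    have hq := size_pos f
    rcases hg with hg | hg | rfl
    · exact ihe he.1 (by omega) g hg
    · exact ihf he.2 (by omega) g hg
    · exact ⟨hSS _ (by omega), hSS _ (by omega), hSS _ (by omega)⟩
  | sub e f ihe ihf =>
    intro g hg
    simp only [PExp.WF] at he
    simp only [PExp.size] at hb
    simp only [comp, List.mem_append, List.mem_singleton] at hg
    have hp := size_pos e
    have hq := size_pos f
    rcases hg with hg | hg | rfl
    · exact ihe he.1 (by omega) g hg
    · exact ihf he.2 (by omega) g hg
    · exact ⟨hSS _ (by omega), hSS _ (by omega), hSS _ (by omega)⟩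

/-- soundness of the compilation -/
theorem comp_sound {SS K L : ℕ} {ε : ℚ} (hε : 0 ≤ ε) {y : ℕ → ℚ} {e : PExp} (he : e.WF K L)
    {b : ℕ} (h : ∀ g ∈ comp SS b e, gateOK ε y g = true) :
    |y (b + e.size - 1) - e.eval (fun k l => y ((k + 1) * SS + l))| ≤ e.size * ε := by
  induction e generalizing b with
  | var k l =>
    have h1 := h (GGate.copy ((k + 1) * SS + l) b) (by simp [comp])
    simp only [gateOK, decide_eq_true_eq] at h1
    simpa [PExp.size, PExp.eval] using h1
  | const q =>
    have h1 := h (GGate.const q b) (by simp [comp])
    simp only [gateOK, decide_eq_true_eq] at h1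
    simpa [PExp.size, PExp.eval] using h1
  | scale q e ih =>
    simp only [PExp.WF] at he
    have h1 := ih he.2 (b := b) (fun g hg => h g (by simp [comp, hg]))
    have h2 := h (GGate.scale q (b + e.size - 1) (b + e.size)) (by simp [comp])
    simp only [gateOK, decide_eq_true_eq] at h2
    simp only [PExp.size, PExp.eval]
    have e1 : b + (e.size + 1) - 1 = b + e.size := by omega
    rw [e1]
    set v := e.eval (fun k l => y ((k + 1) * SS + l))
    set w := y (b + e.size - 1)
    have h3 : |q * w - q * v| ≤ e.size * ε := by
      rw [← mul_sub, abs_mul, abs_of_nonneg he.1.1]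
      calc q * |w - v| ≤ 1 * |w - v| := mul_le_mul_of_nonneg_right he.1.2 (abs_nonneg _)
        _ ≤ e.size * ε := by rw [one_mul]; exact h1
    push_cast
    calc |y (b + e.size) - q * v| = |(y (b + e.size) - q * w) + (q * w - q * v)| := by ring_nf
      _ ≤ |y (b + e.size) - q * w| + |q * w - q * v| := abs_add_le _ _
      _ ≤ ε + e.size * ε := add_le_add h2 h3
      _ = (e.size + 1) * ε := by ring
  | add e f ihe ihf =>
    simp only [PExp.WF] at he
    have h1 := ihe he.1 (b := b) (fun g hg => h g (by simp [comp, hg]))
    have h2 := ihf he.2 (b := b + e.size) (fun g hg => h g (by simp [comp, hg]))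
    have h3 := h (GGate.add (b + e.size - 1) (b + e.size + f.size - 1) (b + e.size + f.size))
      (by simp [comp])
    simp only [gateOK, decide_eq_true_eq] at h3
    simp only [PExp.size, PExp.eval]
    have e1 : b + (e.size + f.size + 1) - 1 = b + e.size + f.size := by omega
    rw [e1]
    set v := e.eval (fun k l => y ((k + 1) * SS + l))
    set v' := f.eval (fun k l => y ((k + 1) * SS + l))
    set w := y (b + e.size - 1)
    set w' := y (b + e.size + f.size - 1)
    have h4 : |min (w + w') 1 - min (v + v') 1| ≤ e.size * ε + f.size * ε := by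
      refine (abs_min_sub_min_le_max _ _ _ _).trans ?_
      rw [sub_self, abs_zero, max_eq_left (abs_nonneg _)]
      calc |w + w' - (v + v')| = |(w - v) + (w' - v')| := by ring_nf
        _ ≤ |w - v| + |w' - v'| := abs_add_le _ _
        _ ≤ _ := add_le_add h1 h2
    push_cast
    calc |y (b + e.size + f.size) - min (v + v') 1|
        = |(y (b + e.size + f.size) - min (w + w') 1) + (min (w + w') 1 - min (v + v') 1)| := by
          ring_nf
      _ ≤ _ := abs_add_le _ _
      _ ≤ ε + (e.size * ε + f.size * ε) := add_le_add h3 h4
      _ = (e.size + f.size + 1) * ε := by ring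
  | sub e f ihe ihf =>
    simp only [PExp.WF] at he
    have h1 := ihe he.1 (b := b) (fun g hg => h g (by simp [comp, hg]))
    have h2 := ihf he.2 (b := b + e.size) (fun g hg => h g (by simp [comp, hg]))
    have h3 := h (GGate.sub (b + e.size - 1) (b + e.size + f.size - 1) (b + e.size + f.size))
      (by simp [comp])
    simp only [gateOK, decide_eq_true_eq] at h3
    simp only [PExp.size, PExp.eval]
    have e1 : b + (e.size + f.size + 1) - 1 = b + e.size + f.size := by omega
    rw [e1]
    set v := e.eval (fun k l => y ((k + 1) * SS + l))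
    set v' := f.eval (fun k l => y ((k + 1) * SS + l))
    set w := y (b + e.size - 1)
    set w' := y (b + e.size + f.size - 1)
    have h4 : |max (w - w') 0 - max (v - v') 0| ≤ e.size * ε + f.size * ε := by
      refine (abs_max_sub_max_le_max _ _ _ _).trans ?_
      rw [sub_self, abs_zero, max_eq_left (abs_nonneg _)]
      calc |w - w' - (v - v')| = |(w - v) - (w' - v')| := by ring_nf
        _ ≤ |w - v| + |w' - v'| := abs_sub _ _
        _ ≤ _ := add_le_add h1 h2
    push_cast
    calc |y (b + e.size + f.size) - max (v - v') 0|
        = |(y (b + e.size + f.size) - max (w - w') 0) + (max (w - w') 0 - max (v - v') 0)| := by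
          ring_nf
      _ ≤ _ := abs_add_le _ _
      _ ≤ ε + (e.size * ε + f.size * ε) := add_le_add h3 h4
      _ = (e.size + f.size + 1) * ε := by ring

/-- first slot of rule `l` of type `t` -/
def base (S : LSys) (t : ℕ) : ℕ → ℕ
  | 0 => S.L
  | l + 1 => base S t l + (S.rule t l).size

/-- the gates of the rules `0 .. n-1` -/
def rules (S : LSys) (SS t : ℕ) : ℕ → List GGate
  | 0 => []
  | l + 1 => rules S SS t l ++ comp SS (base S t l) (S.rule t l)

/-- the template of type `t` -/
def tmpl (S : LSys) (SS t : ℕ) : List GGate :=
  (List.range S.L).map (fun l => GGate.copy (base S t (l + 1) - 1) l) ++ rules S SS t S.L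

theorem base_mono (S : LSys) (t : ℕ) : Monotone (base S t) :=
  monotone_nat_of_le_succ fun l => by simp [base]

theorem rules_out (S : LSys) (SS t n : ℕ) :
    (rules S SS t n).map GGate.out = List.range' S.L (base S t n - S.L) := by
  induction n with
  | zero => simp [rules, base]
  | succ n ih =>
    have h0 : S.L ≤ base S t n := base_mono S t (Nat.zero_le n)
    rw [rules, List.map_append, ih, comp_out, base]
    have : base S t n = S.L + (base S t n - S.L) := by omega
    conv_lhs => rw [show List.range' (base S t n) (S.rule t n).size =
      List.range' (S.L + (base S t n - S.L)) (S.rule t n).size by rw [← this]]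
    rw [List.range'_append_1]
    congr 1
    omega

theorem tmpl_out (S : LSys) (SS t : ℕ) :
    (tmpl S SS t).map GGate.out = List.range (base S t S.L) := by
  have h0 : S.L ≤ base S t S.L := base_mono S t (Nat.zero_le _)
  rw [tmpl, List.map_append, rules_out, List.map_map]
  have : (GGate.out ∘ fun l => GGate.copy (base S t (l + 1) - 1) l) = id := by
    funext l; rfl
  rw [this, List.map_id, List.range_eq_range']
  have h1 := List.range'_append_1 (s := 0) (m := S.L) (n := base S t S.L - S.L)
  rw [Nat.zero_add] at h1
  rw [h1]
  rw [List.range_eq_range']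
  congr 1
  omega

theorem mem_rules {S : LSys} {SS t n : ℕ} {g : GGate} :
    g ∈ rules S SS t n ↔ ∃ l < n, g ∈ comp SS (base S t l) (S.rule t l) := by
  induction n with
  | zero => simp [rules]
  | succ n ih =>
    rw [rules, List.mem_append, ih]
    constructor
    · rintro (⟨l, hl, h⟩ | h)
      · exact ⟨l, by omega, h⟩
      · exact ⟨n, by omega, h⟩
    · rintro ⟨l, hl, h⟩
      rcases Nat.lt_succ_iff_lt_or_eq.1 hl with hl | rfl
      · exact Or.inl ⟨l, hl, h⟩
      · exact Or.inr h

theorem tmpl_TWF {S : LSys} (hS : S.WF) {SS t : ℕ} (ht : t < S.T) (hSS : base S t S.L ≤ SS) :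
    TWF SS S.K (tmpl S SS t) where
  wf := by
    have h0 : S.L ≤ base S t S.L := base_mono S t (Nat.zero_le _)
    intro g hg
    rw [tmpl, List.mem_append, List.mem_map] at hg
    rcases hg with ⟨l, hl, rfl⟩ | hg
    · rw [List.mem_range] at hl
      have h1 : base S t (l + 1) ≤ base S t S.L := base_mono S t (by omega)
      have h2 : 0 < base S t (l + 1) := by
        rw [base]; have := size_pos (S.rule t l); omega
      have h3 : SS ≤ (S.K + 1) * SS := by nlinarith
      exact ⟨by omega, by omega⟩
    · rw [mem_rules] at hg
      obtain ⟨l, hl, hg⟩ := hg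
      have h1 : base S t (l + 1) ≤ base S t S.L := base_mono S t (by omega)
      rw [base] at h1
      exact comp_WF (by omega) (hS.2 t ht l hl) (by omega) g hg
  out := by
    intro g hg
    have h1 : g.out ∈ (tmpl S SS t).map GGate.out := List.mem_map_of_mem hg
    rw [tmpl_out, List.mem_range] at h1
    omega
  nodup := by
    rw [tmpl_out]
    exact List.nodup_range

theorem tmpl_length (S : LSys) (SS t : ℕ) : (tmpl S SS t).length = base S t S.L := by
  have h := congrArg List.length (tmpl_out S SS t)
  simpa using h

/-- soundness of the template -/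
theorem tmpl_sound {S : LSys} (hS : S.WF) {SS t : ℕ} (ht : t < S.T) {ε : ℚ} (hε : 0 ≤ ε)
    {y : ℕ → ℚ} (h : ∀ g ∈ tmpl S SS t, gateOK ε y g = true) {l : ℕ} (hl : l < S.L) :
    |y l - (S.rule t l).eval (fun k l' => y ((k + 1) * SS + l'))| ≤
      ((S.rule t l).size + 1) * ε := by
  have h1 := h (GGate.copy (base S t (l + 1) - 1) l) (by
    rw [tmpl, List.mem_append, List.mem_map]
    exact Or.inl ⟨l, List.mem_range.2 hl, rfl⟩)
  simp only [gateOK, decide_eq_true_eq] at h1
  have h2 := comp_sound (SS := SS) hε (y := y) (hS.2 t ht l hl) (b := base S t l) (fun g hg =>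
    h g (by
      rw [tmpl, List.mem_append, mem_rules]
      exact Or.inr ⟨l, hl, hg⟩))
  rw [base] at h1
  set v := (S.rule t l).eval (fun k l' => y ((k + 1) * SS + l'))
  set w := y (base S t l + (S.rule t l).size - 1)
  calc |y l - v| = |(y l - w) + (w - v)| := by ring_nf
    _ ≤ |y l - w| + |w - v| := abs_add_le _ _
    _ ≤ ε + (S.rule t l).size * ε := add_le_add h1 h2
    _ = ((S.rule t l).size + 1) * ε := by ring

end Crest.Agent.R289.Comp217
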