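import Crest.Agent.R289.CW_464

/-!
Row 289, A.BASE (2) (helper464, literal form #6164 of 605):
`∑ c d, (c d L M)^(q-1) = (l2 m4 - l4 m2)^(q-1)` for `L, M` affine in `c, c^q, d, d^q`.
-/

set_option autoImplicit false
set_option linter.unusedSectionVars false

namespace Crest.Agent.R289.PhiSum464

open Finset

variable {K : Type*} [Field K] [Fintype K] (q : ℕ)

/-- monomials in two variables and their conjugates -/
def mo (i j k l : ℕ) : K × K → K :=
  fun p => p.1 ^ i * (p.1 ^ q) ^ j * (p.2 ^ k * (p.2 ^ q) ^ l)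

def Dg (n : ℕ) : Submodule K (K × K → K) :=
  Submodule.span K {f | ∃ i j k l : ℕ, i + j + k + l ≤ n ∧ f = mo q i j k l}

def Bd (n : ℕ) : Submodule K (K × K → K) :=
  Submodule.span K {f | ∃ i j k l : ℕ, i + j + k + l ≤ n ∧
    (i + j + k + l < n ∨ 0 < i ∨ 0 < k) ∧ f = mo q i j k l}

theorem mo_mul (i j k l i' j' k' l' : ℕ) :
    (mo q i j k l : K × K → K) * mo q i' j' k' l' = mo q (i + i') (j + j') (k + k') (l + l') := by
  funext p
  simp only [mo, Pi.mul_apply, pow_add]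
  ring

theorem Dg_mul {a b : ℕ} {f g : K × K → K} (hf : f ∈ Dg q a) (hg : g ∈ Dg q b) :
    f * g ∈ Dg q (a + b) := by
  have h : Dg (K := K) q a * Dg q b ≤ Dg q (a + b) := by
    unfold Dg
    rw [Submodule.span_mul_span]
    refine Submodule.span_mono ?_
    rintro _ ⟨f, ⟨i, j, k, l, h1, rfl⟩, g, ⟨i', j', k', l', h2, rfl⟩, rfl⟩
    exact ⟨i + i', j + j', k + k', l + l', by omega, mo_mul q _ _ _ _ _ _ _ _⟩
  exact h (Submodule.mul_mem_mul hf hg)

theorem Bd_mul {a b : ℕ} {f g : K × K → K} (hf : f ∈ Bd q a) (hg : g ∈ Dg q b) :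
    f * g ∈ Bd q (a + b) := by
  have h : Bd (K := K) q a * Dg q b ≤ Bd q (a + b) := by
    unfold Dg Bd
    rw [Submodule.span_mul_span]
    refine Submodule.span_mono ?_
    rintro _ ⟨f, ⟨i, j, k, l, h1, h3, rfl⟩, g, ⟨i', j', k', l', h2, rfl⟩, rfl⟩
    exact ⟨i + i', j + j', k + k', l + l', by omega, by omega, mo_mul q _ _ _ _ _ _ _ _⟩
  exact h (Submodule.mul_mem_mul hf hg)

theorem mo_mem_Dg (i j k l n : ℕ) (h : i + j + k + l ≤ n) : (mo q i j k l : K × K → K) ∈ Dg q n :=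
  Submodule.subset_span ⟨i, j, k, l, h, rfl⟩

theorem mo_mem_Bd (i j k l n : ℕ) (h : i + j + k + l ≤ n)
    (h' : i + j + k + l < n ∨ 0 < i ∨ 0 < k) : (mo q i j k l : K × K → K) ∈ Bd q n :=
  Submodule.subset_span ⟨i, j, k, l, h, h', rfl⟩

theorem one_mem_Dg (n : ℕ) : (1 : K × K → K) ∈ Dg q n := by
  have : (1 : K × K → K) = mo q 0 0 0 0 := by funext p; simp [mo]
  rw [this]
  exact mo_mem_Dg q 0 0 0 0 n (by omega)

theorem Dg_pow {f : K × K → K} (hf : f ∈ Dg q 1) (k : ℕ) : f ^ k ∈ Dg q k := by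
  induction k with
  | zero => simpa using one_mem_Dg (K := K) q 0
  | succ k ih =>
    rw [pow_succ]
    exact Dg_mul q ih hf

/-- the perturbation lemma -/
theorem pow_sub_mem {L L' : K × K → K} (hL : L ∈ Dg q 1) (hL' : L' ∈ Dg q 1)
    (hR : L - L' ∈ Bd q 1) (k : ℕ) : L ^ k - L' ^ k ∈ Bd q k := by
  induction k with
  | zero => simp
  | succ k ih =>
    have h1 : L ^ (k + 1) - L' ^ (k + 1) = (L ^ k - L' ^ k) * L + (L - L') * L' ^ k := by ring
    rw [h1]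
    refine Submodule.add_mem _ (Bd_mul q ih hL) ?_
    have := Bd_mul q hR (Dg_pow q hL' k)
    rwa [Nat.add_comm 1 k] at this

/-- the sum over one variable -/
theorem sum_one (hq : 2 ≤ q) (hK : Fintype.card K = q ^ 2) (i j : ℕ)
    (h : i + j < q - 1 ∨ (i + j ≤ q - 1 ∧ 0 < i)) :
    ∑ c : K, c ^ (q - 1) * (c ^ i * (c ^ q) ^ j) = 0 := by
  have h0 : ∀ c : K, c ^ (q - 1) * (c ^ i * (c ^ q) ^ j) = c ^ (q - 1 + i + q * j) := by
    intro c
    rw [pow_add, pow_add, pow_mul, mul_assoc]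
  rw [Finset.sum_congr rfl fun c _ => h0 c]
  refine CW464.sum_pow_of_not_dvd _ (Or.inl ?_)
  rw [hK]
  intro hd
  obtain ⟨r, rfl⟩ : ∃ r, q = r + 1 := ⟨q - 1, by omega⟩
  simp only [Nat.add_sub_cancel] at h hd
  have e1 : (r + 1) ^ 2 - 1 = r * (r + 2) := by
    have : (r + 1) ^ 2 = r * (r + 2) + 1 := by ring
    omega
  rw [e1] at hd
  have hr : 0 < r := by omega
  have hpos : 0 < r + i + (r + 1) * j := by omega
  have hle := Nat.le_of_dvd hpos hd
  -- r (r + 2) ≤ r + i + (r + 1) j with i + j ≤ r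
  have h5 : r + i + (r + 1) * j = r + (i + j) + r * j := by ring
  have h6 : r * (r + 2) = r * r + r + r := by ring
  rcases Nat.lt_or_ge j r with hj | hj
  · have h7 : r * j ≤ r * (r - 1) := Nat.mul_le_mul_left _ (by omega)
    have h8 : r * (r - 1) + r = r * r := by
      obtain ⟨t, rfl⟩ : ∃ t, r = t + 1 := ⟨r - 1, by omega⟩
      simp only [Nat.add_sub_cancel]; ring
    omega
  · omega

theorem sum_top (hq : 2 ≤ q) (hK : Fintype.card K = q ^ 2) :
    ∑ c : K, c ^ (q - 1) * (c ^ q) ^ (q - 1) = -1 := by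
  have h0 : ∀ c : K, c ^ (q - 1) * (c ^ q) ^ (q - 1) = c ^ (Fintype.card K - 1) := by
    intro c
    rw [← pow_mul, ← pow_add, hK]
    congr 1
    obtain ⟨r, rfl⟩ : ∃ r, q = r + 1 := ⟨q - 1, by omega⟩
    have : (r + 1) ^ 2 = r * (r + 2) + 1 := by ring
    simp only [Nat.add_sub_cancel]
    rw [this, Nat.add_sub_cancel]
    ring
  rw [Finset.sum_congr rfl fun c _ => h0 c]
  classical
  have h1 : ∀ c : K, c ^ (Fintype.card K - 1) = 1 - if c = 0 then 1 else 0 := by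
    intro c
    by_cases hc : c = 0
    · subst hc
      have : Fintype.card K - 1 ≠ 0 := by
        have := Fintype.one_lt_card (α := K); omega
      simp [zero_pow this]
    · simp [hc, FiniteField.pow_card_sub_one_eq_one c hc]
  rw [Finset.sum_congr rfl fun c _ => h1 c, Finset.sum_sub_distrib]
  simp

/-- the functional kills the bad part -/
theorem sum_Bd (hq : 2 ≤ q) (hK : Fintype.card K = q ^ 2) {f : K × K → K}
    (hf : f ∈ Bd q (2 * (q - 1))) : ∑ p : K × K, (p.1 * p.2) ^ (q - 1) * f p = 0 := by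
  refine Submodule.span_induction
    (p := fun f _ => ∑ p : K × K, (p.1 * p.2) ^ (q - 1) * f p = 0) ?_ ?_ ?_ ?_ hf
  · rintro f ⟨i, j, k, l, h1, h2, rfl⟩
    have h3 : ∑ p : K × K, (p.1 * p.2) ^ (q - 1) * mo q i j k l p
        = (∑ c : K, c ^ (q - 1) * (c ^ i * (c ^ q) ^ j))
          * ∑ d : K, d ^ (q - 1) * (d ^ k * (d ^ q) ^ l) := by
      rw [Fintype.sum_prod_type, Finset.sum_mul_sum]
      refine Finset.sum_congr rfl fun c _ => Finset.sum_congr rfl fun d _ => ?_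
      simp only [mo, mul_pow]
      ring
    rw [h3]
    by_cases h4 : i + j < q - 1 ∨ (i + j ≤ q - 1 ∧ 0 < i)
    · rw [sum_one q hq hK i j h4, zero_mul]
    · have h5 : k + l < q - 1 ∨ (k + l ≤ q - 1 ∧ 0 < k) := by omega
      rw [sum_one q hq hK k l h5, mul_zero]
  · simp
  · intro f g _ _ h1 h2
    simp [mul_add, Finset.sum_add_distrib, h1, h2]
  · intro c f _ h1
    have : ∀ p : K × K, (p.1 * p.2) ^ (q - 1) * (c • f) p = c * ((p.1 * p.2) ^ (q - 1) * f p) := by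
      intro p; simp only [Pi.smul_apply, smul_eq_mul]; ring
    rw [Finset.sum_congr rfl fun p _ => this p, ← Finset.mul_sum, h1, mul_zero]

/-- `(a - b)^(q-1) = ∑ a^i b^(q-1-i)` -/
theorem sub_pow_pred (hq : 2 ≤ q) (hfr : ∀ a b : K, (a - b) ^ q = a ^ q - b ^ q)
    (hq0 : (q : K) = 0) (a b : K) :
    (a - b) ^ (q - 1) = ∑ i ∈ range q, a ^ i * b ^ (q - 1 - i) := by
  rcases eq_or_ne a b with rfl | hne
  · rw [sub_self, zero_pow (by omega)]
    have : ∀ i ∈ range q, a ^ i * a ^ (q - 1 - i) = a ^ (q - 1) := by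
      intro i hi
      rw [mem_range] at hi
      rw [← pow_add]
      congr 1
      omega
    rw [Finset.sum_congr rfl this, Finset.sum_const, card_range, nsmul_eq_mul, hq0, zero_mul]
  · have h1 := Commute.geom_sum₂_mul (Commute.all a b) q
    have h2 : (a - b) ^ (q - 1) * (a - b) = a ^ q - b ^ q := by
      rw [← pow_succ, ← hfr]
      congr 1
      omega
    exact mul_right_cancel₀ (sub_ne_zero.2 hne) (h2.trans h1.symm)

/-- the main part -/
theorem sum_main (hq : 2 ≤ q) (hK : Fintype.card K = q ^ 2)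
    (hfr : ∀ a b : K, (a - b) ^ q = a ^ q - b ^ q) (hq0 : (q : K) = 0) (l2 l4 m2 m4 : K) :
    ∑ p : K × K, (p.1 * p.2) ^ (q - 1) *
      ((l2 * p.1 ^ q + l4 * p.2 ^ q) ^ (q - 1) * (m2 * p.1 ^ q + m4 * p.2 ^ q) ^ (q - 1))
      = (l2 * m4 - l4 * m2) ^ (q - 1) := by
  have hneg : (-1 : K) ^ (q - 1) = 1 := by
    have h1 := hfr 0 1
    rw [zero_pow (by omega), one_pow, zero_sub] at h1
    have h2 : (-1 : K) ^ (q - 1) * (-1) = 1 * (-1) := by
      rw [← pow_succ, one_mul, Nat.sub_add_cancel (by omega), h1]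
    exact mul_right_cancel₀ (by simp) h2
  have e1 : ∀ (x y A B : K), (x * A + y * B) ^ (q - 1)
      = ∑ i ∈ range q, (x ^ i * (-y) ^ (q - 1 - i)) * (A ^ i * B ^ (q - 1 - i)) := by
    intro x y A B
    have := sub_pow_pred q hq hfr hq0 (x * A) ((-y) * B)
    rw [show x * A + y * B = x * A - (-y) * B by ring, this]
    refine Finset.sum_congr rfl fun i _ => ?_
    rw [mul_pow, mul_pow]; ring
  have e2 : ∀ p : K × K, (p.1 * p.2) ^ (q - 1) *
      ((l2 * p.1 ^ q + l4 * p.2 ^ q) ^ (q - 1) * (m2 * p.1 ^ q + m4 * p.2 ^ q) ^ (q - 1))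
      = ∑ i ∈ range q, ∑ j ∈ range q,
        (l2 ^ i * (-l4) ^ (q - 1 - i)) * (m2 ^ j * (-m4) ^ (q - 1 - j)) *
        ((p.1 ^ (q - 1) * (p.1 ^ 0 * (p.1 ^ q) ^ (i + j)))
          * (p.2 ^ (q - 1) * (p.2 ^ 0 * (p.2 ^ q) ^ ((q - 1 - i) + (q - 1 - j))))) := by
    intro p
    rw [e1, e1, Finset.sum_mul_sum, Finset.mul_sum]
    refine Finset.sum_congr rfl fun i _ => ?_
    rw [Finset.mul_sum]
    refine Finset.sum_congr rfl fun j _ => ?_
    rw [mul_pow, pow_add, pow_add]; ring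
  rw [Finset.sum_congr rfl fun p _ => e2 p, Finset.sum_comm]
  have e3 : ∀ i ∈ range q, ∑ p : K × K, ∑ j ∈ range q,
        (l2 ^ i * (-l4) ^ (q - 1 - i)) * (m2 ^ j * (-m4) ^ (q - 1 - j)) *
        ((p.1 ^ (q - 1) * (p.1 ^ 0 * (p.1 ^ q) ^ (i + j)))
          * (p.2 ^ (q - 1) * (p.2 ^ 0 * (p.2 ^ q) ^ ((q - 1 - i) + (q - 1 - j)))))
      = (-(l2 * m4)) ^ i * (-(l4 * m2)) ^ (q - 1 - i) := by
    intro i hi
    rw [mem_range] at hi
    rw [Finset.sum_comm]
    rw [Finset.sum_eq_single (q - 1 - i)]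
    · rw [← Finset.mul_sum]
      have h1 : ∑ p : K × K, ((p.1 ^ (q - 1) * (p.1 ^ 0 * (p.1 ^ q) ^ (i + (q - 1 - i))))
          * (p.2 ^ (q - 1) * (p.2 ^ 0 * (p.2 ^ q) ^ ((q - 1 - i) + (q - 1 - (q - 1 - i))))))
          = 1 := by
        rw [Fintype.sum_prod_type]
        rw [← Finset.sum_mul_sum (s := univ) (t := univ)
          (f := fun c : K => c ^ (q - 1) * (c ^ 0 * (c ^ q) ^ (i + (q - 1 - i))))
          (g := fun d : K => d ^ (q - 1) * (d ^ 0 * (d ^ q) ^ ((q - 1 - i) + (q - 1 - (q - 1 - i)))))]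
        have e4 : i + (q - 1 - i) = q - 1 := by omega
        have e5 : (q - 1 - i) + (q - 1 - (q - 1 - i)) = q - 1 := by omega
        simp only [e4, e5, pow_zero, one_mul]
        rw [sum_top q hq hK]; ring
      rw [h1, mul_one]
      have e6 : q - 1 - (q - 1 - i) = i := by omega
      rw [e6, show -(l2 * m4) = l2 * (-m4) by ring, show -(l4 * m2) = (-l4) * m2 by ring,
        mul_pow, mul_pow]
      ring
    · intro j hj hji
      rw [mem_range] at hj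
      rw [← Finset.mul_sum]
      have h1 : ∑ p : K × K, ((p.1 ^ (q - 1) * (p.1 ^ 0 * (p.1 ^ q) ^ (i + j)))
          * (p.2 ^ (q - 1) * (p.2 ^ 0 * (p.2 ^ q) ^ ((q - 1 - i) + (q - 1 - j))))) = 0 := by
        rw [Fintype.sum_prod_type]
        rw [← Finset.sum_mul_sum (s := univ) (t := univ)
          (f := fun c : K => c ^ (q - 1) * (c ^ 0 * (c ^ q) ^ (i + j)))
          (g := fun d : K => d ^ (q - 1) * (d ^ 0 * (d ^ q) ^ ((q - 1 - i) + (q - 1 - j))))]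
        rcases Nat.lt_or_ge (i + j) (q - 1) with h | h
        · rw [sum_one q hq hK 0 (i + j) (Or.inl (by omega)), zero_mul]
        · rw [sum_one q hq hK 0 ((q - 1 - i) + (q - 1 - j)) (Or.inl (by omega)), mul_zero]
      rw [h1, mul_zero]
    · intro h
      exact absurd (mem_range.2 (by omega)) h
  rw [Finset.sum_congr rfl e3, ← sub_pow_pred q hq hfr hq0]
  rw [show -(l2 * m4) - -(l4 * m2) = (-1) * (l2 * m4 - l4 * m2) by ring, mul_pow, hneg, one_mul]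

/-- **literal form of 605 (#6164)** -/
theorem phi_sum (hq : 2 ≤ q) (hK : Fintype.card K = q ^ 2)
    (hfr : ∀ a b : K, (a - b) ^ q = a ^ q - b ^ q) (hq0 : (q : K) = 0)
    (l0 l1 l2 l3 l4 m0 m1 m2 m3 m4 : K) :
    ∑ c : K, ∑ d : K, (c * d * ((l0 + l1 * c + l2 * c ^ q + l3 * d + l4 * d ^ q)
      * (m0 + m1 * c + m2 * c ^ q + m3 * d + m4 * d ^ q))) ^ (q - 1)
      = (l2 * m4 - l4 * m2) ^ (q - 1) := by
  set L : (K → K → K → K → K → K × K → K) := fun a0 a1 a2 a3 a4 p =>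
    a0 + a1 * p.1 + a2 * p.1 ^ q + a3 * p.2 + a4 * p.2 ^ q with hL
  set L' : (K → K → K × K → K) := fun a2 a4 p => a2 * p.1 ^ q + a4 * p.2 ^ q with hL'
  have hLd : ∀ a0 a1 a2 a3 a4 : K, L a0 a1 a2 a3 a4 ∈ Dg q 1 := by
    intro a0 a1 a2 a3 a4
    have : L a0 a1 a2 a3 a4 = a0 • mo q 0 0 0 0 + a1 • mo q 1 0 0 0 + a2 • mo q 0 1 0 0
        + a3 • mo q 0 0 1 0 + a4 • mo q 0 0 0 1 := by
      funext p; simp [hL, mo]
    rw [this]
    refine Submodule.add_mem _ (Submodule.add_mem _ (Submodule.add_mem _ (Submodule.add_mem _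
      ?_ ?_) ?_) ?_) ?_ <;>
    exact Submodule.smul_mem _ _ (mo_mem_Dg q _ _ _ _ _ (by omega))
  have hLd' : ∀ a2 a4 : K, L' a2 a4 ∈ Dg q 1 := by
    intro a2 a4
    have : L' a2 a4 = a2 • mo q 0 1 0 0 + a4 • mo q 0 0 0 1 := by
      funext p; simp [hL', mo]
    rw [this]
    refine Submodule.add_mem _ ?_ ?_ <;>
    exact Submodule.smul_mem _ _ (mo_mem_Dg q _ _ _ _ _ (by omega))
  have hR : ∀ a0 a1 a2 a3 a4 : K, L a0 a1 a2 a3 a4 - L' a2 a4 ∈ Bd q 1 := by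
    intro a0 a1 a2 a3 a4
    have : L a0 a1 a2 a3 a4 - L' a2 a4 = a0 • mo q 0 0 0 0 + a1 • mo q 1 0 0 0
        + a3 • mo q 0 0 1 0 := by
      funext p; simp [hL, hL', mo]; ring
    rw [this]
    refine Submodule.add_mem _ (Submodule.add_mem _ ?_ ?_) ?_ <;>
    exact Submodule.smul_mem _ _ (mo_mem_Bd q _ _ _ _ _ (by omega) (by omega))
  have hdiff : L l0 l1 l2 l3 l4 ^ (q - 1) * L m0 m1 m2 m3 m4 ^ (q - 1)
      - L' l2 l4 ^ (q - 1) * L' m2 m4 ^ (q - 1) ∈ Bd q (2 * (q - 1)) := by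
    have h1 : L l0 l1 l2 l3 l4 ^ (q - 1) * L m0 m1 m2 m3 m4 ^ (q - 1)
      - L' l2 l4 ^ (q - 1) * L' m2 m4 ^ (q - 1)
      = (L l0 l1 l2 l3 l4 ^ (q - 1) - L' l2 l4 ^ (q - 1)) * L m0 m1 m2 m3 m4 ^ (q - 1)
        + (L m0 m1 m2 m3 m4 ^ (q - 1) - L' m2 m4 ^ (q - 1)) * L' l2 l4 ^ (q - 1) := by ring
    rw [h1, two_mul]
    exact Submodule.add_mem _
      (Bd_mul q (pow_sub_mem q (hLd _ _ _ _ _) (hLd' _ _) (hR _ _ _ _ _) _)
        (Dg_pow q (hLd _ _ _ _ _) _))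
      (Bd_mul q (pow_sub_mem q (hLd _ _ _ _ _) (hLd' _ _) (hR _ _ _ _ _) _)
        (Dg_pow q (hLd' _ _) _))
  have h0 := sum_Bd q hq hK hdiff
  have hm := sum_main q hq hK hfr hq0 l2 l4 m2 m4
  rw [← hm, ← Fintype.sum_prod_type' (f := fun c d : K =>
    (c * d * ((l0 + l1 * c + l2 * c ^ q + l3 * d + l4 * d ^ q)
      * (m0 + m1 * c + m2 * c ^ q + m3 * d + m4 * d ^ q))) ^ (q - 1))]
  rw [← sub_eq_zero, ← Finset.sum_sub_distrib, ← h0]
  refine Finset.sum_congr rfl fun p _ => ?_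
  simp only [hL, hL', Pi.sub_apply, Pi.mul_apply, Pi.pow_apply, mul_pow]
  ring

end Crest.Agent.R289.PhiSum464
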