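import Crest.Agent.R289.Rank1e_605
import Crest.Agent.R289.Avg_277
import Crest.Agent.R289.PhiSum_464
import Crest.Agent.R289.W0_540
import Crest.Agent.R289.HeckeFin_548

/-!
Row 289, block A, leaf A.BASE (helper605, post 5993): **the base Hecke operator of the two-place
code has rank one**:
`T0 φ (i, j) = w0 (i, j) · ∑ σ (w0 (i', j')) φ (i', j')`, and `T0 w0 = w0`.
-/

set_option autoImplicit false
set_option maxHeartbeats 1000000
set_option linter.unusedSectionVars false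

namespace Crest.Agent.R289.Rank1_605

open Finset Polynomial Crest.Agent.R289.Exp820 Crest.Agent.R289.Exp820.Sk
  Crest.Agent.R289.Fac281 Crest.Agent.R289.HeckeTwo622

variable {K : Type*} [Field K] [Fintype K] {σ : K →+* K} {x y : K} {q : ℕ}

/-! ### elementary facts -/

theorem two_le_q (hK : Fintype.card K = q ^ 2) : 2 ≤ q := by
  by_contra h
  have h1 := Fintype.one_lt_card (α := K)
  rw [hK] at h1
  have h2 : q ≤ 1 := by omega
  have h3 : q ^ 2 ≤ 1 := by
    calc q ^ 2 ≤ 1 ^ 2 := Nat.pow_le_pow_left h2 2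
      _ = 1 := by norm_num
  omega

theorem sig_sig (hK : Fintype.card K = q ^ 2) (hs : ∀ a, σ a = a ^ q) (a : K) : σ (σ a) = a := by
  rw [hs, hs, ← pow_mul, ← pow_two, ← hK, FiniteField.pow_card]

theorem frob_sub (hs : ∀ a, σ a = a ^ q) (a b : K) : (a - b) ^ q = a ^ q - b ^ q := by
  rw [← hs, ← hs, ← hs, map_sub]

theorem cast_q (hK : Fintype.card K = q ^ 2) : (q : K) = 0 := by
  have h := Nat.cast_card_eq_zero K
  rw [hK] at h
  have h2 : ((q : K)) ^ 2 = 0 := by exact_mod_cast h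
  exact pow_eq_zero_iff (two_ne_zero) |>.1 h2

theorem fix_pow (hK : Fintype.card K = q ^ 2) (hs : ∀ a, σ a = a ^ q) {t : K} (ht : t ≠ 0)
    (h : σ t = t) : t ^ (q - 1) = 1 := by
  have hq := two_le_q hK
  have h1 : t ^ (q - 1) * t = 1 * t := by
    rw [← pow_succ, Nat.sub_add_cancel (by omega), ← hs, h, one_mul]
  exact mul_right_cancel₀ ht h1

theorem norm_pow (hK : Fintype.card K = q ^ 2) (hs : ∀ a, σ a = a ^ q) {t : K} (ht : t ≠ 0) :
    (t * σ t) ^ (q - 1) = 1 := by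
  refine fix_pow hK hs (mul_ne_zero ht ((map_ne_zero σ).2 ht)) ?_
  rw [map_mul, sig_sig hK hs, mul_comm]

theorem inv_pow' (hK : Fintype.card K = q ^ 2) (hs : ∀ a, σ a = a ^ q) (n : K) :
    (n⁻¹) ^ (q - 1) = (σ n) ^ (q - 1) := by
  have hq := two_le_q hK
  by_cases hn : n = 0
  · rw [hn, inv_zero, map_zero]
  · have h1 := norm_pow hK hs hn
    rw [mul_pow] at h1
    rw [inv_pow]
    exact inv_eq_of_mul_eq_one_right h1

/-! ### the change of variables -/

/-- weight of an index -/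
noncomputable def wa (σ : K →+* K) (x y : K) (q : ℕ) (a : Fin 4 → K) : K :=
  ((nx σ x a * nx σ y a)⁻¹) ^ (q - 1)

theorem inv_bij (hσ : ∀ a, σ (σ a) = a) (hx0 : x ≠ 0) (hy0 : y ≠ 0) {l m : K × K}
    (hD : Dl σ x y l.2 (-l.1) m.2 (-m.1) ≠ 0) :
    Function.Bijective (fun p : (K × K) × (K × K) => inv σ x y l m p.1 p.2) := by
  rw [Fintype.bijective_iff_injective_and_card]
  constructor
  · intro p p' h
    have h1 := congrArg (fun a => ax σ x a l) h
    have h2 := congrArg (fun a => ax σ y a m) h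
    simp only [ax_inv hσ hx0 hD, ay_inv hσ hy0 hD] at h1 h2
    exact Prod.ext h1 h2
  · simp only [Fintype.card_prod, Fintype.card_fun, Fintype.card_fin]
    ring

theorem reparam (hσ : ∀ a, σ (σ a) = a) (hx0 : x ≠ 0) (hy0 : y ≠ 0) {l m : K × K}
    (hD : Dl σ x y l.2 (-l.1) m.2 (-m.1) ≠ 0) (w : (Fin 4 → K) → K) (F : K × K → K × K → K) :
    ∑ a : Fin 4 → K, w a * F (ax σ x a l) (ax σ y a m)
      = ∑ l' : K × K, ∑ m' : K × K, w (inv σ x y l m l' m') * F l' m' := by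
  rw [← Function.Bijective.sum_comp (inv_bij hσ hx0 hy0 hD)
    (fun a => w a * F (ax σ x a l) (ax σ y a m)), Fintype.sum_prod_type]
  simp only [ax_inv hσ hx0 hD, ay_inv hσ hy0 hD]

/-- the inner sum -/
theorem inner (hK : Fintype.card K = q ^ 2) (hs : ∀ a, σ a = a ^ q) (hx : σ x ≠ x)
    (hy : σ y ≠ y) (hxy : x ≠ y) (hxy' : σ x ≠ y) {l m : K × K} (hl : l ≠ 0) (hm : m ≠ 0)
    (l' m' : K × K) [DecidableEq K] :
    ∑ c : K, ∑ d : K, (if c = 0 ∨ d = 0 then 0 else
      c ^ (2 * (q - 1)) * d ^ (2 * (q - 1)) * wa σ x y q (inv σ x y l m (c • l') (d • m')))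
      = Avg277.w0 q x y l m * σ (Avg277.w0 q x y l' m') := by
  have hσ := sig_sig hK hs
  have hq := two_le_q hK
  have hx0 : x ≠ 0 := fun h => hx (by rw [h, map_zero])
  have hy0 : y ≠ 0 := fun h => hy (by rw [h, map_zero])
  have hD := Dl_ne hσ hx hy hxy hxy' hl hm
  obtain ⟨k0, k1, k2, k3, k4, j0, j1, j2, j3, j4, h1, h2, h3⟩ := norms hσ hx0 hy0 hl hm hD l' m'
  have hterm : ∀ c d : K, (if c = 0 ∨ d = 0 then 0 else
      c ^ (2 * (q - 1)) * d ^ (2 * (q - 1)) * wa σ x y q (inv σ x y l m (c • l') (d • m')))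
      = (c * d * ((σ k0 + σ k2 * c + σ k1 * c ^ q + σ k4 * d + σ k3 * d ^ q)
        * (σ j0 + σ j2 * c + σ j1 * c ^ q + σ j4 * d + σ j3 * d ^ q))) ^ (q - 1) := by
    intro c d
    split_ifs with h
    · have h0 : c * d = 0 := mul_eq_zero.2 h
      rw [h0, zero_mul, zero_pow (by omega)]
    · rw [not_or] at h
      obtain ⟨hc, hd⟩ := h
      have hc1 := norm_pow hK hs hc
      have hd1 := norm_pow hK hs hd
      unfold wa
      rw [inv_pow' hK hs, h1, h2]
      simp only [map_mul, map_add, hσ]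
      rw [← hs c, ← hs d]
      have e1 : c ^ (2 * (q - 1)) * d ^ (2 * (q - 1)) *
          (σ c * (σ k0 + σ k1 * σ c + σ k2 * c + σ k3 * σ d + σ k4 * d)
            * (σ d * (σ j0 + σ j1 * σ c + σ j2 * c + σ j3 * σ d + σ j4 * d))) ^ (q - 1)
          = (c * σ c) ^ (q - 1) * (d * σ d) ^ (q - 1) *
            (c * d * ((σ k0 + σ k2 * c + σ k1 * σ c + σ k4 * d + σ k3 * σ d)
            * (σ j0 + σ j2 * c + σ j1 * σ c + σ j4 * d + σ j3 * σ d))) ^ (q - 1) := by
        rw [pow_mul, pow_mul, ← mul_pow (c ^ 2), ← mul_pow (c ^ 2 * d ^ 2), ← mul_pow (c * σ c),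
          ← mul_pow (c * σ c * (d * σ d))]
        congr 1
        ring
      rw [e1, hc1, hd1, one_mul, one_mul]
  simp only [hterm]
  rw [PhiSum464.phi_sum q hq hK (frob_sub hs) (cast_q hK)]
  have e2 : σ k1 * σ j3 - σ k3 * σ j1 = σ (k1 * j3 - k3 * j1) := by
    simp only [map_sub, map_mul]
  rw [e2, h3]
  set D := Dl σ x y l.2 (-l.1) m.2 (-m.1) with hDdef
  have hD' : σ D ≠ 0 := (map_ne_zero σ).2 hD
  have hC : σ (C0 σ x y) = C0 σ x y := by
    unfold C0
    simp only [map_mul, map_sub, hσ]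
    ring
  have hC0 : C0 σ x y ≠ 0 := by
    unfold C0
    refine mul_ne_zero (mul_ne_zero (mul_ne_zero ?_ ?_) ?_) ?_
    · exact sub_ne_zero.2 hx.symm
    · refine sub_ne_zero.2 fun h => hxy' ?_
      rw [h, hσ]
    · exact sub_ne_zero.2 hxy'
    · exact sub_ne_zero.2 hy
  have ht : (-(C0 σ x y / (D * σ D))) ^ (q - 1) = 1 := by
    refine fix_pow hK hs (neg_ne_zero.2 (div_ne_zero hC0 (mul_ne_zero hD hD'))) ?_
    rw [map_neg, map_div₀, map_mul, hσ, hC, mul_comm (σ D) D]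
  have e3 : σ (-(C0 σ x y
        * σ ((l.2 * (-m.1) - (-l.1) * m.2) * (x * l.2 * (-m.1) - y * (-l.1) * m.2)) / (D * σ D))
        * ((l'.1 * m'.2 - l'.2 * m'.1) * -(x * l'.2 * m'.1 - y * l'.1 * m'.2)))
      = -(C0 σ x y / (D * σ D)) * (((l.1 * m.2 - l.2 * m.1) * (x * l.2 * m.1 - y * l.1 * m.2))
        * σ ((l'.1 * m'.2 - l'.2 * m'.1) * (x * l'.2 * m'.1 - y * l'.1 * m'.2))) := by
    rw [map_mul, map_neg, map_div₀, map_mul, hσ, map_mul σ D, hσ, hC,
      mul_neg (l'.1 * m'.2 - l'.2 * m'.1), map_neg]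
    ring
  rw [e3, mul_pow, ht, one_mul, mul_pow]
  unfold Avg277.w0
  rw [map_pow]

/-- **the rank-one formula, vector form** -/
theorem main_vec (hK : Fintype.card K = q ^ 2) (hs : ∀ a, σ a = a ^ q) (hx : σ x ≠ x)
    (hy : σ y ≠ y) (hxy : x ≠ y) (hxy' : σ x ≠ y) {l m : K × K} (hl : l ≠ 0) (hm : m ≠ 0)
    (F : K × K → K × K → K) (hF : ∀ (c d : K) (l m : K × K), c ≠ 0 → d ≠ 0 →
      F (c • l) (d • m) = c ^ (2 * (q - 1)) * d ^ (2 * (q - 1)) * F l m) :
    ∑ a : Fin 4 → K, wa σ x y q a * F (ax σ x a l) (ax σ y a m)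
      = Avg277.w0 q x y l m * ∑ l' : K × K, ∑ m' : K × K, σ (Avg277.w0 q x y l' m') * F l' m' := by
  classical
  have hσ := sig_sig hK hs
  have hx0 : x ≠ 0 := fun h => hx (by rw [h, map_zero])
  have hy0 : y ≠ 0 := fun h => hy (by rw [h, map_zero])
  have hD := Dl_ne hσ hx hy hxy hxy' hl hm
  rw [reparam hσ hx0 hy0 hD, Avg277.avg hK _ F _ hF, Finset.mul_sum]
  refine Finset.sum_congr rfl fun l' _ => ?_
  rw [Finset.mul_sum]
  refine Finset.sum_congr rfl fun m' _ => ?_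
  rw [inner hK hs hx hy hxy hxy' hl hm l' m']
  ring

/-- homogeneity of the base word -/
theorem w0_homog (c d : K) (l m : K × K) :
    Avg277.w0 q x y (c • l) (d • m)
      = c ^ (2 * (q - 1)) * d ^ (2 * (q - 1)) * Avg277.w0 q x y l m := by
  unfold Avg277.w0
  rw [pow_mul, pow_mul, ← mul_pow, ← mul_pow]
  congr 1
  simp only [Prod.smul_fst, Prod.smul_snd, smul_eq_mul]
  ring

/-- from vectors to points -/
theorem to_points (hK : Fintype.card K = q ^ 2) (hs : ∀ a, σ a = a ^ q)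
    (φ : Option K → Option K → K) :
    ∑ l : K × K, ∑ m : K × K, σ (Avg277.w0 q x y l m)
        * ext2 (2 * (q - 1)) (2 * (q - 1)) φ l m
      = ∑ i : Option K, ∑ j : Option K, σ (Avg277.w0 q x y (rp i) (rp j)) * φ i j := by
  classical
  have hq := two_le_q hK
  rw [Avg277.proj_sum hK (fun l m => σ (Avg277.w0 q x y l m)
        * ext2 (2 * (q - 1)) (2 * (q - 1)) φ l m)]
  · simp only [ext2_rp]
  · intro c d l m hc hd
    show σ (Avg277.w0 q x y (c • l) (d • m)) * ext2 _ _ φ (c • l) (d • m) = _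
    rw [w0_homog, ext2_homog _ _ _ hc hd, map_mul, map_mul, map_pow, map_pow]
    have e1 : c ^ (2 * (q - 1)) * σ c ^ (2 * (q - 1)) = 1 := by
      rw [← mul_pow, mul_comm 2, pow_mul, norm_pow hK hs hc, one_pow]
    have e2 : d ^ (2 * (q - 1)) * σ d ^ (2 * (q - 1)) = 1 := by
      rw [← mul_pow, mul_comm 2, pow_mul, norm_pow hK hs hd, one_pow]
    linear_combination (σ (Avg277.w0 q x y l m) * ext2 (2 * (q - 1)) (2 * (q - 1)) φ l m)
      * (d ^ (2 * (q - 1)) * σ d ^ (2 * (q - 1))) * e1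
      + (σ (Avg277.w0 q x y l m) * ext2 (2 * (q - 1)) (2 * (q - 1)) φ l m) * e2
  · intro m
    have : Avg277.w0 q x y 0 m = 0 := by
      unfold Avg277.w0
      rw [Prod.fst_zero, Prod.snd_zero]
      rw [zero_mul, zero_mul, sub_zero, zero_mul, zero_pow (by omega)]
    show σ (Avg277.w0 q x y 0 m) * _ = 0
    rw [this, map_zero, zero_mul]
  · intro l
    have : Avg277.w0 q x y l 0 = 0 := by
      unfold Avg277.w0
      rw [Prod.fst_zero, Prod.snd_zero]
      rw [mul_zero, mul_zero, sub_zero, zero_mul, zero_pow (by omega)]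
    show σ (Avg277.w0 q x y l 0) * _ = 0
    rw [this, map_zero, zero_mul]

/-- base word as a table (= `W0540.w0t (q - 1)`) -/
theorem w0t_eq (i j : Option K) :
    W0540.w0t (q - 1) x y i j = Avg277.w0 q x y (rp i) (rp j) := rfl

/-- the functional of the rank-one formula -/
noncomputable def lamF (σ : K →+* K) (q : ℕ) (x y : K) (φ : Option K → Option K → K) : K :=
  ∑ i : Option K, ∑ j : Option K, σ (W0540.w0t (q - 1) x y i j) * φ i j

/-- **`T0` has rank one**, raw form: any linear maps `X, Y` with the values of the action and any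
weight with the values `wa` -/
theorem T0_raw (hK : Fintype.card K = q ^ 2) (hs : ∀ a, σ a = a ^ q) (hx : σ x ≠ x)
    (hy : σ y ≠ y) (hxy : x ≠ y) (hxy' : σ x ≠ y)
    (X' Y' : (Fin 4 → K) → (K × K) →ₗ[K] (K × K)) (wt : (Fin 4 → K) → K)
    (hX : ∀ a l, X' a l = ax σ x a l) (hY : ∀ a l, Y' a l = ax σ y a l)
    (hw : ∀ a, wt a = wa σ x y q a) (φ : Option K → Option K → K) :
    T0 (2 * (q - 1)) (2 * (q - 1)) X' Y' wt φ
      = lamF σ q x y φ • W0540.w0t (q - 1) x y := by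
  funext i j
  show ∑ a, wt a * ext2 _ _ φ (X' a (rp i)) (Y' a (rp j)) = _
  simp only [hX, hY, hw]
  rw [main_vec hK hs hx hy hxy hxy' (rp_ne_zero i) (rp_ne_zero j)
    (fun l m => ext2 (2 * (q - 1)) (2 * (q - 1)) φ l m)
    (fun c d l m hc hd => ext2_homog _ _ _ hc hd l m), to_points hK hs]
  simp only [Pi.smul_apply, smul_eq_mul, w0t_eq, lamF]
  ring

theorem lamF_w0 (hK : Fintype.card K = q ^ 2) (hs : ∀ a, σ a = a ^ q) (hx : σ x ≠ x)
    (hy : σ y ≠ y) (hxy : x ≠ y) : lamF σ q x y (W0540.w0t (q - 1) x y) = 1 := by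
  classical
  have hx0 : x ≠ 0 := fun h => hx (by rw [h, map_zero])
  have hy0 : y ≠ 0 := fun h => hy (by rw [h, map_zero])
  exact Avg277.count hK σ hs hx0 hy0 hxy

/-- the weight of 548's `HF_stable` -/
noncomputable def Wt (x y : K) (q : ℕ) (n : K[X]) : K := ((n.eval x * n.eval y)⁻¹) ^ (q - 1)

theorem Wt_zero (hq : 2 ≤ q) (n : K[X]) (h : n.eval x = 0 ∨ n.eval y = 0) : Wt x y q n = 0 := by
  unfold Wt
  rw [mul_eq_zero.2 h, inv_zero, zero_pow (by omega)]

/-- **`T0` has rank one**, in the form of `HeckeFin548.HF` -/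
theorem T0_eq (hK : Fintype.card K = q ^ 2) (hs : ∀ a, σ a = a ^ q) (hx : σ x ≠ x)
    (hy : σ y ≠ y) (hxy : x ≠ y) (hxy' : σ x ≠ y) (φ : Option K → Option K → K) :
    T0 (2 * (q - 1)) (2 * (q - 1))
        (fun a : Fin 4 → K => CornerHecke223.actL x (HeckePlug548.el σ a))
        (fun a => CornerHecke223.actL y (HeckePlug548.el σ a))
        (fun a => Wt x y q (N (HeckePlug548.el σ a))) φ
      = lamF σ q x y φ • W0540.w0t (q - 1) x y := by
  refine T0_raw hK hs hx hy hxy hxy' _ _ _ (fun a l => ?_) (fun a l => ?_) (fun a => ?_) φ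
  · exact act_el σ x a l
  · exact act_el σ y a l
  · show Wt x y q (N (el σ a)) = _
    unfold Wt wa
    rw [N_el, N_el]

/-- `T0 w0 = w0` -/
theorem T0_w0 (hK : Fintype.card K = q ^ 2) (hs : ∀ a, σ a = a ^ q) (hx : σ x ≠ x)
    (hy : σ y ≠ y) (hxy : x ≠ y) (hxy' : σ x ≠ y) :
    T0 (2 * (q - 1)) (2 * (q - 1))
        (fun a : Fin 4 → K => CornerHecke223.actL x (HeckePlug548.el σ a))
        (fun a => CornerHecke223.actL y (HeckePlug548.el σ a))
        (fun a => Wt x y q (N (HeckePlug548.el σ a))) (W0540.w0t (q - 1) x y)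
      = (1 : K) • W0540.w0t (q - 1) x y := by
  rw [T0_eq hK hs hx hy hxy hxy', lamF_w0 hK hs hx hy hxy]

/-- `hrk` of `A1Two14.content_corner` -/
theorem T0_rk (hK : Fintype.card K = q ^ 2) (hs : ∀ a, σ a = a ^ q) (hx : σ x ≠ x)
    (hy : σ y ≠ y) (hxy : x ≠ y) (hxy' : σ x ≠ y) (φ : Option K → Option K → K) :
    ∃ m : ℕ, ∃ κ : K, (T0 (2 * (q - 1)) (2 * (q - 1))
        (fun a : Fin 4 → K => CornerHecke223.actL x (HeckePlug548.el σ a))
        (fun a => CornerHecke223.actL y (HeckePlug548.el σ a))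
        (fun a => Wt x y q (N (HeckePlug548.el σ a))))^[m] φ
      = κ • W0540.w0t (q - 1) x y :=
  ⟨1, lamF σ q x y φ, by rw [Function.iterate_one, T0_eq hK hs hx hy hxy hxy']⟩

end Crest.Agent.R289.Rank1_605
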