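import Mathlib

/-!
# Core of the base uniqueness of the two-place code (A.UNIQ), one residue class

Lowest exponent / highest exponent argument, uniform in the class `r`.
-/

namespace Crest.Agent.R289.CoreU903

open Polynomial

variable {K : Type*} [Field K]

/-- generating polynomial of the `i`-th coefficients of `A 0, .., A 3` -/
noncomputable def pol (A : ℕ → K[X]) (i : ℕ) : K[X] :=
  ∑ j ∈ Finset.range 4, C ((A j).coeff i) * X ^ j

theorem pol_coeff (A : ℕ → K[X]) (i : ℕ) {j : ℕ} (hj : j < 4) :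
    (pol A i).coeff j = (A j).coeff i := by
  unfold pol
  rw [finsetSum_coeff, Finset.sum_eq_single j]
  · simp
  · intro b _ hb
    rw [coeff_C_mul, coeff_X_pow, if_neg (Ne.symm hb), mul_zero]
  · intro h
    exact absurd (Finset.mem_range.2 hj) h

theorem pol_natDegree (A : ℕ → K[X]) (i : ℕ) : (pol A i).natDegree ≤ 3 := by
  unfold pol
  apply natDegree_sum_le_of_forall_le
  intro j hj
  have hj' := Finset.mem_range.1 hj
  exact (natDegree_C_mul_X_pow_le _ _).trans (by omega)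

theorem pol_ne_zero (A : ℕ → K[X]) (i : ℕ) (h : ∃ j < 4, (A j).coeff i ≠ 0) :
    pol A i ≠ 0 := by
  obtain ⟨j, hj, h⟩ := h
  intro h0
  apply h
  rw [← pol_coeff A i hj, h0, coeff_zero]

theorem pol_congr {A A' : ℕ → K[X]} {i : ℕ} (h : ∀ j < 4, (A j).coeff i = (A' j).coeff i) :
    pol A i = pol A' i := by
  unfold pol
  apply Finset.sum_congr rfl
  intro j hj
  rw [h j (Finset.mem_range.1 hj)]

/-- window condition -/
def Win (q r : ℕ) (x xb : K) (p : ℕ → K[X]) : Prop :=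
  ∀ i ≤ 2 * (q - 1), ∀ t e : ℕ, 2 * e ≤ q + 1 →
    (r + i + 6 = (q + 1) * t + e → (X - C x) ^ e ∣ p i) ∧
    (r + i + 6 + e = (q + 1) * t → (X - C xb) ^ e ∣ p i)

theorem exists_window (q m : ℕ) : ∃ t e : ℕ, 2 * e ≤ q + 1 ∧
    (m = (q + 1) * t + e ∨ m + e = (q + 1) * t) := by
  have h1 := Nat.div_add_mod m (q + 1)
  have h2 : m % (q + 1) < q + 1 := Nat.mod_lt m (Nat.succ_pos q)
  by_cases h : 2 * (m % (q + 1)) ≤ q + 1
  · exact ⟨m / (q + 1), m % (q + 1), h, Or.inl h1.symm⟩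
  · refine ⟨m / (q + 1) + 1, q + 1 - m % (q + 1), by omega, Or.inr ?_⟩
    rw [mul_add, mul_one]
    omega

/-- two coprime powers of linear factors -/
theorem two_pow {v v' : K} (hv : v ≠ v') {p : K[X]} {e d : ℕ} (h1 : (X - C v) ^ e ∣ p)
    (h2 : (X - C v') ^ e ∣ p) (hp : p ≠ 0) (hd : p.natDegree ≤ d) : 2 * e ≤ d := by
  have hc : IsCoprime ((X - C v) ^ e) ((X - C v') ^ e) :=
    (isCoprime_X_sub_C_of_isUnit_sub (IsUnit.mk0 _ (sub_ne_zero.2 hv))).pow
  have h3 := natDegree_le_of_dvd (hc.mul_dvd h1 h2) hp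
  rw [natDegree_mul (pow_ne_zero _ (X_sub_C_ne_zero v)) (pow_ne_zero _ (X_sub_C_ne_zero v')),
    natDegree_pow, natDegree_pow, natDegree_X_sub_C, natDegree_X_sub_C] at h3
  omega

theorem lin_ne_zero (c : K) : (1 + C c * X : K[X]) ≠ 0 := by
  intro h
  have := congrArg (fun p => p.coeff 0) h
  simp at this

theorem lin_natDegree {c : K} (hc : c ≠ 0) : (1 + C c * X : K[X]).natDegree = 1 := by
  have : (1 + C c * X : K[X]) = C c * X + C 1 := by rw [C_1]; ring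
  rw [this, natDegree_linear hc]

theorem lin_pow_natDegree {c : K} (hc : c ≠ 0) (m : ℕ) :
    ((1 + C c * X : K[X]) ^ m).natDegree = m := by
  rw [natDegree_pow, lin_natDegree hc, mul_one]

theorem lin_pow_coeff_zero (c : K) (m : ℕ) : ((1 + C c * X : K[X]) ^ m).coeff 0 = 1 := by
  rw [coeff_zero_eq_eval_zero]
  simp

theorem lin_pow_coeff_top {c : K} (hc : c ≠ 0) (m : ℕ) :
    ((1 + C c * X : K[X]) ^ m).coeff m = c ^ m := by
  have h : (1 + C c * X : K[X]) = C c * X + C 1 := by rw [C_1]; ring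
  have h2 : ((1 + C c * X : K[X]) ^ m).leadingCoeff = c ^ m := by
    rw [leadingCoeff_pow, h, leadingCoeff_linear hc]
  rw [← h2, leadingCoeff, lin_pow_natDegree hc]

theorem coprime_X_lin (c : K) (n m : ℕ) : IsCoprime ((X : K[X]) ^ n) ((1 + C c * X) ^ m) := by
  apply IsCoprime.pow
  exact ⟨- C c, 1, by ring⟩

/-- lowest coefficient -/
theorem low {A B : K[X]} {c : K} {m n : ℕ} (h : A = (1 + C c * X) ^ m * B)
    (hA : ∀ i < n, A.coeff i = 0) : (∀ i < n, B.coeff i = 0) ∧ A.coeff n = B.coeff n := by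
  have h1 : X ^ n ∣ A := X_pow_dvd_iff.2 hA
  rw [h] at h1
  have h2 : X ^ n ∣ B := (coprime_X_lin c n m).dvd_of_dvd_mul_left h1
  refine ⟨X_pow_dvd_iff.1 h2, ?_⟩
  obtain ⟨B', rfl⟩ := h2
  rw [h, mul_left_comm]
  have e1 := coeff_X_pow_mul ((1 + C c * X) ^ m * B') n 0
  have e2 := coeff_X_pow_mul B' n 0
  rw [zero_add] at e1 e2
  rw [e1, e2, mul_coeff_zero, lin_pow_coeff_zero, one_mul]

/-- highest coefficient -/
theorem high {A B : K[X]} {c : K} (hc : c ≠ 0) {m n : ℕ} (h : A = (1 + C c * X) ^ m * B)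
    (hB : B ≠ 0) (hA : ∀ i, n < i → A.coeff i = 0) :
    m + B.natDegree ≤ n ∧ A.coeff n = c ^ m * B.coeff (n - m) := by
  have h0 : A.natDegree = m + B.natDegree := by
    rw [h, natDegree_mul (pow_ne_zero _ (lin_ne_zero c)) hB, lin_pow_natDegree hc]
  have h1 : A.natDegree ≤ n := natDegree_le_iff_coeff_eq_zero.2 (fun i hi => hA i hi)
  refine ⟨by omega, ?_⟩
  have h2 := coeff_mul_add_eq_of_natDegree_le (f := (1 + C c * X : K[X]) ^ m) (g := B) (df := m)
    (dg := n - m) (lin_pow_natDegree hc m).le (by omega)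
  have h3 : m + (n - m) = n := by omega
  rw [h3] at h2
  rw [h, h2, lin_pow_coeff_top hc]

/-- a four term polynomial with a double root -/
theorem dbl {c cb a0 a1 a2 a3 : K} (hc : c ≠ 0) {q n : ℕ} (hq : 2 ≤ q)
    (hfr : (1 + C c * X : K[X]) ^ q = 1 + C cb * X ^ q)
    (h : (1 + C c * X : K[X]) ^ 2 ∣
      X ^ n * (C a0 + C a1 * X + (C a2 + C a3 * X) * X ^ q)) : a2 = cb * a0 := by
  have h1 : (1 + C c * X : K[X]) ^ 2 ∣ C a0 + C a1 * X + (C a2 + C a3 * X) * X ^ q :=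
    ((coprime_X_lin c n 2).symm).dvd_of_dvd_mul_left h
  have h2 : (1 + C c * X : K[X]) ^ 2 ∣ (1 + C c * X : K[X]) ^ q := pow_dvd_pow _ hq
  have h3 : (C cb * C a0 + C cb * C a1 * X - (C a2 + C a3 * X) : K[X]) =
      C cb * (C a0 + C a1 * X + (C a2 + C a3 * X) * X ^ q) -
        (C a2 + C a3 * X) * (1 + C c * X : K[X]) ^ q := by
    rw [hfr]; ring
  have h4 : (1 + C c * X : K[X]) ^ 2 ∣ (C cb * C a0 + C cb * C a1 * X - (C a2 + C a3 * X) : K[X]) := by
    rw [h3]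
    exact dvd_sub (Dvd.dvd.mul_left h1 _) (Dvd.dvd.mul_left h2 _)
  have h5 : (C cb * C a0 + C cb * C a1 * X - (C a2 + C a3 * X) : K[X]) =
      C (cb * a1 - a3) * X + C (cb * a0 - a2) := by
    simp only [C_sub, C_mul]; ring
  rw [h5] at h4
  have h6 := eq_zero_of_dvd_of_natDegree_lt h4 (by
    rw [lin_pow_natDegree hc]
    exact lt_of_le_of_lt natDegree_linear_le (by norm_num))
  have h7 := congrArg (fun p => p.coeff 0) h6
  simp at h7
  linear_combination -h7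

/-- lowest coefficient, other direction -/
theorem low' {B : K[X]} (c : K) (m : ℕ) {n : ℕ} (hB : ∀ i < n, B.coeff i = 0) :
    (∀ i < n, ((1 + C c * X) ^ m * B).coeff i = 0) ∧
      ((1 + C c * X) ^ m * B).coeff n = B.coeff n := by
  have h2 : X ^ n ∣ B := X_pow_dvd_iff.2 hB
  have h1 : X ^ n ∣ (1 + C c * X) ^ m * B := Dvd.dvd.mul_left h2 _
  refine ⟨X_pow_dvd_iff.1 h1, ?_⟩
  obtain ⟨B', rfl⟩ := h2
  rw [mul_left_comm]
  have e1 := coeff_X_pow_mul ((1 + C c * X) ^ m * B') n 0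
  have e2 := coeff_X_pow_mul B' n 0
  rw [zero_add] at e1 e2
  rw [e1, e2, mul_coeff_zero, lin_pow_coeff_zero, one_mul]

/-! ### two adjacent terms -/

theorem adj {A : ℕ → K[X]} {j0 : ℕ} (hj0 : j0 + 1 < 4)
    (hz : ∀ j < 4, j ≠ j0 → j ≠ j0 + 1 → A j = 0) (i : ℕ) :
    pol A i = X ^ j0 * (C ((A j0).coeff i) + C ((A (j0 + 1)).coeff i) * X) := by
  unfold pol
  have h3 : j0 = 0 ∨ j0 = 1 ∨ j0 = 2 := by omega
  rcases h3 with rfl | rfl | rfl
  · rw [Finset.sum_range_succ, Finset.sum_range_succ, Finset.sum_range_succ,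
      Finset.sum_range_succ, hz 2 (by norm_num) (by norm_num) (by norm_num),
      hz 3 (by norm_num) (by norm_num) (by norm_num)]
    simp
  · rw [Finset.sum_range_succ, Finset.sum_range_succ, Finset.sum_range_succ,
      Finset.sum_range_succ, hz 0 (by norm_num) (by norm_num) (by norm_num),
      hz 3 (by norm_num) (by norm_num) (by norm_num)]
    simp
    ring
  · rw [Finset.sum_range_succ, Finset.sum_range_succ, Finset.sum_range_succ,
      Finset.sum_range_succ, hz 0 (by norm_num) (by norm_num) (by norm_num),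
      hz 1 (by norm_num) (by norm_num) (by norm_num)]
    simp
    ring

theorem adj_root {A : ℕ → K[X]} {j0 : ℕ} (hj0 : j0 + 1 < 4)
    (hz : ∀ j < 4, j ≠ j0 → j ≠ j0 + 1 → A j = 0) {i : ℕ} {v : K} (hv : v ≠ 0)
    (h : (X - C v) ∣ pol A i) : (A j0).coeff i + (A (j0 + 1)).coeff i * v = 0 := by
  have h1 := dvd_iff_isRoot.1 h
  rw [adj hj0 hz, IsRoot, eval_mul, eval_pow, eval_X] at h1
  have h2 := (mul_eq_zero.1 h1).resolve_left (pow_ne_zero _ hv)
  simpa using h2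

theorem adj_roots {A : ℕ → K[X]} {j0 : ℕ} (hj0 : j0 + 1 < 4)
    (hz : ∀ j < 4, j ≠ j0 → j ≠ j0 + 1 → A j = 0) {i : ℕ} {v v' : K} (hv : v ≠ 0) (hv' : v' ≠ 0)
    (hvv : v ≠ v') (h : (X - C v) ∣ pol A i) (h' : (X - C v') ∣ pol A i) : pol A i = 0 := by
  have e1 := adj_root hj0 hz hv h
  have e2 := adj_root hj0 hz hv' h'
  have e3 : (A (j0 + 1)).coeff i * (v - v') = 0 := by linear_combination e1 - e2
  have e4 := (mul_eq_zero.1 e3).resolve_right (sub_ne_zero.2 hvv)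
  rw [e4, zero_mul, add_zero] at e1
  rw [adj hj0 hz, e1, e4]
  simp

theorem adj_dbl {A : ℕ → K[X]} {j0 : ℕ} (hj0 : j0 + 1 < 4)
    (hz : ∀ j < 4, j ≠ j0 → j ≠ j0 + 1 → A j = 0) {i : ℕ} {v : K} (hv : v ≠ 0)
    (h : (X - C v) ^ 2 ∣ pol A i) : pol A i = 0 := by
  rw [adj hj0 hz] at h
  have hc : IsCoprime ((X - C v) ^ 2 : K[X]) (X ^ j0) := by
    apply IsCoprime.pow
    have := isCoprime_X_sub_C_of_isUnit_sub (IsUnit.mk0 (v - 0) (by simpa using hv))
    simpa using this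
  have h1 := hc.dvd_of_dvd_mul_left h
  have h2 := eq_zero_of_dvd_of_natDegree_lt h1 (by
    rw [natDegree_pow, natDegree_X_sub_C, add_comm]
    exact lt_of_le_of_lt natDegree_linear_le (by norm_num))
  rw [adj hj0 hz, h2, mul_zero]

theorem adj_zero {A : ℕ → K[X]} {j0 : ℕ} (hj0 : j0 + 1 < 4) {i : ℕ} (h : pol A i = 0) :
    (A j0).coeff i = 0 ∧ (A (j0 + 1)).coeff i = 0 := by
  rw [← pol_coeff A i (j := j0) (by omega), ← pol_coeff A i hj0, h]
  simp

/-! ### scaling -/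

theorem pol_scale {A A' : ℕ → K[X]} {i : ℕ} {k g : K}
    (h : ∀ j < 4, (A' j).coeff i = k * g ^ j * (A j).coeff i) :
    pol A' i = C k * (pol A i).comp (C g * X) := by
  unfold pol
  rw [Polynomial.sum_comp, Finset.mul_sum]
  apply Finset.sum_congr rfl
  intro j hj
  rw [h j (Finset.mem_range.1 hj)]
  simp only [mul_comp, C_comp, pow_comp, X_comp, C_mul, C_pow, mul_pow]
  ring

theorem dvd_scale {P P' : K[X]} {k g y : K} (hk : k ≠ 0) (hg : g ≠ 0)
    (h : P' = C k * P.comp (C g * X)) {e : ℕ} (hd : (X - C y) ^ e ∣ P') :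
    (X - C (g * y)) ^ e ∣ P := by
  rw [h] at hd
  have h1 : (X - C y) ^ e ∣ P.comp (C g * X) := by
    have hu : IsUnit (C k : K[X]) := isUnit_C.2 (IsUnit.mk0 k hk)
    exact (hu.dvd_mul_left).1 hd
  obtain ⟨Q, hQ⟩ := h1
  have h2 := congrArg (fun p => p.comp (C g⁻¹ * X)) hQ
  simp only [comp_assoc, mul_comp, pow_comp, sub_comp, X_comp, C_comp] at h2
  have h3 : (C g * (C g⁻¹ * X) : K[X]) = X := by
    rw [← mul_assoc, ← C_mul, mul_inv_cancel₀ hg, C_1, one_mul]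
  rw [h3, comp_X] at h2
  have h4 : (C g⁻¹ * X - C y : K[X]) = C g⁻¹ * (X - C (g * y)) := by
    rw [mul_sub, ← C_mul, ← mul_assoc, inv_mul_cancel₀ hg, one_mul]
  rw [h2, h4, mul_pow]
  exact (Dvd.intro_left _ rfl).mul_right _

/-! ### the system -/

/-- the data of one class `r` (form of #6315: `split_lo`, `split_hi`, centred windows) -/
structure Sys (q r : ℕ) (x y : K) (A A' B : ℕ → K[X]) : Prop where
  lo : ∀ j < 4, r + (q + 1) * j ≤ 2 * (q - 1) →
    A j = (1 + C x * X) ^ (2 * (q - 1) - (r + (q + 1) * j)) * B j ∧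
    A' j = (1 + C y * X) ^ (2 * (q - 1) - (r + (q + 1) * j)) * B j ∧
    (B j).natDegree ≤ r + (q + 1) * j
  hi : ∀ j < 4, 2 * (q - 1) ≤ r + (q + 1) * j →
    A j = (1 + C y * X) ^ (r + (q + 1) * j - 2 * (q - 1)) * B j ∧
    A' j = (1 + C x * X) ^ (r + (q + 1) * j - 2 * (q - 1)) * B j ∧
    (B j ≠ 0 → (B j).natDegree + (r + (q + 1) * j) ≤ 4 * (q - 1))
  wx : Win q r x (x ^ q) (pol A)
  wy : Win q r y (y ^ q) (pol A')

variable {q r : ℕ} {x y : K} {A A' B : ℕ → K[X]}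

theorem Sys.split (S : Sys q r x y A A' B) {j : ℕ} (hj : j < 4) :
    ∃ (m : ℕ) (c c' : K),
      ((c = x ∧ c' = y ∧ r + (q + 1) * j + m = 2 * (q - 1)) ∨
        (c = y ∧ c' = x ∧ r + (q + 1) * j = 2 * (q - 1) + m)) ∧
      A j = (1 + C c * X) ^ m * B j ∧ A' j = (1 + C c' * X) ^ m * B j ∧
      (B j ≠ 0 → (B j).natDegree + m ≤ 2 * (q - 1)) := by
  rcases le_total (r + (q + 1) * j) (2 * (q - 1)) with h | h
  · obtain ⟨h1, h2, h3⟩ := S.lo j hj h
    exact ⟨_, x, y, Or.inl ⟨rfl, rfl, by omega⟩, h1, h2, fun _ => by omega⟩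
  · obtain ⟨h1, h2, h3⟩ := S.hi j hj h
    exact ⟨_, y, x, Or.inr ⟨rfl, rfl, by omega⟩, h1, h2, fun hB => by
      have := h3 hB; omega⟩

theorem Sys.A_zero_iff (S : Sys q r x y A A' B) {j : ℕ} (hj : j < 4) : A j = 0 ↔ B j = 0 := by
  obtain ⟨m, c, c', _, h1, _, _⟩ := S.split hj
  rw [h1]
  constructor
  · intro h
    exact (mul_eq_zero.1 h).resolve_left (pow_ne_zero _ (lin_ne_zero c))
  · intro h
    rw [h, mul_zero]

theorem Sys.A'_zero_iff (S : Sys q r x y A A' B) {j : ℕ} (hj : j < 4) : A' j = 0 ↔ B j = 0 := by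
  obtain ⟨m, c, c', _, _, h1, _⟩ := S.split hj
  rw [h1]
  constructor
  · intro h
    exact (mul_eq_zero.1 h).resolve_left (pow_ne_zero _ (lin_ne_zero c'))
  · intro h
    rw [h, mul_zero]

/-- extreme exponents of the support -/
theorem Sys.extreme (S : Sys q r x y A A' B) (hx : x ≠ 0) (hy : y ≠ 0)
    (h : ∃ j < 4, A j ≠ 0) :
    ∃ n1 n2 : ℕ, n1 ≤ n2 ∧ n2 ≤ 2 * (q - 1) ∧
      (∀ j < 4, ∀ i < n1, (A j).coeff i = 0) ∧ (∀ j < 4, ∀ i, n2 < i → (A j).coeff i = 0) ∧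
      pol A n1 ≠ 0 ∧ pol A n2 ≠ 0 := by
  have hdeg : ∀ j < 4, ∀ i, 2 * (q - 1) < i → (A j).coeff i = 0 := by
    intro j hj i hi
    obtain ⟨m, c, c', hc, h1, _, h3⟩ := S.split hj
    by_cases hB : B j = 0
    · rw [h1, hB, mul_zero, coeff_zero]
    · apply coeff_eq_zero_of_natDegree_lt
      have hc0 : c ≠ 0 := by
        rcases hc with ⟨rfl, _⟩ | ⟨rfl, _⟩ <;> assumption
      rw [h1, natDegree_mul (pow_ne_zero _ (lin_ne_zero c)) hB, lin_pow_natDegree hc0]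
      have := h3 hB
      omega
  obtain ⟨T, hTd⟩ : ∃ T : Finset ℕ, ∀ i, i ∈ T ↔ i < 2 * (q - 1) + 1 ∧ ∃ j < 4, (A j).coeff i ≠ 0 := by
    classical
    exact ⟨(Finset.range (2 * (q - 1) + 1)).filter (fun i => ∃ j < 4, (A j).coeff i ≠ 0), by
      intro i; simp only [Finset.mem_filter, Finset.mem_range]⟩
  have hT : ∀ i, i ∈ T ↔ ∃ j < 4, (A j).coeff i ≠ 0 := by
    intro i
    rw [hTd]
    refine ⟨fun h => h.2, fun h => ⟨?_, h⟩⟩
    obtain ⟨j, hj, hne⟩ := h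
    by_contra hcon
    exact hne (hdeg j hj i (by omega))
  have hne : T.Nonempty := by
    obtain ⟨j, hj, hA⟩ := h
    have : ∃ i, (A j).coeff i ≠ 0 := by
      by_contra hcon
      push Not at hcon
      exact hA (Polynomial.ext (by simpa using hcon))
    obtain ⟨i, hi⟩ := this
    exact ⟨i, (hT i).2 ⟨j, hj, hi⟩⟩
  refine ⟨T.min' hne, T.max' hne, T.min'_le _ (T.max'_mem hne), ?_, ?_, ?_, ?_, ?_⟩
  · have := T.max'_mem hne
    have := ((hTd _).1 this).1
    omega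
  · intro j hj i hi
    by_contra hcon
    have := T.min'_le i ((hT i).2 ⟨j, hj, hcon⟩)
    omega
  · intro j hj i hi
    by_contra hcon
    have := T.le_max' i ((hT i).2 ⟨j, hj, hcon⟩)
    omega
  · exact pol_ne_zero _ _ ((hT _).1 (T.min'_mem hne))
  · exact pol_ne_zero _ _ ((hT _).1 (T.max'_mem hne))

/-- lowest coefficients agree -/
theorem Sys.low_eq (S : Sys q r x y A A' B) {n1 : ℕ}
    (h1 : ∀ j < 4, ∀ i < n1, (A j).coeff i = 0) {j : ℕ} (hj : j < 4) :
    (∀ i < n1, (A' j).coeff i = 0) ∧ (A' j).coeff n1 = (A j).coeff n1 := by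
  obtain ⟨m, c, c', _, e1, e2, _⟩ := S.split hj
  obtain ⟨l1, l2⟩ := low e1 (h1 j hj)
  obtain ⟨l3, l4⟩ := low' c' m l1
  rw [← e2] at l3 l4
  exact ⟨l3, by rw [l4, l2]⟩

/-- bounds for the classes which occur -/
theorem Sys.bounds (S : Sys q r x y A A' B) (hx : x ≠ 0) (hy : y ≠ 0) {n1 n2 : ℕ}
    (h1 : ∀ j < 4, ∀ i < n1, (A j).coeff i = 0)
    (h2 : ∀ j < 4, ∀ i, n2 < i → (A j).coeff i = 0) {j : ℕ} (hj : j < 4) (hA : A j ≠ 0) :
    n1 ≤ r + (q + 1) * j ∧ n1 + (r + (q + 1) * j) ≤ 4 * (q - 1) ∧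
      2 * (q - 1) ≤ r + (q + 1) * j + n2 ∧ r + (q + 1) * j ≤ 2 * (q - 1) + n2 ∧
      (∀ i, n2 < i → (A' j).coeff i = 0) := by
  obtain ⟨m, c, c', hc, e1, e2, hd⟩ := S.split hj
  have hB : B j ≠ 0 := fun h => hA ((S.A_zero_iff hj).2 h)
  obtain ⟨l1, l2⟩ := low e1 (h1 j hj)
  have hc0 : c ≠ 0 := by
    rcases hc with ⟨rfl, _⟩ | ⟨rfl, _⟩ <;> assumption
  have hc0' : c' ≠ 0 := by
    rcases hc with ⟨_, rfl, _⟩ | ⟨_, rfl, _⟩ <;> assumption
  obtain ⟨m1, m2⟩ := high hc0 e1 hB (h2 j hj)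
  have hn1 : n1 ≤ (B j).natDegree := by
    by_contra hcon
    push Not at hcon
    have := l1 _ hcon
    exact hB (leadingCoeff_eq_zero.1 this)
  have := hd hB
  refine ⟨?_, ?_, ?_, ?_, ?_⟩
  · rcases hc with ⟨_, _, h⟩ | ⟨_, _, h⟩ <;> omega
  · rcases hc with ⟨_, _, h⟩ | ⟨_, _, h⟩ <;> omega
  · rcases hc with ⟨_, _, h⟩ | ⟨_, _, h⟩ <;> omega
  · rcases hc with ⟨_, _, h⟩ | ⟨_, _, h⟩ <;> omega
  · intro i hi
    apply coeff_eq_zero_of_natDegree_lt
    rw [e2, natDegree_mul (pow_ne_zero _ (lin_ne_zero c')) hB, lin_pow_natDegree hc0']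
    omega

/-- highest coefficients are proportional -/
theorem Sys.high_eq (S : Sys q r x y A A' B) (hx : x ≠ 0) (hy : y ≠ 0) {n2 : ℕ}
    (h2 : ∀ j < 4, ∀ i, n2 < i → (A j).coeff i = 0) {j : ℕ} (hj : j < 4) :
    (A' j).coeff n2 = ((y / x) ^ (2 * (q - 1)) * (x / y) ^ r) * ((x / y) ^ (q + 1)) ^ j *
      (A j).coeff n2 := by
  obtain ⟨m, c, c', hc, e1, e2, hd⟩ := S.split hj
  by_cases hB : B j = 0
  · rw [e1, e2, hB]; simp
  have hc0 : c ≠ 0 := by
    rcases hc with ⟨rfl, _⟩ | ⟨rfl, _⟩ <;> assumption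
  have hc0' : c' ≠ 0 := by
    rcases hc with ⟨_, rfl, _⟩ | ⟨_, rfl, _⟩ <;> assumption
  obtain ⟨m1, m2⟩ := high hc0 e1 hB (h2 j hj)
  have h2' : ∀ i, n2 < i → (A' j).coeff i = 0 := by
    intro i hi
    apply coeff_eq_zero_of_natDegree_lt
    rw [e2, natDegree_mul (pow_ne_zero _ (lin_ne_zero c')) hB, lin_pow_natDegree hc0']
    omega
  obtain ⟨m3, m4⟩ := high hc0' e2 hB h2'
  rw [m2, m4, ← pow_mul, mul_assoc ((y / x) ^ (2 * (q - 1))), ← pow_add]
  have hyx : (y / x) * (x / y) = 1 := by field_simp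
  have hp : ∀ k : ℕ, (y / x) ^ k * (x / y) ^ k = 1 := by
    intro k
    rw [← mul_pow, hyx, one_pow]
  rcases hc with ⟨rfl, rfl, h⟩ | ⟨rfl, rfl, h⟩
  · have hm : (c' / c) ^ m * c ^ m = c' ^ m := by rw [← mul_pow, div_mul_cancel₀ _ hc0]
    rw [← h, add_comm (r + (q + 1) * j) m, pow_add]
    linear_combination (-(c' / c) ^ m * c ^ m * (B j).coeff (n2 - m)) * hp (r + (q + 1) * j)
      - (B j).coeff (n2 - m) * hm
  · have hm : (c' / c) ^ m * c ^ m = c' ^ m := by rw [← mul_pow, div_mul_cancel₀ _ hc0]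
    rw [h, pow_add]
    linear_combination (-(c' / c) ^ m * c ^ m * (B j).coeff (n2 - m)) * hp (2 * (q - 1))
      - (B j).coeff (n2 - m) * hm

/-- window at the lowest exponent: `|e| ≤ 1` -/
theorem Sys.win_low (S : Sys q r x y A A' B) (hxy : x ≠ y) (hxyq : x ^ q ≠ y ^ q) {n1 : ℕ}
    (hn : n1 ≤ 2 * (q - 1)) (h1 : ∀ j < 4, ∀ i < n1, (A j).coeff i = 0) (hp : pol A n1 ≠ 0) :
    ∃ t e : ℕ, e ≤ 2 ∧ r + n1 + 7 = (q + 1) * t + e ∧
      (e = 2 → (X - C x) ∣ pol A n1 ∧ (X - C y) ∣ pol A n1) ∧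
      (e = 0 → (X - C (x ^ q)) ∣ pol A n1 ∧ (X - C (y ^ q)) ∣ pol A n1) := by
  have he : pol A' n1 = pol A n1 := pol_congr fun j hj => (S.low_eq h1 hj).2
  obtain ⟨t, e, h2, h3⟩ := exists_window q (r + n1 + 6)
  rcases h3 with h3 | h3
  · have w1 := (S.wx n1 hn t e h2).1 h3
    have w2 := (S.wy n1 hn t e h2).1 h3
    rw [he] at w2
    have h4 := two_pow hxy w1 w2 hp (pol_natDegree A n1)
    have h5 : e = 0 ∨ e = 1 := by omega
    rcases h5 with rfl | rfl
    · exact ⟨t, 1, by omega, by omega, by omega, by omega⟩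
    · rw [pow_one] at w1 w2
      exact ⟨t, 2, by omega, by omega, fun _ => ⟨w1, w2⟩, by omega⟩
  · have w1 := (S.wx n1 hn t e h2).2 h3
    have w2 := (S.wy n1 hn t e h2).2 h3
    rw [he] at w2
    have h4 := two_pow hxyq w1 w2 hp (pol_natDegree A n1)
    have h5 : e = 0 ∨ e = 1 := by omega
    rcases h5 with rfl | rfl
    · exact ⟨t, 1, by omega, by omega, by omega, by omega⟩
    · rw [pow_one] at w1 w2
      exact ⟨t, 0, by omega, by omega, by omega, fun _ => ⟨w1, w2⟩⟩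

/-- window at the highest exponent -/
theorem Sys.win_high (S : Sys q r x y A A' B) (hx : x ≠ 0) (hy : y ≠ 0) (hxy : x ≠ y)
    (hxyq : x ^ q ≠ y ^ q) {n2 : ℕ}
    (hn : n2 ≤ 2 * (q - 1)) (h1 : ∀ j < 4, ∀ i, n2 < i → (A j).coeff i = 0)
    (hp : pol A n2 ≠ 0) :
    ∃ t e : ℕ, e ≤ 2 ∧ r + n2 + 7 = (q + 1) * t + e ∧
      (e = 2 → ∃ v v' : K, v ≠ 0 ∧ v' ≠ 0 ∧ v ≠ v' ∧ (X - C v) ∣ pol A n2 ∧ (X - C v') ∣ pol A n2) ∧
      (e = 0 → ∃ v v' : K, v ≠ 0 ∧ v' ≠ 0 ∧ v ≠ v' ∧ (X - C v) ∣ pol A n2 ∧ (X - C v') ∣ pol A n2) := by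
  have hs := pol_scale (fun j hj => S.high_eq hx hy h1 hj)
  have hk : ((y / x) ^ (2 * (q - 1)) * (x / y) ^ r : K) ≠ 0 :=
    mul_ne_zero (pow_ne_zero _ (div_ne_zero hy hx)) (pow_ne_zero _ (div_ne_zero hx hy))
  have hg : ((x / y) ^ (q + 1) : K) ≠ 0 := pow_ne_zero _ (div_ne_zero hx hy)
  have n1 : x ≠ (x / y) ^ (q + 1) * y := by
    intro h
    apply hxyq
    have e1 : (x / y) ^ (q + 1) * y = x * (x ^ q / y ^ q) := by
      rw [div_pow, pow_succ, pow_succ]; field_simp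
    rw [e1] at h
    have e2 : x ^ q / y ^ q = 1 := by
      have : x * (x ^ q / y ^ q) = x * 1 := by rw [mul_one]; exact h.symm
      exact mul_left_cancel₀ hx this
    exact (div_eq_one_iff_eq (pow_ne_zero _ hy)).1 e2
  have n2' : x ^ q ≠ (x / y) ^ (q + 1) * y ^ q := by
    intro h
    apply hxy
    have e1 : (x / y) ^ (q + 1) * y ^ q = x ^ q * (x / y) := by
      rw [div_pow, pow_succ, pow_succ]; field_simp
    rw [e1] at h
    have e2 : x / y = 1 := by
      have : x ^ q * (x / y) = x ^ q * 1 := by rw [mul_one]; exact h.symm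
      exact mul_left_cancel₀ (pow_ne_zero _ hx) this
    exact (div_eq_one_iff_eq hy).1 e2
  obtain ⟨t, e, h2, h3⟩ := exists_window q (r + n2 + 6)
  rcases h3 with h3 | h3
  · have w1 := (S.wx n2 hn t e h2).1 h3
    have w2 := dvd_scale hk hg hs ((S.wy n2 hn t e h2).1 h3)
    have h4 := two_pow n1 w1 w2 hp (pol_natDegree A n2)
    have h5 : e = 0 ∨ e = 1 := by omega
    rcases h5 with rfl | rfl
    · exact ⟨t, 1, by omega, by omega, by omega, by omega⟩
    · rw [pow_one] at w1 w2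
      exact ⟨t, 2, by omega, by omega,
        fun _ => ⟨_, _, hx, mul_ne_zero hg hy, n1, w1, w2⟩, by omega⟩
  · have w1 := (S.wx n2 hn t e h2).2 h3
    have w2 := dvd_scale hk hg hs ((S.wy n2 hn t e h2).2 h3)
    have h4 := two_pow n2' w1 w2 hp (pol_natDegree A n2)
    have h5 : e = 0 ∨ e = 1 := by omega
    rcases h5 with rfl | rfl
    · exact ⟨t, 1, by omega, by omega, by omega, by omega⟩
    · rw [pow_one] at w1 w2
      exact ⟨t, 0, by omega, by omega, by omega,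
        fun _ => ⟨_, _, pow_ne_zero _ hx, mul_ne_zero hg (pow_ne_zero _ hy), n2', w1, w2⟩⟩

/-- normal form of a polynomial with four term support -/
theorem four {P : K[X]} {n q : ℕ} (hq : 2 ≤ q)
    (h : ∀ i, i ≠ n → i ≠ n + 1 → i ≠ n + q → i ≠ n + q + 1 → P.coeff i = 0) :
    P = X ^ n * (C (P.coeff n) + C (P.coeff (n + 1)) * X +
      (C (P.coeff (n + q)) + C (P.coeff (n + q + 1)) * X) * X ^ q) := by
  have e : X ^ n * (C (P.coeff n) + C (P.coeff (n + 1)) * X +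
      (C (P.coeff (n + q)) + C (P.coeff (n + q + 1)) * X) * X ^ q) =
      C (P.coeff n) * X ^ n + C (P.coeff (n + 1)) * X ^ (n + 1) +
      C (P.coeff (n + q)) * X ^ (n + q) + C (P.coeff (n + q + 1)) * X ^ (n + q + 1) := by
    ring
  rw [e]
  ext i
  simp only [coeff_add, coeff_C_mul, coeff_X_pow]
  by_cases h0 : i = n
  · subst h0
    rw [if_pos rfl, if_neg (by omega), if_neg (by omega), if_neg (by omega)]; ring
  by_cases h1 : i = n + 1
  · subst h1
    rw [if_pos rfl, if_neg (by omega), if_neg (by omega), if_neg (by omega)]; ring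
  by_cases h2 : i = n + q
  · subst h2
    rw [if_pos rfl, if_neg (by omega), if_neg (by omega), if_neg (by omega)]; ring
  by_cases h3 : i = n + q + 1
  · subst h3
    rw [if_pos rfl, if_neg (by omega), if_neg (by omega), if_neg (by omega)]; ring
  rw [if_neg h0, if_neg h1, if_neg h2, if_neg h3, h i h0 h1 h2 h3]
  ring

/-- **Core of the base uniqueness**: in every class only `X ^ (q - 1)` in total degree
`2 (q - 1)` survives. -/
theorem core (S : Sys q r x y A A' B) (hq : 4 ≤ q) (hr : r ≤ q) (hx : x ≠ 0) (hy : y ≠ 0)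
    (hxy : x ≠ y) (hxyq : x ^ q ≠ y ^ q)
    (hfr : ∀ c : K, (1 + C c * X : K[X]) ^ q = 1 + C (c ^ q) * X ^ q) :
    (∀ j < 4, r + (q + 1) * j ≠ 2 * (q - 1) → A j = 0) ∧
    (∀ j < 4, r + (q + 1) * j = 2 * (q - 1) → ∃ c, A j = C c * X ^ (q - 1)) := by
  by_cases hall : ∀ j < 4, A j = 0
  · exact ⟨fun j hj _ => hall j hj, fun j hj _ => ⟨0, by rw [hall j hj]; simp⟩⟩
  push Not at hall
  obtain ⟨n1, n2, h12, hn2, hl, hh, hp1, hp2⟩ := S.extreme hx hy hall
  have hn1 : n1 ≤ 2 * (q - 1) := h12.trans hn2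
  obtain ⟨t1, e1, he1, ht1, ha1, hb1⟩ := S.win_low hxy hxyq hn1 hl hp1
  obtain ⟨t2, e2, he2, ht2, ha2, hb2⟩ := S.win_high hx hy hxy hxyq hn2 hh hp2
  have t1pos : 1 ≤ t1 := by
    rcases Nat.eq_zero_or_pos t1 with h | h
    · subst h; rw [mul_zero] at ht1; omega
    · exact h
  have t2le : t2 ≤ 3 := by
    by_contra hcon
    have : (q + 1) * 4 ≤ (q + 1) * t2 := Nat.mul_le_mul_left _ (by omega)
    omega
  have t12 : t1 ≤ t2 := by
    by_contra hcon
    have : (q + 1) * (t2 + 1) ≤ (q + 1) * t1 := Nat.mul_le_mul_left _ (by omega)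
    rw [mul_add] at this
    omega
  have t21 : t2 ≤ t1 + 1 := by
    by_contra hcon
    have : (q + 1) * (t1 + 2) ≤ (q + 1) * t2 := Nat.mul_le_mul_left _ (by omega)
    rw [mul_add] at this
    omega
  have hrange : ∀ j < 4, A j ≠ 0 → j + t1 ≤ 3 ∧ 3 ≤ j + t2 := by
    intro j hj hA
    obtain ⟨b1, b2, b3, b4, _⟩ := S.bounds hx hy hl hh hj hA
    constructor
    · by_contra hcon
      have : (q + 1) * 4 ≤ (q + 1) * (j + t1) := Nat.mul_le_mul_left _ (by omega)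
      rw [mul_add] at this
      omega
    · by_contra hcon
      have : (q + 1) * (j + t2) ≤ (q + 1) * 2 := Nat.mul_le_mul_left _ (by omega)
      rw [mul_add] at this
      omega
  obtain ⟨j0, hj0⟩ : ∃ j0, j0 + t2 = 3 := ⟨3 - t2, by omega⟩
  have hj4 : j0 + 1 < 4 := by omega
  have hz : ∀ j < 4, j ≠ j0 → j ≠ j0 + 1 → A j = 0 := by
    intro j hj h1 h2
    by_contra hA
    have := hrange j hj hA
    omega
  have hz' : ∀ j < 4, j ≠ j0 → j ≠ j0 + 1 → A' j = 0 := by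
    intro j hj h1 h2
    exact (S.A'_zero_iff hj).2 ((S.A_zero_iff hj).1 (hz j hj h1 h2))
  have e1eq : e1 = 1 := by
    by_contra hcon
    have : e1 = 0 ∨ e1 = 2 := by omega
    rcases this with h | h
    · obtain ⟨w1, w2⟩ := hb1 h
      exact hp1 (adj_roots hj4 hz (pow_ne_zero _ hx) (pow_ne_zero _ hy) hxyq w1 w2)
    · obtain ⟨w1, w2⟩ := ha1 h
      exact hp1 (adj_roots hj4 hz hx hy hxy w1 w2)
  have e2eq : e2 = 1 := by
    by_contra hcon
    have : e2 = 0 ∨ e2 = 2 := by omega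
    rcases this with h | h
    · obtain ⟨v, v', hv, hv', hvv, w1, w2⟩ := hb2 h
      exact hp2 (adj_roots hj4 hz hv hv' hvv w1 w2)
    · obtain ⟨v, v', hv, hv', hvv, w1, w2⟩ := ha2 h
      exact hp2 (adj_roots hj4 hz hv hv' hvv w1 w2)
  subst e1eq
  subst e2eq
  rcases Nat.lt_or_ge t1 t2 with hlt | hge
  · -- two classes: contradiction
    exfalso
    have ht : t2 = t1 + 1 := by omega
    subst ht
    rw [mul_add, mul_one] at ht2
    have hn21 : n2 = n1 + q + 1 := by omega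
    have hsum : (q + 1) * j0 + (q + 1) * t1 = (q + 1) * 2 := by
      rw [← mul_add]
      congr 1
      omega
    have hN0 : r + (q + 1) * j0 + (n1 + 2) = 2 * (q - 1) := by omega
    have hN1 : r + (q + 1) * (j0 + 1) = 2 * (q - 1) + (q - 1 - n1) := by
      rw [mul_add, mul_one]; omega
    have hmid : ∀ i, n1 + 2 ≤ i → i + 1 ≤ n1 + q → pol A i = 0 ∧ pol A' i = 0 := by
      intro i hi1 hi2
      obtain ⟨k, rfl⟩ : ∃ k, i = n1 + k := ⟨i - n1, by omega⟩
      have hi3 : n1 + k ≤ 2 * (q - 1) := by omega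
      by_cases hk : 2 * k ≤ q + 1
      · have w1 := (S.wx (n1 + k) hi3 t1 k hk).1 (by omega)
        have w2 := (S.wy (n1 + k) hi3 t1 k hk).1 (by omega)
        exact ⟨adj_dbl hj4 hz hx ((pow_dvd_pow _ (by omega)).trans w1),
          adj_dbl hj4 hz' hy ((pow_dvd_pow _ (by omega)).trans w2)⟩
      · have hk' : 2 * (q + 1 - k) ≤ q + 1 := by omega
        have hE : r + (n1 + k) + 6 + (q + 1 - k) = (q + 1) * (t1 + 1) := by
          rw [mul_add, mul_one]; omega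
        have w1 := (S.wx (n1 + k) hi3 (t1 + 1) (q + 1 - k) hk').2 hE
        have w2 := (S.wy (n1 + k) hi3 (t1 + 1) (q + 1 - k) hk').2 hE
        exact ⟨adj_dbl hj4 hz (pow_ne_zero _ hx) ((pow_dvd_pow _ (by omega)).trans w1),
          adj_dbl hj4 hz' (pow_ne_zero _ hy) ((pow_dvd_pow _ (by omega)).trans w2)⟩
    have hh' : ∀ j < 4, ∀ i, n2 < i → (A' j).coeff i = 0 := by
      intro j hj i hi
      by_cases hA : A j = 0
      · rw [(S.A'_zero_iff hj).2 ((S.A_zero_iff hj).1 hA), coeff_zero]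
      · exact (S.bounds hx hy hl hh hj hA).2.2.2.2 i hi
    have hl' : ∀ j < 4, ∀ i < n1, (A' j).coeff i = 0 := fun j hj => (S.low_eq hl hj).1
    have h4 : ∀ j, (j = j0 ∨ j = j0 + 1) → ∀ i, i ≠ n1 → i ≠ n1 + 1 → i ≠ n1 + q →
        i ≠ n1 + q + 1 → (A j).coeff i = 0 ∧ (A' j).coeff i = 0 := by
      intro j hj i i1 i2 i3 i4
      have hj' : j < 4 := by omega
      rcases Nat.lt_or_ge i n1 with h | h
      · exact ⟨hl j hj' i h, hl' j hj' i h⟩
      rcases Nat.lt_or_ge n2 i with h' | h'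
      · exact ⟨hh j hj' i h', hh' j hj' i h'⟩
      obtain ⟨m1, m2⟩ := hmid i (by omega) (by omega)
      have m3 := adj_zero hj4 m1
      have m4 := adj_zero hj4 m2
      rcases hj with rfl | rfl
      · exact ⟨m3.1, m4.1⟩
      · exact ⟨m3.2, m4.2⟩
    obtain ⟨l1, l2, _⟩ := S.lo j0 (by omega) (by omega)
    obtain ⟨u1, u2, _⟩ := S.hi (j0 + 1) hj4 (by omega)
    have x1 : 2 ≤ 2 * (q - 1) - (r + (q + 1) * j0) := by omega
    have x2 : 2 ≤ r + (q + 1) * (j0 + 1) - 2 * (q - 1) := by omega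
    have d1 : (1 + C x * X : K[X]) ^ 2 ∣ A j0 := by
      rw [l1]; exact (pow_dvd_pow _ x1).mul_right _
    have d2 : (1 + C y * X : K[X]) ^ 2 ∣ A' j0 := by
      rw [l2]; exact (pow_dvd_pow _ x1).mul_right _
    have d3 : (1 + C y * X : K[X]) ^ 2 ∣ A (j0 + 1) := by
      rw [u1]; exact (pow_dvd_pow _ x2).mul_right _
    have d4 : (1 + C x * X : K[X]) ^ 2 ∣ A' (j0 + 1) := by
      rw [u2]; exact (pow_dvd_pow _ x2).mul_right _
    have q2 : 2 ≤ q := by omega
    rw [four q2 fun i a b c d => (h4 j0 (Or.inl rfl) i a b c d).1] at d1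
    rw [four q2 fun i a b c d => (h4 j0 (Or.inl rfl) i a b c d).2] at d2
    rw [four q2 fun i a b c d => (h4 (j0 + 1) (Or.inr rfl) i a b c d).1] at d3
    rw [four q2 fun i a b c d => (h4 (j0 + 1) (Or.inr rfl) i a b c d).2] at d4
    have f1 := dbl hx q2 (hfr x) d1
    have f2 := dbl hy q2 (hfr y) d2
    have f3 := dbl hy q2 (hfr y) d3
    have f4 := dbl hx q2 (hfr x) d4
    rw [(S.low_eq hl (show j0 < 4 by omega)).2] at f2
    rw [(S.low_eq hl hj4).2] at f4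
    have hi : n1 + q ≤ 2 * (q - 1) := by omega
    have hE : r + (n1 + q) + 6 + 1 = (q + 1) * (t1 + 1) := by
      rw [mul_add, mul_one]; omega
    have g1 := (S.wx (n1 + q) hi (t1 + 1) 1 (by omega)).2 hE
    have g2 := (S.wy (n1 + q) hi (t1 + 1) 1 (by omega)).2 hE
    rw [pow_one] at g1 g2
    have k1 := adj_root hj4 hz (pow_ne_zero _ hx) g1
    have k2 := adj_root hj4 hz' (pow_ne_zero _ hy) g2
    rw [f1, f3] at k1
    rw [f2, f4] at k2
    have k3 : x ^ q * ((A j0).coeff n1 + y ^ q * (A (j0 + 1)).coeff n1) = 0 := by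
      linear_combination k1
    have k4 : y ^ q * ((A j0).coeff n1 + x ^ q * (A (j0 + 1)).coeff n1) = 0 := by
      linear_combination k2
    have k5 := (mul_eq_zero.1 k3).resolve_left (pow_ne_zero _ hx)
    have k6 := (mul_eq_zero.1 k4).resolve_left (pow_ne_zero _ hy)
    have k7 : (x ^ q - y ^ q) * (A (j0 + 1)).coeff n1 = 0 := by linear_combination k6 - k5
    have k8 := (mul_eq_zero.1 k7).resolve_left (sub_ne_zero.2 hxyq)
    rw [k8, mul_zero, add_zero] at k5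
    apply hp1
    rw [adj hj4 hz, k5, k8]
    simp
  · -- one class
    have ht : t2 = t1 := by omega
    subst ht
    have hn21 : n2 = n1 := by omega
    subst hn21
    have hone : ∀ j < 4, A j ≠ 0 → j = j0 := by
      intro j hj hA
      have := hrange j hj hA
      omega
    have hA0 : A j0 ≠ 0 := by
      obtain ⟨j, hj, hA⟩ := hall
      rw [← hone j hj hA]
      exact hA
    have hform : A j0 = C ((A j0).coeff n2) * X ^ n2 := by
      ext i
      rw [coeff_C_mul, coeff_X_pow]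
      rcases Nat.lt_trichotomy i n2 with h | h | h
      · rw [if_neg (by omega), mul_zero]; exact hl j0 (by omega) i h
      · rw [if_pos h, mul_one, h]
      · rw [if_neg (by omega), mul_zero]; exact hh j0 (by omega) i h
    have ha : (A j0).coeff n2 ≠ 0 := by
      intro h
      rw [h, C_0, zero_mul] at hform
      exact hA0 hform
    obtain ⟨m, c, c', hc, s1, s2, _⟩ := S.split (show j0 < 4 by omega)
    have hc0 : c ≠ 0 := by
      rcases hc with ⟨h, _⟩ | ⟨h, _⟩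
      · rw [h]; exact hx
      · rw [h]; exact hy
    have hm : m = 0 := by
      by_contra hm
      have e := congrArg (fun p => eval (-c⁻¹) p) (hform.symm.trans s1)
      simp only [eval_mul, eval_C, eval_pow, eval_X, eval_add, eval_one] at e
      rw [mul_neg, mul_inv_cancel₀ hc0, add_neg_cancel, zero_pow hm, zero_mul] at e
      rcases mul_eq_zero.1 e with h | h
      · exact ha h
      · exact pow_ne_zero _ (neg_ne_zero.2 (inv_ne_zero hc0)) h
    have hN : r + (q + 1) * j0 = 2 * (q - 1) := by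
      rcases hc with ⟨_, _, h⟩ | ⟨_, _, h⟩ <;> omega
    have hsum : (q + 1) * j0 + (q + 1) * t2 = (q + 1) * 3 := by
      rw [← mul_add]
      congr 1
    have hnq : n2 = q - 1 := by omega
    refine ⟨?_, ?_⟩
    · intro j hj hne
      by_contra hA
      rw [hone j hj hA] at hne
      exact hne hN
    · intro j hj _
      by_cases hA : A j = 0
      · exact ⟨0, by rw [hA]; simp⟩
      · rw [hone j hj hA]
        exact ⟨_, by rw [← hnq]; exact hform⟩

end Crest.Agent.R289.CoreU903
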