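import Crest.Agent.R289.BaseDim2_975
import Crest.Agent.R289.CoreU_903
import Crest.Agent.R289.A1End_740

/-!
Row 289, block A, A.UNIQ: glue of 903's core (`CoreU903.core`) with 975's bridge (`Core q x y`),
and base uniqueness over `ObjDef233.Par`.
-/

set_option autoImplicit false

namespace Crest.Agent.R289.Uniq740

open Polynomial Finset BaseA975 BaseDim2_975 OneVar748

section glue

variable {K : Type*} [Field K]

/-- the common cofactor of `PX N` and `PY N` -/
noncomputable def BQ (s : ℕ) (x y : K) (F : ℕ → ℕ → K) (N : ℕ) : K[X] :=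
  ∑ n ∈ range (s + 1), ∑ k ∈ range (s + 1),
    if n + k = N then C (F n k) * ((1 + C y * X) ^ (min k (s - n)) * (1 + C x * X) ^ (min n (s - k)))
    else 0

theorem PY_eq (s : ℕ) (x y : K) (F : ℕ → ℕ → K) (N : ℕ) :
    PY s x y F N = ∑ n ∈ range (s + 1), ∑ k ∈ range (s + 1),
      if n + k = N then C (F n k) * ((1 + C x * X) ^ n * (1 + C y * X) ^ (s - n)) else 0 := by
  unfold PY PX
  rw [Finset.sum_comm]
  refine Finset.sum_congr rfl fun n _ => Finset.sum_congr rfl fun k _ => ?_
  rw [add_comm k n]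
  rfl

theorem split_lo (s : ℕ) (x y : K) (F : ℕ → ℕ → K) {N : ℕ} (hN : N ≤ s) :
    PX s x y F N = (1 + C x * X) ^ (s - N) * BQ s x y F N ∧
    PY s x y F N = (1 + C y * X) ^ (s - N) * BQ s x y F N := by
  constructor
  · unfold PX BQ
    rw [Finset.mul_sum]
    refine Finset.sum_congr rfl fun n hn => ?_
    rw [Finset.mul_sum]
    refine Finset.sum_congr rfl fun k hk => ?_
    have hn' := Nat.lt_succ_iff.1 (Finset.mem_range.1 hn)
    have hk' := Nat.lt_succ_iff.1 (Finset.mem_range.1 hk)
    split_ifs with h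
    · rw [min_eq_left (show k ≤ s - n by omega), min_eq_left (show n ≤ s - k by omega), bs,
        show s - k = (s - N) + n by omega, pow_add]
      ring
    · rw [mul_zero]
  · rw [PY_eq]
    unfold BQ
    rw [Finset.mul_sum]
    refine Finset.sum_congr rfl fun n hn => ?_
    rw [Finset.mul_sum]
    refine Finset.sum_congr rfl fun k hk => ?_
    have hn' := Nat.lt_succ_iff.1 (Finset.mem_range.1 hn)
    have hk' := Nat.lt_succ_iff.1 (Finset.mem_range.1 hk)
    split_ifs with h
    · rw [min_eq_left (show k ≤ s - n by omega), min_eq_left (show n ≤ s - k by omega),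
        show s - n = (s - N) + k by omega, pow_add]
      ring
    · rw [mul_zero]

theorem split_hi (s : ℕ) (x y : K) (F : ℕ → ℕ → K) {N : ℕ} (hN : s ≤ N) :
    PX s x y F N = (1 + C y * X) ^ (N - s) * BQ s x y F N ∧
    PY s x y F N = (1 + C x * X) ^ (N - s) * BQ s x y F N := by
  constructor
  · unfold PX BQ
    rw [Finset.mul_sum]
    refine Finset.sum_congr rfl fun n hn => ?_
    rw [Finset.mul_sum]
    refine Finset.sum_congr rfl fun k hk => ?_
    have hn' := Nat.lt_succ_iff.1 (Finset.mem_range.1 hn)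
    have hk' := Nat.lt_succ_iff.1 (Finset.mem_range.1 hk)
    split_ifs with h
    · rw [min_eq_right (show s - n ≤ k by omega), min_eq_right (show s - k ≤ n by omega), bs]
      have e : (1 + C y * X : K[X]) ^ k = (1 + C y * X) ^ (N - s) * (1 + C y * X) ^ (s - n) := by
        rw [← pow_add]
        congr 1
        omega
      rw [e]
      ring
    · rw [mul_zero]
  · rw [PY_eq]
    unfold BQ
    rw [Finset.mul_sum]
    refine Finset.sum_congr rfl fun n hn => ?_
    rw [Finset.mul_sum]
    refine Finset.sum_congr rfl fun k hk => ?_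
    have hn' := Nat.lt_succ_iff.1 (Finset.mem_range.1 hn)
    have hk' := Nat.lt_succ_iff.1 (Finset.mem_range.1 hk)
    split_ifs with h
    · rw [min_eq_right (show s - n ≤ k by omega), min_eq_right (show s - k ≤ n by omega)]
      have e : (1 + C x * X : K[X]) ^ n = (1 + C x * X) ^ (N - s) * (1 + C x * X) ^ (s - k) := by
        rw [← pow_add]
        congr 1
        omega
      rw [e]
      ring
    · rw [mul_zero]

theorem natDegree_two_pow (x y : K) (a b : ℕ) :
    ((1 + C y * X : K[X]) ^ a * (1 + C x * X) ^ b).natDegree ≤ a + b := by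
  refine natDegree_mul_le.trans ?_
  have h1 : ((1 + C y * X : K[X]) ^ a).natDegree ≤ a :=
    natDegree_pow_le.trans (by have := natDegree_lin y; nlinarith)
  have h2 : ((1 + C x * X : K[X]) ^ b).natDegree ≤ b :=
    natDegree_pow_le.trans (by have := natDegree_lin x; nlinarith)
  omega

theorem natDegree_BQ_le (s : ℕ) (x y : K) (F : ℕ → ℕ → K) (N D : ℕ)
    (h : ∀ n ≤ s, ∀ k ≤ s, n + k = N → min k (s - n) + min n (s - k) ≤ D) :
    (BQ s x y F N).natDegree ≤ D := by
  unfold BQ
  refine natDegree_sum_le_of_forall_le _ _ fun n hn => ?_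
  refine natDegree_sum_le_of_forall_le _ _ fun k hk => ?_
  split_ifs with h0
  · refine (natDegree_C_mul_le _ _).trans ((natDegree_two_pow x y _ _).trans ?_)
    exact h n (Nat.lt_succ_iff.1 (Finset.mem_range.1 hn)) k
      (Nat.lt_succ_iff.1 (Finset.mem_range.1 hk)) h0
  · simp

theorem BQ_zero {s : ℕ} (x y : K) (F : ℕ → ℕ → K) {N : ℕ} (h : 2 * s < N) :
    BQ s x y F N = 0 := by
  unfold BQ
  refine Finset.sum_eq_zero fun n hn => Finset.sum_eq_zero fun k hk => ?_
  have h1 := Finset.mem_range.1 hn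
  have h2 := Finset.mem_range.1 hk
  rw [if_neg]
  omega

theorem pol_eq_pw (q : ℕ) (P : ℕ → K[X]) (r i : ℕ) :
    CoreU903.pol (fun j => P (r + (q + 1) * j)) i = pw q P r i := by
  unfold CoreU903.pol pw
  refine Finset.sum_congr rfl fun j _ => ?_
  rw [C_mul_X_pow_eq_monomial]

theorem frob_lin [Fintype K] {q : ℕ} (hcard : Fintype.card K = q ^ 2) (hq : 0 < q) (c : K) :
    (1 + C c * X : K[X]) ^ q = 1 + C (c ^ q) * X ^ q := by
  obtain ⟨p, hp⟩ := CharP.exists K
  have hpp : p.Prime := CharP.char_is_prime K p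
  have : Fact p.Prime := ⟨hpp⟩
  obtain ⟨n, -, hn⟩ := FiniteField.card K p
  rw [hcard] at hn
  obtain ⟨m, -, hm⟩ := (Nat.dvd_prime_pow hpp).1 (show q ∣ p ^ (n : ℕ) from
    ⟨q, by rw [← hn, sq]⟩)
  rw [hm, add_pow_char_pow, one_pow, mul_pow, ← C_pow]

theorem core_holds [Fintype K] {q : ℕ} (hcard : Fintype.card K = q ^ 2) (h11 : 11 ≤ q)
    {x y : K} (hx : x ^ q ≠ x) (hy : y ^ q ≠ y) (hxy : x ≠ y) (hxyq : x ^ q ≠ y ^ q) :
    Core q x y := by
  intro F G H hG hH
  have hx0 : x ≠ 0 := by
    rintro rfl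
    exact hx (zero_pow (by omega))
  have hy0 : y ≠ 0 := by
    rintro rfl
    exact hy (zero_pow (by omega))
  have hs : ∀ r, CoreU903.Sys q r x y (fun j => PX (2 * (q - 1)) x y F (r + (q + 1) * j))
      (fun j => PY (2 * (q - 1)) x y F (r + (q + 1) * j))
      (fun j => BQ (2 * (q - 1)) x y F (r + (q + 1) * j)) ∨ q < r := by
    intro r
    rcases Nat.lt_or_ge q r with hr | hr
    · exact Or.inr hr
    refine Or.inl ⟨?_, ?_, ?_, ?_⟩
    · intro j _ hN
      obtain ⟨h1, h2⟩ := split_lo (2 * (q - 1)) x y F hN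
      refine ⟨h1, h2, natDegree_BQ_le _ _ _ _ _ _ ?_⟩
      intro n _ k _ h
      omega
    · intro j _ hN
      obtain ⟨h1, h2⟩ := split_hi (2 * (q - 1)) x y F hN
      refine ⟨h1, h2, fun hne => ?_⟩
      have hle : r + (q + 1) * j ≤ 2 * (2 * (q - 1)) := by
        by_contra hlt
        exact hne (BQ_zero x y F (not_le.1 hlt))
      have := natDegree_BQ_le (2 * (q - 1)) x y F (r + (q + 1) * j)
        (2 * (2 * (q - 1)) - (r + (q + 1) * j)) (by
          intro n _ k _ h
          omega)
      omega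
    · intro i _ t e he
      rw [pol_eq_pw q (PX (2 * (q - 1)) x y F)]
      constructor
      · intro h
        exact win_pos hcard hx hG hr (m := t) (by omega) (by omega)
      · intro h
        exact win_neg hcard hx hG hr (m := t) (by omega) (by omega)
    · intro i _ t e he
      rw [pol_eq_pw q (PY (2 * (q - 1)) x y F)]
      constructor
      · intro h
        exact win_pos hcard hy hH hr (m := t) (by omega) (by omega)
      · intro h
        exact win_neg hcard hy hH hr (m := t) (by omega) (by omega)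
  have hmod : ∀ N, N = N % (q + 1) + (q + 1) * (N / (q + 1)) := fun N =>
    (Nat.mod_add_div N (q + 1)).symm
  have hlt : ∀ N, N % (q + 1) ≤ q := fun N =>
    Nat.lt_succ_iff.1 (Nat.mod_lt N (Nat.succ_pos q))
  have hdiv : ∀ N, N ≤ 2 * (2 * (q - 1)) → N / (q + 1) < 4 := by
    intro N hN
    rw [Nat.div_lt_iff_lt_mul (Nat.succ_pos q)]
    omega
  have hcore : ∀ N, N ≤ 2 * (2 * (q - 1)) →
      (N ≠ 2 * (q - 1) → PX (2 * (q - 1)) x y F N = 0) ∧
      (N = 2 * (q - 1) → ∃ c, PX (2 * (q - 1)) x y F N = C c * X ^ (q - 1)) := by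
    intro N hN
    have S := (hs (N % (q + 1))).resolve_right (by have := hlt N; omega)
    obtain ⟨c1, c2⟩ := CoreU903.core S (by omega) (hlt N) hx0 hy0 hxy hxyq
      (frob_lin hcard (by omega))
    have e := hmod N
    constructor
    · intro hne
      have := c1 (N / (q + 1)) (hdiv N hN) (by rw [← e]; exact hne)
      simp only [← e] at this
      exact this
    · intro heq
      have := c2 (N / (q + 1)) (hdiv N hN) (by rw [← e]; exact heq)
      simp only [← e] at this
      exact this
  constructor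
  · intro N hN
    rcases Nat.lt_or_ge (2 * (2 * (q - 1))) N with h | h
    · exact PX_zero_of_lt x y F h
    · exact (hcore N h).1 hN
  · exact (hcore _ (by omega)).2 rfl

end glue

/-! ### over `Par` -/

open Crest.Agent.R289.ObjDef233 Crest.Agent.R289.TPhom964 Crest.Agent.R289.HeckeTwo622 in
/-- **base uniqueness for the object** -/
theorem uniq_D (D : Par) (h11 : 11 ≤ D.q) : A1End740.Uniq D := by
  intro v hv
  have hx : D.x ^ D.q ≠ D.x := by rw [← D.frob]; exact D.hx
  have hy : D.y ^ D.q ≠ D.y := by rw [← D.frob]; exact D.hy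
  have hxyq : D.x ^ D.q ≠ D.y ^ D.q := by
    rw [← D.frob, ← D.frob]
    exact fun h => D.hxy (D.σ.injective h)
  have e : ∀ (z : D.K) (l : D.K × D.K), W0540.psi D.σ z l = FacB281.psi D.σ z l :=
    fun z l => psi223_eq D.σ z l
  have e1 : (fun l _ => W0540.psi D.σ D.x l : D.K × D.K → D.K × D.K → D.K × D.K) =
      C1 D.σ D.x D.y true false := by
    funext l m
    rw [e]
    rfl
  have e2 : (fun _ m => W0540.psi D.σ D.y m : D.K × D.K → D.K × D.K → D.K × D.K) =
      C2 D.σ D.x D.y false true := by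
    funext l m
    rw [e]
    rfl
  obtain ⟨c, hc⟩ := uniq D.card (by omega) D.hσ D.frob D.hx D.hy D.hxy
    (core_holds D.card h11 hx hy D.hxy hxyq) (v := v) (hv false false)
    (by rw [e1]; exact hv true false) (by rw [e2]; exact hv false true)
  refine ⟨c, ?_⟩
  funext i j
  rw [hc]
  rfl

end Crest.Agent.R289.Uniq740
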