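import Crest.Agent.R289.A1End_14
import Crest.Agent.R289.Rank1_605
import Crest.Agent.R289.Uniq_740

/-!
Row 289, block A, A.ASM, final (helper14): `ContOK D` (field `content` of `Asm12.Obj.OK`) for every
`D : Par` with `11 ≤ D.q`.
-/

set_option autoImplicit false

namespace Crest.Agent.R289.ContOK14

open Crest.Agent.R289.HeckeTwo622 Crest.Agent.R289.TPhom964 Crest.Agent.R289.ObjDef233
open Crest.Agent.R289.A1End14

/-- **theorem A1 for the object** -/
theorem contOK (D : Par) (hq : 11 ≤ D.q) : Obj289233.ContOK D := by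
  intro k c
  refine content_of D (fun φ => ?_) ?_ (fun v hv => ?_) k c
  · refine ⟨Rank1_605.lamF D.σ D.q D.x D.y φ, ?_⟩
    have h := Rank1_605.T0_eq D.card D.frob D.hx D.hy D.hxy D.hxy' φ
    unfold T
    rw [dg_one D]
    exact h
  · have h := Rank1_605.T0_w0 (σ := D.σ) D.card D.frob D.hx D.hy D.hxy D.hxy'
    rw [one_smul] at h
    unfold T
    rw [dg_one D]
    exact h
  · obtain ⟨κ, hκ⟩ := Uniq740.uniq_D D hq v (fun i j => by
      have := hv i j
      rw [dg_one D] at this
      exact this)
    exact ⟨κ, hκ⟩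

end Crest.Agent.R289.ContOK14
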