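import Crest.Agent.R289.UniqD_975
import Crest.Agent.R289.Rank1_605

/-!
Row 289, block A, END (helper975): leaf (5) of `Obj289_233.obj289_of`, i.e. theorem A1 for the
official object: for `D.q ≥ 11` every content extends to exactly one word of `Code (X 1) (Y 1)`,
at every level.  Inputs: rank one of the base Hecke operator (605), base word (540/740), base
uniqueness (903/975), lifting (878/14/622/223/548/964).
-/

set_option autoImplicit false

namespace Crest.Agent.R289.ContOK975

open Crest.Agent.R289.ObjDef233 Crest.Agent.R289.UniqD975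

theorem contOK (D : Par) (h11 : 11 ≤ D.q) : Obj289233.ContOK D := by
  refine A1End740.contOK_of D ?_ ?_ (uniq740 D h11)
  · have h := Rank1_605.T0_w0 D.card D.frob D.hx D.hy D.hxy D.hxy'
    rw [one_smul] at h
    exact h
  · intro φ
    exact ⟨Rank1_605.lamF D.σ D.q D.x D.y φ,
      Rank1_605.T0_eq D.card D.frob D.hx D.hy D.hxy D.hxy' φ⟩

/-- **leaf (5)** -/
theorem hcont : ∀ᶠ q : ℕ in Filter.atTop, ∀ D : Par, D.q = q → Obj289233.ContOK D := by
  filter_upwards [Filter.eventually_ge_atTop 11] with q hq D hD
  exact contOK D (by omega)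

end Crest.Agent.R289.ContOK975
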