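import Mathlib

/-!
# Row 289, leaf C_W (P7 of post 5912): from content expressions to word expressions

`PE` = polynomial expressions over registers, public words, translates `tr g`, sums, products,
scalar multiples and constants.  `ev act R Q e x` = value of `e` at the point `x` of any set with
step maps `act`.  The same `ev` is used for contents (points = addresses) and for words (points =
points of the code).

* `ev_comap`: evaluation is compatible with equivariant maps (content of a word expression =
  content expression; words constant in further factors).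
* `Hom`, `ev_mem`: homogeneous expressions of words are words of the degree of the expression.
* `hz`, `homog`: homogenisation by the unit word `U` (public word `none`, content `1`);
  contents are unchanged.
* `paths`, `ev_congr`, `card_ne_le`: locality, number of changed places.
-/

set_option autoImplicit false

namespace Crest.Agent.R289.ContW880

open Finset

/-- polynomial expressions: registers, public words, translate, sum, product, scalar multiple,
constant -/
inductive PE (Reg Pub G K : Type)
  | reg : Reg → PE Reg Pub G K
  | pub : Pub → PE Reg Pub G K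
  | cst : K → PE Reg Pub G K
  | tr : G → PE Reg Pub G K → PE Reg Pub G K
  | add : PE Reg Pub G K → PE Reg Pub G K → PE Reg Pub G K
  | mul : PE Reg Pub G K → PE Reg Pub G K → PE Reg Pub G K
  | smul : K → PE Reg Pub G K → PE Reg Pub G K

variable {Reg Pub G K : Type}

section ev
variable [CommRing K] {A : Type} [CommRing A] [Algebra K A]

/-- value of an expression at a point -/
def ev {X : Type} (act : G → X → X) (R : Reg → X → A) (Q : Pub → X → A) :
    PE Reg Pub G K → X → A
  | .reg r => R r
  | .pub c => Q c
  | .cst a => fun _ => algebraMap K A a
  | .tr g e => fun x => ev act R Q e (act g x)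
  | .add a b => fun x => ev act R Q a x + ev act R Q b x
  | .mul a b => fun x => ev act R Q a x * ev act R Q b x
  | .smul a e => fun x => a • ev act R Q e x

/-- **evaluation and equivariant maps**: if `φ : X → Y` is equivariant and the registers and
public words of `X` are the pull-backs of those of `Y`, then so is every expression.
`X` = addresses, `Y` = points of the code: content of the word expression = content expression.
`X` = points of a product, `Y` = points of a factor: words constant in the other factor. -/
theorem ev_comap {X Y : Type} (actX : G → X → X) (actY : G → Y → Y) (φ : X → Y)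
    (hφ : ∀ g x, φ (actX g x) = actY g (φ x))
    (RX : Reg → X → A) (RY : Reg → Y → A) (hR : ∀ r x, RX r x = RY r (φ x))
    (QX : Pub → X → A) (QY : Pub → Y → A) (hQ : ∀ c x, QX c x = QY c (φ x))
    (e : PE Reg Pub G K) (x : X) :
    ev actX RX QX e x = ev actY RY QY e (φ x) := by
  induction e generalizing x with
  | reg r => exact hR r x
  | pub c => exact hQ c x
  | cst a => rfl
  | tr g e ih => simp only [ev, ih, hφ]
  | add a b iha ihb => simp only [ev, iha, ihb]
  | mul a b iha ihb => simp only [ev, iha, ihb]
  | smul a e ih => simp only [ev, ih]

/-- pointwise change of the values along a `K`-algebra homomorphism -/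
theorem ev_map {X B : Type} [CommRing B] [Algebra K B] (f : A →ₐ[K] B) (act : G → X → X)
    (R : Reg → X → A) (Q : Pub → X → A) (e : PE Reg Pub G K) (x : X) :
    f (ev act R Q e x) = ev act (fun r x => f (R r x)) (fun c x => f (Q c x)) e x := by
  induction e generalizing x with
  | reg r => rfl
  | pub c => rfl
  | cst a => simp [ev]
  | tr g e ih => simp only [ev, ih]
  | add a b iha ihb => simp only [ev, map_add, iha, ihb]
  | mul a b iha ihb => simp only [ev, map_mul, iha, ihb]
  | smul a e ih => simp only [ev, map_smul, ih]

/-- evaluation commutes with any permutation (or map) of the points commuting with the steps -/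
theorem ev_equivariant {X : Type} (act : G → X → X) (σ : X → X)
    (hσ : ∀ g x, σ (act g x) = act g (σ x)) (R : Reg → X → A) (Q : Pub → X → A)
    (hQ : ∀ c x, Q c (σ x) = Q c x) (e : PE Reg Pub G K) (x : X) :
    ev act (fun r x => R r (σ x)) Q e x = ev act R Q e (σ x) :=
  ev_comap act act σ hσ _ _ (fun _ _ => rfl) _ _ (fun c x => (hQ c x).symm) e x

end ev

/-! ### degrees -/

/-- `Hom dR dP e d`: the expression is homogeneous of degree `d` (no constants: the constant
function is not a code word) -/
inductive Hom (dR : Reg → ℕ) (dP : Pub → ℕ) : PE Reg Pub G K → ℕ → Prop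
  | reg (r : Reg) : Hom dR dP (.reg r) (dR r)
  | pub (c : Pub) : Hom dR dP (.pub c) (dP c)
  | tr (g : G) {e : PE Reg Pub G K} {d : ℕ} : Hom dR dP e d → Hom dR dP (.tr g e) d
  | add {a b : PE Reg Pub G K} {d : ℕ} : Hom dR dP a d → Hom dR dP b d → Hom dR dP (.add a b) d
  | mul {a b : PE Reg Pub G K} {c d : ℕ} : Hom dR dP a c → Hom dR dP b d →
      Hom dR dP (.mul a b) (c + d)
  | smul (k : K) {e : PE Reg Pub G K} {d : ℕ} : Hom dR dP e d → Hom dR dP (.smul k e) d

/-- **homogeneous expressions of words are words of that degree** -/
theorem ev_mem [CommRing K] {A : Type} [CommRing A] [Algebra K A] {X : Type} (act : G → X → X)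
    (C : ℕ → Submodule K (X → A))
    (hmul : ∀ a b f g, f ∈ C a → g ∈ C b → (fun x => f x * g x) ∈ C (a + b))
    (htr : ∀ g a f, f ∈ C a → (fun x => f (act g x)) ∈ C a)
    (dR : Reg → ℕ) (dP : Pub → ℕ) (R : Reg → X → A) (Q : Pub → X → A)
    (hR : ∀ r, R r ∈ C (dR r)) (hQ : ∀ c, Q c ∈ C (dP c))
    {e : PE Reg Pub G K} {d : ℕ} (he : Hom dR dP e d) : ev act R Q e ∈ C d := by
  induction he with
  | reg r => exact hR r
  | pub c => exact hQ c
  | tr g _ ih => exact htr g _ _ ih
  | add _ _ iha ihb => exact (C _).add_mem iha ihb
  | mul _ _ iha ihb => exact hmul _ _ _ _ iha ihb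
  | smul k _ ih => exact (C _).smul_mem k ih

/-- degree of an expression when all registers, public words and constants have degree one -/
def deg : PE Reg Pub G K → ℕ
  | .reg _ => 1
  | .pub _ => 1
  | .cst _ => 1
  | .tr _ e => deg e
  | .add a b => max (deg a) (deg b)
  | .mul a b => deg a + deg b
  | .smul _ e => deg e

/-- multiplication by the `n`-th power of the unit word -/
def padU : ℕ → PE Reg (Option Pub) G K → PE Reg (Option Pub) G K
  | 0, e => e
  | n + 1, e => .mul (.pub none) (padU n e)

/-- homogenisation by the unit word (public word `none`), of degree `deg e` -/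
def hz : PE Reg Pub G K → PE Reg (Option Pub) G K
  | .reg r => .reg r
  | .pub c => .pub (some c)
  | .cst a => .smul a (.pub none)
  | .tr g e => .tr g (hz e)
  | .add a b => .add (padU (max (deg a) (deg b) - deg a) (hz a))
      (padU (max (deg a) (deg b) - deg b) (hz b))
  | .mul a b => .mul (hz a) (hz b)
  | .smul k e => .smul k (hz e)

/-- homogeneous form of degree `n` (for `deg e ≤ n`) -/
def homog (n : ℕ) (e : PE Reg Pub G K) : PE Reg (Option Pub) G K := padU (n - deg e) (hz e)

theorem hom_padU (s : ℕ) (n : ℕ) (e : PE Reg (Option Pub) G K) (d : ℕ)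
    (he : Hom (fun _ => s) (fun _ => s) e (d * s)) :
    Hom (fun _ => s) (fun _ => s) (padU n e) ((n + d) * s) := by
  induction n with
  | zero => simpa [padU] using he
  | succ n ih =>
    have h0 : Hom (fun _ => s) (fun _ => s) (PE.pub none : PE Reg (Option Pub) G K) s :=
      Hom.pub (dP := fun _ => s) none
    have h := Hom.mul h0 ih
    have e1 : (n + 1 + d) * s = s + (n + d) * s := by ring
    rw [e1]
    exact h

/-- all registers and public words have degree `s`: the homogenisation has degree `deg e * s` -/
theorem hom_hz (s : ℕ) (e : PE Reg Pub G K) :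
    Hom (fun _ => s) (fun _ => s) (hz e) (deg e * s) := by
  induction e with
  | reg r =>
    have h : Hom (fun _ => s) (fun _ => s) (PE.reg r : PE Reg (Option Pub) G K) s :=
      Hom.reg (dR := fun _ => s) r
    simpa only [hz, deg, one_mul] using h
  | pub c =>
    have h : Hom (fun _ => s) (fun _ => s) (PE.pub (some c) : PE Reg (Option Pub) G K) s :=
      Hom.pub (dP := fun _ => s) (some c)
    simpa only [hz, deg, one_mul] using h
  | cst a =>
    have h0 : Hom (fun _ => s) (fun _ => s) (PE.pub none : PE Reg (Option Pub) G K) s :=
      Hom.pub (dP := fun _ => s) none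
    have h := Hom.smul a h0
    simpa only [hz, deg, one_mul] using h
  | tr g e ih => exact Hom.tr g ih
  | add a b iha ihb =>
    have h1 := hom_padU s (max (deg a) (deg b) - deg a) (hz a) (deg a) iha
    have h2 := hom_padU s (max (deg a) (deg b) - deg b) (hz b) (deg b) ihb
    rw [Nat.sub_add_cancel (le_max_left _ _)] at h1
    rw [Nat.sub_add_cancel (le_max_right _ _)] at h2
    exact Hom.add h1 h2
  | mul a b iha ihb =>
    have h := Hom.mul iha ihb
    have e1 : deg (PE.mul a b) * s = deg a * s + deg b * s := by
      simp only [deg]; ring
    rw [e1]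
    exact h
  | smul k e ih => exact Hom.smul k ih

theorem hom_homog (s n : ℕ) (e : PE Reg Pub G K) (hn : deg e ≤ n) :
    Hom (fun _ => s) (fun _ => s) (homog n e) (n * s) := by
  have h := hom_padU s (n - deg e) (hz e) (deg e) (hom_hz s e)
  rw [Nat.sub_add_cancel hn] at h
  exact h

section content
variable [CommRing K] {A : Type} [CommRing A] [Algebra K A]

theorem ev_padU {X : Type} (act : G → X → X) (R : Reg → X → A) (Q : Option Pub → X → A)
    (n : ℕ) (e : PE Reg (Option Pub) G K) (x : X) :
    ev act R Q (padU n e) x = Q none x ^ n * ev act R Q e x := by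
  induction n with
  | zero => simp [padU]
  | succ n ih => simp only [padU, ev, ih]; ring

theorem ev_padU_one {X : Type} (act : G → X → X) (R : Reg → X → A) (Q : Option Pub → X → A)
    (h1 : ∀ x, Q none x = 1) (n : ℕ) (e : PE Reg (Option Pub) G K) (x : X) :
    ev act R Q (padU n e) x = ev act R Q e x := by
  rw [ev_padU, h1, one_pow, one_mul]

/-- contents are not changed by the homogenisation -/
theorem ev_hz {X : Type} (act : G → X → X) (R : Reg → X → A) (Q : Option Pub → X → A)
    (h1 : ∀ x, Q none x = 1) (e : PE Reg Pub G K) (x : X) :
    ev act R Q (hz e) x = ev act R (fun c => Q (some c)) e x := by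
  induction e generalizing x with
  | reg r => rfl
  | pub c => rfl
  | cst a => simp [hz, ev, h1, Algebra.smul_def]
  | tr g e ih => simp only [hz, ev, ih]
  | add a b iha ihb => simp only [hz, ev, ev_padU_one act R Q h1, iha, ihb]
  | mul a b iha ihb => simp only [hz, ev, iha, ihb]
  | smul k e ih => simp only [hz, ev, ih]

theorem ev_homog {X : Type} (act : G → X → X) (R : Reg → X → A) (Q : Option Pub → X → A)
    (h1 : ∀ x, Q none x = 1) (n : ℕ) (e : PE Reg Pub G K) (x : X) :
    ev act R Q (homog n e) x = ev act R (fun c => Q (some c)) e x := by
  rw [homog, ev_padU_one act R Q h1, ev_hz act R Q h1]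

/-- **C_W**: let `h0 : P → Om` be equivariant (the orbit carrying the contents), let registers
and public words be words of degree `s` with contents `c`, `q`, and `U` the unit word (content
`1`).  For every content expression `e` of degree `≤ n` the word expression `homog n e` is a word
of degree `n * s` whose content is the value of the content expression. -/
theorem word_of_content {P Om : Type} (actP : G → P → P) (actO : G → Om → Om) (h0 : P → Om)
    (hh : ∀ g a, h0 (actP g a) = actO g (h0 a))
    (C : ℕ → Submodule K (Om → A))
    (hmul : ∀ a b f g, f ∈ C a → g ∈ C b → (fun x => f x * g x) ∈ C (a + b))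
    (htr : ∀ g a f, f ∈ C a → (fun x => f (actO g x)) ∈ C a) (s : ℕ)
    (R : Reg → Om → A) (Q : Pub → Om → A) (U : Om → A)
    (hR : ∀ r, R r ∈ C s) (hQ : ∀ c, Q c ∈ C s) (hU : U ∈ C s)
    (hU1 : ∀ a, U (h0 a) = 1) (n : ℕ) (e : PE Reg Pub G K) (hn : deg e ≤ n) :
    ev actO R (fun c => Option.elim c U Q) (homog n e) ∈ C (n * s) ∧
      ∀ a, ev actO R (fun c => Option.elim c U Q) (homog n e) (h0 a) =
        ev actP (fun r a => R r (h0 a)) (fun c a => Q c (h0 a)) e a := by
  constructor
  · refine ev_mem actO C hmul htr (fun _ => s) (fun _ => s) R _ hR ?_ (hom_homog s n e hn)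
    intro c
    cases c with
    | none => exact hU
    | some c => exact hQ c
  · intro a
    rw [← ev_comap actP actO h0 hh (fun r a => R r (h0 a)) R (fun _ _ => rfl)
      (fun c a => Option.elim c U Q (h0 a)) (fun c => Option.elim c U Q) (fun _ _ => rfl)
      (homog n e) a]
    rw [ev_homog actP _ _ (fun x => hU1 x)]
    rfl

end content

/-! ### locality -/

/-- the translation paths at which registers are read -/
def paths : PE Reg Pub G K → List (List G)
  | .reg _ => [[]]
  | .pub _ => []
  | .cst _ => []
  | .tr g e => (paths e).map (fun p => g :: p)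
  | .add a b => paths a ++ paths b
  | .mul a b => paths a ++ paths b
  | .smul _ e => paths e

/-- the point reached from `x` along a path -/
def run {X : Type} (act : G → X → X) : List G → X → X
  | [], x => x
  | g :: p, x => run act p (act g x)

theorem run_injective {X : Type} (act : G → X → X) (hinj : ∀ g, Function.Injective (act g))
    (p : List G) : Function.Injective (run act p) := by
  induction p with
  | nil => exact fun _ _ h => h
  | cons g p ih => exact fun x y h => hinj g (ih h)

section loc
variable [CommRing K] {A : Type} [CommRing A] [Algebra K A]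

/-- locality: the value depends only on the registers at the points of the paths -/
theorem ev_congr {X : Type} (act : G → X → X) (R R' : Reg → X → A) (Q : Pub → X → A)
    (e : PE Reg Pub G K) (x : X)
    (h : ∀ p ∈ paths e, ∀ r, R r (run act p x) = R' r (run act p x)) :
    ev act R Q e x = ev act R' Q e x := by
  induction e generalizing x with
  | reg r => exact h [] (by simp [paths]) r
  | pub c => rfl
  | cst a => rfl
  | tr g e ih =>
    simp only [ev]
    apply ih
    intro p hp r
    exact h (g :: p) (by simp only [paths, List.mem_map]; exact ⟨p, hp, rfl⟩) r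
  | add a b iha ihb =>
    simp only [ev]
    rw [iha x fun p hp => h p (by simp only [paths, List.mem_append]; exact Or.inl hp),
      ihb x fun p hp => h p (by simp only [paths, List.mem_append]; exact Or.inr hp)]
  | mul a b iha ihb =>
    simp only [ev]
    rw [iha x fun p hp => h p (by simp only [paths, List.mem_append]; exact Or.inl hp),
      ihb x fun p hp => h p (by simp only [paths, List.mem_append]; exact Or.inr hp)]
  | smul k e ih =>
    simp only [ev]
    rw [ih x fun p hp => h p (by simpa only [paths] using hp)]

open Classical in
/-- number of changed values ≤ number of paths times number of places with a changed register -/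
theorem card_ne_le {X : Type} [Fintype X] (act : G → X → X)
    (hinj : ∀ g, Function.Injective (act g)) (R R' : Reg → X → A) (Q : Pub → X → A)
    (e : PE Reg Pub G K) :
    (univ.filter fun x => ev act R Q e x ≠ ev act R' Q e x).card ≤
      (paths e).length * (univ.filter fun x => ∃ r, R r x ≠ R' r x).card := by
  set B : Finset X := univ.filter fun x => ∃ r, R r x ≠ R' r x with hB
  have hsub : (univ.filter fun x => ev act R Q e x ≠ ev act R' Q e x) ⊆
      ((paths e).toFinset.biUnion fun p => univ.filter fun x => run act p x ∈ B) := by
    intro x hx
    rw [mem_filter] at hx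
    by_contra hc
    apply hx.2
    apply ev_congr
    intro p hp r
    by_contra hr
    apply hc
    rw [mem_biUnion]
    refine ⟨p, List.mem_toFinset.2 hp, ?_⟩
    rw [mem_filter]
    refine ⟨mem_univ _, ?_⟩
    rw [hB, mem_filter]
    exact ⟨mem_univ _, r, hr⟩
  refine (card_le_card hsub).trans (card_biUnion_le.trans ?_)
  have hle : ∀ p ∈ (paths e).toFinset, (univ.filter fun x => run act p x ∈ B).card ≤ B.card := by
    intro p _
    apply card_le_card_of_injOn (run act p)
    · intro x hx
      simp only [coe_filter, mem_univ, true_and, Set.mem_ofPred_eq] at hx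
      exact hx
    · exact fun x _ y _ hxy => run_injective act hinj p hxy
  calc ∑ p ∈ (paths e).toFinset, (univ.filter fun x => run act p x ∈ B).card
      ≤ ∑ _p ∈ (paths e).toFinset, B.card := sum_le_sum hle
    _ = (paths e).toFinset.card * B.card := by rw [sum_const, smul_eq_mul]
    _ ≤ (paths e).length * B.card :=
        Nat.mul_le_mul_right _ (List.toFinset_card_le _)

end loc

end Crest.Agent.R289.ContW880
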