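import Crest.Agent.R289.Uniq_740
import Crest.Agent.R289.Rank1_605

/-!
Row 289, block A closed: the field `content` of the object (`Obj289233.ContOK`) for `11 ≤ q`.
-/

set_option autoImplicit false

namespace Crest.Agent.R289.Cont740

open Crest.Agent.R289.ObjDef233 Crest.Agent.R289.A1End740

theorem w0t_eq (D : Par) : w0t D = W0540.w0t (D.q - 1) D.x D.y := rfl

theorem Tb_eq (D : Par) (φ : Option D.K → Option D.K → D.K) :
    Tb D φ = Rank1_605.lamF D.σ D.q D.x D.y φ • w0t D :=
  Rank1_605.T0_eq D.card D.frob D.hx D.hy D.hxy D.hxy' φ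

theorem Tb_w0t (D : Par) : Tb D (w0t D) = w0t D := by
  have h := Rank1_605.T0_w0 D.card D.frob D.hx D.hy D.hxy D.hxy'
  rw [one_smul] at h
  exact h

/-- **theorem A1** (leaf (5) of `Obj289_233`) -/
theorem contOK (D : Par) (h11 : 11 ≤ D.q) : Obj289233.ContOK D :=
  contOK_of D (Tb_w0t D) (fun φ => ⟨_, Tb_eq D φ⟩) (Uniq740.uniq_D D h11)

open Filter in
theorem ev_contOK : ∀ᶠ q : ℕ in atTop, ∀ D : Par, D.q = q → Obj289233.ContOK D := by
  filter_upwards [eventually_ge_atTop 11] with q hq D hD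
  exact contOK D (by omega)

end Crest.Agent.R289.Cont740
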