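import Crest.Agent.R289.Content_578

/-!
Row 289, block C2 (content level), part 2: straight line programs laid out along a walk.

A program writes at time `s < L` at most one cell `(address (vis s), lane)`; the value is a local
expression (`op κ`) in the lanes and the input register (`none`).
* `run x t` = the cells after `t` steps; `pre_iff`, `full_iff`, `empty` = local relations;
* `run_up`, `run_dn` = the local rules of one step.
-/

set_option autoImplicit false

namespace Crest.Agent.R289.Content578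

open Finset

/-- a program over the cells `G × Lane` along a walk -/
structure Prg (G J A Lane Kd K : Type) [Group G] [Field K] (w : Walk G J A) where
  ins : ℕ → Option (Lane × Kd)
  op : Kd → LE (Option Lane) G Empty K
  /-- every cell is written at most once -/
  once : ∀ s, s < w.L → ∀ t, t < w.L → ∀ l κ κ', ins s = some (l, κ) → ins t = some (l, κ') →
    (w.vis s).1 = (w.vis t).1 → s = t
  /-- the cells read at time `s` are not written at a time `≥ s` -/
  dep : ∀ s, s < w.L → ∀ l κ, ins s = some (l, κ) →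
    (op κ).All fun r γ => ∀ l', r = some l' → ∀ t, s ≤ t → t < w.L → ∀ κ',
      ins t = some (l', κ') → (w.vis t).1 ≠ γ * (w.vis s).1

namespace Prg

variable {G J A Lane Kd K : Type} [Group G] [Field K] {w : Walk G J A}
  (p : Prg G J A Lane Kd K w)

/-- the registers read by the operations -/
def regs (x : G → K) (s : Lane → G → K) : Option Lane → G → K
  | none => x
  | some l => s l

/-- value of an operation -/
def val (x : G → K) (s : Lane → G → K) (κ : Kd) (g : G) : K :=
  (p.op κ).eval (regs x s) (fun q => q.elim) g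

/-- mask: at `(g, j)` the instruction `κ` writes lane `l` -/
noncomputable def mW (j : J) (l : Lane) (κ : Kd) (g : G) : K :=
  ind K (∃ s, s < w.L ∧ w.vis s = (g, j) ∧ p.ins s = some (l, κ))

open Classical in
/-- the cells after `t` steps -/
noncomputable def run (x : G → K) : ℕ → Lane → G → K
  | 0 => fun _ _ => 0
  | t + 1 => fun l g =>
    if h : (w.vis t).1 = g ∧ ∃ κ, p.ins t = some (l, κ) then
      p.val x (run x t) h.2.choose g
    else run x t l g

theorem run_succ_of {x : G → K} {t : ℕ} {l : Lane} {κ : Kd} (h : p.ins t = some (l, κ)) :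
    p.run x (t + 1) l (w.vis t).1 = p.val x (p.run x t) κ (w.vis t).1 := by
  have h' : (w.vis t).1 = (w.vis t).1 ∧ ∃ κ, p.ins t = some (l, κ) := ⟨rfl, κ, h⟩
  have e : h'.2.choose = κ := by
    have h2 := h.symm.trans h'.2.choose_spec
    simpa using h2.symm
  have e2 : p.run x (t + 1) l (w.vis t).1 = p.val x (p.run x t) h'.2.choose (w.vis t).1 := by
    exact dif_pos h'
  rw [e2, e]

theorem run_succ_ne {x : G → K} {t : ℕ} {l : Lane} {g : G}
    (h : ¬ ((w.vis t).1 = g ∧ ∃ κ, p.ins t = some (l, κ))) :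
    p.run x (t + 1) l g = p.run x t l g := by
  exact dif_neg h

/-- cells not written yet are `0` -/
theorem run_eq_zero {x : G → K} {t : ℕ} {l : Lane} {g : G}
    (h : ¬ ∃ s, s < t ∧ (w.vis s).1 = g ∧ ∃ κ, p.ins s = some (l, κ)) : p.run x t l g = 0 := by
  induction t with
  | zero => rfl
  | succ t ih =>
    rw [p.run_succ_ne, ih]
    · rintro ⟨s, hs, h'⟩; exact h ⟨s, by omega, h'⟩
    · intro h'; exact h ⟨t, by omega, h'⟩

/-- the values of the operations do not change later -/
theorem val_congr {x : G → K} {f f' : Lane → G → K} {s : ℕ} (hs : s < w.L) {l : Lane} {κ : Kd}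
    (h : p.ins s = some (l, κ))
    (hf : ∀ l' g, (∀ t, s ≤ t → t < w.L → ∀ κ', p.ins t = some (l', κ') → (w.vis t).1 ≠ g) →
      f l' g = f' l' g) :
    p.val x f κ (w.vis s).1 = p.val x f' κ (w.vis s).1 := by
  unfold val
  refine LE.eval_congr _ _ _ _ _ (LE.All.imp ?_ (p.dep s hs l κ h))
  intro r γ hr
  cases r with
  | none => rfl
  | some l' => exact hf l' _ fun t h1 h2 κ' h3 => hr l' rfl t h1 h2 κ' h3

/-- cells written before `t` satisfy their relation at time `t` -/
theorem run_of_lt {x : G → K} {t s : ℕ} (hst : s < t) (ht : t ≤ w.L) {l : Lane} {κ : Kd}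
    (h : p.ins s = some (l, κ)) :
    p.run x t l (w.vis s).1 = p.val x (p.run x t) κ (w.vis s).1 := by
  induction t with
  | zero => omega
  | succ t ih =>
    have hch : p.val x (p.run x (t + 1)) κ (w.vis s).1 = p.val x (p.run x t) κ (w.vis s).1 := by
      refine p.val_congr (by omega) h fun l' g hg => p.run_succ_ne ?_
      rintro ⟨h1, κ', h2⟩
      exact hg t (by omega) (by omega) κ' h2 h1
    rcases Nat.lt_or_ge s t with h1 | h1
    · rw [p.run_succ_ne, ih h1 (by omega), hch]
      rintro ⟨h2, κ', h3⟩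
      have := p.once s (by omega) t (by omega) l κ κ' h h3 h2.symm
      omega
    · have : s = t := by omega
      subst this
      rw [p.run_succ_of h, hch]

/-- uniqueness -/
theorem eq_run {x : G → K} {t : ℕ} (ht : t ≤ w.L) (f : Lane → G → K)
    (h1 : ∀ s, s < t → ∀ l κ, p.ins s = some (l, κ) →
      f l (w.vis s).1 = p.val x f κ (w.vis s).1)
    (h2 : ∀ l g, (¬ ∃ s, s < t ∧ (w.vis s).1 = g ∧ ∃ κ, p.ins s = some (l, κ)) → f l g = 0) :
    f = p.run x t := by
  have key : ∀ s, s < t → ∀ l κ, p.ins s = some (l, κ) →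
      f l (w.vis s).1 = p.run x t l (w.vis s).1 := by
    intro s
    induction s using Nat.strong_induction_on with
    | _ s ih =>
      intro hs l κ h
      rw [h1 s hs l κ h, p.run_of_lt hs ht h]
      refine p.val_congr (by omega) h fun l' g hg => ?_
      by_cases hw : ∃ s', s' < t ∧ (w.vis s').1 = g ∧ ∃ κ, p.ins s' = some (l', κ)
      · obtain ⟨s', hs', rfl, κ', h'⟩ := hw
        refine ih s' ?_ hs' l' κ' h'
        by_contra hc
        exact hg s' (by omega) (by omega) κ' h' rfl
      · rw [h2 _ _ hw, p.run_eq_zero hw]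
  funext l g
  by_cases hw : ∃ s', s' < t ∧ (w.vis s').1 = g ∧ ∃ κ, p.ins s' = some (l, κ)
  · obtain ⟨s', hs', rfl, κ', h'⟩ := hw
    exact key s' hs' l κ' h'
  · rw [h2 _ _ hw, p.run_eq_zero hw]

variable [Fintype J] [Fintype Kd]

/-- the sums over the masks have at most one term -/
theorem sum_mW {s : ℕ} (hs : s < w.L) {l : Lane} {κ : Kd} (h : p.ins s = some (l, κ))
    (f : J → Kd → K) :
    (∑ j, ∑ κ', p.mW j l κ' (w.vis s).1 * f j κ') = f (w.vis s).2 κ := by
  classical
  have hz : ∀ j κ', ¬ (j = (w.vis s).2 ∧ κ' = κ) → p.mW j l κ' (w.vis s).1 = 0 := by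
    intro j κ' hne
    refine ind_false ?_
    rintro ⟨s', hs', h1, h2⟩
    have e : s' = s := p.once s' hs' s hs l κ' κ h2 h (by rw [h1])
    subst e
    refine hne ⟨by rw [h1], ?_⟩
    rw [h] at h2
    simpa using h2.symm
  rw [Finset.sum_eq_single (w.vis s).2]
  · rw [Finset.sum_eq_single κ]
    · rw [mW, ind_true ⟨s, hs, rfl, h⟩, one_mul]
    · intro κ' _ hκ; rw [hz _ _ fun h' => hκ h'.2, zero_mul]
    · intro h; exact absurd (Finset.mem_univ _) h
  · intro j _ hj
    exact Finset.sum_eq_zero fun κ' _ => by rw [hz _ _ fun h' => hj h'.1, zero_mul]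
  · intro h; exact absurd (Finset.mem_univ _) h

theorem sum_mW_zero {l : Lane} {g : G}
    (h : ¬ ∃ s, s < w.L ∧ (w.vis s).1 = g ∧ ∃ κ, p.ins s = some (l, κ)) (f : J → Kd → K) :
    (∑ j, ∑ κ', p.mW j l κ' g * f j κ') = 0 := by
  refine Finset.sum_eq_zero fun j _ => Finset.sum_eq_zero fun κ' _ => ?_
  rw [mW, ind_false, zero_mul]
  rintro ⟨s, hs, h1, h2⟩
  exact h ⟨s, hs, by rw [h1], κ', h2⟩

/-- local relation of a partial transcript -/
theorem pre_iff {x : G → K} {t : ℕ} (ht : t ≤ w.L) (f : Lane → G → K) :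
    (∀ l g, f l g = ∑ j, ∑ κ, p.mW j l κ g * (w.Mt K t j g * p.val x f κ g))
      ↔ f = p.run x t := by
  constructor
  · intro h
    refine p.eq_run ht f ?_ ?_
    · intro s hs l κ hi
      rw [h l, p.sum_mW (by omega) hi, Walk.Mt_vis (by omega) ht, ind_true hs, one_mul]
    · intro l g hne
      rw [h l g]
      by_cases hw : ∃ s, s < w.L ∧ (w.vis s).1 = g ∧ ∃ κ, p.ins s = some (l, κ)
      · obtain ⟨s, hs, rfl, κ, hi⟩ := hw
        rw [p.sum_mW hs hi, Walk.Mt_vis hs.le ht, ind_false, zero_mul]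
        exact fun hst => hne ⟨s, hst, rfl, κ, hi⟩
      · exact p.sum_mW_zero hw _
  · rintro rfl l g
    by_cases hw : ∃ s, s < w.L ∧ (w.vis s).1 = g ∧ ∃ κ, p.ins s = some (l, κ)
    · obtain ⟨s, hs, rfl, κ, hi⟩ := hw
      rw [p.sum_mW hs hi, Walk.Mt_vis hs.le ht]
      by_cases hst : s < t
      · rw [ind_true hst, one_mul]
        exact p.run_of_lt hst ht hi
      · rw [ind_false hst, zero_mul]
        refine p.run_eq_zero ?_
        rintro ⟨s', hs', h1, κ', h2⟩
        have := p.once s' (by omega) s hs l κ' κ h2 hi h1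
        omega
    · rw [p.sum_mW_zero hw]
      exact p.run_eq_zero fun ⟨s, hs, h'⟩ => hw ⟨s, by omega, h'⟩

/-- local relation of the full transcript -/
theorem full_iff {x : G → K} (f : Lane → G → K) :
    (∀ l g, f l g = ∑ j, ∑ κ, p.mW j l κ g * p.val x f κ g) ↔ f = p.run x w.L := by
  rw [← p.pre_iff le_rfl f]
  refine forall_congr' fun l => forall_congr' fun g => ?_
  have : (∑ j, ∑ κ, p.mW j l κ g * p.val x f κ g)
      = ∑ j, ∑ κ, p.mW j l κ g * (w.Mt K w.L j g * p.val x f κ g) := by
    refine Finset.sum_congr rfl fun j _ => Finset.sum_congr rfl fun κ _ => ?_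
    by_cases h : ∃ s, s < w.L ∧ w.vis s = (g, j) ∧ p.ins s = some (l, κ)
    · obtain ⟨s, hs, h1, h2⟩ := h
      rw [Walk.Mt, ind_true ⟨s, hs, h1⟩, one_mul]
    · rw [mW, ind_false h, zero_mul, zero_mul]
  rw [this]

/-- one step forward -/
theorem run_up {x : G → K} {t : ℕ} (ht : t < w.L) (l : Lane) (g : G) :
    p.run x (t + 1) l g = p.run x t l g
      + ∑ j, ∑ κ, p.mW j l κ g * (w.Dt K t j g * p.val x (p.run x t) κ g) := by
  by_cases hw : ∃ s, s < w.L ∧ (w.vis s).1 = g ∧ ∃ κ, p.ins s = some (l, κ)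
  · obtain ⟨s, hs, rfl, κ, hi⟩ := hw
    rw [p.sum_mW hs hi, Walk.Dt_vis hs.le ht.le]
    by_cases hst : s = t
    · subst hst
      rw [ind_true rfl, one_mul, p.run_succ_of hi, p.run_eq_zero, zero_add]
      rintro ⟨s', hs', h1, κ', h2⟩
      have := p.once s' (by omega) s hs l κ' κ h2 hi h1
      omega
    · rw [ind_false hst, zero_mul, add_zero]
      refine p.run_succ_ne ?_
      rintro ⟨h1, κ', h2⟩
      exact hst (p.once s hs t ht l κ κ' hi h2 h1.symm)
  · rw [p.sum_mW_zero hw, add_zero]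
    exact p.run_succ_ne fun ⟨h1, h2⟩ => hw ⟨t, ht, h1, h2⟩

/-- one step backward: the cell under the new pointer is erased -/
theorem run_dn {x : G → K} {t : ℕ} (ht : t < w.L) (l : Lane) (g : G) :
    p.run x t l g = p.run x (t + 1) l g
      * (1 - ∑ j, ∑ κ, p.mW j l κ g * w.Dt K t j g) := by
  by_cases hw : ∃ s, s < w.L ∧ (w.vis s).1 = g ∧ ∃ κ, p.ins s = some (l, κ)
  · obtain ⟨s, hs, rfl, κ, hi⟩ := hw
    rw [p.sum_mW hs hi, Walk.Dt_vis hs.le ht.le]
    by_cases hst : s = t
    · subst hst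
      rw [ind_true rfl, sub_self, mul_zero]
      refine p.run_eq_zero ?_
      rintro ⟨s', hs', h1, κ', h2⟩
      have := p.once s' (by omega) s hs l κ' κ h2 hi h1
      omega
    · rw [ind_false hst, sub_zero, mul_one]
      refine (p.run_succ_ne ?_).symm
      rintro ⟨h1, κ', h2⟩
      exact hst (p.once s hs t ht l κ κ' hi h2 h1.symm)
  · rw [p.sum_mW_zero hw, sub_zero, mul_one]
    exact (p.run_succ_ne fun ⟨h1, h2⟩ => hw ⟨t, ht, h1, h2⟩).symm

end Prg

end Crest.Agent.R289.Content578
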