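import Crest.Agent.R289.ContentB_578

/-!
Row 289, block C2 (content level), part 3: the content machine of post 5496.

Registers `x, y` (names), `s l, p l` (transcripts of `S`, `P`), `d j, m j` (pointer), 8 stages.
* `rel σ r` : the local relations of stage `σ`; `legal_iff`: they hold iff the registers are the
  content `cont σ t v` of a (unique) time `t ≤ L` and name `v`;
* `up σ r`, `dn σ r` : local rules; `up_eval`, `dn_eval`: they move the pointer by `+1`, `-1`.
-/

set_option autoImplicit false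

namespace Crest.Agent.R289.Content578

open Finset

/-- the registers -/
inductive Reg (J Lane : Type) : Type where
  | x | y
  | s (l : Lane)
  | p (l : Lane)
  | d (j : J)
  | m (j : J)

/-- the masks -/
inductive Msk (J A Lane Kd : Type) : Type where
  | inp
  | vis (j : J)
  | first (j : J)
  | last (j : J)
  | e (j : J) (a : A) (j' : J)
  | ws (j : J) (l : Lane) (κ : Kd)
  | wp (j : J) (l : Lane) (κ : Kd)
  | c (j : J)

/-- the relations -/
inductive RIx (J A Lane : Type) : Type where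
  | dd (j : J) | mm (j : J) | dm (j : J) | vd (j : J) | vm (j : J)
  | first (j : J) | last (j : J) | edge (j : J) (a : A) (j' : J)
  | x | xb | y | yb
  | s (l : Lane)
  | p (l : Lane)

/-- the stages -/
inductive Stage : Type where
  | s0 | s1 | s2 | s3 | s4 | s5 | s6 | s7
  deriving DecidableEq, Fintype

namespace Stage

/-- direction of the pointer -/
def dir : Stage → Bool
  | s0 => true | s1 => false | s2 => true | s3 => false
  | s4 => true | s5 => false | s6 => true | s7 => false

/-- the next stage -/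
def next : Stage → Stage
  | s0 => s1 | s1 => s2 | s2 => s3 | s3 => s4 | s4 => s5 | s5 => s6 | s6 => s7 | s7 => s0

/-- the previous stage -/
def prev : Stage → Stage
  | s0 => s7 | s1 => s0 | s2 => s1 | s3 => s2 | s4 => s3 | s5 => s4 | s6 => s5 | s7 => s6

@[simp] theorem prev_next (s : Stage) : s.next.prev = s := by cases s <;> rfl
@[simp] theorem next_prev (s : Stage) : s.prev.next = s := by cases s <;> rfl
theorem dir_next (s : Stage) : s.next.dir = !s.dir := by cases s <;> rfl
theorem dir_prev (s : Stage) : s.prev.dir = !s.dir := by cases s <;> rfl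

end Stage

/-- content of a name register -/
noncomputable def emb {G : Type} {n : ℕ} (K : Type) [Field K] (a : Fin n → G) (v : Fin n → Bool)
    (g : G) : K := ind K (∃ i, a i = g ∧ v i = true)

/-- the data of the content machine -/
structure CData (G J A Lane Kd K : Type) (n : ℕ) [Group G] [Field K] where
  w : Walk G J A
  pS : Prg G J A Lane Kd K w
  pP : Prg G J A Lane Kd K w
  a : Fin n → G
  a_inj : Function.Injective a
  /-- time of the marked visit of `a i` -/
  c : Fin n → ℕ
  c_lt : ∀ i, c i < w.L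
  c_vis : ∀ i, (w.vis (c i)).1 = a i
  oS : Lane
  oP : Lane
  fS : (Fin n → Bool) → Fin n → Bool
  fP : (Fin n → Bool) → Fin n → Bool
  hS : ∀ v i, pS.run (emb K a v) w.L oS (a i) = ind K (fS v i = true)
  hP : ∀ v i, pP.run (emb K a v) w.L oP (a i) = ind K (fP v i = true)

namespace CData

variable {G J A Lane Kd K : Type} {n : ℕ} [Group G] [Field K]
  (M : CData G J A Lane Kd K n)

/-- values of the masks -/
noncomputable def msk : Msk J A Lane Kd → G → K
  | .inp, g => ind K (∃ i, M.a i = g)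
  | .vis j, g => M.w.mVis K j g
  | .first j, g => M.w.mFirst K j g
  | .last j, g => M.w.mLast K j g
  | .e j a j', g => M.w.mE K j a j' g
  | .ws j l κ, g => M.pS.mW j l κ g
  | .wp j l κ, g => M.pP.mW j l κ g
  | .c j, g => ind K (∃ i, M.w.vis (M.c i) = (g, j))

theorem msk_inp (g : G) : M.msk .inp g = ind K (∃ i, M.a i = g) := rfl
theorem msk_c (j : J) (g : G) : M.msk (.c j) g = ind K (∃ i, M.w.vis (M.c i) = (g, j)) := rfl

/-- `m` at time `t` -/
noncomputable def mt (t : ℕ) (g : G) : K := ind K (∃ i, M.a i = g ∧ M.c i < t)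
/-- the marked visit at time `t` -/
noncomputable def δt (t : ℕ) (g : G) : K := ind K (∃ i, M.a i = g ∧ M.c i = t)
/-- content of a name -/
noncomputable def em (v : Fin n → Bool) (g : G) : K := emb K M.a v g

theorem em_a (v : Fin n → Bool) (i : Fin n) : M.em v (M.a i) = ind K (v i = true) := by
  unfold em emb
  refine ind_congr ⟨?_, fun h => ⟨i, rfl, h⟩⟩
  rintro ⟨i', h, h'⟩
  rwa [M.a_inj h] at h'

theorem em_ne {v : Fin n → Bool} {g : G} (h : ¬ ∃ i, M.a i = g) : M.em v g = 0 :=
  ind_false fun ⟨i, h1, _⟩ => h ⟨i, h1⟩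

theorem inp_em (v : Fin n → Bool) (g : G) : M.msk .inp g * M.em v g = M.em v g := by
  rw [msk_inp]
  by_cases h : ∃ i, M.a i = g
  · rw [ind_true h, one_mul]
  · rw [ind_false h, zero_mul, M.em_ne h]

theorem em_sq (v : Fin n → Bool) (g : G) : M.em v g * M.em v g = M.em v g := ind_mul_self _

theorem inp_S (v : Fin n → Bool) (g : G) :
    M.msk .inp g * M.pS.run (M.em v) M.w.L M.oS g = M.em (M.fS v) g := by
  rw [msk_inp]
  by_cases h : ∃ i, M.a i = g
  · obtain ⟨i, rfl⟩ := h
    rw [ind_true ⟨i, rfl⟩, one_mul, M.em_a]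
    exact M.hS v i
  · rw [ind_false h, zero_mul, M.em_ne h]

theorem inp_P (v : Fin n → Bool) (g : G) :
    M.msk .inp g * M.pP.run (M.em v) M.w.L M.oP g = M.em (M.fP v) g := by
  rw [msk_inp]
  by_cases h : ∃ i, M.a i = g
  · obtain ⟨i, rfl⟩ := h
    rw [ind_true ⟨i, rfl⟩, one_mul, M.em_a]
    exact M.hP v i
  · rw [ind_false h, zero_mul, M.em_ne h]

theorem em_inj {v v' : Fin n → Bool} (h : M.em v = M.em v') : v = v' := by
  funext i
  have h1 := M.em_a v i
  rw [h, M.em_a v' i] at h1
  cases hv : v i <;> cases hv' : v' i <;> rw [hv, hv'] at h1 <;>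
    simp [ind] at h1 ⊢

/-- free names -/
theorem name_iff (f : G → K) :
    ((∀ g, M.msk .inp g * f g - f g = 0) ∧ (∀ g, f g * f g - f g = 0)) ↔ ∃ v, f = M.em v := by
  classical
  constructor
  · rintro ⟨h1, h2⟩
    refine ⟨fun i => decide (f (M.a i) = 1), ?_⟩
    funext g
    by_cases h : ∃ i, M.a i = g
    · obtain ⟨i, rfl⟩ := h
      rw [M.em_a]
      have h3 : f (M.a i) = 0 ∨ f (M.a i) = 1 :=
        bool_of_mul_self (by linear_combination h2 (M.a i))
      rcases h3 with h3 | h3
      · rw [h3, ind_false]; simp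
      · rw [h3, ind_true]; simp
    · rw [M.em_ne h]
      have := h1 g
      rw [msk_inp] at this
      rw [ind_false h] at this
      linear_combination -this
  · rintro ⟨v, rfl⟩
    exact ⟨fun g => by rw [M.inp_em, sub_self], fun g => by rw [M.em_sq, sub_self]⟩

theorem mt_zero (g : G) : M.mt 0 g = 0 := ind_false fun ⟨_, _, h⟩ => by omega

theorem mt_L (g : G) : M.mt M.w.L g = M.msk .inp g := by
  rw [msk_inp, mt]
  exact ind_congr ⟨fun ⟨i, h, _⟩ => ⟨i, h⟩, fun ⟨i, h⟩ => ⟨i, h, M.c_lt i⟩⟩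

theorem mt_mul_δ (t : ℕ) (g : G) : M.mt t g * M.δt t g = 0 := by
  unfold mt δt
  rw [ind_mul]
  refine ind_false ?_
  rintro ⟨⟨i, h1, h2⟩, ⟨i', h3, h4⟩⟩
  have : i = i' := M.a_inj (h1.trans h3.symm)
  subst this
  omega

theorem δ_sq (t : ℕ) (g : G) : M.δt t g * M.δt t g = M.δt t g := ind_mul_self _

theorem mt_up (t : ℕ) (g : G) : M.mt (t + 1) g = M.mt t g + M.δt t g := by
  by_cases h : ∃ i, M.a i = g
  · obtain ⟨i, rfl⟩ := h
    have e1 : ∀ p : ℕ → Prop, (∃ i', M.a i' = M.a i ∧ p (M.c i')) ↔ p (M.c i) := fun p =>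
      ⟨fun ⟨i', h, h'⟩ => by rwa [M.a_inj h] at h', fun h => ⟨i, rfl, h⟩⟩
    unfold mt δt
    rw [ind_congr (e1 fun c => c < t + 1), ind_congr (e1 fun c => c < t),
      ind_congr (e1 fun c => c = t)]
    rcases lt_trichotomy (M.c i) t with h | h | h
    · rw [ind_true (by omega), ind_true h, ind_false (by omega), add_zero]
    · rw [ind_true (by omega), ind_false (by omega), ind_true h, zero_add]
    · rw [ind_false (by omega), ind_false (by omega), ind_false (by omega), add_zero]
  · unfold mt δt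
    rw [ind_false fun ⟨i, h1, _⟩ => h ⟨i, h1⟩, ind_false fun ⟨i, h1, _⟩ => h ⟨i, h1⟩,
      ind_false fun ⟨i, h1, _⟩ => h ⟨i, h1⟩, add_zero]

theorem δ_inp (t : ℕ) (g : G) (f : K) : M.δt t g * (M.msk .inp g * f) = M.δt t g * f := by
  rw [msk_inp, δt]
  by_cases h : ∃ i, M.a i = g
  · rw [ind_true h, one_mul]
  · rw [ind_false (fun ⟨i, h1, _⟩ => h ⟨i, h1⟩ : ¬ ∃ i, M.a i = g ∧ M.c i = t), zero_mul,
      zero_mul]

section sums
variable [Fintype J]

theorem sum_c (i : Fin n) (f : J → K) :
    (∑ j, M.msk (.c j) (M.a i) * f j) = f (M.w.vis (M.c i)).2 := by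
  classical
  rw [Finset.sum_eq_single (M.w.vis (M.c i)).2]
  · rw [msk_c]
    rw [ind_true ⟨i, Prod.ext (M.c_vis i) rfl⟩, one_mul]
  · intro j _ hj
    rw [msk_c]
    rw [ind_false, zero_mul]
    rintro ⟨i', h⟩
    have h1 : M.a i' = M.a i := by rw [← M.c_vis i', h]
    have h2 := M.a_inj h1
    subst h2
    exact hj (by rw [h])
  · intro h; exact absurd (Finset.mem_univ _) h

theorem sum_c_zero {g : G} (h : ¬ ∃ i, M.a i = g) (f : J → K) :
    (∑ j, M.msk (.c j) g * f j) = 0 := by
  refine Finset.sum_eq_zero fun j _ => ?_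
  rw [msk_c]
  rw [ind_false, zero_mul]
  rintro ⟨i, h'⟩
  exact h ⟨i, by rw [← M.c_vis i, h']⟩

theorem sum_M {t : ℕ} (ht : t ≤ M.w.L) (g : G) :
    (∑ j, M.msk (.c j) g * M.w.Mt K t j g) = M.mt t g := by
  by_cases h : ∃ i, M.a i = g
  · obtain ⟨i, rfl⟩ := h
    rw [M.sum_c i]
    have := Walk.Mt_vis (K := K) (w := M.w) (M.c_lt i).le ht
    rw [M.c_vis i] at this
    rw [this]
    unfold mt
    exact ind_congr ⟨fun h => ⟨i, rfl, h⟩, fun ⟨i', h, h'⟩ => by rwa [M.a_inj h] at h'⟩
  · rw [M.sum_c_zero h]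
    exact (ind_false fun ⟨i, h1, _⟩ => h ⟨i, h1⟩).symm

theorem sum_D {t : ℕ} (ht : t ≤ M.w.L) (g : G) :
    (∑ j, M.msk (.c j) g * M.w.Dt K t j g) = M.δt t g := by
  by_cases h : ∃ i, M.a i = g
  · obtain ⟨i, rfl⟩ := h
    rw [M.sum_c i]
    have := Walk.Dt_vis (K := K) (w := M.w) (M.c_lt i).le ht
    rw [M.c_vis i] at this
    rw [this]
    unfold δt
    exact ind_congr ⟨fun h => ⟨i, rfl, h⟩, fun ⟨i', h, h'⟩ => by rwa [M.a_inj h] at h'⟩
  · rw [M.sum_c_zero h]
    exact (ind_false fun ⟨i, h1, _⟩ => h ⟨i, h1⟩).symm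

end sums

/-! ### contents -/

/-- content of `x` -/
noncomputable def cx (t : ℕ) (v : Fin n → Bool) : Stage → G → K
  | .s0 => M.em v
  | .s1 => M.em v
  | .s2 => M.em v
  | .s3 => M.em (M.fP v)
  | .s4 => fun g => (1 - M.mt t g) * M.em (M.fP v) g
  | .s5 => fun _ => 0
  | .s6 => fun g => M.mt t g * M.em v g
  | .s7 => M.em v

/-- content of `y` -/
noncomputable def cy (t : ℕ) (v : Fin n → Bool) : Stage → G → K
  | .s0 => fun _ => 0
  | .s1 => fun g => (1 - M.mt t g) * M.em (M.fS v) g
  | .s2 => M.em (M.fS v)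
  | .s3 => M.em v
  | .s4 => M.em v
  | .s5 => M.em v
  | .s6 => M.em v
  | .s7 => fun g => M.mt t g * M.em v g

/-- content of the transcript of `S` -/
noncomputable def cS (t : ℕ) (v : Fin n → Bool) : Stage → Lane → G → K
  | .s0 => M.pS.run (M.em v) t
  | .s1 => M.pS.run (M.em v) M.w.L
  | .s2 => M.pS.run (M.em v) M.w.L
  | .s3 => M.pS.run (M.em (M.fP v)) t
  | _ => fun _ _ => 0

/-- content of the transcript of `P` -/
noncomputable def cP (t : ℕ) (v : Fin n → Bool) : Stage → Lane → G → K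
  | .s2 => M.pP.run (M.em (M.fS v)) t
  | .s3 => M.pP.run (M.em v) M.w.L
  | .s4 => M.pP.run (M.em v) M.w.L
  | .s5 => M.pP.run (M.em v) t
  | _ => fun _ _ => 0

/-- content of all registers -/
noncomputable def cont (σ : Stage) (t : ℕ) (v : Fin n → Bool) : Reg J Lane → G → K
  | .x => M.cx t v σ
  | .y => M.cy t v σ
  | .s l => M.cS t v σ l
  | .p l => M.cP t v σ l
  | .d j => M.w.Dt K t j
  | .m j => M.w.Mt K t j

/-! ### local expressions -/

section exprs
variable [Fintype J] [Fintype A] [Fintype Kd]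

/-- expressions of the machine -/
abbrev Ex (G J A Lane Kd K : Type) := LE (Reg J Lane) G (Msk J A Lane Kd) K

/-- the register at `g` -/
def R (r : Reg J Lane) : Ex G J A Lane Kd K := .reg r 1
/-- the mask at `g` -/
def Q (q : Msk J A Lane Kd) : Ex G J A Lane Kd K := .mask q 1

/-- the pointer one step later -/
noncomputable def upD (j' : J) : Ex G J A Lane Kd K :=
  LE.sum univ fun j => LE.sum univ fun a =>
    .mul (.mask (.e j a j') (M.w.al a)⁻¹) (.reg (.d j) (M.w.al a)⁻¹)

/-- the pointer one step earlier -/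
noncomputable def dnD (j : J) : Ex G J A Lane Kd K :=
  LE.sum univ fun j' => LE.sum univ fun a =>
    .mul (.mask (.e j a j') 1) (.reg (.d j') (M.w.al a))

omit [Fintype A] [Fintype Kd] in
/-- `m` -/
noncomputable def eM : Ex G J A Lane Kd K :=
  LE.sum univ fun j => .mul (Q (.c j)) (R (.m j))

/-- the marked visit under the pointer -/
noncomputable def eδ : Ex G J A Lane Kd K :=
  LE.sum univ fun j => .mul (Q (.c j)) (R (.d j))

/-- the marked visit one step before the pointer -/
noncomputable def eδ' : Ex G J A Lane Kd K :=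
  LE.sum univ fun j => .mul (Q (.c j)) (M.dnD j)

/-- registers read by the program of `S` -/
def rS : Option Lane → Reg J Lane
  | none => .x
  | some l => .s l

/-- registers read by the program of `P` -/
def rP : Option Lane → Reg J Lane
  | none => .y
  | some l => .p l

/-- operation of `S` -/
def opS (κ : Kd) : Ex G J A Lane Kd K := (M.pS.op κ).map rS fun q => q.elim
/-- operation of `P` -/
def opP (κ : Kd) : Ex G J A Lane Kd K := (M.pP.op κ).map rP fun q => q.elim

/-- `1 - e` -/
def om (e : Ex G J A Lane Kd K) : Ex G J A Lane Kd K := LE.sub (.const 1) e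

/-- the relations of stage `σ` -/
noncomputable def rel (σ : Stage) : RIx J A Lane → Ex G J A Lane Kd K
  | .dd j => LE.sub (.mul (R (.d j)) (R (.d j))) (R (.d j))
  | .mm j => LE.sub (.mul (R (.m j)) (R (.m j))) (R (.m j))
  | .dm j => .mul (R (.d j)) (R (.m j))
  | .vd j => .mul (om (Q (.vis j))) (R (.d j))
  | .vm j => .mul (om (Q (.vis j))) (R (.m j))
  | .first j => .mul (Q (.first j)) (LE.sub (.add (R (.m j)) (R (.d j))) (.const 1))
  | .last j => .mul (Q (.last j)) (R (.m j))
  | .edge j a j' => .mul (Q (.e j a j'))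
      (LE.sub (LE.sub (R (.m j)) (.reg (.m j') (M.w.al a))) (.reg (.d j') (M.w.al a)))
  | .x => match σ with
    | .s3 => LE.sub (R .x) (.mul (Q .inp) (R (.p M.oP)))
    | .s4 => LE.sub (R .x) (.mul (om eM) (.mul (Q .inp) (R (.p M.oP))))
    | .s5 => R .x
    | .s6 => LE.sub (R .x) (.mul eM (.mul (Q .inp) (R .y)))
    | _ => LE.sub (.mul (Q .inp) (R .x)) (R .x)
  | .xb => match σ with
    | .s3 => .const 0
    | .s4 => .const 0
    | .s5 => .const 0
    | .s6 => .const 0
    | _ => LE.sub (.mul (R .x) (R .x)) (R .x)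
  | .y => match σ with
    | .s0 => R .y
    | .s1 => LE.sub (R .y) (.mul (om eM) (.mul (Q .inp) (R (.s M.oS))))
    | .s2 => LE.sub (R .y) (.mul (Q .inp) (R (.s M.oS)))
    | .s7 => LE.sub (R .y) (.mul eM (.mul (Q .inp) (R .x)))
    | _ => LE.sub (.mul (Q .inp) (R .y)) (R .y)
  | .yb => match σ with
    | .s0 => .const 0
    | .s1 => .const 0
    | .s2 => .const 0
    | .s7 => .const 0
    | _ => LE.sub (.mul (R .y) (R .y)) (R .y)
  | .s l => match σ with
    | .s0 => LE.sub (R (.s l)) (LE.sum univ fun j => LE.sum univ fun κ =>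
        .mul (Q (.ws j l κ)) (.mul (R (.m j)) (M.opS κ)))
    | .s1 => LE.sub (R (.s l)) (LE.sum univ fun j => LE.sum univ fun κ =>
        .mul (Q (.ws j l κ)) (M.opS κ))
    | .s2 => LE.sub (R (.s l)) (LE.sum univ fun j => LE.sum univ fun κ =>
        .mul (Q (.ws j l κ)) (M.opS κ))
    | .s3 => LE.sub (R (.s l)) (LE.sum univ fun j => LE.sum univ fun κ =>
        .mul (Q (.ws j l κ)) (.mul (R (.m j)) (M.opS κ)))
    | _ => R (.s l)
  | .p l => match σ with
    | .s2 => LE.sub (R (.p l)) (LE.sum univ fun j => LE.sum univ fun κ =>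
        .mul (Q (.wp j l κ)) (.mul (R (.m j)) (M.opP κ)))
    | .s3 => LE.sub (R (.p l)) (LE.sum univ fun j => LE.sum univ fun κ =>
        .mul (Q (.wp j l κ)) (M.opP κ))
    | .s4 => LE.sub (R (.p l)) (LE.sum univ fun j => LE.sum univ fun κ =>
        .mul (Q (.wp j l κ)) (M.opP κ))
    | .s5 => LE.sub (R (.p l)) (LE.sum univ fun j => LE.sum univ fun κ =>
        .mul (Q (.wp j l κ)) (.mul (R (.m j)) (M.opP κ)))
    | _ => R (.p l)

/-- the registers satisfy all relations of stage `σ` -/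
def Legal (σ : Stage) (F : Reg J Lane → G → K) : Prop :=
  ∀ r g, (M.rel σ r).eval F M.msk g = 0

/-- local rules: pointer `t → t + 1` -/
noncomputable def up (σ : Stage) : Reg J Lane → Ex G J A Lane Kd K
  | .x => match σ with
    | .s4 => .mul (R .x) (om eδ)
    | .s6 => .add (R .x) (.mul eδ (R .y))
    | _ => R .x
  | .y => match σ with
    | .s1 => .mul (R .y) (om eδ)
    | .s7 => .add (R .y) (.mul eδ (R .x))
    | _ => R .y
  | .s l => match σ with
    | .s0 => .add (R (.s l)) (LE.sum univ fun j => LE.sum univ fun κ =>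
        .mul (Q (.ws j l κ)) (.mul (R (.d j)) (M.opS κ)))
    | .s3 => .add (R (.s l)) (LE.sum univ fun j => LE.sum univ fun κ =>
        .mul (Q (.ws j l κ)) (.mul (R (.d j)) (M.opS κ)))
    | _ => R (.s l)
  | .p l => match σ with
    | .s2 => .add (R (.p l)) (LE.sum univ fun j => LE.sum univ fun κ =>
        .mul (Q (.wp j l κ)) (.mul (R (.d j)) (M.opP κ)))
    | .s5 => .add (R (.p l)) (LE.sum univ fun j => LE.sum univ fun κ =>
        .mul (Q (.wp j l κ)) (.mul (R (.d j)) (M.opP κ)))
    | _ => R (.p l)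
  | .d j => M.upD j
  | .m j => .add (R (.m j)) (R (.d j))

/-- local rules: pointer `t + 1 → t` -/
noncomputable def dn (σ : Stage) : Reg J Lane → Ex G J A Lane Kd K
  | .x => match σ with
    | .s4 => .add (R .x) (.mul M.eδ' (R (.p M.oP)))
    | .s6 => .mul (R .x) (om M.eδ')
    | _ => R .x
  | .y => match σ with
    | .s1 => .add (R .y) (.mul M.eδ' (R (.s M.oS)))
    | .s7 => .mul (R .y) (om M.eδ')
    | _ => R .y
  | .s l => match σ with
    | .s0 => .mul (R (.s l)) (om (LE.sum univ fun j => LE.sum univ fun κ =>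
        .mul (Q (.ws j l κ)) (M.dnD j)))
    | .s3 => .mul (R (.s l)) (om (LE.sum univ fun j => LE.sum univ fun κ =>
        .mul (Q (.ws j l κ)) (M.dnD j)))
    | _ => R (.s l)
  | .p l => match σ with
    | .s2 => .mul (R (.p l)) (om (LE.sum univ fun j => LE.sum univ fun κ =>
        .mul (Q (.wp j l κ)) (M.dnD j)))
    | .s5 => .mul (R (.p l)) (om (LE.sum univ fun j => LE.sum univ fun κ =>
        .mul (Q (.wp j l κ)) (M.dnD j)))
    | _ => R (.p l)
  | .d j => M.dnD j
  | .m j => LE.sub (R (.m j)) (M.dnD j)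

end exprs

end CData

end Crest.Agent.R289.Content578
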