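import Mathlib

/-!
Row 289, block C2 (content level), part 1: local expressions, the pointer and straight line
programs laid out along a walk.

* `LE R G Q K` : local polynomial expressions over registers `R → G → K` and masks `Q → G → K`
  (`reg r γ` = value of register `r` at `γ * g`);
* `Walk` : a walk on `G × J` without repetition, `PRel` = the local relations of the pointer,
  `ptr_iff` : the relations hold iff `D`, `M` are the contents of a unique time `t ≤ L`;
* `Prg` : a program that writes at most one cell `(address, lane)` per time, `run` = the cells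
  after `t` steps, `pre_iff`, `full_iff` : the local relations of a partial / full transcript;
* local rules: `Dt_up`, `Dt_dn`, `Mt_up`, `Mt_dn`, `run_up`, `run_dn`.
-/

set_option autoImplicit false

namespace Crest.Agent.R289.Content578

open Finset

/-! ### indicators -/

open Classical in
/-- indicator -/
noncomputable def ind (K : Type) [Zero K] [One K] (p : Prop) : K := if p then 1 else 0

section ind
variable {K : Type} [Field K]

theorem ind_true {p : Prop} (h : p) : ind K p = 1 := by unfold ind; rw [if_pos h]
theorem ind_false {p : Prop} (h : ¬ p) : ind K p = 0 := by unfold ind; rw [if_neg h]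

theorem ind_congr {p q : Prop} (h : p ↔ q) : ind K p = ind K q := by
  rw [propext h]

theorem ind_mul (p q : Prop) : ind K p * ind K q = ind K (p ∧ q) := by
  unfold ind
  by_cases hp : p <;> by_cases hq : q <;> simp [hp, hq]

theorem ind_mul_self (p : Prop) : ind K p * ind K p = ind K p := by
  rw [ind_mul]; exact ind_congr (and_self_iff)

theorem one_sub_ind (p : Prop) : 1 - ind K p = ind K (¬ p) := by
  unfold ind
  by_cases hp : p <;> simp [hp]

theorem ind_ne_zero {p : Prop} (h : ind K p ≠ 0) : p := by
  by_contra hp; exact h (ind_false hp)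

theorem ind_bool (p : Prop) : ind K p = 0 ∨ ind K p = 1 := by
  by_cases hp : p
  · exact Or.inr (ind_true hp)
  · exact Or.inl (ind_false hp)

theorem bool_of_mul_self {a : K} (h : a * a = a) : a = 0 ∨ a = 1 := by
  have h' : a * (a - 1) = 0 := by linear_combination h
  rcases mul_eq_zero.1 h' with h1 | h1
  · exact Or.inl h1
  · exact Or.inr (by linear_combination h1)

end ind

/-! ### local expressions -/

/-- local polynomial expressions: `reg r γ` is the value of register `r` at `γ * g`,
`mask q γ` the value of mask `q` at `γ * g` -/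
inductive LE (R G Q K : Type) : Type where
  | reg (r : R) (γ : G)
  | mask (q : Q) (γ : G)
  | const (c : K)
  | add (a b : LE R G Q K)
  | mul (a b : LE R G Q K)

namespace LE

variable {R R' G Q Q' K : Type}

/-- value of an expression at `g` -/
def eval [Mul G] [Add K] [Mul K] (F : R → G → K) (mk : Q → G → K) : LE R G Q K → G → K
  | reg r γ, g => F r (γ * g)
  | mask q γ, g => mk q (γ * g)
  | const c, _ => c
  | add a b, g => a.eval F mk g + b.eval F mk g
  | mul a b, g => a.eval F mk g * b.eval F mk g

/-- degree in the registers and masks -/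
def deg : LE R G Q K → ℕ
  | reg _ _ => 1
  | mask _ _ => 1
  | const _ => 0
  | add a b => max a.deg b.deg
  | mul a b => a.deg + b.deg

/-- all register reads satisfy `p` -/
def All (p : R → G → Prop) : LE R G Q K → Prop
  | reg r γ => p r γ
  | mask _ _ => True
  | const _ => True
  | add a b => a.All p ∧ b.All p
  | mul a b => a.All p ∧ b.All p

/-- renaming of registers and masks -/
def map (f : R → R') (h : Q → Q') : LE R G Q K → LE R' G Q' K
  | reg r γ => reg (f r) γ
  | mask q γ => mask (h q) γ
  | const c => const c
  | add a b => add (a.map f h) (b.map f h)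
  | mul a b => mul (a.map f h) (b.map f h)

theorem eval_congr [Mul G] [Add K] [Mul K] (F F' : R → G → K) (mk : Q → G → K)
    (e : LE R G Q K) (g : G) (h : e.All fun r γ => F r (γ * g) = F' r (γ * g)) :
    e.eval F mk g = e.eval F' mk g := by
  induction e with
  | reg r γ => exact h
  | mask q γ => rfl
  | const c => rfl
  | add a b iha ihb => simp only [eval]; rw [iha h.1, ihb h.2]
  | mul a b iha ihb => simp only [eval]; rw [iha h.1, ihb h.2]

theorem All.imp {p q : R → G → Prop} (hpq : ∀ r γ, p r γ → q r γ) {e : LE R G Q K}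
    (h : e.All p) : e.All q := by
  induction e with
  | reg r γ => exact hpq _ _ h
  | mask q γ => trivial
  | const c => trivial
  | add a b iha ihb => exact ⟨iha h.1, ihb h.2⟩
  | mul a b iha ihb => exact ⟨iha h.1, ihb h.2⟩

@[simp] theorem eval_map [Mul G] [Add K] [Mul K] (f : R → R') (h : Q → Q') (F : R' → G → K)
    (mk : Q' → G → K) (e : LE R G Q K) (g : G) :
    (e.map f h).eval F mk g = e.eval (fun r => F (f r)) (fun q => mk (h q)) g := by
  induction e with
  | reg r γ => rfl
  | mask q γ => rfl
  | const c => rfl
  | add a b iha ihb => simp only [map, eval]; rw [iha, ihb]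
  | mul a b iha ihb => simp only [map, eval]; rw [iha, ihb]

@[simp] theorem deg_map (f : R → R') (h : Q → Q') (e : LE R G Q K) :
    (e.map f h).deg = e.deg := by
  induction e with
  | reg r γ => rfl
  | mask q γ => rfl
  | const c => rfl
  | add a b iha ihb => simp only [map, deg]; rw [iha, ihb]
  | mul a b iha ihb => simp only [map, deg]; rw [iha, ihb]

section ring
variable [Mul G] [Field K]

/-- difference -/
def sub (a b : LE R G Q K) : LE R G Q K := add a (mul (const (-1)) b)

/-- finite sum (in some order) -/
noncomputable def sum {ι : Type} (s : Finset ι) (f : ι → LE R G Q K) : LE R G Q K :=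
  (s.toList.map f).foldr add (const 0)

@[simp] theorem eval_reg (F : R → G → K) (mk : Q → G → K) (r : R) (γ g : G) :
    (reg r γ : LE R G Q K).eval F mk g = F r (γ * g) := rfl
@[simp] theorem eval_mask (F : R → G → K) (mk : Q → G → K) (q : Q) (γ g : G) :
    (mask q γ : LE R G Q K).eval F mk g = mk q (γ * g) := rfl
@[simp] theorem eval_const (F : R → G → K) (mk : Q → G → K) (c : K) (g : G) :
    (const c : LE R G Q K).eval F mk g = c := rfl
@[simp] theorem eval_add (F : R → G → K) (mk : Q → G → K) (a b : LE R G Q K) (g : G) :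
    (add a b).eval F mk g = a.eval F mk g + b.eval F mk g := rfl
@[simp] theorem eval_mul (F : R → G → K) (mk : Q → G → K) (a b : LE R G Q K) (g : G) :
    (mul a b).eval F mk g = a.eval F mk g * b.eval F mk g := rfl
@[simp] theorem eval_sub (F : R → G → K) (mk : Q → G → K) (a b : LE R G Q K) (g : G) :
    (sub a b).eval F mk g = a.eval F mk g - b.eval F mk g := by
  simp only [sub, eval_add, eval_mul, eval_const]; ring

@[simp] theorem eval_sum {ι : Type} (F : R → G → K) (mk : Q → G → K) (s : Finset ι)
    (f : ι → LE R G Q K) (g : G) :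
    (sum s f).eval F mk g = ∑ i ∈ s, (f i).eval F mk g := by
  have key : ∀ l : List ι, ((l.map f).foldr add (const 0)).eval F mk g
      = (l.map fun i => (f i).eval F mk g).sum := by
    intro l
    induction l with
    | nil => rfl
    | cons a l ih => simp only [List.map_cons, List.foldr_cons, eval_add, ih, List.sum_cons]
  unfold sum
  rw [key, Finset.sum_map_toList]

omit [Mul G] in
theorem deg_sub_le (a b : LE R G Q K) : (sub a b).deg ≤ max a.deg b.deg := by
  simp [sub, deg]

omit [Mul G] in
theorem deg_sum_le {ι : Type} (s : Finset ι) (f : ι → LE R G Q K) (d : ℕ)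
    (h : ∀ i ∈ s, (f i).deg ≤ d) : (sum s f).deg ≤ d := by
  have key : ∀ l : List ι, (∀ i ∈ l, (f i).deg ≤ d) →
      ((l.map f).foldr add (const 0)).deg ≤ d := by
    intro l
    induction l with
    | nil => intro _; exact Nat.zero_le _
    | cons a l ih =>
      intro hl
      simp only [List.map_cons, List.foldr_cons, deg]
      exact max_le (hl a List.mem_cons_self) (ih fun i hi => hl i (List.mem_cons_of_mem _ hi))
  exact key _ fun i hi => h i (Finset.mem_toList.1 hi)

end ring

end LE

/-! ### the walk and the pointer -/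

/-- a walk on `G × J` without repetition; `lt s` is the letter of step `s` -/
structure Walk (G J A : Type) [Group G] where
  L : ℕ
  vis : ℕ → G × J
  al : A → G
  lt : ℕ → A
  inj : ∀ s, s ≤ L → ∀ t, t ≤ L → vis s = vis t → s = t
  step : ∀ s, s < L → (vis (s + 1)).1 = al (lt s) * (vis s).1

namespace Walk

variable {G J A K : Type} [Group G] [Field K] (w : Walk G J A)

/-- content of the pointer register `D` at time `t` -/
noncomputable def Dt (K : Type) [Field K] (t : ℕ) (j : J) (g : G) : K := ind K (w.vis t = (g, j))

/-- content of the history register `M` at time `t` -/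
noncomputable def Mt (K : Type) [Field K] (t : ℕ) (j : J) (g : G) : K :=
  ind K (∃ s, s < t ∧ w.vis s = (g, j))

/-- mask: visited -/
noncomputable def mVis (K : Type) [Field K] (j : J) (g : G) : K :=
  ind K (∃ s, s ≤ w.L ∧ w.vis s = (g, j))
/-- mask: first visit -/
noncomputable def mFirst (K : Type) [Field K] (j : J) (g : G) : K := ind K (w.vis 0 = (g, j))
/-- mask: last visit -/
noncomputable def mLast (K : Type) [Field K] (j : J) (g : G) : K := ind K (w.vis w.L = (g, j))
/-- mask: the step from `(g, j)` goes with letter `a` to index `j'` -/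
noncomputable def mE (K : Type) [Field K] (j : J) (a : A) (j' : J) (g : G) : K :=
  ind K (∃ s, s < w.L ∧ w.vis s = (g, j) ∧ w.lt s = a ∧ (w.vis (s + 1)).2 = j')

/-- the local relations of the pointer -/
structure PRel (D M : J → G → K) : Prop where
  dd : ∀ j g, D j g * D j g = D j g
  mm : ∀ j g, M j g * M j g = M j g
  dm : ∀ j g, D j g * M j g = 0
  vd : ∀ j g, (1 - w.mVis K j g) * D j g = 0
  vm : ∀ j g, (1 - w.mVis K j g) * M j g = 0
  first : ∀ j g, w.mFirst K j g * (M j g + D j g - 1) = 0
  last : ∀ j g, w.mLast K j g * M j g = 0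
  edge : ∀ j a j' g, w.mE K j a j' g * (M j g - M j' (w.al a * g) - D j' (w.al a * g)) = 0

variable {w}

theorem Dt_vis {t s : ℕ} (hs : s ≤ w.L) (ht : t ≤ w.L) :
    w.Dt K t (w.vis s).2 (w.vis s).1 = ind K (s = t) := by
  unfold Dt
  refine ind_congr ⟨fun h => (w.inj t ht s hs h).symm, fun h => by rw [h]⟩

theorem Mt_vis {t s : ℕ} (hs : s ≤ w.L) (ht : t ≤ w.L) :
    w.Mt K t (w.vis s).2 (w.vis s).1 = ind K (s < t) := by
  unfold Mt
  refine ind_congr ⟨?_, fun h => ⟨s, h, rfl⟩⟩
  rintro ⟨s', hs', h⟩
  have : s' = s := w.inj s' (by omega) s hs h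
  omega

/-- the content at time `t` satisfies the relations -/
theorem prel_of (t : ℕ) (ht : t ≤ w.L) : w.PRel (w.Dt K t) (w.Mt K t) where
  dd j g := ind_mul_self _
  mm j g := ind_mul_self _
  dm j g := by
    unfold Dt Mt
    rw [ind_mul]
    refine ind_false ?_
    rintro ⟨h, s, hs, h'⟩
    have := w.inj t ht s (by omega) (h.trans h'.symm)
    omega
  vd j g := by
    unfold mVis Dt
    rw [one_sub_ind, ind_mul]
    exact ind_false fun ⟨h, h'⟩ => h ⟨t, ht, h'⟩
  vm j g := by
    unfold mVis Mt
    rw [one_sub_ind, ind_mul]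
    refine ind_false ?_
    rintro ⟨h, s, hs, h'⟩
    exact h ⟨s, by omega, h'⟩
  first j g := by
    unfold mFirst
    by_cases h : w.vis 0 = (g, j)
    · have h1 := Dt_vis (K := K) (w := w) (Nat.zero_le _) ht
      have h2 := Mt_vis (K := K) (w := w) (Nat.zero_le _) ht
      rw [h] at h1 h2
      simp only at h1 h2
      rw [h1, h2, ind_true h]
      by_cases h0 : t = 0
      · rw [ind_false (by omega : ¬ 0 < t), ind_true h0.symm]; ring
      · rw [ind_true (by omega : 0 < t), ind_false (fun h => h0 h.symm)]; ring
    · rw [ind_false h, zero_mul]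
  last j g := by
    unfold mLast
    by_cases h : w.vis w.L = (g, j)
    · have h2 := Mt_vis (K := K) (w := w) le_rfl ht
      rw [h] at h2
      simp only at h2
      rw [h2, ind_false (by omega : ¬ w.L < t), mul_zero]
    · rw [ind_false h, zero_mul]
  edge j a j' g := by
    unfold mE
    by_cases h : ∃ s, s < w.L ∧ w.vis s = (g, j) ∧ w.lt s = a ∧ (w.vis (s + 1)).2 = j'
    · obtain ⟨s, hs, h1, h2, h3⟩ := h
      have e1 : w.al a * g = (w.vis (s + 1)).1 := by rw [w.step s hs, h1, h2]
      have e2 := Mt_vis (K := K) (w := w) hs.le ht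
      have e3 := Mt_vis (K := K) (w := w) (s := s + 1) hs ht
      have e4 := Dt_vis (K := K) (w := w) (s := s + 1) hs ht
      rw [h1] at e2
      rw [h3] at e3 e4
      simp only at e2
      rw [e1, e2, e3, e4]
      have : ind K (s < t) - ind K (s + 1 < t) - ind K (s + 1 = t) = 0 := by
        rcases lt_trichotomy (s + 1) t with h | h | h
        · rw [ind_true (by omega : s < t), ind_true h, ind_false (by omega : ¬ s + 1 = t)]; ring
        · rw [ind_true (by omega : s < t), ind_true h, ind_false (by omega : ¬ s + 1 < t)]; ring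
        · rw [ind_false (by omega : ¬ s < t), ind_false (by omega : ¬ s + 1 < t),
            ind_false (by omega : ¬ s + 1 = t)]; ring
      rw [this, mul_zero]
    · rw [ind_false h, zero_mul]

/-- the relations hold only for the content at some time -/
theorem of_prel (D M : J → G → K) (h : w.PRel D M) :
    ∃ t, t ≤ w.L ∧ D = w.Dt K t ∧ M = w.Mt K t := by
  classical
  set d : ℕ → K := fun s => D (w.vis s).2 (w.vis s).1 with hd
  set m : ℕ → K := fun s => M (w.vis s).2 (w.vis s).1 with hm
  have hdd : ∀ s, d s = 0 ∨ d s = 1 := fun s => bool_of_mul_self (h.dd _ _)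
  have hmm : ∀ s, m s = 0 ∨ m s = 1 := fun s => bool_of_mul_self (h.mm _ _)
  have hdm : ∀ s, d s * m s = 0 := fun s => h.dm _ _
  have h0 : m 0 + d 0 = 1 := by
    have := h.first (w.vis 0).2 (w.vis 0).1
    rw [mFirst, ind_true rfl, one_mul] at this
    linear_combination this
  have hL : m w.L = 0 := by
    have := h.last (w.vis w.L).2 (w.vis w.L).1
    rwa [mLast, ind_true rfl, one_mul] at this
  have hst : ∀ s, s < w.L → m s = m (s + 1) + d (s + 1) := by
    intro s hs
    have := h.edge (w.vis s).2 (w.lt s) (w.vis (s + 1)).2 (w.vis s).1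
    rw [mE, ind_true ⟨s, hs, rfl, rfl, rfl⟩, one_mul, ← w.step s hs] at this
    linear_combination this
  have hex : ∃ s, m s = 0 := ⟨w.L, hL⟩
  set t := Nat.find hex with htdef
  have ht0 : m t = 0 := Nat.find_spec hex
  have htL : t ≤ w.L := Nat.find_min' hex hL
  have hlt : ∀ s, s < t → m s = 1 := by
    intro s hs
    rcases hmm s with h' | h'
    · exact absurd h' (Nat.find_min hex hs)
    · exact h'
  have hdt : d t = 1 := by
    rcases Nat.eq_zero_or_pos t with h' | h'
    · rw [h'] at ht0 ⊢
      rw [ht0, zero_add] at h0; exact h0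
    · have h1 := hst (t - 1) (by omega)
      have h2 := hlt (t - 1) (by omega)
      have e : t - 1 + 1 = t := by omega
      rw [e, ht0, h2, zero_add] at h1
      exact h1.symm
  have hgt : ∀ s, t ≤ s → s ≤ w.L → m s = 0 := by
    intro s hs
    induction s, hs using Nat.le_induction with
    | base => intro _; exact ht0
    | succ s hs ih =>
      intro hsL
      have h1 := hst s (by omega)
      rw [ih (by omega)] at h1
      rcases hmm (s + 1) with h2 | h2
      · exact h2
      · have h3 := hdm (s + 1)
        rw [h2, mul_one] at h3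
        rw [h2, h3, add_zero] at h1
        exact absurd h1.symm one_ne_zero
  have hgt' : ∀ s, t < s → s ≤ w.L → d s = 0 := by
    intro s hs hsL
    have h1 := hst (s - 1) (by omega)
    have e : s - 1 + 1 = s := by omega
    rw [e, hgt (s - 1) (by omega) (by omega), hgt s hs.le hsL, zero_add] at h1
    exact h1.symm
  have hlt' : ∀ s, s < t → d s = 0 := by
    intro s hs
    have := hdm s
    rwa [hlt s hs, mul_one] at this
  refine ⟨t, htL, ?_, ?_⟩
  · funext j g
    by_cases hv : ∃ s, s ≤ w.L ∧ w.vis s = (g, j)
    · obtain ⟨s, hs, h1⟩ := hv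
      have e1 : D j g = d s := by rw [hd]; simp only; rw [h1]
      have e2 := Dt_vis (K := K) (w := w) hs htL
      rw [h1] at e2
      simp only at e2
      rw [e1, e2]
      rcases lt_trichotomy s t with h' | h' | h'
      · rw [hlt' s h', ind_false (by omega)]
      · rw [h', hdt, ind_true rfl]
      · rw [hgt' s h' hs, ind_false (by omega)]
    · have := h.vd j g
      rw [mVis, ind_false hv, sub_zero, one_mul] at this
      rw [this, Dt, ind_false]
      exact fun h' => hv ⟨t, htL, h'⟩
  · funext j g
    by_cases hv : ∃ s, s ≤ w.L ∧ w.vis s = (g, j)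
    · obtain ⟨s, hs, h1⟩ := hv
      have e1 : M j g = m s := by rw [hm]; simp only; rw [h1]
      have e2 := Mt_vis (K := K) (w := w) hs htL
      rw [h1] at e2
      simp only at e2
      rw [e1, e2]
      rcases lt_or_ge s t with h' | h'
      · rw [hlt s h', ind_true h']
      · rw [hgt s h' hs, ind_false (by omega)]
    · have := h.vm j g
      rw [mVis, ind_false hv, sub_zero, one_mul] at this
      rw [this, Mt, ind_false]
      rintro ⟨s, hs, h'⟩
      exact hv ⟨s, by omega, h'⟩

/-- LEMMA C2a -/
theorem ptr_iff (D M : J → G → K) :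
    w.PRel D M ↔ ∃ t, t ≤ w.L ∧ D = w.Dt K t ∧ M = w.Mt K t := by
  constructor
  · exact of_prel D M
  · rintro ⟨t, ht, rfl, rfl⟩
    exact prel_of t ht

theorem Dt_inj {s t : ℕ} (hs : s ≤ w.L) (ht : t ≤ w.L) (h : w.Dt K s = w.Dt K t) : s = t := by
  have h1 := Dt_vis (K := K) (w := w) hs hs
  rw [h, Dt_vis (K := K) (w := w) hs ht, ind_true (rfl : s = s)] at h1
  by_contra hne
  rw [ind_false hne] at h1
  exact zero_ne_one h1

/-! rules of the pointer -/

section rules
variable [Fintype J] [Fintype A]

/-- pointer one step forward -/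
theorem Dt_up {t : ℕ} (ht : t < w.L) (j' : J) (g : G) :
    w.Dt K (t + 1) j' g
      = ∑ j, ∑ a, w.mE K j a j' ((w.al a)⁻¹ * g) * w.Dt K t j ((w.al a)⁻¹ * g) := by
  classical
  have key : ∀ j a, w.mE K j a j' ((w.al a)⁻¹ * g) * w.Dt K t j ((w.al a)⁻¹ * g)
      = if j = (w.vis t).2 then (if a = w.lt t then w.Dt K (t + 1) j' g else 0) else 0 := by
    intro j a
    unfold mE Dt
    rw [ind_mul]
    by_cases hj : j = (w.vis t).2
    · rw [if_pos hj]
      by_cases ha : a = w.lt t
      · rw [if_pos ha]
        refine ind_congr ⟨?_, ?_⟩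
        · rintro ⟨⟨s, hs, h1, h2, h3⟩, h4⟩
          have hst : s = t := w.inj s hs.le t ht.le (h1.trans h4.symm)
          subst hst
          refine Prod.ext ?_ h3
          rw [w.step s ht, h4, ← ha]
          simp
        · intro h
          have e1 := w.step t ht
          rw [h] at e1
          simp only at e1
          have h4 : w.vis t = ((w.al a)⁻¹ * g, j) := by
            refine Prod.ext ?_ hj.symm
            simp only
            rw [e1, ha]
            simp
          exact ⟨⟨t, ht, h4, ha.symm, by rw [h]⟩, h4⟩
      · rw [if_neg ha]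
        refine ind_false ?_
        rintro ⟨⟨s, hs, h1, h2, h3⟩, h4⟩
        have hst : s = t := w.inj s hs.le t ht.le (h1.trans h4.symm)
        subst hst
        exact ha h2.symm
    · rw [if_neg hj]
      refine ind_false ?_
      rintro ⟨_, h4⟩
      exact hj (by rw [h4])
  simp_rw [key]
  rw [Finset.sum_eq_single (w.vis t).2]
  · rw [Finset.sum_eq_single (w.lt t)]
    · rw [if_pos rfl, if_pos rfl]
    · intro a _ ha; rw [if_pos rfl, if_neg ha]
    · intro h; exact absurd (Finset.mem_univ _) h
  · intro j _ hj
    exact Finset.sum_eq_zero fun a _ => by rw [if_neg hj]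
  · intro h; exact absurd (Finset.mem_univ _) h

/-- pointer one step backward -/
theorem Dt_dn {t : ℕ} (ht : t < w.L) (j : J) (g : G) :
    w.Dt K t j g = ∑ j', ∑ a, w.mE K j a j' g * w.Dt K (t + 1) j' (w.al a * g) := by
  classical
  have key : ∀ j' a, w.mE K j a j' g * w.Dt K (t + 1) j' (w.al a * g)
      = if j' = (w.vis (t + 1)).2 then (if a = w.lt t then w.Dt K t j g else 0) else 0 := by
    intro j' a
    unfold mE Dt
    rw [ind_mul]
    by_cases hj : j' = (w.vis (t + 1)).2
    · rw [if_pos hj]
      by_cases ha : a = w.lt t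
      · rw [if_pos ha]
        refine ind_congr ⟨?_, ?_⟩
        · rintro ⟨⟨s, hs, h1, h2, h3⟩, h4⟩
          have e1 := w.step s hs
          have hst : s + 1 = t + 1 := by
            refine w.inj (s + 1) hs (t + 1) ht ?_
            rw [h4]
            refine Prod.ext ?_ h3
            simp only
            rw [e1, h2, h1]
          have hst' : s = t := by omega
          subst hst'
          exact h1
        · intro h
          refine ⟨⟨t, ht, h, ha.symm, hj.symm⟩, ?_⟩
          refine Prod.ext ?_ hj.symm
          simp only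
          rw [w.step t ht, h, ha]
      · rw [if_neg ha]
        refine ind_false ?_
        rintro ⟨⟨s, hs, h1, h2, h3⟩, h4⟩
        have e1 := w.step s hs
        have hst : s + 1 = t + 1 := by
          refine w.inj (s + 1) hs (t + 1) ht ?_
          rw [h4]
          refine Prod.ext ?_ h3
          simp only
          rw [e1, h2, h1]
        have hst' : s = t := by omega
        subst hst'
        exact ha h2.symm
    · rw [if_neg hj]
      refine ind_false ?_
      rintro ⟨_, h4⟩
      exact hj (by rw [h4])
  simp_rw [key]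
  rw [Finset.sum_eq_single (w.vis (t + 1)).2]
  · rw [Finset.sum_eq_single (w.lt t)]
    · rw [if_pos rfl, if_pos rfl]
    · intro a _ ha; rw [if_pos rfl, if_neg ha]
    · intro h; exact absurd (Finset.mem_univ _) h
  · intro j _ hj
    exact Finset.sum_eq_zero fun a _ => by rw [if_neg hj]
  · intro h; exact absurd (Finset.mem_univ _) h

end rules

theorem Mt_up {t : ℕ} (ht : t ≤ w.L) (j : J) (g : G) :
    w.Mt K (t + 1) j g = w.Mt K t j g + w.Dt K t j g := by
  unfold Mt Dt
  by_cases h : w.vis t = (g, j)
  · rw [ind_true h, ind_true ⟨t, by omega, h⟩, ind_false, zero_add]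
    rintro ⟨s, hs, h'⟩
    have := w.inj s (by omega) t ht (h'.trans h.symm)
    omega
  · rw [ind_false h, add_zero]
    refine ind_congr ⟨?_, fun ⟨s, hs, h'⟩ => ⟨s, by omega, h'⟩⟩
    rintro ⟨s, hs, h'⟩
    refine ⟨s, ?_, h'⟩
    rcases Nat.lt_or_ge s t with h1 | h1
    · exact h1
    · exact absurd (by rwa [show s = t by omega] at h') h

@[simp] theorem Mt_zero (j : J) (g : G) : w.Mt K 0 j g = 0 := by
  unfold Mt
  exact ind_false fun ⟨s, hs, _⟩ => by omega

end Walk

end Crest.Agent.R289.Content578
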