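import Mathlib

/-!
# Row 289, block B, leaf B5 (B4): contraction of one local decoding round on an expander

* `BG X Y I`: bipartite graph with vertices `X` (even), `Y` (odd), edge labels `I`:
  `y` sees the even vertices `nx y z`, `x` sees the odd vertices `ny x z`; the same edge has the same
  label on both sides.
* `Exp G lam`: variance form of expansion, both directions.
* local codes `C0` (even), `C1` (odd): sets of functions `I → A` (any alphabet `A`; bundles are the
  alphabet `J → A`), minimum distance `d0`, `d1`.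
* labels `y : X → Option (I → A)` (`none` = unreadable).
* `round`: odd vertices collect and decode, even vertices collect the decoded values and decode.
* `round_le`: wrong set `E` (`#E ≤ ρ N`) becomes `≤ θ^2 #E`; `rounds_le`: `θ^(2r)`.
-/

set_option autoImplicit false

namespace Crest.Agent.R289.Contr248

open Finset

/-- bipartite graph with labelled edges -/
structure BG (X Y I : Type*) where
  /-- even end of the edge with label `z` at the odd vertex `y` -/
  nx : Y → I → X
  /-- odd end of the edge with label `z` at the even vertex `x` -/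
  ny : X → I → Y
  nx_ny : ∀ x z, nx (ny x z) z = x
  ny_nx : ∀ y z, ny (nx y z) z = y

variable {X Y I A : Type*} [Fintype X] [Fintype Y] [Fintype I]

/-- expansion, seen from the odd side: functions on `X`, sums at the vertices of `Y` -/
def ExpAt (nb : Y → I → X) (lam : ℝ) : Prop :=
  ∀ f : X → ℝ, ∑ y, (∑ z, f (nb y z)) ^ 2 ≤
    (Fintype.card I : ℝ) ^ 2 * ((∑ x, f x) ^ 2 / Fintype.card X + lam ^ 2 * ∑ x, f x ^ 2)

/-- regularity: every vertex of `X` is seen exactly once with every label -/
def Reg (nb : Y → I → X) : Prop := ∀ z, Function.Bijective fun y => nb y z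

omit [Fintype X] [Fintype Y] [Fintype I] in
theorem BG.reg_nx (G : BG X Y I) : Reg G.nx := by
  intro z
  refine ⟨fun y y' h => ?_, fun x => ⟨G.ny x z, G.nx_ny x z⟩⟩
  have := congrArg (fun x => G.ny x z) h
  simpa [G.ny_nx] using this

omit [Fintype X] [Fintype Y] [Fintype I] in
theorem BG.reg_ny (G : BG X Y I) : Reg G.ny := by
  intro z
  refine ⟨fun y y' h => ?_, fun x => ⟨G.nx x z, G.ny_nx x z⟩⟩
  have := congrArg (fun x => G.nx x z) h
  simpa [G.nx_ny] using this

theorem sum_reg {nb : Y → I → X} (h : Reg nb) (f : X → ℝ) :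
    ∑ y, ∑ z, f (nb y z) = Fintype.card I * ∑ x, f x := by
  rw [Finset.sum_comm]
  have : ∀ z : I, ∑ y, f (nb y z) = ∑ x, f x := fun z =>
    (Equiv.ofBijective _ (h z)).sum_comp f
  simp [this, Finset.sum_const, Finset.card_univ]

/-- variance form: deviations of the local counts from the mean -/
theorem variance_le {nb : Y → I → X} {lam : ℝ} (hr : Reg nb) (he : ExpAt nb lam)
    (hc : Fintype.card X = Fintype.card Y) (f : X → ℝ) :
    ∑ y, (∑ z, f (nb y z) - Fintype.card I * ((∑ x, f x) / Fintype.card X)) ^ 2 ≤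
      (Fintype.card I : ℝ) ^ 2 * (lam ^ 2 * ∑ x, f x ^ 2) := by
  rcases isEmpty_or_nonempty Y with hY | hY
  · rw [Finset.univ_eq_empty, Finset.sum_empty]
    exact mul_nonneg (sq_nonneg _) (mul_nonneg (sq_nonneg _) (Finset.sum_nonneg fun _ _ => sq_nonneg _))
  have hN : (0 : ℝ) < Fintype.card X := by rw [hc]; exact_mod_cast Fintype.card_pos
  set n : ℝ := (Fintype.card I : ℝ)
  set N : ℝ := (Fintype.card X : ℝ)
  set S : ℝ := ∑ x, f x with hS
  have h1 : ∑ y, (∑ z, f (nb y z) - n * (S / N)) ^ 2 =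
      ∑ y, (∑ z, f (nb y z)) ^ 2 - 2 * (n * (S / N)) * ∑ y, ∑ z, f (nb y z) + N * (n * (S / N)) ^ 2 := by
    have : ∀ y : Y, (∑ z, f (nb y z) - n * (S / N)) ^ 2 =
        (∑ z, f (nb y z)) ^ 2 - 2 * (n * (S / N)) * (∑ z, f (nb y z)) + (n * (S / N)) ^ 2 := by
      intro y; ring
    simp only [this, Finset.sum_add_distrib, Finset.sum_sub_distrib, ← Finset.mul_sum]
    rw [Finset.sum_const, Finset.card_univ, ← hc, nsmul_eq_mul]
  rw [h1, sum_reg hr]
  have h2 := he f
  have h3 : N * (n * (S / N)) ^ 2 = n ^ 2 * (S ^ 2 / N) := by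
    field_simp
  have h4 : 2 * (n * (S / N)) * (n * S) = 2 * (n ^ 2 * (S ^ 2 / N)) := by
    field_simp
  rw [h3, ← hS, h4]
  nlinarith [h2]

/-- few vertices see more than a `τ`-fraction of a small set `E` -/
theorem few {nb : Y → I → X} {lam : ℝ} (hr : Reg nb) (he : ExpAt nb lam)
    (hc : Fintype.card X = Fintype.card Y) (hI : 0 < Fintype.card I) [DecidableEq X]
    (E : Finset X) {rho tau th : ℝ} (hE : (E.card : ℝ) ≤ rho * Fintype.card X) (hrt : rho < tau)
    (hth : lam ^ 2 ≤ th * (tau - rho) ^ 2) (W : Finset Y)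
    (hW : ∀ y ∈ W, tau * Fintype.card I ≤ ((univ.filter fun z => nb y z ∈ E).card : ℝ)) :
    (W.card : ℝ) ≤ th * E.card := by
  classical
  rcases isEmpty_or_nonempty Y with hY | hY
  · have hX : IsEmpty X := by
      rw [← Fintype.card_eq_zero_iff, hc]; exact Fintype.card_eq_zero
    have h1 : W = ∅ := Finset.eq_empty_of_isEmpty W
    have h2 : E = ∅ := Finset.eq_empty_of_isEmpty E
    simp [h1, h2]
  have hn : (0 : ℝ) < Fintype.card I := by exact_mod_cast hI
  have hN0 : (0 : ℝ) < Fintype.card X := by rw [hc]; exact_mod_cast Fintype.card_pos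
  set n : ℝ := (Fintype.card I : ℝ) with hndef
  set N : ℝ := (Fintype.card X : ℝ) with hNdef
  let f : X → ℝ := fun x => if x ∈ E then 1 else 0
  have hS : ∑ x, f x = E.card := by simp [f]
  have hS2 : ∑ x, f x ^ 2 = E.card := by simp [f]
  have hv := variance_le hr he hc f
  rw [hS2, hS] at hv
  have hloc : ∀ y, ∑ z, f (nb y z) = ((univ.filter fun z => nb y z ∈ E).card : ℝ) := by
    intro y; simp [f]
  have hmean : (E.card : ℝ) / N ≤ rho := by
    rw [div_le_iff₀ hN0]; exact hE
  have hge : ∀ y ∈ W, ((tau - rho) * n) ^ 2 ≤ (∑ z, f (nb y z) - n * ((E.card : ℝ) / N)) ^ 2 := by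
    intro y hy
    have h1 := hW y hy
    rw [← hloc y] at h1
    have h2 : n * ((E.card : ℝ) / N) ≤ n * rho := mul_le_mul_of_nonneg_left hmean hn.le
    have h3 : 0 ≤ (tau - rho) * n := mul_nonneg (by linarith) hn.le
    apply pow_le_pow_left₀ h3
    nlinarith
  have hsum : (W.card : ℝ) * ((tau - rho) * n) ^ 2 ≤ n ^ 2 * (lam ^ 2 * E.card) := by
    calc (W.card : ℝ) * ((tau - rho) * n) ^ 2 = ∑ _y ∈ W, ((tau - rho) * n) ^ 2 := by
          rw [Finset.sum_const, nsmul_eq_mul]
      _ ≤ ∑ y ∈ W, (∑ z, f (nb y z) - n * ((E.card : ℝ) / N)) ^ 2 := Finset.sum_le_sum hge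
      _ ≤ ∑ y, (∑ z, f (nb y z) - n * ((E.card : ℝ) / N)) ^ 2 :=
          Finset.sum_le_sum_of_subset_of_nonneg (Finset.subset_univ _) fun _ _ _ => sq_nonneg _
      _ ≤ _ := hv
  have hpos : 0 < (tau - rho) ^ 2 * n ^ 2 := by
    have : 0 < tau - rho := by linarith
    positivity
  have hfin : (W.card : ℝ) * ((tau - rho) ^ 2 * n ^ 2) ≤ (th * E.card) * ((tau - rho) ^ 2 * n ^ 2) := by
    have h5 : lam ^ 2 * (E.card : ℝ) ≤ th * (tau - rho) ^ 2 * E.card :=
      mul_le_mul_of_nonneg_right hth (by positivity)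
    calc (W.card : ℝ) * ((tau - rho) ^ 2 * n ^ 2) = (W.card : ℝ) * ((tau - rho) * n) ^ 2 := by ring
      _ ≤ n ^ 2 * (lam ^ 2 * E.card) := hsum
      _ ≤ n ^ 2 * (th * (tau - rho) ^ 2 * E.card) := mul_le_mul_of_nonneg_left h5 (by positivity)
      _ = _ := by ring
  exact le_of_mul_le_mul_right hfin hpos

/-! ## local codes and decoding -/

omit [Fintype I] in
/-- minimum distance at least `d` -/
def MinDist (C : Set (I → A)) (d : ℕ) : Prop :=
  ∀ u ∈ C, ∀ v ∈ C, u ≠ v → ∀ D : Finset I, (∀ z, u z ≠ v z → z ∈ D) → d ≤ D.card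

open Classical in
/-- unique decoding of a partially readable word with fewer than `t` errors (unreadable = error) -/
noncomputable def dec (C : Set (I → A)) (t : ℕ) (v : I → Option A) : Option (I → A) :=
  if h : ∃ u ∈ C, ∃ D : Finset I, (∀ z, v z ≠ some (u z) → z ∈ D) ∧ D.card < t then
    some h.choose else none

theorem dec_eq {C : Set (I → A)} {d t : ℕ} (hd : MinDist C d) (h2 : 2 * t ≤ d + 1) {u : I → A}
    (hu : u ∈ C) {v : I → Option A} {D : Finset I} (hD : ∀ z, v z ≠ some (u z) → z ∈ D)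
    (hDt : D.card < t) : dec C t v = some u := by
  classical
  have h : ∃ u ∈ C, ∃ D : Finset I, (∀ z, v z ≠ some (u z) → z ∈ D) ∧ D.card < t :=
    ⟨u, hu, D, hD, hDt⟩
  rw [dec, dif_pos h]
  obtain ⟨hu', D', hD', hDt'⟩ := h.choose_spec
  by_contra hne
  have hne' : h.choose ≠ u := fun e => hne (by rw [e])
  have := hd _ hu' _ hu hne' (D ∪ D') (by
    intro z hz
    rw [Finset.mem_union]
    by_contra hnot
    push Not at hnot
    have h1 : v z = some (u z) := by
      by_contra hh; exact hnot.1 (hD z hh)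
    have h3 : v z = some (h.choose z) := by
      by_contra hh; exact hnot.2 (hD' z hh)
    rw [h1] at h3
    exact hz (Option.some.inj h3).symm)
  have hcard := Finset.card_union_le D D'
  omega

variable {G : BG X Y I}

/-- labels: `none` = unreadable -/
abbrev Lab (X I A : Type*) := X → Option (I → A)

/-- decoding at the odd vertices -/
noncomputable def oddDec (G : BG X Y I) (C1 : Set (I → A)) (t1 : ℕ) (y : Lab X I A) (h : Y) :
    Option (I → A) :=
  dec C1 t1 fun z => (y (G.nx h z)).map fun l => l z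

/-- one decoding round: odd vertices decode, even vertices decode what they receive -/
noncomputable def round (G : BG X Y I) (C0 C1 : Set (I → A)) (t0 t1 : ℕ) (y : Lab X I A) :
    Lab X I A := fun g => dec C0 t0 fun z => (oddDec G C1 t1 y (G.ny g z)).map fun l => l z

/-- the same as a fixed function of the local view `z, z' ↦ y (nx (ny g z) z')` -/
noncomputable def locRound (C0 C1 : Set (I → A)) (t0 t1 : ℕ) (V : I → I → Option (I → A)) :
    Option (I → A) :=
  dec C0 t0 fun z => (dec C1 t1 fun z' => (V z z').map fun l => l z').map fun l => l z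

omit [Fintype X] [Fintype Y] [Fintype I] in
theorem round_eq_loc (G : BG X Y I) (C0 C1 : Set (I → A)) (t0 t1 : ℕ) (y : Lab X I A) (g : X) :
    round G C0 C1 t0 t1 y g = locRound C0 C1 t0 t1 fun z z' => y (G.nx (G.ny g z) z') := rfl

/-- code words of the bipartite graph -/
structure IsWord (G : BG X Y I) (C0 C1 : Set (I → A)) (c : X → I → A) : Prop where
  even : ∀ g, c g ∈ C0
  odd : ∀ h, (fun z => c (G.nx h z) z) ∈ C1

open Classical in
/-- the wrong (or unreadable) vertices -/
noncomputable def wrong (y : Lab X I A) (c : X → I → A) : Finset X :=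
  univ.filter fun g => y g ≠ some (c g)

theorem mem_wrong {y : Lab X I A} {c : X → I → A} {g : X} : g ∈ wrong y c ↔ y g ≠ some (c g) := by
  classical
  simp [wrong]

/-- hypotheses on the constants: `ρ < τ`, `τ n ≤ t`, `2 t ≤ d + 1`, `λ² ≤ θ (τ - ρ)²`, `θ ≤ 1` -/
structure Par (G : BG X Y I) (C0 C1 : Set (I → A)) (t0 t1 : ℕ) (lam rho th : ℝ) : Prop where
  cardXY : Fintype.card X = Fintype.card Y
  cardI : 0 < Fintype.card I
  exp1 : ExpAt G.nx lam
  exp0 : ExpAt G.ny lam
  dist : ∃ d0 d1, MinDist C0 d0 ∧ MinDist C1 d1 ∧ 2 * t0 ≤ d0 + 1 ∧ 2 * t1 ≤ d1 + 1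
  gap0 : rho * Fintype.card I < t0
  gap1 : rho * Fintype.card I < t1
  lam0 : (lam * Fintype.card I) ^ 2 ≤ th * (t0 - rho * Fintype.card I) ^ 2
  lam1 : (lam * Fintype.card I) ^ 2 ≤ th * (t1 - rho * Fintype.card I) ^ 2
  th1 : th ≤ 1

/-- `few` with an integer threshold -/
theorem few' {nb : Y → I → X} {lam : ℝ} (hr : Reg nb) (he : ExpAt nb lam)
    (hc : Fintype.card X = Fintype.card Y) (hI : 0 < Fintype.card I) [DecidableEq X]
    (E : Finset X) {rho th : ℝ} {t : ℕ} (hE : (E.card : ℝ) ≤ rho * Fintype.card X)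
    (hrt : rho * Fintype.card I < t)
    (hth : (lam * Fintype.card I) ^ 2 ≤ th * (t - rho * Fintype.card I) ^ 2) (W : Finset Y)
    (hW : ∀ y ∈ W, t ≤ (univ.filter fun z => nb y z ∈ E).card) :
    (W.card : ℝ) ≤ th * E.card := by
  have hn : (0 : ℝ) < Fintype.card I := by exact_mod_cast hI
  refine few hr he hc hI E (tau := t / Fintype.card I) hE ((lt_div_iff₀ hn).2 hrt) ?_ W ?_
  · have h1 : (t / Fintype.card I - rho : ℝ) = (t - rho * Fintype.card I) / Fintype.card I := by
      field_simp
    rw [h1, div_pow, ← mul_div_assoc, le_div_iff₀ (by positivity)]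
    calc lam ^ 2 * (Fintype.card I : ℝ) ^ 2 = (lam * Fintype.card I) ^ 2 := by ring
      _ ≤ _ := hth
  · intro y hy
    rw [div_mul_cancel₀ _ hn.ne']
    exact_mod_cast hW y hy

theorem round_le {C0 C1 : Set (I → A)} {t0 t1 : ℕ} {lam rho th : ℝ}
    (hp : Par G C0 C1 t0 t1 lam rho th) (hth0 : 0 ≤ th) {c : X → I → A} (hc : IsWord G C0 C1 c)
    (y : Lab X I A) (hE : ((wrong y c).card : ℝ) ≤ rho * Fintype.card X) :
    ((wrong (round G C0 C1 t0 t1 y) c).card : ℝ) ≤ th ^ 2 * (wrong y c).card := by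
  classical
  obtain ⟨d0, d1, hd0, hd1, h20, h21⟩ := hp.dist
  set E := wrong y c with hEdef
  -- wrong odd vertices
  let W1 : Finset Y := univ.filter fun h => t1 ≤ (univ.filter fun z => G.nx h z ∈ E).card
  have hodd : ∀ h, h ∉ W1 → oddDec G C1 t1 y h = some fun z => c (G.nx h z) z := by
    intro h hh
    have hh' : (univ.filter fun z => G.nx h z ∈ E).card < t1 := by
      by_contra hcon
      exact hh (by simp only [W1, Finset.mem_filter, Finset.mem_univ, true_and]; omega)
    refine dec_eq hd1 h21 (hc.odd h) (D := univ.filter fun z => G.nx h z ∈ E) ?_ hh'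
    intro z hz
    rw [Finset.mem_filter]
    refine ⟨Finset.mem_univ _, mem_wrong.2 fun hy => hz ?_⟩
    rw [hy]; exact Option.map_some ..
  have hW1 : (W1.card : ℝ) ≤ th * E.card :=
    few' G.reg_nx hp.exp1 hp.cardXY hp.cardI E hE hp.gap1 hp.lam1 W1 (by
      intro h hh; simpa [W1] using hh)
  have hE0 : (0 : ℝ) ≤ E.card := by positivity
  have hW1' : (W1.card : ℝ) ≤ rho * Fintype.card Y := by
    rw [← hp.cardXY]
    calc (W1.card : ℝ) ≤ th * E.card := hW1
      _ ≤ 1 * E.card := mul_le_mul_of_nonneg_right hp.th1 hE0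
      _ = E.card := one_mul _
      _ ≤ _ := hE
  have hsub : ∀ g ∈ wrong (round G C0 C1 t0 t1 y) c,
      t0 ≤ (univ.filter fun z => G.ny g z ∈ W1).card := by
    intro g hg
    by_contra hcon
    push Not at hcon
    refine mem_wrong.1 hg ?_
    refine dec_eq hd0 h20 (hc.even g) (D := univ.filter fun z => G.ny g z ∈ W1) ?_ hcon
    intro z hz
    rw [Finset.mem_filter]
    refine ⟨Finset.mem_univ _, ?_⟩
    by_contra hnot
    apply hz
    rw [hodd _ hnot]
    simp only [Option.map_some, G.nx_ny]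
  have hW0 := few' G.reg_ny hp.exp0 hp.cardXY.symm hp.cardI W1 hW1' hp.gap0 hp.lam0
    (wrong (round G C0 C1 t0 t1 y) c) hsub
  calc ((wrong (round G C0 C1 t0 t1 y) c).card : ℝ) ≤ th * W1.card := hW0
    _ ≤ th * (th * E.card) := mul_le_mul_of_nonneg_left hW1 hth0
    _ = _ := by ring

/-- `r` rounds -/
theorem rounds_le {C0 C1 : Set (I → A)} {t0 t1 : ℕ} {lam rho th : ℝ}
    (hp : Par G C0 C1 t0 t1 lam rho th) (hth0 : 0 ≤ th) {c : X → I → A} (hc : IsWord G C0 C1 c)
    (y : Lab X I A) (hE : ((wrong y c).card : ℝ) ≤ rho * Fintype.card X) (r : ℕ) :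
    ((wrong ((round G C0 C1 t0 t1)^[r] y) c).card : ℝ) ≤ th ^ (2 * r) * (wrong y c).card := by
  have hE0 : (0 : ℝ) ≤ (wrong y c).card := by positivity
  induction r with
  | zero => simp
  | succ r ih =>
    rw [Function.iterate_succ_apply']
    have h1 : th ^ (2 * r) ≤ 1 := pow_le_one₀ hth0 hp.th1
    have h2 : ((wrong ((round G C0 C1 t0 t1)^[r] y) c).card : ℝ) ≤ rho * Fintype.card X := by
      calc ((wrong ((round G C0 C1 t0 t1)^[r] y) c).card : ℝ) ≤ th ^ (2 * r) * (wrong y c).card := ih
        _ ≤ 1 * (wrong y c).card := mul_le_mul_of_nonneg_right h1 hE0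
        _ ≤ _ := by rw [one_mul]; exact hE
    calc ((wrong (round G C0 C1 t0 t1 ((round G C0 C1 t0 t1)^[r] y)) c).card : ℝ)
        ≤ th ^ 2 * (wrong ((round G C0 C1 t0 t1)^[r] y) c).card := round_le hp hth0 hc _ h2
      _ ≤ th ^ 2 * (th ^ (2 * r) * (wrong y c).card) := mul_le_mul_of_nonneg_left ih (by positivity)
      _ = _ := by ring

/-! ## maps of bounded locality multiply errors by the number of neighbours -/

/-- if `F y g` depends only on the labels of `y` at `σ_i g` (`i` in a finite set, `σ_i` injective),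
wrong sets grow by at most the factor `#ι` -/
theorem local_le {ι B : Type*} [Fintype ι] (σ : ι → X → X) (hσ : ∀ i, Function.Injective (σ i))
    (F : (ι → Option (I → A)) → Option (I → B)) (c : X → I → A) (c' : X → I → B)
    (hF : ∀ g, F (fun i => some (c (σ i g))) = some (c' g)) (y : Lab X I A) :
    (wrong (fun g => F fun i => y (σ i g)) c').card ≤ Fintype.card ι * (wrong y c).card := by
  classical
  have hsub : wrong (fun g => F fun i => y (σ i g)) c' ⊆
      univ.biUnion fun i : ι => univ.filter fun g => σ i g ∈ wrong y c := by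
    intro g hg
    rw [Finset.mem_biUnion]
    by_contra hcon
    push Not at hcon
    apply mem_wrong.1 hg
    have : (fun i => y (σ i g)) = fun i => some (c (σ i g)) := by
      funext i
      by_contra hne
      exact hcon i (Finset.mem_univ _) (by
        rw [Finset.mem_filter]; exact ⟨Finset.mem_univ _, mem_wrong.2 hne⟩)
    rw [this]; exact hF g
  refine (Finset.card_le_card hsub).trans (Finset.card_biUnion_le.trans ?_)
  calc ∑ i : ι, (univ.filter fun g => σ i g ∈ wrong y c).card ≤ ∑ _i : ι, (wrong y c).card := by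
        refine Finset.sum_le_sum fun i _ => ?_
        refine Finset.card_le_card_of_injOn (σ i) ?_ (hσ i).injOn
        intro g hg
        simpa using hg
    _ = _ := by rw [Finset.sum_const, Finset.card_univ, smul_eq_mul]

/-- error control in a slaved chain: layer `j+1` is computed from layer `j` (factor `C`), corrected
(factor `κ`), and a fixed set of `F` bad units may be wrong in every layer -/
theorem chain_le {F C kap : ℝ} (hF : 0 ≤ F) (hC : 0 ≤ C) (hk : 0 ≤ kap) (hk1 : kap * (1 + 2 * C) ≤ 1)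
    (w : ℕ → ℝ) (h0 : w 0 ≤ 2 * F) (hs : ∀ j, w j ≤ 2 * F → w (j + 1) ≤ F + kap * (F + C * w j)) :
    ∀ j, w j ≤ 2 * F := by
  intro j
  induction j with
  | zero => exact h0
  | succ j ih =>
    have h1 := hs j ih
    have h2 : C * w j ≤ C * (2 * F) := mul_le_mul_of_nonneg_left ih hC
    have h3 : kap * (F + C * w j) ≤ kap * (F + C * (2 * F)) :=
      mul_le_mul_of_nonneg_left (by linarith) hk
    have h4 : kap * (F + C * (2 * F)) = (kap * (1 + 2 * C)) * F := by ring
    have h5 : (kap * (1 + 2 * C)) * F ≤ 1 * F := mul_le_mul_of_nonneg_right hk1 hF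
    linarith

/-! ## the Cayley graphs -/

section cayley
variable {P : Type*} [Group P] (al : I → P)

omit [Fintype I] in
/-- right graph `g — g * al z` -/
def rightBG : BG P P I where
  nx h z := h * (al z)⁻¹
  ny g z := g * al z
  nx_ny g z := by simp
  ny_nx h z := by simp

omit [Fintype I] in
/-- left graph `g — al z * g` -/
def leftBG : BG P P I where
  nx h z := (al z)⁻¹ * h
  ny g z := al z * g
  nx_ny g z := by simp
  ny_nx h z := by simp

variable [Fintype P]

/-- inversion carries the right expansion of `al` to the left expansion of `al⁻¹` -/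
theorem exp_left_of_right {lam : ℝ}
    (h : ExpAt (fun (v : P) z => v * al z) lam) :
    ExpAt (fun (v : P) z => (al z)⁻¹ * v) lam := by
  intro f
  have key := h (fun g => f g⁻¹)
  have e1 : ∑ y : P, (∑ z, f ((y * al z)⁻¹)) ^ 2 = ∑ y : P, (∑ z, f ((al z)⁻¹ * y)) ^ 2 := by
    rw [← Equiv.sum_comp (Equiv.inv P)]
    simp
  have e2 : ∑ x : P, f x⁻¹ = ∑ x : P, f x := Equiv.sum_comp (Equiv.inv P) f
  have e3 : ∑ x : P, f x⁻¹ ^ 2 = ∑ x : P, f x ^ 2 := Equiv.sum_comp (Equiv.inv P) fun x => f x ^ 2
  simp only at key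
  rw [e1, e2, e3] at key
  exact key

end cayley

end Crest.Agent.R289.Contr248
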