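import Mathlib

/-!
A.UNIQ (row 289): polynomial core of the base uniqueness of the two-place code
(proof text: helper903 #6378 = lowest and highest exponent; interface: helper975 #6315).
-/

namespace Crest.Agent.R289.Core186

open Polynomial

variable {K : Type*} [Field K]

/-! ### one-variable lemmas -/

lemma cop (u : K) (n m : ℕ) : IsCoprime ((1 + C u * X : K[X]) ^ n) (X ^ m) := by
  apply IsCoprime.pow
  exact ⟨1, -C u, by ring⟩

lemma cop2 {u v : K} (huv : u ≠ v) (n m : ℕ) :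
    IsCoprime ((1 + C u * X : K[X]) ^ n) ((1 + C v * X) ^ m) := by
  apply IsCoprime.pow
  have h : v - u ≠ 0 := sub_ne_zero.2 (Ne.symm huv)
  refine ⟨C (v - u)⁻¹ * C v, - (C (v - u)⁻¹ * C u), ?_⟩
  have h1 : (C (v - u)⁻¹ * C v * (1 + C u * X) + -(C (v - u)⁻¹ * C u) * (1 + C v * X) : K[X])
      = C (v - u)⁻¹ * (C v - C u) := by ring
  rw [h1, ← C_sub, ← C_mul, inv_mul_cancel₀ h, C_1]

lemma lin_ne (u : K) : (1 + C u * X : K[X]) ≠ 0 := by
  intro h
  have := congrArg (fun P => P.coeff 0) h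
  simp at this

lemma natDegree_lin {u : K} (hu : u ≠ 0) : (1 + C u * X : K[X]).natDegree = 1 := by
  rw [add_comm, ← C_1]
  exact natDegree_linear hu

lemma zero_of_window {u : K} (hu : u ≠ 0) {n a : ℕ} {A : K[X]} (hd : (1 + C u * X) ^ n ∣ A)
    (hlo : ∀ k < a, A.coeff k = 0) (hhi : ∀ k, a + n ≤ k → A.coeff k = 0) : A = 0 := by
  obtain ⟨B, rfl⟩ := X_pow_dvd_iff.2 hlo
  have h1 : (1 + C u * X) ^ n ∣ B := (cop u n a).dvd_of_dvd_mul_left hd
  by_contra h0
  have hB : B ≠ 0 := by rintro rfl; simp at h0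
  have h2 : n ≤ B.natDegree := by
    have := natDegree_le_of_dvd h1 hB
    rwa [natDegree_pow, natDegree_lin hu, mul_one] at this
  have h3 := hhi (B.natDegree + a) (by omega)
  rw [coeff_X_pow_mul] at h3
  exact hB (leadingCoeff_eq_zero.1 h3)

/-- low digits -/
noncomputable def lowd (q m : ℕ) (U : K[X]) : K[X] :=
  ∑ k ∈ Finset.range q, C (U.coeff (m + k)) * X ^ k

lemma coeff_lowd (q m : ℕ) (U : K[X]) (k : ℕ) :
    (lowd q m U).coeff k = if k < q then U.coeff (m + k) else 0 := by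
  rw [lowd, finsetSum_coeff]
  simp only [coeff_C_mul, coeff_X_pow, mul_ite, mul_one, mul_zero]
  rw [Finset.sum_ite_eq (Finset.range q) k]
  simp

lemma digits {q m : ℕ} {U : K[X]} (hlo : ∀ i < m, U.coeff i = 0)
    (hhi : ∀ i, m + 2 * q ≤ i → U.coeff i = 0) :
    U = X ^ m * (lowd q m U + X ^ q * lowd q (m + q) U) := by
  ext i
  rw [coeff_X_pow_mul']
  split_ifs with h1
  · rw [coeff_add, coeff_X_pow_mul', coeff_lowd, coeff_lowd]
    by_cases h2 : i - m < q
    · rw [if_pos h2, if_neg (by omega), add_zero]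
      congr 1; omega
    · rw [if_neg h2, if_pos (by omega), zero_add]
      split_ifs with h3
      · congr 1; omega
      · exact hhi i (by omega)
  · exact hlo i (by omega)

lemma dig_rel {q : ℕ} {u : K} (hu : u ≠ 0)
    (hF : (1 + C u * X : K[X]) ^ q = 1 + C (u ^ q) * X ^ q) {n m : ℕ} (hn : n ≤ q)
    {A B : K[X]} (hA : ∀ k, n ≤ k → A.coeff k = 0) (hB : ∀ k, n ≤ k → B.coeff k = 0)
    (hd : (1 + C u * X) ^ n ∣ X ^ m * (A + X ^ q * B)) : B = C (u ^ q) * A := by
  have h1 : (1 + C u * X) ^ n ∣ A + X ^ q * B := (cop u n m).dvd_of_dvd_mul_left hd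
  have h2 : (1 + C u * X) ^ n ∣ 1 + C (u ^ q) * X ^ q := hF ▸ pow_dvd_pow _ hn
  have h3 : (1 + C u * X) ^ n ∣ C (u ^ q) * A - B := by
    have : C (u ^ q) * A - B = C (u ^ q) * (A + X ^ q * B) - B * (1 + C (u ^ q) * X ^ q) := by
      ring
    rw [this]
    exact dvd_sub (h1.mul_left _) (h2.mul_left _)
  have h4 := zero_of_window hu (a := 0) h3 (by intro k hk; omega)
    (by intro k hk; rw [coeff_sub, coeff_C_mul, hA k (by omega), hB k (by omega)]; simp)
  exact (sub_eq_zero.1 h4).symm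

lemma dig_rel2 {q : ℕ} {u : K} (hu : u ≠ 0)
    (hF : (1 + C u * X : K[X]) ^ q = 1 + C (u ^ q) * X ^ q) {n m : ℕ}
    {A B : K[X]} (hA : ∀ k, q ≤ k → A.coeff k = 0) (hB : ∀ k, q ≤ k → B.coeff k = 0)
    (hd : (1 + C u * X) ^ (q + n) ∣ X ^ m * (A + X ^ q * B)) :
    B = C (u ^ q) * A ∧ (1 + C u * X) ^ n ∣ A := by
  have h1 := dig_rel hu hF le_rfl hA hB (dvd_trans (pow_dvd_pow _ (by omega)) hd)
  refine ⟨h1, ?_⟩
  subst h1
  have h0 : X ^ m * (A + X ^ q * (C (u ^ q) * A)) = (1 + C u * X) ^ q * (X ^ m * A) := by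
    rw [hF]; ring
  rw [h0, pow_add] at hd
  have h2 := (mul_dvd_mul_iff_left (pow_ne_zero q (lin_ne u))).1 hd
  exact (cop u n m).dvd_of_dvd_mul_left h2

lemma digit_zero {q : ℕ} {A B : K[X]} (hA : ∀ k, q ≤ k → A.coeff k = 0)
    (h : A + X ^ q * B = 0) : A = 0 ∧ B = 0 := by
  have hA0 : A = 0 := by
    ext k
    by_cases hk : q ≤ k
    · exact hA k hk
    · have h1 := congrArg (fun P => P.coeff k) h
      simpa [coeff_X_pow_mul', hk] using h1
  subst hA0
  refine ⟨rfl, ?_⟩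
  rw [zero_add] at h
  exact (mul_eq_zero.1 h).resolve_left (pow_ne_zero _ X_ne_zero)

/-! ### windows -/

/-- cubic polynomial with given coefficients -/
noncomputable def P4 (a b c d : K) : K[X] := C a + C b * X + C c * X ^ 2 + C d * X ^ 3

lemma P4_coeff (a b c d : K) : (P4 a b c d).coeff 0 = a ∧ (P4 a b c d).coeff 1 = b ∧
    (P4 a b c d).coeff 2 = c ∧ (P4 a b c d).coeff 3 = d := by
  refine ⟨?_, ?_, ?_, ?_⟩ <;> simp [P4, coeff_X, coeff_C]

lemma P4_zero {a b c d : K} (h : P4 a b c d = 0) : a = 0 ∧ b = 0 ∧ c = 0 ∧ d = 0 := by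
  obtain ⟨h0, h1, h2, h3⟩ := P4_coeff a b c d
  rw [h] at h0 h1 h2 h3
  simp only [coeff_zero] at h0 h1 h2 h3
  exact ⟨h0.symm, h1.symm, h2.symm, h3.symm⟩

lemma P4_natDegree (a b c d : K) : (P4 a b c d).natDegree ≤ 3 := by
  unfold P4
  compute_degree

lemma natDegree_subpow (r : K) (n : ℕ) : ((X - C r : K[X]) ^ n).natDegree = n := by
  rw [natDegree_pow, natDegree_X_sub_C, mul_one]

lemma W4 {a b c d r : K} {n : ℕ} (hn : 4 ≤ n) (h : (X - C r) ^ n ∣ P4 a b c d) :
    a = 0 ∧ b = 0 ∧ c = 0 ∧ d = 0 := by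
  apply P4_zero
  apply eq_zero_of_dvd_of_natDegree_lt h
  rw [natDegree_subpow]
  have := P4_natDegree a b c d
  omega

lemma copX {r : K} (hr : r ≠ 0) (n : ℕ) : IsCoprime ((X - C r : K[X]) ^ n) X := by
  apply IsCoprime.pow_left
  refine ⟨-C r⁻¹, C r⁻¹, ?_⟩
  have : (-C r⁻¹ * (X - C r) + C r⁻¹ * X : K[X]) = C r⁻¹ * C r := by ring
  rw [this, ← C_mul, inv_mul_cancel₀ hr, C_1]

lemma W3 {b c d r : K} (hr : r ≠ 0) {n : ℕ} (hn : 3 ≤ n) (h : (X - C r) ^ n ∣ P4 0 b c d) :
    b = 0 ∧ c = 0 ∧ d = 0 := by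
  have h0 : P4 0 b c d = X * (P4 b c d 0) := by simp only [P4, map_zero]; ring
  rw [h0] at h
  have h1 := (copX hr n).dvd_of_dvd_mul_left h
  have h2 : P4 b c d 0 = 0 := by
    apply eq_zero_of_dvd_of_natDegree_lt h1
    rw [natDegree_subpow]
    have : (P4 b c d 0).natDegree ≤ 2 := by
      unfold P4
      rw [C_0, zero_mul, add_zero]
      compute_degree
    omega
  obtain ⟨h3, h4, h5, -⟩ := P4_zero h2
  exact ⟨h3, h4, h5⟩

lemma W2 {b c r : K} (hr : r ≠ 0) {n : ℕ} (hn : 2 ≤ n) (h : (X - C r) ^ n ∣ P4 0 b c 0) :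
    b = 0 ∧ c = 0 := by
  have h0 : P4 0 b c 0 = X * (P4 b c 0 0) := by simp only [P4, map_zero]; ring
  rw [h0] at h
  have h1 := (copX hr n).dvd_of_dvd_mul_left h
  have h2 : P4 b c 0 0 = 0 := by
    apply eq_zero_of_dvd_of_natDegree_lt h1
    rw [natDegree_subpow]
    have : (P4 b c 0 0).natDegree ≤ 1 := by
      unfold P4
      rw [C_0, zero_mul, add_zero, zero_mul, add_zero]
      compute_degree
    omega
  obtain ⟨h3, h4, -, -⟩ := P4_zero h2
  exact ⟨h3, h4⟩

lemma W1 {b c r : K} (hr : r ≠ 0) {n : ℕ} (hn : 1 ≤ n) (h : (X - C r) ^ n ∣ P4 0 b c 0) :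
    b + c * r = 0 := by
  have h1 : (X - C r) ∣ P4 0 b c 0 := dvd_trans (dvd_pow_self _ (by omega)) h
  rw [dvd_iff_isRoot, IsRoot.def] at h1
  simp only [P4, eval_add, eval_mul, eval_C, eval_X, eval_pow] at h1
  have h2 : r * (b + c * r) = 0 := by linear_combination h1
  exact (mul_eq_zero.1 h2).resolve_left hr

/-! ### lowest and highest coefficient -/

lemma low_dvd {u : K} {m n : ℕ} {B : K[X]} (h : X ^ n ∣ (1 + C u * X) ^ m * B) : X ^ n ∣ B :=
  (cop u m n).symm.dvd_of_dvd_mul_left h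

lemma low_coeff {u : K} {m n : ℕ} {B : K[X]} (h : X ^ n ∣ B) :
    ((1 + C u * X) ^ m * B).coeff n = B.coeff n := by
  obtain ⟨D, rfl⟩ := h
  have h1 : (1 + C u * X) ^ m * (X ^ n * D) = X ^ n * ((1 + C u * X) ^ m * D) := by ring
  rw [h1]
  have h2 := coeff_X_pow_mul ((1 + C u * X) ^ m * D) n 0
  have h3 := coeff_X_pow_mul D n 0
  rw [zero_add] at h2 h3
  rw [h2, h3, mul_coeff_zero, coeff_zero_eq_eval_zero, eval_pow]
  simp

lemma natDegree_linpow {u : K} (hu : u ≠ 0) (m : ℕ) : ((1 + C u * X : K[X]) ^ m).natDegree = m := by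
  rw [natDegree_pow, natDegree_lin hu, mul_one]

lemma coeff_linpow {u : K} (hu : u ≠ 0) (m : ℕ) : ((1 + C u * X : K[X]) ^ m).coeff m = u ^ m := by
  have h1 : (1 + C u * X : K[X]).leadingCoeff = u := by
    rw [leadingCoeff, natDegree_lin hu]
    simp [coeff_one]
  have h2 := leadingCoeff_pow (1 + C u * X : K[X]) m
  rw [h1, leadingCoeff, natDegree_linpow hu] at h2
  exact h2

lemma top_supp {u : K} (hu : u ≠ 0) {m n : ℕ} {B : K[X]}
    (h : ∀ i, n < i → ((1 + C u * X) ^ m * B).coeff i = 0) :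
    ∀ i, n < i + m → B.coeff i = 0 := by
  by_cases hB : B = 0
  · subst hB; simp
  intro i hi
  apply coeff_eq_zero_of_natDegree_lt
  have h1 : ((1 + C u * X) ^ m * B).natDegree = m + B.natDegree := by
    rw [natDegree_mul (pow_ne_zero _ (lin_ne u)) hB, natDegree_linpow hu]
  have h2 : m + B.natDegree ≤ n := by
    by_contra h3
    have h4 := h _ (not_le.1 h3)
    rw [← h1] at h4
    exact mul_ne_zero (pow_ne_zero _ (lin_ne u)) hB (leadingCoeff_eq_zero.1 h4)
  omega

lemma top_coeff {u : K} (hu : u ≠ 0) {m n : ℕ} {B : K[X]} (hm : m ≤ n)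
    (h : ∀ i, n < i + m → B.coeff i = 0) :
    ((1 + C u * X) ^ m * B).coeff n = u ^ m * B.coeff (n - m) := by
  have h1 : B.natDegree ≤ n - m := by
    rw [natDegree_le_iff_coeff_eq_zero]
    intro i hi
    exact h i (by omega)
  have h2 := coeff_mul_add_eq_of_natDegree_le (natDegree_linpow hu m).le h1
  rw [coeff_linpow hu] at h2
  rwa [show m + (n - m) = n by omega] at h2

lemma bot_supp {u : K} {m n : ℕ} {B : K[X]} (h : X ^ n ∣ B) :
    ∀ i, i < n → ((1 + C u * X) ^ m * B).coeff i = 0 :=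
  X_pow_dvd_iff.1 (h.mul_left _)

lemma top_supp' {u : K} {m n : ℕ} {B : K[X]} (hu : u ≠ 0)
    (h : ∀ i, n < i + m → B.coeff i = 0) :
    ∀ i, n < i → ((1 + C u * X) ^ m * B).coeff i = 0 := by
  intro i hi
  by_cases hB : B = 0
  · subst hB; simp
  apply coeff_eq_zero_of_natDegree_lt
  rw [natDegree_mul (pow_ne_zero _ (lin_ne u)) hB, natDegree_linpow hu]
  by_contra h1
  have h2 := h B.natDegree (by omega)
  exact hB (leadingCoeff_eq_zero.1 h2)

/-! ### cubic window polynomials -/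

/-- window polynomial -/
noncomputable def WP (f : ℕ → K) : K[X] := ∑ j ∈ Finset.range 4, C (f j) * X ^ j

lemma WP_natDegree (f : ℕ → K) : (WP f).natDegree ≤ 3 := by
  unfold WP
  apply natDegree_sum_le_of_forall_le
  intro j hj
  exact le_trans (natDegree_C_mul_X_pow_le _ _) (by have := Finset.mem_range.1 hj; omega)

lemma WP_coeff (f : ℕ → K) {j : ℕ} (hj : j < 4) : (WP f).coeff j = f j := by
  rw [WP, finsetSum_coeff]
  simp only [coeff_C_mul, coeff_X_pow, mul_ite, mul_one, mul_zero]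
  rw [Finset.sum_ite_eq (Finset.range 4) j, if_pos (Finset.mem_range.2 hj)]

lemma WP_ne (f : ℕ → K) {j : ℕ} (hj : j < 4) (h : f j ≠ 0) : WP f ≠ 0 := by
  intro h0
  apply h
  rw [← WP_coeff f hj, h0, coeff_zero]

lemma mult_le {P : K[X]} (hP : P ≠ 0) (hd : P.natDegree ≤ 3) {a b : K} (hab : a ≠ b) {e : ℕ}
    (h1 : (X - C a) ^ e ∣ P) (h2 : (X - C b) ^ e ∣ P) : e ≤ 1 := by
  have hc : IsCoprime ((X - C a) ^ e) ((X - C b) ^ e) :=
    (isCoprime_X_sub_C_of_isUnit_sub (sub_ne_zero.2 hab).isUnit).pow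
  have h3 := hc.mul_dvd h1 h2
  have h4 := natDegree_le_of_dvd h3 hP
  rw [natDegree_mul (pow_ne_zero _ (X_sub_C_ne_zero a)) (pow_ne_zero _ (X_sub_C_ne_zero b)),
    natDegree_subpow, natDegree_subpow] at h4
  omega

/-- two adjacent positions `l, l+1` -/
lemma WP_two (f : ℕ → K) {l : ℕ} (hl : l < 3) (h : ∀ j < 4, j ≠ l → j ≠ l + 1 → f j = 0) :
    WP f = X ^ l * (C (f l) + C (f (l + 1)) * X) := by
  have hs : WP f = C (f 0) * X ^ 0 + C (f 1) * X ^ 1 + C (f 2) * X ^ 2 + C (f 3) * X ^ 3 := by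
    simp [WP, Finset.sum_range_succ]
  rw [hs]
  interval_cases l
  · rw [h 2 (by norm_num) (by norm_num) (by norm_num), h 3 (by norm_num) (by norm_num) (by norm_num)]
    simp only [C_0]; ring
  · rw [h 0 (by norm_num) (by norm_num) (by norm_num), h 3 (by norm_num) (by norm_num) (by norm_num)]
    simp only [C_0]; ring
  · rw [h 0 (by norm_num) (by norm_num) (by norm_num), h 1 (by norm_num) (by norm_num) (by norm_num)]
    simp only [C_0]; ring

lemma two_root {f : ℕ → K} {l : ℕ} (hl : l < 3) (h : ∀ j < 4, j ≠ l → j ≠ l + 1 → f j = 0)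
    {a : K} (ha : a ≠ 0) {e : ℕ} (he : 1 ≤ e) (hd : (X - C a) ^ e ∣ WP f) :
    f l + f (l + 1) * a = 0 := by
  have h1 : (X - C a) ∣ WP f := dvd_trans (dvd_pow_self _ (by omega)) hd
  rw [WP_two f hl h, dvd_iff_isRoot, IsRoot.def] at h1
  simp only [eval_add, eval_mul, eval_C, eval_X, eval_pow] at h1
  exact (mul_eq_zero.1 h1).resolve_left (pow_ne_zero _ ha)

lemma two_double {f : ℕ → K} {l : ℕ} (hl : l < 3) (h : ∀ j < 4, j ≠ l → j ≠ l + 1 → f j = 0)
    {a : K} (ha : a ≠ 0) {e : ℕ} (he : 2 ≤ e) (hd : (X - C a) ^ e ∣ WP f) :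
    f l = 0 ∧ f (l + 1) = 0 := by
  rw [WP_two f hl h] at hd
  have h1 : (X - C a) ^ e ∣ C (f l) + C (f (l + 1)) * X :=
    ((copX ha e).pow_right (n := l)).dvd_of_dvd_mul_left hd
  have h2 : C (f l) + C (f (l + 1)) * X = 0 := by
    apply eq_zero_of_dvd_of_natDegree_lt h1
    rw [natDegree_subpow]
    have : (C (f l) + C (f (l + 1)) * X).natDegree ≤ 1 := by compute_degree
    omega
  constructor
  · have := congrArg (fun P => P.coeff 0) h2
    simpa using this
  · have := congrArg (fun P => P.coeff 1) h2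
    simpa [coeff_C] using this

lemma centred (Q a : ℕ) (hQ : 0 < Q) :
    ∃ e t : ℕ, 2 * e ≤ Q ∧ (a = Q * t + e ∨ a + e = Q * t) := by
  have h1 := Nat.div_add_mod a Q
  have h2 := Nat.mod_lt a hQ
  by_cases h : 2 * (a % Q) ≤ Q
  · exact ⟨a % Q, a / Q, h, Or.inl h1.symm⟩
  · refine ⟨Q - a % Q, a / Q + 1, by omega, Or.inr ?_⟩
    rw [mul_add, mul_one]
    omega

lemma WP_congr {f g : ℕ → K} (h : ∀ j < 4, f j = g j) : WP f = WP g := by
  unfold WP
  apply Finset.sum_congr rfl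
  intro j hj
  rw [h j (Finset.mem_range.1 hj)]

lemma WP_scale {f f' : ℕ → K} {c g a : K} (hg : g ≠ 0) (h : ∀ j < 4, f j = c * g ^ j * f' j)
    {e : ℕ} (hd : (X - C a) ^ e ∣ WP f') : (X - C (a / g)) ^ e ∣ WP f := by
  obtain ⟨D, hD⟩ := hd
  have h1 : WP f = C c * (WP f').comp (C g * X) := by
    rw [WP_congr h]
    simp only [WP, Finset.sum_range_succ, Finset.sum_range_zero, C_mul, C_pow, zero_add,
      add_comp, mul_comp, C_comp, pow_comp, X_comp]
    ring
  have h2 : (C g * X - C a : K[X]) = C g * (X - C (a / g)) := by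
    rw [mul_sub, ← C_mul, mul_div_cancel₀ _ hg]
  rw [h1, hD, mul_comp, pow_comp, sub_comp, X_comp, C_comp, h2, mul_pow]
  exact ⟨C c * C g ^ e * D.comp (C g * X), by ring⟩

lemma sparse {u : K} (hu : u ≠ 0) {q n : ℕ} (hq : 3 ≤ q)
    (hF : (1 + C u * X : K[X]) ^ q = 1 + C (u ^ q) * X ^ q) {U : K[X]}
    (hlo : ∀ i < n, U.coeff i = 0) (hmid : ∀ i, n + 2 ≤ i → i < n + q → U.coeff i = 0)
    (hhi : ∀ i, n + q + 1 < i → U.coeff i = 0) (hd : (1 + C u * X) ^ 2 ∣ U) :
    U.coeff (n + q) = u ^ q * U.coeff n := by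
  have h1 := digits (q := q) hlo (fun i hi => hhi i (by omega))
  rw [h1] at hd
  have h2 := dig_rel hu hF (n := 2) (by omega) (A := lowd q n U) (B := lowd q (n + q) U)
    (by
      intro k hk
      rw [coeff_lowd]
      split_ifs with h
      · exact hmid _ (by omega) (by omega)
      · rfl)
    (by
      intro k hk
      rw [coeff_lowd]
      split_ifs with h
      · exact hhi _ (by omega)
      · rfl) hd
  have h3 := congrArg (fun P => P.coeff 0) h2
  simp only [coeff_C_mul, coeff_lowd] at h3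
  rw [if_pos (by omega), if_pos (by omega)] at h3
  simpa using h3

/-- input of the core for one torus class `r` -/
structure Core (q r : ℕ) (x y : K) (A A' B : ℕ → K[X]) : Prop where
  lo : ∀ j < 4, r + (q + 1) * j ≤ 2 * q - 2 →
    A j = (1 + C x * X) ^ (2 * q - 2 - (r + (q + 1) * j)) * B j ∧
    A' j = (1 + C y * X) ^ (2 * q - 2 - (r + (q + 1) * j)) * B j
  hi : ∀ j < 4, 2 * q - 2 ≤ r + (q + 1) * j →
    A j = (1 + C y * X) ^ (r + (q + 1) * j - (2 * q - 2)) * B j ∧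
    A' j = (1 + C x * X) ^ (r + (q + 1) * j - (2 * q - 2)) * B j
  deg : ∀ j < 4, ∀ i, 2 * q - 2 < i + ((2 * q - 2 - (r + (q + 1) * j)) +
    (r + (q + 1) * j - (2 * q - 2))) → (B j).coeff i = 0
  wp : ∀ i e t : ℕ, i ≤ 2 * q - 2 → 2 * e ≤ q + 1 → r + i + 6 = (q + 1) * t + e →
    (X - C x) ^ e ∣ WP (fun j => (A j).coeff i)
  wm : ∀ i e t : ℕ, i ≤ 2 * q - 2 → 2 * e ≤ q + 1 → r + i + 6 + e = (q + 1) * t →
    (X - C (x ^ q)) ^ e ∣ WP (fun j => (A j).coeff i)
  wp' : ∀ i e t : ℕ, i ≤ 2 * q - 2 → 2 * e ≤ q + 1 → r + i + 6 = (q + 1) * t + e →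
    (X - C y) ^ e ∣ WP (fun j => (A' j).coeff i)
  wm' : ∀ i e t : ℕ, i ≤ 2 * q - 2 → 2 * e ≤ q + 1 → r + i + 6 + e = (q + 1) * t →
    (X - C (y ^ q)) ^ e ∣ WP (fun j => (A' j).coeff i)

lemma Core.uv {q r : ℕ} {x y : K} (hx : x ≠ 0) (hy : y ≠ 0) {A A' B : ℕ → K[X]}
    (H : Core q r x y A A' B) {j : ℕ} (hj : j < 4) :
    ∃ u v : K, u ≠ 0 ∧ v ≠ 0 ∧
      A j = (1 + C u * X) ^ ((2 * q - 2 - (r + (q + 1) * j)) + (r + (q + 1) * j - (2 * q - 2))) * B j ∧
      A' j = (1 + C v * X) ^ ((2 * q - 2 - (r + (q + 1) * j)) + (r + (q + 1) * j - (2 * q - 2))) * B j ∧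
      x ^ (2 * q - 2) * y ^ (r + (q + 1) * j) *
        v ^ ((2 * q - 2 - (r + (q + 1) * j)) + (r + (q + 1) * j - (2 * q - 2))) =
      y ^ (2 * q - 2) * x ^ (r + (q + 1) * j) *
        u ^ ((2 * q - 2 - (r + (q + 1) * j)) + (r + (q + 1) * j - (2 * q - 2))) := by
  generalize hN : r + (q + 1) * j = N
  by_cases h : N ≤ 2 * q - 2
  · obtain ⟨h1, h2⟩ := H.lo j hj (by rw [hN]; exact h)
    rw [hN] at h1 h2
    refine ⟨x, y, hx, hy, ?_, ?_, ?_⟩
    · rw [Nat.sub_eq_zero_of_le h, add_zero]; exact h1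
    · rw [Nat.sub_eq_zero_of_le h, add_zero]; exact h2
    · rw [Nat.sub_eq_zero_of_le h, add_zero, mul_assoc, mul_assoc, ← pow_add, ← pow_add,
        Nat.add_sub_cancel' h]
      ring
  · have h' : 2 * q - 2 ≤ N := by omega
    obtain ⟨h1, h2⟩ := H.hi j hj (by rw [hN]; exact h')
    rw [hN] at h1 h2
    refine ⟨y, x, hy, hx, ?_, ?_, ?_⟩
    · rw [Nat.sub_eq_zero_of_le h', zero_add]; exact h1
    · rw [Nat.sub_eq_zero_of_le h', zero_add]; exact h2
    · rw [Nat.sub_eq_zero_of_le h', zero_add]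
      have e1 : N = (2 * q - 2) + (N - (2 * q - 2)) := by omega
      generalize N - (2 * q - 2) = k at e1 ⊢
      rw [e1, pow_add, pow_add]
      ring

set_option maxHeartbeats 2000000 in
/-- one torus class -/
theorem core_r {q r : ℕ} (hq : 11 ≤ q) (hr : r ≤ q) {x y : K} (hx : x ≠ 0) (hy : y ≠ 0)
    (hxy : x ≠ y) (hbar : x ^ q ≠ y ^ q)
    (hFx : (1 + C x * X : K[X]) ^ q = 1 + C (x ^ q) * X ^ q)
    (hFy : (1 + C y * X : K[X]) ^ q = 1 + C (y ^ q) * X ^ q)
    {A A' B : ℕ → K[X]} (H : Core q r x y A A' B) :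
    (∀ j < 4, A j = 0) ∨
      (r + 3 = q ∧ (∀ j < 4, j ≠ 1 → A j = 0) ∧ ∃ c, A 1 = C c * X ^ (q - 1)) := by
  classical
  by_cases hall : ∀ j < 4, A j = 0
  · exact Or.inl hall
  right
  push Not at hall
  obtain ⟨j0, hj0, hA0⟩ := hall
  have hxq : x ^ q ≠ 0 := pow_ne_zero _ hx
  have hyq : y ^ q ≠ 0 := pow_ne_zero _ hy
  have hAdeg : ∀ j < 4, ∀ i, 2 * q - 2 < i → (A j).coeff i = 0 := by
    intro j hj
    obtain ⟨u, v, hu, hv, h1, h2, h3⟩ := H.uv hx hy hj
    rw [h1]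
    exact top_supp' hu (H.deg j hj)
  let S := (Finset.range (2 * q - 1)).filter (fun i => ∃ j < 4, (A j).coeff i ≠ 0)
  have hmemS : ∀ i, i ∈ S ↔ (i < 2 * q - 1 ∧ ∃ j < 4, (A j).coeff i ≠ 0) := by
    intro i
    simp only [S, Finset.mem_filter, Finset.mem_range]
  have hS : S.Nonempty := by
    obtain ⟨i, hi⟩ : ∃ i, (A j0).coeff i ≠ 0 := by
      by_contra h
      push Not at h
      exact hA0 (Polynomial.ext (fun i => by rw [h i, coeff_zero]))
    refine ⟨i, (hmemS i).2 ⟨?_, j0, hj0, hi⟩⟩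
    by_contra h
    exact hi (hAdeg j0 hj0 i (by omega))
  obtain ⟨n1, hn1S, hn1⟩ := Finset.exists_min_image S id hS
  obtain ⟨n2, hn2S, hn2⟩ := Finset.exists_max_image S id hS
  simp only [id] at hn1 hn2
  have hn12 : n1 ≤ n2 := hn1 n2 hn2S
  have hn2s : n2 ≤ 2 * q - 2 := by
    have := ((hmemS n2).1 hn2S).1
    omega
  have hlow : ∀ j < 4, ∀ i, i < n1 → (A j).coeff i = 0 := by
    intro j hj i hi
    by_contra h
    have := hn1 i ((hmemS i).2 ⟨by omega, j, hj, h⟩)
    omega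
  have hup : ∀ j < 4, ∀ i, n2 < i → (A j).coeff i = 0 := by
    intro j hj i hi
    by_cases hi2 : 2 * q - 2 < i
    · exact hAdeg j hj i hi2
    by_contra h
    have := hn2 i ((hmemS i).2 ⟨by omega, j, hj, h⟩)
    omega
  have hB1 : ∀ j < 4, X ^ n1 ∣ B j := by
    intro j hj
    obtain ⟨u, v, hu, hv, h1, h2, h3⟩ := H.uv hx hy hj
    refine low_dvd (u := u)
      (m := (2 * q - 2 - (r + (q + 1) * j)) + (r + (q + 1) * j - (2 * q - 2))) ?_
    rw [← h1]
    exact X_pow_dvd_iff.2 (hlow j hj)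
  have hB2 : ∀ j < 4, ∀ i, n2 < i + ((2 * q - 2 - (r + (q + 1) * j)) +
      (r + (q + 1) * j - (2 * q - 2))) → (B j).coeff i = 0 := by
    intro j hj
    obtain ⟨u, v, hu, hv, h1, h2, h3⟩ := H.uv hx hy hj
    refine top_supp hu ?_
    rw [← h1]
    exact hup j hj
  have hlow' : ∀ j < 4, ∀ i, i < n1 → (A' j).coeff i = 0 := by
    intro j hj
    obtain ⟨u, v, hu, hv, h1, h2, h3⟩ := H.uv hx hy hj
    rw [h2]
    exact bot_supp (hB1 j hj)
  have hup' : ∀ j < 4, ∀ i, n2 < i → (A' j).coeff i = 0 := by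
    intro j hj
    obtain ⟨u, v, hu, hv, h1, h2, h3⟩ := H.uv hx hy hj
    rw [h2]
    exact top_supp' hv (hB2 j hj)
  have hbot : ∀ j < 4, (A' j).coeff n1 = (A j).coeff n1 := by
    intro j hj
    obtain ⟨u, v, hu, hv, h1, h2, h3⟩ := H.uv hx hy hj
    rw [h1, h2, low_coeff (hB1 j hj), low_coeff (hB1 j hj)]
  have htop : ∀ j < 4, x ^ (2 * q - 2) * y ^ (r + (q + 1) * j) * (A' j).coeff n2 =
      y ^ (2 * q - 2) * x ^ (r + (q + 1) * j) * (A j).coeff n2 := by
    intro j hj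
    obtain ⟨u, v, hu, hv, h1, h2, h3⟩ := H.uv hx hy hj
    have hb := hB2 j hj
    rw [h1, h2]
    generalize (2 * q - 2 - (r + (q + 1) * j)) + (r + (q + 1) * j - (2 * q - 2)) = m at *
    by_cases hm : m ≤ n2
    · rw [top_coeff hu hm hb, top_coeff hv hm hb]
      linear_combination ((B j).coeff (n2 - m)) * h3
    · have hB0 : B j = 0 := by
        ext i
        rw [coeff_zero]
        exact hb i (by omega)
      rw [hB0]
      simp
  have hcon : ∀ j < 4, A j ≠ 0 → n1 + ((2 * q - 2 - (r + (q + 1) * j)) +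
      (r + (q + 1) * j - (2 * q - 2))) ≤ 2 * q - 2 ∧
      (2 * q - 2 - (r + (q + 1) * j)) + (r + (q + 1) * j - (2 * q - 2)) ≤ n2 := by
    intro j hj hne
    obtain ⟨u, v, hu, hv, h1, h2, h3⟩ := H.uv hx hy hj
    have hBne : B j ≠ 0 := by
      intro h0
      apply hne
      rw [h1, h0, mul_zero]
    obtain ⟨i, hi⟩ : ∃ i, (B j).coeff i ≠ 0 := by
      by_contra h
      push Not at h
      exact hBne (Polynomial.ext (fun i => by rw [h i, coeff_zero]))
    have h4 : n1 ≤ i := by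
      by_contra h
      exact hi (X_pow_dvd_iff.1 (hB1 j hj) i (by omega))
    have h5 := not_lt.1 (fun h => hi (H.deg j hj i h))
    have h6 := not_lt.1 (fun h => hi (hB2 j hj i h))
    constructor
    · exact le_trans (Nat.add_le_add_right h4 _) h5
    · exact le_trans (Nat.le_add_left _ _) h6
  have hA'0 : ∀ j < 4, A j = 0 → A' j = 0 := by
    intro j hj h0
    obtain ⟨u, v, hu, hv, h1, h2, h3⟩ := H.uv hx hy hj
    rw [h1] at h0
    have h4 := (mul_eq_zero.1 h0).resolve_left (pow_ne_zero _ (lin_ne u))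
    rw [h2, h4, mul_zero]
  obtain ⟨-, j1, hj1, hc1⟩ := (hmemS n1).1 hn1S
  obtain ⟨-, j2, hj2, hc2⟩ := (hmemS n2).1 hn2S
  have hP1 : WP (fun j => (A j).coeff n1) ≠ 0 := WP_ne _ hj1 hc1
  have hP2 : WP (fun j => (A j).coeff n2) ≠ 0 := WP_ne _ hj2 hc2
  have hP1' : WP (fun j => (A' j).coeff n1) = WP (fun j => (A j).coeff n1) :=
    WP_congr hbot
  obtain ⟨e1, t1, he1, hE1⟩ := centred (q + 1) (r + n1 + 6) (by omega)
  obtain ⟨e2, t2, he2, hE2⟩ := centred (q + 1) (r + n2 + 6) (by omega)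
  -- the four divisibilities
  have d1p : r + n1 + 6 = (q + 1) * t1 + e1 →
      (X - C x) ^ e1 ∣ WP (fun j => (A j).coeff n1) ∧
      (X - C y) ^ e1 ∣ WP (fun j => (A j).coeff n1) := by
    intro h
    refine ⟨H.wp n1 e1 t1 (by omega) he1 h, ?_⟩
    rw [← hP1']
    exact H.wp' n1 e1 t1 (by omega) he1 h
  have d1m : r + n1 + 6 + e1 = (q + 1) * t1 →
      (X - C (x ^ q)) ^ e1 ∣ WP (fun j => (A j).coeff n1) ∧
      (X - C (y ^ q)) ^ e1 ∣ WP (fun j => (A j).coeff n1) := by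
    intro h
    refine ⟨H.wm n1 e1 t1 (by omega) he1 h, ?_⟩
    rw [← hP1']
    exact H.wm' n1 e1 t1 (by omega) he1 h
  have hg : (y / x) ^ (q + 1) ≠ 0 := pow_ne_zero _ (div_ne_zero hy hx)
  have hscale : ∀ j < 4, (A j).coeff n2 =
      (x ^ (2 * q - 2) * y ^ r / (y ^ (2 * q - 2) * x ^ r)) * ((y / x) ^ (q + 1)) ^ j *
        (A' j).coeff n2 := by
    intro j hj
    have h1 := htop j hj
    have h2 : ((y / x) ^ (q + 1)) ^ j = y ^ ((q + 1) * j) / x ^ ((q + 1) * j) := by
      rw [← pow_mul, div_pow]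
    rw [h2]
    rw [pow_add x, pow_add y] at h1
    have a1 : x ^ r ≠ 0 := pow_ne_zero _ hx
    have a2 : y ^ (2 * q - 2) ≠ 0 := pow_ne_zero _ hy
    have a3 : x ^ ((q + 1) * j) ≠ 0 := pow_ne_zero _ hx
    field_simp
    linear_combination -h1
  have d2p : r + n2 + 6 = (q + 1) * t2 + e2 →
      (X - C x) ^ e2 ∣ WP (fun j => (A j).coeff n2) ∧
      (X - C (y / (y / x) ^ (q + 1))) ^ e2 ∣ WP (fun j => (A j).coeff n2) := by
    intro h
    exact ⟨H.wp n2 e2 t2 (by omega) he2 h, WP_scale hg hscale (H.wp' n2 e2 t2 (by omega) he2 h)⟩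
  have d2m : r + n2 + 6 + e2 = (q + 1) * t2 →
      (X - C (x ^ q)) ^ e2 ∣ WP (fun j => (A j).coeff n2) ∧
      (X - C (y ^ q / (y / x) ^ (q + 1))) ^ e2 ∣ WP (fun j => (A j).coeff n2) := by
    intro h
    exact ⟨H.wm n2 e2 t2 (by omega) he2 h, WP_scale hg hscale (H.wm' n2 e2 t2 (by omega) he2 h)⟩
  have w1ne : x ≠ y / (y / x) ^ (q + 1) := by
    intro h
    rw [eq_div_iff hg, div_pow, mul_div_assoc', div_eq_iff (pow_ne_zero _ hx)] at h
    have h1 : (x * y) * (x ^ q - y ^ q) = 0 := by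
      rw [pow_succ, pow_succ] at h
      linear_combination -h
    rcases mul_eq_zero.1 h1 with h2 | h2
    · exact mul_ne_zero hx hy h2
    · exact hbar (sub_eq_zero.1 h2)
  have w2ne : x ^ q ≠ y ^ q / (y / x) ^ (q + 1) := by
    intro h
    rw [eq_div_iff hg, div_pow, mul_div_assoc', div_eq_iff (pow_ne_zero _ hx)] at h
    have h1 : (x ^ q * y ^ q) * (x - y) = 0 := by
      rw [pow_succ, pow_succ] at h
      linear_combination -h
    rcases mul_eq_zero.1 h1 with h2 | h2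
    · exact mul_ne_zero hxq hyq h2
    · exact hxy (sub_eq_zero.1 h2)
  have he1' : e1 ≤ 1 := by
    rcases hE1 with h | h
    · exact mult_le hP1 (WP_natDegree _) hxy (d1p h).1 (d1p h).2
    · exact mult_le hP1 (WP_natDegree _) hbar (d1m h).1 (d1m h).2
  have he2' : e2 ≤ 1 := by
    rcases hE2 with h | h
    · exact mult_le hP2 (WP_natDegree _) w1ne (d2p h).1 (d2p h).2
    · exact mult_le hP2 (WP_natDegree _) w2ne (d2m h).1 (d2m h).2
  -- the positions
  have ht1 : 1 ≤ t1 ∧ t1 ≤ 3 := by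
    constructor
    · by_contra h
      have h0 : t1 = 0 := by omega
      rw [h0, mul_zero] at hE1
      omega
    · by_contra h
      have h0 : (q + 1) * 4 ≤ (q + 1) * t1 := Nat.mul_le_mul_left _ (by omega)
      omega
  have ht2 : 1 ≤ t2 ∧ t2 ≤ 3 := by
    constructor
    · by_contra h
      have h0 : t2 = 0 := by omega
      rw [h0, mul_zero] at hE2
      omega
    · by_contra h
      have h0 : (q + 1) * 4 ≤ (q + 1) * t2 := Nat.mul_le_mul_left _ (by omega)
      omega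
  obtain ⟨ht1a, ht1b⟩ := ht1
  obtain ⟨ht2a, ht2b⟩ := ht2
  have hpos : ∀ j < 4, A j ≠ 0 → j + t1 ≤ 3 ∧ 3 ≤ j + t2 := by
    intro j hj hne
    obtain ⟨c1, c2⟩ := hcon j hj hne
    constructor
    · by_contra h
      have h0 : (q + 1) * 4 ≤ (q + 1) * (j + t1) := Nat.mul_le_mul_left _ (by omega)
      rw [mul_add] at h0
      omega
    · by_contra h
      have h0 : (q + 1) * (j + t2) ≤ (q + 1) * 2 := Nat.mul_le_mul_left _ (by omega)
      rw [mul_add] at h0
      omega
  have ht12 : t2 = t1 ∨ t2 = t1 + 1 := by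
    have h1 : t1 ≤ t2 := by
      by_contra h
      have h0 : (q + 1) * (t2 + 1) ≤ (q + 1) * t1 := Nat.mul_le_mul_left _ (by omega)
      rw [mul_add] at h0
      omega
    have h2 : t2 ≤ t1 + 1 := by
      by_contra h
      have h0 : (q + 1) * (t1 + 2) ≤ (q + 1) * t2 := Nat.mul_le_mul_left _ (by omega)
      rw [mul_add] at h0
      omega
    omega
  rcases ht12 with h12 | h12
  · -- one position
    subst h12
    have hz : ∀ j < 4, j ≠ 3 - t2 → A j = 0 := by
      intro j hj hne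
      by_contra h
      have := hpos j hj h
      omega
    have hj1' : j1 = 3 - t2 := by
      by_contra h
      exact hc1 (by rw [hz j1 hj1 h, coeff_zero])
    have hj2' : j2 = 3 - t2 := by
      by_contra h
      exact hc2 (by rw [hz j2 hj2 h, coeff_zero])
    have hl : 3 - t2 < 3 := by omega
    have hz1 : ∀ i, (A (3 - t2 + 1)).coeff i = 0 := by
      intro i
      rw [hz _ (by omega) (by omega), coeff_zero]
    have e1z : e1 = 0 := by
      by_contra h
      apply hc1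
      rw [hj1']
      rcases hE1 with h' | h'
      · have := two_root hl (fun j hj h1 _ => by rw [hz j hj h1, coeff_zero]) hx
          (by omega) (d1p h').1
        rwa [hz1, zero_mul, add_zero] at this
      · have := two_root hl (fun j hj h1 _ => by rw [hz j hj h1, coeff_zero]) hxq
          (by omega) (d1m h').1
        rwa [hz1, zero_mul, add_zero] at this
    have e2z : e2 = 0 := by
      by_contra h
      apply hc2
      rw [hj2']
      rcases hE2 with h' | h'
      · have := two_root hl (fun j hj h1 _ => by rw [hz j hj h1, coeff_zero]) hx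
          (by omega) (d2p h').1
        rwa [hz1, zero_mul, add_zero] at this
      · have := two_root hl (fun j hj h1 _ => by rw [hz j hj h1, coeff_zero]) hxq
          (by omega) (d2m h').1
        rwa [hz1, zero_mul, add_zero] at this
    have hn : n2 = n1 := by
      subst e1z; subst e2z
      simp only [add_zero, or_self] at hE1 hE2
      omega
    subst hn
    have hm : (2 * q - 2 - (r + (q + 1) * (3 - t2))) + (r + (q + 1) * (3 - t2) - (2 * q - 2)) = 0 := by
      obtain ⟨u, v, hu, hv, h1, h2, h3⟩ := H.uv hx hy (show 3 - t2 < 4 by omega)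
      by_contra hm
      have h4 : A (3 - t2) = 0 := by
        apply zero_of_window hu (n := (2 * q - 2 - (r + (q + 1) * (3 - t2))) +
          (r + (q + 1) * (3 - t2) - (2 * q - 2))) (a := n2)
        · exact ⟨B (3 - t2), h1⟩
        · exact hlow _ (by omega)
        · intro k hk
          exact hup _ (by omega) k (by omega)
      apply hc1
      rw [hj1', h4, coeff_zero]
    subst e1z
    simp only [add_zero, or_self] at hE1
    have ht2eq : t2 = 2 := by
      interval_cases t2 <;> omega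
    subst ht2eq
    refine ⟨by omega, fun j hj h => hz j hj (by omega), (A 1).coeff n2, ?_⟩
    have hn2' : n2 = q - 1 := by omega
    ext i
    rw [coeff_C_mul, coeff_X_pow, ← hn2']
    by_cases hi : i = n2
    · rw [hi]; simp
    · rw [if_neg hi, mul_zero]
      rcases lt_or_gt_of_ne hi with h | h
      · exact hlow 1 (by norm_num) i h
      · exact hup 1 (by norm_num) i h
  · -- two adjacent positions: impossible
    exfalso
    subst h12
    obtain ⟨l, hl⟩ : ∃ l, l + t1 = 2 := ⟨2 - t1, by omega⟩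
    have hl3 : l < 3 := by omega
    have hz : ∀ j < 4, j ≠ l → j ≠ l + 1 → A j = 0 := by
      intro j hj h1 h2
      by_contra h
      have := hpos j hj h
      omega
    have hz' : ∀ i, ∀ j < 4, j ≠ l → j ≠ l + 1 → (A j).coeff i = 0 := by
      intro i j hj h1 h2
      rw [hz j hj h1 h2, coeff_zero]
    have hz'' : ∀ i, ∀ j < 4, j ≠ l → j ≠ l + 1 → (A' j).coeff i = 0 := by
      intro i j hj h1 h2
      rw [hA'0 j hj (hz j hj h1 h2), coeff_zero]
    have key1 : (A l).coeff n1 = 0 → (A (l + 1)).coeff n1 = 0 → False := by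
      intro h1 h2
      by_cases a1 : j1 = l
      · exact hc1 (by rw [a1, h1])
      by_cases a2 : j1 = l + 1
      · exact hc1 (by rw [a2, h2])
      exact hc1 (hz' n1 j1 hj1 a1 a2)
    have key2 : (A l).coeff n2 = 0 → (A (l + 1)).coeff n2 = 0 → False := by
      intro h1 h2
      by_cases a1 : j2 = l
      · exact hc2 (by rw [a1, h1])
      by_cases a2 : j2 = l + 1
      · exact hc2 (by rw [a2, h2])
      exact hc2 (hz' n2 j2 hj2 a1 a2)
    have lin2 : ∀ {a b c d : K}, c ≠ d → a + b * c = 0 → a + b * d = 0 → a = 0 ∧ b = 0 := by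
      intro a b c d hcd h1 h2
      have h3 : b * (c - d) = 0 := by linear_combination h1 - h2
      have hb : b = 0 := (mul_eq_zero.1 h3).resolve_right (sub_ne_zero.2 hcd)
      refine ⟨?_, hb⟩
      rw [hb, zero_mul, add_zero] at h1
      exact h1
    have w1z : y / (y / x) ^ (q + 1) ≠ 0 := div_ne_zero hy hg
    have w2z : y ^ q / (y / x) ^ (q + 1) ≠ 0 := div_ne_zero hyq hg
    have e1z : e1 = 0 := by
      by_contra h
      rcases hE1 with h' | h'
      · obtain ⟨a1, a2⟩ := lin2 hxy (two_root hl3 (hz' n1) hx (by omega) (d1p h').1)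
          (two_root hl3 (hz' n1) hy (by omega) (d1p h').2)
        exact key1 a1 a2
      · obtain ⟨a1, a2⟩ := lin2 hbar (two_root hl3 (hz' n1) hxq (by omega) (d1m h').1)
          (two_root hl3 (hz' n1) hyq (by omega) (d1m h').2)
        exact key1 a1 a2
    have e2z : e2 = 0 := by
      by_contra h
      rcases hE2 with h' | h'
      · obtain ⟨a1, a2⟩ := lin2 w1ne (two_root hl3 (hz' n2) hx (by omega) (d2p h').1)
          (two_root hl3 (hz' n2) w1z (by omega) (d2p h').2)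
        exact key2 a1 a2
      · obtain ⟨a1, a2⟩ := lin2 w2ne (two_root hl3 (hz' n2) hxq (by omega) (d2m h').1)
          (two_root hl3 (hz' n2) w2z (by omega) (d2m h').2)
        exact key2 a1 a2
    subst e1z; subst e2z
    simp only [add_zero, or_self] at hE1 hE2
    rw [mul_add, mul_one] at hE2
    have hn2' : n2 = n1 + q + 1 := by omega
    -- middle coefficients vanish
    have hmid : ∀ i, n1 + 2 ≤ i → i < n1 + q → ∀ j < 4,
        (A j).coeff i = 0 ∧ (A' j).coeff i = 0 := by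
      intro i hi1 hi2
      have hh : ((A l).coeff i = 0 ∧ (A (l + 1)).coeff i = 0) ∧
          ((A' l).coeff i = 0 ∧ (A' (l + 1)).coeff i = 0) := by
        by_cases hi : 2 * (i - n1) ≤ q + 1
        · have h1 := H.wp i (i - n1) t1 (by omega) hi (by omega)
          have h2 := H.wp' i (i - n1) t1 (by omega) hi (by omega)
          exact ⟨two_double hl3 (hz' i) hx (by omega) h1,
            two_double hl3 (hz'' i) hy (by omega) h2⟩
        · have h1 := H.wm i (n1 + q + 1 - i) (t1 + 1) (by omega) (by omega)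
            (by rw [mul_add]; omega)
          have h2 := H.wm' i (n1 + q + 1 - i) (t1 + 1) (by omega) (by omega)
            (by rw [mul_add]; omega)
          exact ⟨two_double hl3 (hz' i) hxq (by omega) h1,
            two_double hl3 (hz'' i) hyq (by omega) h2⟩
      intro j hj
      by_cases a1 : j = l
      · rw [a1]; exact ⟨hh.1.1, hh.2.1⟩
      by_cases a2 : j = l + 1
      · rw [a2]; exact ⟨hh.1.2, hh.2.2⟩
      exact ⟨hz' i j hj a1 a2, hz'' i j hj a1 a2⟩
    have hNl : r + (q + 1) * l + (n1 + 2) = 2 * q - 2 := by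
      have h0 : (q + 1) * (l + t1) = (q + 1) * 2 := by rw [hl]
      rw [mul_add] at h0
      omega
    have hNu : r + (q + 1) * (l + 1) + n1 = (2 * q - 2) + (q - 1) := by
      rw [mul_add]
      omega
    obtain ⟨lA, lA'⟩ := H.lo l (by omega) (by omega)
    obtain ⟨uA, uA'⟩ := H.hi (l + 1) (by omega) (by omega)
    have q3 : 3 ≤ q := by omega
    have hsl : (A l).coeff (n1 + q) = x ^ q * (A l).coeff n1 := by
      refine sparse hx q3 hFx (hlow l (by omega)) (fun i h1 h2 => (hmid i h1 h2 l (by omega)).1)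
        (fun i hi => hup l (by omega) i (by omega)) ?_
      rw [lA]
      exact Dvd.dvd.mul_right (pow_dvd_pow _ (by omega)) _
    have hsl' : (A' l).coeff (n1 + q) = y ^ q * (A' l).coeff n1 := by
      refine sparse hy q3 hFy (hlow' l (by omega)) (fun i h1 h2 => (hmid i h1 h2 l (by omega)).2)
        (fun i hi => hup' l (by omega) i (by omega)) ?_
      rw [lA']
      exact Dvd.dvd.mul_right (pow_dvd_pow _ (by omega)) _
    have hsu : (A (l + 1)).coeff (n1 + q) = y ^ q * (A (l + 1)).coeff n1 := by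
      refine sparse hy q3 hFy (hlow (l + 1) (by omega))
        (fun i h1 h2 => (hmid i h1 h2 (l + 1) (by omega)).1)
        (fun i hi => hup (l + 1) (by omega) i (by omega)) ?_
      rw [uA]
      exact Dvd.dvd.mul_right (pow_dvd_pow _ (by omega)) _
    have hsu' : (A' (l + 1)).coeff (n1 + q) = x ^ q * (A' (l + 1)).coeff n1 := by
      refine sparse hx q3 hFx (hlow' (l + 1) (by omega))
        (fun i h1 h2 => (hmid i h1 h2 (l + 1) (by omega)).2)
        (fun i hi => hup' (l + 1) (by omega) i (by omega)) ?_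
      rw [uA']
      exact Dvd.dvd.mul_right (pow_dvd_pow _ (by omega)) _
    have r1 := two_root hl3 (hz' (n1 + q)) hxq le_rfl
      (H.wm (n1 + q) 1 (t1 + 1) (by omega) (by omega) (by rw [mul_add]; omega))
    have r2 := two_root hl3 (hz'' (n1 + q)) hyq le_rfl
      (H.wm' (n1 + q) 1 (t1 + 1) (by omega) (by omega) (by rw [mul_add]; omega))
    rw [hsl, hsu] at r1
    rw [hsl', hsu', hbot l (by omega), hbot (l + 1) (by omega)] at r2
    have r3 : (A l).coeff n1 + (A (l + 1)).coeff n1 * y ^ q = 0 := by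
      have h1 : x ^ q * ((A l).coeff n1 + (A (l + 1)).coeff n1 * y ^ q) = 0 := by
        linear_combination r1
      exact (mul_eq_zero.1 h1).resolve_left hxq
    have r4 : (A l).coeff n1 + (A (l + 1)).coeff n1 * x ^ q = 0 := by
      have h1 : y ^ q * ((A l).coeff n1 + (A (l + 1)).coeff n1 * x ^ q) = 0 := by
        linear_combination r2
      exact (mul_eq_zero.1 h1).resolve_left hyq
    obtain ⟨a1, a2⟩ := lin2 hbar r4 r3
    exact key1 a1 a2

/-- **Polynomial core of the base uniqueness (A.UNIQ)**, literal interface of #6315. -/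
theorem core {q : ℕ} (hq : 11 ≤ q) {x y : K} (hx : x ≠ 0) (hy : y ≠ 0)
    (hxy : x ≠ y) (hbar : x ^ q ≠ y ^ q)
    (hFx : (1 + C x * X : K[X]) ^ q = 1 + C (x ^ q) * X ^ q)
    (hFy : (1 + C y * X : K[X]) ^ q = 1 + C (y ^ q) * X ^ q)
    {PX PY Q : ℕ → K[X]}
    (hlo : ∀ N ≤ 2 * q - 2, PX N = (1 + C x * X) ^ (2 * q - 2 - N) * Q N ∧
      PY N = (1 + C y * X) ^ (2 * q - 2 - N) * Q N)
    (hhi : ∀ N, 2 * q - 2 ≤ N → N ≤ 2 * (2 * q - 2) →
      PX N = (1 + C y * X) ^ (N - (2 * q - 2)) * Q N ∧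
      PY N = (1 + C x * X) ^ (N - (2 * q - 2)) * Q N)
    (hbig : ∀ N, 2 * (2 * q - 2) < N → PX N = 0 ∧ PY N = 0)
    (hdeg : ∀ N ≤ 2 * (2 * q - 2), ∀ i, 2 * q - 2 < i + ((2 * q - 2 - N) + (N - (2 * q - 2))) →
      (Q N).coeff i = 0)
    (wp : ∀ r i e t : ℕ, r ≤ q → i ≤ 2 * q - 2 → 2 * e ≤ q + 1 → r + i + 6 = (q + 1) * t + e →
      (X - C x) ^ e ∣ WP (fun j => (PX (r + (q + 1) * j)).coeff i))
    (wm : ∀ r i e t : ℕ, r ≤ q → i ≤ 2 * q - 2 → 2 * e ≤ q + 1 → r + i + 6 + e = (q + 1) * t →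
      (X - C (x ^ q)) ^ e ∣ WP (fun j => (PX (r + (q + 1) * j)).coeff i))
    (wp' : ∀ r i e t : ℕ, r ≤ q → i ≤ 2 * q - 2 → 2 * e ≤ q + 1 → r + i + 6 = (q + 1) * t + e →
      (X - C y) ^ e ∣ WP (fun j => (PY (r + (q + 1) * j)).coeff i))
    (wm' : ∀ r i e t : ℕ, r ≤ q → i ≤ 2 * q - 2 → 2 * e ≤ q + 1 → r + i + 6 + e = (q + 1) * t →
      (X - C (y ^ q)) ^ e ∣ WP (fun j => (PY (r + (q + 1) * j)).coeff i)) :
    (∀ N, N ≠ 2 * q - 2 → PX N = 0) ∧ ∃ c, PX (2 * q - 2) = C c * X ^ (q - 1) := by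
  have main : ∀ r ≤ q, (∀ j < 4, PX (r + (q + 1) * j) = 0) ∨
      (r + 3 = q ∧ (∀ j < 4, j ≠ 1 → PX (r + (q + 1) * j) = 0) ∧
        ∃ c, PX (r + (q + 1) * 1) = C c * X ^ (q - 1)) := by
    intro r hr
    refine core_r hq hr hx hy hxy hbar hFx hFy (A := fun j => PX (r + (q + 1) * j))
      (A' := fun j => PY (r + (q + 1) * j))
      (B := fun j => if r + (q + 1) * j ≤ 2 * (2 * q - 2) then Q (r + (q + 1) * j) else 0)
      ⟨?_, ?_, ?_, ?_, ?_, ?_, ?_⟩
    · intro j hj h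
      rw [if_pos (by omega)]
      exact hlo _ h
    · intro j hj h
      by_cases h2 : r + (q + 1) * j ≤ 2 * (2 * q - 2)
      · rw [if_pos h2]
        exact hhi _ h h2
      · rw [if_neg h2, mul_zero, mul_zero]
        exact hbig _ (by omega)
    · intro j hj i hi
      by_cases h2 : r + (q + 1) * j ≤ 2 * (2 * q - 2)
      · rw [if_pos h2]
        exact hdeg _ h2 i hi
      · rw [if_neg h2, coeff_zero]
    · intro i e t; exact wp r i e t hr
    · intro i e t; exact wm r i e t hr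
    · intro i e t; exact wp' r i e t hr
    · intro i e t; exact wm' r i e t hr
  constructor
  · intro N hN
    by_cases hbigN : 2 * (2 * q - 2) < N
    · exact (hbig N hbigN).1
    have h1 := Nat.mod_add_div N (q + 1)
    have h2 : N % (q + 1) ≤ q := Nat.lt_succ_iff.1 (Nat.mod_lt N (by omega))
    have h3 : N / (q + 1) < 4 := by
      rw [Nat.div_lt_iff_lt_mul (by omega)]
      omega
    rcases main (N % (q + 1)) h2 with h | ⟨ha, hb, -⟩
    · have := h _ h3
      rwa [h1] at this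
    · by_cases h4 : N / (q + 1) = 1
      · exfalso
        apply hN
        rw [h4] at h1
        omega
      · have := hb _ h3 h4
        rwa [h1] at this
  · have h0 : (q - 3) + (q + 1) * 1 = 2 * q - 2 := by omega
    rcases main (q - 3) (by omega) with h | ⟨ha, hb, c, hc⟩
    · refine ⟨0, ?_⟩
      have := h 1 (by norm_num)
      rw [h0] at this
      rw [this, C_0, zero_mul]
    · refine ⟨c, ?_⟩
      rwa [h0] at hc

end Crest.Agent.R289.Core186
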