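import Crest.Agent.R289.Comp_217
import Crest.Agent.R289.UnitsPT_726

/-!
# Row 289, block E: the circuit of a list of units

`core`: for a finite table `S` of rules and tolerances `η, β` there are slots `SS`, a template table
`tab` and constants `ε, δ, C` such that for every well formed list of units `U` the circuit
`asm SS tab U` is well formed, has encoding length `≤ C * (n * clog 2 (n + 2))`, and every assignment
with at most a `δ`-fraction of bad gates is an approximate rest state of `U`.
-/

set_option autoImplicit false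

namespace Crest.Agent.R289.Core217

open Crest.PPADPCP Crest.Agent.R289 Crest.Agent.R289.Units726 Crest.Agent.R289.Comp217

theorem eval_congr {K L : ℕ} {x x' : ℕ → ℕ → ℚ} (h : ∀ k < K, ∀ l < L, x k l = x' k l) {e : PExp}
    (he : e.WF K L) : e.eval x = e.eval x' := by
  induction e with
  | var k l => exact h k he.1 l he.2
  | const q => rfl
  | scale q e ih => simp only [PExp.eval, ih he.2]
  | add a b iha ihb => simp only [PExp.eval, iha he.1, ihb he.2]
  | sub a b iha ihb => simp only [PExp.eval, iha he.1, ihb he.2]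

/-- number of slots per unit -/
def slots (S : LSys) : ℕ := S.L + ((List.range S.T).map fun t => base S t S.L).sum

/-- table of templates -/
noncomputable def table (S : LSys) : List (List GGate) :=
  (List.range S.T).map fun t => tmpl S (slots S) t

theorem table_getD {S : LSys} {t : ℕ} (ht : t < S.T) : (table S).getD t [] = tmpl S (slots S) t := by
  rw [table, List.getD_eq_getElem _ _ (by simpa using ht)]
  simp

theorem le_sum_of_mem {l : List ℕ} {a : ℕ} (h : a ∈ l) : a ≤ l.sum :=
  List.single_le_sum (by simp) a h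

theorem base_le {S : LSys} {t : ℕ} (ht : t < S.T) : base S t S.L ≤ slots S := by
  have := le_sum_of_mem (List.mem_map_of_mem (f := fun t => base S t S.L) (List.mem_range.2 ht))
  unfold slots
  omega

theorem L_le (S : LSys) : S.L ≤ slots S := Nat.le_add_right _ _

theorem slots_pos {S : LSys} (hS : S.WF) : 0 < slots S := lt_of_lt_of_le hS.1 (L_le S)

theorem table_TWF {S : LSys} (hS : S.WF) : ∀ t < S.T, TWF (slots S) S.K ((table S).getD t []) := by
  intro t ht
  rw [table_getD ht]
  exact tmpl_TWF hS ht (base_le ht)

theorem table_ne {S : LSys} (hS : S.WF) : ∀ t < S.T, (table S).getD t [] ≠ [] := by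
  intro t ht h
  rw [table_getD ht] at h
  have h1 := tmpl_length S (slots S) t
  rw [h] at h1
  have h2 : S.L ≤ base S t S.L := base_mono S t (Nat.zero_le _)
  have := hS.1
  simp at h1
  omega

theorem table_len (S : LSys) : ∀ t < S.T, ((table S).getD t []).length ≤ slots S := by
  intro t ht
  rw [table_getD ht, tmpl_length]
  exact base_le ht

theorem exists_items_bound (tab : List (List GGate)) (T : ℕ) :
    ∃ c : ℕ, ∀ t < T, ∀ g ∈ tab.getD t [], ∀ k ∈ items g, k.1 = false → k.2 ≤ c := by
  refine ⟨(((List.range T).flatMap fun t => (tab.getD t []).flatMap fun g =>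
    (items g).map Prod.snd)).sum, fun t ht g hg k hk _ => ?_⟩
  refine le_sum_of_mem ?_
  rw [List.mem_flatMap]
  refine ⟨t, List.mem_range.2 ht, ?_⟩
  rw [List.mem_flatMap]
  exact ⟨g, hg, List.mem_map_of_mem hk⟩

theorem uwf {S : LSys} {U : Units} (hU : U.WF S) : UWF S.T S.K U where
  ne := hU.1
  ty := fun d hd => (hU.2 d hd).1
  len := fun d hd => (hU.2 d hd).2.1
  nb := fun d hd => (hU.2 d hd).2.2

/-- the variables read off an assignment of the circuit -/
def varsOf (SS : ℕ) (x : ℕ → ℚ) : ℕ → ℕ → ℚ := fun u l => x (u * SS + l)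

theorem node_nbr {SS u k l : ℕ} (hl : l < SS) (nb : List ℕ) :
    node SS u nb ((k + 1) * SS + l) = nb.getD k 0 * SS + l := by
  have hSS : 0 < SS := by omega
  have h1 : ¬ (k + 1) * SS + l < SS := by
    have : SS ≤ (k + 1) * SS := Nat.le_mul_of_pos_left _ (by omega)
    omega
  have h2 : ((k + 1) * SS + l) / SS = k + 1 := by
    rw [Nat.mul_comm, Nat.mul_add_div hSS, Nat.div_eq_of_lt hl, Nat.add_zero]
  have h3 : ((k + 1) * SS + l) % SS = l := by
    rw [Nat.mul_comm, Nat.mul_add_mod, Nat.mod_eq_of_lt hl]
  rw [node, if_neg h1, h2, h3]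
  simp

theorem unitOK_sound {S : LSys} (hS : S.WF) {U : Units} (hU : U.WF S) {ε η : ℚ} (hε : 0 ≤ ε)
    (hη : (slots S + 1) * ε ≤ η) {x : ℕ → ℚ} {u : ℕ} (hu : u < U.length)
    (h : unitOK ε (slots S) (fun t => (table S).getD t []) U x u = true) :
    UnitOK S U η (varsOf (slots S) x) u := by
  intro l hl
  have hget : U.getD u (0, []) = U[u] := List.getD_eq_getElem _ _ hu
  have hmem : U[u] ∈ U := List.getElem_mem hu
  have ht : U.ty u < S.T := by
    rw [Units.ty, hget]; exact (hU.2 _ hmem).1
  rw [unitOK_iff] at h
  have htab : (table S).getD (U.getD u (0, [])).1 [] = tmpl S (slots S) (U.ty u) := table_getD ht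
  rw [htab] at h
  have h1 := tmpl_sound hS ht hε h hl
  have hLSS := L_le S
  have h2 : view (slots S) U x u l = varsOf (slots S) x u l := by
    rw [view, node, if_pos (by omega), varsOf]
  have h3 : (S.rule (U.ty u) l).eval
      (fun k l' => view (slots S) U x u ((k + 1) * slots S + l')) =
      (S.rule (U.ty u) l).eval (fun k l' => varsOf (slots S) x (U.nbr u k) l') := by
    refine eval_congr (K := S.K) (L := S.L) ?_ (hS.2 _ ht l hl)
    intro k _ l' hl'
    rw [view, node_nbr (by omega), varsOf, Units.nbr]
  rw [h2, h3] at h1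
  refine h1.trans (le_trans ?_ hη)
  refine mul_le_mul_of_nonneg_right ?_ hε
  have h4 : (S.rule (U.ty u) l).size ≤ slots S := by
    have h5 : base S (U.ty u) (l + 1) ≤ base S (U.ty u) S.L := base_mono S _ (by omega)
    have h6 := base_le ht
    rw [base] at h5
    omega
  have h5 : ((S.rule (U.ty u) l).size : ℚ) ≤ slots S := by exact_mod_cast h4
  linarith

/-- **core of block E** -/
theorem core {S : LSys} (hS : S.WF) {η β : ℚ} (hη : 0 < η) (hβ : 0 < β) :
    ∃ (ε δ : ℚ) (C : ℕ), 0 < ε ∧ ε < 1 / 10 ∧ 0 < δ ∧ δ < 1 ∧ ∀ U : Units, U.WF S →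
      (asm (slots S) (fun t => (table S).getD t []) U).WF ∧
      (asm (slots S) (fun t => (table S).getD t []) U).encode.length ≤
        C * (U.length * Nat.clog 2 (U.length + 2)) ∧
      ∀ x : List ℚ, (∀ q ∈ x, 0 ≤ q ∧ q ≤ 1) →
        (((asm (slots S) (fun t => (table S).getD t []) U).gates.countP
          fun g => !gateOK ε (fun v => x.getD v 0) g : ℕ) : ℚ) ≤
          δ * (asm (slots S) (fun t => (table S).getD t []) U).gates.length →
        Rest S U η β (varsOf (slots S) fun v => x.getD v 0) := by
  have hSS := slots_pos hS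
  have hSSq : (0 : ℚ) < slots S := by exact_mod_cast hSS
  obtain ⟨c, hc⟩ := exists_items_bound (table S) S.T
  set ε : ℚ := min (η / (slots S + 1)) (1 / 20) with hεd
  set δ : ℚ := min (β / slots S) (1 / 2) with hδd
  have hε : 0 < ε := lt_min (by positivity) (by norm_num)
  have hδ : 0 < δ := lt_min (by positivity) (by norm_num)
  refine ⟨ε, δ, (2 + slots S + 5 * slots S) * (2 * (slots S + slots S + c).size + 4), hε, lt_of_le_of_lt (min_le_right _ _) (by norm_num), hδ,
    lt_of_le_of_lt (min_le_right _ _) (by norm_num), fun U hU => ⟨?_, ?_, ?_⟩⟩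
  · exact asm_WF hSS (table_TWF hS) (table_ne hS) (uwf hU)
  · exact asm_encode_length_le hSS (table_TWF hS) (table_len S) hc (uwf hU)
  · intro x hx hbad
    have h01 : ∀ v, 0 ≤ x.getD v 0 ∧ x.getD v 0 ≤ 1 := by
      intro v
      rcases lt_or_ge v x.length with hv | hv
      · rw [List.getD_eq_getElem _ _ hv]
        exact hx _ (List.getElem_mem hv)
      · rw [List.getD_eq_default _ _ hv]
        norm_num
    refine ⟨fun u l => h01 _, (Finset.range U.length).filter fun u =>
      unitOK ε (slots S) (fun t => (table S).getD t []) U (fun v => x.getD v 0) u = false, ?_, ?_⟩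
    · refine (bad_units_frac hδ.le _ (fun d hd => table_len S _ (hU.2 d hd).1) hbad).trans ?_
      refine mul_le_mul_of_nonneg_right ?_ (by positivity)
      calc δ * slots S ≤ β / slots S * slots S :=
            mul_le_mul_of_nonneg_right (min_le_left _ _) hSSq.le
        _ = β := by field_simp
    · intro u hu hub
      refine unitOK_sound hS hU hε.le ?_ hu ?_
      · calc (slots S + 1) * ε ≤ (slots S + 1) * (η / (slots S + 1)) :=
              mul_le_mul_of_nonneg_left (min_le_left _ _) (by positivity)
          _ = η := by field_simp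
      · by_contra h
        apply hub
        rw [Finset.mem_filter]
        exact ⟨Finset.mem_range.2 hu, by simpa using h⟩

end Crest.Agent.R289.Core217
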