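import Crest.Agent.R289.BaseDim2_975
import Crest.Agent.R289.CoreU_903

/-!
Row 289, block A, leaf A.UNIQ (helper975), part 3: `Core q x y` from helper903's
`CoreU903.core` (lowest and highest exponent), and the unconditional uniqueness theorem.
-/

set_option autoImplicit false

namespace Crest.Agent.R289.Core975

open Polynomial Finset BaseDim394 OneVar748 BaseA975 BaseDim2_975

section split

variable {K : Type*} [Field K]

theorem natDegree_pp (x y : K) (a b : ℕ) :
    ((1 + C y * X : K[X]) ^ a * (1 + C x * X) ^ b).natDegree ≤ a + b := by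
  refine natDegree_mul_le.trans ?_
  have h1 : ((1 + C y * X : K[X]) ^ a).natDegree ≤ a :=
    natDegree_pow_le.trans (by have := natDegree_lin y; nlinarith)
  have h2 : ((1 + C x * X : K[X]) ^ b).natDegree ≤ b :=
    natDegree_pow_le.trans (by have := natDegree_lin x; nlinarith)
  omega

theorem split_lo {s N : ℕ} (h : N ≤ s) (x y : K) (F : ℕ → ℕ → K) :
    ∃ B : K[X], PX s x y F N = (1 + C x * X) ^ (s - N) * B ∧
      PY s x y F N = (1 + C y * X) ^ (s - N) * B ∧ B.natDegree ≤ N := by
  refine ⟨∑ n ∈ range (s + 1), ∑ k ∈ range (s + 1), if n + k = N then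
    C (F n k) * ((1 + C y * X) ^ k * (1 + C x * X) ^ n) else 0, ?_, ?_, ?_⟩
  · unfold PX
    rw [Finset.mul_sum]
    refine Finset.sum_congr rfl fun n hn => ?_
    rw [Finset.mul_sum]
    refine Finset.sum_congr rfl fun k hk => ?_
    split_ifs with hN
    · rw [bs, show s - k = (s - N) + n by omega, pow_add]
      ring
    · rw [mul_zero]
  · unfold PY PX
    rw [Finset.sum_comm, Finset.mul_sum]
    refine Finset.sum_congr rfl fun n hn => ?_
    rw [Finset.mul_sum]
    refine Finset.sum_congr rfl fun k hk => ?_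
    by_cases hN : n + k = N
    · rw [if_pos hN, if_pos (by omega), bs, show s - n = (s - N) + k by omega, pow_add]
      ring
    · rw [if_neg hN, if_neg (by omega), mul_zero]
  · refine natDegree_sum_le_of_forall_le _ _ fun n hn => ?_
    refine natDegree_sum_le_of_forall_le _ _ fun k hk => ?_
    split_ifs with hN
    · refine (natDegree_C_mul_le _ _).trans ((natDegree_pp x y k n).trans ?_)
      omega
    · simp

theorem split_hi {s N : ℕ} (h : s ≤ N) (x y : K) (F : ℕ → ℕ → K) :
    ∃ B : K[X], PX s x y F N = (1 + C y * X) ^ (N - s) * B ∧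
      PY s x y F N = (1 + C x * X) ^ (N - s) * B ∧ B.natDegree ≤ 2 * s - N := by
  refine ⟨∑ n ∈ range (s + 1), ∑ k ∈ range (s + 1), if n + k = N then
    C (F n k) * ((1 + C y * X) ^ (s - n) * (1 + C x * X) ^ (s - k)) else 0, ?_, ?_, ?_⟩
  · unfold PX
    rw [Finset.mul_sum]
    refine Finset.sum_congr rfl fun n hn => ?_
    rw [Finset.mul_sum]
    refine Finset.sum_congr rfl fun k hk => ?_
    have h1 := Finset.mem_range.1 hn
    have h2 := Finset.mem_range.1 hk
    by_cases hN : n + k = N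
    · have e : (1 + C y * X : K[X]) ^ k = (1 + C y * X) ^ (N - s) * (1 + C y * X) ^ (s - n) := by
        rw [← pow_add]; congr 1; omega
      rw [if_pos hN, if_pos hN, bs, e]
      ring
    · rw [if_neg hN, if_neg hN, mul_zero]
  · unfold PY PX
    rw [Finset.sum_comm, Finset.mul_sum]
    refine Finset.sum_congr rfl fun n hn => ?_
    rw [Finset.mul_sum]
    refine Finset.sum_congr rfl fun k hk => ?_
    have h1 := Finset.mem_range.1 hn
    have h2 := Finset.mem_range.1 hk
    by_cases hN : n + k = N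
    · have e : (1 + C x * X : K[X]) ^ n = (1 + C x * X) ^ (N - s) * (1 + C x * X) ^ (s - k) := by
        rw [← pow_add]; congr 1; omega
      rw [if_pos hN, if_pos (by omega), bs, e]
      ring
    · rw [if_neg hN, if_neg (by omega), mul_zero]
  · refine natDegree_sum_le_of_forall_le _ _ fun n hn => ?_
    refine natDegree_sum_le_of_forall_le _ _ fun k hk => ?_
    split_ifs with hN
    · refine (natDegree_C_mul_le _ _).trans ((natDegree_pp x y _ _).trans ?_)
      have h1 := Finset.mem_range.1 hn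
      have h2 := Finset.mem_range.1 hk
      omega
    · simp

end split

section assembly

variable {K : Type*} [Field K]

theorem pol_eq_pw (q : ℕ) (P : ℕ → K[X]) (r i : ℕ) :
    CoreU903.pol (fun j => P (r + (q + 1) * j)) i = pw q P r i := by
  unfold CoreU903.pol pw
  refine Finset.sum_congr rfl fun j _ => ?_
  rw [C_mul_X_pow_eq_monomial]

variable [Fintype K] {q : ℕ}

theorem frob (hcard : Fintype.card K = q ^ 2) (c : K) :
    (1 + C c * X : K[X]) ^ q = 1 + C (c ^ q) * X ^ q := by
  obtain ⟨p, m, hp, hc, rfl⟩ := q_eq (K := K) hcard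
  rw [add_pow_char_pow, one_pow, mul_pow, ← C_pow]

theorem sys (hcard : Fintype.card K = q ^ 2) (hq : 11 ≤ q) {x y : K} (hx : x ^ q ≠ x)
    (hy : y ^ q ≠ y) {F G H : ℕ → ℕ → K} (hG : OddX q x y F G)
    (hH : OddX q y x (fun n k => F k n) H) {r : ℕ} (hr : r ≤ q) :
    ∃ B : ℕ → K[X], CoreU903.Sys q r x y
      (fun j => PX (2 * (q - 1)) x y F (r + (q + 1) * j))
      (fun j => PY (2 * (q - 1)) x y F (r + (q + 1) * j)) B := by
  classical
  have key : ∀ j, ∃ B : K[X],
      (r + (q + 1) * j ≤ 2 * (q - 1) →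
        PX (2 * (q - 1)) x y F (r + (q + 1) * j) =
          (1 + C x * X) ^ (2 * (q - 1) - (r + (q + 1) * j)) * B ∧
        PY (2 * (q - 1)) x y F (r + (q + 1) * j) =
          (1 + C y * X) ^ (2 * (q - 1) - (r + (q + 1) * j)) * B ∧
        B.natDegree ≤ r + (q + 1) * j) ∧
      (2 * (q - 1) ≤ r + (q + 1) * j →
        PX (2 * (q - 1)) x y F (r + (q + 1) * j) =
          (1 + C y * X) ^ (r + (q + 1) * j - 2 * (q - 1)) * B ∧
        PY (2 * (q - 1)) x y F (r + (q + 1) * j) =
          (1 + C x * X) ^ (r + (q + 1) * j - 2 * (q - 1)) * B ∧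
        (B ≠ 0 → B.natDegree + (r + (q + 1) * j) ≤ 4 * (q - 1))) := by
    intro j
    generalize r + (q + 1) * j = N
    rcases Nat.lt_trichotomy N (2 * (q - 1)) with h | h | h
    · obtain ⟨B, h1, h2, h3⟩ := split_lo h.le x y F
      exact ⟨B, fun _ => ⟨h1, h2, h3⟩, fun h' => by omega⟩
    · obtain ⟨B, h1, h2, h3⟩ := split_lo h.le x y F
      refine ⟨B, fun _ => ⟨h1, h2, h3⟩, fun _ => ?_⟩
      have e : 2 * (q - 1) - N = 0 := by omega
      have e' : N - 2 * (q - 1) = 0 := by omega
      rw [e, pow_zero, one_mul] at h1 h2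
      rw [e', pow_zero, pow_zero, one_mul]
      exact ⟨h1, h2, fun _ => by omega⟩
    · obtain ⟨B, h1, h2, h3⟩ := split_hi h.le x y F
      refine ⟨B, fun h' => by omega, fun _ => ⟨h1, h2, fun hB => ?_⟩⟩
      by_cases hN : N ≤ 4 * (q - 1)
      · omega
      · exfalso
        apply hB
        rw [PX_zero_of_lt x y F (by omega)] at h1
        exact (mul_eq_zero.1 h1.symm).resolve_left
          (pow_ne_zero _ (CoreU903.lin_ne_zero y))
  choose B hlo hhi using key
  refine ⟨B, ⟨fun j _ h => hlo j h, fun j _ h => hhi j h, ?_, ?_⟩⟩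
  · intro i hi t e he
    rw [pol_eq_pw]
    exact ⟨fun h => win_pos hcard hx hG hr (h.trans (add_comm _ _)) (by omega),
      fun h => win_neg hcard hx hG hr h (by omega)⟩
  · intro i hi t e he
    have e1 : CoreU903.pol (fun j => PY (2 * (q - 1)) x y F (r + (q + 1) * j)) i =
        pw q (PX (2 * (q - 1)) y x (fun n k => F k n)) r i :=
      pol_eq_pw q (PX (2 * (q - 1)) y x (fun n k => F k n)) r i
    rw [e1]
    exact ⟨fun h => win_pos hcard hy hH hr (h.trans (add_comm _ _)) (by omega),
      fun h => win_neg hcard hy hH hr h (by omega)⟩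

/-- **the polynomial heart** -/
theorem core_all (hcard : Fintype.card K = q ^ 2) (hq : 11 ≤ q) {x y : K} (hx : x ^ q ≠ x)
    (hy : y ^ q ≠ y) (hxy : x ≠ y) : Core q x y := by
  intro F G H hG hH
  have hx0 : x ≠ 0 := by
    rintro rfl
    exact hx (zero_pow (by omega))
  have hy0 : y ≠ 0 := by
    rintro rfl
    exact hy (zero_pow (by omega))
  have hxyq : x ^ q ≠ y ^ q := by
    intro h
    apply hxy
    rw [← pow_qq hcard x, h, pow_qq hcard]
  have main : ∀ r ≤ q,
      (∀ j < 4, r + (q + 1) * j ≠ 2 * (q - 1) →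
        PX (2 * (q - 1)) x y F (r + (q + 1) * j) = 0) ∧
      (∀ j < 4, r + (q + 1) * j = 2 * (q - 1) →
        ∃ c, PX (2 * (q - 1)) x y F (r + (q + 1) * j) = C c * X ^ (q - 1)) := by
    intro r hr
    obtain ⟨B, S⟩ := sys hcard hq hx hy hG hH hr
    exact CoreU903.core S (by omega) hr hx0 hy0 hxy hxyq (frob hcard)
  have dec : ∀ N ≤ 4 * (q - 1), N % (q + 1) ≤ q ∧ N / (q + 1) < 4 ∧
      N % (q + 1) + (q + 1) * (N / (q + 1)) = N := by
    intro N hN
    refine ⟨Nat.lt_succ_iff.1 (Nat.mod_lt _ (Nat.succ_pos q)), ?_, Nat.mod_add_div N (q + 1)⟩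
    rw [Nat.div_lt_iff_lt_mul (Nat.succ_pos q)]
    omega
  constructor
  · intro N hN
    by_cases h : N ≤ 4 * (q - 1)
    · obtain ⟨h1, h2, h3⟩ := dec N h
      have := (main _ h1).1 _ h2 (by rw [h3]; exact hN)
      rwa [h3] at this
    · exact PX_zero_of_lt x y F (by omega)
  · obtain ⟨h1, h2, h3⟩ := dec (2 * (q - 1)) (by omega)
    obtain ⟨c, hc⟩ := (main _ h1).2 _ h2 h3
    rw [h3] at hc
    exact ⟨c, hc⟩

end assembly

end Crest.Agent.R289.Core975
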