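import Crest.Agent.R289.Corner_223
import Crest.Agent.R289.HeckeTwo_622

/-!
Row 289, block A, leaf A.HI (algebra half): the Hecke sums of 622 (`HeckeTwo622.S`) preserve the four
corner codes of the two-place complex.  Generic in

* the index type `Λ` and the parametrisation `el : Λ → Sk σ` of the small elements with norm prime to
  both places (structure `Idx`),
* the group `P` and the map `nu : Sk σ → P`, multiplicative on elements of constant term one,
* the weight, an arbitrary function of the norm.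

Corners: `ee (1; l, m)`, `oe (nu be^x_l; psi_x l, m.be^x_l)`, `eo (nu be^y_m; l.be^y_m, psi_y m)`,
`oo (nu be^x_l · nu be^y_(m.be^x_l); psi_x (l.be^y_m), psi_y (m.be^x_l))`.
-/

set_option autoImplicit false

namespace Crest.Agent.R289.CornerHecke223

open Polynomial Crest.Agent.R289.Exp820 Crest.Agent.R289.Exp820.Sk Crest.Agent.R289.Fac281
  Crest.Agent.R289.Corner223 Crest.Agent.R289.HeckeTwo622

variable {K : Type*} [Field K] {σ : K →+* K}

/-! ### linear maps -/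

theorem act_add (x : K) (l m : K × K) (r : Sk σ) : act x (l + m) r = act x l r + act x m r := by
  ext <;> simp only [act, Prod.fst_add, Prod.snd_add] <;> ring

/-- the right action as a linear map -/
noncomputable def actL (x : K) (r : Sk σ) : (K × K) →ₗ[K] (K × K) where
  toFun l := act x l r
  map_add' l m := act_add x l m r
  map_smul' c l := act_smul x c l r

theorem actL_apply (x : K) (r : Sk σ) (l : K × K) : actL x r l = act x l r := rfl

/-- coordinatewise conjugation -/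
def cj (σ : K →+* K) (l : K × K) : K × K := (σ l.1, σ l.2)

theorem cj_cj (hσ : ∀ a, σ (σ a) = a) (l : K × K) : cj σ (cj σ l) = l := by
  ext <;> simp only [cj, hσ]

theorem cj_add (l m : K × K) : cj σ (l + m) = cj σ l + cj σ m := by
  ext <;> simp [cj]

theorem cj_smul (c : K) (l : K × K) : cj σ (c • l) = σ c • cj σ l := by
  ext <;> simp [cj]

theorem cj_ne_zero {l : K × K} (hl : l ≠ 0) : cj σ l ≠ 0 := by
  intro h
  have h1 := congrArg Prod.fst h
  have h2 := congrArg Prod.snd h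
  simp only [cj, Prod.fst_zero, Prod.snd_zero, map_eq_zero] at h1 h2
  exact hl (Prod.ext h1 h2)

/-- the conjugated action, linear -/
noncomputable def actC (hσ : ∀ a, σ (σ a) = a) (x : K) (r : Sk σ) : (K × K) →ₗ[K] (K × K) where
  toFun l := cj σ (act x (cj σ l) r)
  map_add' l m := by rw [cj_add, act_add, cj_add]
  map_smul' c l := by rw [cj_smul, act_smul, cj_smul, hσ]; rfl

/-- odd coordinate -/
noncomputable def psi (σ : K →+* K) (x : K) (l : K × K) : K × K := cj σ (sharp σ x l)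

theorem psi_ne_zero (hσ : ∀ a, σ (σ a) = a) {x : K} (hx : σ x ≠ x) {l : K × K} (hl : l ≠ 0) :
    psi σ x l ≠ 0 := cj_ne_zero (sharp_ne_zero hσ hx hl)

/-- weight `-q` -/
theorem psi_smul (hσ : ∀ a, σ (σ a) = a) {x : K} (hx : σ x ≠ x) {l : K × K} (hl : l ≠ 0) {c : K}
    (hc : c ≠ 0) : psi σ x (c • l) = (σ c)⁻¹ • psi σ x l := by
  unfold psi
  rw [sharp_smul hσ hx hl hc, cj_smul, map_inv₀]

theorem psi_transport (hσ : ∀ a, σ (σ a) = a) {x c : K} {l L : K × K} {r' : Sk σ}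
    (h : sharp σ x L = c • act x (sharp σ x l) r') :
    psi σ x L = (σ c • actC hσ x r') (psi σ x l) := by
  show cj σ (sharp σ x L) = σ c • cj σ (act x (cj σ (cj σ (sharp σ x l))) r')
  rw [h, cj_smul, cj_cj hσ]

/-! ### index systems -/

/-- a parametrisation of the small elements with norm prime to `x` and `y` -/
structure Idx (σ : K →+* K) (x y : K) (Λ : Type*) where
  el : Λ → Sk σ
  small : ∀ ϖ, Small (el ϖ)
  nx : ∀ ϖ, (N (el ϖ)).eval x ≠ 0
  ny : ∀ ϖ, (N (el ϖ)).eval y ≠ 0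
  inj : Function.Injective el
  surj : ∀ r : Sk σ, Small r → (N r).eval x ≠ 0 → (N r).eval y ≠ 0 → ∃ ϖ, el ϖ = r

namespace Idx

variable {x y : K} {Λ : Type*}

/-- exchange of the two places -/
def swap (I : Idx σ x y Λ) : Idx σ y x Λ :=
  ⟨I.el, I.small, I.ny, I.nx, I.inj, fun r h1 h2 h3 => I.surj r h1 h3 h2⟩

/-- the permutation `ϖ ↦ ϖ'` of a line -/
theorem exists_pr [Finite Λ] (I : Idx σ x y Λ) (hσ : ∀ a, σ (σ a) = a) (hx : σ x ≠ x)
    (l : K × K) : ∃ f : Λ → Λ, l ≠ 0 → Function.Bijective f ∧ ∀ ϖ,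
      I.el ϖ * be σ x (act x l (I.el ϖ)) = be σ x l * I.el (f ϖ) ∧
      N (I.el (f ϖ)) = N (I.el ϖ) ∧
      sharp σ x (act x l (I.el ϖ)) =
        ((N (I.el (f ϖ))).eval x)⁻¹ • act x (sharp σ x l) (I.el (f ϖ)) := by
  by_cases hl : l = 0
  · exact ⟨id, fun h => absurd hl h⟩
  · have h1 : ∀ ϖ, ∃ ϖ', I.el ϖ * be σ x (act x l (I.el ϖ)) = be σ x l * I.el ϖ' ∧
        N (I.el ϖ') = N (I.el ϖ) ∧
        sharp σ x (act x l (I.el ϖ)) =
          ((N (I.el ϖ')).eval x)⁻¹ • act x (sharp σ x l) (I.el ϖ') := by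
      intro ϖ
      obtain ⟨r', hs, h2, h3, h4⟩ := comm_small hσ hx hl (I.small ϖ) (I.nx ϖ)
      obtain ⟨ϖ', rfl⟩ := I.surj r' hs (by rw [h3]; exact I.nx ϖ) (by rw [h3]; exact I.ny ϖ)
      exact ⟨ϖ', h2, h3, by rw [h3]; exact h4⟩
    choose f hf using h1
    refine ⟨f, fun _ => ⟨Finite.injective_iff_bijective.1 ?_, hf⟩⟩
    intro a b hab
    obtain ⟨a1, a2, a3⟩ := hf a
    obtain ⟨b1, b2, b3⟩ := hf b
    rw [← hab] at b1 b2 b3
    apply I.inj
    exact comm_inj hσ hx hl (I.nx a) (I.nx b) a1 b1 a2 b2 (by rw [← a2]; exact a3)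
      (by rw [← b2]; exact b3)

/-- the permutation of a line -/
noncomputable def pr [Finite Λ] (I : Idx σ x y Λ) (hσ : ∀ a, σ (σ a) = a) (hx : σ x ≠ x)
    (l : K × K) : Λ → Λ := (I.exists_pr hσ hx l).choose

section prop

variable [Finite Λ] (I : Idx σ x y Λ) (hσ : ∀ a, σ (σ a) = a) (hx : σ x ≠ x) {l : K × K}
  (hl : l ≠ 0)

include hl

theorem pr_bij : Function.Bijective (I.pr hσ hx l) := ((I.exists_pr hσ hx l).choose_spec hl).1

theorem pr_comm (ϖ : Λ) :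
    I.el ϖ * be σ x (act x l (I.el ϖ)) = be σ x l * I.el (I.pr hσ hx l ϖ) :=
  (((I.exists_pr hσ hx l).choose_spec hl).2 ϖ).1

theorem pr_N (ϖ : Λ) : N (I.el (I.pr hσ hx l ϖ)) = N (I.el ϖ) :=
  (((I.exists_pr hσ hx l).choose_spec hl).2 ϖ).2.1

theorem pr_sharp (ϖ : Λ) :
    sharp σ x (act x l (I.el ϖ)) = ((N (I.el (I.pr hσ hx l ϖ))).eval x)⁻¹ •
      act x (sharp σ x l) (I.el (I.pr hσ hx l ϖ)) :=
  (((I.exists_pr hσ hx l).choose_spec hl).2 ϖ).2.2

theorem pr_psi (ϖ : Λ) :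
    psi σ x (act x l (I.el ϖ)) = (σ (((N (I.el (I.pr hσ hx l ϖ))).eval x)⁻¹) •
      actC hσ x (I.el (I.pr hσ hx l ϖ))) (psi σ x l) :=
  psi_transport hσ (I.pr_sharp hσ hx hl ϖ)

/-- transport of the coordinate of the other place -/
theorem pr_act (m : K × K) (z : K) (ϖ : Λ) :
    act z (act z m (I.el ϖ)) (be σ x (act x l (I.el ϖ))) =
      act z (act z m (be σ x l)) (I.el (I.pr hσ hx l ϖ)) := by
  rw [← act_mul hσ, ← act_mul hσ, I.pr_comm hσ hx hl]

end prop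

/-- the two orders around a square give the same permutation -/
theorem pr_pr [Finite Λ] (I : Idx σ x y Λ) (hσ : ∀ a, σ (σ a) = a) (hx : σ x ≠ x) (hy : σ y ≠ y)
    (hxy : x ≠ y) (hxy' : σ x ≠ y) {l m : K × K} (hl : l ≠ 0) (hm : m ≠ 0) (ϖ : Λ) :
    I.swap.pr hσ hy (act y m (be σ x l)) (I.pr hσ hx l ϖ) =
      I.pr hσ hx (act x l (be σ y m)) (I.swap.pr hσ hy m ϖ) := by
  have hyx' : σ y ≠ x := fun h => hxy' (by rw [← h, hσ])
  have hM0 : act y m (be σ x l) ≠ 0 := act_ne_zero hσ hm (N_be_eval_ne hσ hx hl hxy hxy')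
  have hL0 : act x l (be σ y m) ≠ 0 := act_ne_zero hσ hl (N_be_eval_ne hσ hy hm hxy.symm hyx')
  have hL1 : act x l (I.el ϖ) ≠ 0 := act_ne_zero hσ hl (I.nx ϖ)
  have hM1 : act y m (I.el ϖ) ≠ 0 := act_ne_zero hσ hm (I.ny ϖ)
  apply I.inj
  have c0 := Fac281.comm hσ hx hy hxy hxy' hl hm
  have c1 := Fac281.comm hσ hx hy hxy hxy' hL1 hM1
  have e1 := I.pr_comm hσ hx hl ϖ
  have e2 := I.swap.pr_comm hσ hy hM0 (I.pr hσ hx l ϖ)
  have e3 := I.swap.pr_comm hσ hy hm ϖ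
  have e4 := I.pr_comm hσ hx hL0 (I.swap.pr hσ hy m ϖ)
  have a1 := I.pr_act hσ hx hl m y ϖ
  have a2 := I.swap.pr_act hσ hy hm l x ϖ
  have h : (be σ x l * be σ y (act y m (be σ x l))) *
      I.el (I.swap.pr hσ hy (act y m (be σ x l)) (I.pr hσ hx l ϖ)) =
      (be σ x l * be σ y (act y m (be σ x l))) *
      I.el (I.pr hσ hx (act x l (be σ y m)) (I.swap.pr hσ hy m ϖ)) := by
    have s1 : (be σ x l * be σ y (act y m (be σ x l))) *
      I.el (I.swap.pr hσ hy (act y m (be σ x l)) (I.pr hσ hx l ϖ)) =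
        I.el ϖ * (be σ x (act x l (I.el ϖ)) *
          be σ y (act y (act y m (I.el ϖ)) (be σ x (act x l (I.el ϖ))))) := by
      rw [a1, sk_mul_assoc hσ]
      have e2' : I.el (I.pr hσ hx l ϖ) *
          be σ y (act y (act y m (be σ x l)) (I.el (I.pr hσ hx l ϖ))) =
          be σ y (act y m (be σ x l)) *
            I.el (I.swap.pr hσ hy (act y m (be σ x l)) (I.pr hσ hx l ϖ)) := e2
      rw [← e2', ← sk_mul_assoc hσ, ← e1, sk_mul_assoc hσ]
    have s2 : (be σ y m * be σ x (act x l (be σ y m))) *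
      I.el (I.pr hσ hx (act x l (be σ y m)) (I.swap.pr hσ hy m ϖ)) =
        I.el ϖ * (be σ y (act y m (I.el ϖ)) *
          be σ x (act x (act x l (I.el ϖ)) (be σ y (act y m (I.el ϖ))))) := by
      have a2' : act x (act x l (I.el ϖ)) (be σ y (act y m (I.el ϖ))) =
          act x (act x l (be σ y m)) (I.el (I.swap.pr hσ hy m ϖ)) := a2
      have e3' : I.el ϖ * be σ y (act y m (I.el ϖ)) =
          be σ y m * I.el (I.swap.pr hσ hy m ϖ) := e3
      rw [a2', sk_mul_assoc hσ, ← e4, ← sk_mul_assoc hσ, ← e3', sk_mul_assoc hσ]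
    rw [s1, c1, ← s2, c0]
  refine mul_left_cancel' hσ ?_ h
  rw [N_mul hσ]
  exact mul_ne_zero (N_be_ne_zero hσ hx hl) (N_be_ne_zero hσ hy hM0)

end Idx

/-! ### the four corners -/

section corners

variable {P : Type*} [Group P] {Λ : Type*} [Fintype Λ] {x y : K}

/-- multiplicative on elements of constant term one -/
def MulOne (nu : Sk σ → P) : Prop :=
  ∀ r s : Sk σ, r.re.coeff 0 = 1 → s.re.coeff 0 = 1 → nu (r * s) = nu r * nu s

/-- linear maps of the index set -/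
noncomputable def lx (I : Idx σ x y Λ) (ϖ : Λ) : (K × K) →ₗ[K] (K × K) := actL x (I.el ϖ)
/-- linear maps of the index set -/
noncomputable def ly (I : Idx σ x y Λ) (ϖ : Λ) : (K × K) →ₗ[K] (K × K) := actL y (I.el ϖ)

/-- odd linear maps of the index set -/
noncomputable def ox (hσ : ∀ a, σ (σ a) = a) (I : Idx σ x y Λ) (ϖ : Λ) :
    (K × K) →ₗ[K] (K × K) := σ (((N (I.el ϖ)).eval x)⁻¹) • actC hσ x (I.el ϖ)
/-- odd linear maps of the index set -/
noncomputable def oy (hσ : ∀ a, σ (σ a) = a) (I : Idx σ x y Λ) (ϖ : Λ) :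
    (K × K) →ₗ[K] (K × K) := σ (((N (I.el ϖ)).eval y)⁻¹) • actC hσ y (I.el ϖ)

/-- weight = any function of the norm -/
noncomputable def wtN (I : Idx σ x y Λ) (W : K[X] → K) (ϖ : Λ) : K := W (N (I.el ϖ))

/-- the Hecke operator -/
noncomputable def HS (s t : ℕ) (I : Idx σ x y Λ) (nu : Sk σ → P) (W : K[X] → K) :
    (P → Option K → Option K → K) →ₗ[K] (P → Option K → Option K → K) :=
  S s t (fun ϖ => nu (I.el ϖ)) (lx I) (ly I) (wtN I W)

variable (hσ : ∀ a, σ (σ a) = a) (I : Idx σ x y Λ) (nu : Sk σ → P) (W : K[X] → K) (s t : ℕ)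

include hσ

theorem lx_ne (ϖ : Λ) (l : K × K) (hl : l ≠ 0) : lx I ϖ l ≠ 0 := act_ne_zero hσ hl (I.nx ϖ)
theorem ly_ne (ϖ : Λ) (m : K × K) (hm : m ≠ 0) : ly I ϖ m ≠ 0 := act_ne_zero hσ hm (I.ny ϖ)

/-- corner `ee` -/
theorem S_ee {w : P → Option K → Option K → K}
    (hw : w ∈ Corner s t (fun _ _ => (1 : P)) (fun l _ => l) (fun _ m => m)) :
    HS s t I nu W w ∈ Corner s t (fun _ _ => (1 : P)) (fun l _ => l) (fun _ m => m) :=
  corner_stable _ (lx I) (ly I) _ (lx_ne hσ I) (ly_ne hσ I) _ _ _ (fun ϖ => nu (I.el ϖ))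
    (lx I) (ly I) (wtN I W) (fun _ _ => id) (fun _ _ _ _ => Function.bijective_id)
    (fun _ _ _ _ _ => rfl) (fun _ _ _ _ _ => by simp) (fun _ _ _ _ _ => rfl)
    (fun _ _ _ _ _ => rfl) hw

/-- corner `oe` -/
theorem S_oe (hx : σ x ≠ x) (hnu : MulOne nu) {w : P → Option K → Option K → K}
    (hw : w ∈ Corner s t (fun l _ => nu (be σ x l)) (fun l _ => psi σ x l)
      (fun l m => act y m (be σ x l))) :
    HS s t I nu W w ∈ Corner s t (fun l _ => nu (be σ x l)) (fun l _ => psi σ x l)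
      (fun l m => act y m (be σ x l)) := by
  refine corner_stable _ (lx I) (ly I) _ (lx_ne hσ I) (ly_ne hσ I) _ _ _ (fun ϖ => nu (I.el ϖ))
    (ox hσ I) (ly I) (wtN I W) (fun l _ => I.pr hσ hx l)
    (fun l _ hl _ => I.pr_bij hσ hx hl) ?_ ?_ ?_ ?_ hw
  · intro l m hl hm ϖ
    show W _ = W _
    rw [I.pr_N hσ hx hl]
  · intro l m hl hm ϖ
    show nu (I.el ϖ) * nu (be σ x (act x l (I.el ϖ))) = nu (be σ x l) * nu _
    rw [← hnu _ _ (I.small ϖ).1 (be_re_coeff _ _), I.pr_comm hσ hx hl,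
      hnu _ _ (be_re_coeff _ _) (I.small _).1]
  · intro l m hl hm ϖ
    exact I.pr_psi hσ hx hl ϖ
  · intro l m hl hm ϖ
    exact I.pr_act hσ hx hl m y ϖ

/-- corner `eo` -/
theorem S_eo (hy : σ y ≠ y) (hnu : MulOne nu) {w : P → Option K → Option K → K}
    (hw : w ∈ Corner s t (fun _ m => nu (be σ y m)) (fun l m => act x l (be σ y m))
      (fun _ m => psi σ y m)) :
    HS s t I nu W w ∈ Corner s t (fun _ m => nu (be σ y m)) (fun l m => act x l (be σ y m))
      (fun _ m => psi σ y m) := by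
  refine corner_stable _ (lx I) (ly I) _ (lx_ne hσ I) (ly_ne hσ I) _ _ _ (fun ϖ => nu (I.el ϖ))
    (lx I) (oy hσ I) (wtN I W) (fun _ m => I.swap.pr hσ hy m)
    (fun _ m _ hm => I.swap.pr_bij hσ hy hm) ?_ ?_ ?_ ?_ hw
  · intro l m hl hm ϖ
    show W (N (I.swap.el ϖ)) = W (N (I.swap.el _))
    rw [I.swap.pr_N hσ hy hm]
  · intro l m hl hm ϖ
    show nu (I.swap.el ϖ) * nu (be σ y (act y m (I.swap.el ϖ))) = nu (be σ y m) *
      nu (I.swap.el _)
    rw [← hnu _ _ (I.swap.small ϖ).1 (be_re_coeff _ _), I.swap.pr_comm hσ hy hm,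
      hnu _ _ (be_re_coeff _ _) (I.swap.small _).1]
  · intro l m hl hm ϖ
    exact I.swap.pr_act hσ hy hm l x ϖ
  · intro l m hl hm ϖ
    exact I.swap.pr_psi hσ hy hm ϖ

/-- corner `oo` -/
theorem S_oo (hx : σ x ≠ x) (hy : σ y ≠ y) (hxy : x ≠ y) (hxy' : σ x ≠ y) (hnu : MulOne nu)
    {w : P → Option K → Option K → K}
    (hw : w ∈ Corner s t (fun l m => nu (be σ x l) * nu (be σ y (act y m (be σ x l))))
      (fun l m => psi σ x (act x l (be σ y m))) (fun l m => psi σ y (act y m (be σ x l)))) :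
    HS s t I nu W w ∈ Corner s t
      (fun l m => nu (be σ x l) * nu (be σ y (act y m (be σ x l))))
      (fun l m => psi σ x (act x l (be σ y m))) (fun l m => psi σ y (act y m (be σ x l))) := by
  have hyx' : σ y ≠ x := fun h => hxy' (by rw [← h, hσ])
  have hM0 : ∀ l m : K × K, l ≠ 0 → m ≠ 0 → act y m (be σ x l) ≠ 0 := fun l m hl hm =>
    act_ne_zero hσ hm (N_be_eval_ne hσ hx hl hxy hxy')
  have hL0 : ∀ l m : K × K, l ≠ 0 → m ≠ 0 → act x l (be σ y m) ≠ 0 := fun l m hl hm =>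
    act_ne_zero hσ hl (N_be_eval_ne hσ hy hm hxy.symm hyx')
  refine corner_stable _ (lx I) (ly I) _ (lx_ne hσ I) (ly_ne hσ I) _ _ _ (fun ϖ => nu (I.el ϖ))
    (ox hσ I) (oy hσ I) (wtN I W)
    (fun l m => I.swap.pr hσ hy (act y m (be σ x l)) ∘ I.pr hσ hx l)
    (fun l m hl hm => (I.swap.pr_bij hσ hy (hM0 l m hl hm)).comp (I.pr_bij hσ hx hl))
    ?_ ?_ ?_ ?_ hw
  · intro l m hl hm ϖ
    show W (N (I.el ϖ)) = W (N (I.swap.el _))
    rw [Function.comp, I.swap.pr_N hσ hy (hM0 l m hl hm)]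
    show W (N (I.el ϖ)) = W (N (I.el _))
    rw [I.pr_N hσ hx hl]
  · intro l m hl hm ϖ
    have e2 := I.swap.pr_comm hσ hy (hM0 l m hl hm) (I.pr hσ hx l ϖ)
    have e1 := I.pr_comm hσ hx hl ϖ
    have a1 := I.pr_act hσ hx hl m y ϖ
    show nu (I.el ϖ) * (nu (be σ x (act x l (I.el ϖ))) *
      nu (be σ y (act y (act y m (I.el ϖ)) (be σ x (act x l (I.el ϖ)))))) = _
    rw [a1, ← mul_assoc, ← hnu _ _ (I.small ϖ).1 (be_re_coeff _ _), e1,
      hnu _ _ (be_re_coeff _ _) (I.small _).1, mul_assoc,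
      ← hnu _ _ (I.small _).1 (be_re_coeff _ _)]
    change I.el (I.pr hσ hx l ϖ) * be σ y (act y (act y m (be σ x l))
      (I.el (I.pr hσ hx l ϖ))) = _ at e2
    rw [e2, hnu _ _ (be_re_coeff _ _) (I.swap.small _).1, ← mul_assoc]
    rfl
  · intro l m hl hm ϖ
    have a2 := I.swap.pr_act hσ hy hm l x ϖ
    change act x (act x l (I.el ϖ)) (be σ y (act y m (I.el ϖ))) =
      act x (act x l (be σ y m)) (I.el (I.swap.pr hσ hy m ϖ)) at a2
    show psi σ x (act x (act x l (I.el ϖ)) (be σ y (act y m (I.el ϖ)))) =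
      ox hσ I (I.swap.pr hσ hy (act y m (be σ x l)) (I.pr hσ hx l ϖ))
        (psi σ x (act x l (be σ y m)))
    rw [a2, I.pr_pr hσ hx hy hxy hxy' hl hm]
    exact I.pr_psi hσ hx (hL0 l m hl hm) _
  · intro l m hl hm ϖ
    have a1 := I.pr_act hσ hx hl m y ϖ
    show psi σ y (act y (act y m (I.el ϖ)) (be σ x (act x l (I.el ϖ)))) =
      oy hσ I (I.swap.pr hσ hy (act y m (be σ x l)) (I.pr hσ hx l ϖ))
        (psi σ y (act y m (be σ x l)))
    rw [a1]
    exact I.swap.pr_psi hσ hy (hM0 l m hl hm) _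

end corners

end Crest.Agent.R289.CornerHecke223
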