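import Crest.Agent.R289.Word_508

/-!
Row 289, block B/C seam: LINEAR UNIT CODES, closed under tensor products.

`U` = units, `S` = symbols of a unit, values in a field `K`.  `LU C nb N nb' cr ..` : the linear
code `C ≤ (U → S → K)` is cut out by ONE linear condition `N` on the labels of the neighbours
`nb i u`, it is locally testable for bundles over every finite index type, has distance `d0`
(fraction of units), and `cr` is a local correction rule reading the neighbours `nb' i u`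
(adversarial values at the units of `E`, bad set `B` independent of the word).

* `LU.tensor` : tensor product on `U₁ × U₂`,
* `LU.comp`, `LU.iter` : composition / iteration of the correction,
* `LU.toCAx` : registers `κ`, exit to `Word508.CAx`.
-/

set_option autoImplicit false
set_option linter.unusedSectionVars false

namespace Crest.Agent.R289.LU846

open Finset Crest.Agent.R289.DefD Crest.Agent.R289.Word508

/-! ### fractions on products -/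

section fracprod
variable {U₁ U₂ : Type} [Fintype U₁] [Fintype U₂]

theorem frac_mul_card {U : Type} [Fintype U] [Nonempty U] (p : U → Prop) [DecidablePred p] :
    frac p * (Fintype.card U : ℝ) = ((univ.filter p).card : ℝ) := by
  unfold frac
  have : (Fintype.card U : ℝ) ≠ 0 := by
    exact_mod_cast Fintype.card_ne_zero
  rw [div_mul_cancel₀ _ this]
  congr

theorem fub₁ [Nonempty U₁] [Nonempty U₂] (p : U₁ × U₂ → Prop) :
    frac p * (Fintype.card U₁ : ℝ) = ∑ u₁, frac fun u₂ => p (u₁, u₂) := by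
  classical
  have h2 : (Fintype.card U₂ : ℝ) ≠ 0 := by exact_mod_cast Fintype.card_ne_zero
  apply mul_right_cancel₀ h2
  rw [Finset.sum_mul]
  simp only [frac_mul_card]
  rw [mul_assoc, ← Nat.cast_mul, ← Fintype.card_prod, frac_mul_card]
  rw [← Nat.cast_sum]
  congr 1
  simp only [Finset.card_filter]
  rw [Fintype.sum_prod_type]

theorem fub₂ [Nonempty U₁] [Nonempty U₂] (p : U₁ × U₂ → Prop) :
    frac p * (Fintype.card U₂ : ℝ) = ∑ u₂, frac fun u₁ => p (u₁, u₂) := by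
  classical
  have h2 : (Fintype.card U₁ : ℝ) ≠ 0 := by exact_mod_cast Fintype.card_ne_zero
  apply mul_right_cancel₀ h2
  rw [Finset.sum_mul]
  simp only [frac_mul_card]
  rw [mul_assoc, mul_comm (Fintype.card U₂ : ℝ), ← Nat.cast_mul, ← Fintype.card_prod,
    frac_mul_card]
  rw [← Nat.cast_sum]
  congr 1
  simp only [Finset.card_filter]
  rw [Fintype.sum_prod_type_right]

theorem frac_fst [Nonempty U₁] [Nonempty U₂] (p : U₁ → Prop) :
    frac (fun u : U₁ × U₂ => p u.1) = frac p := by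
  have h1 : (Fintype.card U₂ : ℝ) ≠ 0 := by exact_mod_cast Fintype.card_ne_zero
  apply mul_right_cancel₀ h1
  rw [fub₂]
  simp [mul_comm]

theorem frac_snd [Nonempty U₁] [Nonempty U₂] (p : U₂ → Prop) :
    frac (fun u : U₁ × U₂ => p u.2) = frac p := by
  have h1 : (Fintype.card U₁ : ℝ) ≠ 0 := by exact_mod_cast Fintype.card_ne_zero
  apply mul_right_cancel₀ h1
  rw [fub₁]
  simp [mul_comm]

/-- rows: sum of row bounds -/
theorem frac_le_rows [Nonempty U₁] [Nonempty U₂] {p q : U₁ × U₂ → Prop} {c : ℝ}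
    (h : ∀ u₁, frac (fun u₂ => p (u₁, u₂)) ≤ c * frac fun u₂ => q (u₁, u₂)) :
    frac p ≤ c * frac q := by
  have h1 : (0 : ℝ) < Fintype.card U₁ := by exact_mod_cast Fintype.card_pos
  apply le_of_mul_le_mul_right _ h1
  rw [mul_assoc, fub₁, fub₁, Finset.mul_sum]
  exact Finset.sum_le_sum fun u _ => h u

theorem frac_le_cols [Nonempty U₁] [Nonempty U₂] {p q : U₁ × U₂ → Prop} {c : ℝ}
    (h : ∀ u₂, frac (fun u₁ => p (u₁, u₂)) ≤ c * frac fun u₁ => q (u₁, u₂)) :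
    frac p ≤ c * frac q := by
  have h1 : (0 : ℝ) < Fintype.card U₂ := by exact_mod_cast Fintype.card_pos
  apply le_of_mul_le_mul_right _ h1
  rw [mul_assoc, fub₂, fub₂, Finset.mul_sum]
  exact Finset.sum_le_sum fun u _ => h u

/-- Markov for columns -/
theorem markov₂ [Nonempty U₁] [Nonempty U₂] (p : U₁ × U₂ → Prop) (q : U₂ → Prop) {a : ℝ}
    (h : ∀ u₂, q u₂ → a ≤ frac fun u₁ => p (u₁, u₂)) : a * frac q ≤ frac p := by
  classical
  have h1 : (0 : ℝ) < Fintype.card U₂ := by exact_mod_cast Fintype.card_pos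
  apply le_of_mul_le_mul_right _ h1
  rw [fub₂, mul_assoc, frac_mul_card, Finset.card_filter, Nat.cast_sum, Finset.mul_sum]
  refine Finset.sum_le_sum fun u _ => ?_
  by_cases hq : q u
  · simpa [hq] using h u hq
  · simpa [hq] using frac_nonneg _

/-- Markov for rows -/
theorem markov₁ [Nonempty U₁] [Nonempty U₂] (p : U₁ × U₂ → Prop) (q : U₁ → Prop) {a : ℝ}
    (h : ∀ u₁, q u₁ → a ≤ frac fun u₂ => p (u₁, u₂)) : a * frac q ≤ frac p := by
  classical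
  have h1 : (0 : ℝ) < Fintype.card U₁ := by exact_mod_cast Fintype.card_pos
  apply le_of_mul_le_mul_right _ h1
  rw [fub₁, mul_assoc, frac_mul_card, Finset.card_filter, Nat.cast_sum, Finset.mul_sum]
  refine Finset.sum_le_sum fun u _ => ?_
  by_cases hq : q u
  · simpa [hq] using h u hq
  · simpa [hq] using frac_nonneg _

end fracprod

/-! ### linear unit codes -/

variable {K : Type} [Field K]

/-- linear unit code -/
structure LU {U S ι ι' : Type} [Fintype U] (C : Submodule K (U → S → K)) (nb : ι → U → U)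
    (N : Submodule K (ι → S → K)) (nb' : ι' → U → U) (cr : (ι' → S → K) → S → K)
    (m m' zs r0 d0 c θ : ℝ) : Prop where
  mult : NbMult nb m
  mult' : NbMult nb' m'
  mem : ∀ X, X ∈ C ↔ ∀ u, (fun i => X (nb i u)) ∈ N
  sep : ∀ w ∈ C, w ≠ 0 → d0 ≤ frac (fun u => w u ≠ 0)
  sound : ∀ (β : Type) [Fintype β] (X : U → S → β → K),
    frac (fun u => ∃ b, (fun i s => X (nb i u) s b) ∉ N) ≤ zs →
    ∃ Y : U → S → β → K, (∀ b, (fun u s => Y u s b) ∈ C) ∧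
      frac (fun u => X u ≠ Y u) ≤ c * frac (fun u => ∃ b, (fun i s => X (nb i u) s b) ∉ N)
  corr : ∀ E : U → Prop, frac E ≤ r0 → ∃ B : U → Prop, frac B ≤ θ * frac E ∧
    ∀ w ∈ C, ∀ u, ¬ B u → ∀ x : ι' → S → K,
      (∀ i, ¬ E (nb' i u) → x i = w (nb' i u)) → cr x = w u

/-! ### duality -/

theorem lin_sum {ι S : Type} [Fintype ι] [Fintype S] (f : (ι → S → K) →ₗ[K] K) :
    ∃ a : ι → S → K, ∀ x, f x = ∑ i, ∑ s, a i s * x i s := by
  classical
  refine ⟨fun i s => f (Pi.single i (Pi.single s 1)), fun x => ?_⟩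
  have hx : x = ∑ i, ∑ s, x i s • (Pi.single i (Pi.single s (1 : K)) : ι → S → K) := by
    funext i s
    simp only [Finset.sum_apply, Pi.smul_apply, smul_eq_mul]
    rw [Finset.sum_eq_single i, Finset.sum_eq_single s]
    · simp
    · intro t _ ht
      simp [Pi.single_eq_of_ne (Ne.symm ht)]
    · simp
    · intro j _ hj
      refine Finset.sum_eq_zero fun t _ => ?_
      simp [Pi.single_eq_of_ne (Ne.symm hj)]
    · simp
  conv_lhs => rw [hx]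
  simp only [map_sum, map_smul, smul_eq_mul]
  refine Finset.sum_congr rfl fun i _ => Finset.sum_congr rfl fun s _ => ?_
  ring

/-- a vector outside a subspace is separated by a functional with explicit coefficients -/
theorem dual_sep {ι S : Type} [Fintype ι] [Fintype S] (N : Submodule K (ι → S → K))
    {x : ι → S → K} (hx : x ∉ N) :
    ∃ a : ι → S → K, (∀ y ∈ N, ∑ i, ∑ s, a i s * y i s = 0) ∧ ∑ i, ∑ s, a i s * x i s ≠ 0 := by
  obtain ⟨f, hf, hN⟩ := Submodule.exists_le_ker_of_notMem hx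
  obtain ⟨a, ha⟩ := lin_sum f
  refine ⟨a, fun y hy => ?_, ?_⟩
  · rw [← ha]
    exact hN hy
  · rw [← ha]
    exact hf

/-! ### tensor product -/

section tensor

variable {U₁ S₁ U₂ S₂ : Type}

/-- tensor product code -/
def tens (C₁ : Submodule K (U₁ → S₁ → K)) (C₂ : Submodule K (U₂ → S₂ → K)) :
    Submodule K (U₁ × U₂ → S₁ × S₂ → K) where
  carrier := {X | (∀ u₂ s₂, (fun u₁ s₁ => X (u₁, u₂) (s₁, s₂)) ∈ C₁) ∧
    ∀ u₁ s₁, (fun u₂ s₂ => X (u₁, u₂) (s₁, s₂)) ∈ C₂}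
  add_mem' := fun ha hb => ⟨fun u s => C₁.add_mem (ha.1 u s) (hb.1 u s),
    fun u s => C₂.add_mem (ha.2 u s) (hb.2 u s)⟩
  zero_mem' := ⟨fun _ _ => C₁.zero_mem, fun _ _ => C₂.zero_mem⟩
  smul_mem' := fun c _ ha => ⟨fun u s => C₁.smul_mem c (ha.1 u s),
    fun u s => C₂.smul_mem c (ha.2 u s)⟩

variable {ι₁ ι₂ ι₁' ι₂' : Type}

/-- neighbours of the tests -/
def nbT (nb₁ : ι₁ → U₁ → U₁) (nb₂ : ι₂ → U₂ → U₂) : ι₁ ⊕ ι₂ → U₁ × U₂ → U₁ × U₂ :=
  Sum.elim (fun i u => (nb₁ i u.1, u.2)) (fun i u => (u.1, nb₂ i u.2))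

/-- the local condition -/
def NT (N₁ : Submodule K (ι₁ → S₁ → K)) (N₂ : Submodule K (ι₂ → S₂ → K)) :
    Submodule K (ι₁ ⊕ ι₂ → S₁ × S₂ → K) where
  carrier := {x | (∀ s₂, (fun i s₁ => x (Sum.inl i) (s₁, s₂)) ∈ N₁) ∧
    ∀ s₁, (fun i s₂ => x (Sum.inr i) (s₁, s₂)) ∈ N₂}
  add_mem' := fun ha hb => ⟨fun s => N₁.add_mem (ha.1 s) (hb.1 s),
    fun s => N₂.add_mem (ha.2 s) (hb.2 s)⟩
  zero_mem' := ⟨fun _ => N₁.zero_mem, fun _ => N₂.zero_mem⟩
  smul_mem' := fun c _ ha => ⟨fun s => N₁.smul_mem c (ha.1 s), fun s => N₂.smul_mem c (ha.2 s)⟩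

/-- neighbours of the correction -/
def nbC (nb₁ : ι₁' → U₁ → U₁) (nb₂ : ι₂' → U₂ → U₂) : ι₁' × ι₂' → U₁ × U₂ → U₁ × U₂ :=
  fun i u => (nb₁ i.1 u.1, nb₂ i.2 u.2)

/-- correction rule: second factor first, then first factor -/
def crT (cr₁ : (ι₁' → S₁ → K) → S₁ → K) (cr₂ : (ι₂' → S₂ → K) → S₂ → K)
    (x : ι₁' × ι₂' → S₁ × S₂ → K) : S₁ × S₂ → K :=
  fun s => cr₁ (fun i₁ s₁ => cr₂ (fun i₂ s₂ => x (i₁, i₂) (s₁, s₂)) s.2) s.1

variable [Fintype U₁] [Fintype U₂] [Nonempty U₁] [Nonempty U₂]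

theorem NbMult.nonneg_of {U : Type} [Fintype U] [Nonempty U] {ι : Type} [Nonempty ι]
    {nb : ι → U → U} {m : ℝ} (h : NbMult nb m) : 1 ≤ m := by
  obtain ⟨i⟩ := ‹Nonempty ι›
  have h1 := h i (fun _ => True)
  have h2 : frac (fun _ : U => True) = 1 := by
    classical
    unfold frac
    simp
  rw [h2] at h1
  linarith

theorem mult_fst {nb : ι₁ → U₁ → U₁} {m : ℝ} (h : NbMult nb m) (i : ι₁) (E : U₁ × U₂ → Prop) :
    frac (fun u : U₁ × U₂ => E (nb i u.1, u.2)) ≤ m * frac E :=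
  frac_le_cols (p := fun u : U₁ × U₂ => E (nb i u.1, u.2)) fun u₂ => h i fun u₁ => E (u₁, u₂)

theorem mult_snd {nb : ι₂ → U₂ → U₂} {m : ℝ} (h : NbMult nb m) (i : ι₂) (E : U₁ × U₂ → Prop) :
    frac (fun u : U₁ × U₂ => E (u.1, nb i u.2)) ≤ m * frac E :=
  frac_le_rows (p := fun u : U₁ × U₂ => E (u.1, nb i u.2)) fun u₁ => h i fun u₂ => E (u₁, u₂)

theorem mult_nbT {nb₁ : ι₁ → U₁ → U₁} {nb₂ : ι₂ → U₂ → U₂} {m₁ m₂ : ℝ}
    (h₁ : NbMult nb₁ m₁) (h₂ : NbMult nb₂ m₂) : NbMult (nbT nb₁ nb₂) (max m₁ m₂) := by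
  intro i E
  have hE := frac_nonneg E
  cases i with
  | inl i => exact (mult_fst h₁ i E).trans (mul_le_mul_of_nonneg_right (le_max_left _ _) hE)
  | inr i => exact (mult_snd h₂ i E).trans (mul_le_mul_of_nonneg_right (le_max_right _ _) hE)

theorem mult_nbC {nb₁ : ι₁' → U₁ → U₁} {nb₂ : ι₂' → U₂ → U₂} {m₁ m₂ : ℝ} (hm : 0 ≤ m₁)
    (h₁ : NbMult nb₁ m₁) (h₂ : NbMult nb₂ m₂) : NbMult (nbC nb₁ nb₂) (m₁ * m₂) := by
  rintro ⟨i₁, i₂⟩ E
  calc frac (fun u : U₁ × U₂ => E (nbC nb₁ nb₂ (i₁, i₂) u))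
      ≤ m₁ * frac (fun u : U₁ × U₂ => E (u.1, nb₂ i₂ u.2)) :=
        mult_fst h₁ i₁ (fun u => E (u.1, nb₂ i₂ u.2))
    _ ≤ m₁ * (m₂ * frac E) := mul_le_mul_of_nonneg_left (mult_snd h₂ i₂ E) hm
    _ = m₁ * m₂ * frac E := by ring

theorem mem_tens_iff {C₁ : Submodule K (U₁ → S₁ → K)} {C₂ : Submodule K (U₂ → S₂ → K)}
    {nb₁ : ι₁ → U₁ → U₁} {nb₂ : ι₂ → U₂ → U₂} {N₁ : Submodule K (ι₁ → S₁ → K)}
    {N₂ : Submodule K (ι₂ → S₂ → K)}
    (h₁ : ∀ X, X ∈ C₁ ↔ ∀ u, (fun i => X (nb₁ i u)) ∈ N₁)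
    (h₂ : ∀ X, X ∈ C₂ ↔ ∀ u, (fun i => X (nb₂ i u)) ∈ N₂) (X : U₁ × U₂ → S₁ × S₂ → K) :
    X ∈ tens C₁ C₂ ↔ ∀ u, (fun i => X (nbT nb₁ nb₂ i u)) ∈ NT N₁ N₂ := by
  constructor
  · rintro ⟨ha, hb⟩ ⟨u₁, u₂⟩
    exact ⟨fun s₂ => (h₁ _).1 (ha u₂ s₂) u₁, fun s₁ => (h₂ _).1 (hb u₁ s₁) u₂⟩
  · intro h
    exact ⟨fun u₂ s₂ => (h₁ _).2 fun u₁ => (h (u₁, u₂)).1 s₂,
      fun u₁ s₁ => (h₂ _).2 fun u₂ => (h (u₁, u₂)).2 s₁⟩

theorem sep_tens {C₁ : Submodule K (U₁ → S₁ → K)} {C₂ : Submodule K (U₂ → S₂ → K)} {d₁ d₂ : ℝ}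
    (hd₂ : 0 ≤ d₂)
    (h₁ : ∀ w ∈ C₁, w ≠ 0 → d₁ ≤ frac (fun u => w u ≠ 0))
    (h₂ : ∀ w ∈ C₂, w ≠ 0 → d₂ ≤ frac (fun u => w u ≠ 0))
    (w : U₁ × U₂ → S₁ × S₂ → K) (hw : w ∈ tens C₁ C₂) (hne : w ≠ 0) :
    d₂ * d₁ ≤ frac (fun u => w u ≠ 0) := by
  obtain ⟨⟨a₁, a₂⟩, ha⟩ := Function.ne_iff.1 hne
  obtain ⟨⟨s₁, s₂⟩, hs⟩ := Function.ne_iff.1 ha
  have h3 := h₁ _ (hw.1 a₂ s₂) (fun h => hs (by
    have := congrFun (congrFun h a₁) s₁
    simpa using this))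
  refine le_trans (mul_le_mul_of_nonneg_left h3 hd₂) (markov₁ (fun u => w u ≠ 0) _ ?_)
  intro u₁ hu₁
  obtain ⟨t₁, ht₁⟩ := Function.ne_iff.1 hu₁
  have h4 := h₂ _ (hw.2 u₁ t₁) (fun h => ht₁ (by
    have := congrFun (congrFun h a₂) s₂
    simpa using this))
  refine le_trans h4 (frac_mono fun u₂ hu₂ => ?_)
  obtain ⟨t₂, ht₂⟩ := Function.ne_iff.1 hu₂
  exact fun h => ht₂ (by
    have := congrFun h (t₁, t₂)
    simpa using this)

end tensor

end Crest.Agent.R289.LU846
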