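import Crest.Agent.R289.CorrTP_974
import Crest.Agent.R289.LU_846

/-!
Row 289: the `corr` field of `LU846.LU` for tensor products and for the two-place object, from
`CorrLab_974` / `CorrTP_974` (helper974).
-/

set_option autoImplicit false
set_option linter.unusedSectionVars false

namespace Crest.Agent.R289.CorrLU974

open Finset Crest.Agent.R289.DefD Crest.Agent.R289.Tan846 Crest.Agent.R289.TP846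
open Crest.Agent.R289.CorrLab974 Crest.Agent.R289.CorrTP974 Crest.Agent.R289.LU846

/-- the field `corr` of `LU` -/
def LUCorr {U S ι' K : Type} [Fintype U] (C : Set (U → S → K)) (nb' : ι' → U → U)
    (cr : (ι' → S → K) → S → K) (r0 θ : ℝ) : Prop :=
  ∀ E : U → Prop, frac E ≤ r0 → ∃ B : U → Prop, frac B ≤ θ * frac E ∧
    ∀ w ∈ C, ∀ u, ¬ B u → ∀ x : ι' → S → K,
      (∀ i, ¬ E (nb' i u) → x i = w (nb' i u)) → cr x = w u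

theorem luCorr_iff {U S ι' K : Type} [Fintype U] (C : Set (U → S → K)) (nb' : ι' → U → U)
    (cr : (ι' → S → K) → S → K) (r0 θ : ℝ) : LUCorr C nb' cr r0 θ ↔ SCorr cr nb' C r0 θ :=
  ⟨fun h => scorr_of_bad h, fun h => h.exists_bad⟩

/-- **corr half of `LU.tensor`**, general constants -/
theorem corr_tens {K : Type} [Field K] {U₁ U₂ S₁ S₂ ι₁' ι₂' : Type} [Fintype U₁] [Fintype U₂]
    [Nonempty U₁] [Nonempty U₂] {C₁ : Submodule K (U₁ → S₁ → K)} {C₂ : Submodule K (U₂ → S₂ → K)}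
    {nb₁ : ι₁' → U₁ → U₁} {nb₂ : ι₂' → U₂ → U₂} {cr₁ : (ι₁' → S₁ → K) → S₁ → K}
    {cr₂ : (ι₂' → S₂ → K) → S₂ → K} {r₁ r₂ θ₁ θ₂ : ℝ}
    (h₁ : ∀ E : U₁ → Prop, frac E ≤ r₁ → ∃ B : U₁ → Prop, frac B ≤ θ₁ * frac E ∧
      ∀ w ∈ C₁, ∀ u, ¬ B u → ∀ x : ι₁' → S₁ → K,
        (∀ i, ¬ E (nb₁ i u) → x i = w (nb₁ i u)) → cr₁ x = w u)
    (h₂ : ∀ E : U₂ → Prop, frac E ≤ r₂ → ∃ B : U₂ → Prop, frac B ≤ θ₂ * frac E ∧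
      ∀ w ∈ C₂, ∀ u, ¬ B u → ∀ x : ι₂' → S₂ → K,
        (∀ i, ¬ E (nb₂ i u) → x i = w (nb₂ i u)) → cr₂ x = w u)
    (hr₁ : 0 < r₁) (hr₂ : 0 < r₂) (hθ₁ : 0 ≤ θ₁) (hθ₂ : 0 ≤ θ₂) :
    ∀ E : U₁ × U₂ → Prop, frac E ≤ r₁ * r₂ / 2 →
      ∃ B : U₁ × U₂ → Prop, frac B ≤ (θ₁ / r₂ + θ₁ * θ₂ + 2 * θ₂ / r₁) * frac E ∧
        ∀ w ∈ tens C₁ C₂, ∀ u, ¬ B u → ∀ x : ι₁' × ι₂' → S₁ × S₂ → K,
          (∀ i, ¬ E (nbC nb₁ nb₂ i u) → x i = w (nbC nb₁ nb₂ i u)) → crT cr₁ cr₂ x = w u := by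
  have h1 : SCorr cr₁ nb₁ (C₁ : Set (U₁ → S₁ → K)) r₁ θ₁ := scorr_of_bad h₁
  have h2 : SCorr cr₂ nb₂ (C₂ : Set (U₂ → S₂ → K)) r₂ θ₂ := scorr_of_bad h₂
  have h := (scorr_prod (scorr_slice1 S₂ h1) (scorr_slice2 S₁ h2) hr₁ hr₂ hθ₁ hθ₂).exists_bad
  intro E hE
  obtain ⟨B, hB, hB'⟩ := h E hE
  exact ⟨B, hB, fun w hw u hu x hx => hB' w hw u hu x hx⟩

/-- **corr half of `LU.tensor`**, any target factor `θ ≤ 1` -/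
theorem corr_tens' {K : Type} [Field K] {U₁ U₂ S₁ S₂ ι₁' ι₂' : Type} [Fintype U₁] [Fintype U₂]
    [Nonempty U₁] [Nonempty U₂] {C₁ : Submodule K (U₁ → S₁ → K)} {C₂ : Submodule K (U₂ → S₂ → K)}
    {nb₁ : ι₁' → U₁ → U₁} {nb₂ : ι₂' → U₂ → U₂} {cr₁ : (ι₁' → S₁ → K) → S₁ → K}
    {cr₂ : (ι₂' → S₂ → K) → S₂ → K} {r₁ r₂ θ₁ θ₂ θ : ℝ}
    (h₁ : ∀ E : U₁ → Prop, frac E ≤ r₁ → ∃ B : U₁ → Prop, frac B ≤ θ₁ * frac E ∧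
      ∀ w ∈ C₁, ∀ u, ¬ B u → ∀ x : ι₁' → S₁ → K,
        (∀ i, ¬ E (nb₁ i u) → x i = w (nb₁ i u)) → cr₁ x = w u)
    (h₂ : ∀ E : U₂ → Prop, frac E ≤ r₂ → ∃ B : U₂ → Prop, frac B ≤ θ₂ * frac E ∧
      ∀ w ∈ C₂, ∀ u, ¬ B u → ∀ x : ι₂' → S₂ → K,
        (∀ i, ¬ E (nb₂ i u) → x i = w (nb₂ i u)) → cr₂ x = w u)
    (hr₁ : 0 < r₁) (hr₂ : 0 < r₂) (hr₁' : r₁ ≤ 1) (hr₂' : r₂ ≤ 1) (hθ₁ : 0 ≤ θ₁) (hθ₂ : 0 ≤ θ₂)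
    (hθ : θ ≤ 1) (hk₁ : θ₁ ≤ θ * r₂ / 4) (hk₂ : θ₂ ≤ θ * r₁ / 4) :
    ∀ E : U₁ × U₂ → Prop, frac E ≤ r₁ * r₂ / 2 →
      ∃ B : U₁ × U₂ → Prop, frac B ≤ θ * frac E ∧
        ∀ w ∈ tens C₁ C₂, ∀ u, ¬ B u → ∀ x : ι₁' × ι₂' → S₁ × S₂ → K,
          (∀ i, ¬ E (nbC nb₁ nb₂ i u) → x i = w (nbC nb₁ nb₂ i u)) → crT cr₁ cr₂ x = w u := by
  have h1 : SCorr cr₁ nb₁ (C₁ : Set (U₁ → S₁ → K)) r₁ θ₁ := scorr_of_bad h₁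
  have h2 : SCorr cr₂ nb₂ (C₂ : Set (U₂ → S₂ → K)) r₂ θ₂ := scorr_of_bad h₂
  have h := (scorr_tensor h1 h2 hr₁ hr₂ hr₁' hr₂' hθ₁ hθ₂ hθ hk₁ hk₂).exists_bad
  intro E hE
  obtain ⟨B, hB, hB'⟩ := h E hE
  exact ⟨B, hB, fun w hw u hu x hx => hB' w hw u hu x hx⟩

/-- **corr field for the two-place object**, symbols `I × I`, factor `1/4` -/
theorem corr_tp {P I K : Type} [Group P] [Fintype P] [Fintype I] [Nonempty P] (D : TP P I)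
    {xc yc : Bool → I → Set (I → K)} {lam r0 : ℝ} {d : ℕ}
    (ha : Exp D.a lam) (ha' : Exp (fun z => (D.a z)⁻¹) lam)
    (hd0 : 0 < d) (hd : ∀ i w, Dist (yc i w) d)
    (hlam : 8 * (Fintype.card I : ℝ) ^ 2 * (r0 + lam ^ 2) ≤ (d : ℝ) ^ 2) (dflt : I → I → K) :
    ∀ E : P → Prop, frac E ≤ r0 → ∃ B : P → Prop, frac B ≤ 1 / 4 * frac E ∧
      ∀ w : P → I × I → K, (fun g l m => w g (l, m)) ∈ D.Code xc yc → ∀ u, ¬ B u →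
        ∀ x : I × I → I × I → K, (∀ i, ¬ E (tpNb D.a i u) → x i = w (tpNb D.a i u)) →
          tpF D.M yc d dflt x = w u := fun E hE => by
  obtain ⟨B, hB, hB'⟩ := (scorr_tp D ha ha' hd0 hd hlam dflt).exists_bad E hE
  exact ⟨B, hB, fun w hw u hu x hx => hB' w hw u hu x hx⟩

end Crest.Agent.R289.CorrLU974
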