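import Crest.Agent.R289.CorrTensor_974

/-!
# Row 289, block B/C (TP6, parts (3)-(5) of #5716, helper528)

On top of `CorrTensor974.Contr` (label arrays `U → Option Γ`):

* `regOp`, `contr_reg`: registers living on different codes (labels are tuples), factor `∑ κ a`;
* `majOp`, `contr_maj`: replicated registers (constant words), majority over the neighbours, factor
  `4 (ρ + lam)` from the second moment (expansion) bound `Mom`;
* `Real`: an operator is realised by a total local function of finitely many neighbours
  (its forced-value extension is at least as defined and gives the same values); closed under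
  composition, iteration, rows, columns, registers, majority; `contr_real`, `klift_of_real` transport
  `Contr` to `DefD.klift` of the total Boolean function.
-/

set_option autoImplicit false

set_option linter.unusedSectionVars false
set_option linter.unusedVariables false

namespace Crest.Agent.R289.CorrReg528

open Finset Crest.Agent.R289.DefD Crest.Agent.R289.CorrTensor974

section general

variable {U : Type} [Fintype U]

theorem frac_sum_le {ι : Type} [Fintype ι] (p : ι → U → Prop) :
    frac (fun u => ∃ a, p a u) ≤ ∑ a, frac (p a) := by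
  classical
  have h : ∀ s : Finset ι, frac (fun u => ∃ a ∈ s, p a u) ≤ ∑ a ∈ s, frac (p a) := by
    intro s
    induction s using Finset.induction_on with
    | empty =>
      simp only [Finset.notMem_empty, false_and, exists_false, Finset.sum_empty]
      unfold frac
      simp
    | insert a s ha ih =>
      rw [Finset.sum_insert ha]
      refine le_trans ?_ (add_le_add le_rfl ih)
      refine le_trans (frac_mono (q := fun u => p a u ∨ ∃ b ∈ s, p b u) ?_) (frac_or_le _ _)
      intro u hu
      obtain ⟨b, hb, hpb⟩ := hu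
      rcases Finset.mem_insert.1 hb with rfl | hb
      · exact Or.inl hpb
      · exact Or.inr ⟨b, hb, hpb⟩
  simpa using h univ

theorem dist_mono_of {Γ Δ : Type} {X : U → Option Γ} {w : U → Γ} {Y : U → Option Δ} {v : U → Δ}
    (h : ∀ u, X u = some (w u) → Y u = some (v u)) : dist Y v ≤ dist X w := by
  unfold DefD.dist
  exact frac_mono fun u hu hx => hu (h u hx)

end general

/-! ### (3) registers on different codes -/

section registers

variable {U : Type} {ι : Type} {A : ι → Type}

/-- component `a` of an array of tuples -/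
def comp (X : U → Option (∀ a, A a)) (a : ι) : U → Option (A a) := fun u => (X u).map fun g => g a

open Classical in
/-- correct every register by its own operator; readable iff all registers are readable -/
noncomputable def regOp (c : ∀ a, (U → Option (A a)) → (U → Option (A a)))
    (X : U → Option (∀ a, A a)) : U → Option (∀ a, A a) := fun u =>
  if h : ∃ g : ∀ a, A a, ∀ a, c a (comp X a) u = some (g a) then some h.choose else none

theorem regOp_eq {c : ∀ a, (U → Option (A a)) → (U → Option (A a))} {X : U → Option (∀ a, A a)}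
    {u : U} {g : ∀ a, A a} (h : ∀ a, c a (comp X a) u = some (g a)) : regOp c X u = some g := by
  classical
  unfold regOp
  have hex : ∃ g : ∀ a, A a, ∀ a, c a (comp X a) u = some (g a) := ⟨g, h⟩
  rw [dif_pos hex]
  congr 1
  funext a
  have h1 := hex.choose_spec a
  rw [h a] at h1
  exact (Option.some.inj h1).symm

theorem of_regOp_eq {c : ∀ a, (U → Option (A a)) → (U → Option (A a))} {X : U → Option (∀ a, A a)}
    {u : U} {g : ∀ a, A a} (h : regOp c X u = some g) (a : ι) :
    c a (comp X a) u = some (g a) := by
  classical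
  unfold regOp at h
  split_ifs at h with hex
  have h1 := hex.choose_spec a
  rw [← Option.some.inj h]
  exact h1

theorem dist_comp_le [Fintype U] (X : U → Option (∀ a, A a)) (w : U → ∀ a, A a) (a : ι) :
    dist (comp X a) (fun u => w u a) ≤ dist X w := by
  refine dist_mono_of fun u hu => ?_
  unfold comp
  rw [hu]
  rfl

/-- **registers on different codes** -/
theorem contr_reg [Fintype U] [Fintype ι] (c : ∀ a, (U → Option (A a)) → (U → Option (A a))) (w : U → ∀ a, A a) (ρ : ℝ)
    (κ : ι → ℝ) (hκ : ∀ a, 0 ≤ κ a) (h : ∀ a, Contr (c a) (fun u => w u a) ρ (κ a)) :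
    Contr (regOp c) w ρ (∑ a, κ a) := by
  intro X hX
  have h1 : dist (regOp c X) w ≤ ∑ a, dist (c a (comp X a)) (fun u => w u a) := by
    unfold DefD.dist
    refine le_trans (frac_mono ?_) (frac_sum_le fun a u => c a (comp X a) u ≠ some (w u a))
    intro u hu
    by_contra hcon
    push Not at hcon
    exact hu (regOp_eq hcon)
  refine h1.trans ?_
  rw [Finset.sum_mul]
  refine Finset.sum_le_sum fun a _ => ?_
  calc dist (c a (comp X a)) (fun u => w u a) ≤ κ a * dist (comp X a) (fun u => w u a) :=
        h a _ ((dist_comp_le X w a).trans hX)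
    _ ≤ κ a * dist X w := mul_le_mul_of_nonneg_left (dist_comp_le X w a) (hκ a)

end registers

/-! ### (4) replicated registers -/

section majority

variable {U : Type} {J : Type} [Fintype J] {Γ : Type}

open Classical in
/-- number of indices with a property -/
noncomputable def cnt (p : J → Prop) : ℕ := (univ.filter p).card

open Classical in
theorem cnt_not (p : J → Prop) : cnt p + cnt (fun i => ¬ p i) = Fintype.card J := by
  unfold cnt
  have h := Finset.card_filter_add_card_filter_not (s := (univ : Finset J)) p
  rw [Finset.card_univ] at h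
  rw [← h]
  congr 1
  congr 1
  ext i
  simp

theorem cnt_mono {p p' : J → Prop} (h : ∀ i, p i → p' i) : cnt p ≤ cnt p' := by
  classical
  unfold cnt
  exact Finset.card_le_card fun i hi => by
    rw [Finset.mem_filter] at hi ⊢
    exact ⟨hi.1, h i hi.2⟩

open Classical in
theorem cnt_eq_sum (p : J → Prop) : (cnt p : ℝ) = ∑ i, if p i then (1 : ℝ) else 0 := by
  unfold cnt
  rw [Finset.card_filter]
  push_cast
  rfl

open Classical in
/-- majority over the neighbours (`none` if there is none) -/
noncomputable def majOp (nb : U → J → U) (X : U → Option Γ) : U → Option Γ := fun u =>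
  if h : ∃ a : Γ, Fintype.card J < 2 * cnt (fun i => X (nb u i) = some a)
  then some h.choose else none

theorem maj_unique {α β : Type} (x : J → α) (t : β → α) (ht : Function.Injective t) {a b : β}
    (ha : Fintype.card J < 2 * cnt (fun i => x i = t a))
    (hb : Fintype.card J < 2 * cnt (fun i => x i = t b)) : a = b := by
  by_contra hab
  have h1 := cnt_not (fun i => x i = t a)
  have h2 : cnt (fun i => x i = t b) ≤ cnt (fun i => ¬ (x i = t a)) :=
    cnt_mono fun i hi h => hab (ht (h.symm.trans hi))
  omega

theorem majOp_eq {nb : U → J → U} {X : U → Option Γ} {u : U} {a : Γ}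
    (h : Fintype.card J < 2 * cnt (fun i => X (nb u i) = some a)) :
    majOp nb X u = some a := by
  unfold majOp
  have hex : ∃ a : Γ, Fintype.card J < 2 * cnt (fun i => X (nb u i) = some a) := ⟨a, h⟩
  rw [dif_pos hex]
  congr 1
  exact maj_unique (fun i => X (nb u i)) some (Option.some_injective _) hex.choose_spec h

theorem of_majOp_eq {nb : U → J → U} {X : U → Option Γ} {u : U} {a : Γ}
    (h : majOp nb X u = some a) :
    Fintype.card J < 2 * cnt (fun i => X (nb u i) = some a) := by
  classical
  unfold majOp at h
  split_ifs at h with hex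
  rw [← Option.some.inj h]
  exact hex.choose_spec

/-- second moment (expansion) bound for non-negative functions -/
def Mom [Fintype U] (nb : U → J → U) (lam : ℝ) : Prop :=
  ∀ g : U → ℝ, (∀ u, 0 ≤ g u) →
    ∑ u, (∑ i, g (nb u i)) ^ 2 ≤
      (Fintype.card J : ℝ) ^ 2 * ((∑ u, g u) ^ 2 / (Fintype.card U : ℝ) + lam * ∑ u, g u ^ 2)

/-- **replicated register**: majority contracts errors of constant words by `4 (ρ + lam)` -/
theorem contr_maj [Fintype U] [Nonempty J] {nb : U → J → U} {lam : ℝ} (hlam : 0 ≤ lam) (hm : Mom nb lam)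
    (g : Γ) (ρ : ℝ) : Contr (majOp nb) (fun _ => g) ρ (4 * (ρ + lam)) := by
  classical
  intro X hX
  rcases isEmpty_or_nonempty U with hU | hU
  · unfold DefD.dist frac
    simp
  have hn : (0 : ℝ) < Fintype.card U := by exact_mod_cast Fintype.card_pos
  have hk : (0 : ℝ) < Fintype.card J := by exact_mod_cast Fintype.card_pos
  set n : ℝ := (Fintype.card U : ℝ) with hnn
  set k : ℝ := (Fintype.card J : ℝ) with hkk
  let e : U → ℝ := fun u => if X u ≠ some g then 1 else 0
  have he0 : ∀ u, 0 ≤ e u := by intro u; simp only [e]; split_ifs <;> norm_num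
  have he2 : ∀ u, e u ^ 2 = e u := by intro u; simp only [e]; split_ifs <;> norm_num
  set E : ℝ := ∑ u, e u with hE
  have hE0 : 0 ≤ E := Finset.sum_nonneg fun u _ => he0 u
  have hdX : dist X (fun _ => g) = E / n := by
    unfold DefD.dist
    rw [frac_eq_sum]
    congr 1
    rw [hE]
    refine Finset.sum_congr rfl fun u _ => ?_
    simp only [e]
    congr
  let W : U → Prop := fun u => majOp nb X u ≠ some g
  have hW : ∀ u, W u → k / 2 ≤ ∑ i, e (nb u i) := by
    intro u hu
    have h1 : ¬ (Fintype.card J < 2 * cnt (fun i => X (nb u i) = some g)) :=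
      fun h => hu (majOp_eq h)
    have h2 := cnt_not (fun i => X (nb u i) = some g)
    have h3 : ∑ i, e (nb u i) = (cnt (fun i => ¬ (X (nb u i) = some g)) : ℝ) := by
      rw [cnt_eq_sum]
      refine Finset.sum_congr rfl fun i _ => ?_
      simp only [e]
      congr
    rw [h3]
    have h4 : Fintype.card J ≤ 2 * cnt (fun i => ¬ (X (nb u i) = some g)) := by omega
    have h5 : k ≤ 2 * (cnt (fun i => ¬ (X (nb u i) = some g)) : ℝ) := by
      rw [hkk]; exact_mod_cast h4
    linarith
  have hsum : (∑ u, if W u then (1 : ℝ) else 0) * (k / 2) ^ 2 ≤ k ^ 2 * (E ^ 2 / n + lam * E) := by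
    have h1 := hm e he0
    have h2 : ∑ u, e u ^ 2 = E := by
      rw [hE]; exact Finset.sum_congr rfl fun u _ => he2 u
    rw [h2] at h1
    refine le_trans ?_ h1
    rw [Finset.sum_mul]
    refine Finset.sum_le_sum fun u _ => ?_
    split_ifs with h
    · rw [one_mul]
      exact pow_le_pow_left₀ (by positivity) (hW u h) 2
    · rw [zero_mul]; positivity
  have hdY : dist (majOp nb X) (fun _ => g) = (∑ u, if W u then (1 : ℝ) else 0) / n := by
    unfold DefD.dist
    rw [frac_eq_sum]
    congr 1
    refine Finset.sum_congr rfl fun u _ => ?_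
    simp only [W]
    congr
  have hEn : E / n ≤ ρ := by rw [← hdX]; exact hX
  rw [hdY, hdX]
  set S : ℝ := ∑ u, if W u then (1 : ℝ) else 0 with hS
  have h1 : S ≤ 4 * (E ^ 2 / n + lam * E) := by
    have h2 : S * k ^ 2 ≤ (4 * (E ^ 2 / n + lam * E)) * k ^ 2 := by nlinarith [hsum]
    exact le_of_mul_le_mul_right h2 (by positivity)
  rw [div_le_iff₀ hn]
  refine h1.trans ?_
  have h3 : E ^ 2 / n = (E / n) * E := by ring
  have h4 : 4 * (ρ + lam) * (E / n) * n = 4 * (ρ + lam) * E := by field_simp
  rw [h4, h3]
  nlinarith [mul_le_mul_of_nonneg_right hEn hE0]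

end majority

/-! ### (5) realisation by total local functions -/

section real

variable {U : Type} {Γ : Type}

/-- `c` is realised by the total functions `f u` of the labels of the neighbours `nb u j`: a defined
value of `c` is forced by the readable neighbours -/
def Real {J : Type} (nb : U → J → U) (f : U → (J → Γ) → Γ)
    (c : (U → Option Γ) → (U → Option Γ)) : Prop :=
  ∀ X u a, c X u = some a → ∀ y : J → Γ, (∀ i b, X (nb u i) = some b → y i = b) → f u y = a

theorem Real.id : Real (J := Unit) (fun u _ => u) (fun _ y => y ())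
    (fun X : U → Option Γ => X) := by
  intro X u a h y hy
  exact hy () a h

theorem Real.comp {J₁ J₂ : Type} {nb₁ : U → J₁ → U} {nb₂ : U → J₂ → U} {f₁ : U → (J₁ → Γ) → Γ}
    {f₂ : U → (J₂ → Γ) → Γ} {c₁ c₂ : (U → Option Γ) → (U → Option Γ)}
    (h₁ : Real nb₁ f₁ c₁) (h₂ : Real nb₂ f₂ c₂) :
    Real (J := J₂ × J₁) (fun u p => nb₁ (nb₂ u p.1) p.2)
      (fun u y => f₂ u fun i => f₁ (nb₂ u i) fun j => y (i, j)) (fun X => c₂ (c₁ X)) := by
  intro X u a h y hy
  refine h₂ (c₁ X) u a h _ fun i b hb => ?_
  exact h₁ X _ b hb _ fun j b' hb' => hy (i, j) b' hb'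

/-- more neighbours may be listed -/
theorem Real.reindex {J J' : Type} {nb : U → J → U} {f : U → (J → Γ) → Γ}
    {c : (U → Option Γ) → (U → Option Γ)} (h : Real nb f c) {nb' : U → J' → U} (e : J → J')
    (he : ∀ u i, nb' u (e i) = nb u i) : Real nb' (fun u y => f u fun i => y (e i)) c := by
  intro X u a ha y hy
  refine h X u a ha _ fun i b hb => ?_
  refine hy (e i) b ?_
  rw [he]
  exact hb

section rows
variable {U1 U2 : Type}

theorem Real.row {J : Type} {nb : U1 → U2 → J → U2} {f : U1 → U2 → (J → Γ) → Γ}
    {c2 : U1 → (U2 → Option Γ) → (U2 → Option Γ)} (h : ∀ u, Real (nb u) (f u) (c2 u)) :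
    Real (fun (p : U1 × U2) i => (p.1, nb p.1 p.2 i)) (fun p y => f p.1 p.2 y) (rowOp c2) := by
  intro X p a ha y hy
  exact h p.1 _ p.2 a ha y fun i b hb => hy i b hb

theorem Real.col {J : Type} {nb : U2 → U1 → J → U1} {f : U2 → U1 → (J → Γ) → Γ}
    {c1 : U2 → (U1 → Option Γ) → (U1 → Option Γ)} (h : ∀ v, Real (nb v) (f v) (c1 v)) :
    Real (fun (p : U1 × U2) i => (nb p.2 p.1 i, p.2)) (fun p y => f p.2 p.1 y) (colOp c1) := by
  intro X p a ha y hy
  exact h p.2 _ p.1 a ha y fun i b hb => hy i b hb

end rows

theorem Real.reg {ι : Type} {A : ι → Type} {J : ι → Type} {nb : ∀ a, U → J a → U}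
    {f : ∀ a, U → (J a → A a) → A a} {c : ∀ a, (U → Option (A a)) → (U → Option (A a))}
    (h : ∀ a, Real (nb a) (f a) (c a)) :
    Real (J := Σ a, J a) (fun u p => nb p.1 u p.2)
      (fun u (y : (Σ a, J a) → ∀ a, A a) a => f a u fun i => y ⟨a, i⟩ a) (regOp c) := by
  intro X u g hg y hy
  funext a
  refine h a (CorrReg528.comp X a) u (g a) (of_regOp_eq hg a) _ fun i b hb => ?_
  unfold CorrReg528.comp at hb
  rcases hX : X (nb a u i) with _ | g'
  · rw [hX] at hb; simp at hb
  · rw [hX] at hb
    simp only [Option.map_some, Option.some.injEq] at hb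
    rw [hy ⟨a, i⟩ g' hX, hb]

open Classical in
/-- total majority function -/
noncomputable def majT {J : Type} [Fintype J] (d : Γ) (y : J → Γ) : Γ :=
  if h : ∃ a : Γ, Fintype.card J < 2 * cnt (fun i => y i = a) then h.choose else d

theorem Real.maj {J : Type} [Fintype J] (nb : U → J → U) (d : Γ) :
    Real nb (fun _ y => majT d y) (majOp nb) := by
  classical
  intro X u a ha y hy
  have h1 := of_majOp_eq ha
  have h2 : cnt (fun i => X (nb u i) = some a) ≤ cnt (fun i => y i = a) :=
    cnt_mono fun i hi => hy i a hi
  have h3 : Fintype.card J < 2 * cnt (fun i => y i = a) := by omega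
  show majT d y = a
  unfold majT
  have hex : ∃ a : Γ, Fintype.card J < 2 * cnt (fun i => y i = a) := ⟨a, h3⟩
  rw [dif_pos hex]
  exact maj_unique y (fun b => b) (fun _ _ h => h) hex.choose_spec h3

/-- iterated operator -/
theorem Real.iter {J : Type} {nb : U → J → U} {f : U → (J → Γ) → Γ}
    {c : (U → Option Γ) → (U → Option Γ)} (h : Real nb f c) (n : ℕ) :
    ∃ (nb' : U → (Fin n → J) → U) (f' : U → ((Fin n → J) → Γ) → Γ), Real nb' f' (c^[n]) := by
  induction n with
  | zero =>
    refine ⟨fun u _ => u, fun _ y => y Fin.elim0, ?_⟩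
    intro X u a ha y hy
    exact hy _ a ha
  | succ n ih =>
    obtain ⟨nb', f', h'⟩ := ih
    have h1 := Real.comp h h'
    refine ⟨fun u p => nb (nb' u fun i => p i.succ) (p 0),
      fun u y => f' u fun i => f (nb' u i) fun j => y (Fin.cons j i), ?_⟩
    have h2 := h1.reindex (J' := Fin (n + 1) → J)
      (nb' := fun u p => nb (nb' u fun i => p i.succ) (p 0)) (fun q => Fin.cons q.2 q.1) (by
        intro u q
        simp)
    have h3 : (c^[n + 1]) = fun X => (c^[n]) (c X) := by
      funext X
      rw [Function.iterate_succ_apply]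
    rw [h3]
    exact h2

/-- `Contr` only sees the defined values -/
theorem contr_of_le [Fintype U] {c c' : (U → Option Γ) → (U → Option Γ)} {w : U → Γ} {ρ κ : ℝ}
    (h : Contr c w ρ κ) (hc : ∀ X u a, c X u = some a → c' X u = some a) : Contr c' w ρ κ := by
  intro X hX
  refine le_trans ?_ (h X hX)
  exact dist_mono_of fun u hu => hc X u _ hu

end real

/-- transport to the Boolean unit functions of block D: if `c` is realised by `f (pub u)`, every
defined value of `c` is the value of `DefD.klift f` -/
theorem klift_of_real {U : Type} {k l r : ℕ} {nb : Fin k → U → U} {pub : U → Fin r → Bool}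
    {f : (Fin k → Fin l → Bool) → (Fin r → Bool) → (Fin l → Bool)}
    {c : (U → Option (Fin l → Bool)) → (U → Option (Fin l → Bool))}
    (h : Real (fun u i => nb i u) (fun u y => f y (pub u)) c) (X : U → Option (Fin l → Bool)) (u : U)
    (a : Fin l → Bool) (ha : c X u = some a) : klift f nb pub X u = some a := by
  classical
  unfold klift
  have hex : ∃ g : Fin l → Bool, ∀ x : Fin k → Fin l → Bool,
      (∀ i y, X (nb i u) = some y → x i = y) → f x (pub u) = g := ⟨a, fun x hx => h X u a ha x hx⟩
  rw [dif_pos hex]
  congr 1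
  let x : Fin k → Fin l → Bool := fun i => (X (nb i u)).getD a
  have hx : ∀ i y, X (nb i u) = some y → x i = y := by
    intro i y hy
    simp only [x, hy, Option.getD_some]
  rw [← hex.choose_spec x hx]
  exact h X u a ha x hx

theorem contr_klift {U : Type} [Fintype U] {k l r : ℕ} {nb : Fin k → U → U}
    {pub : U → Fin r → Bool} {f : (Fin k → Fin l → Bool) → (Fin r → Bool) → (Fin l → Bool)}
    {c : (U → Option (Fin l → Bool)) → (U → Option (Fin l → Bool))} {w : U → Fin l → Bool} {ρ κ : ℝ}
    (h : Real (fun u i => nb i u) (fun u y => f y (pub u)) c) (hc : Contr c w ρ κ) :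
    Contr (klift f nb pub) w ρ κ :=
  contr_of_le hc fun X u a ha => klift_of_real h X u a ha

end Crest.Agent.R289.CorrReg528
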