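import Crest.Agent.R289.CorrLab_974

/-!
Row 289, leaf BC6, concrete part (helper974): tensor products of codes with scalar symbols
(`U → L → K`, `L` = symbols of a unit) and the two-place object `TP846.TP`.

* `scorr_slice`  : `C1` in every slice `l2` (componentwise correction, same factor).
* `scorr_tensor` : `C1 ⊗ C2` on `U1 × U2`, symbols `L1 × L2`; `scorr_tensor_pow`: `r1`, `r2` rounds.
* `scorr_rep`    : words of `C1` that are constant along the second factor.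
* `scorr_tp`     : the two-place code at unit level, symbols `I × I`, slots `u * a z * (a z')⁻¹`;
                   the rule depends on the edge codes and on the transport `M` only (`R1M`).
-/

set_option autoImplicit false
set_option linter.unusedSectionVars false

namespace Crest.Agent.R289.CorrTP974

open Finset Crest.Agent.R289.DefD Crest.Agent.R289.CorrTensor974 Crest.Agent.R289.Tan846
open Crest.Agent.R289.TP846 Crest.Agent.R289.CorrLab974

/-! ### tensor products -/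

section tensor
variable {ι κ U1 U2 L1 L2 K : Type} [Fintype U1] [Fintype U2]

/-- correction in the first symbol coordinate, componentwise in the second -/
def slF1 (f : (ι → L1 → K) → L1 → K) (x : ι → L1 × L2 → K) : L1 × L2 → K :=
  fun p => f (fun i l => x i (l, p.2)) p.1

/-- correction in the second symbol coordinate, componentwise in the first -/
def slF2 (f : (ι → L2 → K) → L2 → K) (x : ι → L1 × L2 → K) : L1 × L2 → K :=
  fun p => f (fun i l => x i (p.1, l)) p.2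

omit [Fintype U2] in
theorem scorr_slice1 (L2 : Type) {f : (ι → L1 → K) → L1 → K} {nb : ι → U1 → U1}
    {C : Set (U1 → L1 → K)} {r0 θ : ℝ} (h : SCorr f nb C r0 θ) :
    SCorr (slF1 (L2 := L2) f) nb {w : U1 → L1 × L2 → K | ∀ l2, (fun u l => w u (l, l2)) ∈ C}
      r0 θ := by
  intro E hE
  refine (frac_mono fun u hu => ?_).trans (h E hE)
  obtain ⟨w, hw, x, hx, hne⟩ := hu
  obtain ⟨⟨l1, l2⟩, hk⟩ := Function.ne_iff.1 hne
  refine ⟨_, hw l2, fun i l => x i (l, l2), fun i hi => ?_, fun he => hk ?_⟩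
  · funext l
    exact congrFun (hx i hi) (l, l2)
  · exact congrFun he l1

omit [Fintype U1] in
theorem scorr_slice2 (L1 : Type) {f : (ι → L2 → K) → L2 → K} {nb : ι → U2 → U2}
    {C : Set (U2 → L2 → K)} {r0 θ : ℝ} (h : SCorr f nb C r0 θ) :
    SCorr (slF2 (L1 := L1) f) nb {w : U2 → L1 × L2 → K | ∀ l1, (fun u l => w u (l1, l)) ∈ C}
      r0 θ := by
  intro E hE
  refine (frac_mono fun u hu => ?_).trans (h E hE)
  obtain ⟨w, hw, x, hx, hne⟩ := hu
  obtain ⟨⟨l1, l2⟩, hk⟩ := Function.ne_iff.1 hne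
  refine ⟨_, hw l1, fun i l => x i (l1, l), fun i hi => ?_, fun he => hk ?_⟩
  · funext l
    exact congrFun (hx i hi) (l1, l)
  · exact congrFun he l2

/-- tensor product of two codes of words with scalar symbols -/
def tensC (C1 : Set (U1 → L1 → K)) (C2 : Set (U2 → L2 → K)) : Set (U1 × U2 → L1 × L2 → K) :=
  {w | (∀ v l2, (fun u l => w (u, v) (l, l2)) ∈ C1) ∧ ∀ u l1, (fun v l => w (u, v) (l1, l)) ∈ C2}

/-- **tensor product**: any factor `θ ≤ 1` -/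
theorem scorr_tensor [Nonempty U1] [Nonempty U2] {f1 : (ι → L1 → K) → L1 → K}
    {nb1 : ι → U1 → U1} {C1 : Set (U1 → L1 → K)} {ρ1 κ1 : ℝ} {f2 : (κ → L2 → K) → L2 → K}
    {nb2 : κ → U2 → U2} {C2 : Set (U2 → L2 → K)} {ρ2 κ2 θ : ℝ} (h1 : SCorr f1 nb1 C1 ρ1 κ1)
    (h2 : SCorr f2 nb2 C2 ρ2 κ2) (hρ1 : 0 < ρ1) (hρ2 : 0 < ρ2) (hρ1' : ρ1 ≤ 1) (hρ2' : ρ2 ≤ 1)
    (hκ1 : 0 ≤ κ1) (hκ2 : 0 ≤ κ2) (hθ : θ ≤ 1) (hk1 : κ1 ≤ θ * ρ2 / 4) (hk2 : κ2 ≤ θ * ρ1 / 4) :
    SCorr (compF (slF1 f1) (slF2 f2)) (compNb (nbL (U2 := U2) nb1) (nbR nb2)) (tensC C1 C2)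
      (ρ1 * ρ2 / 2) θ :=
  (scorr_prod_quarter (scorr_slice1 L2 h1) (scorr_slice2 L1 h2) hρ1 hρ2 hρ1' hρ2' hκ1 hκ2 hθ
    hk1 hk2).mono (fun _ hw => hw) le_rfl le_rfl

/-- number of rounds: `4 ^ r` beats any constant -/
theorem exists_rounds {ε : ℝ} (hε : 0 < ε) : ∃ r : ℕ, ((1 : ℝ) / 4) ^ r ≤ ε := by
  obtain ⟨r, hr⟩ := exists_pow_lt_of_lt_one hε (by norm_num : (1 : ℝ) / 4 < 1)
  exact ⟨r, hr.le⟩

/-- **tensor product** of two codes with one-round factor `1/4`: `r1`, `r2` rounds give `θ` -/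
theorem scorr_tensor_pow [Nonempty U1] [Nonempty U2] {f1 : (ι → L1 → K) → L1 → K}
    {nb1 : ι → U1 → U1} {C1 : Set (U1 → L1 → K)} {ρ1 : ℝ} {f2 : (κ → L2 → K) → L2 → K}
    {nb2 : κ → U2 → U2} {C2 : Set (U2 → L2 → K)} {ρ2 θ : ℝ} (h1 : SCorr f1 nb1 C1 ρ1 (1 / 4))
    (h2 : SCorr f2 nb2 C2 ρ2 (1 / 4)) (hρ1 : 0 < ρ1) (hρ2 : 0 < ρ2) (hρ1' : ρ1 ≤ 1)
    (hρ2' : ρ2 ≤ 1) (hθ : θ ≤ 1) {r1 r2 : ℕ} (hr1 : ((1 : ℝ) / 4) ^ r1 ≤ θ * ρ2 / 4)
    (hr2 : ((1 : ℝ) / 4) ^ r2 ≤ θ * ρ1 / 4) :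
    SCorr (compF (slF1 (powF f1 r1)) (slF2 (powF f2 r2)))
      (compNb (nbL (U2 := U2) (powNb nb1 r1)) (nbR (powNb nb2 r2))) (tensC C1 C2)
      (ρ1 * ρ2 / 2) θ :=
  scorr_tensor (h1.pow (by norm_num) (by norm_num) r1) (h2.pow (by norm_num) (by norm_num) r2)
    hρ1 hρ2 hρ1' hρ2' (by positivity) (by positivity) hθ hr1 hr2

/-- words of `C1` along the first factor, constant along the second -/
def repC {A : Type} (C1 : Set (U1 → A)) : Set (U1 × U2 → A) :=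
  {w | (∀ v, (fun u => w (u, v)) ∈ C1) ∧ ∀ u, ∃ a, ∀ v, w (u, v) = a}

/-- **words that are constant along the second factor** -/
theorem scorr_rep {A J : Type} [Fintype J] [Nonempty J] [Nonempty U1] [Nonempty U2]
    {f1 : (ι → A) → A} {nb1 : ι → U1 → U1} {C1 : Set (U1 → A)} {ρ1 κ1 : ℝ}
    (h1 : SCorr f1 nb1 C1 ρ1 κ1) {pi : J → U2 ≃ U2} {lam ρ2 θ : ℝ}
    (hE : Ex pi (Fintype.card U2) lam) (hρ1 : 0 < ρ1) (hρ2 : 0 < ρ2) (hρ1' : ρ1 ≤ 1)
    (hρ2' : ρ2 ≤ 1) (hκ1 : 0 ≤ κ1) (hθ : θ ≤ 1) (hk1 : κ1 ≤ θ * ρ2 / 4)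
    (hk2 : 16 * (ρ2 + lam ^ 2) ≤ θ * ρ1) (dflt : A) :
    SCorr (compF f1 (majF dflt)) (compNb (nbL (U2 := U2) nb1) (nbR fun z => (pi z).symm))
      (repC C1) (ρ1 * ρ2 / 2) θ :=
  (scorr_prod_quarter h1 (scorr_maj hE dflt) hρ1 hρ2 hρ1' hρ2' hκ1 (by positivity) hθ hk1
    (by linarith)).mono (fun _ hw => hw) le_rfl le_rfl

end tensor

/-! ### the two-place object -/

section tp
variable {P I A : Type} [Group P] [Fintype P] [Fintype I] (D : TP P I)

/-- the bundle code at the odd-even vertices, in terms of the transport `M` only -/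
def R1M (M : I → I → I) (yc : Bool → I → Set (I → A)) : Set (I → I → A) :=
  {c | ∀ (w : I) (μ : I → I), (∀ l, M l (μ l) = w) → (fun l => c l (μ l)) ∈ yc true w}

omit [Fintype P] [Fintype I] in
theorem R1_eq (yc : Bool → I → Set (I → A)) : D.R1 yc = R1M D.M yc := by
  have hM : ∀ l w, D.M l (D.mi true l w) = w := fun l w => by
    have := D.yl_mi true l w
    simpa [TP.yl] using this
  ext c
  constructor
  · intro h w μ hμ
    have e : μ = fun l => D.mi true l w := by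
      funext l
      exact (D.M_bij l).1 ((hμ l).trans (hM l w).symm)
    rw [e]
    exact h w
  · intro h w
    exact h w _ fun l => hM l w

/-- slots of one round -/
def tpNb (a : I → P) (p : I × I) (u : P) : P := u * a p.1 * (a p.2)⁻¹

omit [Fintype P] [Fintype I] in
theorem tpNb_inj (a : I → P) (p : I × I) : Function.Injective (tpNb a p) := by
  intro u v h
  unfold tpNb at h
  exact mul_right_cancel (mul_right_cancel h)

/-- label of a unit as a function of pairs -/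
def cur : (I × I → A) ≃ (I → I → A) := Equiv.curry I I A

/-- one round on labels `I × I → A` (independent of the level: only `M` and the edge codes) -/
noncomputable def tpF (M : I → I → I) (yc : Bool → I → Set (I → A)) (d : ℕ) (dflt : I → I → A) :
    (I × I → (I × I → A)) → (I × I → A) :=
  labF cur (tanF (TP.R0 yc) (R1M M yc) d dflt)

/-- the words of the two-place code with labels `I × I → A` -/
def tpC (xc yc : Bool → I → Set (I → A)) : Set (P → I × I → A) :=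
  {w | (fun g l m => w g (l, m)) ∈ D.Code xc yc}

/-- **one round of correction of the two-place code** -/
theorem scorr_tp [Nonempty P] {xc yc : Bool → I → Set (I → A)} {lam r0 : ℝ} {d : ℕ}
    (ha : Exp D.a lam) (ha' : Exp (fun z => (D.a z)⁻¹) lam)
    (hd0 : 0 < d) (hd : ∀ i w, Dist (yc i w) d)
    (hlam : 8 * (Fintype.card I : ℝ) ^ 2 * (r0 + lam ^ 2) ≤ (d : ℝ) ^ 2) (dflt : I → I → A) :
    SCorr (tpF D.M yc d dflt) (tpNb D.a) (tpC D xc yc) r0 (1 / 4) := by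
  have h := scorr_tan (R0 := TP.R0 yc) (R1 := D.R1 yc) (D.ex ha') (D.ex' ha) hd0
    (TP.dist_R0 hd) (D.dist_R1 hd) hlam dflt
  rw [R1_eq] at h
  refine (h.label cur).mono ?_ le_rfl le_rfl
  intro w hw
  have := D.mem_Tan hw
  rw [R1_eq] at this
  exact this

/-- `r` rounds -/
theorem scorr_tp_pow [Nonempty P] {xc yc : Bool → I → Set (I → A)} {lam r0 : ℝ} {d : ℕ}
    (ha : Exp D.a lam) (ha' : Exp (fun z => (D.a z)⁻¹) lam)
    (hd0 : 0 < d) (hd : ∀ i w, Dist (yc i w) d)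
    (hlam : 8 * (Fintype.card I : ℝ) ^ 2 * (r0 + lam ^ 2) ≤ (d : ℝ) ^ 2) (dflt : I → I → A)
    (r : ℕ) :
    SCorr (powF (tpF D.M yc d dflt) r) (powNb (tpNb D.a) r) (tpC D xc yc) r0 ((1 / 4) ^ r) :=
  (scorr_tp D ha ha' hd0 hd hlam dflt).pow (by norm_num) (by norm_num) r

end tp

/-! ### the product of two two-place objects -/

section prod
variable {P I T J K : Type} [Group P] [Fintype P] [Fintype I] [Group T] [Fintype T] [Fintype J]
  (D : TP P I) (D' : TP T J)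

/-- rule of the product code (`r`, `r'` rounds in the two directions) -/
noncomputable def ppF (M : I → I → I) (yc : Bool → I → Set (I → K)) (d : ℕ) (dflt : I → I → K)
    (r : ℕ) (M' : J → J → J) (yc' : Bool → J → Set (J → K)) (d' : ℕ) (dflt' : J → J → K)
    (r' : ℕ) : (PowI (I × I) r × PowI (J × J) r' → (I × I) × (J × J) → K) →
      (I × I) × (J × J) → K :=
  compF (slF1 (powF (tpF M yc d dflt) r)) (slF2 (powF (tpF M' yc' d' dflt') r'))

/-- slots of the product code -/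
def ppNb (a : I → P) (r : ℕ) (a' : J → T) (r' : ℕ) :
    PowI (I × I) r × PowI (J × J) r' → P × T → P × T :=
  compNb (nbL (U2 := T) (powNb (tpNb a) r)) (nbR (powNb (tpNb a') r'))

omit [Fintype P] [Fintype I] [Fintype T] [Fintype J] in
theorem ppNb_inj (a : I → P) (r : ℕ) (a' : J → T) (r' : ℕ)
    (p : PowI (I × I) r × PowI (J × J) r') : Function.Injective (ppNb a r a' r' p) :=
  compNb_inj (nbL_inj (powNb_inj (tpNb_inj a) r)) (nbR_inj (powNb_inj (tpNb_inj a') r')) p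

/-- **correction of `C_P ⊗ C_T`** -/
theorem scorr_pp [Nonempty P] [Nonempty T] {xc yc : Bool → I → Set (I → K)}
    {xc' yc' : Bool → J → Set (J → K)} {lam lam' ρ ρ' θ : ℝ} {d d' : ℕ}
    (ha : Exp D.a lam) (ha' : Exp (fun z => (D.a z)⁻¹) lam)
    (hb : Exp D'.a lam') (hb' : Exp (fun z => (D'.a z)⁻¹) lam')
    (hd0 : 0 < d) (hd : ∀ i w, Dist (yc i w) d) (hd0' : 0 < d') (hd' : ∀ i w, Dist (yc' i w) d')
    (hlam : 8 * (Fintype.card I : ℝ) ^ 2 * (ρ + lam ^ 2) ≤ (d : ℝ) ^ 2)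
    (hlam' : 8 * (Fintype.card J : ℝ) ^ 2 * (ρ' + lam' ^ 2) ≤ (d' : ℝ) ^ 2)
    (hρ : 0 < ρ) (hρ' : 0 < ρ') (hρ1 : ρ ≤ 1) (hρ1' : ρ' ≤ 1) (hθ : θ ≤ 1) {r r' : ℕ}
    (hr : ((1 : ℝ) / 4) ^ r ≤ θ * ρ' / 4) (hr' : ((1 : ℝ) / 4) ^ r' ≤ θ * ρ / 4)
    (dflt : I → I → K) (dflt' : J → J → K) :
    SCorr (ppF D.M yc d dflt r D'.M yc' d' dflt' r') (ppNb D.a r D'.a r')
      (tensC (tpC D xc yc) (tpC D' xc' yc')) (ρ * ρ' / 2) θ :=
  scorr_tensor_pow (scorr_tp D ha ha' hd0 hd hlam dflt) (scorr_tp D' hb hb' hd0' hd' hlam' dflt')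
    hρ hρ' hρ1 hρ1' hθ hr hr'

/-- **correction of `C_P ⊗ Rep_T`** (labels `I × I → K`, constant in `T`) -/
theorem scorr_pr [Nonempty P] [Nonempty T] [Nonempty J] {xc yc : Bool → I → Set (I → K)}
    {lam lam' ρ ρ' θ : ℝ} {d : ℕ}
    (ha : Exp D.a lam) (ha' : Exp (fun z => (D.a z)⁻¹) lam)
    (hb' : Exp (fun z => (D'.a z)⁻¹) lam')
    (hd0 : 0 < d) (hd : ∀ i w, Dist (yc i w) d)
    (hlam : 8 * (Fintype.card I : ℝ) ^ 2 * (ρ + lam ^ 2) ≤ (d : ℝ) ^ 2)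
    (hρ : 0 < ρ) (hρ' : 0 < ρ') (hρ1 : ρ ≤ 1) (hρ1' : ρ' ≤ 1) (hθ : θ ≤ 1) {r : ℕ}
    (hr : ((1 : ℝ) / 4) ^ r ≤ θ * ρ' / 4) (hk : 16 * (ρ' + lam' ^ 2) ≤ θ * ρ)
    (dflt : I → I → K) (dflt' : I × I → K) :
    SCorr (compF (powF (tpF D.M yc d dflt) r) (majF dflt'))
      (compNb (nbL (U2 := T) (powNb (tpNb D.a) r)) (nbR fun z => (D'.pi z).symm))
      (repC (tpC D xc yc)) (ρ * ρ' / 2) θ :=
  scorr_rep (scorr_tp_pow D ha ha' hd0 hd hlam dflt r) (D'.ex hb') hρ hρ' hρ1 hρ1'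
    (by positivity) hθ hr hk dflt'

end prod

end Crest.Agent.R289.CorrTP974
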