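import Crest.Agent.R289.DecI_589
import Crest.Agent.R289.BootC_515
import Crest.Agent.R289.Compile_827

/-!
# Row 289, leaf E21 part 4 (helper589): dead ends of the compiled machine are decoded to solutions

`Lnk m con`: the labelled machine `m` (words) lies over the content machine `machB` (contents).
* `fixN`, `fixM`: a legal configuration fixed by `stepN` (by `stepM` and different from `c0`) rests at
  contents `(b, L, v)` with `P (S v) ≠ v` (at `(c, L, v)` with `v ≠ 0`, `S (P v) ≠ v`).
* `decN`, `decM`: the candidate function of `Cand_589` returns a solution on its table.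
-/

set_option autoImplicit false
set_option linter.dupNamespace false
set_option linter.unusedSectionVars false

namespace Crest.Agent.R289.DecF589

open Crest.PPADPCP
open Crest.Agent.Lib.PT Crest.Agent.R289 Crest.Agent.R289.DefD
open Crest.Agent.R289.DecD950 Crest.Agent.R289.Cand589 Crest.Agent.R289.Sol589
open Crest.Agent.R289.FamW970 Crest.Agent.R289.DecI589
open Crest.Agent.R289.DefC Crest.Agent.R289.BootC515 Crest.Agent.R289.Compile827

section lnk

variable {K G Λ : Type} {J : ℕ} [CommRing K] [DecidableEq Λ] {Γ : Type} [DecidableEq Γ]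
  (act : G → Equiv.Perm Γ) (out : Λ) (P : Layout Γ G Λ J)

/-- the labelled machine `m` lies over the content machine with boot stages; `stg x`, `con x` =
stage and contents of the content word `x` -/
structure Lnk {X Z : Type} (m : LM X Z (LbB G Λ J)) (stg : X → SgB) (con : X → Rg Λ J → Γ → K) :
    Prop where
  legal : ∀ x, m.IsL x → (machB (K := K) (G := G) (J := J) out).Legal act (pubC P K) (stg x) (con x)
  en : ∀ ρ x, m.IsL x → (machB (K := K) (G := G) (J := J) out).src ρ = stg x →
    (machB (K := K) (G := G) (J := J) out).En act (pubC P K) ρ (con x) → m.en ρ x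
  bk : ∀ ρ x, m.IsL x → (machB (K := K) (G := G) (J := J) out).tgt ρ = stg x →
    (machB (K := K) (G := G) (J := J) out).Bk act (pubC P K) ρ (con x) → m.bk ρ x
  start : ∀ x, m.IsL x → stg x = .e → con x = encC act out P K .d 0 (fun _ => false) → x = m.x0
  blockF : ∀ (s : SgB) (r : Rg Λ J → Γ → K),
    (machB (K := K) (G := G) (J := J) out).Legal act (pubC P K) s r →
    (¬ ∃ ρ : LbB G Λ J, (machB (K := K) (G := G) (J := J) out).src ρ = s ∧
        (machB (K := K) (G := G) (J := J) out).En act (pubC P K) ρ r) →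
      ∃ v, s = .old .b ∧ r = encC act out P K .b P.L v ∧
        P.outp act out true (P.outp act out false v) ≠ v
  blockB : ∀ (s : SgB) (r : Rg Λ J → Γ → K),
    (machB (K := K) (G := G) (J := J) out).Legal act (pubC P K) s r →
    (¬ ∃ ρ : LbB G Λ J, (machB (K := K) (G := G) (J := J) out).tgt ρ = s ∧
        (machB (K := K) (G := G) (J := J) out).Bk act (pubC P K) ρ r) →
      (s = .e ∧ r = encC act out P K .d 0 fun _ => false) ∨
      ∃ v, s = .old .c ∧ r = encC act out P K .c P.L v ∧
        P.outp act out false (P.outp act out true v) ≠ v ∧ v ≠ fun _ => false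

/-- the two last fields from `BootC_515` -/
theorem Lnk.mk' {X Z : Type} {m : LM X Z (LbB G Λ J)} {stg : X → SgB} {con : X → Rg Λ J → Γ → K}
    (p : ℕ) [CharP K p] [Fact p.Prime] [IsDomain K] (hp : p ≠ 2) (hP : P.OK act out)
    (hl : legal_iff_stmt act out P K p) (hok : mach_ok_stmt act out P K p)
    (hbl : blocked_stmt act out P K p)
    (legal : ∀ x, m.IsL x →
      (machB (K := K) (G := G) (J := J) out).Legal act (pubC P K) (stg x) (con x))
    (en : ∀ ρ x, m.IsL x → (machB (K := K) (G := G) (J := J) out).src ρ = stg x →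
      (machB (K := K) (G := G) (J := J) out).En act (pubC P K) ρ (con x) → m.en ρ x)
    (bk : ∀ ρ x, m.IsL x → (machB (K := K) (G := G) (J := J) out).tgt ρ = stg x →
      (machB (K := K) (G := G) (J := J) out).Bk act (pubC P K) ρ (con x) → m.bk ρ x)
    (start : ∀ x, m.IsL x → stg x = .e → con x = encC act out P K .d 0 (fun _ => false) →
      x = m.x0) : Lnk act out P m stg con where
  legal := legal
  en := en
  bk := bk
  start := start
  blockF s r hr h := (blockedB_fwd act out P K p hp hP hl hbl s r hr).1 h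
  blockB s r hr h := (blockedB_bwd act out P K p hp hP hl hok hbl s r hr).1 h

variable {act out P}
variable {X Z : Type} {m : LM X Z (LbB G Λ J)} {stg : X → SgB} {con : X → Rg Λ J → Γ → K}

/-- forward dead ends -/
theorem fixN (h : Lnk act out P m stg con) {c : Conf X Z (LbB G Λ J)} (hc : m.Legal c)
    (hN : m.stepN c = c) : c.l = .rest ∧ ∃ v, stg c.x1 = .old .b ∧
      con c.x1 = encC act out P K .b P.L v ∧
        P.outp act out true (P.outp act out false v) ≠ v := by
  obtain ⟨x, hx, hcx, hno⟩ := (m.stepN_eq_self hc).1 hN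
  subst hcx
  refine ⟨rfl, ?_⟩
  exact h.blockF (stg x) (con x) (h.legal x hx) fun ⟨ρ, h1, h2⟩ => hno ρ (h.en ρ x hx h1 h2)

/-- backward dead ends other than the start -/
theorem fixM (h : Lnk act out P m stg con) {c : Conf X Z (LbB G Λ J)} (hc : m.Legal c)
    (hM : m.stepM c = c) (h0 : c ≠ m.c0) : c.l = .rest ∧ ∃ v, stg c.x1 = .old .c ∧
      con c.x1 = encC act out P K .c P.L v ∧
        P.outp act out false (P.outp act out true v) ≠ v ∧ v ≠ fun _ => false := by
  rcases (m.stepM_eq_self hc).1 hM with hc0 | ⟨x, hx, hcx, hno, hx0⟩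
  · exact absurd hc0 h0
  subst hcx
  refine ⟨rfl, ?_⟩
  rcases h.blockB (stg x) (con x) (h.legal x hx)
    (fun ⟨ρ, h1, h2⟩ => hno ρ (h.bk ρ x hx h1 h2)) with ⟨h1, h2⟩ | h3
  · exact absurd (h.start x hx h1 h2) hx0
  · exact h3

variable [Nontrivial K] [DecidableEq K] {γ U A : Type} [Nonempty A] {l n : ℕ} {I : EOL}

/-- **decoding of forward dead ends** -/
theorem decN (h : Lnk act out P m stg con) (hal : Function.Injective P.al) (hI : I.WF)
    (hR : Real I act out P) {c : Conf X Z (LbB G Λ J)} (hc : m.Legal c) (hN : m.stepN c = c)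
    {enc : A → Fin l → Bool} (he : Function.Injective enc) (gA : A → Bool) (eU : U ≃ Fin n)
    (w : U → A) (adr : U → Γ) (hw : ∀ u, gA (w u) = bit (con c.x1 .X (adr u)))
    (ad : γ × ℕ → ℕ) (len : γ → ℕ) (x : γ) (hlen : len x = I.n) (uad : Fin P.n → U)
    (hadr : ∀ i, adr (uad i) = P.al i) (had : ∀ i : Fin P.n, (eU (uad i) : ℕ) = ad (x, i)) :
    ∃ s, I.IsSolution s ∧ List.ofFn s ∈ cReg l (gBit enc gA) ad len (x, tabA enc eU w) := by
  obtain ⟨-, v, -, hv, hne⟩ := fixN h hc hN
  refine candSol he gA eU w ad len x hlen hR v (hR.sol_fwd hI hne) uad had fun i => ?_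
  rw [hw, hadr, hv, read_X hal]

/-- **decoding of backward dead ends** -/
theorem decM (h : Lnk act out P m stg con) (hal : Function.Injective P.al)
    (hR : Real I act out P) {c : Conf X Z (LbB G Λ J)} (hc : m.Legal c) (hM : m.stepM c = c)
    (h0 : c ≠ m.c0) {enc : A → Fin l → Bool} (he : Function.Injective enc) (gA : A → Bool)
    (eU : U ≃ Fin n) (w : U → A) (adr : U → Γ)
    (hw : ∀ u, gA (w u) = bit (con c.x1 .Y (adr u)))
    (ad : γ × ℕ → ℕ) (len : γ → ℕ) (x : γ) (hlen : len x = I.n) (uad : Fin P.n → U)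
    (hadr : ∀ i, adr (uad i) = P.al i) (had : ∀ i : Fin P.n, (eU (uad i) : ℕ) = ad (x, i)) :
    ∃ s, I.IsSolution s ∧ List.ofFn s ∈ cReg l (gBit enc gA) ad len (x, tabA enc eU w) := by
  obtain ⟨-, v, -, hv, hne, hv0⟩ := fixM h hc hM h0
  refine candSol he gA eU w ad len x hlen hR v (hR.sol_bwd hv0 hne) uad had fun i => ?_
  rw [hw, hadr, hv, read_Y hal]

end lnk

end Crest.Agent.R289.DecF589
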