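import Crest.Agent.R289.DefE_217
import Crest.Agent.Lib.PT.ListFns2
import Crest.Agent.Lib.PT.ArithMore

/-!
# Row 289, block E, leaf E12: the decoder side (helper589)

* `getDN`: list access at binary-coded indices is poly-time.
* `maj`, `majAt`: strict majority over a list of positions of the table of rounded values.
* `evalC`: evaluation of a coded Boolean circuit; `isSolB`: test whether a string is a solution;
  `pick`: first solution in a list of candidate strings.
* `relax`: iteration of a unit-local correction map on the table; `exact_of_contract`.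
* `decG`: the generic decoder and its correctness.
-/

set_option autoImplicit false

namespace Crest.Agent.R289.Dec589

open Crest.PPADPCP Crest.Agent.Lib.PT

section access

variable {α γ : Type} [PTCode α] [PTCode γ]

omit [PTCode α] in
theorem getD_min (l : List α) (n : ℕ) (d : α) : l.getD (min n l.length) d = l.getD n d := by
  rcases le_total n l.length with h | h
  · rw [min_eq_left h]
  · rw [min_eq_right h]
    simp [h]

/-- list access at a binary-coded index is poly-time -/
theorem getDN {n : γ → ℕ} {l : γ → List α} {d : γ → α} (hn : PTF n) (hl : PTF l) (hd : PTF d) :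
    PTF (fun c => (l c).getD (n c) (d c)) :=
  (PTF.getD (PTF.natMinUn hn (PTU.length hl)) hl hd).of_eq (fun _ => getD_min _ _ _)

end access

/-! ### majority -/

/-- strict majority of `true` -/
def maj (l : List Bool) : Bool := decide (l.length < 2 * l.count true)

theorem count_add (l : List Bool) : l.count true + l.count false = l.length := by
  induction l with
  | nil => rfl
  | cons b l ih => cases b <;> simp <;> omega

theorem maj_eq (l : List Bool) (b : Bool) (h : l.length < 2 * l.count b) : maj l = b := by
  have := count_add l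
  cases b
  · simp only [maj, decide_eq_false_iff_not, not_lt]
    omega
  · simpa [maj] using h

/-- more than half of the entries of the list `f a`, `a ∈ l`, are `b` -/
theorem maj_map_eq {α : Type} (l : List α) (f : α → Bool) (b : Bool)
    (h : 2 * l.countP (fun a => f a != b) < l.length) : maj (l.map f) = b := by
  apply maj_eq
  have h1 : (l.map f).count b = l.countP (fun a => f a == b) := by
    rw [List.count, List.countP_map]; rfl
  have h2 : l.length = l.countP (fun a => f a == b) + l.countP (fun a => f a != b) := by
    rw [List.length_eq_countP_add_countP (fun a => f a == b)]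
    congr 1
    apply List.countP_congr
    intro a _
    simp
  rw [h1, List.length_map]
  omega

/-- majority over a list of positions (unit, variable) of a table -/
def majAt (A : List (List Bool)) (ps : List (ℕ × ℕ)) : Bool :=
  maj (ps.map fun p => (A.getD p.1 []).getD p.2 false)

section

variable {γ : Type} [PTCode γ]

theorem ptf_maj {l : γ → List Bool} (hl : PTF l) : PTF (fun c => maj (l c)) := by
  have h1 : PTU (fun c => (l c).count true) := by
    refine (PTU.countP (p := fun _ b => b) hl PTF.snd).of_eq (fun c => ?_)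
    apply List.countP_congr
    intro a _
    simp
  have h2 : PTPred (fun c => (l c).length < 2 * (l c).count true) :=
    PTU.lt (PTU.length hl) (PTU.mul (PTU.const 2) h1)
  exact h2.toPTF

theorem ptf_majAt {A : γ → List (List Bool)} {ps : γ → List (ℕ × ℕ)} (hA : PTF A) (hp : PTF ps) :
    PTF (fun c => majAt (A c) (ps c)) := by
  refine ptf_maj (PTF.map (f := fun c p => ((A c).getD p.1 []).getD p.2 false) hp ?_)
  refine getDN (n := fun q : γ × ℕ × ℕ => q.2.2) (by fun_prop) (getDN (by fun_prop) ?_ (by fun_prop))
    (by fun_prop)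
  exact PTF.comp hA PTF.fst

end

/-! ### evaluation of coded circuits -/

/-- value of a coded gate -/
def rawEval (x prev : List Bool) (g : ℕ × ℕ × ℕ) : Bool :=
  if g.1 = 0 then x.getD g.2.1 false
  else if g.1 = 1 then prev.getD g.2.1 false && prev.getD g.2.2 false
  else if g.1 = 2 then prev.getD g.2.1 false || prev.getD g.2.2 false
  else !prev.getD g.2.1 false

/-- values of all gates -/
def rawVals (gs : List (ℕ × ℕ × ℕ)) (x : List Bool) : List Bool :=
  gs.foldl (fun prev g => prev ++ [rawEval x prev g]) []

/-- outputs of a coded circuit on a bit string -/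
def evalC (p : RawCirc × List Bool) : List Bool :=
  p.1.2.map fun o => (rawVals p.1.1 p.2).getD o false

theorem rawVals_eq (gs : List BGate) (y : ℕ → Bool) (x : List Bool) (h : ∀ i, x.getD i false = y i) :
    rawVals (gs.map rawBGate) x = gs.foldl (fun prev g => prev ++ [g.eval y prev]) [] := by
  rw [rawVals, List.foldl_map]
  congr 1
  funext prev g
  have h' : ∀ i, x[i]?.getD false = y i := fun i => by simpa using h i
  cases g <;> simp [rawEval, rawBGate, BGate.eval, h']

theorem getD_ofFn {n : ℕ} (v : Fin n → Bool) (i : ℕ) :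
    (List.ofFn v).getD i false = if h : i < n then v ⟨i, h⟩ else false := by
  by_cases h : i < n
  · simp [List.getD_eq_getElem?_getD, h]
  · simp [List.getD_eq_getElem?_getD, h]

theorem evalC_rawC {n : ℕ} (C : BCircuit n) (hC : C.outs.length = n) (v : Fin n → Bool) :
    evalC (rawC C, List.ofFn v) = List.ofFn (C.apply v) := by
  have h1 : rawVals (rawC C).1 (List.ofFn v)
      = C.values fun i => if h : i < n then v ⟨i, h⟩ else false := by
    exact rawVals_eq C.gates _ _ (fun i => getD_ofFn v i)
  have h2 : evalC (rawC C, List.ofFn v) = C.outs.map fun o =>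
      (C.values fun i => if h : i < n then v ⟨i, h⟩ else false).getD o false := by
    rw [← h1]
    rfl
  rw [h2]
  apply List.ext_getElem
  · simp [hC]
  · intro i h3 h4
    have hi : i < n := by simpa using h4
    have ho : i < C.outs.length := by omega
    simp only [List.getElem_map, List.getElem_ofFn, BCircuit.apply]
    congr 1
    simp [List.getD_eq_getElem?_getD, ho]

/-- is the string a solution of the coded instance? -/
def isSolB (p : EI × List Bool) : Bool :=
  decide (p.2.length = p.1.1) && (p.2.any id &&
    ((!decide (evalC (p.1.2.2, evalC (p.1.2.1, p.2)) = p.2)) ||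
      (!decide (evalC (p.1.2.1, evalC (p.1.2.2, p.2)) = p.2))))

theorem any_ofFn {n : ℕ} (v : Fin n → Bool) :
    (List.ofFn v).any id = true ↔ v ≠ fun _ => false := by
  rw [List.any_eq_true]
  constructor
  · rintro ⟨b, hb, hb'⟩ rfl
    obtain ⟨i, rfl⟩ := (List.mem_ofFn' _ _).1 hb
    simp at hb'
  · intro h
    by_contra hc
    apply h
    funext i
    by_contra hi
    exact hc ⟨v i, (List.mem_ofFn' _ _).2 ⟨i, rfl⟩, by simpa using hi⟩

theorem isSolB_iff (I : EOL) (hI : I.WF) (v : Fin I.n → Bool) :
    isSolB (raw I, List.ofFn v) = true ↔ I.IsSolution v := by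
  obtain ⟨_, hS, hP, _⟩ := hI
  have e1 : evalC ((raw I).2.1, List.ofFn v) = List.ofFn (I.S.apply v) := evalC_rawC _ hS.1 _
  have e2 : evalC ((raw I).2.2, List.ofFn v) = List.ofFn (I.P.apply v) := evalC_rawC _ hP.1 _
  have e3 : evalC ((raw I).2.2, List.ofFn (I.S.apply v)) = List.ofFn (I.P.apply (I.S.apply v)) :=
    evalC_rawC _ hP.1 _
  have e4 : evalC ((raw I).2.1, List.ofFn (I.P.apply v)) = List.ofFn (I.S.apply (I.P.apply v)) :=
    evalC_rawC _ hS.1 _
  have h0 : (List.ofFn v).length = (raw I).1 := by simp [raw]
  simp only [isSolB, e1, e2, e3, e4, h0, decide_true, Bool.true_and, Bool.and_eq_true, any_ofFn,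
    Bool.or_eq_true, Bool.not_eq_true', decide_eq_false_iff_not, List.ofFn_inj, EOL.IsSolution]

/-- first solution in a list of candidates -/
def pick (p : EI × List (List Bool)) : List Bool :=
  (p.2.find? fun c => isSolB (p.1, c)).getD []

theorem pick_spec (I : EOL) (hI : I.WF) (cs : List (List Bool))
    (h : ∃ v, I.IsSolution v ∧ List.ofFn v ∈ cs) :
    ∃ v, I.IsSolution v ∧ pick (raw I, cs) = List.ofFn v := by
  obtain ⟨v, hv, hm⟩ := h
  have h1 : (cs.find? fun c => isSolB (raw I, c)).isSome := by
    rw [List.find?_isSome]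
    exact ⟨_, hm, (isSolB_iff I hI v).2 hv⟩
  obtain ⟨c, hc⟩ := Option.isSome_iff_exists.1 h1
  have h2 : isSolB (raw I, c) = true := by simpa using List.find?_some hc
  have h3 : c.length = I.n := by
    have := h2
    simp only [isSolB, Bool.and_eq_true, decide_eq_true_eq] at this
    exact this.1
  have h4 : c = List.ofFn (fun i : Fin I.n => c.getD i false) := by
    apply List.ext_getElem
    · simp [h3]
    · intro i h5 h6
      simp [List.getD_eq_getElem?_getD, h5]
  refine ⟨fun i => c.getD i false, ?_, ?_⟩
  · rw [← isSolB_iff I hI, ← h4]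
    exact h2
  · rw [pick, hc, Option.getD_some]
    exact h4

section

variable {γ : Type} [PTCode γ]

theorem ptf_rawEval {x prev : γ → List Bool} {g : γ → ℕ × ℕ × ℕ} (hx : PTF x) (hp : PTF prev)
    (hg : PTF g) : PTF (fun c => rawEval (x c) (prev c) (g c)) := by
  have a1 : PTF (fun c => (g c).1) := by fun_prop
  have a2 : PTF (fun c => (g c).2.1) := by fun_prop
  have a3 : PTF (fun c => (g c).2.2) := by fun_prop
  have b1 := getDN a2 hx (PTF.const false)
  have b2 := getDN a2 hp (PTF.const false)
  have b3 := getDN a3 hp (PTF.const false)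
  have c0 : PTPred (fun c => (g c).1 = 0) := PTPred.natEq a1 (PTF.const 0)
  have c1 : PTPred (fun c => (g c).1 = 1) := PTPred.natEq a1 (PTF.const 1)
  have c2 : PTPred (fun c => (g c).1 = 2) := PTPred.natEq a1 (PTF.const 2)
  unfold rawEval
  exact PTF.ite c0 b1 (PTF.ite c1 (b2.and b3) (PTF.ite c2 (b2.or b3) b2.not))

theorem ptf_rawVals {gs : γ → List (ℕ × ℕ × ℕ)} {x : γ → List Bool} (hg : PTF gs) (hx : PTF x) :
    PTF (fun c => rawVals (gs c) (x c)) := by
  unfold rawVals
  refine PTF.foldl_add (f := fun c prev g => prev ++ [rawEval (x c) prev g]) hg ?_ (PTF.const [])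
    (G := fun _ => 3) (by fun_prop) ?_
  · refine PTF.append (by fun_prop) (PTF.listCons (ptf_rawEval ?_ (by fun_prop) (by fun_prop))
      (PTF.const []))
    exact PTF.comp hx PTF.fst
  · intro c b a _
    rw [sz_append, sz_listBool [_]]
    simp

theorem ptf_evalC : PTF evalC := by
  unfold evalC
  refine PTF.map (f := fun (p : RawCirc × List Bool) o => (rawVals p.1.1 p.2).getD o false)
    (by fun_prop) ?_
  exact getDN (by fun_prop) (ptf_rawVals (by fun_prop) (by fun_prop)) (PTF.const false)

theorem ptf_isSolB : PTF isSolB := by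
  have hn : PTF (fun p : EI × List Bool => p.1.1) := by fun_prop
  have hS : PTF (fun p : EI × List Bool => p.1.2.1) := by fun_prop
  have hP : PTF (fun p : EI × List Bool => p.1.2.2) := by fun_prop
  have hv : PTF (fun p : EI × List Bool => p.2) := by fun_prop
  have h1 : PTPred (fun p : EI × List Bool => p.2.length = p.1.1) :=
    PTPred.natEq (PTU.toPTF (PTU.length hv)) hn
  have h2 : PTF (fun p : EI × List Bool => p.2.any id) :=
    PTF.any (p := fun _ b => id b) hv (by simpa using PTF.snd)
  have e1 : PTF (fun p : EI × List Bool => evalC (p.1.2.1, p.2)) := PTF.comp ptf_evalC (hS.prodMk hv)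
  have e2 : PTF (fun p : EI × List Bool => evalC (p.1.2.2, p.2)) := PTF.comp ptf_evalC (hP.prodMk hv)
  have e3 : PTF (fun p : EI × List Bool => evalC (p.1.2.2, evalC (p.1.2.1, p.2))) :=
    PTF.comp ptf_evalC (hP.prodMk e1)
  have e4 : PTF (fun p : EI × List Bool => evalC (p.1.2.1, evalC (p.1.2.2, p.2))) :=
    PTF.comp ptf_evalC (hS.prodMk e2)
  have h3 : PTPred (fun p : EI × List Bool => evalC (p.1.2.2, evalC (p.1.2.1, p.2)) = p.2) :=
    PTPred.eq e3 hv
  have h4 : PTPred (fun p : EI × List Bool => evalC (p.1.2.1, evalC (p.1.2.2, p.2)) = p.2) :=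
    PTPred.eq e4 hv
  unfold isSolB
  exact h1.toPTF.and (h2.and (h3.toPTF.not.or h4.toPTF.not))

theorem ptf_pick : PTF pick := by
  unfold pick
  refine PTF.optionGetD (PTF.find? (p := fun (q : EI × List (List Bool)) c => isSolB (q.1, c))
    (by fun_prop) ?_) (PTF.const [])
  exact PTF.comp ptf_isSolB (PTF.prodMk (by fun_prop) (by fun_prop))

end

/-! ### majority of tests, reading of contents -/

section

variable {α γ : Type} [PTCode α] [PTCode γ]

/-- majority of the values of a test family over a list -/
theorem ptf_majF {l : γ → List α} {g : γ → α → Bool} (hl : PTF l) (hg : PTF₂ g) :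
    PTF (fun c => maj ((l c).map (g c))) := ptf_maj (PTF.map hl hg)

/-- the bit of a table at a position -/
def bitAt (A : List (List Bool)) (q : ℕ × ℕ) : Bool := (A.getD q.1 []).getD q.2 false

theorem ptf_bitAt {A : γ → List (List Bool)} {q : γ → ℕ × ℕ} (hA : PTF A) (hq : PTF q) :
    PTF (fun c => bitAt (A c) (q c)) :=
  getDN (by fun_prop) (getDN (by fun_prop) hA (PTF.const [])) (PTF.const false)

/-- the bits of a table at a list of positions -/
def readBits (A : List (List Bool)) (ps : List (ℕ × ℕ)) : List Bool := ps.map (bitAt A)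

theorem ptf_readBits {A : γ → List (List Bool)} {ps : γ → List (ℕ × ℕ)} (hA : PTF A)
    (hp : PTF ps) : PTF (fun c => readBits (A c) (ps c)) :=
  PTF.map (f := fun c q => bitAt (A c) q) hp (ptf_bitAt (PTF.comp hA PTF.fst) PTF.snd)

end

/-- the table `bitsOf` at a position -/
theorem bitAt_bitsOf (L n : ℕ) (x : ℕ → ℕ → ℚ) {u l : ℕ} (hu : u < n) (hl : l < L) :
    bitAt (bitsOf L n x) (u, l) = decide (1 / 2 ≤ x u l) := by
  simp [bitAt, bitsOf, List.getD_eq_getElem?_getD, hu, hl]

/-! ### iterated unit-local correction -/

/-- one round of a unit-local rule on a table: the new row of unit `u` (type `t`) is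
`f t (rows of the neighbours of u)`, cut to length `L` -/
def round (f : ℕ → List (List Bool) → List Bool) (L : ℕ) (U : Units) (A : List (List Bool)) :
    List (List Bool) :=
  U.map fun w => (f w.1 (w.2.map fun v => A.getD v [])).take L

theorem round_length (f : ℕ → List (List Bool) → List Bool) (L : ℕ) (U : Units)
    (A : List (List Bool)) : (round f L U A).length = U.length := by simp [round]

theorem round_getD (f : ℕ → List (List Bool) → List Bool) (L : ℕ) (U : Units)
    (A : List (List Bool)) {u : ℕ} (hu : u < U.length) :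
    (round f L U A).getD u [] =
      (f (U.ty u) ((U.getD u (0, [])).2.map fun v => A.getD v [])).take L := by
  simp [round, Units.ty, List.getD_eq_getElem?_getD, hu]

theorem sz_round (f : ℕ → List (List Bool) → List Bool) (L : ℕ) (U : Units)
    (A : List (List Bool)) : sz (round f L U A) ≤ U.length * (2 * (3 * L) + 1) := by
  have := sz_list_le (l := round f L U A) (m := 3 * L) (by
    intro a ha
    simp only [round, List.mem_map] at ha
    obtain ⟨w, _, rfl⟩ := ha
    rw [sz_listBool, List.length_take]
    have := Nat.min_le_left L (f w.1 (w.2.map fun v => A.getD v [])).length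
    omega)
  rwa [round_length] at this

section

variable {γ : Type} [PTCode γ]

theorem ptf_round {f : γ → ℕ → List (List Bool) → List Bool} {L : γ → ℕ} {U : γ → Units}
    {A : γ → List (List Bool)} (hf : PTF (fun p : γ × ℕ × List (List Bool) => f p.1 p.2.1 p.2.2))
    (hL : PTU L) (hU : PTF U) (hA : PTF A) : PTF (fun c => round (f c) (L c) (U c) (A c)) := by
  unfold round
  refine PTF.map (f := fun c (w : ℕ × List ℕ) =>
    (f c w.1 (w.2.map fun v => (A c).getD v [])).take (L c)) hU ?_
  have h1 : PTF (fun p : γ × ℕ × List ℕ => p.2.2.map fun v => (A p.1).getD v []) := by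
    refine PTF.map (f := fun (p : γ × ℕ × List ℕ) v => (A p.1).getD v []) (by fun_prop) ?_
    exact getDN PTF.snd (PTF.comp hA (by fun_prop)) (PTF.const [])
  have h2 : PTF (fun p : γ × ℕ × List ℕ => (p.1, p.2.1, p.2.2.map fun v => (A p.1).getD v [])) :=
    PTF.prodMk PTF.fst (PTF.prodMk (by fun_prop) h1)
  exact PTF.take (PTU.comp hL PTF.fst) (PTF.comp hf h2)

/-- iterated rounds are poly-time (number of rounds and row length in unary) -/
theorem ptf_relax {f : γ → ℕ → List (List Bool) → List Bool} {L T : γ → ℕ} {U : γ → Units}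
    {A : γ → List (List Bool)} (hf : PTF (fun p : γ × ℕ × List (List Bool) => f p.1 p.2.1 p.2.2))
    (hL : PTU L) (hT : PTU T) (hU : PTF U) (hA : PTF A) :
    PTF (fun c => (round (f c) (L c) (U c))^[T c] (A c)) := by
  refine PTF.iterate' (f := fun c A => round (f c) (L c) (U c) A) hT ?_ hA
    (B := fun c => sz (A c) + (U c).length * (2 * (3 * L c) + 1)) ?_ ?_
  · refine ptf_round (f := fun (p : γ × List (List Bool)) t R => f p.1 t R) ?_ (PTU.comp hL PTF.fst)
      (PTF.comp hU PTF.fst) PTF.snd
    exact PTF.comp (g := fun p : γ × ℕ × List (List Bool) => f p.1 p.2.1 p.2.2)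
      (f := fun q : (γ × List (List Bool)) × ℕ × List (List Bool) => (q.1.1, q.2.1, q.2.2)) hf
      (by fun_prop)
  · have h1 := hA.sz
    have h2 := (PTU.length hU).pb
    have h3 := hL.pb
    fun_prop
  · intro c i _
    cases i with
    | zero => simp
    | succ i =>
      rw [Function.iterate_succ_apply']
      exact (sz_round _ _ _ _).trans (Nat.le_add_left _ _)

/-- the same for any step on tables whose results have bounded size -/
theorem ptf_relax' {F : γ → List (List Bool) → List (List Bool)} {T : γ → ℕ}
    {A : γ → List (List Bool)} (hF : PTF₂ F) (hT : PTU T) (hA : PTF A) {B : γ → ℕ} (hB : PB B)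
    (h : ∀ c X, sz (F c X) ≤ B c) : PTF (fun c => (F c)^[T c] (A c)) := by
  refine PTF.iterate' (f := F) hT hF hA (B := fun c => sz (A c) + B c) ?_ ?_
  · have h1 := hA.sz
    fun_prop
  · intro c i _
    cases i with
    | zero => simp
    | succ i =>
      rw [Function.iterate_succ_apply']
      exact (h _ _).trans (Nat.le_add_left _ _)

end

/-- a map that halves the distance below a threshold reaches distance `0` -/
theorem exact_of_contract {X : Type*} (F : X → X) (d : X → ℕ) (r : ℕ)
    (h : ∀ x, d x ≤ r → 2 * d (F x) ≤ d x) (x : X) (hx : d x ≤ r) (T : ℕ) (hT : r < 2 ^ T) :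
    d (F^[T] x) = 0 := by
  have key : ∀ T, 2 ^ T * d (F^[T] x) ≤ d x ∧ d (F^[T] x) ≤ r := by
    intro T
    induction T with
    | zero => simpa using hx
    | succ T ih =>
      rw [Function.iterate_succ_apply']
      have h1 := h _ ih.2
      refine ⟨?_, by omega⟩
      calc 2 ^ (T + 1) * d (F (F^[T] x)) = 2 ^ T * (2 * d (F (F^[T] x))) := by ring
        _ ≤ 2 ^ T * d (F^[T] x) := Nat.mul_le_mul_left _ h1
        _ ≤ d x := ih.1
  have h1 := (key T).1
  by_contra hne
  have h2 : 1 ≤ d (F^[T] x) := Nat.one_le_iff_ne_zero.2 hne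
  have h3 : 2 ^ T * 1 ≤ 2 ^ T * d (F^[T] x) := Nat.mul_le_mul_left _ h2
  omega

/-- number of wrong rows -/
def wrong (n : ℕ) (A W : List (List Bool)) : ℕ :=
  ((Finset.range n).filter fun u => A.getD u [] ≠ W.getD u []).card

theorem eq_of_wrong_eq_zero {n : ℕ} {A W : List (List Bool)} (hA : A.length = n)
    (hW : W.length = n) (h : wrong n A W = 0) : A = W := by
  rw [wrong, Finset.card_eq_zero, Finset.filter_eq_empty_iff] at h
  apply List.ext_getElem (by omega)
  intro i h1 h2
  have := h (Finset.mem_range.2 (hA ▸ h1))
  simpa [List.getD_eq_getElem?_getD, h1, h2] using this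

theorem wrong_le {n : ℕ} (A W : List (List Bool)) : wrong n A W ≤ n := by
  refine (Finset.card_filter_le _ _).trans ?_
  simp

/-- **iterated local correction is exact**: if one round halves the number of wrong rows of every
table with at most `r` wrong rows, then `T` rounds with `n < 2 ^ T` give the exact word -/
theorem relax_exact (f : ℕ → List (List Bool) → List Bool) (L : ℕ) (U : Units) (hU : U ≠ [])
    (W : List (List Bool)) (hW : W.length = U.length) (r : ℕ)
    (h : ∀ A, wrong U.length A W ≤ r → 2 * wrong U.length (round f L U A) W ≤ wrong U.length A W)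
    (A : List (List Bool)) (hA : wrong U.length A W ≤ r) (T : ℕ) (hT : U.length < 2 ^ T) :
    (round f L U)^[T] A = W := by
  have h1 : wrong U.length ((round f L U)^[T] A) W = 0 := by
    have hle := wrong_le (n := U.length) A W
    refine exact_of_contract (round f L U) (fun A => wrong U.length A W)
      (min r U.length) (fun x hx => h x (hx.trans (min_le_left _ _))) A (le_min hA hle) T ?_
    exact (min_le_right _ _).trans_lt hT
  cases T with
  | zero =>
    have := List.length_pos_of_ne_nil hU
    omega
  | succ T =>
    apply eq_of_wrong_eq_zero (n := U.length) _ hW h1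
    rw [Function.iterate_succ_apply', round_length]

/-! ### the generic decoder -/

/-- decoder with a poly-time list of candidate strings -/
def decG (cands : EI × List (List Bool) → List (List Bool)) (p : EI × List (List Bool)) :
    List Bool := pick (p.1, cands p)

theorem ptf_decG {cands : EI × List (List Bool) → List (List Bool)} (h : PTF cands) :
    PTF (decG cands) :=
  PTF.comp (g := pick) (f := fun p : EI × List (List Bool) => (p.1, cands p)) ptf_pick
    (PTF.prodMk PTF.fst h)

theorem decG_spec (I : EOL) (hI : I.WF) (cands : EI × List (List Bool) → List (List Bool))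
    (A : List (List Bool)) (h : ∃ v, I.IsSolution v ∧ List.ofFn v ∈ cands (raw I, A)) :
    ∃ v, I.IsSolution v ∧ decG cands (raw I, A) = List.ofFn v :=
  pick_spec I hI _ h

/-- candidates: correct the table (pre-processed by `pre`) for `T` rounds on the correction graph `G`,
then read the listed positions -/
def candsG (f : EI → ℕ → List (List Bool) → List Bool) (L T : EI → ℕ) (G : EI → Units)
    (pre : EI × List (List Bool) → List (List Bool)) (rd : EI → List (List (ℕ × ℕ)))
    (p : EI × List (List Bool)) : List (List Bool) :=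
  (rd p.1).map (readBits ((round (f p.1) (L p.1) (G p.1))^[T p.1] (pre p)))

theorem ptf_candsG {f : EI → ℕ → List (List Bool) → List Bool} {L T : EI → ℕ} {G : EI → Units}
    {pre : EI × List (List Bool) → List (List Bool)} {rd : EI → List (List (ℕ × ℕ))}
    (hf : PTF (fun p : EI × ℕ × List (List Bool) => f p.1 p.2.1 p.2.2)) (hL : PTU L) (hT : PTU T)
    (hG : PTF G) (hpre : PTF pre) (hrd : PTF rd) : PTF (candsG f L T G pre rd) := by
  unfold candsG
  have h1 : PTF (fun p : EI × List (List Bool) =>
      (round (f p.1) (L p.1) (G p.1))^[T p.1] (pre p)) := by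
    refine ptf_relax (f := fun (p : EI × List (List Bool)) t R => f p.1 t R) ?_
      (PTU.comp hL PTF.fst) (PTU.comp hT PTF.fst) (PTF.comp hG PTF.fst) hpre
    exact PTF.comp (g := fun p : EI × ℕ × List (List Bool) => f p.1 p.2.1 p.2.2)
      (f := fun q : (EI × List (List Bool)) × ℕ × List (List Bool) => (q.1.1, q.2.1, q.2.2)) hf
      (by fun_prop)
  refine PTF.map (f := fun (p : EI × List (List Bool)) ps =>
    readBits ((round (f p.1) (L p.1) (G p.1))^[T p.1] (pre p)) ps) (PTF.comp hrd PTF.fst) ?_
  exact ptf_readBits (PTF.comp h1 PTF.fst) PTF.snd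

/-- if the corrected table is `W` and one of the position lists reads a solution off `W`, the
decoder outputs a solution -/
theorem decG_candsG (I : EOL) (hI : I.WF) {f : EI → ℕ → List (List Bool) → List Bool}
    {L T : EI → ℕ} {G : EI → Units} {pre : EI × List (List Bool) → List (List Bool)}
    {rd : EI → List (List (ℕ × ℕ))} (A W : List (List Bool))
    (hW : (round (f (raw I)) (L (raw I)) (G (raw I)))^[T (raw I)] (pre (raw I, A)) = W)
    (h : ∃ v, I.IsSolution v ∧ ∃ ps ∈ rd (raw I), readBits W ps = List.ofFn v) :
    ∃ v, I.IsSolution v ∧ decG (candsG f L T G pre rd) (raw I, A) = List.ofFn v := by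
  apply decG_spec I hI
  obtain ⟨v, hv, ps, hps, hr⟩ := h
  refine ⟨v, hv, ?_⟩
  simp only [candsG, List.mem_map]
  exact ⟨ps, hps, by rw [hW, hr]⟩

/-- lists of candidates can be concatenated -/
theorem ptf_append_cands {c₁ c₂ : EI × List (List Bool) → List (List Bool)} (h₁ : PTF c₁)
    (h₂ : PTF c₂) : PTF (fun p => c₁ p ++ c₂ p) := PTF.append h₁ h₂

end Crest.Agent.R289.Dec589
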