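import Mathlib
import Crest.Agent.R289.DefD_721

/-!
# Row 289, block D, theorem D1 (macro embedding at constant tolerance)

Every state with few bad units holds a blocked legal word (`DefD.D1`).  Proof = posts 5421 / 5554.
-/

set_option autoImplicit false
set_option linter.unusedSectionVars false

namespace Crest.Agent.R289.Macro250

open Crest.Agent.R289.DefD Finset

section basic
variable {U Γ : Type} [Fintype U]

lemma frac_nonneg (p : U → Prop) : 0 ≤ frac p := by
  unfold frac; positivity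

lemma frac_eq (p : U → Prop) [DecidablePred p] :
    frac p = ((univ.filter p).card : ℝ) / (Fintype.card U : ℝ) := by
  unfold frac
  congr!

lemma frac_mono {p q : U → Prop} (h : ∀ u, p u → q u) : frac p ≤ frac q := by
  classical
  rw [frac_eq, frac_eq]
  have : (univ.filter p).card ≤ (univ.filter q).card := by
    refine Finset.card_le_card ?_
    intro u hu
    rw [Finset.mem_filter] at hu ⊢
    exact ⟨hu.1, h u hu.2⟩
  have h2 : ((univ.filter p).card : ℝ) ≤ ((univ.filter q).card : ℝ) := by exact_mod_cast this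
  exact div_le_div_of_nonneg_right h2 (Nat.cast_nonneg _)

lemma frac_or_le (p q : U → Prop) : frac (fun u => p u ∨ q u) ≤ frac p + frac q := by
  classical
  rw [frac_eq, frac_eq, frac_eq, ← add_div]
  have h2 : (univ.filter fun u => p u ∨ q u).card ≤
      (univ.filter p).card + (univ.filter q).card := by
    rw [Finset.filter_or]; exact Finset.card_union_le _ _
  have h3 : ((univ.filter fun u => p u ∨ q u).card : ℝ) ≤
    ((univ.filter p).card : ℝ) + ((univ.filter q).card : ℝ) := by exact_mod_cast h2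
  exact div_le_div_of_nonneg_right h3 (Nat.cast_nonneg _)

lemma frac_false {p : U → Prop} (h : ∀ u, ¬ p u) : frac p = 0 := by
  classical
  rw [frac_eq, Finset.filter_false_of_mem (fun u _ => h u)]
  simp

lemma frac_cond_le {C : Prop} {q : U → Prop} {a : ℝ} (ha : 0 ≤ a) (h : C → frac q ≤ a) :
    frac (fun u => C ∧ q u) ≤ a := by
  by_cases hC : C
  · exact (frac_mono (fun u hu => hu.2)).trans (h hC)
  · rw [frac_false (fun u hu => hC hu.1)]; exact ha

lemma dist_nonneg (X : U → Option Γ) (w : U → Γ) : 0 ≤ dist X w := frac_nonneg _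

lemma sep_le (X : U → Option Γ) (v w : U → Γ) : distW v w ≤ dist X v + dist X w := by
  unfold distW DefD.dist
  refine (frac_mono (q := fun u => X u ≠ some (v u) ∨ X u ≠ some (w u)) ?_).trans (frac_or_le _ _)
  intro u hu
  by_contra hh
  push Not at hh
  exact hu (Option.some.inj (hh.1.symm.trans hh.2))

end basic

/-! ### comparator -/

lemma cmp_true {e m t : ℝ} (h : m ≤ t - e) : cmp e m t = some true := by
  unfold DefD.cmp; rw [if_pos h]

lemma cmp_false {e m t : ℝ} (he : 0 < e) (h : t + e ≤ m) : cmp e m t = some false := by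
  unfold DefD.cmp; rw [if_neg (by linarith), if_pos h]

lemma lt_of_ne_false {e m t : ℝ} (he : 0 < e) (h : cmp e m t ≠ some false) : m < t + e := by
  by_contra hh; push Not at hh; exact h (cmp_false he hh)

lemma lt_of_ne_true {e m t : ℝ} (h : cmp e m t ≠ some true) : t - e < m := by
  by_contra hh; push Not at hh; exact h (cmp_true hh)

lemma k3and_ff (x : K3) : k3and x (some false) = some false := by
  rcases x with _ | _ | _ <;> rfl

lemma k3and_ff' (x : K3) : k3and (some false) x = some false := rfl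

lemma k3or_tt (x : K3) : k3or x (some true) = some true := by
  rcases x with _ | _ | _ <;> rfl

lemma k3or_tt' (x : K3) : k3or (some true) x = some true := rfl

lemma k3mux_same (s : K3) (b : Bool) : k3mux s (some b) (some b) = some b := by
  rcases s with _ | _ | _ <;> cases b <;> rfl

section main
variable {U Γ : Type} [Fintype U] [Nonempty U] {D : MData U Γ} {k : MConst} {p : MPar}

lemma card_pos' : (0 : ℝ) < (Fintype.card U : ℝ) := by
  exact_mod_cast Fintype.card_pos

/-- sums of a field bounded below on good units -/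
lemma mean_lower {y : U → ℝ} (hy : ∀ u, 0 ≤ y u) {good : U → Prop} {δ m X : ℝ}
    (hm : 0 ≤ m) (hg : frac (fun u => ¬ good u) ≤ δ) (hX : X * (Fintype.card U : ℝ) = ∑ u, y u)
    (h : ∀ u, good u → m ≤ y u) : (1 - δ) * m ≤ X := by
  classical
  have hn : (0 : ℝ) < (Fintype.card U : ℝ) := card_pos'
  have h1 : ∑ u, (if good u then m else 0) ≤ ∑ u, y u := by
    refine Finset.sum_le_sum fun u _ => ?_
    split_ifs with hu
    · exact h u hu
    · exact hy u
  have h2 : ∑ u, (if good u then m else 0) = ((univ.filter good).card : ℝ) * m := by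
    rw [← Finset.sum_filter, Finset.sum_const, nsmul_eq_mul]
  have h3 : ((univ.filter good).card : ℝ) + ((univ.filter fun u => ¬ good u).card : ℝ)
      = (Fintype.card U : ℝ) := by
    have := Finset.card_filter_add_card_filter_not (s := (univ : Finset U)) good
    rw [← Finset.card_univ]
    exact_mod_cast this
  have h4 : ((univ.filter fun u => ¬ good u).card : ℝ) ≤ δ * (Fintype.card U : ℝ) := by
    rw [frac_eq, div_le_iff₀ hn] at hg
    exact hg
  have h5 : (1 - δ) * (Fintype.card U : ℝ) ≤ ((univ.filter good).card : ℝ) := by linarith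
  have h6 : (1 - δ) * (Fintype.card U : ℝ) * m ≤ X * (Fintype.card U : ℝ) := by
    rw [hX]
    calc (1 - δ) * (Fintype.card U : ℝ) * m ≤ ((univ.filter good).card : ℝ) * m := by gcongr
      _ ≤ _ := by rw [← h2]; exact h1
  have h7 : ((1 - δ) * m) * (Fintype.card U : ℝ) ≤ X * (Fintype.card U : ℝ) := by
    calc _ = (1 - δ) * (Fintype.card U : ℝ) * m := by ring
      _ ≤ _ := h6
  exact le_of_mul_le_mul_right h7 hn

lemma mean_upper {y : U → ℝ} (hy : ∀ u, y u ≤ 1) {good : U → Prop} {δ m X : ℝ}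
    (hm : 0 ≤ m) (hg : frac (fun u => ¬ good u) ≤ δ) (hX : X * (Fintype.card U : ℝ) = ∑ u, y u)
    (h : ∀ u, good u → y u ≤ m) : X ≤ m + δ := by
  classical
  have hn : (0 : ℝ) < (Fintype.card U : ℝ) := card_pos'
  have h1 : ∑ u, y u ≤ ∑ u, (m + if ¬ good u then (1 : ℝ) else 0) := by
    refine Finset.sum_le_sum fun u _ => ?_
    by_cases hu : good u
    · simpa [hu] using h u hu
    · simp only [hu, not_false_eq_true, if_true]; linarith [hy u]
  have h2 : ∑ u, (m + if ¬ good u then (1 : ℝ) else 0) =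
      (Fintype.card U : ℝ) * m + ((univ.filter fun u => ¬ good u).card : ℝ) := by
    rw [Finset.sum_add_distrib, ← Finset.sum_filter, Finset.sum_const, Finset.sum_const,
      nsmul_eq_mul, nsmul_eq_mul, Finset.card_univ, mul_one]
  have h4 : ((univ.filter fun u => ¬ good u).card : ℝ) ≤ δ * (Fintype.card U : ℝ) := by
    rw [frac_eq, div_le_iff₀ hn] at hg
    exact hg
  have h6 : X * (Fintype.card U : ℝ) ≤ (m + δ) * (Fintype.card U : ℝ) := by
    rw [hX]; nlinarith
  exact le_of_mul_le_mul_right h6 hn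

variable (hD : D.Ax k) (hp : p.OK k) (R : MRest D p)
include hp

lemma S_mem : 0 ≤ R.S ∧ R.S ≤ 1 := by
  constructor
  · have := mean_lower (y := R.s) (good := fun _ => True) (δ := 0) (m := 0) (X := R.S)
      (fun u => (R.s_mem u).1) le_rfl (by rw [frac_false (by simp)]) R.S_eq
      (fun u _ => (R.s_mem u).1)
    linarith
  · have := mean_upper (y := R.s) (good := fun _ => True) (δ := 0) (m := 1) (X := R.S)
      (fun u => (R.s_mem u).2) zero_le_one (by rw [frac_false (by simp)]) R.S_eq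
      (fun u _ => (R.s_mem u).2)
    linarith

lemma Ψ_mem : 0 ≤ R.Ψ ∧ R.Ψ ≤ 1 := by
  constructor
  · have := mean_lower (y := R.ψ) (good := fun _ => True) (δ := 0) (m := 0) (X := R.Ψ)
      (fun u => (R.ψ_mem u).1) le_rfl (by rw [frac_false (by simp)]) R.Ψ_eq
      (fun u _ => (R.ψ_mem u).1)
    linarith
  · have := mean_upper (y := R.ψ) (good := fun _ => True) (δ := 0) (m := 1) (X := R.Ψ)
      (fun u => (R.ψ_mem u).2) zero_le_one (by rw [frac_false (by simp)]) R.Ψ_eq
      (fun u _ => (R.ψ_mem u).2)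
    linarith

/-- scalar lemma -/
lemma scal_up {y : U → ℝ} (hy : ∀ u, 0 ≤ y u ∧ y u ≤ 1) {X : ℝ} (hX0 : 0 ≤ X)
    (hX : X * (Fintype.card U : ℝ) = ∑ u, y u)
    (h : ∀ u, R.good u → min 1 (X + p.κ) ≤ y u) : 1 - p.δ ≤ X := by
  have hκ := hp.κ_gt
  have hδ := hp.δ_nn
  have he := hp.e_le
  have hδe := hp.δ_le
  have h1 := mean_lower (y := y) (fun u => (hy u).1) (m := min 1 (X + p.κ))
    (le_min zero_le_one (by linarith)) R.good_frac hX h
  rcases le_total 1 (X + p.κ) with h2 | h2
  · rw [min_eq_left h2] at h1; linarith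
  · rw [min_eq_right h2] at h1; nlinarith

lemma scal_dn {y : U → ℝ} (hy : ∀ u, 0 ≤ y u ∧ y u ≤ 1) {X : ℝ}
    (hX : X * (Fintype.card U : ℝ) = ∑ u, y u)
    (h : ∀ u, R.good u → y u ≤ max 0 (X - p.κ)) : X ≤ p.δ := by
  have hκ := hp.κ_gt
  have h1 := mean_upper (y := y) (fun u => (hy u).2) (m := max 0 (X - p.κ))
    (le_max_left _ _) R.good_frac hX h
  rcases le_total 0 (X - p.κ) with h2 | h2
  · rw [max_eq_right h2] at h1; linarith
  · rw [max_eq_left h2] at h1; linarith

omit hp in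
lemma Ar_le (w : U → Γ) : dist R.Ar w ≤ dist R.As w :=
  frac_mono fun u hu h => hu (R.hA u _ h)

omit hp in
lemma Br_le (w : U → Γ) : dist R.Br w ≤ dist R.Bs w :=
  frac_mono fun u hu h => hu (R.hB u _ h)

/-- all possible candidates of `A` near `w` ⇒ `A` near `w` -/
lemma A_bound (w : U → Γ) {a b c : ℝ} (ha : 0 ≤ a) (hb : 0 ≤ b) (hc : 0 ≤ c)
    (h1 : R.Ψ < 3 / 4 + p.e → R.S < 3 / 20 + p.e → R.Ψ < 1 / 4 + p.e → dist R.Br w ≤ a)
    (h2 : R.Ψ < 3 / 4 + p.e → R.S < 3 / 20 + p.e → 1 / 4 - p.e < R.Ψ → dist (D.Mu R.Br) w ≤ b)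
    (h3 : R.Ψ < 3 / 4 + p.e → 3 / 20 - p.e < R.S → dist (D.corr R.Ar) w ≤ c)
    (h4 : 3 / 4 - p.e < R.Ψ → D.w0 = w) : dist R.As w ≤ a + b + c + p.δ := by
  have he := hp.e_pos
  let C1 : Prop := R.Ψ < 3 / 4 + p.e ∧ R.S < 3 / 20 + p.e ∧ R.Ψ < 1 / 4 + p.e
  let C2 : Prop := R.Ψ < 3 / 4 + p.e ∧ R.S < 3 / 20 + p.e ∧ 1 / 4 - p.e < R.Ψ
  let C3 : Prop := R.Ψ < 3 / 4 + p.e ∧ 3 / 20 - p.e < R.S
  have key : dist R.As w ≤ frac (fun u => (((C1 ∧ R.Br u ≠ some (w u)) ∨
      (C2 ∧ D.Mu R.Br u ≠ some (w u))) ∨ (C3 ∧ D.corr R.Ar u ≠ some (w u))) ∨ ¬ R.good u) := by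
    refine frac_mono fun u hu => ?_
    by_contra hh
    push Not at hh
    obtain ⟨⟨⟨n1, n2⟩, n3⟩, hg⟩ := hh
    refine hu (R.ruleA u hg (w u) ?_ ?_)
    · intro c34
      have c34' := lt_of_ne_false he c34
      refine ⟨fun s15 => ⟨fun c14 => ?_, fun c14 => ?_⟩, fun s15 => ?_⟩
      · exact n1 ⟨c34', lt_of_ne_false he s15, lt_of_ne_false he c14⟩
      · exact n2 ⟨c34', lt_of_ne_false he s15, lt_of_ne_true c14⟩
      · exact n3 ⟨c34', lt_of_ne_true s15⟩
    · intro c34
      rw [h4 (lt_of_ne_true c34)]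
  refine key.trans ((frac_or_le _ _).trans (add_le_add ?_ R.good_frac))
  refine (frac_or_le _ _).trans (add_le_add ?_ ?_)
  · refine (frac_or_le _ _).trans (add_le_add ?_ ?_)
    · exact frac_cond_le ha fun hC => h1 hC.1 hC.2.1 hC.2.2
    · exact frac_cond_le hb fun hC => h2 hC.1 hC.2.1 hC.2.2
  · exact frac_cond_le hc fun hC => h3 hC.1 hC.2

/-- all possible candidates of `B` near `w` ⇒ `B` near `w` -/
lemma B_bound (w : U → Γ) {a b c : ℝ} (ha : 0 ≤ a) (hb : 0 ≤ b) (hc : 0 ≤ c)
    (h1 : R.Ψ < 3 / 4 + p.e → R.S < 17 / 20 + p.e → dist (D.corr R.Br) w ≤ a)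
    (h2 : R.Ψ < 3 / 4 + p.e → 17 / 20 - p.e < R.S → R.Ψ < 1 / 4 + p.e → dist (D.Nu R.Ar) w ≤ b)
    (h3 : R.Ψ < 3 / 4 + p.e → 17 / 20 - p.e < R.S → 1 / 4 - p.e < R.Ψ → dist R.Ar w ≤ c)
    (h4 : 3 / 4 - p.e < R.Ψ → D.w0 = w) : dist R.Bs w ≤ a + b + c + p.δ := by
  have he := hp.e_pos
  let C1 : Prop := R.Ψ < 3 / 4 + p.e ∧ R.S < 17 / 20 + p.e
  let C2 : Prop := R.Ψ < 3 / 4 + p.e ∧ 17 / 20 - p.e < R.S ∧ R.Ψ < 1 / 4 + p.e
  let C3 : Prop := R.Ψ < 3 / 4 + p.e ∧ 17 / 20 - p.e < R.S ∧ 1 / 4 - p.e < R.Ψ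
  have key : dist R.Bs w ≤ frac (fun u => (((C1 ∧ D.corr R.Br u ≠ some (w u)) ∨
      (C2 ∧ D.Nu R.Ar u ≠ some (w u))) ∨ (C3 ∧ R.Ar u ≠ some (w u))) ∨ ¬ R.good u) := by
    refine frac_mono fun u hu => ?_
    by_contra hh
    push Not at hh
    obtain ⟨⟨⟨n1, n2⟩, n3⟩, hg⟩ := hh
    refine hu (R.ruleB u hg (w u) ?_ ?_)
    · intro c34
      have c34' := lt_of_ne_false he c34
      refine ⟨fun s85 => ?_, fun s85 => ⟨fun c14 => ?_, fun c14 => ?_⟩⟩
      · exact n1 ⟨c34', lt_of_ne_false he s85⟩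
      · exact n2 ⟨c34', lt_of_ne_true s85, lt_of_ne_false he c14⟩
      · exact n3 ⟨c34', lt_of_ne_true s85, lt_of_ne_true c14⟩
    · intro c34
      rw [h4 (lt_of_ne_true c34)]
  refine key.trans ((frac_or_le _ _).trans (add_le_add ?_ R.good_frac))
  refine (frac_or_le _ _).trans (add_le_add ?_ ?_)
  · refine (frac_or_le _ _).trans (add_le_add ?_ ?_)
    · exact frac_cond_le ha fun hC => h1 hC.1 hC.2
    · exact frac_cond_le hb fun hC => h2 hC.1 hC.2.1 hC.2.2
  · exact frac_cond_le hc fun hC => h3 hC.1 hC.2.1 hC.2.2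

omit hp [Nonempty U] in
/-- lower bounds from `dAB` -/
lemma dAB_B (w : U → Γ) : dist R.Br w ≤ dist R.Ar w + (R.dAB + p.e) := by
  have h := R.dAB_ge
  have : dist R.Br w ≤ dist R.Ar w + frac (fun u => ¬ ∃ g, R.Ar u = some g ∧ R.Br u = some g) := by
    refine (frac_mono fun u hu => ?_).trans (frac_or_le _ _)
    by_contra hh
    push Not at hh
    obtain ⟨h1, g, h2, h3⟩ := hh
    rw [h1] at h2
    cases h2
    exact hu h3
  linarith

omit hp [Nonempty U] in
lemma dAB_A (w : U → Γ) : dist R.Ar w ≤ dist R.Br w + (R.dAB + p.e) := by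
  have h := R.dAB_ge
  have : dist R.Ar w ≤ dist R.Br w + frac (fun u => ¬ ∃ g, R.Ar u = some g ∧ R.Br u = some g) := by
    refine (frac_mono fun u hu => ?_).trans (frac_or_le _ _)
    by_contra hh
    push Not at hh
    obtain ⟨h1, g, h2, h3⟩ := hh
    rw [h1] at h3
    cases h3
    exact hu h2
  linarith

omit hp [Nonempty U] in
lemma dAB_up (w : U → Γ) : R.dAB ≤ dist R.As w + dist R.Bs w + p.e := by
  have h := R.dAB_le
  have : frac (fun u => ¬ ∃ g, R.As u = some g ∧ R.Bs u = some g) ≤ dist R.As w + dist R.Bs w := by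
    refine (frac_mono fun u hu => ?_).trans (frac_or_le _ _)
    by_contra hh
    push Not at hh
    exact hu ⟨w u, hh.1, hh.2⟩
  linarith

omit hp [Nonempty U] in
lemma dN_B (w : U → Γ) : dist R.Br w ≤ dist (D.Nu R.Ar) w + (R.dN + p.e) := by
  have h := R.dN_ge
  have : dist R.Br w ≤ dist (D.Nu R.Ar) w +
      frac (fun u => ∃ g, D.Nu R.Ar u = some g ∧ R.Br u ≠ some g) := by
    refine (frac_mono fun u hu => ?_).trans (frac_or_le _ _)
    by_contra hh
    push Not at hh
    exact hu (hh.2 _ hh.1)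
  linarith

omit hp [Nonempty U] in
lemma dN_up (w : U → Γ) : R.dN ≤ dist (D.Nu R.Ar) w + dist R.Bs w + p.e := by
  have h := R.dN_le
  have : frac (fun u => ¬ ∃ g, D.Nu R.Ar u = some g ∧ R.Bs u = some g) ≤
      dist (D.Nu R.Ar) w + dist R.Bs w := by
    refine (frac_mono fun u hu => ?_).trans (frac_or_le _ _)
    by_contra hh
    push Not at hh
    exact hu ⟨w u, hh.1, hh.2⟩
  linarith

omit hp [Nonempty U] in
lemma dM_A (w : U → Γ) : dist R.Ar w ≤ dist (D.Mu R.Br) w + (R.dM + p.e) := by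
  have h := R.dM_ge
  have : dist R.Ar w ≤ dist (D.Mu R.Br) w +
      frac (fun u => ∃ g, D.Mu R.Br u = some g ∧ R.Ar u ≠ some g) := by
    refine (frac_mono fun u hu => ?_).trans (frac_or_le _ _)
    by_contra hh
    push Not at hh
    exact hu (hh.2 _ hh.1)
  linarith

omit hp [Nonempty U] in
lemma dM_up (w : U → Γ) : R.dM ≤ dist (D.Mu R.Br) w + dist R.As w + p.e := by
  have h := R.dM_le
  have : frac (fun u => ¬ ∃ g, D.Mu R.Br u = some g ∧ R.As u = some g) ≤
      dist (D.Mu R.Br) w + dist R.As w := by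
    refine (frac_mono fun u hu => ?_).trans (frac_or_le _ _)
    by_contra hh
    push Not at hh
    exact hu ⟨w u, hh.1, hh.2⟩
  linarith

/-- force of `s` -/
noncomputable def FS (R : MRest D p) : K3 :=
  k3mux (cmp p.e R.Ψ (1 / 4))
      (k3mux (cmp p.e R.S (1 / 2)) (cmp p.e R.dAB p.t)
        (k3not (k3and (cmp p.e R.dN p.t) (k3not (cmp p.e R.dAB p.t)))))
      (k3mux (cmp p.e R.S (1 / 2)) (k3and (cmp p.e R.dM p.t) (k3not (cmp p.e R.dAB p.t)))
        (k3not (cmp p.e R.dAB p.t)))

/-- invalidity -/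
noncomputable def INV (R : MRest D p) : K3 :=
  (k3or
    (k3or (k3and (cmp p.e R.S (7 / 10)) (k3not (cmp p.e R.vB p.z)))
      (k3and (k3not (cmp p.e R.S (3 / 10))) (k3not (cmp p.e R.vA p.z))))
    (k3and (k3and (k3not (cmp p.e R.S (7 / 20))) (cmp p.e R.S (13 / 20)))
      (k3and (k3not (cmp p.e R.dAB p.t)) (k3not (cmp p.e R.dN p.t)))))

/-- force of `ψ` -/
noncomputable def FP (R : MRest D p) : K3 :=
  k3and (k3not (k3and (cmp p.e R.a0 p.t) (cmp p.e R.b0 p.t)))
      (k3or (INV R) (k3not (cmp p.e R.Ψ (1 / 2))))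

lemma FS_up (h : FS R = some true) : 1 - p.δ ≤ R.S :=
  scal_up hp R R.s_mem (S_mem hp R).1 R.S_eq fun u hu => R.ruleS_up u hu h

lemma FS_dn (h : FS R = some false) : R.S ≤ p.δ :=
  scal_dn hp R R.s_mem R.S_eq fun u hu => R.ruleS_dn u hu h

lemma FP_up (h : FP R = some true) : 1 - p.δ ≤ R.Ψ :=
  scal_up hp R R.ψ_mem (Ψ_mem hp R).1 R.Ψ_eq fun u hu => R.ruleΨ_up u hu h

lemma FP_dn (h : FP R = some false) : R.Ψ ≤ p.δ :=
  scal_dn hp R R.ψ_mem R.Ψ_eq fun u hu => R.ruleΨ_dn u hu h

lemma consts : 0 ≤ k.c * p.δ ∧ p.δ ≤ k.c * p.δ := by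
  have h1 := k.c_ge
  have h2 := hp.δ_nn
  constructor
  · positivity
  · nlinarith

include hD

/-- `A` in HOLD and near a legal word ⇒ clean -/
lemma holdA (h34 : R.Ψ ≤ 3 / 4 - p.e) (h15 : 3 / 20 + p.e ≤ R.S) {w : U → Γ} (hw : w ∈ D.W)
    (hr : dist R.Ar w ≤ k.r0) : dist R.As w ≤ 4 / 3 * p.δ := by
  have hc := hD.corr_le w hw R.Ar hr
  have h0 := dist_nonneg R.Ar w
  have h1 := A_bound hp R w (a := 0) (b := 0) (c := dist R.Ar w / 4) le_rfl le_rfl (by linarith)
    (fun _ h _ => by linarith) (fun _ h _ => by linarith) (fun _ _ => hc) (fun h => by linarith)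
  have h2 := Ar_le R w
  linarith

lemma holdB (h34 : R.Ψ ≤ 3 / 4 - p.e) (h85 : R.S ≤ 17 / 20 - p.e) {w : U → Γ} (hw : w ∈ D.W)
    (hr : dist R.Br w ≤ k.r0) : dist R.Bs w ≤ 4 / 3 * p.δ := by
  have hc := hD.corr_le w hw R.Br hr
  have h0 := dist_nonneg R.Br w
  have h1 := B_bound hp R w (a := dist R.Br w / 4) (b := 0) (c := 0) (by linarith) le_rfl le_rfl
    (fun _ _ => hc) (fun _ h _ => by linarith) (fun _ h _ => by linarith) (fun h => by linarith)
  have h2 := Br_le R w
  linarith

lemma defA (h34 : R.Ψ ≤ 3 / 4 - p.e) (h15 : 3 / 20 + p.e ≤ R.S) :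
    (∃ w ∈ D.W, dist R.As w ≤ 4 / 3 * p.δ) ∨
      (p.z + p.e ≤ R.vA ∧ ∀ w ∈ D.W, k.r0 < dist R.Ar w) := by
  by_cases hall : ∀ w ∈ D.W, k.r0 < dist R.Ar w
  · right
    refine ⟨?_, hall⟩
    by_contra hv
    push Not at hv
    have h1 := R.vA_ge
    have h2 := hp.z_zs
    have h3 := hp.z_r0
    have h4 := k.c_ge
    obtain ⟨w, hw, hd⟩ := hD.sound R.Ar (by linarith)
    have h5 : k.c * frac (fun u => D.viol R.Ar u = true) ≤ k.c * (p.z + 2 * p.e) :=
      mul_le_mul_of_nonneg_left (by linarith) (by linarith)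
    linarith [hall w hw]
  · left
    push Not at hall
    obtain ⟨w, hw, hr⟩ := hall
    exact ⟨w, hw, holdA hD hp R h34 h15 hw hr⟩

lemma defB (h34 : R.Ψ ≤ 3 / 4 - p.e) (h85 : R.S ≤ 17 / 20 - p.e) :
    (∃ w ∈ D.W, dist R.Bs w ≤ 4 / 3 * p.δ) ∨
      (p.z + p.e ≤ R.vB ∧ ∀ w ∈ D.W, k.r0 < dist R.Br w) := by
  by_cases hall : ∀ w ∈ D.W, k.r0 < dist R.Br w
  · right
    refine ⟨?_, hall⟩
    by_contra hv
    push Not at hv
    have h1 := R.vB_ge
    have h2 := hp.z_zs
    have h3 := hp.z_r0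
    have h4 := k.c_ge
    obtain ⟨w, hw, hd⟩ := hD.sound R.Br (by linarith)
    have h5 : k.c * frac (fun u => D.viol R.Br u = true) ≤ k.c * (p.z + 2 * p.e) :=
      mul_le_mul_of_nonneg_left (by linarith) (by linarith)
    linarith [hall w hw]
  · left
    push Not at hall
    obtain ⟨w, hw, hr⟩ := hall
    exact ⟨w, hw, holdB hD hp R h34 h85 hw hr⟩

lemma vA_small {w : U → Γ} (hw : w ∈ D.W) (h : dist R.As w ≤ 4 / 3 * p.δ) :
    R.vA ≤ p.z - p.e := by
  have h1 := R.vA_le
  have h2 := hD.compl w hw R.As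
  have h3 := hp.z_ge
  have h4 := k.c_ge
  have h5 : k.c * dist R.As w ≤ k.c * (4 / 3 * p.δ) := mul_le_mul_of_nonneg_left h (by linarith)
  have h6 := consts hp
  linarith

lemma vB_small {w : U → Γ} (hw : w ∈ D.W) (h : dist R.Bs w ≤ 4 / 3 * p.δ) :
    R.vB ≤ p.z - p.e := by
  have h1 := R.vB_le
  have h2 := hD.compl w hw R.Bs
  have h3 := hp.z_ge
  have h4 := k.c_ge
  have h5 : k.c * dist R.Bs w ≤ k.c * (4 / 3 * p.δ) := mul_le_mul_of_nonneg_left h (by linarith)
  have h6 := consts hp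
  linarith

lemma NuA {w : U → Γ} (hw : w ∈ D.W) (h : dist R.As w ≤ 4 / 3 * p.δ) :
    dist (D.Nu R.Ar) (D.N w) ≤ k.c * (4 / 3 * p.δ) + k.γ := by
  have h0 := Ar_le R w
  have h1 := k.c_ge
  have h2 := hp.t_r0
  have h3 := hp.t_pos
  have h4 := hp.e_pos
  have h5 := k.γ_nn
  have h6 := consts hp
  have h7 := hp.δ_nn
  have h8 := hD.Nu_le w hw R.Ar (by linarith)
  have h9 : k.c * dist R.Ar w ≤ k.c * (4 / 3 * p.δ) :=
    mul_le_mul_of_nonneg_left (by linarith) (by linarith)
  linarith

lemma MuB {w : U → Γ} (hw : w ∈ D.W) (h : dist R.Bs w ≤ 4 / 3 * p.δ) :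
    dist (D.Mu R.Br) (D.M w) ≤ k.c * (4 / 3 * p.δ) + k.γ := by
  have h0 := Br_le R w
  have h1 := k.c_ge
  have h2 := hp.t_r0
  have h3 := hp.t_pos
  have h4 := hp.e_pos
  have h5 := k.γ_nn
  have h6 := consts hp
  have h7 := hp.δ_nn
  have h8 := hD.Mu_le w hw R.Br (by linarith)
  have h9 : k.c * dist R.Br w ≤ k.c * (4 / 3 * p.δ) :=
    mul_le_mul_of_nonneg_left (by linarith) (by linarith)
  linarith

/-- both clean, different ⇒ `dAB` certainly large -/
lemma eq_false_of_ne {v w : U → Γ} (hv : v ∈ D.W) (hw : w ∈ D.W) (hne : v ≠ w) {a b : ℝ}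
    (ha : dist R.Ar v ≤ a) (hb : dist R.Br w ≤ b)
    (hab : a + b + p.t + 2 * p.e ≤ k.d0) : p.t + p.e ≤ R.dAB := by
  have h1 := hD.sep v hv w hw hne
  have h2 := sep_le R.Br v w
  have h3 := dAB_B R v
  linarith

lemma nn_false_of_ne {v w : U → Γ} (hv : v ∈ D.W) (hw : w ∈ D.W) (hne : D.N v ≠ w) {a b : ℝ}
    (ha : dist (D.Nu R.Ar) (D.N v) ≤ a) (hb : dist R.Br w ≤ b)
    (hab : a + b + p.t + 2 * p.e ≤ k.d0) : p.t + p.e ≤ R.dN := by
  have h1 := hD.sep _ (hD.N_mem v hv) w hw hne
  have h2 := sep_le R.Br (D.N v) w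
  have h3 := dN_B R (D.N v)
  linarith

lemma mm_false_of_ne {v w : U → Γ} (hv : v ∈ D.W) (hw : w ∈ D.W) (hne : D.M v ≠ w) {a b : ℝ}
    (ha : dist (D.Mu R.Br) (D.M v) ≤ a) (hb : dist R.Ar w ≤ b)
    (hab : a + b + p.t + 2 * p.e ≤ k.d0) : p.t + p.e ≤ R.dM := by
  have h1 := hD.sep _ (hD.M_mem v hv) w hw hne
  have h2 := sep_le R.Ar (D.M v) w
  have h3 := dM_A R (D.M v)
  linarith

omit hD in
lemma FP_true_of (hn : k3and (cmp p.e R.a0 p.t) (cmp p.e R.b0 p.t) = some false)
    (hI : k3or (INV R) (k3not (cmp p.e R.Ψ (1 / 2))) = some true) : 1 - p.δ ≤ R.Ψ := by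
  apply FP_up hp R
  unfold FP
  rw [hn, hI]
  rfl

omit hD in
lemma near_A (h : p.t + p.e ≤ R.a0) :
    k3and (cmp p.e R.a0 p.t) (cmp p.e R.b0 p.t) = some false := by
  rw [cmp_false hp.e_pos h]
  rfl

omit hD in
lemma near_B (h : p.t + p.e ≤ R.b0) :
    k3and (cmp p.e R.a0 p.t) (cmp p.e R.b0 p.t) = some false := by
  rw [cmp_false (t := p.t) (m := R.b0) hp.e_pos h]
  exact k3and_ff _

/-- case `Ψ > 3/4 - e` -/
lemma case3 (h : 3 / 4 - p.e < R.Ψ) : False := by
  have he := hp.e_pos
  have he' := hp.e_le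
  have hδ := hp.δ_nn
  have hδe := hp.δ_le
  have hc := k.c_ge
  have hγ := k.γ_nn
  obtain ⟨hc1, hc2⟩ := consts hp (k := k)
  have ht := hp.t_pos
  have ht1 := hp.t_r0
  have ht2 := hp.t_d0
  have ht3 := hp.t_ge
  have hS := S_mem hp R
  have h12 : cmp p.e R.Ψ (1 / 2) = some false := cmp_false he (by linarith)
  have hor : k3or (INV R) (k3not (cmp p.e R.Ψ (1 / 2))) = some true := by
    rw [h12]; exact k3or_tt _
  have hW := hD.w0_mem
  -- near = true impossible
  have hnt : ¬ (R.a0 ≤ p.t - p.e ∧ R.b0 ≤ p.t - p.e) := by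
    rintro ⟨h1, h2⟩
    have h3 : FP R = some false := by
      unfold FP
      rw [cmp_true h1, cmp_true h2]
      rfl
    have := FP_dn hp R h3
    linarith
  -- near = false impossible
  have hnf : k3and (cmp p.e R.a0 p.t) (cmp p.e R.b0 p.t) ≠ some false := by
    intro h1
    have h2 := FP_true_of hp R h1 hor
    have hA := A_bound hp R D.w0 (a := 0) (b := 0) (c := 0) le_rfl le_rfl le_rfl
      (fun h _ _ => by linarith) (fun h _ _ => by linarith) (fun h _ => by linarith) (fun _ => rfl)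
    have hB := B_bound hp R D.w0 (a := 0) (b := 0) (c := 0) le_rfl le_rfl le_rfl
      (fun h _ => by linarith) (fun h _ _ => by linarith) (fun h _ _ => by linarith) (fun _ => rfl)
    have hA' := R.a0_le
    have hB' := R.b0_le
    exact hnt ⟨by linarith, by linarith⟩
  have ha : R.a0 < p.t + p.e := by
    by_contra hh
    push Not at hh
    exact hnf (near_A hp R hh)
  have hb : R.b0 < p.t + p.e := by
    by_contra hh
    push Not at hh
    exact hnf (near_B hp R hh)
  have hAr := R.a0_ge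
  have hBr := R.b0_ge
  have hcA := hD.corr_le _ hW R.Ar (by linarith)
  have hcB := hD.corr_le _ hW R.Br (by linarith)
  have hA0 := dist_nonneg R.Ar D.w0
  have hB0 := dist_nonneg R.Br D.w0
  have hAl := Ar_le R D.w0
  have hBl := Br_le R D.w0
  have hA' := R.a0_le
  have hB' := R.b0_le
  rcases le_total R.S (1 / 2) with hS2 | hS2
  · have hB := B_bound hp R D.w0 (a := dist R.Br D.w0 / 4) (b := 0) (c := 0) (by linarith) le_rfl
      le_rfl (fun _ _ => hcB) (fun _ h _ => by linarith) (fun _ h _ => by linarith) (fun _ => rfl)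
    have hB2 : dist R.Bs D.w0 ≤ 4 / 3 * p.δ := by linarith
    have hMu := MuB hD hp R hW hB2
    rw [hD.M_w0] at hMu
    have hA := A_bound hp R D.w0 (a := 0) (b := k.c * (4 / 3 * p.δ) + k.γ)
      (c := dist R.Ar D.w0 / 4) le_rfl (by linarith) (by linarith)
      (fun _ _ h => by linarith) (fun _ _ _ => hMu) (fun _ _ => hcA) (fun _ => rfl)
    exact hnt ⟨by linarith, by linarith⟩
  · have hA := A_bound hp R D.w0 (a := 0) (b := 0)
      (c := dist R.Ar D.w0 / 4) le_rfl le_rfl (by linarith)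
      (fun _ h _ => by linarith) (fun _ h _ => by linarith) (fun _ _ => hcA) (fun _ => rfl)
    have hA2 : dist R.As D.w0 ≤ 4 / 3 * p.δ := by linarith
    have hB := B_bound hp R D.w0 (a := dist R.Br D.w0 / 4) (b := 0) (c := 4 / 3 * p.δ)
      (by linarith) le_rfl (by linarith) (fun _ _ => hcB) (fun _ _ h => by linarith)
      (fun _ _ _ => by linarith) (fun _ => rfl)
    exact hnt ⟨by linarith, by linarith⟩

/-- `B` is clean below `7/10` -/
lemma cleanB1 (h34 : R.Ψ ≤ 3 / 4 - p.e) (h7 : R.S ≤ 7 / 10 - p.e) :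
    ∃ w ∈ D.W, dist R.Bs w ≤ 4 / 3 * p.δ := by
  have he := hp.e_pos
  have he' := hp.e_le
  have hδe := hp.δ_le
  have ht1 := hp.t_r0
  obtain ⟨hc1, hc2⟩ := consts hp (k := k)
  have hγ := k.γ_nn
  have hδ := hp.δ_nn
  rcases defB hD hp R h34 (by linarith) with h | ⟨hv, hf⟩
  · exact h
  · exfalso
    have h1 := hf _ hD.w0_mem
    have h2 := R.b0_ge
    have h3 : INV R = some true := by
      unfold INV
      rw [cmp_true h7, cmp_false (m := R.vB) he hv]
      rfl
    have := FP_true_of hp R (near_B hp R (by linarith)) (by rw [h3]; rfl)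
    linarith

/-- `A` is clean above `3/10` -/
lemma cleanA1 (h34 : R.Ψ ≤ 3 / 4 - p.e) (h3 : 3 / 10 + p.e ≤ R.S) :
    ∃ w ∈ D.W, dist R.As w ≤ 4 / 3 * p.δ := by
  have he := hp.e_pos
  have he' := hp.e_le
  have hδe := hp.δ_le
  have ht1 := hp.t_r0
  obtain ⟨hc1, hc2⟩ := consts hp (k := k)
  have hγ := k.γ_nn
  have hδ := hp.δ_nn
  rcases defA hD hp R h34 (by linarith) with h | ⟨hv, hf⟩
  · exact h
  · exfalso
    have h1 := hf _ hD.w0_mem
    have h2 := R.a0_ge
    have h4 : INV R = some true := by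
      unfold INV
      rw [cmp_false (m := R.S) (t := 3 / 10) he h3, cmp_false (m := R.vA) he hv]
      show k3or (k3or _ (some true)) _ = some true
      rw [k3or_tt]
      rfl
    have := FP_true_of hp R (near_A hp R (by linarith)) (by rw [h4]; rfl)
    linarith

lemma cleanB (h34 : R.Ψ ≤ 3 / 4 - p.e) (h7 : R.S < 7 / 10 + p.e) :
    ∃ w ∈ D.W, dist R.Bs w ≤ 4 / 3 * p.δ := by
  have he := hp.e_pos
  have he' := hp.e_le
  have hδe := hp.δ_le
  have ht1 := hp.t_r0
  obtain ⟨hc1, hc2⟩ := consts hp (k := k)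
  have hγ := k.γ_nn
  have hδ := hp.δ_nn
  rcases le_or_gt R.S (7 / 10 - p.e) with h | h
  · exact cleanB1 hD hp R h34 h
  rcases defB hD hp R h34 (by linarith) with hB | ⟨hv, hf⟩
  · exact hB
  exfalso
  obtain ⟨a, ha, hA⟩ := cleanA1 hD hp R h34 (by linarith)
  have hN := NuA hD hp R ha hA
  have hAr := Ar_le R a
  have h1 : p.t + p.e ≤ R.dAB := by
    by_contra hh
    push Not at hh
    have := dAB_B R a
    linarith [hf a ha]
  have h2 : p.t + p.e ≤ R.dN := by
    by_contra hh
    push Not at hh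
    have := dN_B R (D.N a)
    linarith [hf _ (hD.N_mem a ha)]
  have h3 : FS R = some true := by
    unfold FS
    rw [cmp_false (m := R.S) (t := 1 / 2) he (by linarith), cmp_false (m := R.dAB) he h1,
      cmp_false (m := R.dN) he h2]
    exact k3mux_same _ true
  have := FS_up hp R h3
  linarith

lemma cleanA (h34 : R.Ψ ≤ 3 / 4 - p.e) (h3 : 3 / 10 - p.e < R.S) :
    ∃ w ∈ D.W, dist R.As w ≤ 4 / 3 * p.δ := by
  have he := hp.e_pos
  have he' := hp.e_le
  have hδe := hp.δ_le
  have ht1 := hp.t_r0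
  obtain ⟨hc1, hc2⟩ := consts hp (k := k)
  have hγ := k.γ_nn
  have hδ := hp.δ_nn
  rcases le_or_gt (3 / 10 + p.e) R.S with h | h
  · exact cleanA1 hD hp R h34 h
  rcases defA hD hp R h34 (by linarith) with hA | ⟨hv, hf⟩
  · exact hA
  exfalso
  obtain ⟨b, hb, hB⟩ := cleanB1 hD hp R h34 (by linarith)
  have hM := MuB hD hp R hb hB
  have hBr := Br_le R b
  have h1 : p.t + p.e ≤ R.dAB := by
    by_contra hh
    push Not at hh
    have := dAB_A R b
    linarith [hf b hb]
  have h2 : p.t + p.e ≤ R.dM := by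
    by_contra hh
    push Not at hh
    have := dM_A R (D.M b)
    linarith [hf _ (hD.M_mem b hb)]
  have h3 : FS R = some false := by
    unfold FS
    rw [cmp_true (m := R.S) (t := 1 / 2) (by linarith), cmp_false (m := R.dAB) he h1,
      cmp_false (m := R.dM) he h2]
    exact k3mux_same _ false
  have := FS_dn hp R h3
  linarith

/-- relation in the middle -/
lemma rel (h34 : R.Ψ ≤ 3 / 4 - p.e) (h35 : 7 / 20 - p.e < R.S) (h65 : R.S < 13 / 20 + p.e)
    {a b : U → Γ} (ha : a ∈ D.W) (hb : b ∈ D.W) (hA : dist R.As a ≤ 4 / 3 * p.δ)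
    (hB : dist R.Bs b ≤ 4 / 3 * p.δ) : a = b ∨ D.N a = b := by
  by_contra hh
  push Not at hh
  obtain ⟨hab, hN⟩ := hh
  have he := hp.e_pos
  have he' := hp.e_le
  have hδe := hp.δ_le
  have ht1 := hp.t_r0
  have ht2 := hp.t_d0
  have ht3 := hp.t_ge
  have ht := hp.t_pos
  obtain ⟨hc1, hc2⟩ := consts hp (k := k)
  have hγ := k.γ_nn
  have hδ := hp.δ_nn
  have hAr := Ar_le R a
  have hBr := Br_le R b
  have hNu := NuA hD hp R ha hA
  have hMu := MuB hD hp R hb hB
  have h1 : p.t + p.e ≤ R.dAB :=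
    eq_false_of_ne hD hp R ha hb hab (hAr.trans hA) (hBr.trans hB) (by linarith)
  have h2 : p.t + p.e ≤ R.dN :=
    nn_false_of_ne hD hp R ha hb hN hNu (hBr.trans hB) (by linarith)
  rcases lt_or_ge R.S (7 / 20 + p.e) with h | h
  · -- window 7/20
    have hMne : D.M b ≠ a := by
      intro hMb
      have hMb' : D.M b ≠ b := by rw [hMb]; exact hab
      have := hD.NM b hb hMb'
      rw [hMb] at this
      exact hN this
    have h3 : p.t + p.e ≤ R.dM :=
      mm_false_of_ne hD hp R hb ha hMne hMu (hAr.trans hA) (by linarith)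
    have h4 : FS R = some false := by
      unfold FS
      rw [cmp_true (m := R.S) (t := 1 / 2) (by linarith), cmp_false (m := R.dAB) he h1,
        cmp_false (m := R.dM) he h3]
      exact k3mux_same _ false
    have := FS_dn hp R h4
    linarith
  rcases lt_or_ge (13 / 20 - p.e) R.S with h' | h'
  · have h4 : FS R = some true := by
      unfold FS
      rw [cmp_false (m := R.S) (t := 1 / 2) he (by linarith), cmp_false (m := R.dAB) he h1,
        cmp_false (m := R.dN) he h2]
      exact k3mux_same _ true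
    have := FS_up hp R h4
    linarith
  · have h4 : INV R = some true := by
      unfold INV
      rw [cmp_false (m := R.S) (t := 7 / 20) he h, cmp_true (m := R.S) (t := 13 / 20) h',
        cmp_false (m := R.dAB) he h1, cmp_false (m := R.dN) he h2]
      exact k3or_tt _
    have hnear : k3and (cmp p.e R.a0 p.t) (cmp p.e R.b0 p.t) = some false := by
      by_cases haw : a = D.w0
      · have hbw : b ≠ D.w0 := fun h => hab (haw.trans h.symm)
        have h5 := hD.sep b hb _ hD.w0_mem hbw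
        have h6 := sep_le R.Br b D.w0
        have h7 := R.b0_ge
        exact near_B hp R (by linarith)
      · have h5 := hD.sep a ha _ hD.w0_mem haw
        have h6 := sep_le R.Ar a D.w0
        have h7 := R.a0_ge
        exact near_A hp R (by linarith)
    have := FP_true_of hp R hnear (by rw [h4]; rfl)
    linarith

lemma INV_false (h34 : R.Ψ ≤ 3 / 4 - p.e) : INV R = some false := by
  have he := hp.e_pos
  have he' := hp.e_le
  have hδe := hp.δ_le
  have ht1 := hp.t_r0
  have ht2 := hp.t_d0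
  have ht3 := hp.t_ge
  have ht := hp.t_pos
  obtain ⟨hc1, hc2⟩ := consts hp (k := k)
  have hγ := k.γ_nn
  have hδ := hp.δ_nn
  have t1 : k3and (cmp p.e R.S (7 / 10)) (k3not (cmp p.e R.vB p.z)) = some false := by
    rcases lt_or_ge R.S (7 / 10 + p.e) with h | h
    · obtain ⟨b, hb, hB⟩ := cleanB hD hp R h34 h
      rw [cmp_true (m := R.vB) (vB_small hD hp R hb hB)]
      exact k3and_ff _
    · rw [cmp_false (m := R.S) (t := 7 / 10) he h]; rfl
  have t2 : k3and (k3not (cmp p.e R.S (3 / 10))) (k3not (cmp p.e R.vA p.z)) = some false := by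
    rcases lt_or_ge (3 / 10 - p.e) R.S with h | h
    · obtain ⟨b, hb, hB⟩ := cleanA hD hp R h34 h
      rw [cmp_true (m := R.vA) (vA_small hD hp R hb hB)]
      exact k3and_ff _
    · rw [cmp_true (m := R.S) (t := 3 / 10) h]; rfl
  have t3 : k3and (k3and (k3not (cmp p.e R.S (7 / 20))) (cmp p.e R.S (13 / 20)))
      (k3and (k3not (cmp p.e R.dAB p.t)) (k3not (cmp p.e R.dN p.t))) = some false := by
    rcases lt_or_ge (7 / 20 - p.e) R.S with h | h
    · rcases lt_or_ge R.S (13 / 20 + p.e) with h' | h'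
      · obtain ⟨a, ha, hA⟩ := cleanA hD hp R h34 (by linarith)
        obtain ⟨b, hb, hB⟩ := cleanB hD hp R h34 (by linarith)
        rcases rel hD hp R h34 h h' ha hb hA hB with hab | hab
        · subst hab
          have h1 := dAB_up R a
          rw [cmp_true (m := R.dAB) (t := p.t) (by linarith)]
          exact k3and_ff _
        · have h1 := dN_up R (D.N a)
          have h2 := NuA hD hp R ha hA
          rw [hab] at h1 h2
          rw [cmp_true (m := R.dN) (t := p.t) (by linarith)]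
          show k3and _ (k3and _ (some false)) = some false
          rw [k3and_ff, k3and_ff]
      · rw [cmp_false (m := R.S) (t := 13 / 20) he h', k3and_ff]; rfl
    · rw [cmp_true (m := R.S) (t := 7 / 20) h]; rfl
  unfold INV
  rw [t1, t2, t3]
  rfl

/-- forward lane -/
lemma lane_F (h12 : R.Ψ ≤ 1 / 2 - p.e) :
    R.Ψ ≤ p.δ ∧ ∃ w ∈ D.W, D.N w = w ∧ dist R.As w ≤ 4 / 3 * p.δ := by
  have he := hp.e_pos
  have he' := hp.e_le
  have hδe := hp.δ_le
  have ht1 := hp.t_r0
  have ht2 := hp.t_d0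
  have ht3 := hp.t_ge
  have ht := hp.t_pos
  obtain ⟨hc1, hc2⟩ := consts hp (k := k)
  have hγ := k.γ_nn
  have hδ := hp.δ_nn
  have h34 : R.Ψ ≤ 3 / 4 - p.e := by linarith
  have hΨ : R.Ψ ≤ p.δ := by
    apply FP_dn hp R
    unfold FP
    rw [INV_false hD hp R h34, cmp_true (m := R.Ψ) (t := 1 / 2) h12]
    exact k3and_ff _
  refine ⟨hΨ, ?_⟩
  have hF : FS R = k3mux (cmp p.e R.S (1 / 2)) (cmp p.e R.dAB p.t)
        (k3not (k3and (cmp p.e R.dN p.t) (k3not (cmp p.e R.dAB p.t)))) := by
    unfold FS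
    rw [cmp_true (m := R.Ψ) (t := 1 / 4) (by linarith)]
    rfl
  rcases le_or_gt R.S (1 / 2 - p.e) with hS | hS
  · -- low part
    exfalso
    obtain ⟨b, hb, hB⟩ := cleanB hD hp R h34 (by linarith)
    have hBr := Br_le R b
    have hAr := Ar_le R b
    rw [cmp_true (m := R.S) (t := 1 / 2) hS] at hF
    rcases le_or_gt (p.t + p.e) R.dAB with h | h
    · rw [cmp_false (m := R.dAB) he h] at hF
      have hSd := FS_dn hp R hF
      have hA := A_bound hp R b (a := 4 / 3 * p.δ) (b := 0) (c := 0) (by linarith) le_rfl le_rfl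
        (fun _ _ _ => by linarith) (fun _ _ h => by linarith) (fun _ h => by linarith)
        (fun h => by linarith)
      have := dAB_up R b
      linarith
    · have h1 := dAB_A R b
      have hcA := hD.corr_le b hb R.Ar (by linarith)
      have h0 := dist_nonneg R.Ar b
      have hA := A_bound hp R b (a := 4 / 3 * p.δ) (b := 0) (c := dist R.Ar b / 4) (by linarith)
        le_rfl (by linarith) (fun _ _ _ => by linarith) (fun _ _ h => by linarith)
        (fun _ _ => hcA) (fun h => by linarith)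
      have h2 := dAB_up R b
      rw [cmp_true (m := R.dAB) (by linarith)] at hF
      have := FS_up hp R hF
      linarith
  obtain ⟨a, ha, hA⟩ := cleanA hD hp R h34 (by linarith)
  have hAr := Ar_le R a
  have hNu := NuA hD hp R ha hA
  rcases lt_or_ge R.S (1 / 2 + p.e) with hS' | hS'
  · -- window 1/2
    exfalso
    obtain ⟨b, hb, hB⟩ := cleanB hD hp R h34 (by linarith)
    have hBr := Br_le R b
    by_cases hab : a = b
    · subst hab
      have h1 := dAB_up R a
      rw [cmp_true (m := R.dAB) (t := p.t) (by linarith)] at hF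
      have h2 : k3not (k3and (cmp p.e R.dN p.t) (k3not (some true))) = some true := by
        show k3not (k3and _ (some false)) = some true
        rw [k3and_ff]; rfl
      rw [h2, k3mux_same] at hF
      have := FS_up hp R hF
      linarith
    · rcases rel hD hp R h34 (by linarith) (by linarith) ha hb hA hB with h | h
      · exact hab h
      · have h1 := eq_false_of_ne hD hp R ha hb hab (hAr.trans hA) (hBr.trans hB) (by linarith)
        have h2 := dN_up R (D.N a)
        rw [h] at h2 hNu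
        rw [cmp_false (m := R.dAB) he h1, cmp_true (m := R.dN) (by linarith)] at hF
        rw [show k3not (k3and (some true) (k3not (some false))) = some false from rfl,
          k3mux_same] at hF
        have := FS_dn hp R hF
        linarith
  -- high part
  rw [cmp_false (m := R.S) (t := 1 / 2) he hS'] at hF
  rcases le_or_gt (p.t + p.e) R.dN with h | h
  · exfalso
    rw [cmp_false (m := R.dN) he h] at hF
    have hSd := FS_up hp R hF
    have hB := B_bound hp R (D.N a) (a := 0) (b := k.c * (4 / 3 * p.δ) + k.γ) (c := 0) le_rfl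
      (by linarith) le_rfl (fun _ h => by linarith) (fun _ _ _ => hNu) (fun _ _ h => by linarith)
      (fun h => by linarith)
    have := dN_up R (D.N a)
    linarith
  · have h1 := dN_B R (D.N a)
    have hcB := hD.corr_le _ (hD.N_mem a ha) R.Br (by linarith)
    have h0 := dist_nonneg R.Br (D.N a)
    have hBr := Br_le R (D.N a)
    have hB := B_bound hp R (D.N a) (a := dist R.Br (D.N a) / 4)
      (b := k.c * (4 / 3 * p.δ) + k.γ) (c := 0) (by linarith)
      (by linarith) le_rfl (fun _ _ => hcB) (fun _ _ _ => hNu) (fun _ _ h => by linarith)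
      (fun h => by linarith)
    have h2 := dN_up R (D.N a)
    by_cases hNa : D.N a = a
    · exact ⟨a, ha, hNa, hA⟩
    · exfalso
      have h3 : p.t + p.e ≤ R.dAB :=
        eq_false_of_ne hD hp R ha (hD.N_mem a ha) (Ne.symm hNa) (hAr.trans hA)
          (b := 4 / 3 * (k.c * (4 / 3 * p.δ) + k.γ + p.δ)) (by linarith) (by linarith)
      rw [cmp_true (m := R.dN) (by linarith), cmp_false (m := R.dAB) he h3] at hF
      have := FS_dn hp R hF
      linarith

/-- backward lane -/
lemma lane_B (h12 : 1 / 2 - p.e < R.Ψ) (h34 : R.Ψ ≤ 3 / 4 - p.e) :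
    ∃ w ∈ D.W, w ≠ D.w0 ∧ D.M w = w ∧ dist R.Bs w ≤ 4 / 3 * p.δ := by
  have he := hp.e_pos
  have he' := hp.e_le
  have hδe := hp.δ_le
  have ht1 := hp.t_r0
  have ht2 := hp.t_d0
  have ht3 := hp.t_ge
  have ht := hp.t_pos
  obtain ⟨hc1, hc2⟩ := consts hp (k := k)
  have hγ := k.γ_nn
  have hδ := hp.δ_nn
  have hF : FS R = k3mux (cmp p.e R.S (1 / 2))
      (k3and (cmp p.e R.dM p.t) (k3not (cmp p.e R.dAB p.t)))
        (k3not (cmp p.e R.dAB p.t)) := by
    unfold FS
    rw [cmp_false (m := R.Ψ) (t := 1 / 4) he (by linarith)]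
    rfl
  rcases le_or_gt R.S (1 / 2 - p.e) with hS | hS
  · obtain ⟨b, hb, hB⟩ := cleanB hD hp R h34 (by linarith)
    have hBr := Br_le R b
    have hAr := Ar_le R (D.M b)
    have hMu := MuB hD hp R hb hB
    rw [cmp_true (m := R.S) (t := 1 / 2) hS] at hF
    rcases le_or_gt (p.t + p.e) R.dM with h | h
    · exfalso
      rw [cmp_false (m := R.dM) he h] at hF
      have hSd := FS_dn hp R hF
      have hA := A_bound hp R (D.M b) (a := 0) (b := k.c * (4 / 3 * p.δ) + k.γ) (c := 0) le_rfl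
        (by linarith) le_rfl (fun _ _ h => by linarith) (fun _ _ _ => hMu)
        (fun _ h => by linarith) (fun h => by linarith)
      have := dM_up R (D.M b)
      linarith
    · have h1 := dM_A R (D.M b)
      have hcA := hD.corr_le _ (hD.M_mem b hb) R.Ar (by linarith)
      have h0 := dist_nonneg R.Ar (D.M b)
      have hA := A_bound hp R (D.M b) (a := 0) (b := k.c * (4 / 3 * p.δ) + k.γ)
        (c := dist R.Ar (D.M b) / 4) le_rfl
        (by linarith) (by linarith) (fun _ _ h => by linarith) (fun _ _ _ => hMu)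
        (fun _ _ => hcA) (fun h => by linarith)
      have h2 := dM_up R (D.M b)
      by_cases hMb : D.M b = b
      · by_cases hbw : b = D.w0
        · exfalso
          rw [hMb, hbw] at hA
          rw [hbw] at hB
          rw [hMb, hbw] at hAr
          have h3 := R.a0_le
          have h4 := R.b0_le
          have h5 : FP R = some false := by
            unfold FP
            rw [cmp_true (m := R.a0) (by linarith), cmp_true (m := R.b0) (by linarith)]
            rfl
          have := FP_dn hp R h5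
          linarith
        · exact ⟨b, hb, hbw, hMb, hB⟩
      · exfalso
        have h3 : p.t + p.e ≤ R.dAB :=
          eq_false_of_ne hD hp R (hD.M_mem b hb) hb hMb
            (a := 4 / 3 * (k.c * (4 / 3 * p.δ) + k.γ + p.δ)) (by linarith) (hBr.trans hB)
            (by linarith)
        rw [cmp_true (m := R.dM) (by linarith), cmp_false (m := R.dAB) he h3] at hF
        have := FS_up hp R hF
        linarith
  exfalso
  obtain ⟨a, ha, hA⟩ := cleanA hD hp R h34 (by linarith)
  have hAr := Ar_le R a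
  rcases lt_or_ge R.S (1 / 2 + p.e) with hS' | hS'
  · obtain ⟨b, hb, hB⟩ := cleanB hD hp R h34 (by linarith)
    have hBr := Br_le R b
    by_cases hab : a = b
    · subst hab
      have h1 := dAB_up R a
      rw [cmp_true (m := R.dAB) (t := p.t) (by linarith)] at hF
      have h2 : k3and (cmp p.e R.dM p.t) (k3not (some true)) = some false := k3and_ff _
      rw [h2, show k3not (some true) = some false from rfl, k3mux_same] at hF
      have := FS_dn hp R hF
      linarith
    · rcases rel hD hp R h34 (by linarith) (by linarith) ha hb hA hB with h | h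
      · exact hab h
      · have h1 := eq_false_of_ne hD hp R ha hb hab (hAr.trans hA) (hBr.trans hB) (by linarith)
        have hNa : D.N a ≠ a := by rw [h]; exact Ne.symm hab
        have hM := hD.MN a ha hNa
        rw [h] at hM
        have hMu := MuB hD hp R hb hB
        have h2 := dM_up R (D.M b)
        rw [hM] at h2 hMu
        rw [cmp_false (m := R.dAB) he h1, cmp_true (m := R.dM) (by linarith)] at hF
        rw [show k3and (some true) (k3not (some false)) = some true from rfl,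
          show k3not (some false) = some true from rfl, k3mux_same] at hF
        have := FS_up hp R hF
        linarith
  rw [cmp_false (m := R.S) (t := 1 / 2) he hS'] at hF
  rcases le_or_gt (p.t + p.e) R.dAB with h | h
  · rw [cmp_false (m := R.dAB) he h] at hF
    have hSd := FS_up hp R hF
    have hB := B_bound hp R a (a := 0) (b := 0) (c := 4 / 3 * p.δ) le_rfl
      le_rfl (by linarith) (fun _ h => by linarith) (fun _ _ h => by linarith)
      (fun _ _ _ => by linarith) (fun h => by linarith)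
    have := dAB_up R a
    linarith
  · have h1 := dAB_B R a
    have hcB := hD.corr_le a ha R.Br (by linarith)
    have h0 := dist_nonneg R.Br a
    have hBr := Br_le R a
    have hB := B_bound hp R a (a := dist R.Br a / 4)
      (b := 0) (c := 4 / 3 * p.δ) (by linarith)
      le_rfl (by linarith) (fun _ _ => hcB) (fun _ _ h => by linarith)
      (fun _ _ _ => by linarith) (fun h => by linarith)
    have h2 := dAB_up R a
    rw [cmp_true (m := R.dAB) (by linarith)] at hF
    have := FS_dn hp R hF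
    linarith

end main

/-- **Theorem D1** (macro embedding at constant tolerance) -/
theorem D1_holds : DefD.D1 := by
  intro U Γ _ _ D k p hD hp R
  have he := hp.e_pos
  have he' := hp.e_le
  have hδe := hp.δ_le
  have hδ := hp.δ_nn
  rcases lt_or_ge (3 / 4 - p.e) R.Ψ with h | h34
  · exact (case3 hD hp R h).elim
  rcases le_or_gt R.Ψ (1 / 2 - p.e) with h12 | h12
  · left
    obtain ⟨h1, w, hw, hN, hd⟩ := lane_F hD hp R h12
    exact ⟨by linarith, w, hw, hN, by linarith⟩
  · right
    obtain ⟨w, hw, hne, hM, hd⟩ := lane_B hD hp R h12 h34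
    exact ⟨by linarith, w, hw, hne, hM, by linarith⟩

end Crest.Agent.R289.Macro250
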