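import Crest.Agent.R289.DefE_217
import Crest.Agent.R288.PtDp_115

/-!
# R289, block E, leaf E11: tables, dispatch, sections, assembly of `Units` (helper858)

* `ptf_tab1`, `ptf_tab2` : constant tables looked up at PTF indices.
* `ptf_upto` : dispatch on a natural number below a constant.
* `off N i = ∑ j < i, N j`, `fam m N g` = concatenation of the `m` sections
  `[g i 0, .., g i (N i - 1)]`; `getD_fam`, `length_fam`, `exists_off`, `ptf_off`, `ptf_fam`.
* `mkU n K ty nb : Units`, its type/neighbour functions, `mkU_WF`, `ptf_mkU`.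
* `secU m K N ty nb : Units` : units in `m` sections, neighbours given as (section, index);
  `secU_ty`, `secU_nbr`, `secU_WF`, `ptf_secU`, `secU_unitOK`, `rest_secU`.
* `tbit T u l`, `tbit_bitsOf`, `ptf_tbit`.
-/

set_option autoImplicit false
set_option linter.dupNamespace false

namespace Crest.Agent.R289.Tab858

open Crest.Agent.Lib.PT Crest.Agent.Lib.PT.Arith Crest.Agent.R288.PtDp115 Crest.Agent.R289

/-! ### tables and dispatch -/

section tables

variable {α β : Type} [PTCode α] [PTCode β]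

omit [PTCode α] [PTCode β] in
theorem getD_map_range (n : ℕ) (g : ℕ → β) (i : ℕ) (d : β) :
    ((List.range n).map g).getD i d = if i < n then g i else d := by
  by_cases h : i < n
  · rw [if_pos h, List.getD_eq_getElem _ _ (by simpa using h)]
    simp
  · rw [if_neg h, List.getD_eq_default _ _ (by simpa using h)]

theorem ptf_tab1 (tab : List β) (d : β) {i : α → ℕ} (hi : PTF i) :
    PTF (fun a => tab.getD (i a) d) := ptf_getB (PTF.const _) hi (PTF.const _)

theorem ptf_tab2 (tab : List (List β)) (d : β) {i j : α → ℕ} (hi : PTF i) (hj : PTF j) :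
    PTF (fun a => (tab.getD (i a) []).getD (j a) d) :=
  ptf_getB (ptf_getB (PTF.const _) hi (PTF.const _)) hj (PTF.const _)

/-- every function on `ℕ × ℕ` restricted to a finite box is a table look-up -/
theorem ptf_box (T L : ℕ) (f : ℕ → ℕ → β) (d : β) {i j : α → ℕ} (hi : PTF i) (hj : PTF j) :
    PTF (fun a => if i a < T ∧ j a < L then f (i a) (j a) else d) := by
  refine PTF.of_eq (ptf_tab2 ((List.range T).map fun t => (List.range L).map (f t)) d hi hj) ?_
  intro a
  rw [getD_map_range]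
  by_cases h1 : i a < T
  · rw [if_pos h1, getD_map_range]
    by_cases h2 : j a < L
    · simp [h1, h2]
    · simp [h2]
  · rw [if_neg h1]
    simp [h1]

/-- dispatch on a number below a constant -/
theorem ptf_upto (T : ℕ) (f : ℕ → α → β) {d : α → β} {t : α → ℕ} (hf : ∀ s < T, PTF (f s))
    (hd : PTF d) (ht : PTF t) : PTF (fun a => if t a < T then f (t a) a else d a) := by
  induction T with
  | zero => simpa using hd
  | succ T ih =>
    have h1 := ih (fun s hs => hf s (Nat.lt_succ_of_lt hs))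
    have h2 := PTF.ite (p := fun a => t a = T) (PTPred.eq ht (PTF.const T))
      (hf T (Nat.lt_succ_self T)) h1
    refine PTF.of_eq h2 fun a => ?_
    by_cases h : t a = T
    · simp [h]
    · by_cases h' : t a < T
      · simp [h, h', Nat.lt_succ_of_lt h']
      · have : ¬ t a < T + 1 := by omega
        simp [h, h', this]

end tables

/-! ### sections -/

section sections

/-- first address of section `i` -/
def off (N : ℕ → ℕ) (i : ℕ) : ℕ := ((List.range i).map N).sum

@[simp] theorem off_zero (N : ℕ → ℕ) : off N 0 = 0 := rfl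

theorem off_succ (N : ℕ → ℕ) (i : ℕ) : off N (i + 1) = off N i + N i := by
  simp [off, List.range_succ]

theorem off_eq_sum (N : ℕ → ℕ) (i : ℕ) : off N i = ∑ j ∈ Finset.range i, N j := by
  induction i with
  | zero => simp
  | succ i ih => rw [off_succ, Finset.sum_range_succ, ih]

theorem off_mono (N : ℕ → ℕ) {i j : ℕ} (h : i ≤ j) : off N i ≤ off N j := by
  induction h with
  | refl => exact le_rfl
  | step _ ih => exact ih.trans (by rw [off_succ]; exact Nat.le_add_right _ _)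

theorem off_congr {N N' : ℕ → ℕ} {i : ℕ} (h : ∀ j < i, N j = N' j) : off N i = off N' i := by
  induction i with
  | zero => rfl
  | succ i ih =>
    rw [off_succ, off_succ, ih fun j hj => h j (Nat.lt_succ_of_lt hj), h i (Nat.lt_succ_self i)]

theorem off_add_lt {N : ℕ → ℕ} {m i j : ℕ} (hi : i < m) (hj : j < N i) :
    off N i + j < off N m := by
  have h := off_mono N (Nat.succ_le_of_lt hi)
  rw [Nat.succ_eq_add_one, off_succ] at h
  omega

/-- every address lies in exactly one section -/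
theorem exists_off {N : ℕ → ℕ} {m u : ℕ} (h : u < off N m) :
    ∃ i < m, ∃ j < N i, u = off N i + j := by
  induction m with
  | zero => simp at h
  | succ m ih =>
    by_cases h' : u < off N m
    · obtain ⟨i, hi, j, hj, e⟩ := ih h'
      exact ⟨i, Nat.lt_succ_of_lt hi, j, hj, e⟩
    · rw [off_succ] at h
      exact ⟨m, Nat.lt_succ_self m, u - off N m, by omega, by omega⟩

theorem off_inj {N : ℕ → ℕ} {i j i' j' : ℕ} (hj : j < N i) (hj' : j' < N i')
    (h : off N i + j = off N i' + j') : i = i' ∧ j = j' := by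
  rcases lt_trichotomy i i' with h1 | h1 | h1
  · have := off_mono N (Nat.succ_le_of_lt h1)
    rw [Nat.succ_eq_add_one, off_succ] at this
    omega
  · subst h1
    exact ⟨rfl, by omega⟩
  · have := off_mono N (Nat.succ_le_of_lt h1)
    rw [Nat.succ_eq_add_one, off_succ] at this
    omega

variable {δ : Type}

/-- concatenation of the sections `[g i 0, .., g i (N i - 1)]`, `i < m` -/
def fam (m : ℕ) (N : ℕ → ℕ) (g : ℕ → ℕ → δ) : List δ :=
  (List.range m).flatMap fun i => (List.range (N i)).map (g i)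

theorem fam_succ (m : ℕ) (N : ℕ → ℕ) (g : ℕ → ℕ → δ) :
    fam (m + 1) N g = fam m N g ++ (List.range (N m)).map (g m) := by
  simp [fam, List.range_succ]

@[simp] theorem length_fam (m : ℕ) (N : ℕ → ℕ) (g : ℕ → ℕ → δ) :
    (fam m N g).length = off N m := by
  induction m with
  | zero => simp [fam]
  | succ m ih => rw [fam_succ, List.length_append, ih, off_succ]; simp

theorem getD_fam {m : ℕ} {N : ℕ → ℕ} (g : ℕ → ℕ → δ) {i j : ℕ} (hi : i < m) (hj : j < N i)
    (d : δ) : (fam m N g).getD (off N i + j) d = g i j := by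
  induction m with
  | zero => simp at hi
  | succ m ih =>
    rw [fam_succ]
    by_cases h : i < m
    · rw [List.getD_append _ _ _ _ (by rw [length_fam]; exact off_add_lt h hj)]
      exact ih h
    · have him : i = m := by omega
      subst him
      rw [List.getD_append_right _ _ _ _ (by rw [length_fam]; exact Nat.le_add_right _ _),
        length_fam, Nat.add_sub_cancel_left, List.getD_eq_getElem _ _ (by simpa using hj)]
      simp

theorem mem_fam {m : ℕ} {N : ℕ → ℕ} {g : ℕ → ℕ → δ} {w : δ} :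
    w ∈ fam m N g ↔ ∃ i < m, ∃ j < N i, g i j = w := by
  simp [fam, List.mem_flatMap]

variable {α : Type} [PTCode α]

theorem ptf_off {m : α → ℕ} {N : α → ℕ → ℕ} (hm : PTU m)
    (hN : PTF (fun p : α × ℕ => N p.1 p.2)) : PTF (fun a => off (N a) (m a)) :=
  PTF.natSum (PTF.map (PTF.range hm) hN)

variable [PTCode δ]

theorem ptf_fam {m : α → ℕ} {N : α → ℕ → ℕ} {g : α → ℕ → ℕ → δ} (hm : PTU m)
    (hN : PTU (fun p : α × ℕ => N p.1 p.2))
    (hg : PTF (fun p : (α × ℕ) × ℕ => g p.1.1 p.1.2 p.2)) :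
    PTF (fun a => fam (m a) (N a) (g a)) := by
  unfold fam
  exact PTF.flatMap (PTF.range hm) (PTF.map (l := fun p : α × ℕ => List.range (N p.1 p.2))
    (f := fun (p : α × ℕ) (j : ℕ) => g p.1 p.2 j) (PTF.range hN) hg)

end sections

/-! ### units -/

section units

/-- `n` units given by type function and neighbour function -/
def mkU (n K : ℕ) (ty : ℕ → ℕ) (nb : ℕ → ℕ → ℕ) : Units :=
  (List.range n).map fun u => (ty u, (List.range K).map (nb u))

@[simp] theorem mkU_length (n K : ℕ) (ty : ℕ → ℕ) (nb : ℕ → ℕ → ℕ) :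
    (mkU n K ty nb).length = n := by simp [mkU]

theorem mkU_getD {n K : ℕ} (ty : ℕ → ℕ) (nb : ℕ → ℕ → ℕ) {u : ℕ} (hu : u < n) :
    (mkU n K ty nb).getD u (0, []) = (ty u, (List.range K).map (nb u)) := by
  rw [mkU, List.getD_eq_getElem _ _ (by simpa using hu)]
  simp

theorem mkU_ty {n K : ℕ} (ty : ℕ → ℕ) (nb : ℕ → ℕ → ℕ) {u : ℕ} (hu : u < n) :
    (mkU n K ty nb).ty u = ty u := by
  rw [Units.ty, mkU_getD ty nb hu]

theorem mkU_nbr {n K : ℕ} (ty : ℕ → ℕ) (nb : ℕ → ℕ → ℕ) {u k : ℕ} (hu : u < n) (hk : k < K) :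
    (mkU n K ty nb).nbr u k = nb u k := by
  rw [Units.nbr, mkU_getD ty nb hu]
  show ((List.range K).map (nb u)).getD k 0 = _
  rw [List.getD_eq_getElem _ _ (by simpa using hk)]
  simp

theorem mkU_WF {S : LSys} {n : ℕ} {ty : ℕ → ℕ} {nb : ℕ → ℕ → ℕ} (hn : 0 < n)
    (hty : ∀ u < n, ty u < S.T) (hnb : ∀ u < n, ∀ k < S.K, nb u k < n) :
    (mkU n S.K ty nb).WF S := by
  refine ⟨fun h => ?_, fun w hw => ?_⟩
  · have := congrArg List.length h
    rw [mkU_length] at this
    simp at this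
    omega
  · rw [mkU, List.mem_map] at hw
    obtain ⟨u, hu, rfl⟩ := hw
    rw [List.mem_range] at hu
    refine ⟨hty u hu, by simp, fun v hv => ?_⟩
    rw [List.mem_map] at hv
    obtain ⟨k, hk, rfl⟩ := hv
    rw [mkU_length]
    exact hnb u hu k (List.mem_range.1 hk)

/-- an expression only sees the neighbours `< K` -/
theorem eval_congr {K L : ℕ} {e : PExp} (he : e.WF K L) {x y : ℕ → ℕ → ℚ}
    (h : ∀ k < K, ∀ l < L, x k l = y k l) : e.eval x = e.eval y := by
  induction e with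
  | var k l => exact h k he.1 l he.2
  | const q => rfl
  | scale q e ih => simp only [PExp.eval]; rw [ih he.2]
  | add a b iha ihb => simp only [PExp.eval]; rw [iha he.1, ihb he.2]
  | sub a b iha ihb => simp only [PExp.eval]; rw [iha he.1, ihb he.2]

theorem mkU_unitOK {S : LSys} (hS : S.WF) {n : ℕ} {ty : ℕ → ℕ} {nb : ℕ → ℕ → ℕ} {η : ℚ}
    {x : ℕ → ℕ → ℚ} {u : ℕ} (hu : u < n) (hty : ty u < S.T) :
    UnitOK S (mkU n S.K ty nb) η x u ↔
      ∀ l < S.L, |x u l - (S.rule (ty u) l).eval (fun k l' => x (nb u k) l')| ≤ η := by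
  unfold UnitOK
  refine forall₂_congr fun l hl => ?_
  rw [mkU_ty ty nb hu, eval_congr (hS.2 _ hty l hl)
    (x := fun k l' => x ((mkU n S.K ty nb).nbr u k) l') (y := fun k l' => x (nb u k) l')
    fun k hk l' _ => by rw [mkU_nbr ty nb hu hk]]

variable {α : Type} [PTCode α]

theorem ptf_mkU {n : α → ℕ} (K : ℕ) {ty : α → ℕ → ℕ} {nb : α → ℕ → ℕ → ℕ} (hn : PTU n)
    (hty : PTF (fun p : α × ℕ => ty p.1 p.2))
    (hnb : PTF (fun p : (α × ℕ) × ℕ => nb p.1.1 p.1.2 p.2)) :
    PTF (fun a => mkU (n a) K (ty a) (nb a)) := by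
  unfold mkU
  refine PTF.map (f := fun (a : α) (u : ℕ) => (ty a u, (List.range K).map (nb a u)))
    (PTF.range hn) ?_
  exact PTF.prodMk hty (PTF.map (l := fun _ : α × ℕ => List.range K)
    (f := fun (p : α × ℕ) (k : ℕ) => nb p.1 p.2 k) (PTF.const _) hnb)

/-- neighbours given one by one (constant number of neighbours) -/
theorem ptf_mkU' {n : α → ℕ} (K : ℕ) {ty : α → ℕ → ℕ} {nb : α → ℕ → ℕ → ℕ} (hn : PTU n)
    (hty : PTF (fun p : α × ℕ => ty p.1 p.2))
    (hnb : ∀ k < K, PTF (fun p : α × ℕ => nb p.1 p.2 k)) :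
    PTF (fun a => mkU (n a) K (ty a) (nb a)) := by
  have h : PTF (fun a => mkU (n a) K (ty a)
      (fun u k => if k < K then nb a u k else 0)) := by
    refine ptf_mkU K hn hty ?_
    refine ptf_upto (α := (α × ℕ) × ℕ) K (fun k p => nb p.1.1 p.1.2 k) (d := fun _ => 0)
      (t := fun p => p.2) (fun k hk => ?_) (PTF.const _) PTF.snd
    exact PTF.comp (g := fun p : α × ℕ => nb p.1 p.2 k) (hnb k hk) PTF.fst
  refine PTF.of_eq h fun a => ?_
  unfold mkU
  refine List.map_congr_left fun u _ => ?_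
  congr 1
  refine List.map_congr_left fun k hk => ?_
  show (if k < K then nb a u k else 0) = _
  rw [if_pos (List.mem_range.1 hk)]

/-! ### units in sections -/

/-- address of a (section, index) pair -/
def adr (N : ℕ → ℕ) (p : ℕ × ℕ) : ℕ := off N p.1 + p.2

/-- units in `m` sections; neighbours are (section, index) pairs -/
def secU (m K : ℕ) (N : ℕ → ℕ) (ty : ℕ → ℕ → ℕ) (nb : ℕ → ℕ → ℕ → ℕ × ℕ) : Units :=
  fam m N fun i j => (ty i j, (List.range K).map fun k => adr N (nb i j k))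

@[simp] theorem secU_length (m K : ℕ) (N : ℕ → ℕ) (ty : ℕ → ℕ → ℕ) (nb : ℕ → ℕ → ℕ → ℕ × ℕ) :
    (secU m K N ty nb).length = off N m := length_fam _ _ _

theorem secU_getD {m K : ℕ} {N : ℕ → ℕ} (ty : ℕ → ℕ → ℕ) (nb : ℕ → ℕ → ℕ → ℕ × ℕ) {i j : ℕ}
    (hi : i < m) (hj : j < N i) : (secU m K N ty nb).getD (off N i + j) (0, []) =
      (ty i j, (List.range K).map fun k => adr N (nb i j k)) :=
  getD_fam _ hi hj _

theorem secU_ty {m K : ℕ} {N : ℕ → ℕ} (ty : ℕ → ℕ → ℕ) (nb : ℕ → ℕ → ℕ → ℕ × ℕ) {i j : ℕ}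
    (hi : i < m) (hj : j < N i) : (secU m K N ty nb).ty (off N i + j) = ty i j := by
  rw [Units.ty, secU_getD ty nb hi hj]

theorem secU_nbr {m K : ℕ} {N : ℕ → ℕ} (ty : ℕ → ℕ → ℕ) (nb : ℕ → ℕ → ℕ → ℕ × ℕ) {i j k : ℕ}
    (hi : i < m) (hj : j < N i) (hk : k < K) :
    (secU m K N ty nb).nbr (off N i + j) k = adr N (nb i j k) := by
  rw [Units.nbr, secU_getD ty nb hi hj]
  show ((List.range K).map fun k => adr N (nb i j k)).getD k 0 = _
  rw [List.getD_eq_getElem _ _ (by simpa using hk)]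
  simp

theorem secU_WF {S : LSys} {m : ℕ} {N : ℕ → ℕ} {ty : ℕ → ℕ → ℕ} {nb : ℕ → ℕ → ℕ → ℕ × ℕ}
    (hn : 0 < off N m) (hty : ∀ i < m, ∀ j < N i, ty i j < S.T)
    (hnb : ∀ i < m, ∀ j < N i, ∀ k < S.K, (nb i j k).1 < m ∧ (nb i j k).2 < N (nb i j k).1) :
    (secU m S.K N ty nb).WF S := by
  refine ⟨fun h => ?_, fun w hw => ?_⟩
  · have := congrArg List.length h
    rw [secU_length] at this
    simp at this
    omega
  · obtain ⟨i, hi, j, hj, rfl⟩ := mem_fam.1 hw
    refine ⟨hty i hi j hj, by simp, fun v hv => ?_⟩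
    rw [List.mem_map] at hv
    obtain ⟨k, hk, rfl⟩ := hv
    obtain ⟨h1, h2⟩ := hnb i hi j hj k (List.mem_range.1 hk)
    rw [secU_length]
    exact off_add_lt h1 h2

/-- unit `(i, j)` obeys its rules, in terms of the sectioned assignment `y i j l` -/
def SecOK (S : LSys) (N : ℕ → ℕ) (ty : ℕ → ℕ → ℕ) (nb : ℕ → ℕ → ℕ → ℕ × ℕ) (η : ℚ)
    (y : ℕ → ℕ → ℕ → ℚ) (i j : ℕ) : Prop :=
  ∀ l < S.L, |y i j l - (S.rule (ty i j) l).eval
    (fun k l' => y (nb i j k).1 (nb i j k).2 l')| ≤ η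

theorem secU_unitOK {S : LSys} (hS : S.WF) {m : ℕ} {N : ℕ → ℕ} {ty : ℕ → ℕ → ℕ}
    {nb : ℕ → ℕ → ℕ → ℕ × ℕ} {η : ℚ} {x : ℕ → ℕ → ℚ} {i j : ℕ} (hi : i < m) (hj : j < N i)
    (hty : ty i j < S.T) :
    UnitOK S (secU m S.K N ty nb) η x (off N i + j) ↔
      SecOK S N ty nb η (fun i j l => x (off N i + j) l) i j := by
  unfold UnitOK SecOK
  refine forall₂_congr fun l hl => ?_
  rw [secU_ty ty nb hi hj, eval_congr (hS.2 _ hty l hl)
    (x := fun k l' => x ((secU m S.K N ty nb).nbr (off N i + j) k) l')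
    (y := fun k l' => x (off N (nb i j k).1 + (nb i j k).2) l')
    fun k hk l' _ => by rw [secU_nbr ty nb hi hj hk]; rfl]

/-- an approximate rest state of a sectioned system: values in `[0,1]`, and the number of units
`(i, j)` breaking a rule is at most `β` times the number of all units -/
theorem rest_secU {S : LSys} (hS : S.WF) {m : ℕ} {N : ℕ → ℕ} {ty : ℕ → ℕ → ℕ}
    {nb : ℕ → ℕ → ℕ → ℕ × ℕ} {η β : ℚ} {x : ℕ → ℕ → ℚ}
    (hty : ∀ i < m, ∀ j < N i, ty i j < S.T) (h : Rest S (secU m S.K N ty nb) η β x) :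
    (∀ i j l, 0 ≤ x (off N i + j) l ∧ x (off N i + j) l ≤ 1) ∧
      ∃ B : Finset (ℕ × ℕ), (B.card : ℚ) ≤ β * off N m ∧
        ∀ i < m, ∀ j < N i, (i, j) ∉ B →
          SecOK S N ty nb η (fun i j l => x (off N i + j) l) i j := by
  classical
  obtain ⟨h01, B, hB, hok⟩ := h
  refine ⟨fun i j l => h01 _ _, ?_⟩
  let P : Finset (ℕ × ℕ) := (Finset.range m).sigma (fun i => Finset.range (N i)) |>.image
    (fun s => (s.1, s.2))
  have memP : ∀ i j, (i, j) ∈ P ↔ i < m ∧ j < N i := by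
    intro i j
    simp only [P, Finset.mem_image, Finset.mem_sigma, Finset.mem_range, Prod.mk.injEq,
      Sigma.exists]
    constructor
    · rintro ⟨a, b, ⟨h1, h2⟩, rfl, rfl⟩
      exact ⟨h1, h2⟩
    · rintro ⟨h1, h2⟩
      exact ⟨i, j, ⟨h1, h2⟩, rfl, rfl⟩
  refine ⟨P.filter fun p => adr N p ∈ B, ?_, ?_⟩
  · rw [secU_length] at hB
    refine le_trans ?_ hB
    have : (P.filter fun p => adr N p ∈ B).card ≤ B.card := by
      refine Finset.card_le_card_of_injOn (adr N) (fun p hp => ?_) ?_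
      · exact (Finset.mem_filter.1 hp).2
      · rintro ⟨i, j⟩ hp ⟨i', j'⟩ hp' e
        have h1 := (memP i j).1 (Finset.mem_filter.1 (Finset.mem_coe.1 hp)).1
        have h2 := (memP i' j').1 (Finset.mem_filter.1 (Finset.mem_coe.1 hp')).1
        obtain ⟨e1, e2⟩ := off_inj h1.2 h2.2 e
        rw [e1, e2]
    exact_mod_cast this
  · intro i hi j hj hn
    have hB' : off N i + j ∉ B := fun hb =>
      hn (Finset.mem_filter.2 ⟨(memP i j).2 ⟨hi, hj⟩, hb⟩)
    exact (secU_unitOK hS hi hj (hty i hi j hj)).1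
      (hok _ (by rw [secU_length]; exact off_add_lt hi hj) hB')

/-- conversely -/
theorem rest_secU_of {S : LSys} (hS : S.WF) {m : ℕ} {N : ℕ → ℕ} {ty : ℕ → ℕ → ℕ}
    {nb : ℕ → ℕ → ℕ → ℕ × ℕ} {η β : ℚ} {x : ℕ → ℕ → ℚ}
    (hty : ∀ i < m, ∀ j < N i, ty i j < S.T) (h01 : ∀ u l, 0 ≤ x u l ∧ x u l ≤ 1)
    (B : Finset (ℕ × ℕ)) (hB : (B.card : ℚ) ≤ β * off N m)
    (h : ∀ i < m, ∀ j < N i, (i, j) ∉ B →
      SecOK S N ty nb η (fun i j l => x (off N i + j) l) i j) :
    Rest S (secU m S.K N ty nb) η β x := by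
  classical
  refine ⟨h01, B.image (adr N), ?_, fun u hu hn => ?_⟩
  · rw [secU_length]
    refine le_trans ?_ hB
    exact_mod_cast Finset.card_image_le
  · rw [secU_length] at hu
    obtain ⟨i, hi, j, hj, rfl⟩ := exists_off hu
    refine (secU_unitOK hS hi hj (hty i hi j hj)).2 (h i hi j hj fun hb => hn ?_)
    exact Finset.mem_image.2 ⟨(i, j), hb, rfl⟩

theorem ptf_adr {N : α → ℕ → ℕ} {m : α → ℕ} {p : α → ℕ × ℕ} (hm : PTU m)
    (hN : PTF (fun q : α × ℕ => N q.1 q.2)) (hp : PTF p) :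
    PTF (fun a => off (N a) (min (p a).1 (m a)) + (p a).2) := by
  refine PTF.natAdd ?_ (PTF.comp (g := fun q : ℕ × ℕ => q.2) PTF.snd hp)
  exact ptf_off (m := fun a => min (p a).1 (m a))
    (ptu_min (PTF.comp (g := fun q : ℕ × ℕ => q.1) PTF.fst hp) hm) hN

/-- the sectioned assembly is poly-time (all neighbour sections must be `≤ m`) -/
theorem ptf_secU {m : α → ℕ} (K : ℕ) {N : α → ℕ → ℕ} {ty : α → ℕ → ℕ → ℕ}
    {nb : α → ℕ → ℕ → ℕ → ℕ × ℕ} (hm : PTU m)
    (hN : PTU (fun p : α × ℕ => N p.1 p.2))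
    (hty : PTF (fun p : (α × ℕ) × ℕ => ty p.1.1 p.1.2 p.2))
    (hnb : PTF (fun p : ((α × ℕ) × ℕ) × ℕ => nb p.1.1.1 p.1.1.2 p.1.2 p.2))
    (hle : ∀ a, ∀ i < m a, ∀ j < N a i, ∀ k < K, (nb a i j k).1 ≤ m a) :
    PTF (fun a => secU (m a) K (N a) (ty a) (nb a)) := by
  have hN' : PTF (fun q : α × ℕ => N q.1 q.2) := PTU.toPTF hN
  have h1 : PTF (fun p : ((α × ℕ) × ℕ) × ℕ =>
      off (N p.1.1.1) (min (nb p.1.1.1 p.1.1.2 p.1.2 p.2).1 (m p.1.1.1)) +
        (nb p.1.1.1 p.1.1.2 p.1.2 p.2).2) := by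
    refine ptf_adr (α := ((α × ℕ) × ℕ) × ℕ) (N := fun p => N p.1.1.1)
      (m := fun p => m p.1.1.1) (p := fun p => nb p.1.1.1 p.1.1.2 p.1.2 p.2) ?_ ?_ hnb
    · exact PTU.comp hm (by fun_prop)
    · exact PTF.comp (g := fun q : α × ℕ => N q.1 q.2)
        (f := fun p : (((α × ℕ) × ℕ) × ℕ) × ℕ => (p.1.1.1.1, p.2)) hN' (by fun_prop)
  have h2 : PTF (fun a => fam (m a) (N a) fun i j => (ty a i j, (List.range K).map fun k =>
      off (N a) (min (nb a i j k).1 (m a)) + (nb a i j k).2)) := by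
    refine ptf_fam hm hN ?_
    exact PTF.prodMk hty (PTF.map (l := fun _ : (α × ℕ) × ℕ => List.range K)
      (f := fun (p : (α × ℕ) × ℕ) (k : ℕ) =>
        off (N p.1.1) (min (nb p.1.1 p.1.2 p.2 k).1 (m p.1.1)) + (nb p.1.1 p.1.2 p.2 k).2)
      (PTF.const _) h1)
  refine PTF.of_eq h2 fun a => ?_
  unfold secU fam
  refine List.flatMap_congr fun i hi => ?_
  refine List.map_congr_left fun j hj => ?_
  refine Prod.ext rfl ?_
  refine List.map_congr_left fun k hk => ?_
  rw [List.mem_range] at hi hj hk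
  rw [adr, min_eq_left (hle a i hi j hj k hk)]

end units

/-! ### reading the rounded values -/

section read

/-- entry `(u, l)` of a table of bits -/
def tbit (T : List (List Bool)) (u l : ℕ) : Bool := (T.getD u []).getD l false

theorem tbit_bitsOf {L n : ℕ} (x : ℕ → ℕ → ℚ) {u l : ℕ} (hu : u < n) (hl : l < L) :
    tbit (bitsOf L n x) u l = decide (1 / 2 ≤ x u l) := by
  unfold tbit bitsOf
  rw [getD_map_range, if_pos hu, getD_map_range, if_pos hl]

variable {α : Type} [PTCode α]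

theorem ptf_tbit {T : α → List (List Bool)} {u l : α → ℕ} (hT : PTF T) (hu : PTF u)
    (hl : PTF l) : PTF (fun a => tbit (T a) (u a) (l a)) :=
  ptf_getB (ptf_getB hT hu (PTF.const _)) hl (PTF.const _)

end read

end Crest.Agent.R289.Tab858
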