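import Crest.Agent.R289.DefD_721
import Crest.Agent.R289.DefE_217
import Crest.Agent.R289.Tab_858
import Crest.Agent.R289.Dec_589
import Crest.Agent.R289.Sampler2_56
import Crest.Agent.R289.Macro_250

/-!
# Row 289, block D, leaf D4: from the macro theorem and a family of unit-level machines to `Machine289`

* `D2Stm`: the interface to leaf D2 (compilation of local rules to a table `LSys`).
* `Family`: what blocks A-C deliver for every bound `n0`.
* `machine289_of`: `D2Stm` and a family give `Machine289` (with `D1_holds` of `Macro_250`).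
-/

set_option autoImplicit false

namespace Crest.Agent.R289.GlueD194

open Crest.PPADPCP Crest.Agent.Lib.PT Crest.Agent.R289 Crest.Agent.R289.DefD
open Crest.Agent.R289.Tab858 Crest.Agent.R289.Dec589 Crest.Agent.R289.Sampler56

/-- cut a map on `ℕ` to `Fin n` -/
def toF (n : ℕ) (g : ℕ → ℕ) (u : Fin n) : Fin n := if h : g u < n then ⟨g u, h⟩ else u

theorem toF_congr {n : ℕ} {g g' : ℕ → ℕ} (h : ∀ u < n, g u = g' u) : toF n g = toF n g' := by
  funext u
  simp only [toF, h u u.2]

/-- parameters of the embedding with rational thresholds -/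
noncomputable def parQ (t z e δ κ : ℚ) : MPar := ⟨t, z, e, δ, κ⟩

/-- neighbour maps, public bits, start word ↦ the unit-level machine (e.g. `LRules.data R`) -/
abbrev Mk (k l r : ℕ) : Type :=
  ∀ n : ℕ, (Fin k → Fin n → Fin n) → (Fin n → Fin r → Bool) → Set (Fin n → Fin l → Bool) →
    (Fin n → Fin l → Bool) → ((Fin n → Fin l → Bool) → (Fin n → Fin l → Bool)) →
    ((Fin n → Fin l → Bool) → (Fin n → Fin l → Bool)) → MData (Fin n) (Fin l → Bool)

/-- **Leaf D2 (statement)**.  Neighbours of a unit: `0` = the unit itself, `1 .. k` = neighbours of the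
local rules, `k + 1 .. k + d` = samples.  Variables: `0 .. l-1` = label `A`, `l .. 2l-1` = label `B`, then
whatever D2 wants.  Type of a unit: bits `0 .. r-1` = public bits, `r .. r+l-1` = start label. -/
def D2Stm (k l r : ℕ) (mk : Mk k l r) : Prop :=
  ∀ t z e δ κ : ℚ, 0 < t → t ≤ 1 → 0 < z → z ≤ 1 → 0 < e → e ≤ 1 / 100 → 0 < δ → δ ≤ e →
    0 < κ → κ ≤ 1 / 10 →
    ∃ e1 g1 : ℝ, 0 < e1 ∧ 0 < g1 ∧ ∀ d : ℕ, 0 < d →
      ∃ (S : LSys) (η β : ℚ), S.WF ∧ S.T = 2 ^ (r + l) ∧ S.K = k + d + 1 ∧ 2 * l ≤ S.L ∧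
        0 < η ∧ 0 < β ∧
        ∀ (n : ℕ) (U : Units), U.WF S → U.length = n → (∀ u < n, U.nbr u 0 = u) →
          Sampler d (fun j : Fin d => toF n fun u => U.nbr u (k + 1 + j)) e1 g1 →
          ∀ (W : Set (Fin n → Fin l → Bool)) (N M : (Fin n → Fin l → Bool) → (Fin n → Fin l → Bool))
            (x : ℕ → ℕ → ℚ), Rest S U η β x →
            ∃ Rst : MRest (mk n (fun i : Fin k => toF n fun u => U.nbr u (i + 1))
                (fun u i => (U.ty u).testBit i) W (fun u j => (U.ty u).testBit (r + j)) N M)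
                (parQ t z e δ κ),
              (∀ u g, Rst.As u = some g → ∀ j : Fin l, g j = decide (1 / 2 ≤ x u j)) ∧
              (∀ u g, Rst.Bs u = some g → ∀ j : Fin l, g j = decide (1 / 2 ≤ x u (l + j)))


/-! ### numbers from bits -/

/-- the number with bits `f 0, …, f (m-1)` -/
def encN : ℕ → (ℕ → Bool) → ℕ
  | 0, _ => 0
  | m + 1, f => 2 ^ m * (f m).toNat + encN m f

theorem encN_lt (m : ℕ) (f : ℕ → Bool) : encN m f < 2 ^ m := by
  induction m with
  | zero => simp [encN]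
  | succ m ih =>
    have h : (f m).toNat ≤ 1 := Bool.toNat_le _
    have : 2 ^ m * (f m).toNat ≤ 2 ^ m * 1 := Nat.mul_le_mul_left _ h
    rw [encN, pow_succ]
    omega

theorem testBit_encN {m i : ℕ} (f : ℕ → Bool) (hi : i < m) : (encN m f).testBit i = f i := by
  induction m with
  | zero => omega
  | succ m ih =>
    rw [encN, Nat.testBit_two_pow_mul_add _ (encN_lt m f)]
    split_ifs with h
    · exact ih h
    · obtain rfl : i = m := by omega
      cases f i <;> simp

section ptf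
variable {α : Type} [PTCode α]

theorem ptf_encN (m : ℕ) {f : α → ℕ → Bool} (hf : ∀ i < m, PTF (fun a => f a i)) :
    PTF (fun a => encN m (f a)) := by
  induction m with
  | zero => exact PTF.const 0
  | succ m ih =>
    refine PTF.natAdd (PTF.natMul (PTF.const (2 ^ m)) ?_) (ih fun i hi => hf i (by omega))
    exact PTF.comp (g := Bool.toNat) (PTF.of_finite _) (hf m (by omega))

end ptf

/-! ### the list of units -/

/-- neighbours: the unit, the `k` neighbours of the rules, the samples -/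
def nbrD (k n t : ℕ) (nb : ℕ → ℕ → ℕ) (u i : ℕ) : ℕ :=
  if i = 0 then u else if i < k + 1 then nb u (i - 1) else samp2 n t (i - (k + 1)) u

/-- type number of a unit -/
def tyD (r l : ℕ) (pb wb : List Bool) : ℕ :=
  encN (r + l) fun i => if i < r then pb.getD i false else wb.getD (i - r) false

/-- the units -/
def unitsD (k r l t n : ℕ) (nb : ℕ → ℕ → ℕ) (pb wb : ℕ → List Bool) : Units :=
  mkU n (k + 16 ^ t + 1) (fun u => tyD r l (pb u) (wb u)) (nbrD k n t nb)

theorem ptf_tyD {α : Type} [PTCode α] (r l : ℕ) {pb wb : α → List Bool} (hp : PTF pb)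
    (hw : PTF wb) : PTF (fun a => tyD r l (pb a) (wb a)) := by
  refine ptf_encN (r + l) (f := fun a i => if i < r then (pb a).getD i false
    else (wb a).getD (i - r) false) fun i _ => ?_
  by_cases h : i < r
  · simp only [h, if_true]
    exact PTF.getD (PTU.const i) hp (PTF.const false)
  · simp only [h, if_false]
    exact PTF.getD (PTU.const (i - r)) hw (PTF.const false)

theorem ptf_unitsD {α : Type} [PTCode α] (k r l t : ℕ) {n : α → ℕ} {nb : α → ℕ → ℕ → ℕ}
    {pb wb : α → ℕ → List Bool} (hn : PTU n) (hnb : ∀ i < k, PTF (fun p : α × ℕ => nb p.1 p.2 i))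
    (hp : PTF (fun p : α × ℕ => pb p.1 p.2)) (hw : PTF (fun p : α × ℕ => wb p.1 p.2)) :
    PTF (fun a => unitsD k r l t (n a) (nb a) (pb a) (wb a)) := by
  unfold unitsD
  refine ptf_mkU' (α := α) (k + 16 ^ t + 1) (ty := fun a u => tyD r l (pb a u) (wb a u))
    (nb := fun a => nbrD k (n a) t (nb a)) hn (ptf_tyD r l hp hw) fun i _ => ?_
  unfold nbrD
  by_cases h0 : i = 0
  · simp only [h0, if_true]
    exact PTF.snd
  · by_cases h1 : i < k + 1
    · simp only [h0, h1, if_true, if_false]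
      exact hnb (i - 1) (by omega)
    · simp only [h0, h1, if_false]
      exact ptf_samp2 t (PTU.toPTF (PTU.comp hn PTF.fst)) (PTF.const _) PTF.snd

/-! ### columns of the table of bits -/

/-- the label table of the array `A` -/
def colA (l : ℕ) (T : List (List Bool)) : List (List Bool) := T.map fun row => row.take l

/-- the label table of the array `B` -/
def colB (l : ℕ) (T : List (List Bool)) : List (List Bool) := T.map fun row => (row.drop l).take l

theorem ptf_colA (l : ℕ) : PTF (colA l) :=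
  PTF.map (l := fun T : List (List Bool) => T) (f := fun _ row => row.take l) PTF.id
    (PTF.take (PTU.const l) PTF.snd)

theorem ptf_colB (l : ℕ) : PTF (colB l) :=
  PTF.map (l := fun T : List (List Bool) => T) (f := fun _ row => (row.drop l).take l) PTF.id
    (PTF.take (PTU.const l) (PTF.drop (PTU.const l) PTF.snd))

/-- table of an array of labels -/
def tabOf {n l : ℕ} (X : Fin n → Fin l → Bool) : List (List Bool) :=
  List.ofFn fun u => List.ofFn (X u)

theorem colA_bitsOf {L l n : ℕ} (hL : 2 * l ≤ L) (x : ℕ → ℕ → ℚ) :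
    colA l (bitsOf L n x) = tabOf (fun (u : Fin n) (j : Fin l) => decide (1 / 2 ≤ x u j)) := by
  unfold colA bitsOf tabOf
  rw [List.map_map]
  apply List.ext_getElem
  · simp
  · intro i h1 h2
    simp only [List.getElem_map, List.getElem_range, List.getElem_ofFn, Function.comp]
    apply List.ext_getElem
    · simp; omega
    · intro j h3 h4
      simp

theorem colB_bitsOf {L l n : ℕ} (hL : 2 * l ≤ L) (x : ℕ → ℕ → ℚ) :
    colB l (bitsOf L n x) = tabOf (fun (u : Fin n) (j : Fin l) => decide (1 / 2 ≤ x u (l + j))) := by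
  unfold colB bitsOf tabOf
  rw [List.map_map]
  apply List.ext_getElem
  · simp
  · intro i h1 h2
    simp only [List.getElem_map, List.getElem_range, List.getElem_ofFn, Function.comp]
    apply List.ext_getElem
    · simp; omega
    · intro j h3 h4
      simp

/-! ### the family of machines -/

/-- What blocks A-C deliver for the bound `n0`: number of units, neighbours, public bits, start
labels and candidate decoders, all poly-time; for every well formed instance a machine with the axioms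
of `MData.Ax` (constants `kc`) and correct decoding near blocked legal words. -/
structure Fam (k l r : ℕ) (mk : Mk k l r) (kc : MConst) (n0 : ℕ) where
  A : ℕ
  b : ℕ
  n : EI → ℕ
  nb : EI → ℕ → ℕ → ℕ
  pb : EI → ℕ → List Bool
  wb : EI → ℕ → List Bool
  cA : EI × List (List Bool) → List (List Bool)
  cB : EI × List (List Bool) → List (List Bool)
  ptu_n : PTU n
  ptf_nb : ∀ i < k, PTF (fun p : EI × ℕ => nb p.1 p.2 i)
  ptf_pb : PTF (fun p : EI × ℕ => pb p.1 p.2)
  ptf_wb : PTF (fun p : EI × ℕ => wb p.1 p.2)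
  ptf_cA : PTF cA
  ptf_cB : PTF cB
  n_ge : ∀ I : EOL, I.WF → n0 ≤ n (raw I) ∧ 0 < n (raw I)
  nb_lt : ∀ I : EOL, I.WF → ∀ u < n (raw I), ∀ i < k, nb (raw I) u i < n (raw I)
  n_le : ∀ I : EOL, I.WF →
    n (raw I) ≤ A * I.encode.length * (Nat.clog 2 (I.encode.length + 2)) ^ b
  mach : ∀ I : EOL, I.WF → ∃ (W : Set (Fin (n (raw I)) → Fin l → Bool))
    (N M : (Fin (n (raw I)) → Fin l → Bool) → (Fin (n (raw I)) → Fin l → Bool))
    (D : MData (Fin (n (raw I))) (Fin l → Bool)),
    D = mk (n (raw I)) (fun i => toF (n (raw I)) fun u => nb (raw I) u i)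
      (fun u i => (pb (raw I) u).getD i false) W (fun u j => (wb (raw I) u).getD j false) N M ∧
    D.Ax kc ∧
    (∀ w ∈ D.W, D.N w = w → ∀ X : Fin (n (raw I)) → Fin l → Bool, distW X w ≤ kc.r0 →
      ∃ v, I.IsSolution v ∧ List.ofFn v ∈ cA (raw I, tabOf X)) ∧
    (∀ w ∈ D.W, w ≠ D.w0 → D.M w = w → ∀ X : Fin (n (raw I)) → Fin l → Bool, distW X w ≤ kc.r0 →
      ∃ v, I.IsSolution v ∧ List.ofFn v ∈ cB (raw I, tabOf X))

/-! ### the constants -/

theorem exists_par (kc : MConst) (h1 : 5 * kc.γ < kc.r0) (h2 : 5 * kc.γ < kc.d0)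
    (h3 : kc.d0 ≤ 1) :
    ∃ t z e δ κ : ℚ, 0 < t ∧ t ≤ 1 ∧ 0 < z ∧ z ≤ 1 ∧ 0 < e ∧ e ≤ 1 / 100 ∧
      0 < δ ∧ δ ≤ e ∧ 0 < κ ∧ κ ≤ 1 / 10 ∧ (parQ t z e δ κ).OK kc := by
  have hc := kc.c_ge
  have hγ := kc.γ_nn
  have hc0 : 0 < kc.c := by linarith
  set a : ℝ := min kc.r0 kc.d0 - 5 * kc.γ with ha
  have ha0 : 0 < a := by
    rw [ha]
    have : 5 * kc.γ < min kc.r0 kc.d0 := lt_min h1 h2
    linarith
  set b : ℝ := min kc.zs (kc.r0 / kc.c) with hb
  have hb0 : 0 < b := lt_min kc.zs_pos (div_pos kc.r0_pos hc0)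
  have hE : 0 < min (1 / 100 : ℝ) (min (a / (12 * kc.c + 20)) (min (b / (2 * kc.c + 5))
      ((1 / 2) / (2 * kc.c + 5)))) := by
    refine lt_min (by norm_num) (lt_min (div_pos ha0 (by linarith)) (lt_min
      (div_pos hb0 (by linarith)) (div_pos (by norm_num) (by linarith))))
  obtain ⟨e, he0, he1⟩ := exists_rat_btwn hE
  have he1a : (e : ℝ) < 1 / 100 := lt_of_lt_of_le he1 (min_le_left _ _)
  have he1b : (e : ℝ) < a / (12 * kc.c + 20) :=
    lt_of_lt_of_le he1 (le_trans (min_le_right _ _) (min_le_left _ _))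
  have he1c : (e : ℝ) < b / (2 * kc.c + 5) := lt_of_lt_of_le he1
    (le_trans (min_le_right _ _) (le_trans (min_le_right _ _) (min_le_left _ _)))
  have he1d : (e : ℝ) < (1 / 2) / (2 * kc.c + 5) := lt_of_lt_of_le he1
    (le_trans (min_le_right _ _) (le_trans (min_le_right _ _) (min_le_right _ _)))
  rw [lt_div_iff₀ (by linarith)] at he1b he1c he1d
  have hce : 0 < kc.c * e := mul_pos hc0 he0
  -- t
  have ht : 3 * kc.γ + (8 * kc.c + 11) * e < min kc.r0 kc.d0 - 2 * kc.γ - (4 * kc.c + 8) * e := by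
    nlinarith
  obtain ⟨t, ht1, ht2⟩ := exists_rat_btwn ht
  have hz : 2 * kc.c * e + 2 * e < min (b - 2 * e) 1 := by
    refine lt_min ?_ ?_ <;> nlinarith
  obtain ⟨z, hz1, hz2⟩ := exists_rat_btwn hz
  have hz3 : (z : ℝ) < b - 2 * e := lt_of_lt_of_le hz2 (min_le_left _ _)
  have hz4 : (z : ℝ) < 1 := lt_of_lt_of_le hz2 (min_le_right _ _)
  have hm1 : min kc.r0 kc.d0 ≤ kc.r0 := min_le_left _ _
  have hm2 : min kc.r0 kc.d0 ≤ kc.d0 := min_le_right _ _
  have hb1 : b ≤ kc.zs := min_le_left _ _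
  have hb2 : b ≤ kc.r0 / kc.c := min_le_right _ _
  have hb3 : kc.c * b ≤ kc.r0 := by
    calc kc.c * b ≤ kc.c * (kc.r0 / kc.c) := mul_le_mul_of_nonneg_left hb2 hc0.le
      _ = kc.r0 := by field_simp
  have e1 : (8 * kc.c + 11) * (e : ℝ) = 8 * (kc.c * e) + 11 * e := by ring
  have e2 : (4 * kc.c + 8) * (e : ℝ) = 4 * (kc.c * e) + 8 * e := by ring
  have e3 : 2 * kc.c * (e : ℝ) = 2 * (kc.c * e) := by ring
  have e4 : 4 * (kc.c + 1) * (e : ℝ) = 4 * (kc.c * e) + 4 * e := by ring
  have e5 : 8 * (kc.c + 1) * (e : ℝ) = 8 * (kc.c * e) + 8 * e := by ring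
  rw [e1] at ht1
  rw [e2] at ht2
  rw [e3] at hz1
  have ht0 : (0 : ℝ) < t := by linarith
  have hz0 : (0 : ℝ) < z := by linarith
  refine ⟨t, z, e, e, 1 / 10, by exact_mod_cast ht0, ?_, by exact_mod_cast hz0,
    by exact_mod_cast hz4.le, by exact_mod_cast he0, ?_, by exact_mod_cast he0, le_refl _,
    by norm_num, le_refl _, ?_⟩
  · have : (t : ℝ) ≤ 1 := by linarith
    exact_mod_cast this
  · have h : (e : ℝ) ≤ ((1 / 100 : ℚ) : ℝ) := by push_cast; linarith
    exact_mod_cast h
  · constructor <;> simp only [parQ] <;> push_cast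
    · exact he0
    · linarith
    · exact he0.le
    · exact le_refl _
    · linarith
    · exact ht0
    · rw [e4]; linarith
    · rw [e4]; linarith
    · rw [e5]; linarith
    · linarith
    · exact le_trans (mul_le_mul_of_nonneg_left (by linarith) hc0.le) hb3
    · rw [e3]; linarith

/-! ### assembly -/

theorem distW_le_dist {U Γ : Type} [Fintype U] [Nonempty U] {X : U → Option Γ} {Y w : U → Γ}
    (h : ∀ u g, X u = some g → Y u = g) : distW Y w ≤ DefD.dist X w := by
  classical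
  unfold distW DefD.dist frac
  apply div_le_div_of_nonneg_right _ (by positivity)
  exact_mod_cast Finset.card_le_card (fun u hu => by
    simp only [Finset.mem_filter, Finset.mem_univ, true_and] at hu ⊢
    intro hc
    exact hu (h u _ hc))

theorem machine289_of {k l r : ℕ} {mk : Mk k l r} (kc : MConst) (h1 : 5 * kc.γ < kc.r0)
    (h2 : 5 * kc.γ < kc.d0) (h3 : kc.d0 ≤ 1)
    (hD2 : D2Stm k l r mk) (H : ∀ n0 : ℕ, Nonempty (Fam k l r mk kc n0)) : Machine289 := by
  have hD1 : D1 := Macro250.D1_holds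
  obtain ⟨t, z, e, δ, κ, ht0, ht1, hz0, hz1, he0, he1, hδ0, hδ1, hκ0, hκ1, hOK⟩ :=
    exists_par kc h1 h2 h3
  obtain ⟨e1, g1, he1', hg1', hS⟩ := hD2 t z e δ κ ht0 ht1 hz0 hz1 he0 he1 hδ0 hδ1 hκ0 hκ1
  obtain ⟨tt, n0, hsamp⟩ := D3 he1' hg1'
  obtain ⟨S, η, β, hWF, hT, hK, hL, hη, hβ, hmain⟩ := hS (16 ^ tt) (by positivity)
  obtain ⟨F⟩ := H n0
  have hK' : k + 16 ^ tt + 1 = S.K := hK.symm
  refine ⟨S, η, β, F.A, F.b,
    fun a => unitsD k r l tt (F.n a) (F.nb a) (F.pb a) (F.wb a),
    decG fun p => F.cA (p.1, colA l p.2) ++ F.cB (p.1, colB l p.2), hWF, hη, hβ,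
    ptf_unitsD k r l tt F.ptu_n F.ptf_nb F.ptf_pb F.ptf_wb, ?_, ?_⟩
  · refine ptf_decG (PTF.append ?_ ?_)
    · exact PTF.comp (g := F.cA) (f := fun p : EI × List (List Bool) => (p.1, colA l p.2)) F.ptf_cA
        (PTF.prodMk PTF.fst (PTF.comp (ptf_colA l) PTF.snd))
    · exact PTF.comp (g := F.cB) (f := fun p : EI × List (List Bool) => (p.1, colB l p.2)) F.ptf_cB
        (PTF.prodMk PTF.fst (PTF.comp (ptf_colB l) PTF.snd))
  intro I hI
  obtain ⟨hn0, hn⟩ := F.n_ge I hI
  obtain ⟨W, N, M, D, hD, hAx, hdA, hdB⟩ := F.mach I hI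
  have h16 : 0 < 16 ^ tt := by positivity
  have hnblt := F.nb_lt I hI
  have hnle := F.n_le I hI
  dsimp only
  generalize hnn : F.n (raw I) = n at *
  set U : Units := unitsD k r l tt n (F.nb (raw I)) (F.pb (raw I)) (F.wb (raw I)) with hU
  have hlen : U.length = n := by rw [hU, unitsD, mkU_length]
  have hUWF : U.WF S := by
    rw [hU, unitsD, hK']
    refine mkU_WF hn (fun u hu => ?_) fun u hu i hi => ?_
    · rw [hT]
      exact encN_lt _ _
    · unfold nbrD
      split_ifs with hi0 hi1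
      · exact hu
      · exact hnblt u hu _ (by omega)
      · exact samp2_lt hn _ _ _
  refine ⟨hUWF, by rw [hlen]; exact hnle, fun x hx => ?_⟩
  rw [hlen]
  have hnbr : ∀ u < n, ∀ i < k + 16 ^ tt + 1, U.nbr u i = nbrD k n tt (F.nb (raw I)) u i := by
    intro u hu i hi
    rw [hU, unitsD, mkU_nbr _ _ hu hi]
  have hself : ∀ u < n, U.nbr u 0 = u := fun u hu => by
    rw [hnbr u hu 0 (by positivity)]
    simp [nbrD]
  have hty : ∀ u < n, U.ty u = tyD r l (F.pb (raw I) u) (F.wb (raw I) u) := by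
    intro u hu
    rw [hU, unitsD, mkU_ty _ _ hu]
  have hsampler : Sampler (16 ^ tt) (fun j : Fin (16 ^ tt) => toF n fun u => U.nbr u (k + 1 + j))
      e1 g1 := by
    have := hsamp tt le_rfl n hn0 hn
    convert this using 1
    funext j u
    have hj := j.2
    have h1 : U.nbr u (k + 1 + j) = samp2 n tt j u := by
      rw [hnbr u u.2 _ (by omega)]
      unfold nbrD
      rw [if_neg (by omega), if_neg (by omega)]
      congr 1
      omega
    simp only [toF, h1, nbF, samp2_lt hn, dite_true]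
  obtain ⟨Rst, hRA, hRB⟩ := hmain n U hUWF hlen hself hsampler W N M x hx
  have e2 : (fun i : Fin k => toF n fun u => U.nbr u (i + 1)) =
      fun i : Fin k => toF n fun u => F.nb (raw I) u i := by
    funext i
    have hi := i.2
    refine toF_congr fun u hu => ?_
    rw [hnbr u hu _ (by omega)]
    unfold nbrD
    rw [if_neg (by omega), if_pos (by omega), Nat.add_sub_cancel]
  have e3 : (fun (u : Fin n) (i : Fin r) => (U.ty u).testBit i) =
      fun (u : Fin n) (i : Fin r) => (F.pb (raw I) u).getD i false := by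
    funext u i
    have hi := i.2
    rw [hty u u.2, tyD, testBit_encN _ (by omega), if_pos hi]
  have e4 : (fun (u : Fin n) (j : Fin l) => (U.ty u).testBit (r + j)) =
      fun (u : Fin n) (j : Fin l) => (F.wb (raw I) u).getD j false := by
    funext u j
    have hj := j.2
    rw [hty u u.2, tyD, testBit_encN _ (by omega), if_neg (by omega), Nat.add_sub_cancel_left]
  have key : ∃ Rst : MRest D (parQ t z e δ κ),
      (∀ u g, Rst.As u = some g → ∀ j : Fin l, g j = decide (1 / 2 ≤ x u j)) ∧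
      (∀ u g, Rst.Bs u = some g → ∀ j : Fin l, g j = decide (1 / 2 ≤ x u (l + j))) := by
    rw [hD]
    rw [← e2, ← e3, ← e4]
    exact ⟨Rst, hRA, hRB⟩
  clear hRA hRB Rst
  obtain ⟨Rst, hRA, hRB⟩ := key
  have : Nonempty (Fin n) := ⟨⟨0, hn⟩⟩
  have h2δ : 2 * (δ : ℝ) ≤ kc.r0 := by
    have := hOK.t_r0
    have h4 := hOK.t_pos
    have h5 := hOK.e_pos
    have h6 := hOK.δ_nn
    have h7 := kc.c_ge
    have h8 := kc.γ_nn
    simp only [parQ] at this h4 h5 h6
    nlinarith
  apply decG_spec I hI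
  rcases hD1 (Fin n) (Fin l → Bool) D kc _ hAx hOK Rst with ⟨_, w, hw, hNw, hd⟩ | ⟨_, w, hw, hw0, hMw, hd⟩
  · obtain ⟨v, hv, hm⟩ := hdA w hw hNw (fun u j => decide (1 / 2 ≤ x u j))
      (le_trans (le_trans (distW_le_dist fun u g hg => by
        funext j
        exact (hRA u g hg j).symm) hd) h2δ)
    refine ⟨v, hv, ?_⟩
    rw [List.mem_append]
    left
    simp only
    rw [colA_bitsOf hL]
    exact hm
  · obtain ⟨v, hv, hm⟩ := hdB w hw hw0 hMw (fun u j => decide (1 / 2 ≤ x u (l + j)))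
      (le_trans (le_trans (distW_le_dist fun u g hg => by
        funext j
        exact (hRB u g hg j).symm) hd) h2δ)
    refine ⟨v, hv, ?_⟩
    rw [List.mem_append]
    right
    simp only
    rw [colB_bitsOf hL]
    exact hm

end Crest.Agent.R289.GlueD194
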