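import Crest.Agent.R289.Word_508
import Crest.Agent.R289.GlueD_194
import Crest.Agent.R289.DecD_950

/-!
# Row 289, leaf D7 (helper970): word-level machines on arbitrary finite unit types give `Fam`

* `CAx.tr`, `StepAx.tr`: transport of the word-level axioms along `e : U ≃ V`.
* `WFam`: what blocks A-C deliver: for every instance a finite unit type `U` with `U ≃ Fin n`, word-level
  rules over alphabets `A`, `P`, poly-time tables, candidate decoders of the tables of *exact* words.
* `fam_of_wfam`: `WFam → Fam` (`Fam` of `GlueD_194`), decoders by `DecD_950` (iterated correction).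
-/

set_option autoImplicit false

namespace Crest.Agent.R289.FamW970

open Crest.PPADPCP Crest.Agent.Lib.PT Crest.Agent.R289 Crest.Agent.R289.DefD
open Crest.Agent.R289.Word508 Crest.Agent.R289.GlueD194 Crest.Agent.R289.Dec589
open Crest.Agent.R289.Tab858

/-! ### transport along a bijection of the units -/

section transport

variable {U V ι A P : Type} [Fintype U] [Fintype V] (e : U ≃ V)

lemma frac_comp (p : V → Prop) : frac (fun u => p (e u)) = frac p := by
  classical
  unfold frac
  rw [Fintype.card_congr e]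
  congr 2
  exact Finset.card_bij (fun u _ => e u) (fun u hu => by simpa using hu)
    (fun u _ v _ h => e.injective h) (fun v hv => ⟨e.symm v, by simpa using hv, by simp⟩)

lemma frac_comp_symm (p : U → Prop) : frac (fun v => p (e.symm v)) = frac p :=
  frac_comp e.symm p

lemma distW_comp {Γ : Type} (v w : V → Γ) :
    distW (fun u => v (e u)) (fun u => w (e u)) = distW v w :=
  frac_comp e fun x => v x ≠ w x

lemma distW_comp_symm {Γ : Type} (v w : U → Γ) :
    distW (fun x => v (e.symm x)) (fun x => w (e.symm x)) = distW v w :=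
  distW_comp e.symm v w

/-- pull back of a word -/
def pull (w : V → A) : U → A := fun u => w (e u)

/-- push forward of a word -/
def push (w : U → A) : V → A := fun v => w (e.symm v)

omit [Fintype U] [Fintype V] in
@[simp] lemma pull_push (w : U → A) : pull e (push e w) = w := by
  funext u; simp [pull, push]

omit [Fintype U] [Fintype V] in
@[simp] lemma push_pull (w : V → A) : push e (pull e w) = w := by
  funext v; simp [pull, push]

omit [Fintype U] [Fintype V] in
lemma push_inj {v w : U → A} (h : push e v = push e w) : v = w := by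
  rw [← pull_push e v, h, pull_push]

omit [Fintype U] [Fintype V] in
lemma pull_inj {v w : V → A} (h : pull e v = pull e w) : v = w := by
  rw [← push_pull e v, h, push_pull]

/-- transported neighbour maps -/
def trNb (nb : ι → U → U) : ι → V → V := fun i v => e (nb i (e.symm v))

omit [Fintype U] [Fintype V] in
lemma pull_trNb (nb : ι → U → U) (w : V → A) (i : ι) (v : V) :
    w (trNb e nb i v) = pull e w (nb i (e.symm v)) := rfl

theorem CAx.tr {R : CRules ι A P} {nb : ι → U → U} {pub : U → P} {C : Set (U → A)}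
    {m zs r0 d0 c θ : ℝ} (h : CAx R nb pub C m zs r0 d0 c θ) :
    CAx R (trNb e nb) (fun v => pub (e.symm v)) {w : V → A | pull e w ∈ C} m zs r0 d0 c θ where
  mult i E := by
    have := h.mult i (fun u => E (e u))
    rw [frac_comp e E] at this
    have h2 := frac_comp_symm e (fun u => E (e (nb i u)))
    have h3 : (fun u => E (trNb e nb i u)) = fun v => (fun u => E (e (nb i u))) (e.symm v) := rfl
    rw [h3, h2]
    exact this
  sep v hv w hw hne := by
    have := h.sep (pull e v) hv (pull e w) hw fun h' => hne (pull_inj e h')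
    rwa [show distW (pull e v) (pull e w) = distW v w from distW_comp e v w] at this
  sound X hX := by
    have e1 : frac (fun u : V => R.viol (fun i => X (trNb e nb i u)) (pub (e.symm u))) =
        frac (fun u => R.viol (fun i => pull e X (nb i u)) (pub u)) :=
      frac_comp_symm e (fun u => R.viol (fun i => pull e X (nb i u)) (pub u))
    rw [e1] at hX ⊢
    obtain ⟨w, hw, hd⟩ := h.sound (pull e X) hX
    refine ⟨push e w, by simpa using hw, ?_⟩
    have h2 : distW X (push e w) = distW (pull e X) w := by
      have := distW_comp e X (push e w)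
      rw [← this]
      show distW (pull e X) (pull e (push e w)) = _
      rw [pull_push]
    rw [h2]
    exact hd
  compl w hw v := h.compl (pull e w) hw (e.symm v)
  corr w hw E hE := by
    have h1 := h.corr (pull e w) hw (fun u => E (e u)) (by rw [frac_comp e E]; exact hE)
    rw [frac_comp e E] at h1
    refine le_trans (le_of_eq ?_) h1
    have h2 := frac_comp_symm e (fun u => ∃ x : ι → A, (∀ i, ¬ E (e (nb i u)) →
      x i = pull e w (nb i u)) ∧ R.corr x (pub u) ≠ pull e w u)
    rw [← h2]
    congr 1
    funext v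
    have : pull e w (e.symm v) = w v := by simp [pull]
    simp only [this]
    rfl

/-- transported map on words -/
def trMap (N : (U → A) → (U → A)) : (V → A) → (V → A) := fun w => push e (N (pull e w))

omit [Fintype U] [Fintype V] in
lemma trMap_fix {N : (U → A) → (U → A)} {w : V → A} (h : trMap e N w = w) :
    N (pull e w) = pull e w := by
  have := congrArg (pull e) h
  simpa [trMap] using this

theorem StepAx.tr {R : MRules ι A P} {nb : ι → U → U} {pub : U → P} {W : Set (U → A)}
    {w0 : U → A} {N M : (U → A) → (U → A)} {γ : ℝ} (h : StepAx R nb pub W w0 N M γ) :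
    StepAx R (trNb e nb) (fun v => pub (e.symm v)) {w : V → A | pull e w ∈ W} (push e w0)
      (trMap e N) (trMap e M) γ where
  w0_mem := by simpa using h.w0_mem
  N_mem w hw := by
    show pull e (push e (N (pull e w))) ∈ W
    rw [pull_push]
    exact h.N_mem _ hw
  M_mem w hw := by
    show pull e (push e (M (pull e w))) ∈ W
    rw [pull_push]
    exact h.M_mem _ hw
  MN w hw hne := by
    have h1 : N (pull e w) ≠ pull e w := fun h' => hne (by
      show push e (N (pull e w)) = w
      rw [h', push_pull])
    show push e (M (pull e (push e (N (pull e w))))) = w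
    rw [pull_push, h.MN _ hw h1, push_pull]
  NM w hw hne := by
    have h1 : M (pull e w) ≠ pull e w := fun h' => hne (by
      show push e (M (pull e w)) = w
      rw [h', push_pull])
    show push e (N (pull e (push e (M (pull e w))))) = w
    rw [pull_push, h.NM _ hw h1, push_pull]
  M_w0 := by
    show push e (M (pull e (push e w0))) = push e w0
    rw [pull_push, h.M_w0]
  N_w0 := by
    show push e (N (pull e (push e w0))) ≠ push e w0
    rw [pull_push]
    exact fun h' => h.N_w0 (push_inj e h')
  N_loc w hw := by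
    have h1 := h.N_loc (pull e w) hw
    rw [← frac_comp_symm e] at h1
    exact h1
  M_loc w hw := by
    have h1 := h.M_loc (pull e w) hw
    rw [← frac_comp_symm e] at h1
    exact h1

end transport

/-! ### families -/

section family

variable {ι A P : Type} {k l r : ℕ}

/-- the unit-level machine of word-level rules with coded labels -/
noncomputable def mkW [Nonempty A] [Nonempty P] (R : MRules ι A P) (eι : ι ≃ Fin k)
    (enc : A → (Fin l → Bool)) (encP : P → (Fin r → Bool)) : Mk k l r :=
  fun _ nb pub W w0 N M => (R.toL eι enc encP).data nb pub W w0 N M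

/-- the table of a word over the alphabet `A` on units numbered by `e : U ≃ Fin n` -/
def tabA {U : Type} {n : ℕ} (enc : A → (Fin l → Bool)) (e : U ≃ Fin n) (w : U → A) :
    List (List Bool) := tabOf fun i : Fin n => enc (w (e.symm i))

/-- **What blocks A-C deliver at word level** for the bound `n0`: number of units, neighbours, public
bits, start labels and candidate decoders of exact words, all poly-time; for every well formed
instance a machine on a finite type of units numbered by `Fin n`. -/
structure WFam (R : MRules ι A P) (eι : ι ≃ Fin k) (enc : A → (Fin l → Bool))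
    (encP : P → (Fin r → Bool)) (i0 : ι) (m zs r0 d0 c θ γ : ℝ) (n0 : ℕ) where
  A : ℕ
  b : ℕ
  n : EI → ℕ
  nb : EI → ℕ → ℕ → ℕ
  pb : EI → ℕ → List Bool
  wb : EI → ℕ → List Bool
  cA : EI × List (List Bool) → List (List Bool)
  cB : EI × List (List Bool) → List (List Bool)
  ptu_n : PTU n
  ptf_nb : ∀ i < k, PTF (fun p : EI × ℕ => nb p.1 p.2 i)
  ptf_pb : PTF (fun p : EI × ℕ => pb p.1 p.2)
  ptf_wb : PTF (fun p : EI × ℕ => wb p.1 p.2)
  ptf_cA : PTF cA
  ptf_cB : PTF cB
  n_ge : ∀ I : EOL, I.WF → n0 ≤ n (raw I) ∧ 0 < n (raw I)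
  n_le : ∀ I : EOL, I.WF →
    n (raw I) ≤ A * I.encode.length * (Nat.clog 2 (I.encode.length + 2)) ^ b
  mach : ∀ I : EOL, I.WF → ∃ (U : Type) (_ : Fintype U) (eU : U ≃ Fin (n (raw I)))
    (nbU : ι → U → U) (pubU : U → P) (W : Set (U → _)) (w0 : U → _) (N M : (U → _) → (U → _)),
    CAx R.toCRules nbU pubU W m zs r0 d0 c θ ∧ StepAx R nbU pubU W w0 N M γ ∧
    (∀ u, nbU i0 u = u) ∧
    (∀ u i, nb (raw I) (eU u) (eι i) = eU (nbU i u)) ∧
    (∀ u, ∀ i : Fin r, (pb (raw I) (eU u)).getD i false = encP (pubU u) i) ∧
    (∀ u, ∀ j : Fin l, (wb (raw I) (eU u)).getD j false = enc (w0 u) j) ∧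
    (∀ w ∈ W, N w = w → ∃ v, I.IsSolution v ∧ List.ofFn v ∈ cA (raw I, tabA enc eU w)) ∧
    (∀ w ∈ W, w ≠ w0 → M w = w → ∃ v, I.IsSolution v ∧ List.ofFn v ∈ cB (raw I, tabA enc eU w))

/-- the list of units of the decoder (types = public bits) -/
def unitsR (k r n : ℕ) (nb : ℕ → ℕ → ℕ) (pb : ℕ → List Bool) : Units :=
  mkU n k (fun u => encN r fun i => (pb u).getD i false) nb

theorem describes {n : ℕ} {nb : ℕ → ℕ → ℕ} {pb : ℕ → List Bool}
    {nb' : Fin k → Fin n → Fin n} {pub' : Fin n → Fin r → Bool}
    (h1 : ∀ (u : Fin n) (i : Fin k), nb u i = nb' i u)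
    (h2 : ∀ (u : Fin n) (i : Fin r), (pb u).getD i false = pub' u i) :
    DecD950.Describes (unitsR k r n nb pb) nb' pub' where
  len := mkU_length _ _ _ _
  ty u i := by
    rw [unitsR, mkU_ty _ _ u.2, testBit_encN _ i.2, h2]
  nblen u := by
    rw [unitsR, mkU_getD _ _ u.2]
    simp
  nbr u i := by
    rw [unitsR, mkU_nbr _ _ u.2 i.2, h1]

theorem ptf_unitsR {α : Type} [PTCode α] (k r : ℕ) {n : α → ℕ} {nb : α → ℕ → ℕ → ℕ}
    {pb : α → ℕ → List Bool} (hn : PTU n) (hnb : ∀ i < k, PTF (fun p : α × ℕ => nb p.1 p.2 i))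
    (hp : PTF (fun p : α × ℕ => pb p.1 p.2)) :
    PTF (fun a => unitsR k r (n a) (nb a) (pb a)) := by
  unfold unitsR
  refine ptf_mkU' (α := α) k (ty := fun a u => encN r fun i => (pb a u).getD i false)
    (nb := nb) hn ?_ hnb
  exact ptf_encN r (f := fun (p : α × ℕ) i => (pb p.1 p.2).getD i false) fun i _ =>
    PTF.getD (PTU.const i) hp (PTF.const false)

variable [Fintype ι] [Nonempty A] [Nonempty P]

/-- the decoder: exact-word candidates after `n` rounds of local correction -/
noncomputable def decW (R : MRules ι A P) (eι : ι ≃ Fin k) (enc : A → (Fin l → Bool))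
    (encP : P → (Fin r → Bool)) (n : EI → ℕ) (nb : EI → ℕ → ℕ → ℕ) (pb : EI → ℕ → List Bool)
    (cA : EI × List (List Bool) → List (List Bool)) (p : EI × List (List Bool)) :
    List (List Bool) :=
  cA (p.1, (Dec589.round (DecD950.decRule (R.toL eι enc encP)) l
    (unitsR k r (n p.1) (nb p.1) (pb p.1)))^[n p.1] p.2)

omit [Fintype ι] in
theorem ptf_decW {R : MRules ι A P} {eι : ι ≃ Fin k} {enc : A → (Fin l → Bool)}
    {encP : P → (Fin r → Bool)} {n : EI → ℕ} {nb : EI → ℕ → ℕ → ℕ} {pb : EI → ℕ → List Bool}
    {cA : EI × List (List Bool) → List (List Bool)} (hn : PTU n)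
    (hnb : ∀ i < k, PTF (fun p : EI × ℕ => nb p.1 p.2 i))
    (hp : PTF (fun p : EI × ℕ => pb p.1 p.2)) (hc : PTF cA) :
    PTF (decW R eι enc encP n nb pb cA) := by
  unfold decW
  refine PTF.comp hc (PTF.prodMk PTF.fst ?_)
  refine DecD950.ptf_decode (γ := EI × List (List Bool)) (R.toL eι enc encP)
    (T := fun p => n p.1) (G := fun p => unitsR k r (n p.1) (nb p.1) (pb p.1))
    (A := fun p => p.2) (PTU.comp hn PTF.fst) ?_ PTF.snd
  exact PTF.comp (ptf_unitsR k r hn hnb hp) PTF.fst

/-- **D7**: a word-level family is a family in the sense of `GlueD_194` -/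
theorem fam_of_wfam {R : MRules ι A P} {eι : ι ≃ Fin k} {enc : A → (Fin l → Bool)}
    {encP : P → (Fin r → Bool)} {i0 : ι} {m zs r0 d0 c θ γ : ℝ} {n0 : ℕ}
    (F : WFam R eι enc encP i0 m zs r0 d0 c θ γ n0) (he : Function.Injective enc)
    (heP : Function.Injective encP) (hθ : θ ≤ 1 / 4)
    (K : MConst) (hzs : K.zs ≤ zs) (hr0 : K.r0 ≤ r0) (hd0 : K.d0 ≤ d0)
    (hc : c + 1 ≤ K.c) (hcm : Fintype.card ι * m ≤ K.c) (hγ : γ ≤ K.γ) :
    Nonempty (Fam k l r (mkW R eι enc encP) K n0) := by
  refine ⟨{
    A := F.A, b := F.b, n := F.n, nb := F.nb, pb := F.pb, wb := F.wb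
    cA := decW R eι enc encP F.n F.nb F.pb F.cA
    cB := decW R eι enc encP F.n F.nb F.pb F.cB
    ptu_n := F.ptu_n, ptf_nb := F.ptf_nb, ptf_pb := F.ptf_pb, ptf_wb := F.ptf_wb
    ptf_cA := ptf_decW F.ptu_n F.ptf_nb F.ptf_pb F.ptf_cA
    ptf_cB := ptf_decW F.ptu_n F.ptf_nb F.ptf_pb F.ptf_cB
    n_ge := F.n_ge
    nb_lt := ?_
    n_le := F.n_le
    mach := ?_ }⟩
  · intro I hI u hu i hi
    obtain ⟨U, _, eU, nbU, pubU, W, w0, N, M, -, -, -, hnb, -⟩ := F.mach I hI
    have := hnb (eU.symm ⟨u, hu⟩) (eι.symm ⟨i, hi⟩)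
    rw [Equiv.apply_symm_apply, Equiv.apply_symm_apply] at this
    rw [this]
    exact (eU _).2
  · intro I hI
    obtain ⟨hn0, hn⟩ := F.n_ge I hI
    obtain ⟨U, iU, eU, nbU, pubU, W, w0, N, M, hC, hS, hid, hnb, hpb, hwb, hdA, hdB⟩ :=
      F.mach I hI
    have e1 : ∀ (u : Fin (F.n (raw I))) (i : Fin k),
        F.nb (raw I) u i = (trNb eU nbU (eι.symm i) u : Fin (F.n (raw I))) := by
      intro u i
      have := hnb (eU.symm u) (eι.symm i)
      rwa [Equiv.apply_symm_apply, Equiv.apply_symm_apply] at this
    have e2 : (fun i : Fin k => toF (F.n (raw I)) fun u => F.nb (raw I) u i) =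
        fun i => trNb eU nbU (eι.symm i) := by
      funext i u
      have h := e1 u i
      have hlt : F.nb (raw I) u i < F.n (raw I) := by rw [h]; exact Fin.is_lt _
      have h2 : toF (F.n (raw I)) (fun u => F.nb (raw I) u i) u = ⟨F.nb (raw I) u i, hlt⟩ :=
        dif_pos hlt
      rw [h2]
      exact Fin.ext h
    have e3 : ∀ (u : Fin (F.n (raw I))) (i : Fin r),
        (F.pb (raw I) u).getD i false = encP (pubU (eU.symm u)) i := by
      intro u i
      have := hpb (eU.symm u) i
      rwa [Equiv.apply_symm_apply] at this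
    have e4 : ∀ (u : Fin (F.n (raw I))) (j : Fin l),
        (F.wb (raw I) u).getD j false = enc (w0 (eU.symm u)) j := by
      intro u j
      have := hwb (eU.symm u) j
      rwa [Equiv.apply_symm_apply] at this
    have hself : ∀ u : Fin (F.n (raw I)), trNb eU nbU i0 u = u := by
      intro u
      show eU (nbU i0 (eU.symm u)) = u
      rw [hid, Equiv.apply_symm_apply]
    have hax := mach_Ax R (trNb eU nbU) (fun v => pubU (eU.symm v)) {w | pull eU w ∈ W}
      (push eU w0) (trMap eU N) (trMap eU M) (CAx.tr eU hC) (StepAx.tr eU hS) i0 hself hθ eι enc he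
      encP heP K hzs hr0 hd0 hc hcm hγ
    set W' : Set (Fin (F.n (raw I)) → Fin l → Bool) :=
      {X | ∃ w ∈ {w : Fin (F.n (raw I)) → A | pull eU w ∈ W}, X = fun u => enc (w u)} with hW'
    have hdec : ∀ w : Fin (F.n (raw I)) → A, pull eU w ∈ W →
        ∀ X : Fin (F.n (raw I)) → Fin l → Bool, distW X (fun u => enc (w u)) ≤ K.r0 →
        (Dec589.round (DecD950.decRule (R.toL eι enc encP)) l
          (unitsR k r (F.n (raw I)) (F.nb (raw I)) (F.pb (raw I))))^[F.n (raw I)] (tabOf X) =
            tabA enc eU (pull eU w) := by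
      intro w hw X hX
      have h1 : DefD.dist (fun u => some (X u)) (fun u => enc (w u)) ≤ K.r0 := by
        refine le_trans (le_of_eq ?_) hX
        unfold DefD.dist distW
        congr 1
        funext u
        exact propext ⟨fun h h' => h (congrArg some h'), fun h h' => h (Option.some.inj h')⟩
      have h2 := DecD950.decode_exact hax (w := fun u => enc (w u)) ⟨w, hw, rfl⟩
        (describes (nb := F.nb (raw I)) (pb := F.pb (raw I)) e1 e3) hn
        (fun u => some (X u)) (tabOf X) (by
          intro u g hg j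
          cases hg
          have := congrFun (congrFun (DecD950.arr_tabW X) u) j
          exact this) h1 (F.n (raw I)) (Nat.lt_pow_self (by norm_num))
      rw [h2]
      unfold tabA DecD950.tabW tabOf pull
      simp
    refine ⟨W', liftMap enc (trMap eU N), liftMap enc (trMap eU M),
      (R.toL eι enc encP).data (fun i => trNb eU nbU (eι.symm i))
        (fun u => encP (pubU (eU.symm u))) W' (fun u => enc (push eU w0 u))
        (liftMap enc (trMap eU N)) (liftMap enc (trMap eU M)), ?_, hax, ?_, ?_⟩
    · unfold mkW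
      rw [e2]
      congr 1
      · funext u i
        exact (e3 u i).symm
      · funext u j
        exact (e4 u j).symm
    · rintro _ ⟨w, hw, rfl⟩ hfix X hX
      change liftMap enc (trMap eU N) _ = _ at hfix
      rw [liftMap_enc he] at hfix
      have hfix' : trMap eU N w = w := enc_comp_inj he hfix
      obtain ⟨v, hv, hmem⟩ := hdA (pull eU w) hw (trMap_fix eU hfix')
      refine ⟨v, hv, ?_⟩
      show List.ofFn v ∈ F.cA (raw I, _)
      rw [hdec w hw X hX]
      exact hmem
    · rintro _ ⟨w, hw, rfl⟩ hne hfix X hX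
      change liftMap enc (trMap eU M) _ = _ at hfix
      rw [liftMap_enc he] at hfix
      have hfix' : trMap eU M w = w := enc_comp_inj he hfix
      have hne' : pull eU w ≠ w0 := by
        intro h
        apply hne
        show (fun u => enc (w u)) = fun u => enc (push eU w0 u)
        rw [← h, push_pull]
      obtain ⟨v, hv, hmem⟩ := hdB (pull eU w) hw hne' (trMap_fix eU hfix')
      refine ⟨v, hv, ?_⟩
      show List.ofFn v ∈ F.cB (raw I, _)
      rw [hdec w hw X hX]
      exact hmem

end family

end Crest.Agent.R289.FamW970
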