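import Crest.Agent.R289.Sol_589
import Crest.Agent.R289.FamW_970
import Crest.Agent.R289.DefI_306

/-!
# Row 289, leaf E21 part 3 (helper589): decoding on the labels of the compiled machine

* `candA`: candidate function for words over any alphabet on any numbered unit type (`tabA` of
  `FamW_970`);
* `gReg rX`: the bit shown by register `rX` of bank 1 in a label of `DefI_306`; on the label word of a
  configuration it is the content bit at the address of the unit.
-/

set_option autoImplicit false
set_option linter.dupNamespace false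

namespace Crest.Agent.R289.DecI589

open Crest.PPADPCP
open Crest.Agent.Lib.PT Crest.Agent.R289 Crest.Agent.R289.DefD
open Crest.Agent.R289.DecD950 Crest.Agent.R289.Cand589 Crest.Agent.R289.Sol589
open Crest.Agent.R289.FamW970

section generic

variable {γ U A : Type} [Nonempty A] {l n m : ℕ}

/-- label function read through the bit code of the labels -/
noncomputable def gBit (enc : A → Fin l → Bool) (gA : A → Bool) (x : Fin l → Bool) : Bool :=
  gA (Function.invFun enc x)

theorem gBit_enc {enc : A → Fin l → Bool} (he : Function.Injective enc) (gA : A → Bool) (a : A) :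
    gBit enc gA (enc a) = gA a := by
  unfold gBit
  rw [Function.leftInverse_invFun he a]

/-- the candidate function finds the name shown by the labels at the units `uad i` -/
theorem candA {enc : A → Fin l → Bool} (he : Function.Injective enc) (gA : A → Bool)
    (eU : U ≃ Fin n) (w : U → A) (ad : γ × ℕ → ℕ) (len : γ → ℕ) (c : γ) (hm : m = len c)
    (v : Fin m → Bool) (uad : Fin m → U) (had : ∀ i : Fin m, (eU (uad i) : ℕ) = ad (c, i))
    (hv : ∀ i, gA (w (uad i)) = v i) :
    List.ofFn v ∈ cReg l (gBit enc gA) ad len (c, tabA enc eU w) := by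
  refine mem_cReg' (gBit enc gA) ad len c (fun i : Fin n => enc (w (eU.symm i))) hm v fun i => ?_
  refine ⟨eU (uad i), had i, ?_⟩
  show gBit enc gA (enc (w (eU.symm (eU (uad i))))) = v i
  rw [Equiv.symm_apply_apply, gBit_enc he, hv]

variable {Γ G Λ : Type} {J : ℕ} [DecidableEq Γ] [DecidableEq Λ] {I : EOL}
  {act : G → Equiv.Perm Γ} {out : Λ} {P : DefC.Layout Γ G Λ J}

/-- the same with the solution predicate -/
theorem candSol {enc : A → Fin l → Bool} (he : Function.Injective enc) (gA : A → Bool)
    (eU : U ≃ Fin n) (w : U → A) (ad : γ × ℕ → ℕ) (len : γ → ℕ) (c : γ) (hlen : len c = I.n)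
    (hR : Real I act out P) (v : Fin P.n → Bool) (hsol : I.IsSolution (nam hR.hn v))
    (uad : Fin P.n → U) (had : ∀ i : Fin P.n, (eU (uad i) : ℕ) = ad (c, i))
    (hv : ∀ i, gA (w (uad i)) = v i) :
    ∃ s, I.IsSolution s ∧ List.ofFn s ∈ cReg l (gBit enc gA) ad len (c, tabA enc eU w) := by
  refine ⟨nam hR.hn v, hsol, ?_⟩
  rw [ofFn_nam]
  exact candA he gA eU w ad len c (hR.hn.trans hlen.symm) v uad had hv

end generic

section label

open DefI Compile827

variable {K : Type} [Field K] [DecidableEq K] {c : Cst K} (I : Ins c) {Ck : Type}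

/-- the content bit of register `rX` of bank 1 in a label -/
def gReg (rX : c.A.Reg) (x : c.Lab Ck) : Bool := bit (x.b1.R rX c.s0)

theorem gReg_labE (rX : c.A.Reg) (cw : ℕ → I.U → Ck) (f : Conf I.XW I.ZW c.A.Tr) (u : I.U) :
    gReg rX (I.labE cw f u) = bit (I.con f.x1 rX u.1) := rfl

end label

end Crest.Agent.R289.DecI589
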