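import Mathlib
import Crest.Agent.R289.Level_492
import Crest.Agent.R289.Mirror_545

/-!
Row 289, block C (helper719): matrix form of the mirror certificate, joint of `Level_492`
(operators = matrices over `K` acting on words `T × S → A`) and `Mirror_545` (functions).

* `mir s : K[T]` : the element of the group ring giving the mirror word number `s`;
* `mirRel_iff_act` : `MirRel (bet s0 α P) γ q U ↔ ∀ s, U s = act (mir s) q`;
* `Mir s : Matrix (T × S) (T × S) K`, `mirMat_iff` : the mirror relation at all symbols `b` says
  exactly `C s = Level492.act (Mir s) Q` (values in any `K`-module);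
* `Mir_mem`, `act_mem`, `Mir_content` : code membership and content zero;
-/

set_option autoImplicit false
set_option linter.unusedSectionVars false

namespace Crest.Agent.R289.MirMat719

open Finset Crest.Agent.R289.Mirror545

variable {K T S ι J M M' : Type*} [Field K] [Group T] [Fintype S] [DecidableEq S] [Fintype ι]
  [Fintype J] [AddCommGroup M] [Module K M] [AddCommGroup M'] [Module K M']

/-- coefficient of the column `s0` -/
noncomputable def colA (s0 : S) (β : {s : S // s ≠ s0} → S → J → K) (γ : J → T)
    (c : {s : S // s ≠ s0}) : MonoidAlgebra K T := ∑ j, MonoidAlgebra.single (γ j) (β c s0 j)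

theorem act_colA (s0 : S) (β : {s : S // s ≠ s0} → S → J → K) (γ : J → T)
    (c : {s : S // s ≠ s0}) (q : T → M) (g : T) :
    act K M T (colA s0 β γ c) q g = ∑ j, β c s0 j • q ((γ j)⁻¹ * g) := by
  simp only [colA, map_sum, LinearMap.sum_apply, Finset.sum_apply, act_single]

open Classical in
/-- the element of `K[T]` which gives the mirror word number `s` -/
noncomputable def mir (s0 : S) (α : ι → S → J → K) (P : {s : S // s ≠ s0} → ι → K) (γ : J → T)
    (s : {s : S // s ≠ s0}) : MonoidAlgebra K T :=
  if h : ∃ Y : Matrix {s : S // s ≠ s0} {s : S // s ≠ s0} (MonoidAlgebra K T),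
      BR s0 (bet s0 α P) γ * Y = 1 ∧ Y * BR s0 (bet s0 α P) γ = 1
  then - ∑ c, h.choose s c * colA s0 (bet s0 α P) γ c else 0

variable {s0 : S} {α : ι → S → J → K} {P : {s : S // s ≠ s0} → ι → K} {γ : J → T}

/-- the mirror words are the images of the word under `mir s` -/
theorem mirRel_iff_act (hP : IsP s0 α P) {L : ℕ} (hL : AugNil322.J K T ^ L = ⊥) (q : T → M)
    (U : {s : S // s ≠ s0} → T → M) :
    MirRel s0 (bet s0 α P) γ q U ↔ ∀ s, U s = act K M T (mir s0 α P γ s) q := by
  classical
  have hex : ∃ Y : Matrix {s : S // s ≠ s0} {s : S // s ≠ s0} (MonoidAlgebra K T),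
      BR s0 (bet s0 α P) γ * Y = 1 ∧ Y * BR s0 (bet s0 α P) γ = 1 := by
    have := BR_inv s0 α P hP γ hL
    exact this
  have hm : ∀ s, mir s0 α P γ s = - ∑ c, hex.choose s c * colA s0 (bet s0 α P) γ c := by
    intro s
    rw [mir, dif_pos hex]
  obtain ⟨h1, h2⟩ := hex.choose_spec
  set Y := hex.choose with hY
  have h1' : (BR s0 (bet s0 α P) γ).map (act K M T) * Y.map (act K M T) = 1 := by
    rw [← Matrix.map_mul, h1, Matrix.map_one _ (map_zero _) (map_one _)]
  have h2' : Y.map (act K M T) * (BR s0 (bet s0 α P) γ).map (act K M T) = 1 := by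
    rw [← Matrix.map_mul, h2, Matrix.map_one _ (map_zero _) (map_one _)]
  have hsol : (fun s => act K M T (mir s0 α P γ s) q)
      = opM (Y.map (act K M T)) (fun c g => - ∑ j, bet s0 α P c s0 j • q ((γ j)⁻¹ * g)) := by
    funext s
    have hc : (fun c g => - ∑ j, bet s0 α P c s0 j • q ((γ j)⁻¹ * g))
        = fun c => - act K M T (colA s0 (bet s0 α P) γ c) q := by
      funext c g
      rw [Pi.neg_apply, act_colA]
    rw [hc, hm]
    simp only [opM, Matrix.map_apply, map_neg, map_sum, LinearMap.neg_apply,
      LinearMap.sum_apply, map_mul, Module.End.mul_apply, Finset.sum_neg_distrib]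
  rw [mirRel_iff]
  constructor
  · intro h s
    have : opM (Y.map (act K M T)) (opM ((BR s0 (bet s0 α P) γ).map (act K M T)) U)
        = fun s => act K M T (mir s0 α P γ s) q := by rw [h, hsol]
    rw [← opM_mul, h2', opM_one] at this
    exact congrFun this s
  · intro h
    have : U = fun s => act K M T (mir s0 α P γ s) q := funext h
    rw [this, hsol, ← opM_mul, h1', opM_one]

/-! ### matrices -/

theorem act_apply [Fintype T] (x : MonoidAlgebra K T) (u : T → M) (t : T) :
    act K M T x u t = ∑ t', x.coeff (t * t'⁻¹) • u t' := by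
  classical
  induction x using MonoidAlgebra.induction_linear with
  | zero => simp
  | add a b ha hb =>
    rw [map_add, LinearMap.add_apply, Pi.add_apply, ha, hb, ← sum_add_distrib]
    refine sum_congr rfl fun t' _ => ?_
    rw [← add_smul]
    rfl
  | single g c =>
    rw [act_single, sum_eq_single (g⁻¹ * t)]
    · simp [MonoidAlgebra.coeff_single_apply]
    · intro t' _ ht
      rw [MonoidAlgebra.coeff_single_apply, if_neg, zero_smul]
      intro h
      apply ht
      rw [h]; group
    · intro h; exact absurd (mem_univ _) h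

/-- the matrix of left multiplication by `x ∈ K[T]` on `T × S` -/
def lmat {S : Type*} [DecidableEq S] (x : MonoidAlgebra K T) : Matrix (T × S) (T × S) K :=
  fun a b => if a.2 = b.2 then x.coeff (a.1 * b.1⁻¹) else 0

theorem act_lmat [Fintype T] (x : MonoidAlgebra K T) (Q : T × S → M) (a : T × S) :
    Level492.act (lmat x) Q a = act K M T x (fun τ => Q (τ, a.2)) a.1 := by
  rw [act_apply]
  simp only [Level492.act, lmat]
  rw [Fintype.sum_prod_type]
  refine sum_congr rfl fun t' _ => ?_
  rw [sum_eq_single a.2]
  · simp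
  · intro b _ hb
    rw [if_neg (Ne.symm hb), zero_smul]
  · intro h; exact absurd (mem_univ _) h

/-- matrix of the mirror word number `s` -/
noncomputable def Mir (s0 : S) (α : ι → S → J → K) (P : {s : S // s ≠ s0} → ι → K) (γ : J → T)
    (s : {s : S // s ≠ s0}) : Matrix (T × S) (T × S) K := lmat (mir s0 α P γ s)

/-- **the mirror relation in matrix form** -/
theorem mirMat_iff [Fintype T] (hP : IsP s0 α P) {L : ℕ} (hL : AugNil322.J K T ^ L = ⊥)
    (Q : T × S → M) (C : {s : S // s ≠ s0} → T × S → M) :
    (∀ b, MirRel s0 (bet s0 α P) γ (fun τ => Q (τ, b)) (fun s τ => C s (τ, b))) ↔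
      ∀ s, C s = Level492.act (Mir s0 α P γ s) Q := by
  constructor
  · intro h s
    funext a
    rw [Mir, act_lmat]
    have := (mirRel_iff_act hP hL _ _).1 (h a.2) s
    exact congrFun this a.1
  · intro h b
    rw [mirRel_iff_act hP hL]
    intro s
    funext τ
    rw [h s, Mir, act_lmat]

/-- content zero is preserved -/
theorem Mir_content [Fintype T] (b : S) (Q : T × S → M) (h : ∀ τ, Q (τ, b) = 0)
    (s : {s : S // s ≠ s0}) (τ : T) : Level492.act (Mir s0 α P γ s) Q (τ, b) = 0 := by
  rw [Mir, act_lmat]
  have : (fun τ => Q (τ, b)) = 0 := funext h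
  show act K M T _ (fun τ => Q (τ, b)) τ = 0
  rw [this, map_zero]
  rfl

/-- the content word of the certificate -/
theorem Mir_slice [Fintype T] (b : S) (Q : T × S → M) (s : {s : S // s ≠ s0}) :
    (fun τ => Level492.act (Mir s0 α P γ s) Q (τ, b))
      = act K M T (mir s0 α P γ s) (fun τ => Q (τ, b)) := by
  funext τ
  rw [Mir, act_lmat]

/-- every left invariant submodule of words is stable under the matrices `lmat x` -/
theorem lmat_mem [Fintype T] (x : MonoidAlgebra K T) (CT : Submodule K (T × S → M))
    (hleft : ∀ g : T, ∀ q ∈ CT, (fun a : T × S => q (g * a.1, a.2)) ∈ CT) {q : T × S → M}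
    (hq : q ∈ CT) : Level492.act (lmat x) q ∈ CT := by
  classical
  have hx : Level492.act (lmat x) q = fun a => act K M T x (fun τ => q (τ, a.2)) a.1 :=
    funext fun a => act_lmat x q a
  rw [hx]
  induction x using MonoidAlgebra.induction_linear with
  | zero =>
    have : (fun a : T × S => act K M T (0 : MonoidAlgebra K T) (fun τ => q (τ, a.2)) a.1) = 0 := by
      funext a; simp
    rw [this]; exact CT.zero_mem
  | add a b ha hb =>
    have : (fun y : T × S => act K M T (a + b) (fun τ => q (τ, y.2)) y.1)
        = (fun y : T × S => act K M T a (fun τ => q (τ, y.2)) y.1)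
          + fun y : T × S => act K M T b (fun τ => q (τ, y.2)) y.1 := by
      funext y; simp
    rw [this]
    exact CT.add_mem (ha (funext fun z => act_lmat a q z)) (hb (funext fun z => act_lmat b q z))
  | single g c =>
    have : (fun y : T × S => act K M T (MonoidAlgebra.single g c) (fun τ => q (τ, y.2)) y.1)
        = c • fun y : T × S => q (g⁻¹ * y.1, y.2) := by
      funext y; simp
    rw [this]
    exact CT.smul_mem c (hleft g⁻¹ q hq)

theorem Mir_mem [Fintype T] (CT : Submodule K (T × S → M))
    (hleft : ∀ g : T, ∀ q ∈ CT, (fun a : T × S => q (g * a.1, a.2)) ∈ CT) {q : T × S → M}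
    (hq : q ∈ CT) (s : {s : S // s ≠ s0}) : Level492.act (Mir s0 α P γ s) q ∈ CT :=
  lmat_mem _ CT hleft hq

/-- P-side membership: T-side operators take linear combinations -/
theorem act_pmem {n m : Type*} [Fintype n] (k : Matrix m n K) (CG : Submodule K M) {Q : n → M}
    (hQ : ∀ j, Q j ∈ CG) (i : m) : Level492.act k Q i ∈ CG :=
  CG.sum_mem fun j _ => CG.smul_mem _ (hQ j)

end Crest.Agent.R289.MirMat719
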