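import Crest.Agent.R289.DefI_306
import Crest.Agent.R289.TSide_492
import Crest.Agent.R289.MirMat_719
import Crest.Agent.R289.LInst_827

/-!
# Row 289, block C: the `LM` instance on the literal types of `DefI_306`

`Hyp` = what the instance `I : Ins c` must satisfy (P-side codes `CG d`, T-object `O`, path `P`,
mirror coefficients, public tables); `lmI` = the machine `Compile827.LM I.XW I.ZW c.A.Tr` whose
`push, pop, ent, up, dn, xz, zz, En, Bk` are the ones of `DefI_306`, and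
* `Rec t x z` = (`z.X`, `z.Xm` words of `V_T`) and `I.Rec t x z`,
* `St x z` = (registers of `x` in `CG 1`) and `I.St x z`.
`legal_mem`: all words of a legal configuration are code words.
-/

set_option autoImplicit false
set_option linter.unusedSectionVars false

namespace Crest.Agent.R289.LMI482

open Finset DefC Compile827 DefI Level492 TSide492 WordC880

variable {K : Type} [Field K] {c : Cst K}

/-- hypotheses on an instance -/
structure Hyp (I : Ins c) (CG : ℕ → Submodule K (I.Om → K)) (O : TO K I.T c.S')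
    (P : Path I.T c.J1 c.J2) {ι : Type} [Fintype ι] (α : ι → c.S' → c.JT → K)
    (Pm : {s : c.S' // s ≠ c.s0'} → ι → K) : Prop where
  mul : ∀ a b f g, f ∈ CG a → g ∈ CG b → (fun x => f x * g x) ∈ CG (a + b)
  tr : ∀ g a f, f ∈ CG a → (fun x => f (I.pm (I.act g) x)) ∈ CG a
  ti : ∀ g a f, f ∈ CG a → (fun x => f ((I.pm (I.act g)).symm x)) ∈ CG a
  mv : ∀ j a f, f ∈ CG a → (fun x => f (I.pm (I.mv j) x)) ∈ CG a
  rig : ∀ f ∈ CG 1, (∀ g, f (g, c.s0) = 0) → f = 0
  pub : ∀ b, I.pubP b ∈ CG 1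
  x0 : ∀ i, I.x0 i ∈ CG 1
  wf : c.A.WF 4
  ok : c.A.OK I.act I.pubC
  leg0 : c.A.Legal I.act I.pubC I.stg0 (I.con I.xs)
  bk0 : ∀ ρ, I.stg0 = c.A.tgt ρ → ¬ c.A.Bk I.act I.pubC ρ (I.con I.xs)
  s0 : O.s0 = c.s0'
  L : I.L = P.L
  mU : I.mU = Um O
  mN1 : I.mN1 = N1 O P
  mN2 : I.mN2 = N2 O P
  D : ∀ t, t ≤ I.L → I.D t = Dw O P t
  bet : c.bet = Mirror545.bet c.s0' α Pm
  isP : Mirror545.IsP c.s0' α Pm
  nil : ∃ n : ℕ, AugNil322.J K I.T ^ n = ⊥
  A : ∀ t, t < I.L → I.MirK (kap I.mU I.mN1 I.D t) (I.A t)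
  B : ∀ t, t < I.L → I.MirK (kap' I.mU I.mN2 I.D t) (I.B t)
  A0 : I.MirK (-(I.mN1.mulVec (I.D 0))) I.A0
  B0 : I.MirK (-(I.mN2.mulVec (I.D 0))) I.B0

/-- matrix form of the T-side data of `DefI_306` -/
theorem mU_eq (I : Ins c) (O : TO K I.T c.S') (h : ∀ p, I.one p = Uw O p.1 p.2) :
    I.mU = Um O := by
  funext p q
  have e : Um O p q = ∑ _a : Unit, if q = ((1 : I.T) * p.1, p.2) then Uw O p.1 p.2 else 0 := rfl
  rw [e, Finset.univ_unique, Finset.sum_singleton, one_mul]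
  show Matrix.diagonal I.one p q = if q = p then Uw O p.1 p.2 else 0
  rw [Matrix.diagonal_apply]
  by_cases hpq : p = q
  · subst hpq; simp [h]
  · rw [if_neg hpq, if_neg (fun h' => hpq h'.symm)]

theorem mN1_eq (I : Ins c) (O : TO K I.T c.S') (P : Path I.T c.J1 c.J2) (hg : I.h1 = P.g1)
    (h : ∀ j p, I.E1 j p = TSide492.E1 O P j p.1 p.2) : I.mN1 = N1 O P := by
  funext p q
  simp only [Ins.mN1, N1, TSide492.stM, hg, h]

theorem mN2_eq (I : Ins c) (O : TO K I.T c.S') (P : Path I.T c.J1 c.J2) (hg : I.h2 = P.g2)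
    (h : ∀ j p, I.E2 j p = TSide492.E2 O P j p.1 p.2) : I.mN2 = N2 O P := by
  funext p q
  simp only [Ins.mN2, N2, TSide492.stM, hg, h]

namespace Hyp

variable {I : Ins c} {CG : ℕ → Submodule K (I.Om → K)} {O : TO K I.T c.S'}
  {P : Path I.T c.J1 c.J2} {ι : Type} [Fintype ι] {α : ι → c.S' → c.JT → K}
  {Pm : {s : c.S' // s ≠ c.s0'} → ι → K}

/-- content side in the vocabulary of `LInst_827` -/
def cd (h : Hyp I CG O P α Pm) : LInst827.CD K c.G c.A I.Γ I.Om where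
  act := I.act
  actO := fun g => I.pm (I.act g)
  h0 := fun g => (g, c.s0)
  hh := fun _ _ => rfl
  C := CG
  hmul := h.mul
  htr := h.tr
  hti := h.ti
  hrig := h.rig
  pw := I.pubP
  hpw := h.pub

/-- mirror matrix -/
noncomputable def Mr (_ : Hyp I CG O P α Pm) (s : c.C) : Matrix I.n I.n K :=
  MirMat719.Mir c.s0' α Pm I.gam s

/-- splitting of the mirror relation over the symbols -/
theorem mirRel_split {M : Type} [AddCommGroup M] [Module K M] (h : Hyp I CG O P α Pm)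
    (q : I.n → M) (U : c.C → I.n → M) :
    Mirror545.MirRel c.s0' c.bet I.gam (fun τ s' => q (τ, s')) (fun s τ s' => U s (τ, s')) ↔
      ∀ s, U s = act (h.Mr s) q := by
  obtain ⟨n, hn⟩ := h.nil
  have h1 := MirMat719.mirMat_iff (K := K) (s0 := c.s0') (γ := I.gam) h.isP hn q U
  rw [← h.bet] at h1
  refine Iff.trans ?_ h1
  constructor
  · intro hm b
    exact hm.map (LinearMap.proj (R := K) (φ := fun _ : c.S' => M) b)
  · intro hm s g
    funext b
    have := hm b s g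
    rw [Pi.zero_apply, ← this]
    rw [Finset.sum_apply]
    refine sum_congr rfl fun s' _ => ?_
    rw [Finset.sum_apply]
    refine sum_congr rfl fun j _ => ?_
    rw [Pi.smul_apply]
    congr 1
    unfold Mirror545.ext
    split_ifs <;> rfl

theorem mir_iff (h : Hyp I CG O P α Pm) (q : I.n → I.AW) (U : c.C → I.n → I.AW) :
    I.Mir q U ↔ ∀ s, U s = act (h.Mr s) q := h.mirRel_split q U

theorem mirK_iff (h : Hyp I CG O P α Pm) (q : I.n → K) (U : c.C → I.n → K) :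
    I.MirK q U ↔ ∀ s, U s = (h.Mr s).mulVec q := by
  rw [show I.MirK q U ↔ _ from h.mirRel_split q U]
  simp only [mulVec_eq_act]

/-- certificate of depth `t` -/
noncomputable def cert (h : Hyp I CG O P α Pm) (x : I.XW) (t : ℕ) : I.ZW where
  X := recX I.Lam I.D (I.wv x.2) t
  Xm := recXm I.Lam I.D (I.wv x.2) t
  Z := fun s => act (h.Mr s) (I.Q (I.wv x.2) (I.D t) (recX I.Lam I.D (I.wv x.2) t))
  Zm := fun s => act (h.Mr s) (I.Q (I.wv x.2) (I.Dm t) (recXm I.Lam I.D (I.wv x.2) t))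

theorem ent_cert (h : Hyp I CG O P α Pm) (x : I.XW) : I.ent x = h.cert x 0 := by
  have hA := (h.mirK_iff _ _).1 h.A0
  have hB := (h.mirK_iff _ _).1 h.B0
  refine Ins.ZW.ext ?_ ?_ ?_ ?_
  · show Level492.ten (I.D 0) (I.wv x.2) = recX I.Lam I.D (I.wv x.2) 0
    rw [recX_zero]
  · rfl
  · funext s
    show (fun p => Level492.ten (I.A0 s) (I.Lam (I.wv x.2)) p
      + Level492.ten (I.B0 s) (I.wv x.2) p) = Level492.cert I.Lam I.mU I.mN1 I.mN2 I.D
        (I.wv x.2) (h.Mr s) 0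
    rw [cert_zero, hA s, hB s]
    funext p
    simp [Matrix.mulVec_neg, ten]
    abel
  · funext s
    show (0 : I.n → I.AW) = Level492.certm I.Lam I.mU I.mN1 I.mN2 I.D (I.wv x.2) (h.Mr s) 0
    rw [certm_zero]

theorem push_cert (h : Hyp I CG O P α Pm) (t : ℕ) (x : I.XW) (ht : t < I.L) :
    I.push t x (h.cert x t) = h.cert x (t + 1) := by
  have hA := (h.mirK_iff _ _).1 (h.A t ht)
  have hB := (h.mirK_iff _ _).1 (h.B t ht)
  refine Ins.ZW.ext ?_ ?_ ?_ ?_
  · show (fun p => I.Lam (recX I.Lam I.D (I.wv x.2) t p) + recXm I.Lam I.D (I.wv x.2) t p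
      + Level492.ten (I.D (t + 1)) (I.wv x.2) p) = recX I.Lam I.D (I.wv x.2) (t + 1)
    rw [recX_succ]
    rfl
  · rfl
  · funext s
    show (fun p => I.Lam (Level492.cert I.Lam I.mU I.mN1 I.mN2 I.D (I.wv x.2) (h.Mr s) t p)
      + Level492.certm I.Lam I.mU I.mN1 I.mN2 I.D (I.wv x.2) (h.Mr s) t p
      + Level492.ten (I.A t s) (I.Lam (I.wv x.2)) p + Level492.ten (I.B t s) (I.wv x.2) p)
      = Level492.cert I.Lam I.mU I.mN1 I.mN2 I.D (I.wv x.2) (h.Mr s) (t + 1)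
    rw [cert_succ, hA s, hB s]
    rfl
  · rfl

theorem pop_cert (h : Hyp I CG O P α Pm) (t : ℕ) (x : I.XW) (ht : t < I.L) :
    I.pop t x (h.cert x (t + 1)) = h.cert x t := by
  have hA := (h.mirK_iff _ _).1 (h.A t ht)
  have hB := (h.mirK_iff _ _).1 (h.B t ht)
  refine Ins.ZW.ext ?_ ?_ ?_ ?_
  · rfl
  · show (fun p => recX I.Lam I.D (I.wv x.2) (t + 1) p - I.Lam (recX I.Lam I.D (I.wv x.2) t p)
      - Level492.ten (I.D (t + 1)) (I.wv x.2) p) = recXm I.Lam I.D (I.wv x.2) t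
    rw [recXm_pop]
  · rfl
  · funext s
    show (fun p => Level492.cert I.Lam I.mU I.mN1 I.mN2 I.D (I.wv x.2) (h.Mr s) (t + 1) p
      - I.Lam (Level492.cert I.Lam I.mU I.mN1 I.mN2 I.D (I.wv x.2) (h.Mr s) t p)
      - Level492.ten (I.A t s) (I.Lam (I.wv x.2)) p - Level492.ten (I.B t s) (I.wv x.2) p)
      = Level492.certm I.Lam I.mU I.mN1 I.mN2 I.D (I.wv x.2) (h.Mr s) t
    rw [certm_pop, hA s, hB s]
    rfl

/-! ### the relations of a certificate -/

/-- relations of a certificate: T-side membership of the records and the relations of DefI -/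
def RecT (_ : Hyp I CG O P α Pm) (t : ℕ) (x : I.XW) (z : I.ZW) : Prop :=
  z.X ∈ TW O.C1 I.AW ∧ z.Xm ∈ TW O.C1 I.AW ∧ I.Rec t x z

theorem recX_congr (h : Hyp I CG O P α Pm) (w : I.AW) {t : ℕ} (ht : t ≤ I.L) :
    recX I.Lam I.D w t = recX I.Lam (Dw O P) w t := by
  unfold recX
  refine sum_congr rfl fun i hi => ?_
  have : i ≤ t := by simpa [Nat.lt_succ_iff] using hi
  rw [h.D i (this.trans ht)]

theorem recXm_congr (h : Hyp I CG O P α Pm) (w : I.AW) {t : ℕ} (ht : t ≤ I.L) :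
    recXm I.Lam I.D w t = recXm I.Lam (Dw O P) w t := by
  cases t with
  | zero => rfl
  | succ t => exact h.recX_congr w (by omega)

theorem Dm_congr (h : Hyp I CG O P α Pm) {t : ℕ} (ht : t ≤ I.L) :
    I.Dm t = Level492.Dm (Dw O P) t := by
  cases t with
  | zero => rfl
  | succ t => exact h.D t (by omega)

/-- **record relations** -/
theorem recT_iff (h : Hyp I CG O P α Pm) (t : ℕ) (x : I.XW) (z : I.ZW) (ht : t ≤ I.L) :
    h.RecT t x z ↔ z = h.cert x t := by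
  have htP : t ≤ P.L := h.L ▸ ht
  have hQ : ∀ (E : I.n → K) (X : I.n → I.AW), I.Q (I.wv x.2) E X
      = Level492.Q I.Lam (Um O) (N1 O P) (N2 O P) (I.wv x.2) E X := by
    intro E X
    rw [Ins.Q, h.mU, h.mN1, h.mN2]
  have e1 := rec_iff O P I.Lam (w := I.wv x.2) htP (X := z.X)
  have e2 := recm_iff O P I.Lam (w := I.wv x.2) htP (X := z.Xm)
  have r0 := rec_content O P I.Lam (I.wv x.2) t htP
  constructor
  · rintro ⟨h1, h2, h3, h4, h5, h6, -, -⟩
    have hX : z.X = recX I.Lam I.D (I.wv x.2) t := by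
      rw [h.recX_congr _ ht]
      refine e1.1 ⟨h1, fun τ => ?_⟩
      rw [← hQ, ← h.D t ht, h.s0]
      exact h5 τ
    have hXm : z.Xm = recXm I.Lam I.D (I.wv x.2) t := by
      rw [h.recXm_congr _ ht]
      refine e2.1 ⟨h2, fun τ => ?_⟩
      rw [← hQ, ← h.Dm_congr ht, h.s0]
      exact h6 τ
    refine Ins.ZW.ext hX hXm ?_ ?_
    · funext s
      rw [(h.mir_iff _ _).1 h3 s, hX]
      rfl
    · funext s
      rw [(h.mir_iff _ _).1 h4 s, hXm]
      rfl
  · rintro rfl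
    have c5 : ∀ τ, I.Q (I.wv x.2) (I.D t) (recX I.Lam I.D (I.wv x.2) t) (τ, c.s0') = 0 := by
      intro τ
      rw [hQ, h.recX_congr _ ht, h.D t ht, ← h.s0]
      exact r0.1 τ
    have c6 : ∀ τ, I.Q (I.wv x.2) (I.Dm t) (recXm I.Lam I.D (I.wv x.2) t) (τ, c.s0') = 0 := by
      intro τ
      rw [hQ, h.recXm_congr _ ht, h.Dm_congr ht, ← h.s0]
      exact r0.2 τ
    refine ⟨?_, ?_, (h.mir_iff _ _).2 fun s => rfl, (h.mir_iff _ _).2 fun s => rfl, c5, c6,
      ?_, ?_⟩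
    · show recX I.Lam I.D (I.wv x.2) t ∈ _
      rw [h.recX_congr _ ht]
      exact recX_mem O P I.Lam _ t
    · show recXm I.Lam I.D (I.wv x.2) t ∈ _
      rw [h.recXm_congr _ ht]
      exact recXm_mem O P I.Lam _ t
    · intro s τ
      exact MirMat719.Mir_content (s0 := c.s0') (α := α) (P := Pm) (γ := I.gam) c.s0' _ c5 s τ
    · intro s τ
      exact MirMat719.Mir_content (s0 := c.s0') (α := α) (P := Pm) (γ := I.gam) c.s0' _ c6 s τ

/-! ### zero claims -/

/-- bundles whose component `m` has zero content -/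
def ZA (I : Ins c) (m : c.A.Comp) : Submodule K I.AW where
  carrier := {y | ∀ g a, y (g, c.s0) a m = 0}
  zero_mem' _ _ := rfl
  add_mem' {y z} hy hz g a := by
    show y (g, c.s0) a m + z (g, c.s0) a m = 0
    rw [hy g a, hz g a, add_zero]
  smul_mem' k y hy g a := by
    show k * y (g, c.s0) a m = 0
    rw [hy g a, mul_zero]

theorem Lam_ZA (I : Ins c) (m : c.A.Comp) {y : I.AW} (hy : y ∈ ZA I m) : I.Lam y ∈ ZA I m := by
  intro g a
  show ∑ j, ∑ b, c.lam j a b * y (I.pm (I.mv j) (g, c.s0)) b m = 0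
  refine sum_eq_zero fun j _ => sum_eq_zero fun b _ => ?_
  have : y (I.pm (I.mv j) (g, c.s0)) b m = 0 := hy (I.mv j g) b
  rw [this, mul_zero]

theorem chain_ZA (I : Ins c) (m : c.A.Comp) {w : I.AW} (hw : w ∈ ZA I m) :
    ∀ j, chain I.Lam w j ∈ ZA I m
  | 0 => hw
  | 1 => Lam_ZA I m hw
  | j + 2 => (ZA I m).add_mem (Lam_ZA I m (chain_ZA I m hw (j + 1))) (chain_ZA I m hw j)

/-- the full record shows component `m` zero iff the content component vanishes -/
theorem cz_iff (h : Hyp I CG O P α Pm) (x : I.XW) (m : c.A.Comp) :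
    I.CZ (h.cert x I.L) m ↔ c.A.CZ I.act I.pubC (I.con x) m := by
  have h0 := (h.cd).comp_zero_iff x m
  refine Iff.trans ?_ h0
  constructor
  · intro hz g
    have h1 := hz (P.tt P.L, c.s0') g 0
    have h2 : (h.cert x I.L).X (P.tt P.L, c.s0') = I.wv x.2 := by
      show recX I.Lam I.D (I.wv x.2) I.L (P.tt P.L, c.s0') = _
      rw [h.recX_congr _ le_rfl, recX, Finset.sum_apply]
      rw [Finset.sum_eq_single P.L]
      · rw [h.L, Nat.sub_self]
        show Dw O P P.L (P.tt P.L, c.s0') • chain I.Lam (I.wv x.2) 0 = _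
        rw [← h.s0, Dw_s0, if_pos rfl, one_smul]
        rfl
      · intro i hi hne
        show Dw O P i (P.tt P.L, c.s0') • _ = 0
        rw [← h.s0, Dw_s0, if_neg, zero_smul]
        intro he
        have hi' : i ≤ P.L := by
          have := Finset.mem_range.1 hi
          rw [h.L] at this
          omega
        exact hne (P.inj _ _ le_rfl hi' he).symm
      · intro hn
        exact absurd (Finset.mem_range.2 (by rw [h.L]; omega)) hn
    rw [h2] at h1
    have h3 : I.wv x.2 (g, c.s0) 0 m = I.evalW (c.A.comp m) x.2 (g, c.s0) := by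
      simp [Ins.wv]
    rw [h3] at h1
    exact h1
  · intro hz
    have hw : I.wv x.2 ∈ ZA I m := by
      intro g a
      show (if a = 0 then I.evalW (c.A.comp m) x.2 (g, c.s0) else 0) = 0
      split_ifs with ha
      · exact hz g
      · rfl
    intro p g a
    show recX I.Lam I.D (I.wv x.2) I.L p (g, c.s0) a m = 0
    have : recX I.Lam I.D (I.wv x.2) I.L p ∈ ZA I m := by
      rw [recX, Finset.sum_apply]
      exact (ZA I m).sum_mem fun i _ => (ZA I m).smul_mem _ (chain_ZA I m hw _)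
    exact this g a

theorem iz_iff (h : Hyp I CG O P α Pm) (x : I.XW) (hx : ∀ i, x.2 i ∈ CG 1) (i : c.A.Idl) :
    I.IZ x i ↔ c.A.IZ I.act I.pubC (I.con x) i := (h.cd).idl_zero_iff h.wf x hx i

/-- legal content words -/
def IsL (_ : Hyp I CG O P α Pm) (x : I.XW) : Prop :=
  (∀ i, x.2 i ∈ CG 1) ∧ c.A.Legal I.act I.pubC x.1 (I.con x)

def StT (_ : Hyp I CG O P α Pm) (x : I.XW) (z : I.ZW) : Prop :=
  (∀ i, x.2 i ∈ CG 1) ∧ I.St x z

theorem st_iff (h : Hyp I CG O P α Pm) (x : I.XW) : h.StT x (h.cert x I.L) ↔ h.IsL x := by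
  constructor
  · rintro ⟨h1, h2, h3⟩
    exact ⟨h1, fun m hm => (h.cz_iff x m).1 (h2 m hm), fun i hi => (h.iz_iff x h1 i).1 (h3 i hi)⟩
  · rintro ⟨h1, h2, h3⟩
    exact ⟨h1, fun m hm => (h.cz_iff x m).2 (h2 m hm), fun i hi => (h.iz_iff x h1 i).2 (h3 i hi)⟩

theorem en_iff (h : Hyp I CG O P α Pm) (ρ : c.A.Tr) (x : I.XW) (hx : h.IsL x) :
    I.En ρ x (h.cert x I.L) ↔ x.1 = c.A.src ρ ∧ c.A.En I.act I.pubC ρ (I.con x) := by
  constructor
  · rintro ⟨h1, h2, h3⟩
    exact ⟨h1, fun m hm => (h.cz_iff x m).1 (h2 m hm),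
      fun i hi => (h.iz_iff x hx.1 i).1 (h3 i hi)⟩
  · rintro ⟨h1, h2, h3⟩
    exact ⟨h1, fun m hm => (h.cz_iff x m).2 (h2 m hm),
      fun i hi => (h.iz_iff x hx.1 i).2 (h3 i hi)⟩

theorem bk_iff (h : Hyp I CG O P α Pm) (ρ : c.A.Tr) (x : I.XW) (hx : h.IsL x) :
    I.Bk ρ x (h.cert x I.L) ↔ x.1 = c.A.tgt ρ ∧ c.A.Bk I.act I.pubC ρ (I.con x) := by
  constructor
  · rintro ⟨h1, h2, h3⟩
    exact ⟨h1, fun m hm => (h.cz_iff x m).1 (h2 m hm),
      fun i hi => (h.iz_iff x hx.1 i).1 (h3 i hi)⟩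
  · rintro ⟨h1, h2, h3⟩
    exact ⟨h1, fun m hm => (h.cz_iff x m).2 (h2 m hm),
      fun i hi => (h.iz_iff x hx.1 i).2 (h3 i hi)⟩

/-- **the instance** -/
noncomputable def lmI (h : Hyp I CG O P α Pm) : LM I.XW I.ZW c.A.Tr where
  L := I.L
  x0 := I.xs
  xz := I.xz
  zz := I.zz
  IsL := h.IsL
  en := fun ρ x => x.1 = c.A.src ρ ∧ c.A.En I.act I.pubC ρ (I.con x)
  bk := fun ρ x => x.1 = c.A.tgt ρ ∧ c.A.Bk I.act I.pubC ρ (I.con x)
  up := I.up
  dn := I.dn
  cert := h.cert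
  push := I.push
  pop := I.pop
  ent := I.ent
  Rec := h.RecT
  St := h.StT
  En := I.En
  Bk := I.Bk
  isL0 := ⟨h.x0, h.leg0⟩
  bk0 := fun ρ hρ => h.bk0 ρ hρ.1 hρ.2
  fwd := fun ρ x hx he => (h.cd).fwd h.wf h.ok ρ x hx he
  bwd := fun ρ x hx he => (h.cd).bwd h.wf h.ok ρ x hx he
  en_uniq := fun ρ ρ' x hx he he' => (h.cd).en_uniq h.ok ρ ρ' x hx he he'
  bk_uniq := fun ρ ρ' x hx he he' => (h.cd).bk_uniq h.ok ρ ρ' x hx he he'
  push_cert := h.push_cert
  pop_cert := h.pop_cert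
  ent_cert := h.ent_cert
  Rec_iff := h.recT_iff
  St_iff := h.st_iff
  En_iff := fun ρ x hx => h.en_iff ρ x hx
  Bk_iff := fun ρ x hx => h.bk_iff ρ x hx

end Hyp

end Crest.Agent.R289.LMI482
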