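import Crest.Agent.R289.DefC_143
import Crest.Agent.R289.Builder_490

/-!
# Row 289, block C: the P-level content machine of `DefC_143`, part 1

`legal_iff` (LEMMA P2): the legal contents of a stage are exactly the encoded states `(s, t, v)`.
-/

set_option autoImplicit false
set_option linter.unusedSectionVars false

namespace Crest.Agent.R289.DefC

open Crest.Agent.R289

variable {K : Type} [CommRing K] [IsDomain K]
variable {Γ G Λ : Type} {J : ℕ} [DecidableEq Γ] [DecidableEq Λ]
variable {act : G → Equiv.Perm Γ} {out : Λ} {P : Layout Γ G Λ J}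

/-! ### bits -/

@[simp] theorem bt_false : bt K false = 0 := by simp [bt]

@[simp] theorem bt_true : bt K true = 1 := by simp [bt]

theorem bt_inj {a b : Bool} (h : bt K a = bt K b) : a = b := by
  cases a <;> cases b <;> simp at h <;> rfl

theorem bt_mul_self (a : Bool) : bt K a * bt K a = bt K a := by cases a <;> simp

theorem bt_of_sq {x : K} (h : x * x = x) : ∃ b : Bool, x = bt K b := by
  have h' : x * (x - 1) = 0 := by rw [mul_sub, h, mul_one, sub_self]
  rcases mul_eq_zero.1 h' with h0 | h1
  · exact ⟨false, by simpa using h0⟩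
  · exact ⟨true, by simpa using sub_eq_zero.1 h1⟩

theorem bt_decide (p : Prop) [Decidable p] : bt K (decide p) = if p then 1 else 0 := by
  by_cases h : p <;> simp [h, bt]

/-! ### runs -/

section run

theorem run_succ (c : Bool) (x : Γ → Bool) (t : ℕ) (a : Γ) (l : Λ) :
    P.run act c x (t + 1) a l = match P.ins c t with
      | none => P.run act c x t a l
      | some (l', k) => if (P.vis t).1 = a ∧ l' = l then k.eval act x (P.run act c x t) a
          else P.run act c x t a l := rfl

/-- a cell not written before `t` is `false` -/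
theorem run_unwritten (c : Bool) (x : Γ → Bool) (a : Γ) (l : Λ) (t : ℕ)
    (h : ∀ s < t, ∀ k, P.ins c s = some (l, k) → (P.vis s).1 ≠ a) :
    P.run act c x t a l = false := by
  induction t with
  | zero => rfl
  | succ t ih =>
    rw [run_succ]
    have ih' := ih fun s hs => h s (by omega)
    cases hi : P.ins c t with
    | none => simpa using ih'
    | some q =>
      obtain ⟨l', k⟩ := q
      simp only
      rw [if_neg, ih']
      rintro ⟨h1, h2⟩
      subst h2
      exact h t (by omega) k hi h1

/-- a cell written at `s < t` keeps its value -/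
theorem run_written (hP : P.OK act out) (c : Bool) (x : Γ → Bool) (l : Λ) (k : Op G Λ) (s : ℕ)
    (hs : s < P.L) (hi : P.ins c s = some (l, k)) (t : ℕ) (hst : s < t) (ht : t ≤ P.L) :
    P.run act c x t (P.vis s).1 l = k.eval act x (P.run act c x s) (P.vis s).1 := by
  induction t with
  | zero => omega
  | succ t ih =>
    rw [run_succ]
    rcases Nat.lt_or_ge s t with h | h
    · have ih' := ih h (by omega)
      cases hj : P.ins c t with
      | none => simpa using ih'
      | some q =>
        obtain ⟨l', k'⟩ := q
        simp only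
        rw [if_neg, ih']
        rintro ⟨h1, h2⟩
        subst h2
        have := hP.once c t s l' k' k (by omega) hs hj hi h1
        omega
    · have : t = s := by omega
      subst this
      rw [hi]
      simp

/-- the value of an operation does not change after its instruction -/
theorem eval_stable (hP : P.OK act out) (c : Bool) (x : Γ → Bool) (l : Λ) (k : Op G Λ) (s : ℕ)
    (hs : s < P.L) (hi : P.ins c s = some (l, k)) (t : ℕ) (hst : s ≤ t) (ht : t ≤ P.L) :
    k.eval act x (P.run act c x t) (P.vis s).1 = k.eval act x (P.run act c x s) (P.vis s).1 := by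
  cases k with
  | inp => rfl
  | cst b => rfl
  | nand g1 l1 g2 l2 =>
    obtain ⟨⟨s1, h1, k1, hi1, ha1⟩, ⟨s2, h2, k2, hi2, ha2⟩⟩ := hP.arg c s l g1 l1 g2 l2 hs hi
    simp only [Op.eval]
    rw [← ha1, ← ha2, run_written hP c x l1 k1 s1 (by omega) hi1 t (by omega) ht,
      run_written hP c x l1 k1 s1 (by omega) hi1 s h1 (by omega),
      run_written hP c x l2 k2 s2 (by omega) hi2 t (by omega) ht,
      run_written hP c x l2 k2 s2 (by omega) hi2 s h2 (by omega)]

/-- value of an operation in `K` -/
def opK (act : G → Equiv.Perm Γ) (x : Γ → K) (F : Λ → Γ → K) (a : Γ) : Op G Λ → K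
  | .inp => x a
  | .cst b => bt K b
  | .nand g l g' l' => 1 - F l (act g a) * F l' (act g' a)

open Classical in
/-- the transcript relations of program `c` at time `t` -/
structure TrRel (act : G → Equiv.Perm Γ) (P : Layout Γ G Λ J) (c : Bool) (t : ℕ) (x : Γ → K)
    (F : Λ → Γ → K) : Prop where
  unw : ∀ l a, (¬ ∃ s < P.L, (P.vis s).1 = a ∧ ∃ k, P.ins c s = some (l, k)) → F l a = 0
  cell : ∀ j l k a s, s < P.L → P.vis s = (a, j) → P.ins c s = some (l, k) →
    F l a = (if s < t then 1 else 0) * opK act x F a k

theorem opK_bt (x : Γ → Bool) (f : Γ → Λ → Bool) (F : Λ → Γ → K) (a : Γ) (k : Op G Λ)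
    (h : ∀ g1 l1 g2 l2, k = .nand g1 l1 g2 l2 →
      F l1 (act g1 a) = bt K (f (act g1 a) l1) ∧ F l2 (act g2 a) = bt K (f (act g2 a) l2)) :
    opK act (fun a => bt K (x a)) F a k = bt K (k.eval act x f a) := by
  cases k with
  | inp => rfl
  | cst b => rfl
  | nand g1 l1 g2 l2 =>
    obtain ⟨h1, h2⟩ := h g1 l1 g2 l2 rfl
    simp only [opK, Op.eval, h1, h2]
    cases f (act g1 a) l1 <;> cases f (act g2 a) l2 <;> simp

/-- **transcripts are unique** -/
theorem trRel_iff (hP : P.OK act out) (c : Bool) (t : ℕ) (ht : t ≤ P.L) (x : Γ → Bool)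
    (F : Λ → Γ → K) :
    TrRel act P c t (fun a => bt K (x a)) F ↔ ∀ l a, F l a = bt K (P.run act c x t a l) := by
  constructor
  · intro h
    have key : ∀ n : ℕ, ∀ s, s < n → s < P.L → ∀ l k, P.ins c s = some (l, k) →
        F l (P.vis s).1 = bt K (P.run act c x t (P.vis s).1 l) := by
      intro n
      induction n with
      | zero => intro s hs; omega
      | succ n ih =>
        intro s hs hsL l k hi
        rw [h.cell (P.vis s).2 l k (P.vis s).1 s hsL rfl hi]
        by_cases hst : s < t
        · rw [if_pos hst, one_mul, run_written hP c x l k s hsL hi t hst ht,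
            ← eval_stable hP c x l k s hsL hi t (by omega) ht]
          apply opK_bt
          intro g1 l1 g2 l2 hk
          subst hk
          obtain ⟨⟨s1, h1, k1, hi1, ha1⟩, ⟨s2, h2, k2, hi2, ha2⟩⟩ :=
            hP.arg c s l g1 l1 g2 l2 hsL hi
          rw [← ha1, ← ha2]
          exact ⟨ih s1 (by omega) (by omega) l1 k1 hi1, ih s2 (by omega) (by omega) l2 k2 hi2⟩
        · rw [if_neg hst, zero_mul, run_unwritten c x (P.vis s).1 l t, bt_false]
          intro s' hs' k' hi' he
          have := hP.once c s' s l k' k (by omega) hsL hi' hi he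
          omega
    intro l a
    by_cases hw : ∃ s < P.L, (P.vis s).1 = a ∧ ∃ k, P.ins c s = some (l, k)
    · obtain ⟨s, hs, rfl, k, hi⟩ := hw
      exact key (s + 1) s (by omega) hs l k hi
    · rw [h.unw l a hw, run_unwritten c x a l t, bt_false]
      intro s hs k hi he
      exact hw ⟨s, by omega, he, k, hi⟩
  · intro h
    refine ⟨fun l a hw => ?_, fun j l k a s hs hv hi => ?_⟩
    · rw [h, run_unwritten c x a l t, bt_false]
      intro s hs k hi he
      exact hw ⟨s, by omega, he, k, hi⟩
    · have ha : (P.vis s).1 = a := by rw [hv]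
      subst ha
      rw [h]
      by_cases hst : s < t
      · rw [if_pos hst, one_mul, run_written hP c x l k s hs hi t hst ht,
          ← eval_stable hP c x l k s hs hi t (by omega) ht]
        symm
        apply opK_bt
        intro g1 l1 g2 l2 _
        exact ⟨h _ _, h _ _⟩
      · rw [if_neg hst, zero_mul, run_unwritten c x (P.vis s).1 l t, bt_false]
        intro s' hs' k' hi' he
        have := hP.once c s' s l k' k (by omega) hs hi' hi he
        omega

end run

/-! ### names -/

section names

theorem nm_al (hP : P.OK act out) (v : Fin P.n → Bool) (i : Fin P.n) : P.nm v (P.al i) = v i := by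
  unfold Layout.nm
  cases h : v i with
  | true => exact decide_eq_true ⟨i, rfl, h⟩
  | false =>
    apply decide_eq_false
    rintro ⟨j, hj, hv⟩
    rw [hP.al_inj hj, h] at hv
    exact Bool.false_ne_true hv

theorem nm_off (v : Fin P.n → Bool) (a : Γ) (h : ¬ ∃ i, P.al i = a) : P.nm v a = false := by
  unfold Layout.nm
  apply decide_eq_false
  rintro ⟨j, hj, -⟩
  exact h ⟨j, hj⟩

theorem nm_zero : P.nm (fun _ => false) = fun _ => false := by
  funext a
  unfold Layout.nm
  simp

theorem nm_inj (hP : P.OK act out) {v w : Fin P.n → Bool} (h : ∀ a, P.nm v a = P.nm w a) :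
    v = w := by
  funext i
  rw [← nm_al hP v i, ← nm_al hP w i, h]

theorem name_of (hP : P.OK act out) (X : Γ → K) (h1 : ∀ a, X a * X a = X a)
    (h2 : ∀ a, (¬ ∃ i, P.al i = a) → X a = 0) : ∃ v, ∀ a, X a = bt K (P.nm v a) := by
  classical
  have h3 : ∀ i : Fin P.n, ∃ b : Bool, X (P.al i) = bt K b := fun i => bt_of_sq (h1 _)
  choose v hv using h3
  refine ⟨v, fun a => ?_⟩
  by_cases ha : ∃ i, P.al i = a
  · obtain ⟨i, rfl⟩ := ha
    rw [nm_al hP, hv]
  · rw [nm_off v a ha, h2 a ha, bt_false]

/-- the `out` lane of the full transcript is the name word of the output -/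
theorem out_lane (hP : P.OK act out) (c : Bool) (v : Fin P.n → Bool) (a : Γ) :
    P.run act c (P.nm v) P.L a out = P.nm (P.outp act out c v) a := by
  by_cases ha : ∃ i, P.al i = a
  · obtain ⟨i, rfl⟩ := ha
    rw [nm_al hP]
    rfl
  · rw [nm_off _ a ha]
    apply run_unwritten
    intro s hs k hi he
    obtain ⟨i, hi'⟩ := hP.out_al c s k hs hi
    exact ha ⟨i, hi'.trans he⟩

end names

/-! ### evaluation of the components -/

section comps
variable (r : Rg Λ J → Γ → K)

/-- the walk in the form of `Builder490` -/
def wk (hP : P.OK act out) : Builder490.Walk Γ G (Fin J) act where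
  L := P.L
  vis := P.vis
  dir := P.dir
  inj := fun a ha b hb h => hP.inj a b ha hb h
  step := hP.step

theorem evalC_sum (b : Pb G Λ J → Γ → K) (l : List (Ex K G Λ J)) (x : Γ) :
    (PE.sum l).evalC act b r x = (l.map fun e => e.evalC act b r x).sum := by
  induction l with
  | nil => rfl
  | cons e l ih =>
    have : (PE.sum (e :: l)).evalC act b r x = e.evalC act b r x + (PE.sum l).evalC act b r x := rfl
    rw [this, ih, List.map_cons, List.sum_cons]

@[simp] theorem ev_u (x : Γ) : (u : Ex K G Λ J).evalC act (pubC P K) r x = 1 := rfl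

@[simp] theorem ev_sub (b : Pb G Λ J → Γ → K) (e f : Ex K G Λ J) (x : Γ) :
    (PE.sub e f).evalC act b r x = e.evalC act b r x - f.evalC act b r x := by
  simp [PE.sub, PE.evalC, sub_eq_add_neg]

end comps

/-- legality in plain words -/
structure LegalP (act : G → Equiv.Perm Γ) (out : Λ) (P : Layout Γ G Λ J) (hP : P.OK act out)
    (s : Sg) (r : Rg Λ J → Γ → K) : Prop where
  bool : ∀ q x, r q x * r q x = r q x
  ptr : Builder490.MaskRel (wk hP) (fun j => r (.D j)) (fun j => r (.M j))
  inX : ∀ a, (¬ ∃ i, P.al i = a) → r .X a = 0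
  inY : ∀ a, (¬ ∃ i, P.al i = a) → r .Y a = 0
  unw : ∀ c l, (c = s.prog ∨ s = .b ∨ s = .c) →
    ∀ a, (¬ ∃ s' < P.L, (P.vis s').1 = a ∧ ∃ k, P.ins c s' = some (l, k)) → r (.F c l) a = 0
  cellM : ∀ j l k a s', s' < P.L → P.vis s' = (a, j) → P.ins s.prog s' = some (l, k) →
    r (.F s.prog l) a = r (.M j) a *
      opK act (r (if s.prog then .Y else .X)) (fun l => r (.F s.prog l)) a k
  cellF : s = .b ∨ s = .c → ∀ j l k a s', s' < P.L → P.vis s' = (a, j) →
    P.ins (!s.prog) s' = some (l, k) →
    r (.F (!s.prog) l) a = opK act (r (if !s.prog then .Y else .X)) (fun l => r (.F (!s.prog) l)) a k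
  Y0 : s = .a → ∀ a, r .Y a = 0
  F0a : s = .a → ∀ l a, r (.F true l) a = 0
  YS : s = .b → ∀ a, r .Y a = r (.F false out) a
  XP : s = .c → ∀ a, r .X a = r (.F true out) a
  X0 : s = .d → ∀ a, r .X a = 0
  F0d : s = .d → ∀ l a, r (.F false l) a = 0

theorem opEx_eval (r : Rg Λ J → Γ → K) (c : Bool) (k : Op G Λ) (x : Γ) :
    (k.ex c : Ex K G Λ J).evalC act (pubC P K) r x =
      opK act (r (if c then .Y else .X)) (fun l => r (.F c l)) x k := by
  cases k <;> simp [Op.ex, PE.evalC, opK]

section pubs
variable (j j' : Fin J) (g : Γ) (c : Bool) (l : Λ) (k : Op G Λ)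

theorem wk_Vis (hP : P.OK act out) : (wk hP).Vis K j g = pubC P K (.Vis j : Pb G Λ J) g := by
  simp only [Builder490.Walk.Vis, pubC]
  by_cases h : ∃ s ≤ P.L, P.vis s = (g, j)
  · rw [if_pos (by exact h), if_pos h]
  · rw [if_neg (by exact h), if_neg h]

theorem wk_E (hP : P.OK act out) (γ : G) :
    (wk hP).E K j γ j' g = pubC P K (.E j γ j' : Pb G Λ J) g := by
  simp only [Builder490.Walk.E, pubC]
  by_cases h : ∃ s < P.L, P.vis s = (g, j) ∧ P.dir s = γ ∧ (P.vis (s + 1)).2 = j'
  · rw [if_pos (by exact h), if_pos h]
  · rw [if_neg (by exact h), if_neg h]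

theorem ptr_eq (t : ℕ) : Builder490.ptr K P.vis t (g, j) = if P.vis t = (g, j) then 1 else 0 := by
  unfold Builder490.ptr
  by_cases h : P.vis t = (g, j)
  · rw [if_pos h.symm, if_pos h]
  · rw [if_neg (fun h' => h h'.symm), if_neg h]

theorem ptr_Fi : Builder490.ptr K P.vis 0 (g, j) = pubC P K (.Fi j : Pb G Λ J) g := by
  rw [ptr_eq]
  simp only [pubC]
  split_ifs <;> rfl

theorem ptr_La : Builder490.ptr K P.vis P.L (g, j) = pubC P K (.La j : Pb G Λ J) g := by
  rw [ptr_eq]
  simp only [pubC]
  split_ifs <;> rfl

theorem pre_eq (t : ℕ) [Decidable (∃ s' < t, P.vis s' = (g, j))] :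
    Builder490.pre K P.vis t (g, j) = if ∃ s' < t, P.vis s' = (g, j) then 1 else 0 := by
  unfold Builder490.pre
  by_cases h : ∃ s' < t, P.vis s' = (g, j)
  · have h' : ∃ j_1 < t, (g, j) = P.vis j_1 := by
      obtain ⟨s, h1, h2⟩ := h
      exact ⟨s, h1, h2.symm⟩
    rw [if_pos h', if_pos h]
  · have h' : ¬ ∃ j_1 < t, (g, j) = P.vis j_1 := by
      rintro ⟨s, h1, h2⟩
      exact h ⟨s, h1, h2.symm⟩
    rw [if_neg h', if_neg h]

theorem pub_W (x : K) (h : ∀ s < P.L, P.vis s = (g, j) → P.ins c s = some (l, k) → x = 0) :
    pubC P K (.W c j l k : Pb G Λ J) g * x = 0 := by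
  classical
  simp only [pubC]
  split_ifs with h'
  · obtain ⟨s, h1, h2, h3⟩ := h'
    rw [h s h1 h2 h3, mul_zero]
  · rw [zero_mul]

theorem of_pub_W (x : K) (h : pubC P K (.W c j l k : Pb G Λ J) g * x = 0) (s : ℕ) (hs : s < P.L)
    (h1 : P.vis s = (g, j)) (h2 : P.ins c s = some (l, k)) : x = 0 := by
  classical
  simp only [pubC] at h
  rwa [if_pos ⟨s, hs, h1, h2⟩, one_mul] at h

theorem pub_Wc (x : K) (h : (¬ ∃ s < P.L, (P.vis s).1 = g ∧ ∃ k, P.ins c s = some (l, k)) → x = 0) :
    (1 - pubC P K (.Wc c l : Pb G Λ J) g) * x = 0 := by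
  classical
  simp only [pubC]
  split_ifs with h'
  · rw [sub_self, zero_mul]
  · rw [h h', mul_zero]

theorem of_pub_Wc (x : K) (h : (1 - pubC P K (.Wc c l : Pb G Λ J) g) * x = 0)
    (h1 : ¬ ∃ s < P.L, (P.vis s).1 = g ∧ ∃ k, P.ins c s = some (l, k)) : x = 0 := by
  classical
  simp only [pubC] at h
  rwa [if_neg h1, sub_zero, one_mul] at h

theorem pub_IN (x : K) (h : (¬ ∃ i, P.al i = g) → x = 0) :
    (1 - pubC P K (.IN : Pb G Λ J) g) * x = 0 := by
  classical
  simp only [pubC]
  split_ifs with h'
  · rw [sub_self, zero_mul]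
  · rw [h h', mul_zero]

theorem of_pub_IN (x : K) (h : (1 - pubC P K (.IN : Pb G Λ J) g) * x = 0)
    (h1 : ¬ ∃ i, P.al i = g) : x = 0 := by
  classical
  simp only [pubC] at h
  rwa [if_neg h1, sub_zero, one_mul] at h

end pubs

theorem legal_iff_legalP (hP : P.OK act out) (s : Sg) (r : Rg Λ J → Γ → K) :
    (mach (K := K) (G := G) (J := J) out).Legal act (pubC P K) s r ↔ LegalP act out P hP s r := by
  classical
  constructor
  · rintro ⟨h1, h2⟩
    have E : ∀ c : Cp G Λ J, lg s c → ∀ x, (cex c : Ex K G Λ J).evalC act (pubC P K) r x = 0 :=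
      fun c hc => h1 c hc
    have I : ∀ i : Id1 Λ J, lgI s i → ∀ x,
        (iex out i : Ex K G Λ J).evalC act (pubC P K) r x = 0 := fun i hi => h2 i hi
    refine ⟨fun q x => ?_, ⟨fun j g => ?_, fun j g => ?_, fun j g => ?_, fun j g => ?_,
      fun j g => ?_, fun j g => ?_, fun j g => ?_, fun j γ j' g => ?_⟩, fun a ha => ?_,
      fun a ha => ?_, fun c l hc a ha => ?_, fun j l k a s' hs hv hi => ?_,
      fun hs0 j l k a s' hs hv hi => ?_, fun hs a => ?_, fun hs l a => ?_, fun hs a => ?_,
      fun hs a => ?_, fun hs a => ?_, fun hs l a => ?_⟩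
    · have := E (.bool q) (by cases s <;> trivial) x
      simpa only [cex, PE.evalC, ev_sub, ev_u, one_mul, sub_eq_zero] using this
    · have := E (.bool (.D j)) (by cases s <;> trivial) g
      simpa only [cex, PE.evalC, ev_sub, ev_u, one_mul, sub_eq_zero] using this
    · have := E (.bool (.M j)) (by cases s <;> trivial) g
      simpa only [cex, PE.evalC, ev_sub, ev_u, one_mul, sub_eq_zero] using this
    · have := E (.dm j) (by cases s <;> trivial) g
      simpa only [cex, PE.evalC, ev_sub, ev_u, one_mul, sub_eq_zero] using this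
    · have := E (.visD j) (by cases s <;> trivial) g
      rw [wk_Vis]
      simpa only [cex, PE.evalC, ev_sub, ev_u, one_mul] using this
    · have := E (.visM j) (by cases s <;> trivial) g
      rw [wk_Vis]
      simpa only [cex, PE.evalC, ev_sub, ev_u, one_mul] using this
    · have := E (.fi j) (by cases s <;> trivial) g
      have e : Builder490.ptr K (wk hP).vis 0 (g, j) = pubC P K (.Fi j : Pb G Λ J) g :=
        ptr_Fi _ _
      rw [e]
      simpa only [cex, PE.evalC, ev_sub, ev_u, one_mul] using this
    · have := E (.la j) (by cases s <;> trivial) g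
      have e : Builder490.ptr K (wk hP).vis (wk hP).L (g, j) = pubC P K (.La j : Pb G Λ J) g :=
        ptr_La _ _
      rw [e]
      simpa only [cex, PE.evalC, ev_sub, ev_u, one_mul] using this
    · have := E (.step j γ j') (by cases s <;> trivial) g
      rw [wk_E, sub_sub]
      simpa only [cex, PE.evalC, ev_sub, ev_u, one_mul] using this
    · have := E .inX (by cases s <;> trivial) a
      simp only [cex, PE.evalC, ev_sub, ev_u, one_mul] at this
      exact of_pub_IN (G := G) (Λ := Λ) (J := J) _ _ this ha
    · have := E .inY (by cases s <;> trivial) a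
      simp only [cex, PE.evalC, ev_sub, ev_u, one_mul] at this
      exact of_pub_IN (G := G) (Λ := Λ) (J := J) _ _ this ha
    · have := E (.unw c l) (by cases s <;> simpa [lg] using hc) a
      simp only [cex, PE.evalC, ev_sub, ev_u, one_mul] at this
      exact of_pub_Wc _ _ _ _ this ha
    · have := E (.cell s.prog false j l k) (by cases s <;> simp [lg]) a
      simp only [cex, PE.evalC, ev_sub, ev_u, one_mul, opEx_eval] at this
      have h3 := of_pub_W _ _ _ _ _ _ this s' hs hv hi
      simpa [PE.evalC, sub_eq_zero] using h3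
    · have := E (.cell (!s.prog) true j l k)
        (by rcases hs0 with h | h <;> subst h <;> simp [lg, Sg.prog]) a
      simp only [cex, PE.evalC, ev_sub, ev_u, one_mul, opEx_eval] at this
      have h3 := of_pub_W _ _ _ _ _ _ this s' hs hv hi
      have h4 : pubC P K (.Full j : Pb G Λ J) a = 1 := by
        simp only [pubC]
        rw [if_pos ⟨s', hs, hv⟩]
      simpa [PE.evalC, sub_eq_zero, h4] using h3
    · subst hs
      exact I .Y0 trivial a
    · subst hs
      exact I (.F0 true l) rfl a
    · subst hs
      have := I .YS trivial a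
      simpa only [iex, PE.evalC, ev_sub, sub_eq_zero] using this
    · subst hs
      have := I .XP trivial a
      simpa only [iex, PE.evalC, ev_sub, sub_eq_zero] using this
    · subst hs
      exact I .X0 trivial a
    · subst hs
      exact I (.F0 false l) rfl a
  · intro h
    have hm := h.ptr
    refine ⟨fun c hc x => ?_, fun i hi x => ?_⟩
    · change (cex c : Ex K G Λ J).evalC act (pubC P K) r x = 0
      cases c with
      | bool q =>
        simp only [cex, PE.evalC, ev_sub, ev_u, one_mul, sub_eq_zero]
        exact h.bool q x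
      | dm j =>
        simp only [cex, PE.evalC, ev_sub, ev_u, one_mul]
        exact hm.dm j x
      | visD j =>
        simp only [cex, PE.evalC, ev_sub, ev_u, one_mul]
        rw [← wk_Vis j x hP]
        exact hm.offD j x
      | visM j =>
        simp only [cex, PE.evalC, ev_sub, ev_u, one_mul]
        rw [← wk_Vis j x hP]
        exact hm.offM j x
      | inX =>
        simp only [cex, PE.evalC, ev_sub, ev_u, one_mul]
        exact pub_IN (G := G) (Λ := Λ) (J := J) _ _ (h.inX x)
      | inY =>
        simp only [cex, PE.evalC, ev_sub, ev_u, one_mul]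
        exact pub_IN (G := G) (Λ := Λ) (J := J) _ _ (h.inY x)
      | step j g j' =>
        simp only [cex, PE.evalC, ev_sub, ev_u, one_mul]
        rw [← wk_E j j' x hP g, ← sub_sub]
        exact hm.step j g j' x
      | fi j =>
        simp only [cex, PE.evalC, ev_sub, ev_u, one_mul]
        have e : Builder490.ptr K (wk hP).vis 0 (x, j) = pubC P K (.Fi j : Pb G Λ J) x :=
          ptr_Fi _ _
        rw [← e]
        exact hm.first j x
      | la j =>
        simp only [cex, PE.evalC, ev_sub, ev_u, one_mul]
        have e : Builder490.ptr K (wk hP).vis (wk hP).L (x, j) =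
            pubC P K (.La j : Pb G Λ J) x := ptr_La _ _
        rw [← e]
        exact hm.last j x
      | unw c l =>
        simp only [cex, PE.evalC, ev_sub, ev_u, one_mul]
        exact pub_Wc _ _ _ _ (h.unw c l (by cases s <;> simpa [mach, lg] using hc) x)
      | cell c f j l k =>
        simp only [cex, PE.evalC, ev_sub, ev_u, one_mul, opEx_eval]
        apply pub_W
        intro s' hs hv hi
        have hc' : (c = s.prog ∧ f = false) ∨
            (c ≠ s.prog ∧ f = true ∧ (s = .b ∨ s = .c)) := by
          cases s <;> simpa [mach, lg] using hc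
        rcases hc' with ⟨rfl, rfl⟩ | ⟨hc1, rfl, hc2⟩
        · rw [h.cellM j l k x s' hs hv hi]
          simp [PE.evalC]
        · have hc3 : c = !s.prog := by
            cases c <;> cases hp : s.prog <;> simp_all
          subst hc3
          rw [h.cellF hc2 j l k x s' hs hv hi]
          have h4 : pubC P K (.Full j : Pb G Λ J) x = 1 := by
            simp only [pubC]
            rw [if_pos ⟨s', hs, hv⟩]
          simp [PE.evalC, h4]
      | gE j g j' p => cases s <;> exact absurd hc (by simp [mach, lg])
      | gN c j p => cases s <;> exact absurd hc (by simp [mach, lg])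
      | gW c j l k p => cases s <;> exact absurd hc (by simp [mach, lg])
      | gA a β p => cases s <;> exact absurd hc (by simp [mach, lg])
    · change (iex out i : Ex K G Λ J).evalC act (pubC P K) r x = 0
      have hi' : lgI s i := hi
      clear hi
      cases i with
      | D j => cases s <;> exact hi'.elim
      | d0 j => cases s <;> exact hi'.elim
      | dL j => cases s <;> exact hi'.elim
      | X0 =>
        cases s with
        | d => exact h.X0 rfl x
        | _ => exact hi'.elim
      | Y0 =>
        cases s with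
        | a => exact h.Y0 rfl x
        | _ => exact hi'.elim
      | F0 c l =>
        cases s with
        | a =>
          have hc : c = true := hi'
          subst hc
          exact h.F0a rfl l x
        | d =>
          have hc : c = false := hi'
          subst hc
          exact h.F0d rfl l x
        | _ => exact hi'.elim
      | YS =>
        cases s with
        | b =>
          simp only [iex, PE.evalC, ev_sub, sub_eq_zero]
          exact h.YS rfl x
        | _ => exact hi'.elim
      | XP =>
        cases s with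
        | c =>
          simp only [iex, PE.evalC, ev_sub, sub_eq_zero]
          exact h.XP rfl x
        | _ => exact hi'.elim

/-! ### encoded states -/

section encoded
variable (act out P K)

theorem enc_X (s : Sg) (t : ℕ) (v : Fin P.n → Bool) (a : Γ) :
    encC act out P K s t v (.X : Rg Λ J) a = bt K (P.nm (P.nX act out s v) a) := rfl

theorem enc_Y (s : Sg) (t : ℕ) (v : Fin P.n → Bool) (a : Γ) :
    encC act out P K s t v (.Y : Rg Λ J) a = bt K (P.nm (P.nY act out s v) a) := rfl

theorem enc_F (s : Sg) (t : ℕ) (v : Fin P.n → Bool) (c : Bool) (l : Λ) (a : Γ) :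
    encC act out P K s t v (.F c l : Rg Λ J) a = bt K (P.run act c
      (P.nm (if c then P.nY act out s v else P.nX act out s v)) (s.amt P.L t c) a l) := rfl

theorem enc_D (s : Sg) (t : ℕ) (v : Fin P.n → Bool) (j : Fin J) (a : Γ) :
    encC act out P K s t v (.D j : Rg Λ J) a = Builder490.ptr K P.vis t (a, j) := by
  rw [ptr_eq]
  simp only [encC]

theorem enc_M (s : Sg) (t : ℕ) (v : Fin P.n → Bool) (j : Fin J) (a : Γ) :
    encC act out P K s t v (.M j : Rg Λ J) a = Builder490.pre K P.vis t (a, j) := by
  classical
  rw [pre_eq]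
  simp only [encC]

end encoded

theorem pre_vis (hP : P.OK act out) {t : ℕ} (ht : t ≤ P.L) {s' : ℕ} (hs : s' < P.L) {a : Γ}
    {j : Fin J} (hv : P.vis s' = (a, j)) :
    Builder490.pre K P.vis t (a, j) = if s' < t then 1 else 0 := by
  rw [← hv]
  exact Builder490.pre_at (K := K) P.vis (L := P.L)
    (fun a ha b hb h => hP.inj a b ha hb h) ht hs.le

theorem amt_le (s : Sg) {t : ℕ} (ht : t ≤ P.L) (c : Bool) : s.amt P.L t c ≤ P.L := by
  unfold Sg.amt
  split_ifs <;> omega

theorem bt_zero_iff {b : Bool} : bt K b = 0 ↔ b = false := by cases b <;> simp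

theorem run_zero (c : Bool) (x : Γ → Bool) (a : Γ) (l : Λ) : P.run act c x 0 a l = false := rfl

theorem legalP_enc (hP : P.OK act out) (s : Sg) {t : ℕ} (ht : t ≤ P.L) (v : Fin P.n → Bool) :
    LegalP act out P hP s (encC act out P K s t v) := by
  classical
  have hT : ∀ c : Bool, TrRel act P c (s.amt P.L t c)
      (fun a => bt K (P.nm (if c then P.nY act out s v else P.nX act out s v) a))
      (fun l a => encC act out P K s t v (.F c l) a) := fun c =>
    (trRel_iff hP c _ (amt_le s ht c) _ _).2 fun l a => enc_F K act out P s t v c l a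
  have hx : ∀ c : Bool, encC act out P K s t v (if c then (.Y : Rg Λ J) else .X) =
      fun a => bt K (P.nm (if c then P.nY act out s v else P.nX act out s v) a) := by
    intro c
    cases c <;> rfl
  refine ⟨fun q x => ?_, ?_, fun a ha => ?_, fun a ha => ?_, fun c l _ a ha => ?_,
    fun j l k a s' hs hv hi => ?_, fun hs0 j l k a s' hs hv hi => ?_, fun hs a => ?_,
    fun hs l a => ?_, fun hs a => ?_, fun hs a => ?_, fun hs a => ?_, fun hs l a => ?_⟩
  · cases q with
    | X => exact bt_mul_self _
    | Y => exact bt_mul_self _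
    | F c l => exact bt_mul_self _
    | D j => rw [enc_D, ptr_eq]; split_ifs <;> simp
    | M j => rw [enc_M, pre_eq]; split_ifs <;> simp
  · rw [Builder490.masked_iff]
    exact ⟨t, ht, fun j g => enc_D _ _ _ _ _ _ _ _ _, fun j g => enc_M _ _ _ _ _ _ _ _ _⟩
  · rw [enc_X, nm_off _ a ha, bt_false]
  · rw [enc_Y, nm_off _ a ha, bt_false]
  · exact (hT c).unw l a ha
  · rw [(hT s.prog).cell j l k a s' hs hv hi, hx, enc_M, pre_vis hP ht hs hv]
    have : s.amt P.L t s.prog = t := by unfold Sg.amt; rw [if_pos rfl]
    rw [this]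
  · rw [(hT (!s.prog)).cell j l k a s' hs hv hi, hx]
    have : s.amt P.L t (!s.prog) = P.L := by
      unfold Sg.amt
      rw [if_neg (by cases s.prog <;> simp), if_pos hs0]
    rw [this, if_pos hs, one_mul]
  · subst hs
    rw [enc_Y, show P.nY act out .a v = fun _ => false from rfl, nm_zero, bt_false]
  · subst hs
    rw [enc_F]
    rfl
  · subst hs
    rw [enc_Y, enc_F, show P.nY act out .b v = P.outp act out false v from rfl, ← out_lane hP]
    rfl
  · subst hs
    rw [enc_X, enc_F, show P.nX act out .c v = P.outp act out true v from rfl, ← out_lane hP]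
    rfl
  · subst hs
    rw [enc_X, show P.nX act out .d v = fun _ => false from rfl, nm_zero, bt_false]
  · subst hs
    rw [enc_F]
    rfl

theorem enc_of_legalP (hP : P.OK act out) (s : Sg) (r : Rg Λ J → Γ → K)
    (h : LegalP act out P hP s r) : ∃ t ≤ P.L, ∃ v, r = encC act out P K s t v := by
  classical
  obtain ⟨t, ht, hD, hM⟩ := (Builder490.masked_iff _ _ _).1 h.ptr
  have ht' : t ≤ P.L := ht
  obtain ⟨vx, hvx⟩ := name_of hP (r .X) (h.bool .X) h.inX
  obtain ⟨vy, hvy⟩ := name_of hP (r .Y) (h.bool .Y) h.inY
  have hX : r .X = fun a => bt K (P.nm vx a) := funext hvx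
  have hY : r .Y = fun a => bt K (P.nm vy a) := funext hvy
  have hx : r (if s.prog then .Y else .X) = fun a => bt K (P.nm (if s.prog then vy else vx) a) := by
    cases s.prog
    · exact hX
    · exact hY
  have hx' : r (if !s.prog then .Y else .X) =
      fun a => bt K (P.nm (if !s.prog then vy else vx) a) := by
    cases s.prog
    · exact hY
    · exact hX
  have hM' : ∀ j a s', s' < P.L → P.vis s' = (a, j) → r (.M j) a = if s' < t then 1 else 0 :=
    fun j a s' hs hv => (hM j a).trans (pre_vis hP ht' hs hv)
  have hT : TrRel act P s.prog t (fun a => bt K (P.nm (if s.prog then vy else vx) a))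
      (fun l => r (.F s.prog l)) := by
    refine ⟨fun l a ha => h.unw s.prog l (Or.inl rfl) a ha, fun j l k a s' hs hv hi => ?_⟩
    change r (.F s.prog l) a = _
    rw [h.cellM j l k a s' hs hv hi, hM' j a s' hs hv, hx]
  have hF := (trRel_iff hP s.prog t ht' _ _).1 hT
  have hT2 : s = .b ∨ s = .c → TrRel act P (!s.prog) P.L
      (fun a => bt K (P.nm (if !s.prog then vy else vx) a)) (fun l => r (.F (!s.prog) l)) := by
    intro hs0
    refine ⟨fun l a ha => h.unw (!s.prog) l (Or.inr hs0) a ha, fun j l k a s' hs hv hi => ?_⟩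
    change r (.F (!s.prog) l) a = _
    rw [h.cellF hs0 j l k a s' hs hv hi, hx', if_pos hs, one_mul]
  have hF2 := fun hs0 => (trRel_iff hP (!s.prog) P.L le_rfl _ _).1 (hT2 hs0)
  have hDe : ∀ v j, r (.D j) = encC act out P K s t v (.D j) := fun v j =>
    funext fun a => (hD j a).trans (enc_D _ _ _ _ _ _ _ _ _).symm
  have hMe : ∀ v j, r (.M j) = encC act out P K s t v (.M j) := fun v j =>
    funext fun a => (hM j a).trans (enc_M _ _ _ _ _ _ _ _ _).symm
  cases s with
  | a =>
    refine ⟨t, ht', vx, funext fun q => ?_⟩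
    cases q with
    | X => exact hX
    | Y =>
      funext a
      rw [h.Y0 rfl a, enc_Y, show P.nY act out .a vx = fun _ => false from rfl, nm_zero, bt_false]
    | F c l =>
      funext a
      cases c with
      | false => exact hF l a
      | true => rw [h.F0a rfl l a, enc_F]; rfl
    | D j => exact hDe vx j
    | M j => exact hMe vx j
  | b =>
    have hF2' := hF2 (Or.inl rfl)
    have hYe : ∀ a, bt K (P.nm vy a) = bt K (P.nm (P.outp act out false vx) a) := by
      intro a
      rw [← hvy, h.YS rfl a, ← out_lane hP]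
      exact hF2' out a
    have hyx : vy = P.outp act out false vx := nm_inj hP fun a => bt_inj (hYe a)
    refine ⟨t, ht', vx, funext fun q => ?_⟩
    cases q with
    | X => exact hX
    | Y => rw [hY, hyx]; rfl
    | F c l =>
      funext a
      cases c with
      | false => exact hF2' l a
      | true =>
        have := hF l a
        rw [show (if Sg.b.prog then vy else vx) = vy from rfl, hyx] at this
        exact this
    | D j => exact hDe vx j
    | M j => exact hMe vx j
  | c =>
    have hF2' := hF2 (Or.inr rfl)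
    have hXe : ∀ a, bt K (P.nm vx a) = bt K (P.nm (P.outp act out true vy) a) := by
      intro a
      rw [← hvx, h.XP rfl a, ← out_lane hP]
      exact hF2' out a
    have hxy : vx = P.outp act out true vy := nm_inj hP fun a => bt_inj (hXe a)
    refine ⟨t, ht', vy, funext fun q => ?_⟩
    cases q with
    | X => rw [hX, hxy]; rfl
    | Y => exact hY
    | F c l =>
      funext a
      cases c with
      | true => exact hF2' l a
      | false =>
        have := hF l a
        rw [show (if Sg.c.prog then vy else vx) = vx from rfl, hxy] at this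
        exact this
    | D j => exact hDe vy j
    | M j => exact hMe vy j
  | d =>
    refine ⟨t, ht', vy, funext fun q => ?_⟩
    cases q with
    | Y => exact hY
    | X =>
      funext a
      rw [h.X0 rfl a, enc_X, show P.nX act out .d vy = fun _ => false from rfl, nm_zero, bt_false]
    | F c l =>
      funext a
      cases c with
      | true => exact hF l a
      | false => rw [h.F0d rfl l a, enc_F]; rfl
    | D j => exact hDe vy j
    | M j => exact hMe vy j

/-- **LEMMA P2**: the legal contents of a stage are exactly the encoded states -/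
theorem legal_iff (hP : P.OK act out) (s : Sg) (r : Rg Λ J → Γ → K) :
    (mach (K := K) (G := G) (J := J) out).Legal act (pubC P K) s r ↔
      ∃ t ≤ P.L, ∃ v, r = encC act out P K s t v := by
  rw [legal_iff_legalP hP]
  constructor
  · exact enc_of_legalP hP s r
  · rintro ⟨t, ht, v, rfl⟩
    exact legalP_enc hP s ht v

end Crest.Agent.R289.DefC
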