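import Crest.Agent.R289.BootC_515
import Crest.Agent.R289.MachC_143
import Crest.Agent.R289.Step_435

/-!
# Row 289, block C (helper515): the content machine `machB`, unconditional theorems

Only hypotheses: `P.OK act out` (layout) and `H0` (the start name has no predecessor), `K` a domain
of odd characteristic.
-/

set_option autoImplicit false

namespace Crest.Agent.R289.MachB515

open DefC BootC515

variable {Γ G Λ : Type} {J : ℕ} (act : G → Equiv.Perm Γ) (out : Λ) (P : Layout Γ G Λ J)
  (K : Type) [CommRing K] [DecidableEq Γ] [DecidableEq Λ] (p : ℕ) [CharP K p] [Fact p.Prime]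
  [IsDomain K]

theorem legal_stmt : legal_iff_stmt (G := G) act out P K p := fun _ hP s r =>
  DefC.legal_iff hP s r

theorem ok_stmt : mach_ok_stmt (G := G) act out P K p :=
  Step435.mach_ok_of_legal_iff act out P K p (legal_stmt act out P K p)

variable (hp : p ≠ 2) (hP : P.OK act out)

include p hp hP

/-- axioms of the content machine with boot stages -/
theorem machB_ok (h0 : H0 act out P) :
    (machB (K := K) (G := G) (J := J) out).OK act (pubC P K) :=
  BootC515.machB_ok act out P K p hp hP (legal_stmt act out P K p) (ok_stmt act out P K p) h0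

theorem legalB_iff (s : SgB) (r : Rg Λ J → Γ → K) :
    (machB (K := K) (G := G) (J := J) out).Legal act (pubC P K) s r ↔
      ∃ t ≤ P.L, ∃ v, r = encC act out P K s.base t v ∧ (s.new → v = fun _ => false) :=
  BootC515.legalB_iff act out P K p hp hP (legal_stmt act out P K p) s r

/-- legal contents without successor: `(b, L, v)` with `P (S v) ≠ v` -/
theorem blockedB_fwd (s : SgB) (r : Rg Λ J → Γ → K)
    (hr : (machB (K := K) (G := G) (J := J) out).Legal act (pubC P K) s r) :
    (¬ ∃ ρ : LbB G Λ J, (machB (K := K) (G := G) (J := J) out).src ρ = s ∧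
        (machB (K := K) (G := G) (J := J) out).En act (pubC P K) ρ r) ↔
      ∃ v, s = .old .b ∧ r = encC act out P K .b P.L v ∧
        P.outp act out true (P.outp act out false v) ≠ v :=
  BootC515.blockedB_fwd act out P K p hp hP (legal_stmt act out P K p)
    (Step435.blocked act out P K p) s r hr

/-- legal contents without predecessor: the start state `(e, 0)`, or `(c, L, w)` with `w ≠ 0` and
`S (P w) ≠ w` -/
theorem blockedB_bwd (s : SgB) (r : Rg Λ J → Γ → K)
    (hr : (machB (K := K) (G := G) (J := J) out).Legal act (pubC P K) s r) :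
    (¬ ∃ ρ : LbB G Λ J, (machB (K := K) (G := G) (J := J) out).tgt ρ = s ∧
        (machB (K := K) (G := G) (J := J) out).Bk act (pubC P K) ρ r) ↔
      (s = .e ∧ r = encC act out P K .d 0 fun _ => false) ∨
      ∃ v, s = .old .c ∧ r = encC act out P K .c P.L v ∧
        P.outp act out false (P.outp act out true v) ≠ v ∧ v ≠ fun _ => false :=
  BootC515.blockedB_bwd act out P K p hp hP (legal_stmt act out P K p) (ok_stmt act out P K p)
    (Step435.blocked act out P K p) s r hr

/-- the start state is legal -/
theorem start_legal (r : Rg Λ J → Γ → K) :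
    (machB (K := K) (G := G) (J := J) out).Legal act (pubC P K) .e
      (fun i => (ini (K := K) (G := G) i).evalC act (pubC P K) r) :=
  BootC515.start_legal act out P hP ((legal_stmt act out P K p) hp hP) r

/-- no label leads into the start state -/
theorem start_no_bk (r : Rg Λ J → Γ → K) (ρ : LbB G Λ J)
    (hρ : (machB (K := K) (G := G) (J := J) out).tgt ρ = .e)
    (hb : (machB (K := K) (G := G) (J := J) out).Bk act (pubC P K) ρ
      (fun i => (ini (K := K) (G := G) i).evalC act (pubC P K) r)) : False :=
  (blockedB_bwd act out P K p hp hP .e _ (start_legal act out P K p hp hP r)).2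
    (Or.inl ⟨rfl, (startB act out P r).symm⟩) ⟨ρ, hρ, hb⟩

/-- content of register `X` of a forward blocked state at a name address -/
theorem dec_fwd (s : SgB) (r : Rg Λ J → Γ → K)
    (hr : (machB (K := K) (G := G) (J := J) out).Legal act (pubC P K) s r)
    (hb : ¬ ∃ ρ : LbB G Λ J, (machB (K := K) (G := G) (J := J) out).src ρ = s ∧
        (machB (K := K) (G := G) (J := J) out).En act (pubC P K) ρ r) :
    ∃ v, (∀ i, r .X (P.al i) = bt K (v i)) ∧
      P.outp act out true (P.outp act out false v) ≠ v := by
  obtain ⟨v, -, rfl, h⟩ := (blockedB_fwd act out P K p hp hP s r hr).1 hb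
  refine ⟨v, fun i => ?_, h⟩
  show bt K (P.nm v (P.al i)) = _
  rw [DefC.nm_al (act := act) (out := out) hP]

/-- content of register `Y` of a backward blocked state (not the start state) at a name address -/
theorem dec_bwd (s : SgB) (r : Rg Λ J → Γ → K)
    (hr : (machB (K := K) (G := G) (J := J) out).Legal act (pubC P K) s r)
    (hb : ¬ ∃ ρ : LbB G Λ J, (machB (K := K) (G := G) (J := J) out).tgt ρ = s ∧
        (machB (K := K) (G := G) (J := J) out).Bk act (pubC P K) ρ r)
    (hne : ¬ (s = .e ∧ r = fun i => (ini (K := K) (G := G) i).evalC act (pubC P K) r)) :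
    ∃ v, (∀ i, r .Y (P.al i) = bt K (v i)) ∧
      P.outp act out false (P.outp act out true v) ≠ v ∧ v ≠ fun _ => false := by
  rcases (blockedB_bwd act out P K p hp hP s r hr).1 hb with ⟨h1, h2⟩ | ⟨v, -, rfl, h, h'⟩
  · refine absurd ⟨h1, ?_⟩ hne
    rw [← startB act out P r]
    exact h2
  · refine ⟨v, fun i => ?_, h, h'⟩
    show bt K (P.nm v (P.al i)) = _
    rw [DefC.nm_al (act := act) (out := out) hP]

end Crest.Agent.R289.MachB515
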