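import Crest.Agent.R289.DecF_589
import Crest.Agent.R289.MachB_515
import Crest.Agent.R289.LMI_482
import Crest.Agent.R289.LMI_827

/-!
# Row 289, leaf E21 part 5 (helper589): the ends of the literal compiled machine

* `Ends A act b st0 r0 rX rY al SF SB` : contents of `A` without forward label show in register `rX` at the
  addresses `al i` a name with property `SF`; the same backward with `rY`, `SB`, except the start.
* `endsB` : `machB`.
* `Ov m pr` : the labelled machine `m` lies over the words of `DefI_306`; `ov482`, `ov827`.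
* `endN`, `endM` : a legal configuration fixed by `stepN` (`stepM`) shows the name in its label word.
* `solN`, `solM` : the two clauses `ends` of `FamGlue_715.FamT.Real`.
-/

set_option autoImplicit false
set_option linter.dupNamespace false
set_option linter.unusedSectionVars false

namespace Crest.Agent.R289.DecL589

open Crest.PPADPCP
open Crest.Agent.R289 Crest.Agent.R289.Sol589 Crest.Agent.R289.DecI589
open Crest.Agent.R289.DefC Crest.Agent.R289.BootC515 Crest.Agent.R289.Compile827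
open Crest.Agent.R289.DefI

/-! ### ends of the content machine -/

section ends

variable {K G Γ : Type} [CommRing K] [DecidableEq K]

/-- dead ends of a content machine and the names they show -/
structure Ends (A : PMach K G) (act : G → Equiv.Perm Γ) (b : A.Pub → Γ → K) (st0 : A.Stg)
    (r0 : A.Reg → Γ → K) (rX rY : A.Reg) {n : ℕ} (al : Fin n → Γ)
    (SF SB : (Fin n → Bool) → Prop) : Prop where
  fwd : ∀ s r, A.Legal act b s r → (¬ ∃ ρ, A.src ρ = s ∧ A.En act b ρ r) →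
    ∃ v, SF v ∧ ∀ i, bit (r rX (al i)) = v i
  bwd : ∀ s r, A.Legal act b s r → (¬ ∃ ρ, A.tgt ρ = s ∧ A.Bk act b ρ r) →
    (s = st0 ∧ r = r0) ∨ ∃ v, SB v ∧ ∀ i, bit (r rY (al i)) = v i

variable {Λ : Type} {J : ℕ} [DecidableEq Λ] [DecidableEq Γ]

/-- **the content machine with boot stages** -/
theorem endsB (act : G → Equiv.Perm Γ) (out : Λ) (P : Layout Γ G Λ J) (p : ℕ) [CharP K p]
    [Fact p.Prime] [IsDomain K] (hp : p ≠ 2) (hP : P.OK act out) (r0 : Rg Λ J → Γ → K)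
    (hr0 : r0 = encC act out P K .d 0 fun _ => false) :
    Ends (machB (K := K) (G := G) (J := J) out) act (pubC P K) SgB.e r0 Rg.X Rg.Y P.al
      (fun v => P.outp act out true (P.outp act out false v) ≠ v)
      (fun v => P.outp act out false (P.outp act out true v) ≠ v ∧ v ≠ fun _ => false) where
  fwd s r hr hb := by
    obtain ⟨v, -, rfl, h⟩ := (MachB515.blockedB_fwd act out P K p hp hP s r hr).1 hb
    exact ⟨v, h, fun i => read_X hP.al_inj _ _ _⟩
  bwd s r hr hb := by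
    rcases (MachB515.blockedB_bwd act out P K p hp hP s r hr).1 hb with
      ⟨h1, h2⟩ | ⟨v, -, rfl, h, h'⟩
    · exact Or.inl ⟨h1, h2.trans hr0.symm⟩
    · exact Or.inr ⟨v, ⟨h, h'⟩, fun i => read_Y hP.al_inj _ _ _⟩

end ends

/-! ### the labelled machine over the words of `DefI` -/

section lies

variable {K : Type} [Field K] [DecidableEq K] {c : Cst K} {I : Ins c} {X Z : Type}

/-- the labelled machine `m` lies over the words of `I` -/
structure Ov (m : LM X Z c.A.Tr) (pr : X → I.XW) : Prop where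
  legal : ∀ x, m.IsL x → c.A.Legal I.act I.pubC (pr x).1 (I.con (pr x))
  en : ∀ ρ x, m.IsL x → c.A.src ρ = (pr x).1 → c.A.En I.act I.pubC ρ (I.con (pr x)) → m.en ρ x
  bk : ∀ ρ x, m.IsL x → c.A.tgt ρ = (pr x).1 → c.A.Bk I.act I.pubC ρ (I.con (pr x)) → m.bk ρ x
  start : ∀ x, m.IsL x → (pr x).1 = I.stg0 → I.con (pr x) = I.con I.xs → x = m.x0

/-- configuration of words of `DefI` -/
def mp (pr : X → I.XW) (pz : Z → I.ZW) (f : Conf X Z c.A.Tr) : Conf I.XW I.ZW c.A.Tr :=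
  ⟨f.l, f.t, pr f.x1, pz f.z1, pr f.x2, pz f.z2⟩

variable {m : LM X Z c.A.Tr} {pr : X → I.XW} {rX rY : c.A.Reg} {n : ℕ} {al : Fin n → I.Γ}
  {SF SB : (Fin n → Bool) → Prop}

/-- **forward dead ends** -/
theorem endN (hO : Ov m pr) (hE : Ends c.A I.act I.pubC I.stg0 (I.con I.xs) rX rY al SF SB)
    {f : Conf X Z c.A.Tr} (hf : m.Legal f) (hN : m.stepN f = f) :
    ∃ v, SF v ∧ ∀ (pz : Z → I.ZW) {Ck : Type} (cw : ℕ → I.U → Ck) (i : Fin n) (τ : I.T),
      gReg rX (I.labE cw (mp pr pz f) (al i, τ)) = v i := by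
  obtain ⟨x, hx, hfx, hno⟩ := (m.stepN_eq_self hf).1 hN
  obtain ⟨v, h1, h2⟩ := hE.fwd _ _ (hO.legal x hx) fun ⟨ρ, h1, h2⟩ => hno ρ (hO.en ρ x hx h1 h2)
  refine ⟨v, h1, fun pz Ck cw i τ => ?_⟩
  subst hfx
  exact h2 i

/-- **backward dead ends** other than the start -/
theorem endM (hO : Ov m pr) (hE : Ends c.A I.act I.pubC I.stg0 (I.con I.xs) rX rY al SF SB)
    {f : Conf X Z c.A.Tr} (hf : m.Legal f) (hM : m.stepM f = f) (h0 : f ≠ m.c0) :
    ∃ v, SB v ∧ ∀ (pz : Z → I.ZW) {Ck : Type} (cw : ℕ → I.U → Ck) (i : Fin n) (τ : I.T),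
      gReg rY (I.labE cw (mp pr pz f) (al i, τ)) = v i := by
  rcases (m.stepM_eq_self hf).1 hM with hc0 | ⟨x, hx, hfx, hno, hx0⟩
  · exact absurd hc0 h0
  rcases hE.bwd _ _ (hO.legal x hx) (fun ⟨ρ, h1, h2⟩ => hno ρ (hO.bk ρ x hx h1 h2)) with
    ⟨h1, h2⟩ | ⟨v, h1, h2⟩
  · exact absurd (hO.start x hx h1 h2) hx0
  · refine ⟨v, h1, fun pz Ck cw i τ => ?_⟩
    subst hfx
    exact h2 i

end lies

/-! ### the two literal instances -/

section inst

variable {K : Type} [Field K] {c : Cst K} {I : Ins c} {CG : ℕ → Submodule K (I.Om → K)}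

theorem ov482 {O : TSide492.TO K I.T c.S'} {P : TSide492.Path I.T c.J1 c.J2} {ι : Type}
    [Fintype ι] {α : ι → c.S' → c.JT → K} {Pm : {s : c.S' // s ≠ c.s0'} → ι → K}
    (h : LMI482.Hyp I CG O P α Pm) : Ov h.lmI (fun x => x) where
  legal x hx := hx.2
  en ρ x _ h1 h2 := ⟨h1.symm, h2⟩
  bk ρ x _ h1 h2 := ⟨h1.symm, h2⟩
  start x hx h1 h2 := by
    refine Prod.ext h1 (funext fun i => ?_)
    have h3 : x.2 i - I.x0 i ∈ CG 1 := (CG 1).sub_mem (hx.1 i) (h.x0 i)
    have h4 : x.2 i - I.x0 i = 0 := by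
      refine h.rig _ h3 fun g => ?_
      have := congrFun (congrFun h2 i) g
      exact sub_eq_zero.2 this
    exact sub_eq_zero.1 h4

theorem ov827 {CT : ℕ → Submodule K (I.n → K)} {tt : ℕ → I.T} (h : LMI827.Hyp I CG CT tt)
    (hx0 : c.A.Legal I.act I.pubC I.stg0 (I.con I.xs))
    (hb0 : ∀ ρ, ¬ (I.stg0 = c.A.tgt ρ ∧ c.A.Bk I.act I.pubC ρ (I.con I.xs))) :
    Ov (LMI827.lmI h hx0 hb0) Subtype.val where
  legal x hx := hx.2
  en ρ x _ h1 h2 := ⟨h1.symm, h2⟩
  bk ρ x _ h1 h2 := ⟨h1.symm, h2⟩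
  start x hx h1 h2 := by
    refine Subtype.ext (Prod.ext h1 (funext fun i => ?_))
    have h3 : x.1.2 i - I.x0 i ∈ CG 1 := (CG 1).sub_mem (x.2 i) (h.gx0 i)
    have h4 : x.1.2 i - I.x0 i = 0 := by
      refine h.grig _ h3 fun g => ?_
      have := congrFun (congrFun h2 i) g
      exact sub_eq_zero.2 this
    exact sub_eq_zero.1 h4

end inst

/-! ### solutions -/

section sol

variable {Γ G Λ : Type} {J : ℕ} [DecidableEq Γ] [DecidableEq Λ] {E : EOL}
  {act : G → Equiv.Perm Γ} {out : Λ} {P : Layout Γ G Λ J} {U A : Type} {n : ℕ}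

/-- reading clause for the name of the instance -/
theorem read_nam (hR : Real E act out P) (eU : U ≃ Fin n) (ad : ℕ → ℕ) (g : A → Bool) (w : U → A)
    (v : Fin P.n → Bool) (uad : Fin P.n → U) (had : ∀ i : Fin P.n, (eU (uad i) : ℕ) = ad i)
    (hv : ∀ i, g (w (uad i)) = v i) (i : Fin E.n) :
    ∃ u : U, (eU u : ℕ) = ad (i : ℕ) ∧ g (w u) = nam hR.hn v i :=
  ⟨uad (Fin.cast hR.hn.symm i), had _, hv _⟩

/-- forward clause of `FamT.Real` -/
theorem solN (hR : Real E act out P) (hI : E.WF) (eU : U ≃ Fin n) (ad : ℕ → ℕ) (g : A → Bool)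
    (w : U → A) (uad : Fin P.n → U) (had : ∀ i : Fin P.n, (eU (uad i) : ℕ) = ad i)
    (h : ∃ v : Fin P.n → Bool, P.outp act out true (P.outp act out false v) ≠ v ∧
      ∀ i, g (w (uad i)) = v i) :
    ∃ v : Fin E.n → Bool, E.IsSolution v ∧
      ∀ i : Fin E.n, ∃ u : U, (eU u : ℕ) = ad (i : ℕ) ∧ g (w u) = v i := by
  obtain ⟨v, h1, h2⟩ := h
  exact ⟨nam hR.hn v, hR.sol_fwd hI h1, read_nam hR eU ad g w v uad had h2⟩

/-- backward clause of `FamT.Real` -/
theorem solM (hR : Real E act out P) (eU : U ≃ Fin n) (ad : ℕ → ℕ) (g : A → Bool)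
    (w : U → A) (uad : Fin P.n → U) (had : ∀ i : Fin P.n, (eU (uad i) : ℕ) = ad i)
    (h : ∃ v : Fin P.n → Bool, (P.outp act out false (P.outp act out true v) ≠ v ∧
      v ≠ fun _ => false) ∧ ∀ i, g (w (uad i)) = v i) :
    ∃ v : Fin E.n → Bool, E.IsSolution v ∧
      ∀ i : Fin E.n, ∃ u : U, (eU u : ℕ) = ad (i : ℕ) ∧ g (w u) = v i := by
  obtain ⟨v, ⟨h1, h0⟩, h2⟩ := h
  exact ⟨nam hR.hn v, hR.sol_bwd h0 h1, read_nam hR eU ad g w v uad had h2⟩

end sol

end Crest.Agent.R289.DecL589
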