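import Crest.Agent.R289.DefC_143

/-!
# Row 289, block C: service lemmas for `DefC_143`

* every name type of the content machine (`Rg`, `Pb`, `Cp`, `Id1`, `Lb`, `Wr`, `Op`, `Ar`, `Pt`) is
  finite (and the registers, components, labels have decidable equality classically);
* `mach_wf`: the machine is well formed of degree `4` (`PMach.WF 4`);
* homogeneous expressions are closed under `PE.sum`, `PE.sub`;

-/

set_option autoImplicit false
set_option linter.unusedSectionVars false

namespace Crest.Agent.R289.DefCFin576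

open Crest.Agent.R289.DefC

section finite
variable {G Λ : Type} {J : ℕ}

instance finOp [Finite G] [Finite Λ] : Finite (Op G Λ) := by
  let f : Op G Λ → Option (Bool ⊕ (G × Λ × G × Λ))
    | .inp => none
    | .cst b => some (Sum.inl b)
    | .nand g l g' l' => some (Sum.inr (g, l, g', l'))
  refine Finite.of_injective f ?_
  intro a b h
  cases a <;> cases b <;> simp_all [f]

instance finWr [Finite G] [Finite Λ] : Finite (Wr G Λ) := by
  let f : Wr G Λ → Option (Λ × Op G Λ × Bool × Bool)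
    | .idle => none
    | .put l k b b' => some (l, k, b, b')
  refine Finite.of_injective f ?_
  intro a b h
  cases a <;> cases b <;> simp_all [f]

instance finPt [Finite G] : Finite (Pt G J) := by
  let f : Pt G J → Fin J ⊕ (G × Fin J)
    | .cur j => Sum.inl j
    | .old g j => Sum.inr (g, j)
  refine Finite.of_injective f ?_
  intro a b h
  cases a <;> cases b <;> simp_all [f]

instance finAr [Finite G] [Finite Λ] : Finite (Ar G Λ) := by
  let f : Ar G Λ → Option (Bool ⊕ (Bool × G × Λ))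
    | .no => none
    | .name b => some (Sum.inl b)
    | .cell b g l => some (Sum.inr (b, g, l))
  refine Finite.of_injective f ?_
  intro a b h
  cases a <;> cases b <;> simp_all [f]

instance finRg [Finite Λ] : Finite (Rg Λ J) := by
  let f : Rg Λ J → Fin 2 ⊕ (Bool × Λ) ⊕ Fin J ⊕ Fin J
    | .X => Sum.inl 0
    | .Y => Sum.inl 1
    | .F c l => Sum.inr (Sum.inl (c, l))
    | .D j => Sum.inr (Sum.inr (Sum.inl j))
    | .M j => Sum.inr (Sum.inr (Sum.inr j))
  refine Finite.of_injective f ?_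
  intro a b h
  cases a <;> cases b <;> simp_all [f]

instance finPb [Finite G] [Finite Λ] : Finite (Pb G Λ J) := by
  let f : Pb G Λ J → Fin 2 ⊕ Fin J ⊕ (Fin J × G × Fin J) ⊕ Fin J ⊕ Fin J ⊕
      (Bool × Fin J × Λ × Op G Λ) ⊕ (Bool × Fin J) ⊕ (Bool × Λ) ⊕ Fin J ⊕ Fin J ⊕ Fin J
    | .U => Sum.inl 0
    | .IN => Sum.inl 1
    | .Vis j => Sum.inr (Sum.inl j)
    | .E j g j' => Sum.inr (Sum.inr (Sum.inl (j, g, j')))
    | .Fi j => Sum.inr (Sum.inr (Sum.inr (Sum.inl j)))
    | .La j => Sum.inr (Sum.inr (Sum.inr (Sum.inr (Sum.inl j))))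
    | .W c j l k => Sum.inr (Sum.inr (Sum.inr (Sum.inr (Sum.inr (Sum.inl (c, j, l, k))))))
    | .Wa c j => Sum.inr (Sum.inr (Sum.inr (Sum.inr (Sum.inr (Sum.inr (Sum.inl (c, j)))))))
    | .Wc c l => Sum.inr (Sum.inr (Sum.inr (Sum.inr (Sum.inr (Sum.inr (Sum.inr (Sum.inl (c, l))))))))
    | .D0 j => Sum.inr (Sum.inr (Sum.inr (Sum.inr (Sum.inr (Sum.inr (Sum.inr (Sum.inr
        (Sum.inl j))))))))
    | .DL j => Sum.inr (Sum.inr (Sum.inr (Sum.inr (Sum.inr (Sum.inr (Sum.inr (Sum.inr
        (Sum.inr (Sum.inl j)))))))))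
    | .Full j => Sum.inr (Sum.inr (Sum.inr (Sum.inr (Sum.inr (Sum.inr (Sum.inr (Sum.inr
        (Sum.inr (Sum.inr j)))))))))
  refine Finite.of_injective f ?_
  intro a b h
  cases a <;> cases b <;> simp_all [f]

instance finCp [Finite G] [Finite Λ] : Finite (Cp G Λ J) := by
  let f : Cp G Λ J → Rg Λ J ⊕ (Fin 5 × Fin J) ⊕ Fin 2 ⊕ (Fin J × G × Fin J) ⊕ (Bool × Λ) ⊕
      (Bool × Bool × Fin J × Λ × Op G Λ) ⊕ (Fin J × G × Fin J × Pt G J) ⊕
      (Bool × Fin J × Pt G J) ⊕ (Bool × Fin J × Λ × Op G Λ × Pt G J) ⊕ (Ar G Λ × Bool × Pt G J)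
    | .bool r => Sum.inl r
    | .dm j => Sum.inr (Sum.inl (0, j))
    | .visD j => Sum.inr (Sum.inl (1, j))
    | .visM j => Sum.inr (Sum.inl (2, j))
    | .fi j => Sum.inr (Sum.inl (3, j))
    | .la j => Sum.inr (Sum.inl (4, j))
    | .inX => Sum.inr (Sum.inr (Sum.inl 0))
    | .inY => Sum.inr (Sum.inr (Sum.inl 1))
    | .step j g j' => Sum.inr (Sum.inr (Sum.inr (Sum.inl (j, g, j'))))
    | .unw c l => Sum.inr (Sum.inr (Sum.inr (Sum.inr (Sum.inl (c, l)))))
    | .cell c f j l k => Sum.inr (Sum.inr (Sum.inr (Sum.inr (Sum.inr (Sum.inl (c, f, j, l, k))))))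
    | .gE j g j' p => Sum.inr (Sum.inr (Sum.inr (Sum.inr (Sum.inr (Sum.inr (Sum.inl
        (j, g, j', p)))))))
    | .gN c j p => Sum.inr (Sum.inr (Sum.inr (Sum.inr (Sum.inr (Sum.inr (Sum.inr (Sum.inl
        (c, j, p))))))))
    | .gW c j l k p => Sum.inr (Sum.inr (Sum.inr (Sum.inr (Sum.inr (Sum.inr (Sum.inr (Sum.inr
        (Sum.inl (c, j, l, k, p)))))))))
    | .gA a β p => Sum.inr (Sum.inr (Sum.inr (Sum.inr (Sum.inr (Sum.inr (Sum.inr (Sum.inr
        (Sum.inr (a, β, p)))))))))
  refine Finite.of_injective f ?_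
  intro a b h
  cases a <;> cases b <;> simp_all [f]

instance finId [Finite Λ] : Finite (Id1 Λ J) := by
  let f : Id1 Λ J → (Fin 3 × Fin J) ⊕ Fin 4 ⊕ (Bool × Λ)
    | .D j => Sum.inl (0, j)
    | .d0 j => Sum.inl (1, j)
    | .dL j => Sum.inl (2, j)
    | .X0 => Sum.inr (Sum.inl 0)
    | .Y0 => Sum.inr (Sum.inl 1)
    | .YS => Sum.inr (Sum.inl 2)
    | .XP => Sum.inr (Sum.inl 3)
    | .F0 c l => Sum.inr (Sum.inr (c, l))
  refine Finite.of_injective f ?_
  intro a b h
  cases a <;> cases b <;> simp_all [f]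

instance finLb [Finite G] [Finite Λ] : Finite (Lb G Λ J) := by
  let f : Lb G Λ J → Fin 4 ⊕ (Sg × Fin J × G × Fin J × Wr G Λ)
    | .ab => Sum.inl 0
    | .bc => Sum.inl 1
    | .cd => Sum.inl 2
    | .da => Sum.inl 3
    | .fill s j g j' w => Sum.inr (s, j, g, j', w)
  refine Finite.of_injective f ?_
  intro a b h
  cases a <;> cases b <;> simp_all [f]

end finite

/-! ### homogeneity -/

section hom
variable {K R B G : Type} [CommRing K]

lemma hom_sub {e f : PE K R B G} {d : ℕ} (he : e.Hom d) (hf : f.Hom d) :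
    (PE.sub e f).Hom d := ⟨he, hf⟩

lemma hom_sum {l : List (PE K R B G)} {d : ℕ} (h : ∀ e ∈ l, e.Hom d) : (PE.sum l).Hom d := by
  induction l with
  | nil => trivial
  | cons a t ih =>
    exact ⟨h a (by simp), ih fun e he => h e (by simp [he])⟩

lemma hom_mul {e f : PE K R B G} {a b : ℕ} (he : e.Hom a) (hf : f.Hom b) :
    (PE.mul e f).Hom (a + b) := ⟨a, b, rfl, he, hf⟩

lemma hom_mul' {e f : PE K R B G} {a b d : ℕ} (hd : d = a + b) (he : e.Hom a) (hf : f.Hom b) :
    (PE.mul e f).Hom d := ⟨a, b, hd, he, hf⟩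

end hom

section wf
variable {K G Λ : Type} {J : ℕ} [CommRing K]

lemma u_hom : (u : Ex K G Λ J).Hom 1 := rfl

lemma uu_hom : (PE.mul u u : Ex K G Λ J).Hom 2 := hom_mul u_hom u_hom

lemma reg_hom (r : Rg Λ J) : (PE.reg r : Ex K G Λ J).Hom 1 := rfl

lemma pub_hom (r : Pb G Λ J) : (PE.pub r : Ex K G Λ J).Hom 1 := rfl

lemma tr_hom {g : G} {e : Ex K G Λ J} {d : ℕ} (h : e.Hom d) : (PE.tr g e).Hom d := h

lemma smul_hom {c : K} {e : Ex K G Λ J} {d : ℕ} (h : e.Hom d) : (PE.smul c e).Hom d := h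

lemma pt_hom (p : Pt G J) : (p.ex : Ex K G Λ J).Hom 1 := by
  cases p <;> exact rfl

lemma ar_hom (a : Ar G Λ) : (a.ex : Ex K G Λ J).Hom 1 := by
  cases a with
  | no => trivial
  | name c => exact rfl
  | cell c g l => exact rfl

lemma op_hom (c : Bool) (k : Op G Λ) : (k.ex c : Ex K G Λ J).Hom 2 := by
  cases k with
  | inp => exact hom_mul u_hom (reg_hom _)
  | cst b => exact smul_hom uu_hom
  | nand g l g' l' =>
    exact hom_sub uu_hom (hom_mul (tr_hom (reg_hom _)) (tr_hom (reg_hom _)))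

lemma cex_hom (c : Cp G Λ J) : (cex c : Ex K G Λ J).Hom 4 := by
  have h22 : ∀ {e : Ex K G Λ J}, e.Hom 2 → (PE.mul (PE.mul u u) e).Hom 4 :=
    fun h => hom_mul uu_hom h
  have h11 : ∀ {e f : Ex K G Λ J}, e.Hom 1 → f.Hom 1 → (PE.mul e f).Hom 2 :=
    fun h h' => hom_mul h h'
  cases c with
  | bool r => exact h22 (hom_sub (h11 rfl rfl) (h11 rfl rfl))
  | dm j => exact h22 (h11 rfl rfl)
  | visD j => exact h22 (h11 (hom_sub rfl rfl) rfl)
  | visM j => exact h22 (h11 (hom_sub rfl rfl) rfl)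
  | inX => exact h22 (h11 (hom_sub rfl rfl) rfl)
  | inY => exact h22 (h11 (hom_sub rfl rfl) rfl)
  | step j g j' => exact h22 (h11 rfl (hom_sub rfl (tr_hom ⟨rfl, rfl⟩)))
  | fi j => exact h22 (h11 rfl (hom_sub ⟨rfl, rfl⟩ rfl))
  | la j => exact h22 (h11 rfl rfl)
  | unw c l => exact h22 (h11 (hom_sub rfl rfl) rfl)
  | cell c f j l k =>
    refine hom_mul' (a := 1) (b := 3) rfl rfl (hom_sub (hom_mul uu_hom (reg_hom _)) ?_)
    refine hom_mul' (a := 1) (b := 2) rfl ?_ (op_hom c k)
    by_cases hf : f = true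
    · rw [if_pos hf]; exact rfl
    · rw [if_neg hf]; exact rfl
  | gE j g j' p => exact h22 (h11 (hom_sub rfl rfl) (pt_hom p))
  | gN c j p => exact h22 (h11 rfl (pt_hom p))
  | gW c j l k p => exact h22 (h11 (hom_sub rfl rfl) (pt_hom p))
  | gA a β p => exact h22 (h11 (hom_sub (ar_hom a) (smul_hom rfl)) (pt_hom p))

lemma iex_hom (out : Λ) (i : Id1 Λ J) : (iex out i : Ex K G Λ J).Hom 1 := by
  cases i with
  | D j => exact rfl
  | d0 j => exact hom_sub rfl rfl
  | dL j => exact hom_sub rfl rfl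
  | X0 => exact rfl
  | Y0 => exact rfl
  | F0 c l => exact rfl
  | YS => exact hom_sub rfl rfl
  | XP => exact hom_sub rfl rfl

variable [DecidableEq Λ]

lemma fup_hom (c : Bool) (j : Fin J) (g : G) (j' : Fin J) (w : Wr G Λ) (r : Rg Λ J) :
    (fup c j g j' w r : Ex K G Λ J).Hom 1 := by
  cases r with
  | X => exact rfl
  | Y => exact rfl
  | F c' l =>
    cases w with
    | idle => exact rfl
    | put l' k β β' =>
      unfold fup
      simp only
      split_ifs
      · exact ⟨rfl, rfl⟩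
      · exact rfl
  | D i =>
    unfold fup
    simp only
    split_ifs
    · exact rfl
    · trivial
  | M i =>
    unfold fup
    simp only
    split_ifs
    · exact ⟨rfl, rfl⟩
    · exact rfl

lemma fdn_hom (c : Bool) (j : Fin J) (g : G) (j' : Fin J) (w : Wr G Λ) (r : Rg Λ J) :
    (fdn c j g j' w r : Ex K G Λ J).Hom 1 := by
  cases r with
  | X => exact rfl
  | Y => exact rfl
  | F c' l =>
    cases w with
    | idle => exact rfl
    | put l' k β β' =>
      unfold fdn
      simp only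
      split_ifs
      · exact hom_sub rfl (smul_hom (tr_hom rfl))
      · exact rfl
  | D i =>
    unfold fdn
    simp only
    split_ifs
    · exact rfl
    · trivial
  | M i =>
    unfold fdn
    simp only
    split_ifs
    · exact hom_sub rfl (tr_hom rfl)
    · exact rfl

/-- the content machine is well formed of degree `4` -/
theorem mach_wf (out : Λ) : (mach (K := K) (G := G) (J := J) out).WF 4 where
  comp_hom c := cex_hom c
  idl_hom i := iex_hom out i
  up_hom ρ r := by
    cases ρ with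
    | fill s j g j' w =>
      change ((if s.inv then fdn s.prog j g j' w else fup s.prog j g j' w) r : Ex K G Λ J).Hom 1
      by_cases hs : s.inv = true
      · rw [if_pos hs]; exact fdn_hom _ _ _ _ _ _
      · rw [if_neg hs]; exact fup_hom _ _ _ _ _ _
    | ab => cases r <;> first | exact rfl | trivial
    | bc => exact rfl
    | cd => cases r <;> first | exact rfl | trivial
    | da => cases r <;> first | exact rfl | trivial
  dn_hom ρ r := by
    cases ρ with
    | fill s j g j' w =>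
      change ((if s.inv then fup s.prog j g j' w else fdn s.prog j g j' w) r : Ex K G Λ J).Hom 1
      by_cases hs : s.inv = true
      · rw [if_pos hs]; exact fup_hom _ _ _ _ _ _
      · rw [if_neg hs]; exact fdn_hom _ _ _ _ _ _
    | ab => cases r <;> first | exact rfl | trivial
    | bc => exact rfl
    | cd => cases r <;> first | exact rfl | trivial
    | da => cases r <;> first | exact rfl | trivial

end wf

/-! ### the fields of the machine are finite types -/

section fields
variable {K G Λ : Type} {J : ℕ} [CommRing K] [DecidableEq Λ] [Finite G] [Finite Λ] (out : Λ)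

instance finMReg : Finite (mach (K := K) (G := G) (J := J) out).Reg :=
  inferInstanceAs (Finite (Rg Λ J))
instance finMPub : Finite (mach (K := K) (G := G) (J := J) out).Pub :=
  inferInstanceAs (Finite (Pb G Λ J))
instance finMComp : Finite (mach (K := K) (G := G) (J := J) out).Comp :=
  inferInstanceAs (Finite (Cp G Λ J))
instance finMIdl : Finite (mach (K := K) (G := G) (J := J) out).Idl :=
  inferInstanceAs (Finite (Id1 Λ J))
instance finMStg : Finite (mach (K := K) (G := G) (J := J) out).Stg :=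
  inferInstanceAs (Finite Sg)
instance finMTr : Finite (mach (K := K) (G := G) (J := J) out).Tr :=
  inferInstanceAs (Finite (Lb G Λ J))

end fields

end Crest.Agent.R289.DefCFin576
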