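import Crest.Agent.R289.Blocked_844

/-!
# Row 289, block C: uniqueness of the enabled label (on encoded states)
-/

set_option autoImplicit false
set_option linter.unusedSectionVars false

namespace Crest.Agent.R289.Det844

open Crest.Agent.R289.DefC Crest.Agent.R289.Blocked844

section
variable {Γ G Λ : Type} {J : ℕ} (act : G → Equiv.Perm Γ) (out : Λ) (P : Layout Γ G Λ J)
  (K : Type) [CommRing K] [DecidableEq Γ] [DecidableEq Λ]

/-- what the fill label of instruction `m` writes in the state `(s, t, v)` -/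
def wOf (s : Sg) (t : ℕ) (v : Fin P.n → Bool) (c : Bool) (m : ℕ) : Wr G Λ :=
  match P.ins c m with
  | none => .idle
  | some (l, k) => .put l k (argv act out P s t v (P.vis m).1 (k.a1 c))
      (argv act out P s t v (P.vis m).1 (k.a2 c))

/-- the fill label of instruction `m` -/
def fillOf (s : Sg) (t : ℕ) (v : Fin P.n → Bool) (m : ℕ) : Lb G Λ J :=
  .fill s (P.vis m).2 (P.dir m) (P.vis (m + 1)).2 (wOf act out P s t v s.prog m)

variable [IsDomain K]

/-- guards at a delta pointer determine the instruction and the write -/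
theorem gd_uniq (hP : P.OK act out) (s : Sg) (t : ℕ) (v : Fin P.n → Bool) (c : Bool)
    (j : Fin J) (g : G) (j' : Fin J) (w : Wr G Λ) (p : Pt G J) (a0 : Γ)
    (hp : ∀ x, pe act (pubC P K) (encC act out P K s t v) p x = if x = a0 then 1 else 0)
    (h : ∀ q, gd c j g j' w p q →
      (mach (K := K) (G := G) (J := J) out).CZ act (pubC P K) (encC act out P K s t v) q) :
    ∃ m < P.L, P.vis m = (a0, j) ∧ P.dir m = g ∧ (P.vis (m + 1)).2 = j' ∧
      w = wOf act out P s t v c m := by
  have hU : ∀ x, pubC (G := G) (Λ := Λ) P K .U x = 1 := fun x => rfl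
  have hE := h (.gE j g j' p) (Or.inl rfl)
  rw [CZ_gE act _ _ out hU] at hE
  have h3 := hE a0
  rw [hp, if_pos rfl, mul_one, sub_eq_zero] at h3
  simp only [pubC] at h3
  by_cases hex : ∃ s < P.L, P.vis s = (a0, j) ∧ P.dir s = g ∧ (P.vis (s + 1)).2 = j'
  · obtain ⟨m, hm, h4, h5, h6⟩ := hex
    refine ⟨m, hm, h4, h5, h6, ?_⟩
    cases w with
    | idle =>
      have hN := h (.gN c j p) (Or.inr rfl)
      rw [CZ_gN act _ _ out hU] at hN
      have h7 := hN a0
      rw [hp, if_pos rfl, mul_one] at h7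
      simp only [pubC] at h7
      unfold wOf
      cases hi : P.ins c m with
      | none => rfl
      | some lk =>
        exfalso
        rw [if_pos ⟨m, hm, h4, by rw [hi]; simp⟩] at h7
        exact one_ne_zero h7
    | put l k β β' =>
      have hW := h (.gW c j l k p) (Or.inr (Or.inl rfl))
      have hA := h (.gA (k.a1 c) β p) (Or.inr (Or.inr (Or.inl rfl)))
      have hB := h (.gA (k.a2 c) β' p) (Or.inr (Or.inr (Or.inr rfl)))
      rw [CZ_gW act _ _ out hU] at hW
      rw [CZ_gA act _ _ out hU] at hA hB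
      have h7 := hW a0
      have h8 := hA a0
      have h9 := hB a0
      rw [hp, if_pos rfl, mul_one, sub_eq_zero] at h7 h8 h9
      rw [arg_ex] at h8 h9
      simp only [pubC] at h7
      have hi : P.ins c m = some (l, k) := by
        by_cases hex2 : ∃ s < P.L, P.vis s = (a0, j) ∧ P.ins c s = some (l, k)
        · obtain ⟨m', hm', h10, h11⟩ := hex2
          have := hP.inj m' m hm'.le hm.le (h10.trans h4.symm)
          rw [← this]; exact h11
        · rw [if_neg hex2] at h7
          exact absurd h7 one_ne_zero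
      unfold wOf
      rw [hi]
      have h10 : (P.vis m).1 = a0 := by rw [h4]
      simp only [h10]
      rw [← bt_inj h8, ← bt_inj h9]
  · rw [if_neg hex] at h3
    exact absurd h3 one_ne_zero

/-- the only lane of a pointer -/
theorem lane_eq (s : Sg) (t : ℕ) (v : Fin P.n → Bool) (j : Fin J)
    (h : ∀ i, i ≠ j →
        (mach (K := K) (G := G) (J := J) out).IZ act (pubC P K) (encC act out P K s t v)
          (.D i)) : (P.vis t).2 = j := by
  by_contra hne
  have h2 := h _ hne
  rw [IZ_iff] at h2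
  have h3 := h2 (P.vis t).1
  simp [iex, PE.evalC, encC] at h3

theorem old_pe' (s : Sg) (t : ℕ) (v : Fin P.n → Bool) (g : G) (x : Γ) :
    pe act (pubC P K) (encC act out P K s t v)
      (.old g (P.vis t).2 : Pt G J) x = if x = (act g).symm (P.vis t).1 then 1 else 0 := by
  rw [pe_old]
  simp only [encC]
  by_cases hx : x = (act g).symm (P.vis t).1
  · rw [if_pos hx, if_pos]
    rw [hx]; simp
  · rw [if_neg hx, if_neg]
    intro h
    apply hx
    rw [h]; simp

/-- a label `t -> t + 1` seen from `t` -/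
theorem cur_uniq (hP : P.OK act out) (s : Sg) (t : ℕ) (ht : t ≤ P.L) (v : Fin P.n → Bool)
    (c : Bool) (j : Fin J) (g : G) (j' : Fin J) (w : Wr G Λ)
    (h1 : ∀ q, gd c j g j' w (.cur j) q →
        (mach (K := K) (G := G) (J := J) out).CZ act (pubC P K) (encC act out P K s t v) q)
    (h2 : ∀ i, i ≠ j →
        (mach (K := K) (G := G) (J := J) out).IZ act (pubC P K) (encC act out P K s t v)
          (.D i)) :
    t < P.L ∧ j = (P.vis t).2 ∧ g = P.dir t ∧ j' = (P.vis (t + 1)).2 ∧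
      w = wOf act out P s t v c t := by
  have hj := lane_eq act out P K s t v j h2
  subst hj
  obtain ⟨m, hm, h3, h4, h5, h6⟩ := gd_uniq act out P K hP s t v c _ g j' w _ _
    (cur_pe act out P K s t v) h1
  have : m = t := hP.inj m t hm.le ht h3
  subst this
  exact ⟨hm, rfl, h4.symm, h5.symm, h6⟩

/-- a label `m -> m + 1` seen from `m + 1` -/
theorem old_uniq (hP : P.OK act out) (s : Sg) (t : ℕ) (ht : t ≤ P.L) (v : Fin P.n → Bool)
    (c : Bool) (j : Fin J) (g : G) (j' : Fin J) (w : Wr G Λ)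
    (h1 : ∀ q, gd c j g j' w (.old g j') q →
        (mach (K := K) (G := G) (J := J) out).CZ act (pubC P K) (encC act out P K s t v) q)
    (h2 : ∀ i, i ≠ j' →
        (mach (K := K) (G := G) (J := J) out).IZ act (pubC P K) (encC act out P K s t v)
          (.D i)) :
    ∃ m, t = m + 1 ∧ m < P.L ∧ j = (P.vis m).2 ∧ g = P.dir m ∧ j' = (P.vis (m + 1)).2 ∧
      w = wOf act out P s t v c m := by
  have hj := lane_eq act out P K s t v j' h2
  subst hj
  obtain ⟨m, hm, h3, h4, h5, h6⟩ := gd_uniq act out P K hP s t v c j g _ w _ _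
    (old_pe' act out P K s t v g) h1
  have h7 : P.vis (m + 1) = P.vis t := by
    apply Prod.ext
    · rw [hP.step m hm, h3, h4]; simp
    · exact h5
  have : m + 1 = t := hP.inj (m + 1) t hm ht h7
  subst this
  exact ⟨m, rfl, hm, by rw [h3], h4.symm, rfl, h6⟩

theorem t_of_dL (hP : P.OK act out) (s : Sg) (t : ℕ) (ht : t ≤ P.L) (v : Fin P.n → Bool)
    (h : ∀ i, (mach (K := K) (G := G) (J := J) out).IZ act (pubC P K)
      (encC act out P K s t v) (.dL i)) : t = P.L := by
  have h1 := h (P.vis t).2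
  rw [IZ_iff] at h1
  have h2 := h1 (P.vis t).1
  simp only [iex, ev_sub, PE.evalC, encC, pubC] at h2
  rw [if_pos trivial, sub_eq_zero] at h2
  by_cases h3 : P.vis P.L = ((P.vis t).1, (P.vis t).2)
  · exact (hP.inj P.L t le_rfl ht h3).symm
  · rw [if_neg h3] at h2
    exact absurd h2 one_ne_zero

theorem t_of_d0 (hP : P.OK act out) (s : Sg) (t : ℕ) (ht : t ≤ P.L) (v : Fin P.n → Bool)
    (h : ∀ i, (mach (K := K) (G := G) (J := J) out).IZ act (pubC P K)
      (encC act out P K s t v) (.d0 i)) : t = 0 := by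
  have h1 := h (P.vis t).2
  rw [IZ_iff] at h1
  have h2 := h1 (P.vis t).1
  simp only [iex, ev_sub, PE.evalC, encC, pubC] at h2
  rw [if_pos trivial, sub_eq_zero] at h2
  by_cases h3 : P.vis 0 = ((P.vis t).1, (P.vis t).2)
  · exact (hP.inj 0 t (Nat.zero_le _) ht h3).symm
  · rw [if_neg h3] at h2
    exact absurd h2 one_ne_zero

/-- the forward label of an encoded state -/
theorem En_cases (hP : P.OK act out) (s : Sg) (t : ℕ) (ht : t ≤ P.L) (v : Fin P.n → Bool)
    (ρ : Lb G Λ J) (hs : (mach (K := K) (G := G) (J := J) out).src ρ = s)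
    (h : (mach (K := K) (G := G) (J := J) out).En act (pubC P K) ρ (encC act out P K s t v)) :
    (s.inv = false ∧ t < P.L ∧ ρ = fillOf act out P s t v t) ∨
    (s.inv = true ∧ ∃ m, t = m + 1 ∧ m < P.L ∧ ρ = fillOf act out P s t v m) ∨
    (s = .a ∧ t = P.L ∧ ρ = .ab) ∨ (s = .b ∧ t = P.L ∧ ρ = .bc) ∨
    (s = .c ∧ t = 0 ∧ ρ = .cd) ∨ (s = .d ∧ t = 0 ∧ ρ = .da) := by
  obtain ⟨h1, h2⟩ := h
  cases ρ with
  | fill s' j g j' w =>
    have hs' : s' = s := hs
    subst hs'
    cases hi : s'.inv with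
    | false =>
      left
      obtain ⟨h3, h4, h5, h6, h7⟩ := cur_uniq act out P K hP s' t ht v s'.prog j g j' w
        (fun q hq => h1 q (by simpa [mach, enC, hi] using hq))
        (fun i hi' => h2 (.D i) (by simpa [mach, enI, hi] using hi'))
      refine ⟨rfl, h3, ?_⟩
      rw [h4, h5, h6, h7]; rfl
    | true =>
      right; left
      obtain ⟨m, h3, h4, h5, h6, h7, h8⟩ := old_uniq act out P K hP s' t ht v s'.prog j g j' w
        (fun q hq => h1 q (by simpa [mach, enC, hi] using hq))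
        (fun i hi' => h2 (.D i) (by simpa [mach, enI, hi] using hi'))
      refine ⟨rfl, m, h3, h4, ?_⟩
      rw [h5, h6, h7, h8]; rfl
  | ab =>
    have hs' : Sg.a = s := hs
    subst hs'
    exact Or.inr (Or.inr (Or.inl ⟨rfl, t_of_dL act out P K hP .a t ht v
      (fun i => h2 (.dL i) trivial), rfl⟩))
  | bc =>
    have hs' : Sg.b = s := hs
    subst hs'
    exact Or.inr (Or.inr (Or.inr (Or.inl ⟨rfl, t_of_dL act out P K hP .b t ht v
      (fun i => h2 (.dL i) trivial), rfl⟩)))
  | cd =>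
    have hs' : Sg.c = s := hs
    subst hs'
    exact Or.inr (Or.inr (Or.inr (Or.inr (Or.inl ⟨rfl, t_of_d0 act out P K hP .c t ht v
      (fun i => h2 (.d0 i) trivial), rfl⟩))))
  | da =>
    have hs' : Sg.d = s := hs
    subst hs'
    exact Or.inr (Or.inr (Or.inr (Or.inr (Or.inr ⟨rfl, t_of_d0 act out P K hP .d t ht v
      (fun i => h2 (.d0 i) trivial), rfl⟩))))

/-- the backward label of an encoded state -/
theorem Bk_cases (hP : P.OK act out) (s : Sg) (t : ℕ) (ht : t ≤ P.L) (v : Fin P.n → Bool)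
    (ρ : Lb G Λ J) (hs : (mach (K := K) (G := G) (J := J) out).tgt ρ = s)
    (h : (mach (K := K) (G := G) (J := J) out).Bk act (pubC P K) ρ (encC act out P K s t v)) :
    (s.inv = true ∧ t < P.L ∧ ρ = fillOf act out P s t v t) ∨
    (s.inv = false ∧ ∃ m, t = m + 1 ∧ m < P.L ∧ ρ = fillOf act out P s t v m) ∨
    (s = .b ∧ t = 0 ∧ ρ = .ab) ∨ (s = .c ∧ t = P.L ∧ ρ = .bc) ∨
    (s = .d ∧ t = P.L ∧ ρ = .cd) ∨ (s = .a ∧ t = 0 ∧ ρ = .da) := by
  obtain ⟨h1, h2⟩ := h
  cases ρ with
  | fill s' j g j' w =>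
    have hs' : s' = s := hs
    subst hs'
    cases hi : s'.inv with
    | true =>
      left
      obtain ⟨h3, h4, h5, h6, h7⟩ := cur_uniq act out P K hP s' t ht v s'.prog j g j' w
        (fun q hq => h1 q (by simpa [mach, bkC, hi] using hq))
        (fun i hi' => h2 (.D i) (by simpa [mach, bkI, hi] using hi'))
      refine ⟨rfl, h3, ?_⟩
      rw [h4, h5, h6, h7]; rfl
    | false =>
      right; left
      obtain ⟨m, h3, h4, h5, h6, h7, h8⟩ := old_uniq act out P K hP s' t ht v s'.prog j g j' w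
        (fun q hq => h1 q (by simpa [mach, bkC, hi] using hq))
        (fun i hi' => h2 (.D i) (by simpa [mach, bkI, hi] using hi'))
      refine ⟨rfl, m, h3, h4, ?_⟩
      rw [h5, h6, h7, h8]; rfl
  | ab =>
    have hs' : Sg.b = s := hs
    subst hs'
    exact Or.inr (Or.inr (Or.inl ⟨rfl, t_of_d0 act out P K hP .b t ht v
      (fun i => h2 (.d0 i) trivial), rfl⟩))
  | bc =>
    have hs' : Sg.c = s := hs
    subst hs'
    exact Or.inr (Or.inr (Or.inr (Or.inl ⟨rfl, t_of_dL act out P K hP .c t ht v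
      (fun i => h2 (.dL i) trivial), rfl⟩)))
  | cd =>
    have hs' : Sg.d = s := hs
    subst hs'
    exact Or.inr (Or.inr (Or.inr (Or.inr (Or.inl ⟨rfl, t_of_dL act out P K hP .d t ht v
      (fun i => h2 (.dL i) trivial), rfl⟩))))
  | da =>
    have hs' : Sg.a = s := hs
    subst hs'
    exact Or.inr (Or.inr (Or.inr (Or.inr (Or.inr ⟨rfl, t_of_d0 act out P K hP .a t ht v
      (fun i => h2 (.d0 i) trivial), rfl⟩))))

theorem detF_enc (hP : P.OK act out) (s : Sg) (t : ℕ) (ht : t ≤ P.L) (v : Fin P.n → Bool)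
    (ρ ρ' : Lb G Λ J) (hs : (mach (K := K) (G := G) (J := J) out).src ρ = s)
    (hs' : (mach (K := K) (G := G) (J := J) out).src ρ' = s)
    (h : (mach (K := K) (G := G) (J := J) out).En act (pubC P K) ρ (encC act out P K s t v))
    (h' : (mach (K := K) (G := G) (J := J) out).En act (pubC P K) ρ'
      (encC act out P K s t v)) : ρ = ρ' := by
  have h1 := En_cases act out P K hP s t ht v ρ hs h
  have h2 := En_cases act out P K hP s t ht v ρ' hs' h'
  rcases h1 with ⟨a1, a2, a3⟩ | ⟨a1, m, a2, a2', a3⟩ | ⟨a1, a2, a3⟩ | ⟨a1, a2, a3⟩ |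
      ⟨a1, a2, a3⟩ | ⟨a1, a2, a3⟩ <;>
    rcases h2 with ⟨b1, b2, b3⟩ | ⟨b1, m', b2, b2', b3⟩ | ⟨b1, b2, b3⟩ | ⟨b1, b2, b3⟩ |
      ⟨b1, b2, b3⟩ | ⟨b1, b2, b3⟩ <;>
    first
      | (rw [a3, b3]; done)
      | (exfalso; omega)
      | (exfalso; rw [a1] at b1; simp at b1; done)
      | (exfalso; rw [a1] at b1; simp [Sg.inv] at b1; done)
      | (exfalso; rw [b1] at a1; simp [Sg.inv] at a1; done)
      | (have : m = m' := by omega
         subst this; rw [a3, b3])

theorem detB_enc (hP : P.OK act out) (s : Sg) (t : ℕ) (ht : t ≤ P.L) (v : Fin P.n → Bool)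
    (ρ ρ' : Lb G Λ J) (hs : (mach (K := K) (G := G) (J := J) out).tgt ρ = s)
    (hs' : (mach (K := K) (G := G) (J := J) out).tgt ρ' = s)
    (h : (mach (K := K) (G := G) (J := J) out).Bk act (pubC P K) ρ (encC act out P K s t v))
    (h' : (mach (K := K) (G := G) (J := J) out).Bk act (pubC P K) ρ'
      (encC act out P K s t v)) : ρ = ρ' := by
  have h1 := Bk_cases act out P K hP s t ht v ρ hs h
  have h2 := Bk_cases act out P K hP s t ht v ρ' hs' h'
  rcases h1 with ⟨a1, a2, a3⟩ | ⟨a1, m, a2, a2', a3⟩ | ⟨a1, a2, a3⟩ | ⟨a1, a2, a3⟩ |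
      ⟨a1, a2, a3⟩ | ⟨a1, a2, a3⟩ <;>
    rcases h2 with ⟨b1, b2, b3⟩ | ⟨b1, m', b2, b2', b3⟩ | ⟨b1, b2, b3⟩ | ⟨b1, b2, b3⟩ |
      ⟨b1, b2, b3⟩ | ⟨b1, b2, b3⟩ <;>
    first
      | (rw [a3, b3]; done)
      | (exfalso; omega)
      | (exfalso; rw [a1] at b1; simp at b1; done)
      | (exfalso; rw [a1] at b1; simp [Sg.inv] at b1; done)
      | (exfalso; rw [b1] at a1; simp [Sg.inv] at a1; done)
      | (have : m = m' := by omega
         subst this; rw [a3, b3])

end

end Crest.Agent.R289.Det844
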