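import Mathlib

/-!
# Row 289, block B: diameter / short words from the mixing inequality

`P` finite group, `ga : ι → P` letters with the mixing inequality (form (F5) of block B)
`∀ f ≥ 0, ∑ g, (∑ i, f ((ga i)⁻¹ * g))^2 ≤ #ι^2 * ((∑ f)^2 / |P| + lam^2 * ∑ f^2)` and
`lam^2 ≤ 1/8`.  Then every element is `u * v⁻¹` with `u, v` products of exactly `R` letters, for
every `R ≥ clog 2 |P| + 1`.
-/

set_option autoImplicit false

namespace Crest.Agent.R289.Diam309

open Finset

/-- mixing inequality for nonnegative functions (left translations by the letters) -/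
def Mix {P ι : Type*} [Group P] [Fintype P] [Fintype ι] (ga : ι → P) (lam : ℝ) : Prop :=
  ∀ f : P → ℝ, (∀ g, 0 ≤ f g) →
    ∑ g, (∑ i, f ((ga i)⁻¹ * g)) ^ 2 ≤
      (Fintype.card ι : ℝ) ^ 2 * ((∑ g, f g) ^ 2 / (Fintype.card P : ℝ) + lam ^ 2 * ∑ g, f g ^ 2)

variable {P ι : Type*} [Group P] [Fintype P] [DecidableEq P] [Fintype ι]

/-- the union of the left translates of `A` by the letters -/
def step (ga : ι → P) (A : Finset P) : Finset P :=
  univ.biUnion fun i => A.image fun a => ga i * a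

omit [Fintype P] in
theorem mem_step {ga : ι → P} {A : Finset P} {g : P} :
    g ∈ step ga A ↔ ∃ i, ∃ a ∈ A, ga i * a = g := by
  simp only [step, mem_biUnion, mem_univ, true_and, mem_image]

/-- ball of radius exactly `r` -/
def ball (ga : ι → P) : ℕ → Finset P
  | 0 => {1}
  | r + 1 => step ga (ball ga r)

omit [Fintype P] in
theorem mem_ball {ga : ι → P} {r : ℕ} {g : P} :
    g ∈ ball ga r ↔ ∃ w : List ι, w.length = r ∧ (w.map ga).prod = g := by
  induction r generalizing g with
  | zero =>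
    simp only [ball, mem_singleton]
    constructor
    · rintro rfl; exact ⟨[], rfl, rfl⟩
    · rintro ⟨w, hw, rfl⟩
      rw [List.length_eq_zero_iff] at hw; subst hw; rfl
  | succ r ih =>
    simp only [ball, mem_step]
    constructor
    · rintro ⟨i, a, ha, rfl⟩
      obtain ⟨w, hw, rfl⟩ := ih.1 ha
      exact ⟨i :: w, by simp [hw], by simp⟩
    · rintro ⟨w, hw, rfl⟩
      match w, hw with
      | i :: w, hw =>
        exact ⟨i, (w.map ga).prod, ih.2 ⟨w, by simpa using hw, rfl⟩, by simp⟩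

/-- set growth -/
theorem step_growth {ga : ι → P} {lam : ℝ} (h : Mix ga lam) (hι : 0 < Fintype.card ι)
    (A : Finset P) :
    (A.card : ℝ) ^ 2 ≤ ((step ga A).card : ℝ) *
      ((A.card : ℝ) ^ 2 / (Fintype.card P : ℝ) + lam ^ 2 * A.card) := by
  classical
  set f : P → ℝ := fun g => if g ∈ A then 1 else 0 with hf
  have hf0 : ∀ g, 0 ≤ f g := fun g => by simp only [hf]; split_ifs <;> norm_num
  have hsum : ∑ g, f g = A.card := by simp [hf]
  have hsum2 : ∑ g, f g ^ 2 = A.card := by simp [hf]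
  have hm := h f hf0
  rw [hsum, hsum2] at hm
  set F : P → ℝ := fun g => ∑ i, f ((ga i)⁻¹ * g) with hF
  have hsupp : ∀ g, g ∉ step ga A → F g = 0 := by
    intro g hg
    simp only [hF]
    refine sum_eq_zero fun i _ => ?_
    simp only [hf]
    rw [if_neg]
    intro hmem
    exact hg (mem_step.2 ⟨i, _, hmem, by group⟩)
  have hFsum : ∑ g, F g = (Fintype.card ι : ℝ) * A.card := by
    simp only [hF]
    rw [sum_comm]
    have : ∀ i : ι, ∑ g, f ((ga i)⁻¹ * g) = A.card := by
      intro i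
      rw [← hsum]
      exact Fintype.sum_equiv (Equiv.mulLeft (ga i)⁻¹) _ _ fun g => rfl
    simp [this]
  have hFsum' : ∑ g ∈ step ga A, F g = (Fintype.card ι : ℝ) * A.card := by
    rw [← hFsum]
    exact sum_subset (subset_univ _) fun g _ hg => hsupp g hg
  have hCS : (∑ g ∈ step ga A, F g) ^ 2 ≤ ((step ga A).card : ℝ) * ∑ g ∈ step ga A, F g ^ 2 :=
    sq_sum_le_card_mul_sum_sq
  have hle : ∑ g ∈ step ga A, F g ^ 2 ≤ ∑ g, F g ^ 2 :=
    sum_le_univ_sum_of_nonneg fun g => sq_nonneg _
  have hn : (0 : ℝ) < (Fintype.card ι : ℝ) ^ 2 := by positivity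
  have key : ((Fintype.card ι : ℝ) * A.card) ^ 2 ≤ ((step ga A).card : ℝ) *
      ((Fintype.card ι : ℝ) ^ 2 * ((A.card : ℝ) ^ 2 / (Fintype.card P : ℝ) + lam ^ 2 * A.card)) := by
    rw [hFsum'] at hCS
    refine hCS.trans ?_
    exact mul_le_mul_of_nonneg_left (hle.trans hm) (by positivity)
  have key2 : (Fintype.card ι : ℝ) ^ 2 * (A.card : ℝ) ^ 2 ≤ (Fintype.card ι : ℝ) ^ 2 *
      (((step ga A).card : ℝ) *
      ((A.card : ℝ) ^ 2 / (Fintype.card P : ℝ) + lam ^ 2 * A.card)) := by
    calc _ = ((Fintype.card ι : ℝ) * A.card) ^ 2 := by ring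
      _ ≤ _ := key
      _ = _ := by ring
  exact le_of_mul_le_mul_left key2 hn

/-- growth factor: `|A| ≤ |step A| * (|A|/|P| + lam^2)` -/
theorem step_growth' {ga : ι → P} {lam : ℝ} (h : Mix ga lam) (hι : 0 < Fintype.card ι)
    (A : Finset P) :
    (A.card : ℝ) ≤ ((step ga A).card : ℝ) *
      ((A.card : ℝ) / (Fintype.card P : ℝ) + lam ^ 2) := by
  rcases Nat.eq_zero_or_pos A.card with h0 | hpos
  · rw [h0]
    have : 0 ≤ ((step ga A).card : ℝ) * (((0 : ℕ) : ℝ) / (Fintype.card P : ℝ) + lam ^ 2) := by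
      positivity
    simpa using this
  · have hA : (0 : ℝ) < A.card := by exact_mod_cast hpos
    have := step_growth h hι A
    have h2 : (A.card : ℝ) * A.card ≤ (A.card : ℝ) * (((step ga A).card : ℝ) *
      ((A.card : ℝ) / (Fintype.card P : ℝ) + lam ^ 2)) := by
      calc (A.card : ℝ) * A.card = (A.card : ℝ) ^ 2 := by ring
        _ ≤ _ := this
        _ = _ := by ring
    exact le_of_mul_le_mul_left h2 hA

/-- small sets double -/
theorem step_double {ga : ι → P} {lam : ℝ} (h : Mix ga lam) (hι : 0 < Fintype.card ι)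
    (hlam : lam ^ 2 ≤ 1 / 8) (A : Finset P)
    (hA : (A.card : ℝ) ≤ (Fintype.card P : ℝ) / 4) :
    2 * (A.card : ℝ) ≤ ((step ga A).card : ℝ) := by
  have hP : (0 : ℝ) < Fintype.card P := by exact_mod_cast Fintype.card_pos
  have h1 := step_growth' h hι A
  have h2 : (A.card : ℝ) / (Fintype.card P : ℝ) ≤ 1 / 4 := by
    rw [div_le_iff₀ hP]; linarith
  have h3 : (0 : ℝ) ≤ ((step ga A).card : ℝ) := by positivity
  have h4 : ((step ga A).card : ℝ) * ((A.card : ℝ) / (Fintype.card P : ℝ) + lam ^ 2) ≤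
      ((step ga A).card : ℝ) * (1 / 2) :=
    mul_le_mul_of_nonneg_left (by linarith) h3
  linarith

/-- large sets pass to more than one half -/
theorem step_large {ga : ι → P} {lam : ℝ} (h : Mix ga lam) (hι : 0 < Fintype.card ι)
    (hlam : lam ^ 2 ≤ 1 / 8) (A : Finset P)
    (hA : (Fintype.card P : ℝ) / 4 ≤ (A.card : ℝ)) :
    (Fintype.card P : ℝ) / 2 < ((step ga A).card : ℝ) := by
  have hP : (0 : ℝ) < Fintype.card P := by exact_mod_cast Fintype.card_pos
  have h1 := step_growth' h hι A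
  set x : ℝ := (A.card : ℝ) / (Fintype.card P : ℝ) with hx
  have hx1 : 1 / 4 ≤ x := by
    rw [hx, le_div_iff₀ hP]; linarith
  have hAx : (A.card : ℝ) = x * Fintype.card P := by
    rw [hx]; field_simp
  rw [hAx] at h1
  by_contra hcon
  push Not at hcon
  have h2 : ((step ga A).card : ℝ) * (x + lam ^ 2) ≤
      (Fintype.card P : ℝ) / 2 * (x + lam ^ 2) :=
    mul_le_mul_of_nonneg_right hcon (by nlinarith [sq_nonneg lam])
  have h3 : (Fintype.card P : ℝ) / 2 * (x + lam ^ 2) < x * Fintype.card P := by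
    have : (x + lam ^ 2) / 2 < x := by linarith
    calc (Fintype.card P : ℝ) / 2 * (x + lam ^ 2) = (x + lam ^ 2) / 2 * Fintype.card P := by ring
      _ < x * Fintype.card P := mul_lt_mul_of_pos_right this hP
  linarith

theorem ball_card {ga : ι → P} {lam : ℝ} (h : Mix ga lam) (hι : 0 < Fintype.card ι)
    (hlam : lam ^ 2 ≤ 1 / 8) (r : ℕ) :
    (2 : ℝ) ^ r ≤ ((ball ga r).card : ℝ) ∨ (Fintype.card P : ℝ) / 4 ≤ ((ball ga r).card : ℝ) := by
  have hP : (0 : ℝ) < Fintype.card P := by exact_mod_cast Fintype.card_pos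
  induction r with
  | zero => left; simp [ball]
  | succ r ih =>
    by_cases hc : (Fintype.card P : ℝ) / 4 ≤ ((ball ga r).card : ℝ)
    · right
      have := step_large h hι hlam _ hc
      show (Fintype.card P : ℝ) / 4 ≤ ((step ga (ball ga r)).card : ℝ)
      linarith
    · push Not at hc
      have h1 := step_double h hι hlam _ hc.le
      rcases ih with ih | ih
      · left
        show (2 : ℝ) ^ (r + 1) ≤ ((step ga (ball ga r)).card : ℝ)
        rw [pow_succ]; linarith
      · exact absurd ih (not_le.2 hc)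

/-- **balls of radius `≥ clog 2 |P| + 1` contain more than half of the group** -/
theorem ball_half {ga : ι → P} {lam : ℝ} (h : Mix ga lam) (hι : 0 < Fintype.card ι)
    (hlam : lam ^ 2 ≤ 1 / 8) {R : ℕ} (hR : Nat.clog 2 (Fintype.card P) + 1 ≤ R) :
    (Fintype.card P : ℝ) / 2 < ((ball ga R).card : ℝ) := by
  have hP : (0 : ℝ) < Fintype.card P := by exact_mod_cast Fintype.card_pos
  obtain ⟨r, rfl⟩ : ∃ r, R = r + 1 := ⟨R - 1, by omega⟩
  have hr : Nat.clog 2 (Fintype.card P) ≤ r := by omega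
  refine step_large h hι hlam _ ?_
  rcases ball_card h hι hlam r with h1 | h1
  · have h2 : (Fintype.card P : ℝ) ≤ (2 : ℝ) ^ r := by
      have h3 : Fintype.card P ≤ 2 ^ r :=
        (Nat.le_pow_clog (by norm_num) _).trans (Nat.pow_le_pow_right (by norm_num) hr)
      exact_mod_cast h3
    linarith
  · exact h1

/-- **diameter**: every element is `u * v⁻¹`, `u, v` products of exactly `R` letters -/
theorem diam {ga : ι → P} {lam : ℝ} (h : Mix ga lam) (hι : 0 < Fintype.card ι)
    (hlam : lam ^ 2 ≤ 1 / 8) {R : ℕ} (hR : Nat.clog 2 (Fintype.card P) + 1 ≤ R) (g : P) :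
    ∃ w w' : List ι, w.length = R ∧ w'.length = R ∧
      g = (w.map ga).prod * ((w'.map ga).prod)⁻¹ := by
  have hhalf := ball_half h hι hlam hR
  set B := ball ga R with hB
  have hinter : (B ∩ B.image fun b => g * b).Nonempty := by
    by_contra hne
    rw [not_nonempty_iff_eq_empty, ← disjoint_iff_inter_eq_empty] at hne
    have hc := card_union_of_disjoint hne
    rw [card_image_of_injective _ (mul_right_injective g)] at hc
    have hle : (B ∪ B.image fun b => g * b).card ≤ Fintype.card P := card_le_univ _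
    have : (B.card : ℝ) + B.card ≤ Fintype.card P := by
      exact_mod_cast (hc ▸ hle)
    linarith
  obtain ⟨a, ha⟩ := hinter
  rw [mem_inter, mem_image] at ha
  obtain ⟨ha1, b, hb, hab⟩ := ha
  obtain ⟨w, hw, hwa⟩ := mem_ball.1 ha1
  obtain ⟨w', hw', hwb⟩ := mem_ball.1 hb
  exact ⟨w, w', hw, hw', by rw [hwa, hwb, ← hab]; group⟩

/-- version with a symmetric set of letters `S ∋ ga i, (ga i)⁻¹`: words of length `2R` -/
theorem diam_sym {ga : ι → P} {lam : ℝ} (h : Mix ga lam) (hι : 0 < Fintype.card ι)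
    (hlam : lam ^ 2 ≤ 1 / 8) {R : ℕ} (hR : Nat.clog 2 (Fintype.card P) + 1 ≤ R)
    (S : Set P) (hS : ∀ i, ga i ∈ S) (hS' : ∀ i, (ga i)⁻¹ ∈ S) (g : P) :
    ∃ w : List P, w.length = 2 * R ∧ (∀ s ∈ w, s ∈ S) ∧ w.prod = g := by
  obtain ⟨w, w', hw, hw', hg⟩ := diam h hι hlam hR g
  refine ⟨w.map ga ++ (w'.reverse.map fun i => (ga i)⁻¹), by simp [hw, hw']; omega, ?_, ?_⟩
  · intro s hs
    rw [List.mem_append] at hs
    rcases hs with hs | hs
    · obtain ⟨i, _, rfl⟩ := List.mem_map.1 hs; exact hS i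
    · obtain ⟨i, _, rfl⟩ := List.mem_map.1 hs; exact hS' i
  · rw [List.prod_append, hg]
    congr 1
    rw [List.prod_inv_reverse]
    simp [List.map_reverse, Function.comp_def]

/-- the letters generate the group -/
theorem closure_eq_top {ga : ι → P} {lam : ℝ} (h : Mix ga lam) (hι : 0 < Fintype.card ι)
    (hlam : lam ^ 2 ≤ 1 / 8) : Subgroup.closure (Set.range ga) = ⊤ := by
  rw [eq_top_iff]
  intro g _
  obtain ⟨w, w', -, -, rfl⟩ := diam h hι hlam le_rfl g
  have : ∀ w : List ι, (w.map ga).prod ∈ Subgroup.closure (Set.range ga) := by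
    intro w
    refine Subgroup.list_prod_mem _ fun x hx => ?_
    obtain ⟨i, _, rfl⟩ := List.mem_map.1 hx
    exact Subgroup.subset_closure ⟨i, rfl⟩
  exact Subgroup.mul_mem _ (this w) (Subgroup.inv_mem _ (this w'))

/-! ### right multiplication form, product groups -/

/-- right form: words multiply on the right, `g = u⁻¹ * v` -/
theorem diam_right {ga : ι → P} {lam : ℝ} (h : Mix ga lam) (hι : 0 < Fintype.card ι)
    (hlam : lam ^ 2 ≤ 1 / 8) {R : ℕ} (hR : Nat.clog 2 (Fintype.card P) + 1 ≤ R) (g : P) :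
    ∃ w w' : List ι, w.length = R ∧ w'.length = R ∧
      g = (((w.map ga).prod)⁻¹) * (w'.map ga).prod := by
  -- `B⁻¹ * B` is everything as well
  have hhalf := ball_half h hι hlam hR
  set B := ball ga R with hB
  have hinter : (B ∩ B.image fun b => b * g).Nonempty := by
    by_contra hne
    rw [not_nonempty_iff_eq_empty, ← disjoint_iff_inter_eq_empty] at hne
    have hc := card_union_of_disjoint hne
    rw [card_image_of_injective _ (mul_left_injective g)] at hc
    have hle : (B ∪ B.image fun b => b * g).card ≤ Fintype.card P := card_le_univ _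
    have : (B.card : ℝ) + B.card ≤ Fintype.card P := by
      exact_mod_cast (hc ▸ hle)
    linarith
  obtain ⟨a, ha⟩ := hinter
  rw [mem_inter, mem_image] at ha
  obtain ⟨ha1, b, hb, hab⟩ := ha
  obtain ⟨w, hw, hwa⟩ := mem_ball.1 ha1
  obtain ⟨w', hw', hwb⟩ := mem_ball.1 hb
  exact ⟨w', w, hw', hw, by rw [hwa, hwb, ← hab]; group⟩

omit [Fintype P] [DecidableEq P] [Fintype ι] in
/-- a product group: letters `(a, 1)` and `(1, b)` -/
theorem prod_words {Q κ : Type*} [Group Q] (ga : ι → P) (gb : κ → Q) (g : P × Q)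
    (u v : List ι) (u' v' : List κ)
    (h1 : g.1 = (u.map ga).prod * ((v.map ga).prod)⁻¹)
    (h2 : g.2 = (u'.map gb).prod * ((v'.map gb).prod)⁻¹) :
    ∃ w : List (P × Q), w.length = u.length + v.length + (u'.length + v'.length) ∧
      (∀ s ∈ w, (∃ i, s = (ga i, 1) ∨ s = ((ga i)⁻¹, 1)) ∨
        ∃ j, s = (1, gb j) ∨ s = (1, (gb j)⁻¹)) ∧ w.prod = g := by
  refine ⟨(u.map fun i => (ga i, (1 : Q))) ++ (v.reverse.map fun i => ((ga i)⁻¹, (1 : Q))) ++
    ((u'.map fun j => ((1 : P), gb j)) ++ (v'.reverse.map fun j => ((1 : P), (gb j)⁻¹))), ?_, ?_, ?_⟩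
  · simp; omega
  · intro s hs
    simp only [List.mem_append, List.mem_map] at hs
    rcases hs with (⟨i, _, rfl⟩ | ⟨i, _, rfl⟩) | (⟨j, _, rfl⟩ | ⟨j, _, rfl⟩)
    · exact Or.inl ⟨i, Or.inl rfl⟩
    · exact Or.inl ⟨i, Or.inr rfl⟩
    · exact Or.inr ⟨j, Or.inl rfl⟩
    · exact Or.inr ⟨j, Or.inr rfl⟩
  · have e1 : ∀ l : List ι, (l.map fun i => (ga i, (1 : Q))).prod = ((l.map ga).prod, 1) := by
      intro l
      induction l with
      | nil => rfl
      | cons a l ih => simp [ih]
    have e2 : ∀ l : List ι, (l.reverse.map fun i => ((ga i)⁻¹, (1 : Q))).prod =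
        (((l.map ga).prod)⁻¹, 1) := by
      intro l
      induction l with
      | nil => simp [Prod.one_eq_mk]
      | cons a l ih =>
        rw [List.reverse_cons, List.map_append, List.prod_append, ih]
        simp [mul_inv_rev]
    have e3 : ∀ l : List κ, (l.map fun j => ((1 : P), gb j)).prod = (1, (l.map gb).prod) := by
      intro l
      induction l with
      | nil => rfl
      | cons a l ih => simp [ih]
    have e4 : ∀ l : List κ, (l.reverse.map fun j => ((1 : P), (gb j)⁻¹)).prod =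
        (1, ((l.map gb).prod)⁻¹) := by
      intro l
      induction l with
      | nil => simp [Prod.one_eq_mk]
      | cons a l ih =>
        rw [List.reverse_cons, List.map_append, List.prod_append, ih]
        simp [mul_inv_rev]
    rw [List.prod_append, List.prod_append, List.prod_append, e1, e2, e3, e4]
    ext
    · simp [h1]
    · simp [h2]

end Crest.Agent.R289.Diam309
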