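import Mathlib
import Crest.Agent.R289.Tan_846
import Crest.Agent.R289.PS_459
import Crest.Agent.R289.Tensor_560

/-!
Row 289, block B6 (two-place, left-invariant object): distance of the words of the square code at
unit level and at square level, arbitrary alphabets, bundles, charts, Reed-Solomon local codes.
Only the x-lines (even and odd) and, for the square level, the even y-lines are used.  helper101.
-/

set_option autoImplicit false
set_option linter.unusedSectionVars false

namespace Crest.Agent.R289.Dist101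

open Finset Crest.Agent.R289.Tan846

/-! ### local codes -/

section local_codes

variable {I I' A A' : Type} [Fintype I] [Fintype I']

theorem cnt_equiv {α β : Type} [Fintype α] [Fintype β] (e : α ≃ β) (p : β → Prop) :
    cnt (fun a => p (e a)) = cnt p := by
  classical
  unfold cnt
  refine Finset.card_bij (fun a _ => e a) ?_ ?_ ?_
  · intro a ha
    simpa using ha
  · intro a _ b _ h
    exact e.injective h
  · intro b hb
    exact ⟨e.symm b, by simpa using hb, by simp⟩

/-- a chart (bijection of the labels) and injective maps of the symbols do not change the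
distance. -/
theorem dist_chart {R : Set (I' → A')} {d : ℕ} (h : Dist R d) (e : I ≃ I') (mu : I → A → A')
    (hmu : ∀ l, Function.Injective (mu l)) :
    Dist {c : I → A | (fun l' => mu (e.symm l') (c (e.symm l'))) ∈ R} d := by
  intro c hc c' hc' hne
  have hne' : (fun l' => mu (e.symm l') (c (e.symm l'))) ≠
      (fun l' => mu (e.symm l') (c' (e.symm l'))) := by
    intro h
    apply hne
    funext l
    have := congrFun h (e l)
    simp only [Equiv.symm_apply_apply] at this
    exact hmu l this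
  refine (h _ hc _ hc' hne').trans ?_
  rw [← cnt_equiv e]
  refine cnt_le fun l hl => ?_
  simp only [Equiv.symm_apply_apply] at hl
  exact fun h => hl (by rw [h])

/-- bundles (several words of the same code at the same places). -/
theorem dist_bundle {ι : Type} {R : Set (I → A)} {d : ℕ} (h : Dist R d) :
    Dist {c : I → ι → A | ∀ j, (fun l => c l j) ∈ R} d := by
  intro c hc c' hc' hne
  obtain ⟨l, hl⟩ := Function.ne_iff.1 hne
  obtain ⟨j, hj⟩ := Function.ne_iff.1 hl
  have := h _ (hc j) _ (hc' j) (fun h => hj (congrFun h l))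
  exact this.trans (cnt_le fun l hl h => hl (congrFun h j))

theorem dist_mono {R : Set (I → A)} {d d' : ℕ} (h : Dist R d) (hd : d' ≤ d) : Dist R d' :=
  fun c hc c' hc' hne => hd.trans (h c hc c' hc' hne)

theorem dist_subset {R R' : Set (I → A)} {d : ℕ} (h : Dist R d) (hs : R' ⊆ R) : Dist R' d :=
  fun c hc c' hc' hne => h c (hs hc) c' (hs hc') hne

/-- words with values in functions of a second label, column code `R m` depending on `m`,
read in a chart `M l` of the second label that may depend on the first label. -/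
theorem dist_cols {J : Type} (M : I → J ≃ J) {R : J → Set (I → A)} {d : ℕ}
    (h : ∀ m, Dist (R m) d) :
    Dist {c : I → J → A | ∀ m', (fun l => c l ((M l).symm m')) ∈ R m'} d := by
  intro c hc c' hc' hne
  obtain ⟨l0, h0⟩ := Function.ne_iff.1 hne
  obtain ⟨m0, hm⟩ := Function.ne_iff.1 h0
  have hne' : (fun l => c l ((M l).symm (M l0 m0))) ≠ fun l => c' l ((M l).symm (M l0 m0)) := by
    intro h
    have := congrFun h l0
    simp only [Equiv.symm_apply_apply] at this
    exact hm this
  refine (h _ _ (hc _) _ (hc' _) hne').trans (cnt_le fun l hl h => hl ?_)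
  show c l ((M l).symm (M l0 m0)) = c' l ((M l).symm (M l0 m0))
  rw [h]

end local_codes

section RS

variable {K : Type} [Field K] [Fintype K]

open Polynomial Crest.Agent.R289.PS459 in
/-- the projective Reed-Solomon code of degree `≤ s`. -/
def RS (s : ℕ) : Set (Option K → K) :=
  {f | ∃ p : K[X], p.natDegree ≤ s ∧ ∀ b, f b = ev s p b}

open Polynomial Crest.Agent.R289.PS459 in
theorem dist_RS (s : ℕ) : Dist (RS (K := K) s) (Fintype.card K + 1 - s) := by
  classical
  rintro c ⟨p, hp, hc⟩ c' ⟨q, hq, hc'⟩ hne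
  have hpq : p ≠ q := by
    rintro rfl
    exact hne (funext fun b => (hc b).trans (hc' b).symm)
  have h1 := card_agree hp hq hpq (univ.filter fun b => c b = c' b) (by
    intro b hb
    have : c b = c' b := by simpa using hb
    rw [← hc, ← hc', this])
  have h2 : (univ.filter fun b : Option K => c b = c' b).card +
      (univ.filter fun b : Option K => ¬ c b = c' b).card = Fintype.card K + 1 := by
    rw [Finset.card_filter_add_card_filter_not, Finset.card_univ, Fintype.card_option]
  unfold cnt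
  have h3 : (univ.filter fun b : Option K => ¬ c b = c' b).card =
      (@Finset.filter _ (fun b => c b ≠ c' b) (fun _ => Classical.propDecidable _) univ).card := by
    congr
  rw [← h3]
  omega

end RS

/-! ### the square code -/

variable {P I J A : Type} [Group P] [Fintype P] [Fintype I] [Fintype J]

/-- the part of the two-place square code that is used for the distance: words
`w p l m` = value on the square with even-even corner `p` and labels `(l, m)`;
even x-lines `(p, m)`, odd x-lines `(h, m')` (`h = p * al l`, `m' = M l m`), even y-lines `(p, l)`. -/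
def Code (al : I → P) (M : I → J ≃ J) (Xe Xo : J → Set (I → A)) (Ye : I → Set (J → A)) :
    Set (P → I → J → A) :=
  {w | (∀ p m, (fun l => w p l m) ∈ Xe m) ∧
    (∀ h m', (fun l => w (h * (al l)⁻¹) l ((M l).symm m')) ∈ Xo m') ∧ ∀ p l, w p l ∈ Ye l}

/-- expansion of the x-graph in the form of `Tan846.Ex`. -/
def ExX (al : I → P) (lam : ℝ) : Prop :=
  ∀ g : P → ℝ, (∀ u, 0 ≤ g u) →
    ∑ h : P, (∑ z, g (h * (al z)⁻¹)) ^ 2 ≤
      (Fintype.card I : ℝ) ^ 2 * ((∑ u, g u) ^ 2 / Fintype.card P + lam ^ 2 * ∑ u, g u ^ 2)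

variable {al : I → P} {M : I → J ≃ J} {Xe Xo : J → Set (I → A)} {Ye : I → Set (J → A)}

theorem ex_of {lam : ℝ} (h : ExX al lam) :
    Ex (fun l => Equiv.mulRight (al l)) (Fintype.card P : ℝ) lam := by
  intro g hg
  simpa using h g hg

theorem mem_tan {w : P → I → J → A} (h : w ∈ Code al M Xe Xo Ye) :
    w ∈ Tan (fun l => Equiv.mulRight (al l)) {c : I → J → A | ∀ m, (fun l => c l m) ∈ Xe m}
      {c : I → J → A | ∀ m', (fun l => c l ((M l).symm m')) ∈ Xo m'} := by
  refine ⟨fun u m => h.1 u m, fun g m' => ?_⟩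
  simpa using h.2.1 g m'

/-- **distance at unit level.** -/
theorem sep_units {lam : ℝ} (hE : ExX al lam) {d : ℕ} (hXe : ∀ m, Dist (Xe m) d)
    (hXo : ∀ m, Dist (Xo m) d) {w w' : P → I → J → A} (hw : w ∈ Code al M Xe Xo Ye)
    (hw' : w' ∈ Code al M Xe Xo Ye) (hne : w ≠ w') :
    (d : ℝ) ^ 2 * Fintype.card P ≤
      (Fintype.card I : ℝ) ^ 2 * ((cnt (fun p => w p ≠ w' p) : ℝ) + lam ^ 2 * Fintype.card P) := by
  have hN : (0 : ℝ) < Fintype.card P := by exact_mod_cast Fintype.card_pos
  have h0 : Dist {c : I → J → A | ∀ m, (fun l => c l m) ∈ Xe m} d := by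
    have := dist_cols (fun _ : I => Equiv.refl J) hXe
    simpa using this
  exact sep hN (ex_of hE) h0 (dist_cols M hXo) (mem_tan hw) (mem_tan hw') hne

/-- distance of the local view at an even-even vertex. -/
theorem view {dx dy : ℕ} (hXe : ∀ m, Dist (Xe m) dx) (hYe : ∀ l, Dist (Ye l) dy)
    {w w' : P → I → J → A} (hw : w ∈ Code al M Xe Xo Ye) (hw' : w' ∈ Code al M Xe Xo Ye) {p : P}
    (hne : w p ≠ w' p) : dx * dy ≤ cnt (fun x : I × J => w p x.1 x.2 ≠ w' p x.1 x.2) := by
  classical
  obtain ⟨l0, h0⟩ := Function.ne_iff.1 hne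
  have h1 := hYe l0 _ (hw.2.2 p l0) _ (hw'.2.2 p l0) h0
  have h2 : ∀ m, w p l0 m ≠ w' p l0 m → dx ≤ cnt (fun l => w p l m ≠ w' p l m) := by
    intro m hm
    exact hXe m _ (hw.1 p m) _ (hw'.1 p m) (fun h => hm (congrFun h l0))
  have h3 := mul_cnt_le (fun m => w p l0 m ≠ w' p l0 m) (fun m => cnt (fun l => w p l m ≠ w' p l m))
    dx h2
  have h4 : ∑ m, cnt (fun l => w p l m ≠ w' p l m) =
      cnt (fun x : I × J => w p x.1 x.2 ≠ w' p x.1 x.2) := by
    simp only [← cnt_sum_nat]
    rw [Fintype.sum_prod_type, Finset.sum_comm]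
  rw [← h4]
  exact (Nat.mul_le_mul_left dx h1).trans h3

/-- **distance at square level**: two different words differ on at least
`((d/n)² - lam²) * dx * dy * |P|` squares. -/
theorem sep_squares {lam : ℝ} (hE : ExX al lam) {d dy : ℕ} (hXe : ∀ m, Dist (Xe m) d)
    (hXo : ∀ m, Dist (Xo m) d) (hYe : ∀ l, Dist (Ye l) dy) [Nonempty I] {w w' : P → I → J → A}
    (hw : w ∈ Code al M Xe Xo Ye) (hw' : w' ∈ Code al M Xe Xo Ye) (hne : w ≠ w') :
    (((d : ℝ) / Fintype.card I) ^ 2 - lam ^ 2) * (d * dy) * Fintype.card P ≤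
      cnt (fun x : P × I × J => w x.1 x.2.1 x.2.2 ≠ w' x.1 x.2.1 x.2.2) := by
  classical
  have hn : (0 : ℝ) < Fintype.card I := by exact_mod_cast Fintype.card_pos
  have h1 := sep_units hE hXe hXo hw hw' hne
  have h2 := mul_cnt_le (fun p => w p ≠ w' p)
    (fun p => cnt (fun x : I × J => w p x.1 x.2 ≠ w' p x.1 x.2)) (d * dy)
    (fun p hp => view hXe hYe hw hw' hp)
  have h3 : ∑ p, cnt (fun x : I × J => w p x.1 x.2 ≠ w' p x.1 x.2) =
      cnt (fun x : P × I × J => w x.1 x.2.1 x.2.2 ≠ w' x.1 x.2.1 x.2.2) := by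
    simp only [← cnt_sum_nat]
    rw [Fintype.sum_prod_type]
  rw [h3] at h2
  have h4 : (((d : ℝ) / Fintype.card I) ^ 2 - lam ^ 2) * Fintype.card P ≤
      cnt (fun p => w p ≠ w' p) := by
    have h5 : (d : ℝ) ^ 2 * Fintype.card P =
        (Fintype.card I : ℝ) ^ 2 * (((d : ℝ) / Fintype.card I) ^ 2 * Fintype.card P) := by
      field_simp
    rw [h5] at h1
    have h6 := le_of_mul_le_mul_left h1 (by positivity)
    linarith
  calc (((d : ℝ) / Fintype.card I) ^ 2 - lam ^ 2) * (d * dy) * Fintype.card P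
      = (d * dy) * ((((d : ℝ) / Fintype.card I) ^ 2 - lam ^ 2) * Fintype.card P) := by ring
    _ ≤ (d * dy) * (cnt (fun p => w p ≠ w' p) : ℝ) := by
        apply mul_le_mul_of_nonneg_left h4
        positivity
    _ ≤ _ := by exact_mod_cast h2

/-- relative form: `dist ≥ ((d/n)² - lam²) (d/n) (dy/n')`. -/
theorem sep_rel {lam : ℝ} (hE : ExX al lam) {d dy : ℕ} (hXe : ∀ m, Dist (Xe m) d)
    (hXo : ∀ m, Dist (Xo m) d) (hYe : ∀ l, Dist (Ye l) dy) [Nonempty I] [Nonempty J]
    {w w' : P → I → J → A} (hw : w ∈ Code al M Xe Xo Ye) (hw' : w' ∈ Code al M Xe Xo Ye)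
    (hne : w ≠ w') :
    (((d : ℝ) / Fintype.card I) ^ 2 - lam ^ 2) * ((d : ℝ) / Fintype.card I) *
        ((dy : ℝ) / Fintype.card J) * Fintype.card (P × I × J) ≤
      cnt (fun x : P × I × J => w x.1 x.2.1 x.2.2 ≠ w' x.1 x.2.1 x.2.2) := by
  have hn : (0 : ℝ) < Fintype.card I := by exact_mod_cast Fintype.card_pos
  have hn' : (0 : ℝ) < Fintype.card J := by exact_mod_cast Fintype.card_pos
  refine le_trans (le_of_eq ?_) (sep_squares hE hXe hXo hYe hw hw' hne)
  rw [Fintype.card_prod, Fintype.card_prod]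
  push_cast
  field_simp

/-- two words which differ on few squares are equal (constants for `d/n, dy/n' ≥ 1/2`,
`lam ≤ 1/4`: fewer than `3/64` of the squares). -/
theorem eq_of_few {lam : ℝ} (hE : ExX al lam) {d dy : ℕ} (hXe : ∀ m, Dist (Xe m) d)
    (hXo : ∀ m, Dist (Xo m) d) (hYe : ∀ l, Dist (Ye l) dy) [Nonempty I] [Nonempty J]
    (hd : Fintype.card I ≤ 2 * d) (hdy : Fintype.card J ≤ 2 * dy) (hl : lam ^ 2 ≤ 1 / 16)
    {w w' : P → I → J → A} (hw : w ∈ Code al M Xe Xo Ye) (hw' : w' ∈ Code al M Xe Xo Ye)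
    (h : (cnt (fun x : P × I × J => w x.1 x.2.1 x.2.2 ≠ w' x.1 x.2.1 x.2.2) : ℝ) <
      3 / 64 * Fintype.card (P × I × J)) : w = w' := by
  by_contra hne
  have h1 := sep_rel hE hXe hXo hYe hw hw' hne
  have hn : (0 : ℝ) < Fintype.card I := by exact_mod_cast Fintype.card_pos
  have hn' : (0 : ℝ) < Fintype.card J := by exact_mod_cast Fintype.card_pos
  have hc : (0 : ℝ) < Fintype.card (P × I × J) := by exact_mod_cast Fintype.card_pos
  have a1 : (1 : ℝ) / 2 ≤ (d : ℝ) / Fintype.card I := by
    rw [div_le_div_iff₀ (by norm_num) hn]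
    have : (Fintype.card I : ℝ) ≤ 2 * d := by exact_mod_cast hd
    linarith
  have a2 : (1 : ℝ) / 2 ≤ (dy : ℝ) / Fintype.card J := by
    rw [div_le_div_iff₀ (by norm_num) hn']
    have : (Fintype.card J : ℝ) ≤ 2 * dy := by exact_mod_cast hdy
    linarith
  have a3 : (3 : ℝ) / 16 ≤ ((d : ℝ) / Fintype.card I) ^ 2 - lam ^ 2 := by nlinarith
  have a4 : (3 : ℝ) / 64 ≤ (((d : ℝ) / Fintype.card I) ^ 2 - lam ^ 2) *
      ((d : ℝ) / Fintype.card I) * ((dy : ℝ) / Fintype.card J) := by
    calc (3 : ℝ) / 64 = 3 / 16 * (1 / 2) * (1 / 2) := by norm_num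
      _ ≤ _ := by gcongr
  nlinarith

/-! ### linear form (`Tensor560.MinDist`) -/

section linear

variable {K : Type} [Field K]

open Crest.Agent.R289.Tensor560 in
/-- a `K`-linear code all of whose words satisfy the conditions of `Code` has relative minimum
distance `((d/n)² - lam²) (d/n) (dy/n')`. -/
theorem minDist {lam : ℝ} (hE : ExX al lam) {Xe Xo : J → Set (I → K)} {Ye : I → Set (J → K)}
    {d dy : ℕ} (hXe : ∀ m, Dist (Xe m) d) (hXo : ∀ m, Dist (Xo m) d) (hYe : ∀ l, Dist (Ye l) dy)
    [Nonempty I] [Nonempty J] (C : Submodule K (P × I × J → K))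
    (hC : ∀ f ∈ C, (fun p l m => f (p, l, m)) ∈ Code al M Xe Xo Ye) :
    MinDist C ((((d : ℝ) / Fintype.card I) ^ 2 - lam ^ 2) * ((d : ℝ) / Fintype.card I) *
      ((dy : ℝ) / Fintype.card J)) := by
  classical
  intro f hf hne
  have h0 : (fun p l m => (0 : P × I × J → K) (p, l, m)) ∈ Code al M Xe Xo Ye :=
    hC 0 (Submodule.zero_mem C)
  have hne' : (fun p l m => f (p, l, m)) ≠ fun p l m => (0 : P × I × J → K) (p, l, m) := by
    intro h
    apply hne
    funext x
    exact congrFun (congrFun (congrFun h x.1) x.2.1) x.2.2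
  have := sep_rel hE hXe hXo hYe (hC f hf) h0 hne'
  refine this.trans (le_of_eq ?_)
  unfold cnt wt
  norm_cast

end linear

end Crest.Agent.R289.Dist101
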