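import Mathlib

/-!
Row 289, block C (helper827): double buffering of a verified machine, content level and word level
(#5655 (4), #5715 (4)).

* `Mach S`: partial successor and predecessor, mutually inverse.
* `Mach.sub n`: every edge is replaced by a path with `n` inner states (`At s`, `In s s' k`).
* `VM`: a machine whose states are coded by words (`enc`), whose words have certificates of depth
  `0..L` (`cert x d`), and whose words can be verified from a full certificate.
* `Conf`, `conf`, `Legal`, `legal_iff`: the double buffered machine on the word level: the relations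
  `Legal` hold exactly for the configurations `conf` of the states of `sub (2 L + 5)`.
-/

set_option autoImplicit false
set_option linter.unusedSimpArgs false
set_option linter.unusedVariables false

namespace Crest.Agent.R289.Double827

universe u

/-- partial successor and predecessor maps, mutually inverse -/
structure Mach (S : Type*) where
  nx : S → Option S
  pv : S → Option S
  inv : ∀ s s', nx s = some s' ↔ pv s' = some s

/-- states of the subdivided machine -/
inductive SubSt {S : Type*} (M : Mach S) (n : ℕ)
  | At (s : S) : SubSt M n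
  | In (s s' : S) (h : M.nx s = some s') (k : Fin n) : SubSt M n

namespace Mach

variable {S : Type*} (M : Mach S) (n : ℕ)

open SubSt

/-- the state after position `k` on the edge `s → s'` (`k = n` is the end of the edge) -/
def pos {M : Mach S} {n : ℕ} (s s' : S) (h : M.nx s = some s') (k : ℕ) : SubSt M n :=
  if hk : k < n then In s s' h ⟨k, hk⟩ else At s'

/-- first state of an edge -/
def subNx : SubSt M n → Option (SubSt M n)
  | At s => match h : M.nx s with
    | none => none
    | some s' => some (pos s s' h 0)
  | In s s' h k => some (pos s s' h (k + 1))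

/-- predecessor -/
def subPv : SubSt M n → Option (SubSt M n)
  | At s' => match h : M.pv s' with
    | none => none
    | some s => some (if hn : n = 0 then At s else
        In s s' ((M.inv s s').2 h) ⟨n - 1, by omega⟩)
  | In s s' h k => some (if hk : (k : ℕ) = 0 then At s else In s s' h ⟨k - 1, by omega⟩)

theorem subNx_At_none {s : S} (h : M.nx s = none) : M.subNx n (At s) = none := by
  simp only [subNx]
  split
  · rfl
  · next s' h' => rw [h] at h'; simp at h'

theorem subNx_At_some {s s' : S} (h : M.nx s = some s') :
    M.subNx n (At s) = some (pos s s' h 0) := by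
  simp only [subNx]
  split
  · next h' => rw [h] at h'; simp at h'
  · next s'' h' =>
    rw [h] at h'
    obtain rfl : s' = s'' := by simpa using h'
    rfl

theorem subNx_In {s s' : S} (h : M.nx s = some s') (k : Fin n) :
    M.subNx n (In s s' h k) = some (pos s s' h (k + 1)) := rfl

theorem subPv_At_none {s : S} (h : M.pv s = none) : M.subPv n (At s) = none := by
  simp only [subPv]
  split
  · rfl
  · next s' h' => rw [h] at h'; simp at h'

theorem subPv_At_some {s s' : S} (h : M.nx s = some s') :
    M.subPv n (At s') = some (if hn : n = 0 then At s else In s s' h ⟨n - 1, by omega⟩) := by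
  have h0 := (M.inv s s').1 h
  simp only [subPv]
  split
  · next h' => rw [h0] at h'; simp at h'
  · next s'' h' =>
    rw [h0] at h'
    obtain rfl : s = s'' := by simpa using h'
    rfl

theorem subPv_In {s s' : S} (h : M.nx s = some s') (k : Fin n) :
    M.subPv n (In s s' h k) =
      some (if hk : (k : ℕ) = 0 then At s else In s s' h ⟨k - 1, by omega⟩) := rfl

theorem subPv_pos {s s' : S} (h : M.nx s = some s') {k : ℕ} (hk : k < n) :
    M.subPv n (pos s s' h (k + 1)) = some (In s s' h ⟨k, hk⟩) := by
  unfold pos
  split_ifs with h1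
  · rw [subPv_In]; simp
  · rw [M.subPv_At_some n h, dif_neg (by omega)]
    congr 2
    apply Fin.ext
    show n - 1 = k
    omega

theorem subPv_pos_zero {s s' : S} (h : M.nx s = some s') :
    M.subPv n (pos s s' h 0) = some (At s) := by
  unfold pos
  split_ifs with h1
  · rw [subPv_In]; simp
  · rw [M.subPv_At_some n h, dif_pos (by omega)]

/-- the subdivided machine -/
def sub : Mach (SubSt M n) where
  nx := M.subNx n
  pv := M.subPv n
  inv := by
    intro a b
    constructor
    · intro h
      cases a with
      | At s =>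
        cases hs : M.nx s with
        | none => rw [M.subNx_At_none n hs] at h; simp at h
        | some s' =>
          rw [M.subNx_At_some n hs] at h
          obtain rfl : pos s s' hs 0 = b := by simpa using h
          exact M.subPv_pos_zero n hs
      | In s s' hs k =>
        rw [subNx_In] at h
        obtain rfl : pos s s' hs (k + 1) = b := by simpa using h
        exact M.subPv_pos n hs k.2
    · intro h
      cases b with
      | At s' =>
        cases hs : M.pv s' with
        | none => rw [M.subPv_At_none n hs] at h; simp at h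
        | some s =>
          have hn := (M.inv s s').2 hs
          rw [M.subPv_At_some n hn] at h
          by_cases h0 : n = 0
          · rw [dif_pos h0] at h
            obtain rfl : At s = a := by simpa using h
            rw [M.subNx_At_some n hn]
            unfold pos
            rw [dif_neg (by omega)]
          · rw [dif_neg h0] at h
            obtain rfl : In s s' hn ⟨n - 1, by omega⟩ = a := by simpa using h
            rw [subNx_In]
            unfold pos
            rw [dif_neg (by simp; omega)]
      | In s s' hs k =>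
        rw [subPv_In] at h
        by_cases h0 : (k : ℕ) = 0
        · rw [dif_pos h0] at h
          obtain rfl : At s = a := by simpa using h
          rw [M.subNx_At_some n hs]
          unfold pos
          have : 0 < n := by have := k.2; omega
          rw [dif_pos this]
          congr 2
          exact Fin.ext h0.symm
        · rw [dif_neg h0] at h
          obtain rfl : In s s' hs ⟨k - 1, by omega⟩ = a := by simpa using h
          rw [subNx_In]
          unfold pos
          have : (k : ℕ) - 1 + 1 < n := by have := k.2; omega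
          rw [dif_pos this]
          congr 2
          apply Fin.ext
          show (k : ℕ) - 1 + 1 = k
          omega

/-- ends of the subdivided machine -/
theorem sub_nx_eq_none {a : SubSt M n} : (M.sub n).nx a = none ↔ ∃ s, a = At s ∧ M.nx s = none := by
  constructor
  · intro h
    cases a with
    | At s =>
      refine ⟨s, rfl, ?_⟩
      cases hs : M.nx s with
      | none => rfl
      | some s' =>
        have : M.subNx n (At s) = none := h
        rw [M.subNx_At_some n hs] at this
        simp at this
    | In s s' hs k =>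
      have : M.subNx n (In s s' hs k) = none := h
      rw [subNx_In] at this
      simp at this
  · rintro ⟨s, rfl, hs⟩
    exact M.subNx_At_none n hs

theorem sub_pv_eq_none {a : SubSt M n} : (M.sub n).pv a = none ↔ ∃ s, a = At s ∧ M.pv s = none := by
  constructor
  · intro h
    cases a with
    | At s =>
      refine ⟨s, rfl, ?_⟩
      cases hs : M.pv s with
      | none => rfl
      | some s' =>
        have : M.subPv n (At s) = none := h
        rw [M.subPv_At_some n ((M.inv s' s).2 hs)] at this
        simp at this
    | In s s' hs k =>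
      have : M.subPv n (In s s' hs k) = none := h
      rw [subPv_In] at this
      simp at this
  · rintro ⟨s, rfl, hs⟩
    exact M.subPv_At_none n hs

/-- total maps in the convention `N s = s` at the ends -/
def toN (s : S) : S := (M.nx s).getD s

/-- total predecessor -/
def toM (s : S) : S := (M.pv s).getD s

theorem toM_toN {s : S} (h : M.toN s ≠ s) : M.toM (M.toN s) = s := by
  unfold toN at h ⊢
  cases hs : M.nx s with
  | none => rw [hs] at h; simp at h
  | some s' =>
    simp only [Option.getD_some]
    unfold toM
    rw [(M.inv s s').1 hs]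
    rfl

theorem toN_toM {s : S} (h : M.toM s ≠ s) : M.toN (M.toM s) = s := by
  unfold toM at h ⊢
  cases hs : M.pv s with
  | none => rw [hs] at h; simp at h
  | some s' =>
    simp only [Option.getD_some]
    unfold toN
    rw [(M.inv s' s).2 hs]
    rfl

theorem toN_eq_self {s : S} (hirr : M.nx s ≠ some s) : M.toN s = s ↔ M.nx s = none := by
  unfold toN
  cases hs : M.nx s with
  | none => simp
  | some s' =>
    simp only [Option.getD_some, reduceCtorEq, iff_false]
    rintro rfl
    exact hirr hs

theorem toM_eq_self {s : S} (hirr : M.pv s ≠ some s) : M.toM s = s ↔ M.pv s = none := by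
  unfold toM
  cases hs : M.pv s with
  | none => simp
  | some s' =>
    simp only [Option.getD_some, reduceCtorEq, iff_false]
    rintro rfl
    exact hirr hs

end Mach

/-! ### the word level -/

/-- A machine with words: `enc` codes the states, `cert x d` is the certificate of depth `d` of the
word `x`, `Full x z` is the verification (`z` is a full certificate and its zero parts vanish),
`rdF, rdB` are the values that the step maps read, `stepF, stepB` are the step maps. -/
structure VM (S X Z R R' : Type*) extends Mach S where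
  enc : S → X
  enc_inj : Function.Injective enc
  L : ℕ
  cert : X → ℕ → Z
  Full : X → Z → Prop
  full_iff : ∀ x z, Full x z ↔ ∃ s, x = enc s ∧ z = cert x L
  rdF : S → R
  rdB : S → R'
  /-- relation between a verified word and a read register -/
  ReadF : X → Z → R → Prop
  ReadB : X → Z → R' → Prop
  readF_iff : ∀ s r, ReadF (enc s) (cert (enc s) L) r ↔ r = rdF s
  readB_iff : ∀ s r, ReadB (enc s) (cert (enc s) L) r ↔ r = rdB s
  /-- is there a successor (predecessor)?  decided from the word and the read register -/
  okF : X → R → Prop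
  okB : X → R' → Prop
  okF_iff : ∀ s, okF (enc s) (rdF s) ↔ nx s ≠ none
  okB_iff : ∀ s, okB (enc s) (rdB s) ↔ pv s ≠ none
  stepF : X → R → X
  stepB : X → R' → X
  stepF_eq : ∀ s s', nx s = some s' → stepF (enc s) (rdF s) = enc s'
  stepB_eq : ∀ s s', nx s = some s' → stepB (enc s') (rdB s') = enc s

/-- stages of the double buffer -/
inductive Stage
  | A0 | A1 | B | A3 | C | A5
  deriving DecidableEq

/-- configurations: stage, depth, two words, two certificates, two read registers -/
structure Conf (X Z R R' : Type*) where
  st : Stage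
  d : ℕ
  x1 : X
  x2 : X
  z1 : Z
  z2 : Z
  r1 : R
  r2 : R'

namespace VM

variable {S X Z R R' : Type*} (V : VM S X Z R R') (x0 : X) (z0 : Z) (r0 : R) (r0' : R')

open SubSt

/-- number of inner states of an edge -/
def len : ℕ := 2 * V.L + 5

/-- position `k` of an edge -/
def confIn (s s' : S) (k : ℕ) : Conf X Z R R' :=
  if k = 0 then ⟨.A1, 0, V.enc s, x0, V.cert (V.enc s) V.L, z0, V.rdF s, r0'⟩
  else if k ≤ V.L + 1 then
    ⟨.B, k - 1, V.enc s, V.enc s', V.cert (V.enc s) V.L, V.cert (V.enc s') (k - 1), V.rdF s, r0'⟩
  else if k = V.L + 2 then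
    ⟨.A3, 0, V.enc s, V.enc s', V.cert (V.enc s) V.L, V.cert (V.enc s') V.L, V.rdF s, V.rdB s'⟩
  else if k ≤ 2 * V.L + 3 then
    ⟨.C, 2 * V.L + 3 - k, V.enc s, V.enc s', V.cert (V.enc s) (2 * V.L + 3 - k),
      V.cert (V.enc s') V.L, r0, V.rdB s'⟩
  else ⟨.A5, 0, x0, V.enc s', z0, V.cert (V.enc s') V.L, r0, V.rdB s'⟩

/-- configuration of a state of the subdivided machine -/
def conf : SubSt V.toMach V.len → Conf X Z R R'
  | At s => ⟨.A0, 0, V.enc s, x0, V.cert (V.enc s) V.L, z0, r0, r0'⟩
  | In s s' _ k => V.confIn x0 z0 r0 r0' s s' k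

/-- the relations of the double buffered machine -/
def Legal (c : Conf X Z R R') : Prop :=
  match c.st with
  | .A0 => c.d = 0 ∧ V.Full c.x1 c.z1 ∧ c.x2 = x0 ∧ c.z2 = z0 ∧ c.r1 = r0 ∧ c.r2 = r0'
  | .A1 => c.d = 0 ∧ V.Full c.x1 c.z1 ∧ V.ReadF c.x1 c.z1 c.r1 ∧ V.okF c.x1 c.r1 ∧
      c.x2 = x0 ∧ c.z2 = z0 ∧ c.r2 = r0'
  | .B => c.d ≤ V.L ∧ V.Full c.x1 c.z1 ∧ V.ReadF c.x1 c.z1 c.r1 ∧ V.okF c.x1 c.r1 ∧
      c.x2 = V.stepF c.x1 c.r1 ∧ c.z2 = V.cert c.x2 c.d ∧ c.r2 = r0'
  | .A3 => c.d = 0 ∧ V.Full c.x1 c.z1 ∧ V.ReadF c.x1 c.z1 c.r1 ∧ V.okF c.x1 c.r1 ∧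
      c.x2 = V.stepF c.x1 c.r1 ∧ V.Full c.x2 c.z2 ∧ V.ReadB c.x2 c.z2 c.r2
  | .C => c.d ≤ V.L ∧ V.Full c.x2 c.z2 ∧ V.ReadB c.x2 c.z2 c.r2 ∧ V.okB c.x2 c.r2 ∧
      c.x1 = V.stepB c.x2 c.r2 ∧ c.z1 = V.cert c.x1 c.d ∧ c.r1 = r0
  | .A5 => c.d = 0 ∧ V.Full c.x2 c.z2 ∧ V.ReadB c.x2 c.z2 c.r2 ∧ V.okB c.x2 c.r2 ∧
      c.x1 = x0 ∧ c.z1 = z0 ∧ c.r1 = r0

theorem full_enc (s : S) : V.Full (V.enc s) (V.cert (V.enc s) V.L) :=
  (V.full_iff _ _).2 ⟨s, rfl, rfl⟩

theorem legal_conf (a : SubSt V.toMach V.len) : V.Legal x0 z0 r0 r0' (V.conf x0 z0 r0 r0' a) := by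
  cases a with
  | At s => exact ⟨rfl, V.full_enc s, rfl, rfl, rfl, rfl⟩
  | In s s' h k =>
    have hF := V.full_enc s
    have hF' := V.full_enc s'
    have hR := (V.readF_iff s _).2 rfl
    have hR' := (V.readB_iff s' _).2 rfl
    have hok : V.okF (V.enc s) (V.rdF s) := (V.okF_iff s).2 (by rw [h]; simp)
    have hok' : V.okB (V.enc s') (V.rdB s') :=
      (V.okB_iff s').2 (by rw [(V.inv s s').1 h]; simp)
    have e1 := V.stepF_eq s s' h
    have e2 := V.stepB_eq s s' h
    show V.Legal x0 z0 r0 r0' (V.confIn x0 z0 r0 r0' s s' k)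
    unfold confIn
    split_ifs with h0 h1 h2 h3
    · exact ⟨rfl, hF, hR, hok, rfl, rfl, rfl⟩
    · exact ⟨by show (k : ℕ) - 1 ≤ V.L; omega, hF, hR, hok, e1.symm, rfl, rfl⟩
    · exact ⟨rfl, hF, hR, hok, e1.symm, hF', hR'⟩
    · exact ⟨by show 2 * V.L + 3 - (k : ℕ) ≤ V.L; omega, hF', hR', hok', e2.symm, rfl, rfl⟩
    · exact ⟨rfl, hF', hR', hok', rfl, rfl, rfl⟩

theorem exists_of_full {x : X} {z : Z} (h : V.Full x z) :
    ∃ s, x = V.enc s ∧ z = V.cert (V.enc s) V.L := by
  obtain ⟨s, rfl, hz⟩ := (V.full_iff _ _).1 h
  exact ⟨s, rfl, hz⟩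

theorem exists_F {x : X} {z : Z} {r : R} (h : V.Full x z) (hR : V.ReadF x z r) (hok : V.okF x r) :
    ∃ s s', V.nx s = some s' ∧ x = V.enc s ∧ z = V.cert (V.enc s) V.L ∧ r = V.rdF s := by
  obtain ⟨s, rfl, rfl⟩ := V.exists_of_full h
  obtain rfl := (V.readF_iff s r).1 hR
  obtain ⟨s', hs'⟩ := Option.ne_none_iff_exists'.1 ((V.okF_iff s).1 hok)
  exact ⟨s, s', hs', rfl, rfl, rfl⟩

theorem exists_B {x : X} {z : Z} {r : R'} (h : V.Full x z) (hR : V.ReadB x z r) (hok : V.okB x r) :
    ∃ s s', V.nx s = some s' ∧ x = V.enc s' ∧ z = V.cert (V.enc s') V.L ∧ r = V.rdB s' := by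
  obtain ⟨s', rfl, rfl⟩ := V.exists_of_full h
  obtain rfl := (V.readB_iff s' r).1 hR
  obtain ⟨s, hs⟩ := Option.ne_none_iff_exists'.1 ((V.okB_iff s').1 hok)
  exact ⟨s, s', (V.inv s s').2 hs, rfl, rfl, rfl⟩

/-- **The relations hold exactly for the configurations of the states of the subdivided machine.** -/
theorem legal_iff (c : Conf X Z R R') :
    V.Legal x0 z0 r0 r0' c ↔ ∃ a, c = V.conf x0 z0 r0 r0' a := by
  constructor
  · intro h
    obtain ⟨st, d, x1, x2, z1, z2, r1, r2⟩ := c
    cases st with
    | A0 =>
      obtain ⟨h1, h2, h3, h4, h5, h6⟩ := h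
      dsimp only at h1 h2 h3 h4 h5 h6
      obtain ⟨s, rfl, rfl⟩ := V.exists_of_full h2
      subst h1 h3 h4 h5 h6
      exact ⟨At s, rfl⟩
    | A1 =>
      obtain ⟨h1, h2, h3, h4, h5, h6, h7⟩ := h
      dsimp only at h1 h2 h3 h4 h5 h6 h7
      obtain ⟨s, s', hs, rfl, rfl, rfl⟩ := V.exists_F h2 h3 h4
      subst h1 h5 h6 h7
      refine ⟨In s s' hs ⟨0, by unfold len; omega⟩, ?_⟩
      simp [conf, confIn]
    | B =>
      obtain ⟨h1, h2, h3, h4, h5, h6, h7⟩ := h
      dsimp only at h1 h2 h3 h4 h5 h6 h7
      obtain ⟨s, s', hs, rfl, rfl, rfl⟩ := V.exists_F h2 h3 h4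
      rw [V.stepF_eq s s' hs] at h5
      subst h5 h6 h7
      refine ⟨In s s' hs ⟨d + 1, by unfold len; omega⟩, ?_⟩
      show _ = V.confIn _ _ _ _ s s' (d + 1)
      unfold confIn
      rw [if_neg (by omega), if_pos (by omega)]
      simp
    | A3 =>
      obtain ⟨h1, h2, h3, h4, h5, h6, h7⟩ := h
      dsimp only at h1 h2 h3 h4 h5 h6 h7
      obtain ⟨s, s', hs, rfl, rfl, rfl⟩ := V.exists_F h2 h3 h4
      rw [V.stepF_eq s s' hs] at h5
      subst h1 h5
      obtain ⟨t, ht, rfl⟩ := V.exists_of_full h6
      obtain rfl := V.enc_inj ht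
      obtain rfl := (V.readB_iff _ r2).1 h7
      refine ⟨In s s' hs ⟨V.L + 2, by unfold len; omega⟩, ?_⟩
      show _ = V.confIn _ _ _ _ s s' (V.L + 2)
      unfold confIn
      rw [if_neg (by omega), if_neg (by omega), if_pos rfl]
    | C =>
      obtain ⟨h1, h2, h3, h4, h5, h6, h7⟩ := h
      dsimp only at h1 h2 h3 h4 h5 h6 h7
      obtain ⟨s, s', hs, rfl, rfl, rfl⟩ := V.exists_B h2 h3 h4
      rw [V.stepB_eq s s' hs] at h5
      subst h5 h6 h7
      refine ⟨In s s' hs ⟨2 * V.L + 3 - d, by unfold len; omega⟩, ?_⟩
      show _ = V.confIn _ _ _ _ s s' (2 * V.L + 3 - d)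
      unfold confIn
      rw [if_neg (by omega), if_neg (by omega), if_neg (by omega), if_pos (by omega)]
      rw [show 2 * V.L + 3 - (2 * V.L + 3 - d) = d by omega]
    | A5 =>
      obtain ⟨h1, h2, h3, h4, h5, h6, h7⟩ := h
      dsimp only at h1 h2 h3 h4 h5 h6 h7
      obtain ⟨s, s', hs, rfl, rfl, rfl⟩ := V.exists_B h2 h3 h4
      subst h1 h5 h6 h7
      refine ⟨In s s' hs ⟨2 * V.L + 4, by unfold len; omega⟩, ?_⟩
      show _ = V.confIn _ _ _ _ s s' (2 * V.L + 4)
      unfold confIn
      rw [if_neg (by omega), if_neg (by omega), if_neg (by omega), if_neg (by omega)]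
  · rintro ⟨a, rfl⟩
    exact V.legal_conf x0 z0 r0 r0' a

/-- different states have different configurations -/
theorem conf_injective : Function.Injective (V.conf x0 z0 r0 r0') := by
  intro a b h
  have hE : ∀ {s t s' t' : S} (hs : V.nx s = some s') (ht : V.nx t = some t')
      (k k' : Fin V.len), s = t ∨ s' = t' → (k : ℕ) = k' →
        (In s s' hs k : SubSt V.toMach V.len) = In t t' ht k' := by
    intro s t s' t' hs ht k k' h1 hk
    obtain rfl : k = k' := Fin.ext hk
    have : s = t := by
      rcases h1 with h1 | h1
      · exact h1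
      · subst h1
        have e1 := (V.inv s s').1 hs
        have e2 := (V.inv t s').1 ht
        rw [e1] at e2
        simpa using e2
    subst this
    obtain rfl : s' = t' := by rw [hs] at ht; simpa using ht
    rfl
  cases a with
  | At s =>
    cases b with
    | At t =>
      have := congrArg Conf.x1 h
      rw [V.enc_inj this]
    | In t t' ht k =>
      exfalso
      have := congrArg Conf.st h
      simp only [conf, confIn] at this
      split_ifs at this
  | In s s' hs k =>
    cases b with
    | At t =>
      exfalso
      have := congrArg Conf.st h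
      simp only [conf, confIn] at this
      split_ifs at this
    | In t t' ht k' =>
      have hk := k.2
      have hk' := k'.2
      unfold len at hk hk'
      have h' : V.confIn x0 z0 r0 r0' s s' k = V.confIn x0 z0 r0 r0' t t' k' := h
      have hst := congrArg Conf.st h'
      have hd := congrArg Conf.d h'
      have h1 := congrArg Conf.x1 h'
      have h2 := congrArg Conf.x2 h'
      unfold confIn at hst hd h1 h2
      by_cases a0 : (k : ℕ) = 0
      · simp only [a0, if_true] at hst hd h1 h2
        by_cases b0 : (k' : ℕ) = 0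
        · simp only [b0, if_true] at h1
          exact hE hs ht k k' (Or.inl (V.enc_inj h1)) (by omega)
        · exfalso; simp only [b0, if_false] at hst; split_ifs at hst
      · by_cases a1 : (k : ℕ) ≤ V.L + 1
        · simp only [a0, a1, if_true, if_false] at hst hd h1 h2
          by_cases b0 : (k' : ℕ) = 0
          · exfalso; simp [b0] at hst
          by_cases b1 : (k' : ℕ) ≤ V.L + 1
          · simp only [b0, b1, if_true, if_false] at hd h1
            exact hE hs ht k k' (Or.inl (V.enc_inj h1)) (by omega)
          · exfalso; simp only [b0, b1, if_false] at hst; split_ifs at hst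
        · by_cases a2 : (k : ℕ) = V.L + 2
          · have a1' : ¬ V.L + 2 ≤ V.L + 1 := by omega
            have a0' : ¬ V.L + 2 = 0 := by omega
            simp only [a2, a0', a1', if_true, if_false] at hst hd h1 h2
            by_cases b0 : (k' : ℕ) = 0
            · exfalso; simp [b0] at hst
            by_cases b1 : (k' : ℕ) ≤ V.L + 1
            · exfalso; simp only [b0, b1, if_true, if_false] at hst; cases hst
            by_cases b2 : (k' : ℕ) = V.L + 2
            · simp only [b2, a0', a1', if_true, if_false] at h1
              exact hE hs ht k k' (Or.inl (V.enc_inj h1)) (by omega)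
            · exfalso; simp only [b0, b1, b2, if_false] at hst; split_ifs at hst
          · by_cases a3 : (k : ℕ) ≤ 2 * V.L + 3
            · simp only [a0, a1, a2, a3, if_true, if_false] at hst hd h1 h2
              by_cases b0 : (k' : ℕ) = 0
              · exfalso; simp [b0] at hst
              by_cases b1 : (k' : ℕ) ≤ V.L + 1
              · exfalso; simp only [b0, b1, if_true, if_false] at hst; cases hst
              by_cases b2 : (k' : ℕ) = V.L + 2
              · exfalso; simp only [b0, b1, b2, if_true, if_false] at hst
                have a1' : ¬ V.L + 2 ≤ V.L + 1 := by omega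
                have a0' : ¬ V.L + 2 = 0 := by omega
                simp only [a0', a1', if_false] at hst
                cases hst
              by_cases b3 : (k' : ℕ) ≤ 2 * V.L + 3
              · simp only [b0, b1, b2, b3, if_true, if_false] at hd h1
                exact hE hs ht k k' (Or.inl (V.enc_inj h1)) (by omega)
              · exfalso; simp only [b0, b1, b2, b3, if_false] at hst; cases hst
            · simp only [a0, a1, a2, a3, if_false] at hst hd h1 h2
              by_cases b0 : (k' : ℕ) = 0
              · exfalso; simp [b0] at hst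
              by_cases b1 : (k' : ℕ) ≤ V.L + 1
              · exfalso; simp only [b0, b1, if_true, if_false] at hst; cases hst
              by_cases b2 : (k' : ℕ) = V.L + 2
              · exfalso; simp only [b0, b1, b2, if_true, if_false] at hst
                have a1' : ¬ V.L + 2 ≤ V.L + 1 := by omega
                have a0' : ¬ V.L + 2 = 0 := by omega
                simp only [a0', a1', if_false] at hst
                cases hst
              by_cases b3 : (k' : ℕ) ≤ 2 * V.L + 3
              · exfalso; simp only [b0, b1, b2, b3, if_true, if_false] at hst; cases hst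
              · simp only [b0, b1, b2, b3, if_false] at h2
                exact hE hs ht k k' (Or.inr (V.enc_inj h2)) (by omega)

end VM

end Crest.Agent.R289.Double827
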