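import Crest.Agent.R289.WordC_880
import Crest.Agent.R289.Compile_827

/-!
# Row 289, block C, (s1) of C-FINAL (#6198): from contents to words

`CD` : codes `C d` of words over points `Ω` with free steps, content orbit `h0 : Γ → Ω`, words of
degree one determined by (arbitrary) contents.  For a content machine `A : DefC.PMach` that is well
formed (`WF d`):

* `Wt` = word tuples, `cont`, `encW` (inverse bijections with the contents);
* `compW`, `idlW`, `upW`, `dnW` = component, identity and update words, `cont_upW`, `cont_dnW`;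
* `IsL`, `en`, `bk`, `up`, `dn` on `A.Stg × Wt`: exactly the fields `fwd`, `bwd`, `en_uniq`,
  `bk_uniq` of `Compile827.LM` (from `A.OK`), and their reading as zero claims on words;
* `toLM` : an `LM` from the certificate part.
-/

set_option autoImplicit false
set_option linter.unusedSectionVars false

namespace Crest.Agent.R289.EncC55

open DefC WordC880

/-- codes with a content orbit -/
structure CD (K G : Type) [CommRing K] (Γ Ω : Type) where
  act : G → Equiv.Perm Γ
  actO : G → Equiv.Perm Ω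
  h0 : Γ → Ω
  hh : ∀ g a, h0 (act g a) = actO g (h0 a)
  C : ℕ → Submodule K (Ω → K)
  mul : ∀ a b f g, f ∈ C a → g ∈ C b → (fun x => f x * g x) ∈ C (a + b)
  tr : ∀ g a f, f ∈ C a → (fun x => f (actO g x)) ∈ C a
  ti : ∀ g a f, f ∈ C a → (fun x => f ((actO g).symm x)) ∈ C a
  rig : ∀ f ∈ C 1, (∀ a, f (h0 a) = 0) → f = 0
  sur : ∀ c : Γ → K, ∃ f ∈ C 1, ∀ a, f (h0 a) = c a

section cd
variable {K G : Type} [CommRing K] {Γ Ω : Type} (D : CD K G Γ Ω)

/-- the word with given contents -/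
noncomputable def CD.wd (c : Γ → K) : D.C 1 := ⟨(D.sur c).choose, (D.sur c).choose_spec.1⟩

theorem CD.wd_h0 (c : Γ → K) (a : Γ) : (D.wd c).1 (D.h0 a) = c a := (D.sur c).choose_spec.2 a

theorem CD.ext_h0 {f g : D.C 1} (h : ∀ a, f.1 (D.h0 a) = g.1 (D.h0 a)) : f = g := by
  have h1 : (f - g : D.C 1).1 = 0 := by
    apply D.rig _ (f - g : D.C 1).2
    intro a
    show f.1 (D.h0 a) - g.1 (D.h0 a) = 0
    rw [h a, sub_self]
  exact sub_eq_zero.1 (Subtype.ext h1)

theorem CD.wd_cont (f : D.C 1) : D.wd (fun a => f.1 (D.h0 a)) = f :=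
  D.ext_h0 fun a => D.wd_h0 _ a

theorem CD.wd_zero : D.wd (fun _ => 0) = 0 := D.ext_h0 fun a => D.wd_h0 _ a

end cd

section mach
variable {K G : Type} [CommRing K] {Γ Ω : Type} (D : CD K G Γ Ω) (A : PMach K G)
  (bC : A.Pub → Γ → K) {d : ℕ}

/-- word tuples -/
abbrev Wt : Type := A.Reg → D.C 1

/-- public words -/
noncomputable def pw : A.Pub → Ω → K := fun i => (D.wd (bC i)).1

theorem pw_mem (i : A.Pub) : pw D A bC i ∈ D.C 1 := (D.wd (bC i)).2

theorem pw_h0 (i : A.Pub) (a : Γ) : pw D A bC i (D.h0 a) = bC i a := D.wd_h0 _ a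

/-- contents of a word tuple -/
def cont (x : Wt D A) : A.Cont Γ := fun i a => (x i).1 (D.h0 a)

/-- word tuple with given contents -/
noncomputable def encW (r : A.Cont Γ) : Wt D A := fun i => D.wd (r i)

@[simp] theorem cont_encW (r : A.Cont Γ) : cont D A (encW D A r) = r := by
  funext i a; exact D.wd_h0 _ a

@[simp] theorem encW_cont (x : Wt D A) : encW D A (cont D A x) = x := by
  funext i; exact D.wd_cont _

theorem cont_injective : Function.Injective (cont D A) :=
  Function.LeftInverse.injective (encW_cont D A)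

theorem cont_inj {x y : Wt D A} : cont D A x = cont D A y ↔ x = y :=
  (cont_injective D A).eq_iff

/-- value of an expression as a word -/
noncomputable def exW (e : PE K A.Reg A.Pub G) (x : Wt D A) : Ω → K :=
  e.evalC D.actO (pw D A bC) (fun i => (x i).1)

theorem exW_mem (e : PE K A.Reg A.Pub G) {k : ℕ} (he : e.Hom k) (x : Wt D A) :
    exW D A bC e x ∈ D.C k :=
  evalC_mem D.actO D.C D.mul D.tr D.ti _ _ (pw_mem D A bC) (fun i => (x i).2) e k he

theorem exW_h0 (e : PE K A.Reg A.Pub G) (x : Wt D A) (a : Γ) :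
    exW D A bC e x (D.h0 a) = e.evalC D.act bC (cont D A x) a :=
  (evalC_comap D.act D.actO D.h0 D.hh bC (pw D A bC) (fun i a => (pw_h0 D A bC i a).symm)
    (cont D A x) (fun i => (x i).1) (fun _ _ => rfl) e a).symm

/-- component word -/
noncomputable def compW (c : A.Comp) (x : Wt D A) : Ω → K := exW D A bC (A.comp c) x

/-- identity word -/
noncomputable def idlW (i : A.Idl) (x : Wt D A) : Ω → K := exW D A bC (A.idl i) x

theorem compW_mem (hA : A.WF d) (c : A.Comp) (x : Wt D A) : compW D A bC c x ∈ D.C d :=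
  exW_mem D A bC _ (hA.comp_hom c) x

theorem idlW_mem (hA : A.WF d) (i : A.Idl) (x : Wt D A) : idlW D A bC i x ∈ D.C 1 :=
  exW_mem D A bC _ (hA.idl_hom i) x

theorem CZ_iff (c : A.Comp) (x : Wt D A) :
    A.CZ D.act bC (cont D A x) c ↔ ∀ a, compW D A bC c x (D.h0 a) = 0 := by
  unfold PMach.CZ compW
  exact forall_congr' fun a => by rw [exW_h0]

theorem IZ_iff_h0 (i : A.Idl) (x : Wt D A) :
    A.IZ D.act bC (cont D A x) i ↔ ∀ a, idlW D A bC i x (D.h0 a) = 0 := by
  unfold PMach.IZ idlW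
  exact forall_congr' fun a => by rw [exW_h0]

theorem IZ_iff (hA : A.WF d) (i : A.Idl) (x : Wt D A) :
    A.IZ D.act bC (cont D A x) i ↔ idlW D A bC i x = 0 := by
  rw [IZ_iff_h0]
  constructor
  · exact D.rig _ (idlW_mem D A bC hA i x)
  · intro h a; rw [h]; rfl

/-- forward update of words -/
noncomputable def upW (hA : A.WF d) (ρ : A.Tr) (x : Wt D A) : Wt D A := fun i =>
  ⟨exW D A bC (A.up ρ i) x, exW_mem D A bC _ (hA.up_hom ρ i) x⟩

/-- backward update of words -/
noncomputable def dnW (hA : A.WF d) (ρ : A.Tr) (x : Wt D A) : Wt D A := fun i =>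
  ⟨exW D A bC (A.dn ρ i) x, exW_mem D A bC _ (hA.dn_hom ρ i) x⟩

theorem cont_upW (hA : A.WF d) (ρ : A.Tr) (x : Wt D A) :
    cont D A (upW D A bC hA ρ x) = A.upC D.act bC ρ (cont D A x) := by
  funext i a
  exact exW_h0 D A bC _ x a

theorem cont_dnW (hA : A.WF d) (ρ : A.Tr) (x : Wt D A) :
    cont D A (dnW D A bC hA ρ x) = A.dnC D.act bC ρ (cont D A x) := by
  funext i a
  exact exW_h0 D A bC _ x a

theorem upW_eq (hA : A.WF d) (ρ : A.Tr) (x : Wt D A) :
    upW D A bC hA ρ x = encW D A (A.upC D.act bC ρ (cont D A x)) := by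
  rw [← cont_inj, cont_upW, cont_encW]

theorem dnW_eq (hA : A.WF d) (ρ : A.Tr) (x : Wt D A) :
    dnW D A bC hA ρ x = encW D A (A.dnC D.act bC ρ (cont D A x)) := by
  rw [← cont_inj, cont_dnW, cont_encW]

/-! ### the fields of `LM` on `A.Stg × Wt` -/

/-- legal content words -/
def IsL (x : A.Stg × Wt D A) : Prop := A.Legal D.act bC x.1 (cont D A x.2)

/-- enabled forward -/
def en (ρ : A.Tr) (x : A.Stg × Wt D A) : Prop :=
  x.1 = A.src ρ ∧ A.En D.act bC ρ (cont D A x.2)

/-- enabled backward -/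
def bk (ρ : A.Tr) (x : A.Stg × Wt D A) : Prop :=
  x.1 = A.tgt ρ ∧ A.Bk D.act bC ρ (cont D A x.2)

/-- forward update -/
noncomputable def up (hA : A.WF d) (ρ : A.Tr) (x : A.Stg × Wt D A) : A.Stg × Wt D A :=
  (A.tgt ρ, upW D A bC hA ρ x.2)

/-- backward update -/
noncomputable def dn (hA : A.WF d) (ρ : A.Tr) (x : A.Stg × Wt D A) : A.Stg × Wt D A :=
  (A.src ρ, dnW D A bC hA ρ x.2)

variable {bC}

theorem fwd (hA : A.WF d) (hO : A.OK D.act bC) (ρ : A.Tr) (x : A.Stg × Wt D A)
    (hx : IsL D A bC x) (h : en D A bC ρ x) :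
    IsL D A bC (up D A bC hA ρ x) ∧ bk D A bC ρ (up D A bC hA ρ x) ∧
      dn D A bC hA ρ (up D A bC hA ρ x) = x := by
  obtain ⟨s, x⟩ := x
  obtain ⟨hs, he⟩ := h
  simp only at hs he
  subst hs
  obtain ⟨h1, h2, h3⟩ := hO.fwd ρ (cont D A x) hx he
  refine ⟨?_, ⟨rfl, ?_⟩, ?_⟩
  · show A.Legal D.act bC (A.tgt ρ) (cont D A (upW D A bC hA ρ x))
    rw [cont_upW]; exact h1
  · show A.Bk D.act bC ρ (cont D A (upW D A bC hA ρ x))
    rw [cont_upW]; exact h2
  · refine Prod.ext rfl ?_
    show dnW D A bC hA ρ (upW D A bC hA ρ x) = x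
    rw [← cont_inj, cont_dnW, cont_upW, h3]

theorem bwd (hA : A.WF d) (hO : A.OK D.act bC) (ρ : A.Tr) (x : A.Stg × Wt D A)
    (hx : IsL D A bC x) (h : bk D A bC ρ x) :
    IsL D A bC (dn D A bC hA ρ x) ∧ en D A bC ρ (dn D A bC hA ρ x) ∧
      up D A bC hA ρ (dn D A bC hA ρ x) = x := by
  obtain ⟨s, x⟩ := x
  obtain ⟨hs, he⟩ := h
  simp only at hs he
  subst hs
  obtain ⟨h1, h2, h3⟩ := hO.bwd ρ (cont D A x) hx he
  refine ⟨?_, ⟨rfl, ?_⟩, ?_⟩
  · show A.Legal D.act bC (A.src ρ) (cont D A (dnW D A bC hA ρ x))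
    rw [cont_dnW]; exact h1
  · show A.En D.act bC ρ (cont D A (dnW D A bC hA ρ x))
    rw [cont_dnW]; exact h2
  · refine Prod.ext rfl ?_
    show upW D A bC hA ρ (dnW D A bC hA ρ x) = x
    rw [← cont_inj, cont_upW, cont_dnW, h3]

theorem en_uniq (hO : A.OK D.act bC) (ρ ρ' : A.Tr) (x : A.Stg × Wt D A)
    (hx : IsL D A bC x) (h : en D A bC ρ x) (h' : en D A bC ρ' x) : ρ = ρ' := by
  obtain ⟨s, x⟩ := x
  obtain ⟨hs, he⟩ := h
  obtain ⟨hs', he'⟩ := h'
  simp only at hs he hs' he'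
  subst hs
  exact hO.detF ρ ρ' _ hs' hx he he'

theorem bk_uniq (hO : A.OK D.act bC) (ρ ρ' : A.Tr) (x : A.Stg × Wt D A)
    (hx : IsL D A bC x) (h : bk D A bC ρ x) (h' : bk D A bC ρ' x) : ρ = ρ' := by
  obtain ⟨s, x⟩ := x
  obtain ⟨hs, he⟩ := h
  obtain ⟨hs', he'⟩ := h'
  simp only at hs he hs' he'
  subst hs
  exact hO.detB ρ ρ' _ hs' hx he he'

/-! ### reading as zero claims on words -/

variable (bC)

/-- the component word vanishes on the content orbit -/
def ZW (c : A.Comp) (x : Wt D A) : Prop := ∀ a, compW D A bC c x (D.h0 a) = 0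

theorem IsL_iff (hA : A.WF d) (x : A.Stg × Wt D A) :
    IsL D A bC x ↔ (∀ c, A.leg x.1 c → ZW D A bC c x.2) ∧
      ∀ i, A.legI x.1 i → idlW D A bC i x.2 = 0 := by
  unfold IsL PMach.Legal
  refine and_congr (forall_congr' fun c => imp_congr_right fun _ => CZ_iff D A bC c x.2)
    (forall_congr' fun i => imp_congr_right fun _ => IZ_iff D A bC hA i x.2)

theorem en_iff (hA : A.WF d) (ρ : A.Tr) (x : A.Stg × Wt D A) :
    en D A bC ρ x ↔ x.1 = A.src ρ ∧ (∀ c, A.en ρ c → ZW D A bC c x.2) ∧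
      ∀ i, A.enI ρ i → idlW D A bC i x.2 = 0 := by
  unfold en PMach.En
  refine and_congr Iff.rfl
    (and_congr (forall_congr' fun c => imp_congr_right fun _ => CZ_iff D A bC c x.2)
    (forall_congr' fun i => imp_congr_right fun _ => IZ_iff D A bC hA i x.2))

theorem bk_iff (hA : A.WF d) (ρ : A.Tr) (x : A.Stg × Wt D A) :
    bk D A bC ρ x ↔ x.1 = A.tgt ρ ∧ (∀ c, A.bk ρ c → ZW D A bC c x.2) ∧
      ∀ i, A.bkI ρ i → idlW D A bC i x.2 = 0 := by
  unfold bk PMach.Bk
  refine and_congr Iff.rfl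
    (and_congr (forall_congr' fun c => imp_congr_right fun _ => CZ_iff D A bC c x.2)
    (forall_congr' fun i => imp_congr_right fun _ => IZ_iff D A bC hA i x.2))

/-! ### the labelled machine of `Compile827` -/

/-- certificate part of an `LM` over the word tuples: `Zc c x z` = "the certificate `z` of `x` shows
that component `c` vanishes" -/
structure CertPart (Z : Type) where
  L : ℕ
  zz : Z
  cert : A.Stg × Wt D A → ℕ → Z
  push : ℕ → A.Stg × Wt D A → Z → Z
  pop : ℕ → A.Stg × Wt D A → Z → Z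
  ent : A.Stg × Wt D A → Z
  Rec : ℕ → A.Stg × Wt D A → Z → Prop
  Zc : A.Comp → A.Stg × Wt D A → Z → Prop
  push_cert : ∀ t x, t < L → push t x (cert x t) = cert x (t + 1)
  pop_cert : ∀ t x, t < L → pop t x (cert x (t + 1)) = cert x t
  ent_cert : ∀ x, ent x = cert x 0
  Rec_iff : ∀ t x z, t ≤ L → (Rec t x z ↔ z = cert x t)
  Zc_iff : ∀ c x, Zc c x (cert x L) ↔ ZW D A bC c x.2

variable {bC}

/-- the labelled machine -/
noncomputable def toLM (hA : A.WF d) (hO : A.OK D.act bC) {Z : Type} (P : CertPart D A bC Z)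
    (s0 : A.Stg) (r0 : A.Cont Γ) (hL : A.Legal D.act bC s0 r0)
    (hB : ∀ ρ, A.tgt ρ = s0 → ¬ A.Bk D.act bC ρ r0) (xz : A.Stg × Wt D A) :
    Compile827.LM (A.Stg × Wt D A) Z A.Tr where
  L := P.L
  x0 := (s0, encW D A r0)
  xz := xz
  zz := P.zz
  IsL := IsL D A bC
  en := en D A bC
  bk := bk D A bC
  up := up D A bC hA
  dn := dn D A bC hA
  cert := P.cert
  push := P.push
  pop := P.pop
  ent := P.ent
  Rec := P.Rec
  St := fun x z => (∀ c, A.leg x.1 c → P.Zc c x z) ∧ ∀ i, A.legI x.1 i → idlW D A bC i x.2 = 0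
  En := fun ρ x z => x.1 = A.src ρ ∧ (∀ c, A.en ρ c → P.Zc c x z) ∧
    ∀ i, A.enI ρ i → idlW D A bC i x.2 = 0
  Bk := fun ρ x z => x.1 = A.tgt ρ ∧ (∀ c, A.bk ρ c → P.Zc c x z) ∧
    ∀ i, A.bkI ρ i → idlW D A bC i x.2 = 0
  isL0 := by
    show A.Legal D.act bC s0 (cont D A (encW D A r0))
    rw [cont_encW]; exact hL
  bk0 := by
    rintro ρ ⟨h1, h2⟩
    simp only [cont_encW] at h1 h2
    exact hB ρ h1.symm h2
  fwd := fwd D A hA hO
  bwd := bwd D A hA hO
  en_uniq := en_uniq D A hO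
  bk_uniq := bk_uniq D A hO
  push_cert := P.push_cert
  pop_cert := P.pop_cert
  ent_cert := P.ent_cert
  Rec_iff := P.Rec_iff
  St_iff := fun x => by
    rw [IsL_iff D A bC hA]
    simp only [P.Zc_iff]
  En_iff := fun ρ x _ => by
    rw [en_iff D A bC hA]
    simp only [P.Zc_iff]
  Bk_iff := fun ρ x _ => by
    rw [bk_iff D A bC hA]
    simp only [P.Zc_iff]

end mach

/-! ### the End-of-Line machine -/

section eol
variable {K G : Type} [Field K] {Γ Ω Λ : Type} {J : ℕ} [DecidableEq Γ] [DecidableEq Λ]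
  (D : CD K G Γ Ω) (out : Λ) (P : Layout Γ G Λ J) (p : ℕ) [CharP K p] [Fact p.Prime]

variable (K G J) in
/-- the machine -/
abbrev M : PMach K G := mach (K := K) (G := G) (J := J) out

/-- contents of the public words -/
noncomputable def bM : (M K G J out).Pub → Γ → K := pubC P K

/-- contents of the legal states -/
noncomputable def eM (s : Sg) (t : ℕ) (v : Fin P.n → Bool) : (M K G J out).Cont Γ :=
  encC D.act out P K s t v

/-- encoded state as a word tuple -/
noncomputable def encS (s : (M K G J out).Stg) (t : ℕ) (v : Fin P.n → Bool) :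
    (M K G J out).Stg × Wt D (M K G J out) :=
  (s, encW D (M K G J out) (eM D out P s t v))

/-- **legal word tuples are the encoded states** -/
theorem IsL_iff_enc (hl : legal_iff_stmt D.act out P K p) (hp : p ≠ 2) (hP : P.OK D.act out)
    (x : (M K G J out).Stg × Wt D (M K G J out)) :
    IsL D (M K G J out) (bM out P) x ↔ ∃ t ≤ P.L, ∃ v, x = encS D out P x.1 t v := by
  have h0 : IsL D (M K G J out) (bM out P) x ↔
      ∃ t ≤ P.L, ∃ v, cont D (M K G J out) x.2 = eM D out P x.1 t v :=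
    hl hp hP x.1 (cont D (M K G J out) x.2)
  rw [h0]
  constructor
  · rintro ⟨t, ht, v, h⟩
    refine ⟨t, ht, v, Prod.ext rfl ?_⟩
    show x.2 = encW D (M K G J out) (eM D out P x.1 t v)
    rw [← h, encW_cont]
  · rintro ⟨t, ht, v, h⟩
    refine ⟨t, ht, v, ?_⟩
    have h2 : x.2 = encW D (M K G J out) (eM D out P x.1 t v) := congrArg Prod.snd h
    rw [h2]
    exact cont_encW D (M K G J out) _

theorem isL_encS (hl : legal_iff_stmt D.act out P K p) (hp : p ≠ 2) (hP : P.OK D.act out)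
    (s : (M K G J out).Stg) (t : ℕ) (ht : t ≤ P.L) (v : Fin P.n → Bool) :
    IsL D (M K G J out) (bM out P) (encS D out P s t v) :=
  (IsL_iff_enc D out P p hl hp hP _).2 ⟨t, ht, v, rfl⟩

theorem legal_eM (hl : legal_iff_stmt D.act out P K p) (hp : p ≠ 2) (hP : P.OK D.act out)
    (s : (M K G J out).Stg) (t : ℕ) (ht : t ≤ P.L) (v : Fin P.n → Bool) :
    (M K G J out).Legal D.act (bM out P) s (eM D out P s t v) :=
  (hl hp hP s (eM D out P s t v)).2 ⟨t, ht, v, rfl⟩

/-! #### names are read off the contents -/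

theorem nm_al (hP : P.OK D.act out) (u : Fin P.n → Bool) (i : Fin P.n) :
    P.nm u (P.al i) = u i := by
  unfold Layout.nm
  by_cases hu : u i = true
  · rw [hu]; simp only [decide_eq_true_eq]; exact ⟨i, rfl, hu⟩
  · rw [Bool.not_eq_true] at hu
    rw [hu]
    simp only [decide_eq_false_iff_not]
    rintro ⟨k, hk, hk2⟩
    rw [hP.al_inj hk, hu] at hk2
    exact absurd hk2 (by simp)

theorem bt_inj {a b : Bool} (h : bt K a = bt K b) : a = b := by
  unfold bt at h
  cases a <;> cases b <;> simp_all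

theorem nX_of_eM (hP : P.OK D.act out) {s s' : Sg} {t t' : ℕ} {v w : Fin P.n → Bool}
    (h : eM (K := K) D out P s t v = eM D out P s' t' w) :
    P.nX D.act out s v = P.nX D.act out s' w := by
  funext i
  have h6 : bt K (P.nm (P.nX D.act out s v) (P.al i)) =
      bt K (P.nm (P.nX D.act out s' w) (P.al i)) := congrFun (congrFun h .X) (P.al i)
  have h7 := bt_inj h6
  rwa [nm_al D out P hP, nm_al D out P hP] at h7

theorem nY_of_eM (hP : P.OK D.act out) {s s' : Sg} {t t' : ℕ} {v w : Fin P.n → Bool}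
    (h : eM (K := K) D out P s t v = eM D out P s' t' w) :
    P.nY D.act out s v = P.nY D.act out s' w := by
  funext i
  have h6 : bt K (P.nm (P.nY D.act out s v) (P.al i)) =
      bt K (P.nm (P.nY D.act out s' w) (P.al i)) := congrFun (congrFun h .Y) (P.al i)
  have h7 := bt_inj h6
  rwa [nm_al D out P hP, nm_al D out P hP] at h7

theorem t_of_eM (hP : P.OK D.act out) {s s' : Sg} {t t' : ℕ} (ht : t ≤ P.L) (ht' : t' ≤ P.L)
    {v w : Fin P.n → Bool} (h : eM (K := K) D out P s t v = eM D out P s' t' w) : t = t' := by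
  by_contra hne
  have hvis : P.vis t = ((P.vis t).1, (P.vis t).2) := rfl
  have h6 : (if P.vis t = ((P.vis t).1, (P.vis t).2) then (1 : K) else 0) =
      if P.vis t' = ((P.vis t).1, (P.vis t).2) then 1 else 0 :=
    congrFun (congrFun h (.D (P.vis t).2)) (P.vis t).1
  rw [if_pos hvis] at h6
  have : P.vis t' ≠ ((P.vis t).1, (P.vis t).2) := by
    intro hc
    exact hne (hP.inj t t' ht ht' hc.symm)
  rw [if_neg this] at h6
  exact one_ne_zero h6

theorem eM_of_encS {s : (M K G J out).Stg} {t t' : ℕ} {v w : Fin P.n → Bool}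
    (h : encS D out P s t v = encS D out P s t' w) :
    eM (K := K) D out P s t v = eM D out P s t' w := by
  have h2 : encW D (M K G J out) (eM D out P s t v) =
      encW D (M K G J out) (eM D out P s t' w) := congrArg Prod.snd h
  have h3 := congrArg (cont D (M K G J out)) h2
  rwa [cont_encW, cont_encW] at h3

/-! #### dead ends -/

theorem not_en_encS (s : (M K G J out).Stg) (t : ℕ) (v : Fin P.n → Bool) :
    (∀ ρ, ¬ en D (M K G J out) (bM out P) ρ (encS D out P s t v)) ↔
      ¬ ∃ ρ : (M K G J out).Tr, (M K G J out).src ρ = s ∧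
        (M K G J out).En D.act (bM out P) ρ (eM D out P s t v) := by
  rw [not_exists]
  refine forall_congr' fun ρ => not_congr ?_
  have h : cont D (M K G J out) (encS D out P s t v).2 = eM D out P s t v := cont_encW D _ _
  unfold en
  rw [h]
  exact and_congr eq_comm Iff.rfl

theorem not_bk_encS (s : (M K G J out).Stg) (t : ℕ) (v : Fin P.n → Bool) :
    (∀ ρ, ¬ bk D (M K G J out) (bM out P) ρ (encS D out P s t v)) ↔
      ¬ ∃ ρ : (M K G J out).Tr, (M K G J out).tgt ρ = s ∧
        (M K G J out).Bk D.act (bM out P) ρ (eM D out P s t v) := by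
  rw [not_exists]
  refine forall_congr' fun ρ => not_congr ?_
  have h : cont D (M K G J out) (encS D out P s t v).2 = eM D out P s t v := cont_encW D _ _
  unfold bk
  rw [h]
  exact and_congr eq_comm Iff.rfl

theorem not_en_encS_iff (hb : blocked_stmt D.act out P K p) (hp : p ≠ 2) (hP : P.OK D.act out)
    (s : Sg) (t : ℕ) (ht : t ≤ P.L) (v : Fin P.n → Bool) :
    (∀ ρ, ¬ en D (M K G J out) (bM out P) ρ (encS D out P s t v)) ↔
      s = .b ∧ t = P.L ∧ P.outp D.act out true (P.outp D.act out false v) ≠ v :=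
  (not_en_encS D out P s t v).trans (hb hp hP s t v ht).1

theorem not_bk_encS_iff (hb : blocked_stmt D.act out P K p) (hp : p ≠ 2) (hP : P.OK D.act out)
    (s : Sg) (t : ℕ) (ht : t ≤ P.L) (v : Fin P.n → Bool) :
    (∀ ρ, ¬ bk D (M K G J out) (bM out P) ρ (encS D out P s t v)) ↔
      s = .c ∧ t = P.L ∧ P.outp D.act out false (P.outp D.act out true v) ≠ v :=
  (not_bk_encS D out P s t v).trans (hb hp hP s t v ht).2

/-- **forward dead ends** are the words of `(b, L, v)` with `P (S v) ≠ v` -/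
theorem sink_iff (hl : legal_iff_stmt D.act out P K p) (hb : blocked_stmt D.act out P K p)
    (hp : p ≠ 2) (hP : P.OK D.act out) (x : (M K G J out).Stg × Wt D (M K G J out)) :
    (IsL D (M K G J out) (bM out P) x ∧ ∀ ρ, ¬ en D (M K G J out) (bM out P) ρ x) ↔
      ∃ v, P.outp D.act out true (P.outp D.act out false v) ≠ v ∧
        x = encS D out P Sg.b P.L v := by
  constructor
  · rintro ⟨h1, h2⟩
    obtain ⟨t, ht, v, h⟩ := (IsL_iff_enc D out P p hl hp hP x).1 h1
    rw [h] at h2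
    obtain ⟨h3, h4, h5⟩ := (not_en_encS_iff D out P p hb hp hP x.1 t ht v).1 h2
    refine ⟨v, h5, h.trans ?_⟩
    rw [h3, h4]
  · rintro ⟨v, h1, rfl⟩
    exact ⟨isL_encS D out P p hl hp hP _ _ le_rfl _,
      (not_en_encS_iff D out P p hb hp hP .b P.L le_rfl v).2 ⟨rfl, rfl, h1⟩⟩

/-- **backward dead ends** are the words of `(c, L, w)` with `S (P w) ≠ w` -/
theorem source_iff (hl : legal_iff_stmt D.act out P K p) (hb : blocked_stmt D.act out P K p)
    (hp : p ≠ 2) (hP : P.OK D.act out) (x : (M K G J out).Stg × Wt D (M K G J out)) :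
    (IsL D (M K G J out) (bM out P) x ∧ ∀ ρ, ¬ bk D (M K G J out) (bM out P) ρ x) ↔
      ∃ w, P.outp D.act out false (P.outp D.act out true w) ≠ w ∧
        x = encS D out P Sg.c P.L w := by
  constructor
  · rintro ⟨h1, h2⟩
    obtain ⟨t, ht, v, h⟩ := (IsL_iff_enc D out P p hl hp hP x).1 h1
    rw [h] at h2
    obtain ⟨h3, h4, h5⟩ := (not_bk_encS_iff D out P p hb hp hP x.1 t ht v).1 h2
    refine ⟨v, h5, h.trans ?_⟩
    rw [h3, h4]
  · rintro ⟨v, h1, rfl⟩
    exact ⟨isL_encS D out P p hl hp hP _ _ le_rfl _,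
      (not_bk_encS_iff D out P p hb hp hP .c P.L le_rfl v).2 ⟨rfl, rfl, h1⟩⟩

/-- different sources have different names -/
theorem encS_c_inj (hP : P.OK D.act out) {w w' : Fin P.n → Bool}
    (h : encS (K := K) D out P Sg.c P.L w = encS D out P Sg.c P.L w') : w = w' :=
  nY_of_eM D out P hP (eM_of_encS D out P h)

theorem encS_b_inj (hP : P.OK D.act out) {w w' : Fin P.n → Bool}
    (h : encS (K := K) D out P Sg.b P.L w = encS D out P Sg.b P.L w') : w = w' :=
  nX_of_eM D out P hP (eM_of_encS D out P h)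

/-- **the labelled machine of the End-of-Line instance**: start = `(c, L, w0)` with
`S (P w0) ≠ w0` -/
noncomputable def eolLM (hl : legal_iff_stmt D.act out P K p) (hm : mach_ok_stmt D.act out P K p)
    (hb : blocked_stmt D.act out P K p) (hp : p ≠ 2) (hP : P.OK D.act out)
    {Z : Type} (Q : CertPart D (M K G J out) (bM out P) Z) (w0 : Fin P.n → Bool)
    (h0 : P.outp D.act out false (P.outp D.act out true w0) ≠ w0)
    (xz : (M K G J out).Stg × Wt D (M K G J out)) :
    Compile827.LM ((M K G J out).Stg × Wt D (M K G J out)) Z (M K G J out).Tr :=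
  toLM D (M K G J out) (bC := bM out P) (mach_WF Λ J out) (hm hp hP) Q Sg.c
    (eM D out P Sg.c P.L w0) (legal_eM D out P p hl hp hP _ _ le_rfl _)
    (fun ρ h1 h2 => ((hb hp hP .c P.L w0 le_rfl).2.2 ⟨rfl, rfl, h0⟩) ⟨ρ, h1, h2⟩) xz

end eol

end Crest.Agent.R289.EncC55
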