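import Crest.Agent.R289.DefE_217
import Crest.Agent.Lib.PT.ListFns2
import Crest.Agent.Lib.PT.ArithMore

/-!
# Row 289, leaf E12: polynomial-time evaluation of coded Boolean circuits

* `evalC (circuit, input)`: output bits of a coded circuit, `PTF`, correct on `rawC`.
* `solB (instance, v)`: decides whether `v` solves the End-of-Line instance, `PTF`.
* `pick (instance, candidates)`: first candidate that is a solution, `PTF`.
-/

set_option autoImplicit false
set_option linter.dupNamespace false

namespace Crest.Agent.R289.EvalC690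

open Crest.PPADPCP Crest.Agent.Lib.PT Crest.Agent.R289

/-- value of a coded gate, inputs `x`, earlier values `prev` -/
def gev (x prev : List Bool) (g : ℕ × ℕ × ℕ) : Bool :=
  if g.1 = 0 then x.getD g.2.1 false
  else if g.1 = 1 then prev.getD g.2.1 false && prev.getD g.2.2 false
  else if g.1 = 2 then prev.getD g.2.1 false || prev.getD g.2.2 false
  else !prev.getD g.2.1 false

/-- values of all gates -/
def valuesL (gs : List (ℕ × ℕ × ℕ)) (x : List Bool) : List Bool :=
  gs.foldl (fun prev g => prev ++ [gev x prev g]) []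

/-- output bits of a coded circuit on an input -/
def evalC (p : RawCirc × List Bool) : List Bool :=
  p.1.2.map fun o => (valuesL p.1.1 p.2).getD o false

/-! ### correctness -/

theorem inp_getD {n : ℕ} (v : Fin n → Bool) (i : ℕ) :
    (List.ofFn v).getD i false = if h : i < n then v ⟨i, h⟩ else false := by
  by_cases h : i < n
  · rw [List.getD_eq_getElem _ _ (by simpa using h)]
    simp [h]
  · rw [List.getD_eq_default _ _ (by simpa using h)]
    simp [h]

theorem gev_raw {n : ℕ} (v : Fin n → Bool) (prev : List Bool) (g : BGate) :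
    gev (List.ofFn v) prev (rawBGate g) =
      g.eval (fun i => if h : i < n then v ⟨i, h⟩ else false) prev := by
  cases g with
  | var i => simp only [rawBGate, gev, BGate.eval, if_true, inp_getD]
  | and a b => simp [rawBGate, gev, BGate.eval]
  | or a b => simp [rawBGate, gev, BGate.eval]
  | not a => simp [rawBGate, gev, BGate.eval]

theorem foldl_raw {n : ℕ} (v : Fin n → Bool) (gs : List BGate) (init : List Bool) :
    (gs.map rawBGate).foldl (fun prev g => prev ++ [gev (List.ofFn v) prev g]) init =
      gs.foldl (fun prev g => prev ++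
        [g.eval (fun i => if h : i < n then v ⟨i, h⟩ else false) prev]) init := by
  induction gs generalizing init with
  | nil => rfl
  | cons g gs ih =>
    rw [List.map_cons, List.foldl_cons, List.foldl_cons, gev_raw, ih]

theorem valuesL_raw {n : ℕ} (C : BCircuit n) (v : Fin n → Bool) :
    valuesL (C.gates.map rawBGate) (List.ofFn v) =
      C.values (fun i => if h : i < n then v ⟨i, h⟩ else false) :=
  foldl_raw v C.gates []

@[simp] theorem evalC_length (p : RawCirc × List Bool) : (evalC p).length = p.1.2.length := by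
  simp [evalC]

/-- **`evalC` computes the circuit** (only the number of outputs matters) -/
theorem evalC_rawC {n : ℕ} (C : BCircuit n) (hC : C.outs.length = n) (v : Fin n → Bool) :
    evalC (rawC C, List.ofFn v) = List.ofFn (C.apply v) := by
  apply List.ext_getElem
  · simp [rawC, hC]
  · intro j h1 h2
    have hj : j < C.outs.length := by simpa [rawC] using h1
    simp only [evalC, rawC, List.getElem_map, List.getElem_ofFn, BCircuit.apply, valuesL_raw]
    rw [List.getD_eq_getElem C.outs _ hj]

theorem evalC_rawC' {n : ℕ} (C : BCircuit n) (hC : C.WF) (v : Fin n → Bool) :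
    evalC (rawC C, List.ofFn v) = List.ofFn (C.apply v) :=
  evalC_rawC C hC.1 v

/-! ### polynomial time -/

/-- list access with a binary index -/
theorem ptf_getDB {α γ : Type} [PTCode α] [PTCode γ] {l : γ → List α} {n : γ → ℕ} {d : γ → α}
    (hl : PTF l) (hn : PTF n) (hd : PTF d) : PTF (fun c => (l c).getD (n c) (d c)) := by
  have h : PTU (fun c => min (n c) (l c).length) := PTF.natMinUn hn (PTU.length hl)
  refine PTF.of_eq (PTF.getD h hl hd) (fun c => ?_)
  rcases Nat.lt_or_ge (n c) (l c).length with h' | h'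
  · rw [min_eq_left h'.le]
  · rw [min_eq_right h', List.getD_eq_default _ _ le_rfl, List.getD_eq_default _ _ h']

theorem ptf_gev : PTF (fun p : List Bool × List Bool × (ℕ × ℕ × ℕ) => gev p.1 p.2.1 p.2.2) := by
  unfold gev
  have ha : PTF (fun p : List Bool × List Bool × (ℕ × ℕ × ℕ) => p.1.getD p.2.2.2.1 false) :=
    ptf_getDB (by fun_prop) (by fun_prop) (by fun_prop)
  have hb : PTF (fun p : List Bool × List Bool × (ℕ × ℕ × ℕ) => p.2.1.getD p.2.2.2.1 false) :=
    ptf_getDB (by fun_prop) (by fun_prop) (by fun_prop)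
  have hc : PTF (fun p : List Bool × List Bool × (ℕ × ℕ × ℕ) => p.2.1.getD p.2.2.2.2 false) :=
    ptf_getDB (by fun_prop) (by fun_prop) (by fun_prop)
  have h0 : ∀ k : ℕ, PTPred (fun p : List Bool × List Bool × (ℕ × ℕ × ℕ) => p.2.2.1 = k) :=
    fun k => PTPred.natEq (by fun_prop) (by fun_prop)
  exact PTF.ite (h0 0) ha (PTF.ite (h0 1) (PTF.and hb hc) (PTF.ite (h0 2) (PTF.or hb hc)
    (PTF.not hb)))

theorem ptf_valuesL {γ : Type} [PTCode γ] {gs : γ → List (ℕ × ℕ × ℕ)} {x : γ → List Bool}
    (hg : PTF gs) (hx : PTF x) : PTF (fun c => valuesL (gs c) (x c)) := by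
  unfold valuesL
  refine PTF.foldl_add (f := fun (c : γ) (prev : List Bool) (g : ℕ × ℕ × ℕ) =>
    prev ++ [gev (x c) prev g]) (b := fun _ => []) hg ?_ (by fun_prop) (G := fun _ => 3)
    (PB.const 3) ?_
  · have h1 : PTF (fun p : γ × List Bool × (ℕ × ℕ × ℕ) => gev (x p.1) p.2.1 p.2.2) :=
      PTF.comp (f := fun p : γ × List Bool × (ℕ × ℕ × ℕ) => (x p.1, p.2.1, p.2.2)) ptf_gev
        (by fun_prop)
    fun_prop
  · intro c b a _
    rw [sz_append]
    simp

/-- **circuit evaluation is polynomial time** -/
theorem ptf_evalC : PTF evalC := by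
  unfold evalC
  refine PTF.map (f := fun (p : RawCirc × List Bool) (o : ℕ) => (valuesL p.1.1 p.2).getD o false)
    (by fun_prop) ?_
  have h : PTF (fun q : (RawCirc × List Bool) × ℕ => valuesL q.1.1.1 q.1.2) :=
    ptf_valuesL (by fun_prop) (by fun_prop)
  exact ptf_getDB h (by fun_prop) (by fun_prop)

/-- composed form -/
theorem PTF_evalC {γ : Type} [PTCode γ] {C : γ → RawCirc} {x : γ → List Bool} (hC : PTF C)
    (hx : PTF x) : PTF (fun c => evalC (C c, x c)) :=
  PTF.comp (f := fun c => (C c, x c)) ptf_evalC (PTF.prodMk hC hx)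

/-! ### deciding solutions -/

/-- is `v` (given by its bits) a solution of the coded instance? -/
def solB (p : EI × List Bool) : Bool :=
  p.2.any id &&
    (!decide (evalC (p.1.2.2, evalC (p.1.2.1, p.2)) = p.2) ||
      !decide (evalC (p.1.2.1, evalC (p.1.2.2, p.2)) = p.2))

theorem any_ofFn {n : ℕ} (v : Fin n → Bool) :
    (List.ofFn v).any id = true ↔ v ≠ fun _ => false := by
  rw [List.any_eq_true]
  constructor
  · rintro ⟨b, hb, hb'⟩ rfl
    rw [List.mem_ofFn] at hb
    obtain ⟨i, hi⟩ := hb
    have hb2 : b = true := hb'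
    have hi2 : false = b := hi
    rw [hb2] at hi2
    exact Bool.noConfusion hi2
  · intro h
    by_contra hc
    apply h
    funext i
    by_contra hi
    exact hc ⟨v i, by rw [List.mem_ofFn]; exact ⟨i, rfl⟩, by simpa using hi⟩

/-- **`solB` decides `IsSolution`** -/
theorem solB_raw (I : EOL) (hI : I.WF) (v : Fin I.n → Bool) :
    solB (raw I, List.ofFn v) = true ↔ I.IsSolution v := by
  obtain ⟨_, hS, hP, _⟩ := hI
  have e1 : evalC ((raw I).2.2, evalC ((raw I).2.1, List.ofFn v)) =
      List.ofFn (I.P.apply (I.S.apply v)) := by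
    show evalC (rawC I.P, evalC (rawC I.S, List.ofFn v)) = _
    rw [evalC_rawC' _ hS, evalC_rawC' _ hP]
  have e2 : evalC ((raw I).2.1, evalC ((raw I).2.2, List.ofFn v)) =
      List.ofFn (I.S.apply (I.P.apply v)) := by
    show evalC (rawC I.S, evalC (rawC I.P, List.ofFn v)) = _
    rw [evalC_rawC' _ hP, evalC_rawC' _ hS]
  rw [solB, Bool.and_eq_true, any_ofFn]
  simp only [e1, e2, Bool.or_eq_true, Bool.not_eq_true', decide_eq_false_iff_not,
    EOL.IsSolution, ne_eq, List.ofFn_inj]

theorem ptf_solB : PTF solB := by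
  unfold solB
  have h1 : PTF (fun p : EI × List Bool => evalC (p.1.2.1, p.2)) :=
    PTF_evalC (by fun_prop) (by fun_prop)
  have h2 : PTF (fun p : EI × List Bool => evalC (p.1.2.2, p.2)) :=
    PTF_evalC (by fun_prop) (by fun_prop)
  have h3 : PTF (fun p : EI × List Bool => evalC (p.1.2.2, evalC (p.1.2.1, p.2))) :=
    PTF_evalC (by fun_prop) h1
  have h4 : PTF (fun p : EI × List Bool => evalC (p.1.2.1, evalC (p.1.2.2, p.2))) :=
    PTF_evalC (by fun_prop) h2
  have h5 : PTF (fun p : EI × List Bool => p.2.any id) :=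
    PTF.any (p := fun (_ : EI × List Bool) (b : Bool) => id b) (by fun_prop) (by
      show PTF (fun q : (EI × List Bool) × Bool => q.2)
      fun_prop)
  have h6 : PTF (fun p : EI × List Bool => p.2) := by fun_prop
  exact PTF.and h5 (PTF.or (PTF.not (PTPred.toPTF (PTPred.eq h3 h6)))
    (PTF.not (PTPred.toPTF (PTPred.eq h4 h6))))

/-- composed form -/
theorem PTF_solB {γ : Type} [PTCode γ] {E : γ → EI} {x : γ → List Bool} (hE : PTF E)
    (hx : PTF x) : PTF (fun c => solB (E c, x c)) :=
  PTF.comp (f := fun c => (E c, x c)) ptf_solB (PTF.prodMk hE hx)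

/-! ### choosing a solution among candidates -/

/-- first candidate that is a solution -/
def pick (p : EI × List (List Bool)) : List Bool :=
  (p.2.find? fun v => solB (p.1, v)).getD []

theorem ptf_pick : PTF pick := by
  unfold pick
  refine PTF.optionGetD (PTF.find? (p := fun (c : EI × List (List Bool)) (v : List Bool) =>
    solB (c.1, v)) (by fun_prop) ?_) (by fun_prop)
  exact PTF_solB (by fun_prop) (by fun_prop)

/-- **if one of the candidates is a solution (and all candidates have length `n`), `pick` returns a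
solution** -/
theorem pick_spec (I : EOL) (hI : I.WF) (cs : List (List Bool)) (hlen : ∀ c ∈ cs, c.length = I.n)
    {v : Fin I.n → Bool} (hv : I.IsSolution v) (hmem : List.ofFn v ∈ cs) :
    ∃ w : Fin I.n → Bool, I.IsSolution w ∧ pick (raw I, cs) = List.ofFn w := by
  have hs : (cs.find? fun v => solB (raw I, v)).isSome := by
    rw [List.find?_isSome]
    exact ⟨_, hmem, (solB_raw I hI v).2 hv⟩
  obtain ⟨c, hc⟩ := Option.isSome_iff_exists.1 hs
  have hcm : c ∈ cs := List.mem_of_find?_eq_some hc
  have hcs : solB (raw I, c) = true := by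
    have := List.find?_some hc
    simpa using this
  have hl := hlen c hcm
  have hw : List.ofFn (fun i : Fin I.n => c.getD i false) = c := by
    apply List.ext_getElem
    · simp [hl]
    · intro j h1 h2
      rw [List.getElem_ofFn, List.getD_eq_getElem _ _ h2]
  refine ⟨fun i : Fin I.n => c.getD i false, ?_, ?_⟩
  · rw [← solB_raw I hI, hw]
    exact hcs
  · rw [hw, pick]
    show (cs.find? fun v => solB (raw I, v)).getD [] = c
    rw [hc]
    rfl

end Crest.Agent.R289.EvalC690
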