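import Crest.Agent.R289.LabC_482
import Crest.Agent.R289.GapI_731
import Crest.Agent.R289.LMR_827

/-!
Row 289, block C, leaf hW, part 2 (helper482): legality of a configuration of code words of
`LMI827.lmI` read at the units.

* `LegalAt I cw f u` : the relations of the letter of `f` at the unit `u` (with 731's `RecAt`,
  `StAt`, `EnAt`, `BkAt`, `XAt`, `ZAt`; clock read against the clock words);
* `lmI_legal` : `(lmI ..).Legal f ↔ LegalI I (raw f)`;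
* `legal_iff_at` : `(lmI ..).Legal f ↔ f.t ≤ L ∧ ∀ u, LegalAt I cw (raw f) u`;
* **`hW`** : the register code of 560 restricted by the relations is the set of label words of the
  legal configurations.
-/

set_option autoImplicit false
set_option linter.unusedSectionVars false

namespace Crest.Agent.R289.HW482

open Finset DefC DefI Compile827 LMI827 LabCAx560

variable {K : Type} [Field K] {c : Cst K} {I : Ins c} {CG : ℕ → Submodule K (I.Om → K)}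
  {CT : ℕ → Submodule K (I.n → K)} {tt : ℕ → I.T} {Ck : Type}

/-- legality in terms of the relations of `DefI` -/
theorem lmI_legal (h : Hyp I CG CT tt) (hx0) (hb0) (f : Conf (XS I CG) (ZS I CG CT) c.A.Tr) :
    (lmI h hx0 hb0).Legal f ↔ LegalI I (raw f) := by
  obtain ⟨l, t, x1, z1, x2, z2⟩ := f
  cases l with
  | boot =>
    exact and_congr_right fun _ => and_congr Subtype.ext_iff
      (and_congr Subtype.ext_iff (and_congr Subtype.ext_iff Iff.rfl))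
  | rest =>
    exact and_congr_right fun _ => and_congr_right fun _ => and_congr_right fun _ =>
      and_congr Subtype.ext_iff Subtype.ext_iff
  | fw ρ =>
    exact and_congr_right fun _ => and_congr_right fun _ => and_congr_right fun _ =>
      and_congr_right fun _ => and_congr Subtype.ext_iff Iff.rfl
  | bw ρ =>
    exact and_congr_right fun _ => and_congr_right fun _ => and_congr_right fun _ =>
      and_congr_right fun _ => and_congr Subtype.ext_iff Iff.rfl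

/-- relations of a configuration at a unit; `cw t` = clock word of `t` -/
def LegalAt (I : Ins c) (cw : ℕ → I.U → Ck) (f : Conf I.XW I.ZW c.A.Tr) (u : I.U) : Prop :=
  match f.l with
  | .boot => I.XAt f.x1 I.xz u ∧ I.ZAt f.z1 I.zz u ∧ I.XAt f.x2 I.xs u ∧ I.RecAt f.t f.x2 f.z2 u
  | .rest => cw f.t u = cw 0 u ∧ I.RecAt I.L f.x1 f.z1 u ∧ I.StAt f.x1 f.z1 u ∧
      I.XAt f.x2 I.xz u ∧ I.ZAt f.z2 I.zz u
  | .fw ρ => I.RecAt I.L f.x1 f.z1 u ∧ I.StAt f.x1 f.z1 u ∧ I.EnAt ρ f.x1 f.z1 u ∧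
      I.XAt f.x2 (I.up ρ f.x1) u ∧ I.RecAt f.t f.x2 f.z2 u
  | .bw ρ => I.RecAt I.L f.x2 f.z2 u ∧ I.StAt f.x2 f.z2 u ∧ I.BkAt ρ f.x2 f.z2 u ∧
      I.XAt f.x1 (I.dn ρ f.x2) u ∧ I.RecAt f.t f.x1 f.z1 u

variable [Nonempty I.Γ]

/-- the relations of `DefI` at all units -/
theorem legalI_iff_at {cw : ℕ → I.U → Ck}
    (hcw : ∀ s t, s ≤ I.L → t ≤ I.L → cw s = cw t → s = t) (f : Conf I.XW I.ZW c.A.Tr)
    (ht : f.t ≤ I.L) : LegalI I f ↔ ∀ u, LegalAt I cw f u := by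
  have : Nonempty I.T := ⟨1⟩
  obtain ⟨l, t, x1, z1, x2, z2⟩ := f
  have ht' : t ≤ I.L := ht
  have hf4 : ∀ {p q r s : I.U → Prop}, (∀ u, p u ∧ q u ∧ r u ∧ s u) ↔
      (∀ u, p u) ∧ (∀ u, q u) ∧ (∀ u, r u) ∧ ∀ u, s u := by
    intro p q r s
    simp only [forall_and]
  have hf5 : ∀ {p q r s v : I.U → Prop}, (∀ u, p u ∧ q u ∧ r u ∧ s u ∧ v u) ↔
      (∀ u, p u) ∧ (∀ u, q u) ∧ (∀ u, r u) ∧ (∀ u, s u) ∧ ∀ u, v u := by
    intro p q r s v
    simp only [forall_and]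
  cases l with
  | boot =>
    show (t ≤ I.L ∧ x1 = I.xz ∧ z1 = I.zz ∧ x2 = I.xs ∧ I.Rec t x2 z2) ↔
      ∀ u, I.XAt x1 I.xz u ∧ I.ZAt z1 I.zz u ∧ I.XAt x2 I.xs u ∧ I.RecAt t x2 z2 u
    rw [hf4, ← Ins.x_iff, ← Ins.x_iff, ← Ins.z_iff, ← Ins.rec_iff]
    exact ⟨fun h => h.2, fun h => ⟨ht', h⟩⟩
  | rest =>
    show (t = 0 ∧ I.Rec I.L x1 z1 ∧ I.St x1 z1 ∧ x2 = I.xz ∧ z2 = I.zz) ↔
      ∀ u, cw t u = cw 0 u ∧ I.RecAt I.L x1 z1 u ∧ I.StAt x1 z1 u ∧ I.XAt x2 I.xz u ∧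
        I.ZAt z2 I.zz u
    rw [hf5, ← Ins.x_iff, ← Ins.z_iff, ← Ins.rec_iff, ← Ins.st_iff]
    refine and_congr_left fun _ => ⟨fun h u => by rw [h], fun h => ?_⟩
    exact hcw _ _ ht' (Nat.zero_le _) (funext h)
  | fw ρ =>
    show (t ≤ I.L ∧ I.Rec I.L x1 z1 ∧ I.St x1 z1 ∧ I.En ρ x1 z1 ∧ x2 = I.up ρ x1 ∧
      I.Rec t x2 z2) ↔ ∀ u, I.RecAt I.L x1 z1 u ∧ I.StAt x1 z1 u ∧ I.EnAt ρ x1 z1 u ∧
      I.XAt x2 (I.up ρ x1) u ∧ I.RecAt t x2 z2 u
    rw [hf5, ← Ins.x_iff, ← Ins.rec_iff, ← Ins.rec_iff, ← Ins.st_iff, ← Ins.en_iff]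
    exact ⟨fun h => h.2, fun h => ⟨ht', h⟩⟩
  | bw ρ =>
    show (t ≤ I.L ∧ I.Rec I.L x2 z2 ∧ I.St x2 z2 ∧ I.Bk ρ x2 z2 ∧ x1 = I.dn ρ x2 ∧
      I.Rec t x1 z1) ↔ ∀ u, I.RecAt I.L x2 z2 u ∧ I.StAt x2 z2 u ∧ I.BkAt ρ x2 z2 u ∧
      I.XAt x1 (I.dn ρ x2) u ∧ I.RecAt t x1 z1 u
    rw [hf5, ← Ins.x_iff, ← Ins.rec_iff, ← Ins.rec_iff, ← Ins.st_iff, ← Ins.bk_iff]
    exact ⟨fun h => h.2, fun h => ⟨ht', h⟩⟩

/-- **legality is a pointwise condition on configurations of code words** -/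
theorem legal_iff_at (h : Hyp I CG CT tt) (hx0) (hb0) {cw : ℕ → I.U → Ck}
    (hcw : ∀ s t, s ≤ I.L → t ≤ I.L → cw s = cw t → s = t)
    (f : Conf (XS I CG) (ZS I CG CT) c.A.Tr) (ht : f.t ≤ I.L) :
    (lmI h hx0 hb0).Legal f ↔ ∀ u, LegalAt I cw (raw f) u :=
  (lmI_legal h hx0 hb0 f).trans (legalI_iff_at hcw (raw f) ht)

/-- legal configurations have clock at most `L` -/
theorem legal_le (h : Hyp I CG CT tt) (hx0) (hb0) {f : Conf (XS I CG) (ZS I CG CT) c.A.Tr}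
    (hf : (lmI h hx0 hb0).Legal f) : f.t ≤ I.L := by
  obtain ⟨a, rfl⟩ := ((lmI h hx0 hb0).legal_iff f).1 hf
  cases a with
  | boot t ht => exact ht
  | rest x hx => exact Nat.zero_le _
  | fw ρ x hx he t ht => exact ht
  | bw ρ x hx he t ht => exact ht

variable {VG CG' : Submodule K (I.Γ → c.S → K)} {VT CT' : Submodule K (I.T → c.S' → K)}

/-- **hW**: the register code of 560 (clock code `{cw t | t ≤ L}`), restricted by relations `rel`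
which on exact words say `LegalAt`, is the set of label words of the legal configurations -/
theorem hW (h : Hyp I CG CT tt) (hx0) (hb0) (hC : Cur I CG CT VG CG' VT CT')
    {cw : ℕ → I.U → Ck} (hcw : ∀ s t, s ≤ I.L → t ≤ I.L → cw s = cw t → s = t)
    {CC : Set (I.U → Ck)} (hCC : ∀ w, w ∈ CC ↔ ∃ t, t ≤ I.L ∧ w = cw t)
    (rel : (I.U → c.Lab Ck) → I.U → Prop)
    (hrel : ∀ f : Conf (XS I CG) (ZS I CG CT) c.A.Tr, f.t ≤ I.L →
      ((∀ u, rel (I.labE cw (raw f)) u) ↔ ∀ u, LegalAt I cw (raw f) u)) :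
    {w | w ∈ LabCode I VG CG' VT CT' CC ∧ ∀ u, rel w u} =
      {w | ∃ f : Conf (XS I CG) (ZS I CG CT) c.A.Tr, (lmI h hx0 hb0).Legal f ∧
        w = I.labE cw (raw f)} := by
  rw [labCode_eq hC hCC]
  ext w
  constructor
  · rintro ⟨⟨f, hf, rfl⟩, hr⟩
    exact ⟨f, (legal_iff_at h hx0 hb0 hcw f hf).2 ((hrel f hf).1 hr), rfl⟩
  · rintro ⟨f, hf, rfl⟩
    have hle := legal_le h hx0 hb0 hf
    exact ⟨⟨f, hle, rfl⟩, (hrel f hle).2 ((legal_iff_at h hx0 hb0 hcw f hle).1 hf)⟩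

end Crest.Agent.R289.HW482
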