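import Crest.Agent.R289.UFam_715

import Crest.Agent.R289.SemLoc_406
import Crest.Agent.R289.SemEv_880
import Crest.Agent.R289.SemEx_844
import Crest.Agent.R289.GapS_719
import Crest.Agent.R289.HW_482

/-!
# Row 289, leaf C_SEM: the exact facts of `SemI406.semI` (helper654)

* `gap_legal` : a configuration of code words of `LMI827.lmI` which is not legal violates
  `SemI406.LegalAt` at `≥ g` of the units (`g` = number of `GapS719.Num`);
* `legal_at` : legality = `LegalAt` at all units; `W_eq` : the legal words of `semI`;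
* **`exactI`** : the structure `UFam715.Exact` for `semI`, with gap and density `g`.
-/

set_option autoImplicit false
set_option linter.unusedSectionVars false
set_option linter.unusedVariables false

namespace Crest.Agent.R289.ExactI654

open Crest.Agent.R289.DefD Crest.Agent.R289.DefC Crest.Agent.R289.DefI
  Crest.Agent.R289.LMI827 Crest.Agent.R289.Compile827 Crest.Agent.R289.Word508
  Crest.Agent.R289.GapS719

section one

variable {K : Type} [Field K] {c : Cst K} {I : Ins c} {CG : ℕ → Submodule K (I.Om → K)}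
  {CT : ℕ → Submodule K (I.n → K)} {tt : ℕ → I.T} {g : ℝ}

theorem frac_lt_of {U : Type} [Fintype U] {p q : U → Prop} {g : ℝ} (h : frac p < g)
    (hpq : ∀ u, q u → p u) : ¬ g ≤ frac q := fun hc =>
  absurd (hc.trans (frac_mono hpq)) (not_le.2 h)

/-- **gap of legality** -/
theorem gap_legal (N : Num I CG CT g) (h : Hyp I CG CT tt)
    (f : Conf (XS I CG) (ZS I CG CT) c.A.Tr) (ht : f.t ≤ I.L)
    (hn : ¬ ∀ u, SemI406.LegalAt I (SemN844.vl f) u) :
    g ≤ frac fun u => ¬ SemI406.LegalAt I (SemN844.vl f) u := by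
  by_contra hlt
  push Not at hlt
  apply hn
  have hneΓ := N.ne
  have hneT : Nonempty I.T := ⟨1⟩
  obtain ⟨l, t, x1, z1, x2, z2⟩ := f
  have ht' : t ≤ I.L := ht
  have hX : ∀ (x y : XS I CG), (∀ u, ¬ I.XAt x.1 y.1 u →
      ¬ SemI406.LegalAt I (SemN844.vl ⟨l, t, x1, z1, x2, z2⟩) u) → x = y := by
    intro x y hPu
    by_contra hne
    exact frac_lt_of hlt hPu (dx N x y hne)
  have hZ : ∀ (z z' : ZS I CG CT), (∀ u, ¬ I.ZAt z.1 z'.1 u →
      ¬ SemI406.LegalAt I (SemN844.vl ⟨l, t, x1, z1, x2, z2⟩) u) → z = z' := by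
    intro z z' hPu
    by_contra hne
    exact frac_lt_of hlt hPu (dz N z z' hne)
  have hR : ∀ {s : ℕ} (hs : s ≤ I.L) (x : XS I CG) (z : ZS I CG CT),
      (∀ u, ¬ I.RecAt s x.1 z.1 u →
        ¬ SemI406.LegalAt I (SemN844.vl ⟨l, t, x1, z1, x2, z2⟩) u) → z = certS h x s := by
    intro s hs x z hPu
    by_contra hne
    exact frac_lt_of hlt hPu (rcG N h hs x z hne)
  have hS : ∀ (x : XS I CG), (∀ u, ¬ I.StAt x.1 (certS h x I.L).1 u →
        ¬ SemI406.LegalAt I (SemN844.vl ⟨l, t, x1, z1, x2, z2⟩) u) → (cd h).IsL x.1 := by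
    intro x hPu
    by_contra hne
    exact frac_lt_of hlt hPu (stG N h x hne)
  have hE : ∀ ρ (x : XS I CG), (cd h).IsL x.1 → (∀ u, ¬ I.EnAt ρ x.1 (certS h x I.L).1 u →
        ¬ SemI406.LegalAt I (SemN844.vl ⟨l, t, x1, z1, x2, z2⟩) u) → (cd h).en ρ x.1 := by
    intro ρ x hx hPu
    by_contra hne
    exact frac_lt_of hlt hPu (enG N h ρ x hx hne)
  have hB : ∀ ρ (x : XS I CG), (cd h).IsL x.1 → (∀ u, ¬ I.BkAt ρ x.1 (certS h x I.L).1 u →
        ¬ SemI406.LegalAt I (SemN844.vl ⟨l, t, x1, z1, x2, z2⟩) u) → (cd h).bk ρ x.1 := by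
    intro ρ x hx hPu
    by_contra hne
    exact frac_lt_of hlt hPu (bkG N h ρ x hx hne)
  have uX : ∀ (x : I.XW) u, I.XAt x x u := fun x u => (Ins.x_iff x x).1 rfl u
  have uZ : ∀ (z : I.ZW) u, I.ZAt z z u := fun z u => (Ins.z_iff z z).1 rfl u
  have uR : ∀ {s : ℕ} (hs : s ≤ I.L) (x : XS I CG) u, I.RecAt s x.1 (certS h x s).1 u := by
    intro s hs x u
    exact (Ins.rec_iff s x.1 _).1 ((rec_iffS h s x _ hs).2 rfl) u
  have uS : ∀ (x : XS I CG), (cd h).IsL x.1 → ∀ u, I.StAt x.1 (certS h x I.L).1 u := fun x hx =>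
    (Ins.st_iff _ _).1 ((st_iffS h x).2 hx)
  have uE : ∀ ρ (x : XS I CG), (cd h).IsL x.1 → (cd h).en ρ x.1 →
      ∀ u, I.EnAt ρ x.1 (certS h x I.L).1 u := fun ρ x hx he =>
    (Ins.en_iff ρ _ _).1 ((en_iffS h ρ x hx).2 he)
  have uB : ∀ ρ (x : XS I CG), (cd h).IsL x.1 → (cd h).bk ρ x.1 →
      ∀ u, I.BkAt ρ x.1 (certS h x I.L).1 u := fun ρ x hx he =>
    (Ins.bk_iff ρ _ _).1 ((bk_iffS h ρ x hx).2 he)
  cases l with
  | boot =>
    have e1 := hX x1 ⟨I.xz, fun _ => (CG 1).zero_mem⟩ fun u hu hl => hu hl.1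
    have e2 := hZ z1 ⟨I.zz, zz_mem⟩ fun u hu hl => hu hl.2.1
    have e3 := hX x2 ⟨I.xs, h.gx0⟩ fun u hu hl => hu hl.2.2.1
    have e4 := hR ht' x2 z2 fun u hu hl => hu hl.2.2.2
    intro u
    refine ⟨?_, ?_, ?_, ?_⟩
    · show I.XAt x1.1 I.xz u
      rw [e1]; exact uX _ u
    · show I.ZAt z1.1 I.zz u
      rw [e2]; exact uZ _ u
    · show I.XAt x2.1 I.xs u
      rw [e3]; exact uX _ u
    · show I.RecAt t x2.1 z2.1 u
      rw [e4]; exact uR ht' x2 u
  | rest =>
    have e0 : t = 0 := by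
      by_contra ht0
      have : (frac fun u : I.U =>
          ¬ SemI406.LegalAt I (SemN844.vl ⟨.rest, t, x1, z1, x2, z2⟩) u) = 1 :=
        frac_true fun u hl => ht0 hl.1
      rw [this] at hlt
      exact absurd N.le1 (not_le.2 hlt)
    have e1 := hR le_rfl x1 z1 fun u hu hl => hu hl.2.1
    have e2 := hS x1 fun u hu hl => hu (by rw [← e1]; exact hl.2.2.1)
    have e3 := hX x2 ⟨I.xz, fun _ => (CG 1).zero_mem⟩ fun u hu hl => hu hl.2.2.2.1
    have e4 := hZ z2 ⟨I.zz, zz_mem⟩ fun u hu hl => hu hl.2.2.2.2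
    intro u
    refine ⟨e0, ?_, ?_, ?_, ?_⟩
    · show I.RecAt I.L x1.1 z1.1 u
      rw [e1]; exact uR le_rfl x1 u
    · show I.StAt x1.1 z1.1 u
      rw [e1]; exact uS x1 e2 u
    · show I.XAt x2.1 I.xz u
      rw [e3]; exact uX _ u
    · show I.ZAt z2.1 I.zz u
      rw [e4]; exact uZ _ u
  | fw ρ =>
    have e1 := hR le_rfl x1 z1 fun u hu hl => hu hl.1
    have e2 := hS x1 fun u hu hl => hu (by rw [← e1]; exact hl.2.1)
    have e3 := hE ρ x1 e2 fun u hu hl => hu (by rw [← e1]; exact hl.2.2.1)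
    have e4 := hX x2 ⟨I.up ρ x1.1, up_memS h ρ x1⟩ fun u hu hl => hu hl.2.2.2.1
    have e5 := hR ht' x2 z2 fun u hu hl => hu hl.2.2.2.2
    intro u
    refine ⟨?_, ?_, ?_, ?_, ?_⟩
    · show I.RecAt I.L x1.1 z1.1 u
      rw [e1]; exact uR le_rfl x1 u
    · show I.StAt x1.1 z1.1 u
      rw [e1]; exact uS x1 e2 u
    · show I.EnAt ρ x1.1 z1.1 u
      rw [e1]; exact uE ρ x1 e2 e3 u
    · show I.XAt x2.1 (I.up ρ x1.1) u
      rw [e4]; exact uX _ u
    · show I.RecAt t x2.1 z2.1 u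
      rw [e5]; exact uR ht' x2 u
  | bw ρ =>
    have e1 := hR le_rfl x2 z2 fun u hu hl => hu hl.1
    have e2 := hS x2 fun u hu hl => hu (by rw [← e1]; exact hl.2.1)
    have e3 := hB ρ x2 e2 fun u hu hl => hu (by rw [← e1]; exact hl.2.2.1)
    have e4 := hX x1 ⟨I.dn ρ x2.1, dn_memS h ρ x2⟩ fun u hu hl => hu hl.2.2.2.1
    have e5 := hR ht' x1 z1 fun u hu hl => hu hl.2.2.2.2
    intro u
    refine ⟨?_, ?_, ?_, ?_, ?_⟩
    · show I.RecAt I.L x2.1 z2.1 u
      rw [e1]; exact uR le_rfl x2 u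
    · show I.StAt x2.1 z2.1 u
      rw [e1]; exact uS x2 e2 u
    · show I.BkAt ρ x2.1 z2.1 u
      rw [e1]; exact uB ρ x2 e2 e3 u
    · show I.XAt x1.1 (I.dn ρ x2.1) u
      rw [e4]; exact uX _ u
    · show I.RecAt t x1.1 z1.1 u
      rw [e5]; exact uR ht' x1 u

/-! ### the machine on one instance -/

open SemI406 SemN844 in
/-- legality at all units, 406's form -/
theorem legal_at (h : Hyp I CG CT tt) (hx0 : c.A.Legal I.act I.pubC I.stg0 (I.con I.xs))
    (hb0 : ∀ ρ, ¬ (I.stg0 = c.A.tgt ρ ∧ c.A.Bk I.act I.pubC ρ (I.con I.xs))) [Nonempty I.Γ]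
    {Ck : Type} {cw : ℕ → I.U → Ck}
    (hcw : ∀ s t, s ≤ I.L → t ≤ I.L → cw s = cw t → s = t)
    (f : Conf (XS I CG) (ZS I CG CT) c.A.Tr) (ht : f.t ≤ I.L) :
    (lmI h hx0 hb0).Legal f ↔ ∀ u, SemI406.LegalAt I (SemN844.vl f) u := by
  rw [HW482.legal_iff_at h hx0 hb0 hcw f ht]
  obtain ⟨l, t, x1, z1, x2, z2⟩ := f
  have ht' : t ≤ I.L := ht
  cases l with
  | boot => exact Iff.rfl
  | rest =>
    constructor
    · intro H u
      have h0 : cw t = cw 0 := funext fun v => (H v).1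
      exact ⟨hcw _ _ ht' (Nat.zero_le _) h0, (H u).2⟩
    · intro H u
      have h0 : t = 0 := (H u).1
      exact ⟨by show cw t u = cw 0 u; rw [h0], (H u).2⟩
  | fw ρ => exact Iff.rfl
  | bw ρ => exact Iff.rfl

end one

section sem

open SemI406

variable {K : Type} [Field K] {c : Cst K} {Inst : Type} (J : Inst → Ins c) {Ck : Type}
  (k : ∀ i, Clk (J i) Ck) (i : Inst) {CG : ℕ → Submodule K ((J i).Om → K)}
  {CT : ℕ → Submodule K ((J i).n → K)} {tt : ℕ → (J i).T} {g : ℝ}
  (h : Hyp (J i) CG CT tt)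
  (hx0 : c.A.Legal (J i).act (J i).pubC (J i).stg0 ((J i).con (J i).xs))
  (hb0 : ∀ ρ, ¬ ((J i).stg0 = c.A.tgt ρ ∧ c.A.Bk (J i).act (J i).pubC ρ ((J i).con (J i).xs)))
  {C : Set ((J i).U → c.Lab Ck)}
  (hC : C = {w | ∃ f : Conf (XS (J i) CG) (ZS (J i) CG CT) c.A.Tr, f.t ≤ (J i).L ∧
    w = (J i).labE (k i).cw (SemN844.vl f)})

include hC in
/-- the legal words of `semI` are the words of the states -/
theorem W_eq [Nonempty (J i).Γ] (hk : (k i).OK) :
    (semI J k).W i C = SemN844.W h hx0 hb0 (k i).cw := by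
  ext w
  rw [SemN844.mem_W_iff]
  constructor
  · rintro ⟨h1, h2⟩
    rw [hC] at h1
    obtain ⟨f, hf, rfl⟩ := h1
    refine ⟨f, (legal_at h hx0 hb0 hk.inj f hf).2 fun u => ?_, rfl⟩
    exact (SemEv880.rel_eval (J i) (k i) hk (SemN844.vl f) hf u).1 (h2 () u)
  · rintro ⟨f, hf, rfl⟩
    have ht := SemN844.legal_t h hx0 hb0 hf
    refine ⟨by rw [hC]; exact ⟨f, ht, rfl⟩, fun _ u => ?_⟩
    exact (SemEv880.rel_eval (J i) (k i) hk (SemN844.vl f) ht u).2
      ((legal_at h hx0 hb0 hk.inj f ht).1 hf u)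

theorem coh_unit {U : Type} [Fintype U] (y : U → Option Unit) {ρ : ℝ}
    (hd : (∀ u, y u = none) ∨ ρ ≤ frac fun u => y u ≠ none) : Coh y ρ :=
  ⟨fun _ _ _ _ _ _ => rfl, hd⟩

include h hx0 hb0 hC in
/-- **the exact facts of one instance** -/
theorem exactI (N : Num (J i) CG CT g) (hk : (k i).OK) :
    UFam715.Exact (semI J k) i C (SemN844.w0 (J i) (k i).cw) g g := by
  have hne := N.ne
  have hneT : Nonempty (J i).T := ⟨1⟩
  have hW := W_eq J k i h hx0 hb0 hC hk
  refine ⟨?_, ?_, ?_, ?_, ?_, ?_, ?_, ?_, ?_, ?_⟩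
  · -- gap
    intro w hw hn
    rw [hC] at hw
    obtain ⟨f, hf, rfl⟩ := hw
    refine ⟨(), ?_⟩
    have he : ∀ u, (semI J k).rel () i ((J i).labE (k i).cw (SemN844.vl f)) u ↔
        SemI406.LegalAt (J i) (SemN844.vl f) u := fun u =>
      SemEv880.rel_eval (J i) (k i) hk (SemN844.vl f) hf u
    have hn' : ¬ ∀ u, SemI406.LegalAt (J i) (SemN844.vl f) u := fun H =>
      hn fun _ u => (he u).2 (H u)
    refine (gap_legal N h f hf hn').trans (frac_mono fun u hu hu' => hu ((he u).1 hu'))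
  · rw [hW]; exact SemN844.w0_mem h hx0 hb0
  · rw [hW]; exact SemEx844.Nw_mem h hx0 hb0 hk
  · rw [hW]; exact SemEx844.Mw_mem h hx0 hb0 hk
  · rw [hW]; exact SemEx844.MNw h hx0 hb0 hk
  · rw [hW]; exact SemEx844.NMw h hx0 hb0 hk
  · exact SemEx844.Mw_w0 h hx0 hb0 hk
  · exact SemEx844.Nw_w0 h hx0 hb0 hk
  · -- forward flags
    rw [hW]
    rintro w ⟨a, rfl⟩ ρ
    refine coh_unit _ ?_
    cases a with
    | boot t ht => exact Or.inl fun u => if_neg fun hc => by cases hc.1
    | fw ρ' x hx he t ht => exact Or.inl fun u => if_neg fun hc => by cases hc.1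
    | bw ρ' x hx he t ht => exact Or.inl fun u => if_neg fun hc => by cases hc.1
    | rest x hx =>
      by_cases he : (cd h).en ρ x.1
      · left
        intro u
        exact if_neg fun hc => hc.2 ((Ins.en_iff ρ _ _).1 ((en_iffS h ρ x hx).2 he) u)
      · right
        refine (enG N h ρ x hx he).trans (frac_mono fun u hu => ?_)
        show FlN (J i) ρ _ u ≠ none
        unfold FlN
        rw [if_pos]
        · simp
        · exact ⟨rfl, hu⟩
  · -- backward flags
    rw [hW]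
    rintro w ⟨a, rfl⟩ j
    refine coh_unit _ ?_
    cases a with
    | boot t ht =>
      cases j with
      | none => exact Or.inl fun u => if_neg fun hc => by cases hc.1
      | some ρ => exact Or.inl fun u => if_neg fun hc => by cases hc.1
    | fw ρ' x hx he t ht =>
      cases j with
      | none => exact Or.inl fun u => if_neg fun hc => by cases hc.1
      | some ρ => exact Or.inl fun u => if_neg fun hc => by cases hc.1
    | bw ρ' x hx he t ht =>
      cases j with
      | none => exact Or.inl fun u => if_neg fun hc => by cases hc.1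
      | some ρ => exact Or.inl fun u => if_neg fun hc => by cases hc.1
    | rest x hx =>
      cases j with
      | none =>
        by_cases he : x.1 = (J i).xs
        · left
          intro u
          refine if_neg fun hc => hc.2 ?_
          refine (SemEv880.start_iff (J i) x.1 (certS h x (J i).L).1 u).2 ?_
          rw [he]
          exact (Ins.x_iff _ _).1 rfl u
        · right
          have hne' : x ≠ (⟨(J i).xs, h.gx0⟩ : XS (J i) CG) := fun hc => he (congrArg Subtype.val hc)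
          refine (dx N x _ hne').trans (frac_mono fun u hu => ?_)
          show FlM (J i) none _ u ≠ none
          unfold FlM
          simp only
          rw [if_pos]
          · simp
          · refine ⟨rfl, fun hc => hu ?_⟩
            exact (SemEv880.start_iff (J i) x.1 (certS h x (J i).L).1 u).1 hc
      | some ρ =>
        by_cases he : (cd h).bk ρ x.1
        · left
          intro u
          exact if_neg fun hc => hc.2 ((Ins.bk_iff ρ _ _).1 ((bk_iffS h ρ x hx).2 he) u)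
        · right
          refine (bkG N h ρ x hx he).trans (frac_mono fun u hu => ?_)
          show FlM (J i) (some ρ) _ u ≠ none
          unfold FlM
          simp only
          rw [if_pos]
          · simp
          · exact ⟨rfl, hu⟩

end sem

end Crest.Agent.R289.ExactI654
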