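import Crest.Agent.R289.ExpCnt_820

/-!
Row 289, block B (two-place object), TP4a insurance: the algebra of the two-place square over
820's `Sk σ` (elements `re + im τ`, `re im : K[X]`, `X = τ²`, `τ a = σ a τ`).

* `act x l a` : right action on row vectors at the place `x` (223 #5603/#5789 (T1));
* `be x l = 1 + bet τ + gam X` : the element with constant term one, norm `XX / (x σx)`,
  `act x l (be x l) = 0` (622's formulas); `piv x l = X + c + b τ` : the monic one (820's `IsPi`);
* `act_eq_zero_iff` : `act x l a = 0 ↔ a ∈ be x l * Sk`;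
* `exchange` : `be x l * be y (act y m (be x l)) = be y m * be x (act x l (be y m))`;
* `eq_of_two_places` : uniqueness at the oo corner; `inj_pair` : injectivity of
  `(l, m) ↦ (act x l (be y m), act y m (be x l))` on pairs of lines.
-/

set_option autoImplicit false
set_option linter.unusedSectionVars false

namespace Crest.Agent.R289.Exch745

open Polynomial Crest.Agent.R289.Exp820 Crest.Agent.R289.Exp820.Sk

variable {K : Type*} [Field K] {σ : K →+* K}

/-! ### the action -/

/-- right action of `Sk σ` on row vectors at the place `x` -/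
noncomputable def act (x : K) (l : K × K) (a : Sk σ) : K × K :=
  ((sg σ a.re).eval x * l.1 - x * a.im.eval x * l.2,
    a.re.eval x * l.2 - (sg σ a.im).eval x * l.1)

theorem act_fst (x : K) (l : K × K) (a : Sk σ) :
    (act x l a).1 = (sg σ a.re).eval x * l.1 - x * a.im.eval x * l.2 := rfl

theorem act_snd (x : K) (l : K × K) (a : Sk σ) :
    (act x l a).2 = a.re.eval x * l.2 - (sg σ a.im).eval x * l.1 := rfl

theorem act_one (x : K) (l : K × K) : act x l (1 : Sk σ) = l := by
  ext <;> simp [act]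

theorem act_mul (hσ : ∀ a, σ (σ a) = a) (x : K) (l : K × K) (a b : Sk σ) :
    act x l (a * b) = act x (act x l a) b := by
  ext
  · simp only [act, mul_re, mul_im, map_add, map_mul, sg_sg hσ, sg_X, eval_add, eval_mul, eval_X]
    ring
  · simp only [act, mul_re, mul_im, map_add, map_mul, sg_sg hσ, sg_X, eval_add, eval_mul, eval_X]
    ring

theorem act_zero (x : K) (a : Sk σ) : act x (0 : K × K) a = 0 := by
  ext <;> simp [act]

theorem act_smul (x : K) (c : K) (l : K × K) (a : Sk σ) :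
    act x (c • l) a = c • act x l a := by
  ext
  · simp only [act, Prod.smul_fst, Prod.smul_snd, smul_eq_mul]; ring
  · simp only [act, Prod.smul_fst, Prod.smul_snd, smul_eq_mul]; ring

theorem act_add (x : K) (l l' : K × K) (a : Sk σ) :
    act x (l + l') a = act x l a + act x l' a := by
  ext
  · simp only [act, Prod.fst_add, Prod.snd_add]; ring
  · simp only [act, Prod.fst_add, Prod.snd_add]; ring

/-- determinant of two row vectors -/
def det (l l' : K × K) : K := l.1 * l'.2 - l.2 * l'.1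

theorem eval_sg (hσ : ∀ a, σ (σ a) = a) (p : K[X]) (x : K) :
    (sg σ p).eval x = σ (p.eval (σ x)) := by
  have h : (p.map σ).eval (σ (σ x)) = σ (p.eval (σ x)) := by
    rw [eval_map, eval₂_at_apply]
  rw [← h, hσ]
  rfl

theorem eval_N (x : K) (a : Sk σ) :
    (N a).eval x = a.re.eval x * (sg σ a.re).eval x - x * a.im.eval x * (sg σ a.im).eval x := by
  simp only [N, eval_sub, eval_mul, eval_X]

theorem det_act (x : K) (l l' : K × K) (a : Sk σ) :
    det (act x l a) (act x l' a) = (N a).eval x * det l l' := by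
  rw [eval_N]
  simp only [det, act]
  ring

theorem sg_N (hσ : ∀ a, σ (σ a) = a) (a : Sk σ) : sg σ (N a) = N a := by
  simp only [N, map_sub, map_mul, sg_sg hσ, sg_X]
  ring

theorem eval_N_conj (hσ : ∀ a, σ (σ a) = a) (x : K) (a : Sk σ) :
    (N a).eval (σ x) = σ ((N a).eval x) := by
  have h := eval_sg hσ (N a) (σ x)
  rwa [sg_N hσ, hσ] at h

/-- a vector killed by `a` at `x`, nonzero, forces `N a (x) = 0` -/
theorem N_eval_eq_zero {x : K} {l : K × K} {a : Sk σ} (hl : l ≠ 0) (h : act x l a = 0) :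
    (N a).eval x = 0 := by
  have h1 := congrArg Prod.fst h
  have h2 := congrArg Prod.snd h
  rw [eval_N]
  simp only [act, Prod.fst_zero, Prod.snd_zero] at h1 h2
  by_cases h0 : l.1 = 0
  · have hl1 : l.2 ≠ 0 := fun h' => hl (Prod.ext h0 h')
    have : l.2 * (a.re.eval x * (sg σ a.re).eval x - x * a.im.eval x * (sg σ a.im).eval x) = 0 := by
      linear_combination (sg σ a.re).eval x * h2 + (sg σ a.im).eval x * h1
    exact (mul_eq_zero.1 this).resolve_left hl1
  · have : l.1 * (a.re.eval x * (sg σ a.re).eval x - x * a.im.eval x * (sg σ a.im).eval x) = 0 := by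
      linear_combination a.re.eval x * h1 + x * a.im.eval x * h2
    exact (mul_eq_zero.1 this).resolve_left h0

/-- if `N a (x) ≠ 0` the action is injective -/
theorem act_ne_zero {x : K} {l : K × K} {a : Sk σ} (hl : l ≠ 0) (h : (N a).eval x ≠ 0) :
    act x l a ≠ 0 := fun h' => h (N_eval_eq_zero hl h')

/-! ### norm zero -/

theorem eq_zero_of_N {a : Sk σ} (h : N a = 0) : a.re = 0 ∧ a.im = 0 := by
  have inj : Function.Injective σ := σ.injective
  have hd : ∀ p : K[X], (sg σ p).natDegree = p.natDegree := fun p =>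
    natDegree_map_eq_of_injective inj p
  have h0 : ∀ p : K[X], p ≠ 0 → sg σ p ≠ 0 := fun p hp h' =>
    hp ((Polynomial.map_eq_zero_iff inj).1 h')
  by_cases hi : a.im = 0
  · refine ⟨?_, hi⟩
    by_contra hr
    have : a.re * sg σ a.re = 0 := by simpa [N, hi] using h
    rcases mul_eq_zero.1 this with h' | h'
    · exact hr h'
    · exact h0 _ hr h'
  · exfalso
    have e : a.re * sg σ a.re = X * a.im * sg σ a.im := sub_eq_zero.1 h
    have hr : a.re ≠ 0 := by
      intro hr
      rw [hr, zero_mul] at e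
      rcases mul_eq_zero.1 e.symm with h' | h'
      · rcases mul_eq_zero.1 h' with h'' | h''
        · exact X_ne_zero h''
        · exact hi h''
      · exact h0 _ hi h'
    have e' := congrArg natDegree e
    rw [natDegree_mul hr (h0 _ hr), natDegree_mul (mul_ne_zero X_ne_zero hi) (h0 _ hi),
      natDegree_mul X_ne_zero hi, hd, hd, natDegree_X] at e'
    omega

/-- an element whose norm has more zeros than its degree allows is zero -/
theorem eq_zero_of_roots {a : Sk σ} (S : Finset K) (hS : ∀ z ∈ S, (N a).eval z = 0)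
    (hd : (N a).natDegree < S.card) : a.re = 0 ∧ a.im = 0 := by
  apply eq_zero_of_N
  by_contra h
  have h1 : S.val ≤ (N a).roots := by
    rw [Multiset.le_iff_subset S.nodup]
    intro z hz
    exact (mem_roots h).2 (hS z hz)
  have h2 := Multiset.card_le_card h1
  have h3 := (N a).card_roots'
  have h4 : Multiset.card S.val = S.card := rfl
  omega

theorem natDegree_N_le {a : Sk σ} {n m : ℕ} (hr : a.re.natDegree ≤ n) (hi : a.im.natDegree ≤ m)
    (k : ℕ) (h1 : 2 * n ≤ k) (h2 : 2 * m + 1 ≤ k) : (N a).natDegree ≤ k := by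
  have hd : ∀ p : K[X], (sg σ p).natDegree = p.natDegree := fun p =>
    natDegree_map_eq_of_injective σ.injective p
  refine (natDegree_sub_le _ _).trans (max_le ?_ ?_)
  · refine natDegree_mul_le.trans ?_
    rw [hd]; omega
  · refine natDegree_mul_le.trans ?_
    rw [hd]
    have := natDegree_mul_le (p := (X : K[X])) (q := a.im)
    rw [natDegree_X] at this
    omega


/-! ### the element `be x l` -/

section be

variable (σ)

/-- `N l0 - x N l1` -/
def Q (x : K) (l : K × K) : K := l.1 * σ l.1 - x * (l.2 * σ l.2)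

variable {σ}

theorem Q_conj (hσ : ∀ a, σ (σ a) = a) (x : K) (l : K × K) : σ (Q σ x l) = Q σ (σ x) l := by
  simp only [Q, map_sub, map_mul, hσ]; ring

theorem Q_ne (hσ : ∀ a, σ (σ a) = a) {x : K} (hx : σ x ≠ x) {l : K × K} (hl : l ≠ 0) :
    Q σ x l ≠ 0 := by
  intro h
  have h' : Q σ (σ x) l = 0 := by rw [← Q_conj hσ, h, map_zero]
  simp only [Q] at h h'
  have h1 : (σ x - x) * (l.2 * σ l.2) = 0 := by linear_combination h - h'
  have h2 : l.2 * σ l.2 = 0 := (mul_eq_zero.1 h1).resolve_left (sub_ne_zero.2 hx)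
  have h3 : l.1 * σ l.1 = 0 := by rw [h2, mul_zero, sub_zero] at h; exact h
  have k2 : l.2 = 0 := by
    rcases mul_eq_zero.1 h2 with h' | h'
    · exact h'
    · exact (map_eq_zero σ).1 h'
  have k1 : l.1 = 0 := by
    rcases mul_eq_zero.1 h3 with h' | h'
    · exact h'
    · exact (map_eq_zero σ).1 h'
  exact hl (Prod.ext k1 k2)

theorem Q'_ne (hσ : ∀ a, σ (σ a) = a) {x : K} (hx : σ x ≠ x) {l : K × K} (hl : l ≠ 0) :
    Q σ (σ x) l ≠ 0 := by
  rw [← Q_conj hσ]
  exact (map_ne_zero σ).2 (Q_ne hσ hx hl)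

theorem ne_zero_of_conj {x : K} (hx : σ x ≠ x) : x ≠ 0 := by
  rintro rfl; exact hx (map_zero σ)

variable (σ)

/-- coefficient of `τ` in `be` -/
noncomputable def bet (x : K) (l : K × K) : K := (x - σ x) / x * l.1 * σ l.2 / Q σ (σ x) l

/-- coefficient of `τ²` in `be` -/
noncomputable def gam (x : K) (l : K × K) : K := - (Q σ (σ x) l / Q σ x l) / σ x

/-- `be x l = 1 + bet τ + gam τ²` -/
noncomputable def be (x : K) (l : K × K) : Sk σ := ⟨1 + C (gam σ x l) * X, C (bet σ x l)⟩

/-- the monic one, `piv x l = X + c + b τ` -/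
noncomputable def piv (x : K) (l : K × K) : Sk σ :=
  ⟨X + C (-(σ x * Q σ x l / Q σ (σ x) l)), C ((σ x - x) * l.1 * σ l.2 / Q σ x l)⟩

variable {σ}

theorem gam_ne (hσ : ∀ a, σ (σ a) = a) {x : K} (hx : σ x ≠ x) {l : K × K} (hl : l ≠ 0) :
    gam σ x l ≠ 0 := by
  have h1 := Q_ne hσ hx hl
  have h2 := Q'_ne hσ hx hl
  have h3 : σ x ≠ 0 := (map_ne_zero σ).2 (ne_zero_of_conj hx)
  rw [gam]
  exact div_ne_zero (neg_ne_zero.2 (div_ne_zero h2 h1)) h3

theorem gam_conj (hσ : ∀ a, σ (σ a) = a) (x : K) (l : K × K) :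
    σ (gam σ x l) = - (Q σ x l / Q σ (σ x) l) / x := by
  simp only [gam, map_div₀, map_neg, hσ]
  rw [Q_conj hσ, Q_conj hσ, hσ]

theorem bet_conj (hσ : ∀ a, σ (σ a) = a) (x : K) (l : K × K) :
    σ (bet σ x l) = (σ x - x) / σ x * σ l.1 * l.2 / Q σ x l := by
  simp only [bet, map_div₀, map_mul, map_sub, hσ]
  rw [Q_conj hσ, hσ]

/-- the action of `1 + b τ + g τ²` -/
theorem act_lin (x : K) (l : K × K) (g b : K) :
    act x l (⟨1 + C g * X, C b⟩ : Sk σ) =
      ((1 + σ g * x) * l.1 - x * b * l.2, (1 + g * x) * l.2 - σ b * l.1) := by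
  ext <;> simp [act]

theorem N_lin (g b : K) : N (⟨1 + C g * X, C b⟩ : Sk σ) =
    1 + C (g + σ g - b * σ b) * X + C (g * σ g) * X ^ 2 := by
  simp only [N, map_add, map_mul, map_one, sg_X, sg_C, C_sub]
  ring

theorem act_be (hσ : ∀ a, σ (σ a) = a) {x : K} (hx : σ x ≠ x) {l : K × K} (hl : l ≠ 0) :
    act x l (be σ x l) = 0 := by
  have h1 := Q_ne hσ hx hl
  have h2 := Q'_ne hσ hx hl
  have h0 := ne_zero_of_conj hx
  have h3 : σ x ≠ 0 := (map_ne_zero σ).2 h0
  rw [be, act_lin, gam_conj hσ, bet_conj hσ]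
  ext
  · simp only [bet, Prod.fst_zero]
    field_simp
    simp only [Q]
    ring
  · simp only [gam, Prod.snd_zero]
    field_simp
    simp only [Q]
    ring

theorem N_be (hσ : ∀ a, σ (σ a) = a) {x : K} (hx : σ x ≠ x) {l : K × K} (hl : l ≠ 0) :
    N (be σ x l) = C (x * σ x)⁻¹ * XX σ x := by
  have h1 := Q_ne hσ hx hl
  have h2 := Q'_ne hσ hx hl
  have h0 := ne_zero_of_conj hx
  have h3 : σ x ≠ 0 := (map_ne_zero σ).2 h0
  have e1 : gam σ x l + σ (gam σ x l) - bet σ x l * σ (bet σ x l) = -((x * σ x)⁻¹ * (x + σ x)) := by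
    rw [gam_conj hσ, bet_conj hσ]
    simp only [gam, bet]
    field_simp
    simp only [Q]
    ring
  have e2 : gam σ x l * σ (gam σ x l) = (x * σ x)⁻¹ := by
    rw [gam_conj hσ]
    simp only [gam]
    field_simp
  have e3 : (x * σ x)⁻¹ * (x * σ x) = 1 := inv_mul_cancel₀ (mul_ne_zero h0 h3)
  have e4 : (C (x * σ x)⁻¹ * (C x * C (σ x)) : K[X]) = 1 := by
    rw [← C_mul, ← C_mul, e3, C_1]
  rw [be, N_lin, e1, e2, XX]
  simp only [C_neg, C_mul, C_add] at e4 ⊢
  linear_combination (-1 : K[X]) * e4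

/-- **uniqueness**: an element `1 + b τ + g τ²` killing `l` at `x` is `be x l` -/
theorem be_unique (hσ : ∀ a, σ (σ a) = a) {x : K} (hx : σ x ≠ x) {l : K × K} (hl : l ≠ 0)
    {g b : K} (h : act x l (⟨1 + C g * X, C b⟩ : Sk σ) = 0) :
    (⟨1 + C g * X, C b⟩ : Sk σ) = be σ x l := by
  have h1 := Q_ne hσ hx hl
  have h2 := Q'_ne hσ hx hl
  have h0 := ne_zero_of_conj hx
  have h3 : σ x ≠ 0 := (map_ne_zero σ).2 h0
  have hb := act_be hσ hx hl
  rw [be, act_lin] at hb
  rw [act_lin] at h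
  have a1 := congrArg Prod.fst h
  have a2 := congrArg σ (congrArg Prod.snd h)
  have b1 := congrArg Prod.fst hb
  have b2 := congrArg σ (congrArg Prod.snd hb)
  simp only [Prod.fst_zero, Prod.snd_zero, map_sub, map_add, map_mul, map_one, map_zero, hσ]
    at a1 a2 b1 b2
  set G := gam σ x l
  set B := bet σ x l
  have k1 : x * Q σ (σ x) l * (σ g - σ G) = 0 := by
    simp only [Q]
    linear_combination σ l.1 * a1 - σ l.1 * b1 - x * l.2 * a2 + x * l.2 * b2
  have k2 : x * Q σ (σ x) l * (b - B) = 0 := by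
    simp only [Q]
    linear_combination σ x * σ l.2 * a1 - σ x * σ l.2 * b1 - x * l.1 * a2 + x * l.1 * b2
  have hne : x * Q σ (σ x) l ≠ 0 := mul_ne_zero h0 h2
  have k3 : σ g = σ G := sub_eq_zero.1 ((mul_eq_zero.1 k1).resolve_left hne)
  have k4 : b = B := sub_eq_zero.1 ((mul_eq_zero.1 k2).resolve_left hne)
  have k5 : g = G := σ.injective k3
  rw [be, k5, k4]

theorem be_coeff_zero (x : K) (l : K × K) : (be σ x l).re.coeff 0 = 1 := by
  simp [be]

theorem be_re (x : K) (l : K × K) : (be σ x l).re = 1 + C (gam σ x l) * X := rfl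
theorem be_im (x : K) (l : K × K) : (be σ x l).im = C (bet σ x l) := rfl

/-- `be` depends on the line only -/
theorem be_smul (hσ : ∀ a, σ (σ a) = a) {x : K} (hx : σ x ≠ x) {l : K × K} (hl : l ≠ 0) {c : K}
    (hc : c ≠ 0) : be σ x (c • l) = be σ x l := by
  refine be_unique hσ hx hl ?_
  have h := act_be hσ hx (smul_ne_zero hc hl)
  rw [act_smul] at h
  exact (smul_eq_zero.1 h).resolve_left hc

theorem exists_smul_of_det {l l' : K × K} (hl : l ≠ 0) (hl' : l' ≠ 0) (h : det l l' = 0) :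
    ∃ c : K, c ≠ 0 ∧ l' = c • l := by
  simp only [det] at h
  by_cases h0 : l.1 = 0
  · have h2 : l.2 ≠ 0 := fun h' => hl (Prod.ext h0 h')
    have h3 : l'.1 = 0 := by
      rw [h0, zero_mul, zero_sub, neg_eq_zero] at h
      exact (mul_eq_zero.1 h).resolve_left h2
    have h4 : l'.2 ≠ 0 := fun h' => hl' (Prod.ext h3 h')
    refine ⟨l'.2 / l.2, div_ne_zero h4 h2, Prod.ext ?_ ?_⟩
    · simp [h0, h3]
    · simp [h2]
  · have h3 : l'.1 ≠ 0 := by
      intro h3
      rw [h3, mul_zero, sub_zero] at h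
      exact hl' (Prod.ext h3 ((mul_eq_zero.1 h).resolve_left h0))
    refine ⟨l'.1 / l.1, div_ne_zero h3 h0, Prod.ext ?_ ?_⟩
    · simp [h0]
    · simp only [Prod.smul_snd, smul_eq_mul]
      field_simp
      linear_combination h

/-- two vectors killed by the same `be`-element are proportional -/
theorem det_eq_zero_of_lin (hσ : ∀ a, σ (σ a) = a) {x : K} (hx : σ x ≠ x) {g b : K}
    {l l' : K × K} (h : act x l (⟨1 + C g * X, C b⟩ : Sk σ) = 0)
    (h' : act x l' (⟨1 + C g * X, C b⟩ : Sk σ) = 0) : det l l' = 0 := by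
  rw [act_lin] at h h'
  have a1 := congrArg Prod.fst h
  have a2 := congrArg Prod.snd h
  have b1 := congrArg Prod.fst h'
  have b2 := congrArg Prod.snd h'
  simp only [Prod.fst_zero, Prod.snd_zero] at a1 a2 b1 b2
  simp only [det]
  -- multiply by each entry of the matrix
  have k1 : (1 + σ g * x) * (l.1 * l'.2 - l.2 * l'.1) = 0 := by
    linear_combination l'.2 * a1 - l.2 * b1
  have k2 : (1 + g * x) * (l.1 * l'.2 - l.2 * l'.1) = 0 := by
    linear_combination l.1 * b2 - l'.1 * a2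
  rcases mul_eq_zero.1 k1 with h1 | h1
  · rcases mul_eq_zero.1 k2 with h2 | h2
    · exfalso
      have h3 : σ (1 + σ g * x) = 0 := by rw [h1, map_zero]
      rw [map_add, map_one, map_mul, hσ] at h3
      have h4 : g * (σ x - x) = 0 := by linear_combination h3 - h2
      rcases mul_eq_zero.1 h4 with h5 | h5
      · rw [h5] at h2; simp at h2
      · exact hx (sub_eq_zero.1 h5)
    · exact h2
  · exact h1

theorem be_eq_iff (hσ : ∀ a, σ (σ a) = a) {x : K} (hx : σ x ≠ x) {l l' : K × K} (hl : l ≠ 0)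
    (hl' : l' ≠ 0) : be σ x l = be σ x l' ↔ det l l' = 0 := by
  constructor
  · intro h
    have h1 := act_be hσ hx hl
    rw [h] at h1
    exact det_eq_zero_of_lin hσ hx h1 (act_be hσ hx hl')
  · intro h
    obtain ⟨c, hc, rfl⟩ := exists_smul_of_det hl hl' h
    exact (be_smul hσ hx hl hc).symm

/-- conjugate: `conj a * a = N a` -/
theorem conj_mul (a : Sk σ) : conj a * a = ⟨N a, 0⟩ := by
  ext1
  · simp only [mul_re, conj, N]; ring
  · simp only [mul_im, conj]; ring

theorem mul_conj (hσ : ∀ a, σ (σ a) = a) (a : Sk σ) : a * conj a = ⟨N a, 0⟩ := by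
  ext1
  · simp only [mul_re, conj, N, map_neg]; ring
  · simp only [mul_im, conj, sg_sg hσ]; ring

/-- divisibility by `XX` from the vanishing of the action -/
theorem dvd_of_act (hσ : ∀ a, σ (σ a) = a) {x : K} (hx : σ x ≠ x) {a : Sk σ}
    (h : ∀ v : K × K, act x v a = 0) : Dv (XX σ x) a := by
  have h0 := ne_zero_of_conj hx
  have e1 := h (1, 0)
  have e2 := h (0, 1)
  have a1 := congrArg Prod.fst e1
  have a2 := congrArg Prod.snd e1
  have b1 := congrArg Prod.fst e2
  have b2 := congrArg Prod.snd e2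
  simp only [act, Prod.fst_zero, Prod.snd_zero, mul_one, mul_zero, sub_zero, zero_sub,
    neg_eq_zero, mul_eq_zero, h0, false_or] at a1 a2 b1 b2
  rw [eval_sg hσ] at a1 a2
  have a1' : a.re.eval (σ x) = 0 := (map_eq_zero σ).1 a1
  have a2' : a.im.eval (σ x) = 0 := (map_eq_zero σ).1 a2
  have cop : IsCoprime (X - C x) (X - C (σ x)) :=
    isCoprime_X_sub_C_of_isUnit_sub (IsUnit.mk0 _ (sub_ne_zero.2 hx.symm))
  constructor
  · exact cop.mul_dvd (dvd_iff_isRoot.2 b2) (dvd_iff_isRoot.2 a1')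
  · exact cop.mul_dvd (dvd_iff_isRoot.2 b1) (dvd_iff_isRoot.2 a2')

/-- a common killed vector and `N w (x) = 0`: `conj w * a` acts by zero -/
theorem act_conj_mul (hσ : ∀ a, σ (σ a) = a) {x : K} {l : K × K} (hl : l ≠ 0)
    {w a : Sk σ} (hw : act x l w = 0) (ha : act x l a = 0) (v : K × K) :
    act x v (conj w * a) = 0 := by
  have w1 := congrArg Prod.fst hw
  have w2 := congrArg Prod.snd hw
  have a1 := congrArg Prod.fst ha
  have a2 := congrArg Prod.snd ha
  simp only [act, Prod.fst_zero, Prod.snd_zero] at w1 w2 a1 a2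
  rw [act_mul hσ]
  simp only [act, conj, map_neg, sg_sg hσ, eval_neg]
  set R := w.re.eval x
  set R' := (sg σ w.re).eval x
  set I := w.im.eval x
  set I' := (sg σ w.im).eval x
  set A := a.re.eval x
  set A' := (sg σ a.re).eval x
  set B := a.im.eval x
  set B' := (sg σ a.im).eval x
  have key : ∀ z : K, l.1 * z = 0 → l.2 * z = 0 → z = 0 := by
    intro z h1 h2
    by_contra hz
    exact hl (Prod.ext ((mul_eq_zero.1 h1).resolve_right hz) ((mul_eq_zero.1 h2).resolve_right hz))
  ext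
  · apply key
    · simp only
      linear_combination (R * v.1 + x * I * v.2) * a1 + x * B * (v.1 * w2 - v.2 * w1)
    · simp only
      linear_combination (R' * v.2 + I' * v.1) * a1 + A' * (v.1 * w2 - v.2 * w1)
  · apply key
    · simp only
      linear_combination (R * v.1 + x * I * v.2) * a2 - A * (v.1 * w2 - v.2 * w1)
    · simp only
      linear_combination (R' * v.2 + I' * v.1) * a2 - B' * (v.1 * w2 - v.2 * w1)

/-- **division**: `{a : act x l a = 0} = be x l * Sk` -/
theorem act_eq_zero_iff (hσ : ∀ a, σ (σ a) = a) {x : K} (hx : σ x ≠ x) {l : K × K} (hl : l ≠ 0)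
    {a : Sk σ} : act x l a = 0 ↔ ∃ a' : Sk σ, a = be σ x l * a' := by
  have h0 := ne_zero_of_conj hx
  have h3 : σ x ≠ 0 := (map_ne_zero σ).2 h0
  have hn : x * σ x ≠ 0 := mul_ne_zero h0 h3
  constructor
  · intro h
    have hd := dvd_of_act hσ hx (act_conj_mul hσ hl (act_be hσ hx hl) h)
    obtain ⟨r, hr⟩ := hd.1
    obtain ⟨i, hi⟩ := hd.2
    set w := be σ x l with hw
    -- `N w * a = w * (conj w * a) = w * (XX * ⟨r, i⟩)`
    have e1 : (⟨N w, 0⟩ : Sk σ) * a = w * (conj w * a) := by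
      rw [← sk_mul_assoc hσ, mul_conj hσ]
    have e2 : conj w * a = smul (XX σ x) ⟨r, i⟩ := by
      ext1
      · exact hr
      · exact hi
    have e3 : w * smul (XX σ x) (⟨r, i⟩ : Sk σ) = smul (XX σ x) (w * ⟨r, i⟩) := by
      have := mul_smul_XX (x := x) hσ w ⟨r, i⟩ 1
      rwa [pow_one] at this
    have e4 : (⟨N w, 0⟩ : Sk σ) * a = smul (XX σ x) (⟨C (x * σ x)⁻¹, 0⟩ * a) := by
      rw [hw, N_be hσ hx hl]
      ext1
      · simp only [mul_re, smul]; ring
      · simp only [mul_im, smul]; ring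
    rw [e2, e3, e4] at e1
    have e5 := smul_inj XX_ne_zero e1
    -- multiply by the constant
    have hc : σ (x * σ x) = x * σ x := by rw [map_mul, hσ, mul_comm]
    have e6 : (C (x * σ x) * C (x * σ x)⁻¹ : K[X]) = 1 := by
      rw [← C_mul, mul_inv_cancel₀ hn, C_1]
    refine ⟨⟨C (x * σ x) * r, C (x * σ x) * i⟩, ?_⟩
    have r5 := congrArg Sk.re e5
    have i5 := congrArg Sk.im e5
    simp only [mul_re, mul_im, mul_zero, zero_mul, add_zero] at r5 i5
    have hcC : sg σ (C (x * σ x) : K[X]) = C (x * σ x) := by rw [sg_C, hc]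
    ext1
    · rw [mul_re]
      change a.re = w.re * (C (x * σ x) * r) + X * w.im * sg σ (C (x * σ x) * i)
      rw [(sg σ).map_mul, hcC]
      linear_combination C (x * σ x) * r5 - a.re * e6
    · rw [mul_im]
      change a.im = w.re * (C (x * σ x) * i) + w.im * sg σ (C (x * σ x) * r)
      rw [(sg σ).map_mul, hcC]
      linear_combination C (x * σ x) * i5 - a.im * e6
  · rintro ⟨a', rfl⟩
    rw [act_mul hσ, act_be hσ hx hl, act_zero]

/-! ### two places -/

/-- the places are not conjugate: norm of `be y m` at `x` is nonzero -/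
theorem XX_eval_ne {x y : K} (h1 : y ≠ x) (h2 : y ≠ σ x) : (XX σ x).eval y ≠ 0 := by
  simp only [XX, eval_mul, eval_sub, eval_X, eval_C]
  exact mul_ne_zero (sub_ne_zero.2 h1) (sub_ne_zero.2 h2)

theorem N_be_eval_ne (hσ : ∀ a, σ (σ a) = a) {x y : K} (hx : σ x ≠ x) (h1 : y ≠ x)
    (h2 : y ≠ σ x) {l : K × K} (hl : l ≠ 0) : (N (be σ x l)).eval y ≠ 0 := by
  rw [N_be hσ hx hl, eval_mul, eval_C]
  have h0 := ne_zero_of_conj hx
  have h3 : σ x ≠ 0 := (map_ne_zero σ).2 h0
  exact mul_ne_zero (inv_ne_zero (mul_ne_zero h0 h3)) (XX_eval_ne h1 h2)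

/-- the transported label is a line -/
theorem act_be_ne (hσ : ∀ a, σ (σ a) = a) {x y : K} (hx : σ x ≠ x) (h1 : y ≠ x)
    (h2 : y ≠ σ x) {l m : K × K} (hl : l ≠ 0) (hm : m ≠ 0) : act y m (be σ x l) ≠ 0 :=
  act_ne_zero hm (N_be_eval_ne hσ hx h1 h2 hl)

theorem act_sub (x : K) (l : K × K) (a b : Sk σ) :
    act x l (⟨a.re - b.re, a.im - b.im⟩ : Sk σ) = act x l a - act x l b := by
  ext
  · simp only [act, map_sub, eval_sub, Prod.fst_sub]; ring
  · simp only [act, map_sub, eval_sub, Prod.snd_sub]; ring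

/-- **uniqueness at two places**, constant term one and degree at most four in `τ` -/
theorem eq_of_two_places (hσ : ∀ a, σ (σ a) = a) {x y : K} (hx : σ x ≠ x) (hy : σ y ≠ y)
    (h1 : y ≠ x) (h2 : y ≠ σ x) {l m : K × K} (hl : l ≠ 0) (hm : m ≠ 0) {a b : Sk σ}
    (ha : a.re.natDegree ≤ 2) (hb : b.re.natDegree ≤ 2)
    (ha' : a.im.natDegree ≤ 1) (hb' : b.im.natDegree ≤ 1)
    (h0 : a.re.coeff 0 = b.re.coeff 0)
    (hla : act x l a = act x l b) (hma : act y m a = act y m b) : a = b := by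
  classical
  set d : Sk σ := ⟨a.re - b.re, a.im - b.im⟩ with hd
  have k1 : act x l d = 0 := by rw [hd, act_sub, hla, sub_self]
  have k2 : act y m d = 0 := by rw [hd, act_sub, hma, sub_self]
  have n1 := N_eval_eq_zero hl k1
  have n2 := N_eval_eq_zero hm k2
  have n1' : (N d).eval (σ x) = 0 := by rw [eval_N_conj hσ, n1, map_zero]
  have n2' : (N d).eval (σ y) = 0 := by rw [eval_N_conj hσ, n2, map_zero]
  have n0 : (N d).eval 0 = 0 := by
    rw [eval_N]
    have : d.re.eval 0 = 0 := by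
      rw [← coeff_zero_eq_eval_zero, hd]
      simp only [coeff_sub, h0, sub_self]
    rw [this]; ring
  have x0 := ne_zero_of_conj hx
  have y0 := ne_zero_of_conj hy
  have sx0 : σ x ≠ 0 := (map_ne_zero σ).2 x0
  have sy0 : σ y ≠ 0 := (map_ne_zero σ).2 y0
  have h3 : σ y ≠ x := fun h => h2 (by rw [← h, hσ])
  have h4 : σ y ≠ σ x := fun h => h1 (σ.injective h)
  have hz : d.re = 0 ∧ d.im = 0 := by
    apply eq_zero_of_roots ({0, x, σ x, y, σ y} : Finset K)
    · intro z hz
      simp only [Finset.mem_insert, Finset.mem_singleton] at hz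
      rcases hz with rfl | rfl | rfl | rfl | rfl
      · exact n0
      · exact n1
      · exact n1'
      · exact n2
      · exact n2'
    · have hc : ({0, x, σ x, y, σ y} : Finset K).card = 5 := by
        rw [Finset.card_insert_of_notMem, Finset.card_insert_of_notMem,
          Finset.card_insert_of_notMem, Finset.card_insert_of_notMem, Finset.card_singleton]
        · simp only [Finset.mem_singleton]; exact hy.symm
        · simp only [Finset.mem_insert, Finset.mem_singleton, not_or]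
          exact ⟨fun h => h2 h.symm, fun h => h4 h.symm⟩
        · simp only [Finset.mem_insert, Finset.mem_singleton, not_or]
          exact ⟨fun h => hx h.symm, fun h => h1 h.symm, fun h => h3 h.symm⟩
        · simp only [Finset.mem_insert, Finset.mem_singleton, not_or]
          exact ⟨fun h => x0 h.symm, fun h => sx0 h.symm, fun h => y0 h.symm, fun h => sy0 h.symm⟩
      rw [hc]
      refine lt_of_le_of_lt (natDegree_N_le (n := 2) (m := 1) ?_ ?_ 4 (by norm_num)
        (by norm_num)) (by norm_num)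
      · exact (natDegree_sub_le _ _).trans (max_le ha hb)
      · exact (natDegree_sub_le _ _).trans (max_le ha' hb')
  ext1
  · exact sub_eq_zero.1 hz.1
  · exact sub_eq_zero.1 hz.2

theorem natDegree_lin_le (g : K) : (1 + C g * X : K[X]).natDegree ≤ 1 := by
  compute_degree

theorem be_mul_re_deg (x y : K) (l m : K × K) : (be σ x l * be σ y m).re.natDegree ≤ 2 := by
  simp only [mul_re, be, sg_C]
  compute_degree

theorem be_mul_im_deg (x y : K) (l m : K × K) : (be σ x l * be σ y m).im.natDegree ≤ 1 := by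
  simp only [mul_im, be, map_add, map_mul, map_one, sg_C, sg_X]
  compute_degree

theorem be_mul_coeff (x y : K) (l m : K × K) : (be σ x l * be σ y m).re.coeff 0 = 1 := by
  rw [coeff_zero_eq_eval_zero]
  simp [mul_re, be]

/-- **THE EXCHANGE LAW** -/
theorem exchange (hσ : ∀ a, σ (σ a) = a) {x y : K} (hx : σ x ≠ x) (hy : σ y ≠ y)
    (h1 : y ≠ x) (h2 : y ≠ σ x) {l m : K × K} (hl : l ≠ 0) (hm : m ≠ 0) :
    be σ x l * be σ y (act y m (be σ x l)) = be σ y m * be σ x (act x l (be σ y m)) := by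
  have h3 : x ≠ σ y := fun h => h2 (by rw [h, hσ])
  refine eq_of_two_places hσ hx hy h1 h2 hl hm (be_mul_re_deg _ _ _ _) (be_mul_re_deg _ _ _ _)
    (be_mul_im_deg _ _ _ _) (be_mul_im_deg _ _ _ _) ?_ ?_ ?_
  · rw [be_mul_coeff, be_mul_coeff]
  · rw [act_mul hσ, act_mul hσ, act_be hσ hx hl, act_zero,
      act_be hσ hx (act_be_ne hσ hy h1.symm h3 hm hl)]
  · rw [act_mul hσ, act_mul hσ, act_be hσ hy hm, act_zero,
      act_be hσ hy (act_be_ne hσ hx h1 h2 hl hm)]

theorem sub_mul_eq {a a' b b' p q : Sk σ} (h : a * q = b * p) (h' : a' * q = b' * p) :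
    (⟨a.re - a'.re, a.im - a'.im⟩ : Sk σ) * q = ⟨b.re - b'.re, b.im - b'.im⟩ * p := by
  have r1 := congrArg Sk.re h
  have r2 := congrArg Sk.re h'
  have i1 := congrArg Sk.im h
  have i2 := congrArg Sk.im h'
  rw [mul_re, mul_re] at r1 r2
  rw [mul_im, mul_im] at i1 i2
  ext1
  · rw [mul_re, mul_re]
    linear_combination r1 - r2
  · rw [mul_im, mul_im]
    linear_combination i1 - i2

theorem be_sub (x : K) (l l' : K × K) :
    (⟨(be σ x l).re - (be σ x l').re, (be σ x l).im - (be σ x l').im⟩ : Sk σ) =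
      ⟨C (gam σ x l - gam σ x l') * X, C (bet σ x l - bet σ x l')⟩ := by
  ext1
  · simp only [be_re, C_sub]; ring
  · simp only [be_im, C_sub]

/-- **injectivity on pairs of lines** -/
theorem inj_pair (hσ : ∀ a, σ (σ a) = a) {x y : K} (hx : σ x ≠ x) (hy : σ y ≠ y)
    (h1 : y ≠ x) (h2 : y ≠ σ x) {l m l' m' : K × K} (hl : l ≠ 0) (hm : m ≠ 0)
    (hl' : l' ≠ 0) (hm' : m' ≠ 0)
    (e1 : det (act x l (be σ y m)) (act x l' (be σ y m')) = 0)
    (e2 : det (act y m (be σ x l)) (act y m' (be σ x l')) = 0) :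
    det l l' = 0 ∧ det m m' = 0 := by
  have h3 : x ≠ σ y := fun h => h2 (by rw [h, hσ])
  have a1 := (be_eq_iff hσ hx (act_be_ne hσ hy h1.symm h3 hm hl)
    (act_be_ne hσ hy h1.symm h3 hm' hl')).2 e1
  have a2 := (be_eq_iff hσ hy (act_be_ne hσ hx h1 h2 hl hm)
    (act_be_ne hσ hx h1 h2 hl' hm')).2 e2
  have b1 := exchange hσ hx hy h1 h2 hl hm
  have b2 := exchange hσ hx hy h1 h2 hl' hm'
  rw [← a1, ← a2] at b2
  set p := be σ x (act x l (be σ y m)) with hp
  set q := be σ y (act y m (be σ x l)) with hq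
  -- `(be x l - be x l') * q = (be y m - be y m') * p`
  set u : K := gam σ x l - gam σ x l' with hu
  set v : K := bet σ x l - bet σ x l' with hv
  set u' : K := gam σ y m - gam σ y m' with hu'
  set v' : K := bet σ y m - bet σ y m' with hv'
  set e : Sk σ := ⟨C u * X, C v⟩ with he
  set f : Sk σ := ⟨C u' * X, C v'⟩ with hf
  have k : e * q = f * p := by
    have := sub_mul_eq b1 b2
    rwa [be_sub, be_sub] at this
  have kN := congrArg N k
  rw [N_mul hσ, N_mul hσ, hp, hq, N_be hσ hx (act_be_ne hσ hy h1.symm h3 hm hl),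
    N_be hσ hy (act_be_ne hσ hx h1 h2 hl hm)] at kN
  have Ne : N e = C (u * σ u) * X ^ 2 - C (v * σ v) * X := by
    rw [he]; simp only [N, map_mul, sg_C, sg_X]; ring
  have x0 := ne_zero_of_conj hx
  have y0 := ne_zero_of_conj hy
  have sx0 : σ x ≠ 0 := (map_ne_zero σ).2 x0
  have sy0 : σ y ≠ 0 := (map_ne_zero σ).2 y0
  have zx : (N e).eval x = 0 := by
    have := congrArg (eval x) kN
    rw [eval_mul, eval_mul, eval_mul, eval_mul, eval_C, eval_C] at this
    have hxx : (XX σ x).eval x = 0 := by simp [XX]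
    rw [hxx, mul_zero, mul_zero, mul_eq_zero, mul_eq_zero] at this
    rcases this with h | h | h
    · exact h
    · exact absurd h (inv_ne_zero (mul_ne_zero y0 sy0))
    · exact absurd h (XX_eval_ne h1.symm h3)
  have zsx : (N e).eval (σ x) = 0 := by rw [eval_N_conj hσ, zx, map_zero]
  have z1 : u * σ u * x - v * σ v = 0 := by
    rw [Ne] at zx
    simp only [eval_sub, eval_mul, eval_C, eval_pow, eval_X] at zx
    have : x * (u * σ u * x - v * σ v) = 0 := by linear_combination zx
    exact (mul_eq_zero.1 this).resolve_left x0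
  have z2 : u * σ u * σ x - v * σ v = 0 := by
    rw [Ne] at zsx
    simp only [eval_sub, eval_mul, eval_C, eval_pow, eval_X] at zsx
    have : σ x * (u * σ u * σ x - v * σ v) = 0 := by linear_combination zsx
    exact (mul_eq_zero.1 this).resolve_left sx0
  have z3 : u * σ u = 0 := by
    have : (u * σ u) * (σ x - x) = 0 := by linear_combination z2 - z1
    exact (mul_eq_zero.1 this).resolve_right (sub_ne_zero.2 hx)
  have z4 : v * σ v = 0 := by rw [z3] at z1; simpa using z1
  have u0 : u = 0 := by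
    rcases mul_eq_zero.1 z3 with h | h
    · exact h
    · exact (map_eq_zero σ).1 h
  have v0 : v = 0 := by
    rcases mul_eq_zero.1 z4 with h | h
    · exact h
    · exact (map_eq_zero σ).1 h
  have bx : be σ x l = be σ x l' := by
    rw [be, be, sub_eq_zero.1 u0, sub_eq_zero.1 v0]
  have dl := (be_eq_iff hσ hx hl hl').1 bx
  refine ⟨dl, ?_⟩
  -- now `m`, `m'` : their images under the same injective map are proportional
  rw [← bx, det_act] at e2
  exact (mul_eq_zero.1 e2).resolve_left (N_be_eval_ne hσ hx h1 h2 hl)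

/-! ### the general commutation lemma (223 (T4)) -/

/-- for `w` with `N w (x) ≠ 0` : `w * be x (l.w) = be x l * w'` -/
theorem comm_gen (hσ : ∀ a, σ (σ a) = a) {x : K} (hx : σ x ≠ x) {l : K × K} (hl : l ≠ 0)
    {w : Sk σ} (hw : (N w).eval x ≠ 0) :
    ∃ w' : Sk σ, w * be σ x (act x l w) = be σ x l * w' ∧ N w' = N w ∧
      w'.re.coeff 0 = w.re.coeff 0 := by
  have h := act_ne_zero hl hw
  have h0 := ne_zero_of_conj hx
  have h3 : σ x ≠ 0 := (map_ne_zero σ).2 h0
  obtain ⟨w', hw'⟩ := (act_eq_zero_iff hσ hx hl (a := w * be σ x (act x l w))).1 (by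
    rw [act_mul hσ, act_be hσ hx h])
  refine ⟨w', hw', ?_, ?_⟩
  · have e := congrArg N hw'
    rw [N_mul hσ, N_mul hσ, N_be hσ hx h, N_be hσ hx hl, mul_comm] at e
    have hne : (C (x * σ x)⁻¹ * XX σ x : K[X]) ≠ 0 :=
      mul_ne_zero (C_ne_zero.2 (inv_ne_zero (mul_ne_zero h0 h3))) XX_ne_zero
    exact (mul_left_cancel₀ hne e).symm
  · have e := congrArg (fun a : Sk σ => a.re.coeff 0) hw'
    simp only [mul_re, be_re, be_im, coeff_zero_eq_eval_zero, eval_add, eval_mul, eval_X, eval_one,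
      eval_C, mul_zero, zero_mul, add_zero, mul_one, one_mul] at e ⊢
    exact e.symm

/-! ### the monic version, and 820's `IsPi` -/

theorem piv_eq (hσ : ∀ a, σ (σ a) = a) {x : K} (hx : σ x ≠ x) {l : K × K} (hl : l ≠ 0) :
    piv σ x l = be σ x l * ⟨C (gam σ x l)⁻¹, 0⟩ := by
  have h1 := Q_ne hσ hx hl
  have h2 := Q'_ne hσ hx hl
  have h0 := ne_zero_of_conj hx
  have h3 : σ x ≠ 0 := (map_ne_zero σ).2 h0
  have hg := gam_ne hσ hx hl
  have e1 : (C (gam σ x l) * C (gam σ x l)⁻¹ : K[X]) = 1 := by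
    rw [← C_mul, mul_inv_cancel₀ hg, C_1]
  have e2 : -(σ x * Q σ x l / Q σ (σ x) l) = (gam σ x l)⁻¹ := by
    rw [gam]; field_simp
  have e3 : (σ x - x) * l.1 * σ l.2 / Q σ x l = bet σ x l * σ (gam σ x l)⁻¹ := by
    rw [map_inv₀, gam_conj hσ, bet]; field_simp; ring
  ext1
  · simp only [piv, mul_re, be_re, be_im, map_zero, mul_zero, add_zero]
    rw [e2]
    linear_combination (-X : K[X]) * e1
  · simp only [piv, mul_im, be_re, be_im, sg_C, mul_zero, zero_add]
    rw [e3, C_mul]

theorem act_piv (hσ : ∀ a, σ (σ a) = a) {x : K} (hx : σ x ≠ x) {l : K × K} (hl : l ≠ 0) :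
    act x l (piv σ x l) = 0 := by
  rw [piv_eq hσ hx hl, act_mul hσ, act_be hσ hx hl, act_zero]

theorem N_const (c : K) : N (⟨C c, 0⟩ : Sk σ) = C (c * σ c) := by
  simp [N]

theorem N_piv (hσ : ∀ a, σ (σ a) = a) {x : K} (hx : σ x ≠ x) {l : K × K} (hl : l ≠ 0) :
    N (piv σ x l) = XX σ x := by
  have h1 := Q_ne hσ hx hl
  have h2 := Q'_ne hσ hx hl
  have h0 := ne_zero_of_conj hx
  have h3 : σ x ≠ 0 := (map_ne_zero σ).2 h0
  rw [piv_eq hσ hx hl, N_mul hσ, N_be hσ hx hl, N_const, mul_right_comm, ← C_mul]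
  have : (x * σ x)⁻¹ * ((gam σ x l)⁻¹ * σ (gam σ x l)⁻¹) = 1 := by
    rw [map_inv₀, gam_conj hσ, gam]
    field_simp
  rw [this, C_1, one_mul]

theorem isPi_piv (hσ : ∀ a, σ (σ a) = a) {x : K} (hx : σ x ≠ x) {l : K × K} (hl : l ≠ 0) :
    IsPi σ x (piv σ x l) := ⟨_, _, rfl, N_piv hσ hx hl⟩

/-- every `IsPi` is a `piv` -/
theorem exists_piv (hσ : ∀ a, σ (σ a) = a) {x : K} (hx : σ x ≠ x) {w : Sk σ}
    (hw : IsPi σ x w) : ∃ l : K × K, l ≠ 0 ∧ act x l w = 0 ∧ w = piv σ x l := by
  obtain ⟨c, b, rfl, hn⟩ := hw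
  have h0 := ne_zero_of_conj hx
  have hx0 : (N (⟨X + C c, C b⟩ : Sk σ)).eval x = 0 := by rw [hn]; simp [XX]
  rw [eval_N] at hx0
  simp only [map_add, sg_X, sg_C, eval_add, eval_X, eval_C] at hx0
  have hl : ((x * b, x + σ c) : K × K) ≠ 0 ∨ ((x + c, σ b) : K × K) ≠ 0 := by
    by_contra hcon
    rw [not_or, not_not, not_not] at hcon
    obtain ⟨e1, e2⟩ := hcon
    have f1 : x + σ c = 0 := congrArg Prod.snd e1
    have f2 : x + c = 0 := congrArg Prod.fst e2
    have f3 : σ x + σ c = 0 := by rw [← map_add, f2, map_zero]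
    exact hx (by linear_combination f3 - f1)
  have key : ∃ l : K × K, l ≠ 0 ∧ act x l (⟨X + C c, C b⟩ : Sk σ) = 0 := by
    rcases hl with hl | hl
    · refine ⟨_, hl, ?_⟩
      ext
      · simp only [act, map_add, sg_X, sg_C, eval_add, eval_X, eval_C, Prod.fst_zero]; ring
      · simp only [act, sg_C, eval_add, eval_X, eval_C, Prod.snd_zero]
        linear_combination hx0
    · refine ⟨_, hl, ?_⟩
      ext
      · simp only [act, map_add, sg_X, sg_C, eval_add, eval_X, eval_C, Prod.fst_zero]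
        linear_combination hx0
      · simp only [act, sg_C, eval_add, eval_X, eval_C, Prod.snd_zero]; ring
  obtain ⟨l, hl0, hl1⟩ := key
  refine ⟨l, hl0, hl1, ?_⟩
  obtain ⟨a', ha'⟩ := (act_eq_zero_iff hσ hx hl0).1 hl1
  -- direct: both killed by `l`, solve the linear system
  have hp := act_piv hσ hx hl0
  have a1 := congrArg Prod.fst hl1
  have a2 := congrArg σ (congrArg Prod.snd hl1)
  have b1 := congrArg Prod.fst hp
  have b2 := congrArg σ (congrArg Prod.snd hp)
  simp only [act, piv, map_add, map_sub, map_mul, sg_X, sg_C, eval_add, eval_X, eval_C,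
    Prod.fst_zero, Prod.snd_zero, map_zero, hσ] at a1 a2 b1 b2
  have h1 := Q_ne hσ hx hl0
  rw [piv]
  set G : K := -(σ x * Q σ x l / Q σ (σ x) l)
  set B : K := (σ x - x) * l.1 * σ l.2 / Q σ x l
  have k1 : Q σ x l * (σ c - σ G) = 0 := by
    simp only [Q]
    linear_combination σ l.1 * a1 - σ l.1 * b1 - x * l.2 * a2 + x * l.2 * b2
  have k2 : Q σ x l * (b - B) = 0 := by
    simp only [Q]
    linear_combination σ l.2 * a1 - σ l.2 * b1 - l.1 * a2 + l.1 * b2
  have k3 : σ c = σ G := sub_eq_zero.1 ((mul_eq_zero.1 k1).resolve_left h1)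
  have k4 : b = B := sub_eq_zero.1 ((mul_eq_zero.1 k2).resolve_left h1)
  rw [σ.injective k3, k4]

end be

end Crest.Agent.R289.Exch745
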