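import Mathlib

/-!
# B1a: the trace method on a finite group (row 289, block B)

`G` a finite group, `A` a positive semidefinite matrix on `ℂ^G` with `A (g x) (g y) = A x y`
(a convolution operator from the right), `W` a space of functions on `G`, stable under left
translations and under `A`.  If every nonzero left-translation-stable `V ≤ W` has dimension
`≥ D`, then every eigenvalue `ν` of `A` on `W` has multiplicity `≥ D` in `A`, hence
`D ν^l ≤ trace (A^l) = |G| (A^l) 1 1`; so `|G| (A^l) 1 1 ≤ D μ^l` gives `A ≤ μ` on `W`.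
-/

namespace Crest.Agent.R289.TraceM962

open Module.End
open scoped InnerProductSpace Matrix ComplexOrder

section abstract_part

variable {E : Type*} [NormedAddCommGroup E] [InnerProductSpace ℂ E] [FiniteDimensional ℂ E]

omit [FiniteDimensional ℂ E] in
lemma pow_apply_eig {T : E →ₗ[ℂ] E} {c : ℂ} {v : E} (h : T v = c • v) (l : ℕ) :
    (T ^ l) v = c ^ l • v := by
  induction l with
  | zero => simp
  | succ n ih => rw [pow_succ, Module.End.mul_apply, h, map_smul, ih, smul_smul, pow_succ, mul_comm]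

lemma re_trace_pow {T : E →ₗ[ℂ] E} (hT : T.IsSymmetric) {n : ℕ}
    (hn : Module.finrank ℂ E = n) (l : ℕ) :
    (LinearMap.trace ℂ E (T ^ l)).re = ∑ i, (hT.eigenvalues hn i) ^ l := by
  rw [LinearMap.trace_eq_sum_inner _ (hT.eigenvectorBasis hn), Complex.re_sum]
  refine Finset.sum_congr rfl fun i _ => ?_
  rw [pow_apply_eig (hT.apply_eigenvectorBasis hn i), inner_smul_right,
    (hT.eigenvectorBasis hn).inner_eq_one, mul_one]
  norm_cast

/-- every eigenvalue bounded by `μ` gives the quadratic form bounded by `μ`. -/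
lemma re_inner_le {T : E →ₗ[ℂ] E} (hT : T.IsSymmetric) {μ : ℝ}
    (h : ∀ ν : ℝ, HasEigenvalue T (ν : ℂ) → ν ≤ μ) (f : E) :
    (⟪f, T f⟫_ℂ).re ≤ μ * ‖f‖ ^ 2 := by
  have hn : Module.finrank ℂ E = Module.finrank ℂ E := rfl
  set b := hT.eigenvectorBasis hn with hb
  have h1 : ⟪f, T f⟫_ℂ = ∑ i, ((hT.eigenvalues hn i * ‖b.repr f i‖ ^ 2 : ℝ) : ℂ) := by
    rw [← b.repr.inner_map_map f (T f)]
    rw [PiLp.inner_apply]
    refine Finset.sum_congr rfl fun i _ => ?_
    have h0 : b.repr (T f) i = ((hT.eigenvalues hn i : ℝ) : ℂ) * b.repr f i :=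
      hT.eigenvectorBasis_apply_self_apply hn f i
    rw [h0, RCLike.inner_apply]
    have : (b.repr f i) * (starRingEnd ℂ) (b.repr f i) = ((‖b.repr f i‖ ^ 2 : ℝ) : ℂ) := by
      rw [Complex.mul_conj, Complex.normSq_eq_norm_sq]
    rw [mul_assoc, this]
    push_cast
    rfl
  have h2 : ‖f‖ ^ 2 = ∑ i, ‖b.repr f i‖ ^ 2 := by
    rw [← b.repr.norm_map f, EuclideanSpace.norm_sq_eq]
  rw [h1, ← Complex.ofReal_sum, Complex.ofReal_re, h2, Finset.mul_sum]
  refine Finset.sum_le_sum fun i _ => ?_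
  exact mul_le_mul_of_nonneg_right (h _ (hT.hasEigenvalue_eigenvalues hn i)) (by positivity)

/-- the multiplicity of an eigenvalue times its `l`-th power is at most the trace. -/
lemma mult_mul_pow_le {T : E →ₗ[ℂ] E} (hT : T.IsPositive) (ν : ℝ) (l : ℕ) :
    (Module.finrank ℂ (eigenspace T (ν : ℂ)) : ℝ) * ν ^ l ≤ (LinearMap.trace ℂ E (T ^ l)).re := by
  have hn : Module.finrank ℂ E = Module.finrank ℂ E := rfl
  have hS := hT.isSymmetric
  have hpos : ∀ i, 0 ≤ hS.eigenvalues hn i := fun i => hT.nonneg_eigenvalues hn i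
  rw [re_trace_pow hS hn, ← hS.card_filter_eigenvalues_eq hn (ν : ℂ)]
  calc (Finset.card {i | ((hS.eigenvalues hn i : ℝ) : ℂ) = (ν : ℂ)} : ℝ) * ν ^ l
      = ∑ i ∈ Finset.univ.filter (fun i => ((hS.eigenvalues hn i : ℝ) : ℂ) = (ν : ℂ)),
          (hS.eigenvalues hn i) ^ l := by
        rw [Finset.sum_congr rfl (g := fun _ => ν ^ l), Finset.sum_const, nsmul_eq_mul]
        intro i hi
        rw [Finset.mem_filter] at hi
        rw [Complex.ofReal_injective hi.2]
    _ ≤ ∑ i, (hS.eigenvalues hn i) ^ l :=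
        Finset.sum_le_sum_of_subset_of_nonneg (Finset.filter_subset _ _)
          fun i _ _ => pow_nonneg (hpos i) l

/-- Abstract trace method. -/
theorem abstract_trace {T : E →ₗ[ℂ] E} (hT : T.IsPositive) (W : Submodule ℂ E)
    (hW : ∀ f ∈ W, T f ∈ W) {D μ : ℝ} (hD : 0 < D) (hμ : 0 ≤ μ) {l : ℕ} (hl : l ≠ 0)
    (hmult : ∀ ν : ℝ, (W ⊓ eigenspace T (ν : ℂ)) ≠ ⊥ →
      D ≤ (Module.finrank ℂ (W ⊓ eigenspace T (ν : ℂ) : Submodule ℂ E) : ℝ))
    (htr : (LinearMap.trace ℂ E (T ^ l)).re ≤ D * μ ^ l) (f : E) (hf : f ∈ W) :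
    (⟪f, T f⟫_ℂ).re ≤ μ * ‖f‖ ^ 2 := by
  have hS := hT.isSymmetric
  have hSW := hS.restrict_invariant hW
  have key : ∀ ν : ℝ, HasEigenvalue (T.restrict hW) (ν : ℂ) → ν ≤ μ := by
    intro ν hν
    obtain ⟨v, hv⟩ := hν.exists_hasEigenvector
    have hv1 : T v = (ν : ℂ) • (v : E) := by
      have := congrArg Subtype.val hv.apply_eq_smul
      simpa using this
    have hv0 : (v : E) ≠ 0 := fun h => hv.2 (Subtype.ext h)
    have hne : (W ⊓ eigenspace T (ν : ℂ)) ≠ ⊥ := by
      intro hbot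
      have : (v : E) ∈ (W ⊓ eigenspace T (ν : ℂ)) := ⟨v.2, mem_eigenspace_iff.mpr hv1⟩
      rw [hbot] at this
      exact hv0 ((Submodule.mem_bot ℂ).mp this)
    have h1 := hmult ν hne
    have h2 : (Module.finrank ℂ (W ⊓ eigenspace T (ν : ℂ) : Submodule ℂ E) : ℝ) ≤
        (Module.finrank ℂ (eigenspace T (ν : ℂ)) : ℝ) := by
      exact_mod_cast Submodule.finrank_mono inf_le_right
    have hν0 : 0 ≤ ν :=
      _root_.eigenvalue_nonneg_of_nonneg (T := T)
        (hasEigenvalue_of_hasEigenvector ⟨mem_eigenspace_iff.mpr hv1, hv0⟩)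
        (fun x => hT.re_inner_nonneg_right x)
    have h3 : D * ν ^ l ≤ D * μ ^ l :=
      (mul_le_mul_of_nonneg_right (h1.trans h2) (pow_nonneg hν0 l)).trans
        ((mult_mul_pow_le hT ν l).trans htr)
    have h4 : ν ^ l ≤ μ ^ l := le_of_mul_le_mul_left h3 hD
    exact (pow_le_pow_iff_left₀ hν0 hμ hl).mp h4
  have := re_inner_le hSW key ⟨f, hf⟩
  simpa using this

end abstract_part

section matrix_part

variable {G : Type*} [Group G] [Fintype G] [DecidableEq G]

/-- `A` commutes with left translations. -/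
def LInv (A : Matrix G G ℂ) : Prop := ∀ g x y : G, A (g * x) (g * y) = A x y

/-- `W` is stable under left translations. -/
def LStable (W : Submodule ℂ (G → ℂ)) : Prop := ∀ g : G, ∀ f ∈ W, (fun x => f (g * x)) ∈ W

omit [DecidableEq G] in
lemma LInv.mul {A B : Matrix G G ℂ} (hA : LInv A) (hB : LInv B) : LInv (A * B) := by
  intro g x y
  rw [Matrix.mul_apply, Matrix.mul_apply]
  rw [← Equiv.sum_comp (Equiv.mulLeft g)]
  refine Finset.sum_congr rfl fun z _ => ?_
  simp only [Equiv.coe_mulLeft]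
  rw [hA, hB]

omit [Fintype G] in
lemma LInv.one : LInv (1 : Matrix G G ℂ) := by
  intro g x y
  simp [Matrix.one_apply]

lemma LInv.pow {A : Matrix G G ℂ} (hA : LInv A) (l : ℕ) : LInv (A ^ l) := by
  induction l with
  | zero => simpa using LInv.one
  | succ n ih => rw [pow_succ]; exact ih.mul hA

omit [DecidableEq G] in
lemma LInv.trace {A : Matrix G G ℂ} (hA : LInv A) : A.trace = (Fintype.card G : ℂ) * A 1 1 := by
  rw [Matrix.trace]
  have : ∀ x : G, A.diag x = A 1 1 := fun x => by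
    have := hA x 1 1
    simpa [Matrix.diag_apply] using this
  rw [Finset.sum_congr rfl fun x _ => this x, Finset.sum_const, nsmul_eq_mul, Finset.card_univ]

omit [DecidableEq G] in
lemma LInv.mulVec {A : Matrix G G ℂ} (hA : LInv A) (g : G) (f : G → ℂ) :
    A *ᵥ (fun x => f (g * x)) = fun x => (A *ᵥ f) (g * x) := by
  funext x
  simp only [Matrix.mulVec, dotProduct]
  rw [← Equiv.sum_comp (Equiv.mulLeft g) (fun y => A (g * x) y * f y)]
  refine Finset.sum_congr rfl fun y _ => ?_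
  simp only [Equiv.coe_mulLeft]
  rw [hA]

/-- **B1a, matrix form.** -/
theorem trace_method (A : Matrix G G ℂ) (hA : A.PosSemidef) (hinv : LInv A)
    (W : Submodule ℂ (G → ℂ)) (hWl : LStable W) (hWA : ∀ f ∈ W, A *ᵥ f ∈ W)
    {D μ : ℝ} (hD : 0 < D) (hμ : 0 ≤ μ) {l : ℕ} (hl : l ≠ 0)
    (hmult : ∀ V : Submodule ℂ (G → ℂ), V ≤ W → V ≠ ⊥ → LStable V →
      D ≤ (Module.finrank ℂ V : ℝ))
    (hcount : (Fintype.card G : ℝ) * ((A ^ l) 1 1).re ≤ D * μ ^ l)
    (f : G → ℂ) (hf : f ∈ W) :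
    (star f ⬝ᵥ A *ᵥ f).re ≤ μ * ∑ x, ‖f x‖ ^ 2 := by
  set T : EuclideanSpace ℂ G →ₗ[ℂ] EuclideanSpace ℂ G := A.toEuclideanLin with hTdef
  have hT : T.IsPositive := Matrix.isPositive_toEuclideanLin_iff.mpr hA
  let e : EuclideanSpace ℂ G ≃ₗ[ℂ] (G → ℂ) := WithLp.linearEquiv 2 ℂ (G → ℂ)
  have heT : ∀ v, e (T v) = A *ᵥ (e v) := fun v => rfl
  let W' : Submodule ℂ (EuclideanSpace ℂ G) := W.comap e.toLinearMap
  have hW' : ∀ v ∈ W', T v ∈ W' := by
    intro v hv
    change e (T v) ∈ W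
    rw [heT]
    exact hWA _ hv
  have htr : (LinearMap.trace ℂ _ (T ^ l)).re ≤ D * μ ^ l := by
    have h1 : T ^ l = (A ^ l).toEuclideanLin := (Matrix.toLpLin_pow 2 A l).symm
    have h2 : LinearMap.trace ℂ _ ((A ^ l).toEuclideanLin) = (A ^ l).trace := by
      rw [Matrix.toEuclideanLin_eq_toLin_orthonormal, Matrix.trace_toLin_eq]
    rw [h1, h2, (hinv.pow l).trace, ← Complex.ofReal_natCast, Complex.re_ofReal_mul]
    exact hcount
  have key := abstract_trace hT W' hW' hD hμ hl ?_ htr (WithLp.toLp 2 f) hf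
  · have hn : ‖(WithLp.toLp 2 f : EuclideanSpace ℂ G)‖ ^ 2 = ∑ x, ‖f x‖ ^ 2 := by
      rw [EuclideanSpace.norm_sq_eq]
    have hi : ⟪(WithLp.toLp 2 f : EuclideanSpace ℂ G), T (WithLp.toLp 2 f)⟫_ℂ
        = star f ⬝ᵥ A *ᵥ f := by
      rw [EuclideanSpace.inner_eq_star_dotProduct, dotProduct_comm]
      rfl
    rw [hn, hi] at key
    exact key
  · intro ν hne
    set V' : Submodule ℂ (EuclideanSpace ℂ G) := W' ⊓ eigenspace T (ν : ℂ) with hV'
    have hfin : Module.finrank ℂ (V'.map e.toLinearMap) = Module.finrank ℂ V' :=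
      LinearEquiv.finrank_map_eq e V'
    rw [← hfin]
    apply hmult
    · rintro _ ⟨v, hv, rfl⟩
      exact hv.1
    · intro hbot
      apply hne
      rw [Submodule.eq_bot_iff] at hbot ⊢
      intro v hv
      have := hbot (e v) ⟨v, hv, rfl⟩
      exact e.map_eq_zero_iff.mp this
    · rintro g _ ⟨v, hv, rfl⟩
      refine ⟨e.symm (fun x => (e v) (g * x)), ⟨?_, ?_⟩, ?_⟩
      · change e (e.symm (fun x => (e v) (g * x))) ∈ W
        rw [LinearEquiv.apply_symm_apply]
        exact hWl g _ hv.1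
      · have h1 : T v = (ν : ℂ) • v := mem_eigenspace_iff.mp hv.2
        apply mem_eigenspace_iff.mpr
        apply e.injective
        rw [heT, LinearEquiv.apply_symm_apply, hinv.mulVec, map_smul, LinearEquiv.apply_symm_apply]
        have h2 : A *ᵥ (e v) = (ν : ℂ) • e v := by rw [← heT, h1, map_smul]
        rw [h2]
        rfl
      · simp

/-- `Σ_{s ∈ S} f (g s)` : the adjacency operator of a multiset of right multiplications. -/
def adj {ι : Type*} [Fintype ι] (s : ι → G) (f : G → ℂ) : G → ℂ := fun g => ∑ i, f (g * s i)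

/-- the matrix of `M* M`, `M = adj s`: `f ↦ Σ_{i,j} f (g s_i^{-1} s_j)`. -/
def gram {ι : Type*} [Fintype ι] (s : ι → G) : Matrix G G ℂ :=
  fun x y => ∑ i, ∑ j, if x * (s i)⁻¹ * s j = y then 1 else 0

/-- the matrix of `M = adj s`. -/
def adjMat {ι : Type*} [Fintype ι] (s : ι → G) : Matrix G G ℂ :=
  fun x y => ∑ i, if x * s i = y then 1 else 0

variable {ι : Type*} [Fintype ι]

lemma adjMat_mulVec (s : ι → G) (f : G → ℂ) : adjMat s *ᵥ f = adj s f := by
  funext x
  simp only [Matrix.mulVec, dotProduct, adjMat, adj, Finset.sum_mul, ite_mul, one_mul, zero_mul]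
  rw [Finset.sum_comm]
  simp

lemma gram_eq (s : ι → G) : gram s = (adjMat s)ᴴ * adjMat s := by
  ext x y
  rw [Matrix.mul_apply]
  simp only [Matrix.conjTranspose_apply, adjMat, gram, star_sum]
  simp only [apply_ite star, star_one, star_zero]
  have : ∀ z : G, (∑ i, if z * s i = x then (1 : ℂ) else 0) * (∑ j, if z * s j = y then (1 : ℂ) else 0)
      = ∑ i, ∑ j, if z = x * (s i)⁻¹ then (if z * s j = y then (1 : ℂ) else 0) else 0 := by
    intro z
    rw [Finset.sum_mul_sum]
    refine Finset.sum_congr rfl fun i _ => Finset.sum_congr rfl fun j _ => ?_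
    by_cases h : z * s i = x
    · have : z = x * (s i)⁻¹ := by rw [← h]; group
      rw [if_pos h, if_pos this, one_mul]
    · have : ¬ z = x * (s i)⁻¹ := fun hh => h (by rw [hh]; group)
      rw [if_neg h, if_neg this, zero_mul]
  have h2 : ∀ i j : ι, (∑ z : G, if z = x * (s i)⁻¹ then (if z * s j = y then (1 : ℂ) else 0) else 0)
      = if x * (s i)⁻¹ * s j = y then 1 else 0 := by
    intro i j
    rw [Finset.sum_ite_eq' Finset.univ (x * (s i)⁻¹)]
    simp
  calc (∑ i, ∑ j, if x * (s i)⁻¹ * s j = y then (1 : ℂ) else 0)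
      = ∑ i, ∑ j, ∑ z : G, (if z = x * (s i)⁻¹ then (if z * s j = y then (1 : ℂ) else 0) else 0) :=
        Finset.sum_congr rfl fun i _ => Finset.sum_congr rfl fun j _ => (h2 i j).symm
    _ = ∑ i, ∑ z : G, ∑ j, (if z = x * (s i)⁻¹ then (if z * s j = y then (1 : ℂ) else 0) else 0) :=
        Finset.sum_congr rfl fun i _ => Finset.sum_comm
    _ = ∑ z : G, ∑ i, ∑ j, (if z = x * (s i)⁻¹ then (if z * s j = y then (1 : ℂ) else 0) else 0) :=
        Finset.sum_comm
    _ = _ := Finset.sum_congr rfl fun z _ => (this z).symm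

lemma gram_posSemidef (s : ι → G) : (gram s).PosSemidef := by
  rw [gram_eq]
  exact Matrix.posSemidef_conjTranspose_mul_self _

omit [Fintype G] in
lemma gram_linv (s : ι → G) : LInv (gram s) := by
  intro g x y
  simp only [gram]
  refine Finset.sum_congr rfl fun i _ => Finset.sum_congr rfl fun j _ => ?_
  have : (g * x * (s i)⁻¹ * s j = g * y) ↔ (x * (s i)⁻¹ * s j = y) := by
    rw [mul_assoc, mul_assoc, mul_right_inj, mul_assoc]
  simp only [this]

/-- `(gram s)^l` at `(x, y)` counts the words `∏ s_{i_r}^{-1} s_{j_r}` with `x * word = y`. -/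
lemma gram_pow (s : ι → G) (l : ℕ) (x y : G) :
    (gram s ^ l) x y = ((Finset.univ.filter (fun w : Fin l → ι × ι =>
      x * (List.ofFn fun r => (s (w r).1)⁻¹ * s (w r).2).prod = y)).card : ℂ) := by
  induction l generalizing x with
  | zero =>
    rw [pow_zero, Matrix.one_apply]
    by_cases h : x = y <;> simp [h]
  | succ n ih =>
    rw [pow_succ', Matrix.mul_apply, Finset.card_filter, Nat.cast_sum,
      ← (Fin.consEquiv (fun _ : Fin (n + 1) => ι × ι)).sum_comp, Fintype.sum_prod_type,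
      Fintype.sum_prod_type]
    simp only [ih, gram, Finset.card_filter, Nat.cast_sum, Finset.sum_mul]
    rw [Finset.sum_comm]
    refine Finset.sum_congr rfl fun i _ => ?_
    rw [Finset.sum_comm]
    refine Finset.sum_congr rfl fun j _ => ?_
    simp only [ite_mul, one_mul, zero_mul, Finset.sum_ite_eq, Finset.mem_univ, if_true]
    refine Finset.sum_congr rfl fun w _ => ?_
    simp only [Fin.consEquiv, Equiv.coe_fn_mk, List.ofFn_succ, Fin.cons_zero, Fin.cons_succ,
      List.prod_cons, mul_assoc]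

lemma adj_normSq (s : ι → G) (f : G → ℂ) :
    ((star f ⬝ᵥ gram s *ᵥ f).re) = ∑ x, ‖adj s f x‖ ^ 2 := by
  rw [gram_eq, ← Matrix.mulVec_mulVec, Matrix.dotProduct_mulVec, Matrix.vecMul_conjTranspose,
    star_star, adjMat_mulVec]
  simp only [dotProduct, Pi.star_apply, Complex.re_sum]
  refine Finset.sum_congr rfl fun x _ => ?_
  rw [mul_comm, Complex.star_def, Complex.mul_conj, Complex.normSq_eq_norm_sq, Complex.ofReal_re]

/-- number of closed words of length `l` in the letters `s_i⁻¹ s_j`. -/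
def closedWords (s : ι → G) (l : ℕ) : ℕ :=
  (Finset.univ.filter (fun w : Fin l → ι × ι =>
      (List.ofFn fun r => (s (w r).1)⁻¹ * s (w r).2).prod = 1)).card

/-- **B1a, word form.**  `M f (g) = Σ_i f (g s_i)`; `W` stable under left translations and
under `gram s = M* M`; every nonzero left-stable `V ≤ W` has dimension `≥ D`;
`|G| * #closed words of length l ≤ D μ^l`.  Then `‖M f‖² ≤ μ ‖f‖²` on `W`. -/
theorem trace_method_words (s : ι → G)
    (W : Submodule ℂ (G → ℂ)) (hWl : LStable W) (hWA : ∀ f ∈ W, gram s *ᵥ f ∈ W)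
    {D μ : ℝ} (hD : 0 < D) (hμ : 0 ≤ μ) {l : ℕ} (hl : l ≠ 0)
    (hmult : ∀ V : Submodule ℂ (G → ℂ), V ≤ W → V ≠ ⊥ → LStable V →
      D ≤ (Module.finrank ℂ V : ℝ))
    (hcount : (Fintype.card G : ℝ) * (closedWords s l : ℝ) ≤ D * μ ^ l)
    (f : G → ℂ) (hf : f ∈ W) :
    ∑ x, ‖adj s f x‖ ^ 2 ≤ μ * ∑ x, ‖f x‖ ^ 2 := by
  rw [← adj_normSq]
  refine trace_method (gram s) (gram_posSemidef s) (gram_linv s) W hWl hWA hD hμ hl hmult ?_ f hf
  rw [gram_pow]
  simpa [closedWords] using hcount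

/-- the operators `f ↦ f (· * u)` commute with left translations; a space which is stable
under all right translations by the letters `s_i⁻¹ s_j` is stable under `gram s`. -/
lemma gram_mulVec (s : ι → G) (f : G → ℂ) :
    gram s *ᵥ f = fun x => ∑ i, ∑ j, f (x * (s i)⁻¹ * s j) := by
  funext x
  simp only [Matrix.mulVec, dotProduct, gram, Finset.sum_mul, ite_mul, one_mul, zero_mul]
  rw [Finset.sum_comm]
  refine Finset.sum_congr rfl fun i _ => ?_
  rw [Finset.sum_comm]
  refine Finset.sum_congr rfl fun j _ => ?_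
  simp

end matrix_part

end Crest.Agent.R289.TraceM962
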