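import Crest.Agent.R289.ExpCnt_820
import Crest.Agent.R289.TraceM_962

/-!
Row 289, block B1: from closed words in a group to closed walks of `Sk σ`.
-/

set_option autoImplicit false
set_option linter.unusedSectionVars false

namespace Crest.Agent.R289.Exp820

open Polynomial Sk TraceM962

section words

variable {K : Type*} [Field K] {σ : K →+* K} {x : K}
variable {ι : Type*} [Fintype ι]

/-- the list `conj π_{i_1}, π_{j_1}, conj π_{i_2}, π_{j_2}, …` of a word -/
noncomputable def wl (π : ι → Sk σ) : List (ι × ι) → List (Sk σ)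
  | [] => []
  | p :: l => conj (π p.1) :: π p.2 :: wl π l

theorem wl_length (π : ι → Sk σ) : ∀ l : List (ι × ι), (wl π l).length = 2 * l.length
  | [] => rfl
  | p :: l => by simp only [wl, List.length_cons, wl_length π l]; ring

theorem wl_mem (π : ι → Sk σ) {P : Finset (Sk σ)} (h1 : ∀ i, π i ∈ P) (h2 : ∀ i, conj (π i) ∈ P) :
    ∀ l : List (ι × ι), ∀ w ∈ wl π l, w ∈ P
  | [], w, h => by simp [wl] at h
  | p :: l, w, h => by
    simp only [wl, List.mem_cons] at h
    rcases h with rfl | rfl | h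
    · exact h2 _
    · exact h1 _
    · exact wl_mem π h1 h2 l w h

theorem conj_conj_Sk (hσ : ∀ a, σ (σ a) = a) (r : Sk σ) : conj (conj r) = r := by
  ext1
  · simp only [conj, sg_sg hσ]
  · simp only [conj, neg_neg]

theorem conj_injective (hσ : ∀ a, σ (σ a) = a) : Function.Injective (conj : Sk σ → Sk σ) :=
  fun a b h => by rw [← conj_conj_Sk hσ a, h, conj_conj_Sk hσ b]

theorem wl_injective (hσ : ∀ a, σ (σ a) = a) {π : ι → Sk σ} (hπ : Function.Injective π) :
    Function.Injective (wl π) := by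
  intro l
  induction l with
  | nil =>
    intro l' h
    cases l' with
    | nil => rfl
    | cons p l' => simp [wl] at h
  | cons p l ih =>
    intro l' h
    cases l' with
    | nil => simp [wl] at h
    | cons p' l' =>
      simp only [wl, List.cons.injEq] at h
      obtain ⟨h1, h2, h3⟩ := h
      have e1 := hπ (conj_injective hσ h1)
      have e2 := hπ h2
      rw [ih h3, Prod.ext e1 e2]

variable {M : Type*} [Monoid M] {G : Type*} [Group G] [DecidableEq G]

theorem phi_wl (hσ : ∀ a, σ (σ a) = a) {φ : Sk σ → M} (hφ1 : φ 1 = 1) (hφm : ∀ r s, φ (r * s) = φ r * φ s)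
    {e : G →* M} {s : ι → G} {π : ι → Sk σ} {z : M} (hz : ∀ m, Commute z m)
    (hs : ∀ i j, e ((s i)⁻¹ * s j) * z = φ (conj (π i) * π j)) :
    ∀ l : List (ι × ι), φ (lprod (wl π l)) =
      e ((l.map fun p => (s p.1)⁻¹ * s p.2).prod) * z ^ l.length
  | [] => by simp [wl, lprod, hφ1]
  | p :: l => by
    have ih := phi_wl hσ hφ1 hφm hz hs l
    simp only [wl, lprod, List.map_cons, List.prod_cons, List.length_cons]
    rw [← sk_mul_assoc hσ, hφm, ← hs, ih, map_mul e _ (List.prod _), pow_succ']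
    have := (hz (e ((List.map (fun p => (s p.1)⁻¹ * s p.2) l).prod))).eq
    calc e ((s p.1)⁻¹ * s p.2) * z * (e ((List.map (fun p => (s p.1)⁻¹ * s p.2) l).prod) * z ^ l.length)
        = e ((s p.1)⁻¹ * s p.2) * (z * e ((List.map (fun p => (s p.1)⁻¹ * s p.2) l).prod)) *
            z ^ l.length := by simp only [mul_assoc]
      _ = _ := by rw [this]; simp only [mul_assoc]

open scoped Classical in
/-- **closed words are closed walks** -/
theorem closedWords_le (hσ : ∀ a, σ (σ a) = a) {φ : Sk σ → M} (hφ1 : φ 1 = 1)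
    (hφm : ∀ r s, φ (r * s) = φ r * φ s) {a b : ℕ}
    (hker : ∀ r (l : ℕ), φ r = φ ⟨XX σ x ^ l, 0⟩ → X ^ a ∣ r.re - XX σ x ^ l ∧ X ^ b ∣ r.im)
    {e : G →* M} {s : ι → G} {π : ι → Sk σ} (hπ : Function.Injective π)
    (hz : ∀ m, Commute (φ ⟨XX σ x, 0⟩) m)
    (hs : ∀ i j, e ((s i)⁻¹ * s j) * φ ⟨XX σ x, 0⟩ = φ (conj (π i) * π j))
    {P : Finset (Sk σ)} (h1 : ∀ i, π i ∈ P) (h2 : ∀ i, conj (π i) ∈ P) (l : ℕ) :
    closedWords s l ≤ ((seqs P (2 * l)).filter fun L => X ^ a ∣ (lprod L).re - XX σ x ^ l ∧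
        X ^ b ∣ (lprod L).im).card := by
  have hpow : ∀ n : ℕ, φ ⟨XX σ x ^ n, 0⟩ = φ ⟨XX σ x, 0⟩ ^ n := by
    intro n
    induction n with
    | zero =>
      rw [pow_zero, pow_zero, ← hφ1]
      rfl
    | succ n ih =>
      have h : (⟨XX σ x ^ (n + 1), 0⟩ : Sk σ) = ⟨XX σ x ^ n, 0⟩ * ⟨XX σ x, 0⟩ := by
        ext1
        · simp [mul_re, pow_succ]
        · simp [mul_im]
      rw [h, hφm, ih, pow_succ]
  unfold closedWords
  refine Finset.card_le_card_of_injOn (fun w => wl π (List.ofFn w)) ?_ ?_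
  · intro w hw
    rw [Finset.mem_coe, Finset.mem_filter] at hw
    rw [Finset.mem_coe, Finset.mem_filter, mem_seqs]
    refine ⟨⟨by rw [wl_length, List.length_ofFn], wl_mem π h1 h2 _⟩, ?_⟩
    apply hker
    rw [phi_wl hσ hφ1 hφm hz hs, List.length_ofFn, hpow, List.map_ofFn]
    have : (List.ofFn ((fun p : ι × ι => (s p.1)⁻¹ * s p.2) ∘ w)).prod = 1 := hw.2
    rw [this, map_one, one_mul]
  · intro w _ w' _ h
    exact List.ofFn_injective (wl_injective hσ hπ h)

end words

section all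

open scoped Classical

variable {K : Type*} [Field K] [Fintype K] (σ : K →+* K) (x : K)

/-- all elements `(t + c) + b τ` of norm `XX` -/
noncomputable def allPi : Finset (Sk σ) :=
  ((Finset.univ : Finset (K × K)).filter fun p =>
    p.1 * σ p.1 = x * σ x ∧ p.2 * σ p.2 = p.1 + σ p.1 + (x + σ x)).image
      fun p => ⟨X + C p.1, C p.2⟩

variable {σ x}

omit [Fintype K] in
theorem N_lin (c b : K) : N (⟨X + C c, C b⟩ : Sk σ) =
    X ^ 2 + C (c + σ c - b * σ b) * X + C (c * σ c) := by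
  simp only [N, map_add, sg_X, sg_C, C_sub, C_mul]
  ring

omit [Fintype K] in
theorem XX_eq : XX σ x = X ^ 2 + C (- (x + σ x)) * X + C (x * σ x) := by
  simp only [XX, C_neg, C_add, C_mul]
  ring

omit [Fintype K] in
theorem N_lin_eq_iff (c b : K) : N (⟨X + C c, C b⟩ : Sk σ) = XX σ x ↔
    c * σ c = x * σ x ∧ b * σ b = c + σ c + (x + σ x) := by
  rw [N_lin, XX_eq]
  constructor
  · intro h
    have h0 := congrArg (fun p => coeff p 0) h
    have h1 := congrArg (fun p => coeff p 1) h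
    simp [coeff_X, coeff_C] at h0 h1
    refine ⟨h0, ?_⟩
    linear_combination -h1
  · rintro ⟨h0, h1⟩
    rw [h0]
    have : c + σ c - b * σ b = -(x + σ x) := by rw [h1]; ring
    rw [this]

theorem mem_allPi {w : Sk σ} : w ∈ allPi σ x ↔ IsPi σ x w := by
  unfold allPi IsPi
  rw [Finset.mem_image]
  constructor
  · rintro ⟨p, hp, rfl⟩
    rw [Finset.mem_filter] at hp
    exact ⟨p.1, p.2, rfl, (N_lin_eq_iff _ _).2 hp.2⟩
  · rintro ⟨c, b, rfl, h⟩
    exact ⟨(c, b), by rw [Finset.mem_filter]; exact ⟨Finset.mem_univ _, (N_lin_eq_iff _ _).1 h⟩,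
      rfl⟩

omit [Fintype K] in
theorem IsPi.conj (hσ : ∀ a, σ (σ a) = a) {w : Sk σ} (h : IsPi σ x w) : IsPi σ x (conj w) := by
  obtain ⟨c, b, rfl, h⟩ := h
  refine ⟨σ c, -b, ?_, ?_⟩
  · simp [Sk.conj]
  · rw [N_lin_eq_iff] at h
    have : (Sk.conj ⟨X + C c, C b⟩ : Sk σ) = ⟨X + C (σ c), C (-b)⟩ := by simp [Sk.conj]
    rw [this, N_lin_eq_iff, hσ]
    refine ⟨by rw [mul_comm]; exact h.1, ?_⟩
    rw [map_neg, neg_mul_neg, h.2]
    ring

theorem card_allPi (hσ : ∀ a, σ (σ a) = a) {q : ℕ} (hx : σ x ≠ x)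
    (hnm : ∀ d : K, (Finset.univ.filter fun c : K => c * σ c = d).card ≤ q + 1) :
    (allPi σ x).card ≤ q ^ 2 + 1 := by
  unfold allPi
  refine Finset.card_image_le.trans ?_
  set U : Finset K := Finset.univ.filter fun c : K => c * σ c = x * σ x with hU
  set S : Finset K := {-x, - σ x} with hS
  have hSc : S.card = 2 := by
    rw [hS, Finset.card_pair]
    intro h
    exact hx (neg_injective h).symm
  have hSU : S ⊆ U := by
    intro c hc
    rw [hS, Finset.mem_insert, Finset.mem_singleton] at hc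
    rw [hU, Finset.mem_filter]
    refine ⟨Finset.mem_univ _, ?_⟩
    rcases hc with rfl | rfl
    · rw [map_neg]; ring
    · rw [map_neg, hσ]; ring
  have hfib : ((Finset.univ : Finset (K × K)).filter fun p =>
      p.1 * σ p.1 = x * σ x ∧ p.2 * σ p.2 = p.1 + σ p.1 + (x + σ x)).card ≤
      ∑ c ∈ U, (Finset.univ.filter fun b : K => b * σ b = c + σ c + (x + σ x)).card := by
    rw [← Finset.card_sigma]
    refine Finset.card_le_card_of_injOn (fun p => ⟨p.1, p.2⟩) ?_ ?_
    · intro p hp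
      rw [Finset.mem_coe, Finset.mem_filter] at hp
      rw [Finset.mem_coe, Finset.mem_sigma, hU, Finset.mem_filter, Finset.mem_filter]
      exact ⟨⟨Finset.mem_univ _, hp.2.1⟩, Finset.mem_univ _, hp.2.2⟩
    · rintro ⟨a, b⟩ _ ⟨a', b'⟩ _ h
      simp only [Sigma.mk.injEq, heq_eq_eq] at h
      rw [h.1, h.2]
  refine hfib.trans ?_
  rw [← Finset.sum_sdiff hSU]
  have e1 : ∑ c ∈ S, (Finset.univ.filter fun b : K => b * σ b = c + σ c + (x + σ x)).card ≤
      S.card * 1 := by
    rw [← smul_eq_mul]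
    refine Finset.sum_le_card_nsmul _ _ _ fun c hc => ?_
    have h0 : c + σ c + (x + σ x) = 0 := by
      rw [hS, Finset.mem_insert, Finset.mem_singleton] at hc
      rcases hc with rfl | rfl
      · rw [map_neg]; ring
      · rw [map_neg, hσ]; ring
    rw [Finset.card_le_one]
    have hz : ∀ b : K, b * σ b = c + σ c + (x + σ x) → b = 0 := by
      intro b hb
      rw [h0] at hb
      rcases mul_eq_zero.1 hb with h | h
      · exact h
      · exact (map_eq_zero σ).1 h
    intro b hb b' hb'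
    rw [hz b (Finset.mem_filter.1 hb).2, hz b' (Finset.mem_filter.1 hb').2]
  have e2 : ∑ c ∈ U \ S, (Finset.univ.filter fun b : K => b * σ b = c + σ c + (x + σ x)).card ≤
      (U \ S).card * (q + 1) := by
    rw [← smul_eq_mul]
    exact Finset.sum_le_card_nsmul _ _ _ fun c _ => hnm _
  have e3 : (U \ S).card ≤ q - 1 := by
    rw [Finset.card_sdiff_of_subset hSU, hSc]
    have h4 : U.card ≤ q + 1 := hnm (x * σ x)
    omega
  have e4 : 1 ≤ q := by
    have h3 := Finset.card_le_card hSU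
    have h4 : U.card ≤ q + 1 := hnm (x * σ x)
    rw [hSc] at h3
    omega
  have e5 : (U \ S).card * (q + 1) ≤ (q - 1) * (q + 1) := Nat.mul_le_mul_right _ e3
  have e6 : (q - 1) * (q + 1) = q ^ 2 - 1 := by
    obtain ⟨m, rfl⟩ : ∃ m, q = m + 1 := ⟨q - 1, by omega⟩
    have : (m + 1) ^ 2 = m * (m + 2) + 1 := by ring
    rw [this, Nat.add_sub_cancel, Nat.add_sub_cancel]
  have e7 : 1 ≤ q ^ 2 := Nat.one_le_pow _ _ e4
  rw [hSc] at e1
  omega

end all

end Crest.Agent.R289.Exp820
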