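import Mathlib

/-!
Row 289, block B1 (expansion), part (I): counting closed walks.

`Sk σ` = elements `al + be τ` with `al, be` polynomials over `K`, `τ² = t`, `τ a = (σ a) τ`.
-/

set_option autoImplicit false
set_option linter.unusedSectionVars false

namespace Crest.Agent.R289.Exp820

open Polynomial

variable {K : Type*} [Field K]

/-- the element `re + im τ` -/
@[ext] structure Sk (σ : K →+* K) where
  re : K[X]
  im : K[X]

variable {σ : K →+* K}

namespace Sk

/-- `σ` on coefficients -/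
noncomputable abbrev sg (σ : K →+* K) : K[X] →+* K[X] := Polynomial.mapRingHom σ

theorem sg_sg (hσ : ∀ a, σ (σ a) = a) (p : K[X]) : sg σ (sg σ p) = p := by
  have h : σ.comp σ = RingHom.id K := by ext a; simp [hσ]
  simp only [sg, coe_mapRingHom, Polynomial.map_map, h, Polynomial.map_id]

theorem sg_X : sg σ (X : K[X]) = X := by simp [sg]

theorem sg_C (a : K) : sg σ (C a) = C (σ a) := by simp [sg]

noncomputable instance : One (Sk σ) := ⟨⟨1, 0⟩⟩

noncomputable instance : Mul (Sk σ) :=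
  ⟨fun r s => ⟨r.re * s.re + X * r.im * sg σ s.im, r.re * s.im + r.im * sg σ s.re⟩⟩

@[simp] theorem one_re : (1 : Sk σ).re = 1 := rfl
@[simp] theorem one_im : (1 : Sk σ).im = 0 := rfl

theorem mul_re (r s : Sk σ) : (r * s).re = r.re * s.re + X * r.im * sg σ s.im := rfl
theorem mul_im (r s : Sk σ) : (r * s).im = r.re * s.im + r.im * sg σ s.re := rfl

/-- conjugate -/
noncomputable def conj (r : Sk σ) : Sk σ := ⟨sg σ r.re, - r.im⟩

/-- reduced norm -/
noncomputable def N (r : Sk σ) : K[X] := r.re * sg σ r.re - X * r.im * sg σ r.im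

/-- scalar multiple (scalar on the left) -/
noncomputable def smul (p : K[X]) (r : Sk σ) : Sk σ := ⟨p * r.re, p * r.im⟩

/-- divisibility of both components -/
def Dv (p : K[X]) (r : Sk σ) : Prop := p ∣ r.re ∧ p ∣ r.im

end Sk

open Sk

theorem sk_mul_assoc (hσ : ∀ a, σ (σ a) = a) (r s u : Sk σ) : r * s * u = r * (s * u) := by
  ext1
  · simp only [mul_re, mul_im, map_add, map_mul, sg_sg hσ]
    ring
  · simp only [mul_re, mul_im, map_add, map_mul, sg_sg hσ, sg_X]
    ring

theorem sk_one_mul (r : Sk σ) : 1 * r = r := by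
  ext1 <;> simp [mul_re, mul_im]

theorem sk_mul_one (r : Sk σ) : r * 1 = r := by
  ext1 <;> simp [mul_re, mul_im]

theorem N_mul (hσ : ∀ a, σ (σ a) = a) (r s : Sk σ) : N (r * s) = N r * N s := by
  simp only [N, mul_re, mul_im, map_add, map_mul, sg_sg hσ, sg_X]
  ring

theorem N_one : N (1 : Sk σ) = 1 := by simp [N]

/-- product of a list -/
noncomputable def lprod : List (Sk σ) → Sk σ
  | [] => 1
  | w :: l => w * lprod l

section place

variable (σ) (x : K)

/-- the place polynomial -/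
noncomputable def XX : K[X] := (X - C x) * (X - C (σ x))

variable {σ x}

theorem sg_XX (hσ : ∀ a, σ (σ a) = a) : sg σ (XX σ x) = XX σ x := by
  simp only [XX, map_mul, map_sub, sg_X, sg_C, hσ]
  ring

theorem XX_monic : (XX σ x).Monic := (monic_X_sub_C _).mul (monic_X_sub_C _)

theorem XX_ne_zero : XX σ x ≠ 0 := XX_monic.ne_zero

theorem XX_natDegree : (XX σ x).natDegree = 2 := by
  rw [XX, natDegree_mul (X_sub_C_ne_zero _) (X_sub_C_ne_zero _), natDegree_X_sub_C,
    natDegree_X_sub_C]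

/-- the admissible first factors -/
def IsPi (σ : K →+* K) (x : K) (w : Sk σ) : Prop :=
  ∃ c b : K, w = ⟨X + C c, C b⟩ ∧ N w = XX σ x

/-- `X` and the norm of a constant element are coprime -/
theorem coprime_const (hσ : ∀ a, σ (σ a) = a) (hx : σ x ≠ x) {u v : K} (h : ¬ (u = 0 ∧ v = 0)) :
    IsCoprime (XX σ x) (C u * C (σ u) - X * C v * C (σ v)) := by
  by_cases hv : v = 0
  · have hu : u ≠ 0 := fun hu => h ⟨hu, hv⟩
    have hu' : σ u ≠ 0 := (map_ne_zero σ).2 hu
    subst hv
    have : C u * C (σ u) - X * C (0 : K) * C (σ 0) = C (u * σ u) := by simp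
    rw [this]
    refine (isCoprime_one_right : IsCoprime (XX σ x) 1).of_isCoprime_of_dvd_right ?_
    exact (isUnit_C.2 (IsUnit.mk0 _ (mul_ne_zero hu hu'))).dvd
  · have hv' : σ v ≠ 0 := (map_ne_zero σ).2 hv
    have hvv : v * σ v ≠ 0 := mul_ne_zero hv hv'
    set t0 : K := u * σ u / (v * σ v) with ht0
    have hfix : σ t0 = t0 := by
      rw [ht0, map_div₀, map_mul, map_mul, hσ, hσ, mul_comm (σ u), mul_comm (σ v)]
    have e : C u * C (σ u) - X * C v * C (σ v) = C (-(v * σ v)) * (X - C t0) := by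
      have h1 : C (-(v * σ v)) * C t0 = - (C u * C (σ u)) := by
        rw [← C_mul, ht0, neg_mul, mul_div_cancel₀ _ hvv, C_neg, C_mul]
      have h2 : C (-(v * σ v)) * X = - (X * C v * C (σ v)) := by
        rw [C_neg, C_mul]; ring
      rw [mul_sub, h1, h2]; ring
    rw [e]
    have hxt : x ≠ t0 := fun hh => hx (by rw [hh, hfix])
    have hxt' : σ x ≠ t0 := fun hh => hx (by
      have := congrArg σ hh
      rw [hσ, hfix] at this
      rw [hh, this])
    have c1 : IsCoprime (X - C x) (X - C t0) := isCoprime_X_sub_C_of_isUnit_sub (by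
      exact IsUnit.mk0 _ (sub_ne_zero.2 hxt))
    have c2 : IsCoprime (X - C (σ x)) (X - C t0) := isCoprime_X_sub_C_of_isUnit_sub (by
      exact IsUnit.mk0 _ (sub_ne_zero.2 hxt'))
    have c3 : IsCoprime (XX σ x) (X - C t0) := c1.mul_left c2
    refine IsCoprime.mul_right ?_ c3
    exact (isCoprime_one_right : IsCoprime (XX σ x) 1).of_isCoprime_of_dvd_right
      (isUnit_C.2 (IsUnit.mk0 _ (neg_ne_zero.2 hvv))).dvd

/-- **(I.1)** -/
theorem dv_of_two (hσ : ∀ a, σ (σ a) = a) (hx : σ x ≠ x) {w₁ w₂ : Sk σ} (h₁ : IsPi σ x w₁)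
    (h₂ : IsPi σ x w₂) (hne : w₁ ≠ w₂) {m₁ m₂ r : Sk σ} (e₁ : w₁ * m₁ = r) (e₂ : w₂ * m₂ = r) :
    Dv (XX σ x) r := by
  obtain ⟨c₁, b₁, rfl, n₁⟩ := h₁
  obtain ⟨c₂, b₂, rfl, n₂⟩ := h₂
  simp only [N, map_add, sg_X, sg_C] at n₁ n₂
  have r₁ := congrArg Sk.re e₁
  have r₂ := congrArg Sk.re e₂
  have i₁ := congrArg Sk.im e₁
  have i₂ := congrArg Sk.im e₂
  simp only [mul_re, mul_im] at r₁ r₂ i₁ i₂
  have r₁' := congrArg (sg σ) r₁
  have r₂' := congrArg (sg σ) r₂
  have i₁' := congrArg (sg σ) i₁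
  have i₂' := congrArg (sg σ) i₂
  simp only [map_add, map_mul, sg_X, sg_C, sg_sg hσ] at r₁' r₂' i₁' i₂'
  have hX := sg_XX (x := x) hσ
  set A := r.re with hA
  set B := r.im with hB
  set A' := sg σ r.re with hA'
  set B' := sg σ r.im with hB'
  -- `conj w_i * r = X m_i`
  have k₁ : (X + C (σ c₁)) * A - X * C b₁ * B' = XX σ x * m₁.re := by
    rw [← n₁, ← r₁, ← i₁']; ring
  have k₂ : (X + C (σ c₂)) * A - X * C b₂ * B' = XX σ x * m₂.re := by
    rw [← n₂, ← r₂, ← i₂']; ring
  have l₁ : (X + C (σ c₁)) * B - C b₁ * A' = XX σ x * m₁.im := by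
    rw [← n₁, ← i₁, ← r₁']; ring
  have l₂ : (X + C (σ c₂)) * B - C b₂ * A' = XX σ x * m₂.im := by
    rw [← n₂, ← i₂, ← r₂']; ring
  -- conjugated versions
  have k₁' := congrArg (sg σ) k₁
  have k₂' := congrArg (sg σ) k₂
  have l₁' := congrArg (sg σ) l₁
  have l₂' := congrArg (sg σ) l₂
  simp only [map_add, map_mul, map_sub, sg_X, sg_C, hσ, hA', hB', sg_sg hσ, hX] at k₁' k₂' l₁' l₂'
  set u : K := σ c₁ - σ c₂ with hu
  set v : K := b₁ - b₂ with hv
  have huv : ¬ (u = 0 ∧ v = 0) := by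
    rintro ⟨h1, h2⟩
    apply hne
    have h3 : c₁ = c₂ := by
      have := congrArg σ (sub_eq_zero.1 h1)
      rwa [hσ, hσ] at this
    rw [h3, sub_eq_zero.1 h2]
  have cop := coprime_const hσ hx huv
  have su : σ u = c₁ - c₂ := by rw [hu, map_sub, hσ, hσ]
  have sv : σ v = σ b₁ - σ b₂ := by rw [hv, map_sub]
  constructor
  · have : XX σ x ∣ (C u * C (σ u) - X * C v * C (σ v)) * A := by
      refine ⟨C (σ u) * (m₁.re - m₂.re) + X * C v * (sg σ m₁.im - sg σ m₂.im), ?_⟩
      rw [su, sv, hu, hv]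
      simp only [C_sub]
      linear_combination (C c₁ - C c₂) * k₁ - (C c₁ - C c₂) * k₂ +
        X * (C b₁ - C b₂) * l₁' - X * (C b₁ - C b₂) * l₂'
    exact cop.dvd_of_dvd_mul_left this
  · have : XX σ x ∣ (C u * C (σ u) - X * C v * C (σ v)) * B := by
      refine ⟨C (σ u) * (m₁.im - m₂.im) + C v * (sg σ m₁.re - sg σ m₂.re), ?_⟩
      rw [su, sv, hu, hv]
      simp only [C_sub]
      linear_combination (C c₁ - C c₂) * l₁ - (C c₁ - C c₂) * l₂ +
        (C b₁ - C b₂) * k₁' - (C b₁ - C b₂) * k₂'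
    exact cop.dvd_of_dvd_mul_left this

end place

section count

variable {x : K}

theorem N_mul_re (hσ : ∀ a, σ (σ a) = a) (w m : Sk σ) :
    N w * m.re = sg σ w.re * (w * m).re - X * w.im * sg σ (w * m).im := by
  simp only [N, mul_re, mul_im, map_add, map_mul, sg_sg hσ]
  ring

theorem N_mul_im (hσ : ∀ a, σ (σ a) = a) (w m : Sk σ) :
    N w * m.im = sg σ w.re * (w * m).im - w.im * sg σ (w * m).re := by
  simp only [N, mul_re, mul_im, map_add, map_mul, sg_sg hσ, sg_X]
  ring

theorem pi_cancel (hσ : ∀ a, σ (σ a) = a) {w m m' : Sk σ} (hw : IsPi σ x w) (h : w * m = w * m') :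
    m = m' := by
  obtain ⟨c, b, rfl, hn⟩ := hw
  have h1 := N_mul_re hσ ⟨X + C c, C b⟩ m
  have h2 := N_mul_im hσ ⟨X + C c, C b⟩ m
  have h1' := N_mul_re hσ ⟨X + C c, C b⟩ m'
  have h2' := N_mul_im hσ ⟨X + C c, C b⟩ m'
  rw [hn] at h1 h2 h1' h2'
  rw [h, ← h1'] at h1
  rw [h, ← h2'] at h2
  ext1
  · exact mul_left_cancel₀ XX_ne_zero h1
  · exact mul_left_cancel₀ XX_ne_zero h2

theorem mul_smul_XX (hσ : ∀ a, σ (σ a) = a) (w m : Sk σ) (s : ℕ) :
    w * smul (XX σ x ^ s) m = smul (XX σ x ^ s) (w * m) := by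
  ext1
  · simp only [mul_re, smul, map_mul, map_pow, sg_XX hσ]
    ring
  · simp only [mul_im, smul, map_mul, map_pow, sg_XX hσ]
    ring

theorem smul_inj {p : K[X]} (hp : p ≠ 0) {r s : Sk σ} (h : smul p r = smul p s) : r = s := by
  ext1
  · exact mul_left_cancel₀ hp (congrArg Sk.re h)
  · exact mul_left_cancel₀ hp (congrArg Sk.im h)

theorem Dv_iff {p : K[X]} {r : Sk σ} : Dv p r ↔ ∃ r', r = smul p r' := by
  constructor
  · rintro ⟨⟨a, ha⟩, ⟨b, hb⟩⟩
    exact ⟨⟨a, b⟩, by ext1 <;> simp [smul, ha, hb]⟩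
  · rintro ⟨r', rfl⟩
    exact ⟨⟨r'.re, rfl⟩, ⟨r'.im, rfl⟩⟩

theorem Dv_mul (hσ : ∀ a, σ (σ a) = a) {w m : Sk σ} {s : ℕ} (h : Dv (XX σ x ^ s) m) :
    Dv (XX σ x ^ s) (w * m) := by
  obtain ⟨m', rfl⟩ := Dv_iff.1 h
  rw [mul_smul_XX hσ]
  exact Dv_iff.2 ⟨_, rfl⟩

open scoped Classical in
/-- sequences of length `n` in `P` -/
noncomputable def seqs (P : Finset (Sk σ)) : ℕ → Finset (List (Sk σ))
  | 0 => {[]}
  | n + 1 => (P ×ˢ seqs P n).image fun p => p.1 :: p.2

theorem mem_seqs {P : Finset (Sk σ)} : ∀ {n : ℕ} {l : List (Sk σ)},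
    l ∈ seqs P n ↔ l.length = n ∧ ∀ w ∈ l, w ∈ P := by
  intro n
  induction n with
  | zero =>
    intro l
    simp only [seqs, Finset.mem_singleton, List.length_eq_zero_iff]
    constructor
    · rintro rfl; simp
    · exact fun h => h.1
  | succ n ih =>
    intro l
    simp only [seqs, Finset.mem_image, Finset.mem_product, Prod.exists]
    constructor
    · rintro ⟨w, l', ⟨hw, hl⟩, rfl⟩
      obtain ⟨h1, h2⟩ := ih.1 hl
      refine ⟨by simp [h1], ?_⟩
      intro v hv
      rcases List.mem_cons.1 hv with rfl | hv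
      · exact hw
      · exact h2 v hv
    · rintro ⟨h1, h2⟩
      cases l with
      | nil => simp at h1
      | cons w l' =>
        refine ⟨w, l', ⟨h2 w (by simp), ih.2 ⟨by simpa using h1, fun v hv => h2 v (by simp [hv])⟩⟩,
          rfl⟩

open scoped Classical in
/-- number of factorisations -/
noncomputable def cnt (P : Finset (Sk σ)) (n : ℕ) (r : Sk σ) : ℕ :=
  ((seqs P n).filter fun l => lprod l = r).card

open scoped Classical in
theorem cnt_succ_le (P : Finset (Sk σ)) (n : ℕ) (r : Sk σ) :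
    cnt P (n + 1) r ≤ ∑ w ∈ P, ((seqs P n).filter fun l => w * lprod l = r).card := by
  have h : ((seqs P (n + 1)).filter fun l => lprod l = r) ⊆
      P.biUnion fun w => (((seqs P n).filter fun l => w * lprod l = r).image fun l => w :: l) := by
    intro l hl
    rw [Finset.mem_filter] at hl
    obtain ⟨h1, h2⟩ := hl
    simp only [seqs, Finset.mem_image, Finset.mem_product, Prod.exists] at h1
    obtain ⟨w, l', ⟨hw, hl'⟩, rfl⟩ := h1
    rw [Finset.mem_biUnion]
    exact ⟨w, hw, Finset.mem_image.2 ⟨l', Finset.mem_filter.2 ⟨hl', h2⟩, rfl⟩⟩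
  refine (Finset.card_le_card h).trans (Finset.card_biUnion_le.trans ?_)
  exact Finset.sum_le_sum fun w _ => Finset.card_image_le

open scoped Classical in
/-- **(I.2)** -/
theorem cnt_le (hσ : ∀ a, σ (σ a) = a) (hx : σ x ≠ x) {P : Finset (Sk σ)}
    (hP : ∀ w ∈ P, IsPi σ x w) {D₁ : ℕ} (h1 : 1 ≤ D₁) (hD : P.card ≤ D₁) :
    ∀ (n s : ℕ) (r : Sk σ), ¬ Dv (XX σ x ^ (s + 1)) r → cnt P n r ≤ 2 ^ n * D₁ ^ s := by
  intro n
  induction n with
  | zero =>
    intro s r _
    have : cnt P 0 r ≤ 1 := by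
      unfold cnt
      refine (Finset.card_filter_le _ _).trans ?_
      simp [seqs]
    exact this.trans (by simpa using Nat.one_le_pow _ _ h1)
  | succ n ih =>
    intro s r hr
    refine (cnt_succ_le P n r).trans ?_
    set good : Sk σ → Prop := fun w => ∃ m, w * m = r ∧ Dv (XX σ x ^ s) m with hgood
    have hgc : (P.filter good).card ≤ 1 := by
      rw [Finset.card_le_one]
      intro w₁ hw₁ w₂ hw₂
      rw [Finset.mem_filter] at hw₁ hw₂
      obtain ⟨p₁, m₁, e₁, d₁⟩ := hw₁
      obtain ⟨p₂, m₂, e₂, d₂⟩ := hw₂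
      by_contra hne
      obtain ⟨m₁', rfl⟩ := Dv_iff.1 d₁
      obtain ⟨m₂', rfl⟩ := Dv_iff.1 d₂
      rw [mul_smul_XX hσ] at e₁ e₂
      have h3 : w₂ * m₂' = w₁ * m₁' := smul_inj (pow_ne_zero _ XX_ne_zero) (e₂.trans e₁.symm)
      have h4 := dv_of_two hσ hx (hP _ p₁) (hP _ p₂) hne rfl h3
      obtain ⟨u, hu⟩ := Dv_iff.1 h4
      apply hr
      refine Dv_iff.2 ⟨u, ?_⟩
      rw [← e₁, hu]
      ext1 <;> simp only [smul, pow_succ] <;> ring
    have key : ∀ w ∈ P, ((seqs P n).filter fun l => w * lprod l = r).card ≤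
        (if good w then 2 ^ n * D₁ ^ s else 0) +
          (if s = 0 then 0 else 2 ^ n * D₁ ^ (s - 1)) := by
      intro w hw
      rcases Finset.eq_empty_or_nonempty ((seqs P n).filter fun l => w * lprod l = r) with h0 | ⟨l₀, h0⟩
      · rw [h0]; simp
      · rw [Finset.mem_filter] at h0
        obtain ⟨_, hl₀⟩ := h0
        have hc : ((seqs P n).filter fun l => w * lprod l = r).card ≤ cnt P n (lprod l₀) := by
          unfold cnt
          refine Finset.card_le_card fun l hl => ?_
          rw [Finset.mem_filter] at hl ⊢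
          exact ⟨hl.1, pi_cancel hσ (hP w hw) (hl.2.trans hl₀.symm)⟩
        by_cases hg : good w
        · rw [if_pos hg]
          have : cnt P n (lprod l₀) ≤ 2 ^ n * D₁ ^ s := by
            refine ih s _ fun hd => hr ?_
            rw [← hl₀]
            exact Dv_mul hσ hd
          exact (hc.trans this).trans (Nat.le_add_right _ _)
        · rw [if_neg hg, Nat.zero_add]
          have hnd : ¬ Dv (XX σ x ^ s) (lprod l₀) := fun hd => hg ⟨_, hl₀, hd⟩
          cases s with
          | zero => exact absurd ⟨by simp, by simp⟩ hnd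
          | succ s' =>
            rw [if_neg (Nat.succ_ne_zero _), Nat.add_sub_cancel]
            exact hc.trans (ih s' _ hnd)
    refine (Finset.sum_le_sum key).trans ?_
    rw [Finset.sum_add_distrib, Finset.sum_const, smul_eq_mul, ← Finset.sum_filter,
      Finset.sum_const, smul_eq_mul]
    have e1 : (P.filter good).card * (2 ^ n * D₁ ^ s) ≤ 2 ^ n * D₁ ^ s := by
      calc _ ≤ 1 * (2 ^ n * D₁ ^ s) := Nat.mul_le_mul_right _ hgc
        _ = _ := Nat.one_mul _
    have e2 : P.card * (if s = 0 then 0 else 2 ^ n * D₁ ^ (s - 1)) ≤ 2 ^ n * D₁ ^ s := by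
      cases s with
      | zero => simp
      | succ s' =>
        rw [if_neg (Nat.succ_ne_zero _), Nat.add_sub_cancel]
        calc P.card * (2 ^ n * D₁ ^ s') ≤ D₁ * (2 ^ n * D₁ ^ s') := Nat.mul_le_mul_right _ hD
          _ = 2 ^ n * D₁ ^ (s' + 1) := by ring
    calc _ ≤ 2 ^ n * D₁ ^ s + 2 ^ n * D₁ ^ s := Nat.add_le_add e1 e2
      _ = 2 ^ (n + 1) * D₁ ^ s := by ring

end count

section norms

open scoped Classical

variable [Fintype K]

/-- polynomials with coefficients in `S`, divisible by `t^e`, of degree `< j` -/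
noncomputable def polysIn (S : Finset K) (e j : ℕ) : Finset K[X] :=
  (Fintype.piFinset fun _ : Fin (j - e) => S).image fun c =>
    ∑ i : Fin (j - e), C (c i) * X ^ (e + (i : ℕ))

theorem card_polysIn (S : Finset K) (e j : ℕ) : (polysIn S e j).card ≤ S.card ^ (j - e) := by
  refine Finset.card_image_le.trans (le_of_eq ?_)
  rw [Fintype.card_piFinset_const]

theorem mem_polysIn {S : Finset K} {e j : ℕ} {p : K[X]} (h1 : p.degree < j)
    (h2 : X ^ e ∣ p) (h3 : ∀ i, p.coeff i ∈ S) : p ∈ polysIn S e j := by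
  unfold polysIn
  rw [Finset.mem_image]
  refine ⟨fun i => p.coeff (e + i), ?_, ?_⟩
  · rw [Fintype.mem_piFinset]
    exact fun i => h3 _
  · ext n
    rw [finsetSum_coeff]
    simp only [coeff_C_mul, coeff_X_pow]
    by_cases hn : e ≤ n ∧ n < j
    · obtain ⟨ha, hb⟩ := hn
      rw [Finset.sum_eq_single (⟨n - e, by omega⟩ : Fin (j - e))]
      · have : e + (n - e) = n := by omega
        simp [this]
      · intro i _ hi
        rw [if_neg, mul_zero]
        intro hh
        apply hi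
        ext
        simp
        omega
      · intro h
        exact absurd (Finset.mem_univ _) h
    · rw [Finset.sum_eq_zero]
      · symm
        by_cases ha : e ≤ n
        · have hb : j ≤ n := by omega
          exact coeff_eq_zero_of_degree_lt (lt_of_lt_of_le h1 (by exact_mod_cast hb))
        · exact (X_pow_dvd_iff.1 h2) n (by omega)
      · intro i _
        rw [if_neg, mul_zero]
        have := i.2
        omega

omit [Fintype K] in
theorem card_normalizedFactors_le {n : K[X]} (hn : n ≠ 0) :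
    Multiset.card (UniqueFactorizationMonoid.normalizedFactors n) ≤ n.natDegree := by
  have h0 : (0 : K[X]) ∉ UniqueFactorizationMonoid.normalizedFactors n :=
    UniqueFactorizationMonoid.zero_notMem_normalizedFactors n
  have h1 : (UniqueFactorizationMonoid.normalizedFactors n).prod.natDegree = n.natDegree := by
    have h := UniqueFactorizationMonoid.prod_normalizedFactors hn
    exact natDegree_eq_of_degree_eq (degree_eq_degree_of_associated h)
  rw [natDegree_multiset_prod _ h0] at h1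
  rw [← h1]
  have h2 : ∀ p ∈ (UniqueFactorizationMonoid.normalizedFactors n).map natDegree, 1 ≤ p := by
    intro p hp
    rw [Multiset.mem_map] at hp
    obtain ⟨f, hf, rfl⟩ := hp
    exact (UniqueFactorizationMonoid.irreducible_of_normalized_factor f hf).natDegree_pos
  have h3 := Multiset.card_nsmul_le_sum h2
  simpa using h3

/-- **crude divisor bound** for the norm equation `be * sg be = n` -/
theorem norm_fibre (σ : K →+* K) {q : ℕ}
    (hnm : ∀ d : K, d ≠ 0 → (Finset.univ.filter fun c : K => c * σ c = d).card ≤ q + 1)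
    {B : Finset K[X]} {n : K[X]} {d : ℕ} (hB : ∀ b ∈ B, b * sg σ b = n) (hd : n.natDegree ≤ d) :
    B.card ≤ (q + 1) * 2 ^ d := by
  have hpos : 1 ≤ (q + 1) * 2 ^ d := Nat.one_le_iff_ne_zero.2 (by positivity)
  by_cases hn : n = 0
  · have : B ⊆ {0} := by
      intro b hb
      rw [Finset.mem_singleton]
      have h := hB b hb
      rw [hn] at h
      rcases mul_eq_zero.1 h with h | h
      · exact h
      · have : Function.Injective (sg σ) := by
          have := Polynomial.map_injective σ σ.injective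
          simpa [sg] using this
        exact this (by rw [h, map_zero])
    exact (Finset.card_le_card this).trans (by simpa using hpos)
  · have hb0 : ∀ b ∈ B, b ≠ 0 := by
      rintro b hb rfl
      have h := hB 0 hb
      rw [zero_mul] at h
      exact hn h.symm
    have hbd : ∀ b ∈ B, b ∣ n := fun b hb => ⟨_, (hB b hb).symm⟩
    set F : K[X] → K × Multiset K[X] := fun b =>
      (b.leadingCoeff, UniqueFactorizationMonoid.normalizedFactors b) with hF
    have hinj : Set.InjOn F (B : Set K[X]) := by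
      intro b hb b' hb' h
      have h1 : b.leadingCoeff = b'.leadingCoeff := congrArg Prod.fst h
      have h2 : UniqueFactorizationMonoid.normalizedFactors b =
        UniqueFactorizationMonoid.normalizedFactors b' := congrArg Prod.snd h
      have h3 : Associated b b' :=
        (UniqueFactorizationMonoid.prod_normalizedFactors (hb0 b hb)).symm.trans
          (h2 ▸ UniqueFactorizationMonoid.prod_normalizedFactors (hb0 b' hb'))
      obtain ⟨u, hu⟩ := h3
      obtain ⟨c, hc, hcu⟩ := isUnit_iff.1 u.isUnit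
      rw [← hcu] at hu
      have h4 : b.leadingCoeff * c = b'.leadingCoeff := by
        rw [← hu, leadingCoeff_mul, leadingCoeff_C]
      have h5 : c = 1 := by
        have h6 : b.leadingCoeff ≠ 0 := leadingCoeff_ne_zero.2 (hb0 b hb)
        rw [← h1] at h4
        exact mul_left_cancel₀ h6 (by rw [h4, mul_one])
      rw [← hu, h5]
      simp
    have hmap : ∀ b ∈ B, F b ∈ (Finset.univ.filter fun c : K => c * σ c = n.leadingCoeff) ×ˢ
        (UniqueFactorizationMonoid.normalizedFactors n).powerset.toFinset := by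
      intro b hb
      rw [Finset.mem_product]
      constructor
      · rw [Finset.mem_filter]
        refine ⟨Finset.mem_univ _, ?_⟩
        have h := congrArg leadingCoeff (hB b hb)
        rw [leadingCoeff_mul] at h
        have h2 : (sg σ b).leadingCoeff = σ b.leadingCoeff := by
          simp only [sg, coe_mapRingHom]
          exact leadingCoeff_map σ
        rw [h2] at h
        exact h
      · rw [Multiset.mem_toFinset, Multiset.mem_powerset]
        exact (UniqueFactorizationMonoid.dvd_iff_normalizedFactors_le_normalizedFactors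
          (hb0 b hb) hn).1 (hbd b hb)
    have h1 := Finset.card_le_card_of_injOn F hmap hinj
    refine h1.trans ?_
    rw [Finset.card_product]
    refine Nat.mul_le_mul (hnm _ (leadingCoeff_ne_zero.2 hn)) ?_
    refine (Multiset.toFinset_card_le _).trans ?_
    rw [Multiset.card_powerset]
    exact Nat.pow_le_pow_right (by norm_num) ((card_normalizedFactors_le hn).trans hd)

end norms

section candidates

variable {x : K}

theorem sg_coeff (p : K[X]) (n : ℕ) : (sg σ p).coeff n = σ (p.coeff n) := by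
  simp [sg, coeff_map]

theorem sg_injective : Function.Injective (sg σ) := by
  have := Polynomial.map_injective σ σ.injective
  simpa [sg] using this

theorem sg_degree (p : K[X]) : (sg σ p).degree = p.degree := by
  simp only [sg, coe_mapRingHom]
  exact degree_map p σ

theorem sg_natDegree (p : K[X]) : (sg σ p).natDegree = p.natDegree := by
  simp only [sg, coe_mapRingHom]
  exact natDegree_map σ

theorem sg_dvd {e : ℕ} {p : K[X]} (h : X ^ e ∣ p) : X ^ e ∣ sg σ p := by
  obtain ⟨c, rfl⟩ := h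
  exact ⟨sg σ c, by rw [map_mul, map_pow, sg_X]⟩

/-- the candidates for the primitive part of a closed walk -/
structure Cond (σ : K →+* K) (Y : K[X]) (j a b : ℕ) (r : Sk σ) : Prop where
  hre : (r.re - Y).degree < j
  him : r.im.degree < j
  ha : X ^ a ∣ r.re - Y
  hb : X ^ b ∣ r.im
  hN : N r = Y * Y

/-- trace part -/
noncomputable def ep (σ : K →+* K) (e : K[X]) : K[X] := C (2⁻¹) * (e + sg σ e)
/-- trace zero part -/
noncomputable def nu (σ : K →+* K) (e : K[X]) : K[X] := C (2⁻¹) * (e - sg σ e)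

theorem two_eq_C : (2 : K[X]) = C 2 := (map_ofNat C 2).symm

theorem C_two_inv (h2 : (2 : K) ≠ 0) : C (2⁻¹ : K) * 2 = 1 := by
  rw [two_eq_C, ← C_mul, inv_mul_cancel₀ h2, C_1]

theorem ep_add_nu (h2 : (2 : K) ≠ 0) (e : K[X]) : ep σ e + nu σ e = e := by
  have := C_two_inv h2
  unfold ep nu
  linear_combination e * this

theorem ep_sub_nu (h2 : (2 : K) ≠ 0) (e : K[X]) : ep σ e - nu σ e = sg σ e := by
  have := C_two_inv h2
  unfold ep nu
  linear_combination (sg σ e) * this

theorem sg_ep (hσ : ∀ a, σ (σ a) = a) (e : K[X]) : sg σ (ep σ e) = ep σ e := by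
  unfold ep
  rw [map_mul, map_add, sg_C, sg_sg hσ, map_inv₀, map_ofNat]
  ring

theorem sg_nu (hσ : ∀ a, σ (σ a) = a) (e : K[X]) : sg σ (nu σ e) = - nu σ e := by
  unfold nu
  rw [map_mul, map_sub, sg_C, sg_sg hσ, map_inv₀, map_ofNat]
  ring

theorem ep_dvd {n : ℕ} {e : K[X]} (h : X ^ n ∣ e) : X ^ n ∣ ep σ e :=
  (dvd_add h (sg_dvd h)).mul_left _

theorem nu_dvd {n : ℕ} {e : K[X]} (h : X ^ n ∣ e) : X ^ n ∣ nu σ e :=
  (dvd_sub h (sg_dvd h)).mul_left _

theorem ep_degree {n : ℕ} {e : K[X]} (h : e.degree < n) : (ep σ e).degree < n := by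
  rw [degree_lt_iff_coeff_zero] at h ⊢
  intro m hm
  simp [ep, coeff_map, h m hm]

theorem nu_degree {n : ℕ} {e : K[X]} (h : e.degree < n) : (nu σ e).degree < n := by
  rw [degree_lt_iff_coeff_zero] at h ⊢
  intro m hm
  simp [nu, coeff_map, h m hm]

variable {Y : K[X]} {j a b κ : ℕ} {r : Sk σ}

theorem Cond.eq (h2 : (2 : K) ≠ 0) (hY : sg σ Y = Y) (h : Cond σ Y j a b r) :
    ep σ (r.re - Y) * (2 * Y + ep σ (r.re - Y)) =
      nu σ (r.re - Y) * nu σ (r.re - Y) + X * r.im * sg σ r.im := by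
  have h1 := h.hN
  have e1 := ep_add_nu (σ := σ) h2 (r.re - Y)
  have e2 := ep_sub_nu (σ := σ) h2 (r.re - Y)
  rw [map_sub, hY] at e2
  unfold N at h1
  have h3 : r.re = Y + (ep σ (r.re - Y) + nu σ (r.re - Y)) := by rw [e1]; ring
  have h4 : sg σ r.re = Y + (ep σ (r.re - Y) - nu σ (r.re - Y)) := by rw [e2]; ring
  generalize ep σ (r.re - Y) = E at *
  generalize nu σ (r.re - Y) = V at *
  rw [h4, h3] at h1
  linear_combination h1

theorem Cond.ep_dvd' (h2 : (2 : K) ≠ 0) (hY : sg σ Y = Y) (hY0 : Y.coeff 0 ≠ 0) (ha1 : 1 ≤ a)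
    (hκa : κ ≤ 2 * a) (hκb : κ ≤ 2 * b + 1) (h : Cond σ Y j a b r) :
    X ^ κ ∣ ep σ (r.re - Y) := by
  have h1 := h.eq h2 hY
  have hnu := nu_dvd (σ := σ) h.ha
  have hep := ep_dvd (σ := σ) h.ha
  have d1 : X ^ κ ∣ nu σ (r.re - Y) * nu σ (r.re - Y) := by
    refine (pow_dvd_pow X hκa).trans ?_
    rw [two_mul, pow_add]
    exact mul_dvd_mul hnu hnu
  have d2 : X ^ κ ∣ X * r.im * sg σ r.im := by
    refine (pow_dvd_pow X hκb).trans ?_
    have : (X : K[X]) ^ (2 * b + 1) = X * X ^ b * X ^ b := by ring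
    rw [this]
    exact mul_dvd_mul (mul_dvd_mul_left _ h.hb) (sg_dvd h.hb)
  have d3 : X ^ κ ∣ ep σ (r.re - Y) * (2 * Y + ep σ (r.re - Y)) := by
    rw [h1]; exact dvd_add d1 d2
  refine prime_X.pow_dvd_of_dvd_mul_right κ ?_ d3
  intro hX
  have hX1 : X ∣ ep σ (r.re - Y) := (dvd_pow_self X (by omega)).trans hep
  have hX2 : X ∣ 2 * Y := (dvd_add_left hX1).1 hX
  rw [X_dvd_iff] at hX2
  have : (2 * Y).coeff 0 = 2 * Y.coeff 0 := by
    rw [two_eq_C, coeff_C_mul]
  rw [this] at hX2
  exact (mul_ne_zero h2 hY0) hX2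

/-- **short closed walks are trivial** -/
theorem Cond.small (h2 : (2 : K) ≠ 0) (hY : sg σ Y = Y) (hY0 : Y.coeff 0 ≠ 0)
    (ha1 : 1 ≤ a) (hκa : κ ≤ 2 * a) (hκb : κ ≤ 2 * b + 1) (hj : j ≤ κ) (h : Cond σ Y j a b r) :
    r = ⟨Y, 0⟩ := by
  have d := h.ep_dvd' h2 hY hY0 ha1 hκa hκb
  have h0 : ep σ (r.re - Y) = 0 := by
    refine eq_zero_of_dvd_of_degree_lt d ?_
    rw [degree_X_pow]
    exact lt_of_lt_of_le (ep_degree h.hre) (by exact_mod_cast hj)
  have h1 := h.eq h2 hY
  rw [h0, zero_mul] at h1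
  have h3 := ep_add_nu (σ := σ) h2 (r.re - Y)
  rw [h0, zero_add] at h3
  have him0 : r.im = 0 := by
    by_contra hne
    have hs : sg σ r.im ≠ 0 := fun hh => hne (sg_injective (by rw [hh, map_zero]))
    have hv : nu σ (r.re - Y) ≠ 0 := by
      intro hv
      rw [hv, zero_mul, zero_add] at h1
      exact (mul_ne_zero (mul_ne_zero X_ne_zero hne) hs) h1.symm
    have e : nu σ (r.re - Y) * nu σ (r.re - Y) = - (X * r.im * sg σ r.im) := by
      linear_combination -h1
    have e2 := congrArg natDegree e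
    rw [natDegree_neg, natDegree_mul hv hv, natDegree_mul (mul_ne_zero X_ne_zero hne) hs,
      natDegree_mul X_ne_zero hne, natDegree_X, sg_natDegree] at e2
    omega
  have hv : nu σ (r.re - Y) = 0 := by
    rw [him0] at h1
    simp only [mul_zero, zero_mul, add_zero] at h1
    exact mul_self_eq_zero.1 h1.symm
  rw [hv] at h3
  ext1
  · exact (sub_eq_zero.1 h3.symm)
  · exact him0

open scoped Classical in
/-- **number of candidates** -/
theorem Cond.card [Fintype K] (hσ : ∀ a, σ (σ a) = a) {q : ℕ} (h2 : (2 : K) ≠ 0)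
    (hfix : (Finset.univ.filter fun c : K => σ c = c).card ≤ q)
    (htr : (Finset.univ.filter fun c : K => σ c = - c).card ≤ q)
    (hnm : ∀ d : K, d ≠ 0 → (Finset.univ.filter fun c : K => c * σ c = d).card ≤ q + 1)
    (hY : sg σ Y = Y) (hY0 : Y.coeff 0 ≠ 0) (ha1 : 1 ≤ a) (hκa : κ ≤ 2 * a) (hκb : κ ≤ 2 * b + 1)
    {R : Finset (Sk σ)} (hR : ∀ r ∈ R, Cond σ Y j a b r) :
    R.card ≤ ((q + 1) * 2 ^ (2 * j)) * (q ^ (j - κ) * q ^ (j - a)) := by
  set T : Finset K[X] := ((polysIn (Finset.univ.filter fun c : K => σ c = c) κ j) ×ˢ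
    (polysIn (Finset.univ.filter fun c : K => σ c = - c) a j)).image fun p => Y + p.1 + p.2 with hT
  have hTc : T.card ≤ q ^ (j - κ) * q ^ (j - a) := by
    refine Finset.card_image_le.trans ?_
    rw [Finset.card_product]
    exact Nat.mul_le_mul ((card_polysIn _ _ _).trans (Nat.pow_le_pow_left hfix _))
      ((card_polysIn _ _ _).trans (Nat.pow_le_pow_left htr _))
  have hmaps : ∀ r ∈ R, r.re ∈ T := by
    intro r hr
    have h := hR r hr
    rw [hT, Finset.mem_image]
    refine ⟨(ep σ (r.re - Y), nu σ (r.re - Y)), ?_, ?_⟩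
    · rw [Finset.mem_product]
      constructor
      · refine mem_polysIn (ep_degree h.hre) (h.ep_dvd' h2 hY hY0 ha1 hκa hκb) fun i => ?_
        rw [Finset.mem_filter]
        refine ⟨Finset.mem_univ _, ?_⟩
        rw [← sg_coeff, sg_ep hσ]
      · refine mem_polysIn (nu_degree h.hre) (nu_dvd h.ha) fun i => ?_
        rw [Finset.mem_filter]
        refine ⟨Finset.mem_univ _, ?_⟩
        rw [← sg_coeff, sg_nu hσ, coeff_neg]
    · have := ep_add_nu (σ := σ) h2 (r.re - Y)
      simp only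
      rw [add_assoc, this]
      ring
  have hfib : ∀ al ∈ T, (R.filter fun r => r.re = al).card ≤ (q + 1) * 2 ^ (2 * j) := by
    intro al _
    have hinj : Set.InjOn (fun r : Sk σ => r.im) ((R.filter fun r => r.re = al : Finset (Sk σ)) :
        Set (Sk σ)) := by
      intro r hr r' hr' h
      rw [Finset.mem_coe, Finset.mem_filter] at hr hr'
      ext1
      · rw [hr.2, hr'.2]
      · exact h
    rw [← Finset.card_image_of_injOn hinj]
    rcases Finset.eq_empty_or_nonempty ((R.filter fun r => r.re = al).image fun r => r.im) with h0 | ⟨b0, hb0⟩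
    · rw [h0]; simp
    · have hall : ∀ b' ∈ ((R.filter fun r => r.re = al).image fun r => r.im),
          b' * sg σ b' = b0 * sg σ b0 ∧ b'.degree < j := by
        have key : ∀ b' ∈ ((R.filter fun r => r.re = al).image fun r => r.im),
            X * (b' * sg σ b') = al * sg σ al - Y * Y ∧ b'.degree < j := by
          intro b' hb'
          rw [Finset.mem_image] at hb'
          obtain ⟨r, hr, rfl⟩ := hb'
          rw [Finset.mem_filter] at hr
          have h := hR r hr.1
          refine ⟨?_, h.him⟩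
          have h1 := h.hN
          unfold N at h1
          rw [hr.2] at h1
          linear_combination -h1
        intro b' hb'
        refine ⟨?_, (key b' hb').2⟩
        exact mul_left_cancel₀ (X_ne_zero (R := K)) ((key b' hb').1.trans (key b0 hb0).1.symm)
      refine norm_fibre σ hnm (n := b0 * sg σ b0) (fun b' hb' => (hall b' hb').1) ?_
      by_cases hz : b0 = 0
      · rw [hz]; simp
      · have hd := (hall b0 hb0).2
        rw [← natDegree_lt_iff_degree_lt hz] at hd
        refine natDegree_mul_le.trans ?_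
        rw [sg_natDegree]
        omega
  refine (Finset.card_le_mul_card_image_of_maps_to hmaps _ hfib).trans ?_
  exact Nat.mul_le_mul_left _ hTc

end candidates

section final

variable {x : K}

theorem deg_X_mul {n : ℕ} {p : K[X]} (h : p.degree < n) :
    (X * p).degree < ((n + 1 : ℕ) : WithBot ℕ) := by
  rw [degree_lt_iff_coeff_zero] at h ⊢
  intro m hm
  obtain ⟨m', rfl⟩ : ∃ m', m = m' + 1 := ⟨m - 1, by omega⟩
  rw [coeff_X_mul]
  exact h m' (by omega)

theorem deg_C_mul {n : ℕ} {p : K[X]} (c : K) (h : p.degree < n) : (C c * p).degree < n := by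
  rw [degree_lt_iff_coeff_zero] at h ⊢
  intro m hm
  rw [coeff_C_mul, h m hm, mul_zero]

theorem deg_mono {n m : ℕ} {p : K[X]} (h : p.degree < n) (hnm : n ≤ m) : p.degree < m :=
  lt_of_lt_of_le h (by exact_mod_cast hnm)

theorem deg_add {n : ℕ} {p r : K[X]} (h : p.degree < n) (h' : r.degree < n) :
    (p + r).degree < n := (degree_add_le _ _).trans_lt (max_lt h h')

theorem lprod_inv (hσ : ∀ a, σ (σ a) = a) : ∀ l : List (Sk σ), (∀ w ∈ l, IsPi σ x w) →
    (lprod l).re.Monic ∧ (lprod l).re.natDegree = l.length ∧ (lprod l).im.degree < l.length ∧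
      N (lprod l) = XX σ x ^ l.length := by
  intro l
  induction l with
  | nil =>
    intro _
    refine ⟨monic_one, natDegree_one, ?_, ?_⟩
    · change (0 : K[X]).degree < _
      simp
    · change N (1 : Sk σ) = _
      simp [N_one]
  | cons w l ih =>
    intro h
    obtain ⟨h1, h2, h3, h4⟩ := ih fun v hv => h v (by simp [hv])
    obtain ⟨c, b, rfl, hn⟩ := h w (by simp)
    have hlen : ((⟨X + C c, C b⟩ : Sk σ) :: l).length = l.length + 1 := rfl
    have hre : (lprod ((⟨X + C c, C b⟩ : Sk σ) :: l)).re =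
        (X + C c) * (lprod l).re + X * (C b * sg σ (lprod l).im) := by
      simp only [lprod, mul_re]; ring
    have him : (lprod ((⟨X + C c, C b⟩ : Sk σ) :: l)).im =
        (X * (lprod l).im + C c * (lprod l).im) + C b * sg σ (lprod l).re := by
      simp only [lprod, mul_im]; ring
    have d1 : ((X + C c) * (lprod l).re).natDegree = l.length + 1 := by
      rw [natDegree_mul (X_add_C_ne_zero c) h1.ne_zero, natDegree_X_add_C, h2, Nat.add_comm]
    have m1 : ((X + C c) * (lprod l).re).Monic := (monic_X_add_C c).mul h1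
    have d2 : (X * (C b * sg σ (lprod l).im)).degree < ((l.length + 1 : ℕ) : WithBot ℕ) :=
      deg_X_mul (deg_C_mul b (by rw [sg_degree]; exact h3))
    have d3 : (X * (C b * sg σ (lprod l).im)).degree < ((X + C c) * (lprod l).re).degree := by
      rw [degree_eq_natDegree m1.ne_zero, d1]
      exact d2
    refine ⟨?_, ?_, ?_, ?_⟩
    · rw [hre]
      exact m1.add_of_left d3
    · rw [hre, natDegree_add_eq_left_of_degree_lt d3, d1, hlen]
    · rw [him, hlen]
      have d4 : (lprod l).re.degree < ((l.length + 1 : ℕ) : WithBot ℕ) := by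
        rw [degree_eq_natDegree h1.ne_zero, h2]
        exact_mod_cast Nat.lt_succ_self _
      refine deg_add (deg_add (deg_X_mul h3) (deg_mono (deg_C_mul c h3) (Nat.le_succ _))) ?_
      exact deg_C_mul b (by rw [sg_degree]; exact d4)
    · change N ((⟨X + C c, C b⟩ : Sk σ) * lprod l) = _
      rw [N_mul hσ, hn, h4, hlen, pow_succ]
      ring

theorem XX_coeff_zero (hx0 : x ≠ 0) : (XX σ x).coeff 0 ≠ 0 := by
  have : (XX σ x).coeff 0 = x * σ x := by
    simp [XX, mul_coeff_zero]
  rw [this]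
  exact mul_ne_zero hx0 ((map_ne_zero σ).2 hx0)

theorem XX_pow_coeff_zero (hx0 : x ≠ 0) (n : ℕ) : (XX σ x ^ n).coeff 0 ≠ 0 := by
  rw [coeff_zero_eq_eval_zero, eval_pow, ← coeff_zero_eq_eval_zero]
  exact pow_ne_zero _ (XX_coeff_zero hx0)

theorem N_smul (hσ : ∀ a, σ (σ a) = a) (s : ℕ) (r : Sk σ) :
    N (smul (XX σ x ^ s) r) = XX σ x ^ (2 * s) * N r := by
  simp only [N, smul, map_mul, map_pow, sg_XX hσ]
  ring

/-- the primitive part of a closed walk is a candidate -/
theorem cond_of (hσ : ∀ a, σ (σ a) = a) (hx0 : x ≠ 0) {l s a b : ℕ} {r r' : Sk σ} (hs : s ≤ l)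
    (h1 : r.re.Monic) (h2 : r.re.natDegree = 2 * l) (h3 : r.im.degree < (2 * l : ℕ))
    (h4 : N r = XX σ x ^ (2 * l)) (ha : X ^ a ∣ r.re - XX σ x ^ l) (hb : X ^ b ∣ r.im)
    (hr : r = smul (XX σ x ^ s) r') : Cond σ (XX σ x ^ (l - s)) (2 * (l - s)) a b r' := by
  have hM : (XX σ x ^ s).Monic := XX_monic.pow s
  have hMd : (XX σ x ^ s).natDegree = 2 * s := by
    rw [natDegree_pow, XX_natDegree]; ring
  have e1 : r.re = XX σ x ^ s * r'.re := by rw [hr]; rfl
  have e2 : r.im = XX σ x ^ s * r'.im := by rw [hr]; rfl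
  have hX : ¬ (X : K[X]) ∣ XX σ x ^ s := by
    rw [X_dvd_iff]
    exact XX_pow_coeff_zero hx0 s
  have hm' : r'.re.Monic := by
    refine hM.of_mul_monic_left ?_
    rw [← e1]; exact h1
  have hd' : r'.re.natDegree = 2 * (l - s) := by
    have := h2
    rw [e1, natDegree_mul hM.ne_zero hm'.ne_zero, hMd] at this
    omega
  have hYm : (XX σ x ^ (l - s)).Monic := XX_monic.pow _
  have hYd : (XX σ x ^ (l - s)).natDegree = 2 * (l - s) := by
    rw [natDegree_pow, XX_natDegree]; ring
  refine ⟨?_, ?_, ?_, ?_, ?_⟩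
  · have hdeg : r'.re.degree = ((2 * (l - s) : ℕ) : WithBot ℕ) := by
      rw [degree_eq_natDegree hm'.ne_zero, hd']
    have hdegY : (XX σ x ^ (l - s)).degree = ((2 * (l - s) : ℕ) : WithBot ℕ) := by
      rw [degree_eq_natDegree hYm.ne_zero, hYd]
    have := degree_sub_lt_left (hdeg.trans hdegY.symm) hm'.ne_zero (by rw [hm', hYm])
    rwa [hdeg] at this
  · by_cases hz : r'.im = 0
    · rw [hz, degree_zero]
      exact WithBot.bot_lt_coe _
    · have hz' : r.im ≠ 0 := by rw [e2]; exact mul_ne_zero hM.ne_zero hz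
      rw [← natDegree_lt_iff_degree_lt hz'] at h3
      rw [e2, natDegree_mul hM.ne_zero hz, hMd] at h3
      rw [← natDegree_lt_iff_degree_lt hz]
      omega
  · refine prime_X.pow_dvd_of_dvd_mul_left a hX ?_
    have : XX σ x ^ s * (r'.re - XX σ x ^ (l - s)) = r.re - XX σ x ^ l := by
      rw [mul_sub, ← e1, ← pow_add, Nat.add_sub_cancel' hs]
    rw [this]; exact ha
  · refine prime_X.pow_dvd_of_dvd_mul_left b hX ?_
    rw [← e2]; exact hb
  · have h5 := N_smul (x := x) hσ s r'
    rw [← hr, h4] at h5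
    have h6 : XX σ x ^ (2 * s) * N r' = XX σ x ^ (2 * s) * (XX σ x ^ (l - s) * XX σ x ^ (l - s)) := by
      rw [← h5, ← pow_add, ← pow_add]
      congr 1
      omega
    exact mul_left_cancel₀ (pow_ne_zero _ XX_ne_zero) h6

open scoped Classical in
/-- **(I) the number of closed walks** of length `2 l` in the graph with generators `P` on the
group of norm one units modulo `τ^κ`: `X^a ∣ re - XX^l`, `X^b ∣ im`, `κ ≤ 2 a`, `κ ≤ 2 b + 1`. -/
theorem closed_walks [Fintype K] (hσ : ∀ a, σ (σ a) = a) (hx : σ x ≠ x) (hx0 : x ≠ 0) {q : ℕ}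
    (h2 : (2 : K) ≠ 0)
    (hfix : (Finset.univ.filter fun c : K => σ c = c).card ≤ q)
    (htr : (Finset.univ.filter fun c : K => σ c = - c).card ≤ q)
    (hnm : ∀ d : K, d ≠ 0 → (Finset.univ.filter fun c : K => c * σ c = d).card ≤ q + 1)
    {P : Finset (Sk σ)} (hP : ∀ w ∈ P, IsPi σ x w) {D₁ : ℕ} (hD1 : 1 ≤ D₁) (hD : P.card ≤ D₁)
    (hqD : q ^ 2 ≤ D₁) {κ a b : ℕ} (ha1 : 1 ≤ a) (haκ : a ≤ κ) (hκa : κ ≤ 2 * a)
    (hκb : κ ≤ 2 * b + 1) (l : ℕ) :
    ((seqs P (2 * l)).filter fun L => X ^ a ∣ (lprod L).re - XX σ x ^ l ∧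
        X ^ b ∣ (lprod L).im).card * q ^ (κ + a) ≤
      4 ^ l * D₁ ^ l * q ^ (κ + a) + l * (64 ^ l * (q + 1) * D₁ ^ (2 * l)) := by
  set W := (seqs P (2 * l)).filter fun L => X ^ a ∣ (lprod L).re - XX σ x ^ l ∧
    X ^ b ∣ (lprod L).im with hW
  set sf : List (Sk σ) → ℕ := fun L => Nat.findGreatest (fun s => Dv (XX σ x ^ s) (lprod L)) l
    with hsf
  have hinv : ∀ L ∈ W, (lprod L).re.Monic ∧ (lprod L).re.natDegree = 2 * l ∧
      (lprod L).im.degree < (2 * l : ℕ) ∧ N (lprod L) = XX σ x ^ (2 * l) ∧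
      X ^ a ∣ (lprod L).re - XX σ x ^ l ∧ X ^ b ∣ (lprod L).im := by
    intro L hL
    rw [hW, Finset.mem_filter, mem_seqs] at hL
    obtain ⟨⟨hlen, hmem⟩, hA, hB⟩ := hL
    obtain ⟨i1, i2, i3, i4⟩ := lprod_inv (x := x) hσ L fun w hw => hP w (hmem w hw)
    rw [hlen] at i2 i3 i4
    exact ⟨i1, i2, i3, i4, hA, hB⟩
  have hs_le : ∀ L, sf L ≤ l := fun L => Nat.findGreatest_le _
  have hs_dv : ∀ L, Dv (XX σ x ^ sf L) (lprod L) := by
    intro L
    exact Nat.findGreatest_spec (P := fun s => Dv (XX σ x ^ s) (lprod L)) (Nat.zero_le l)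
      (by constructor <;> simp)
  have hs_max : ∀ L ∈ W, ¬ Dv (XX σ x ^ (sf L + 1)) (lprod L) := by
    intro L hL hdv
    obtain ⟨i1, i2, -⟩ := hinv L hL
    by_cases hlt : sf L + 1 ≤ l
    · exact Nat.findGreatest_is_greatest (P := fun s => Dv (XX σ x ^ s) (lprod L))
        (Nat.lt_succ_self _) hlt hdv
    · have := natDegree_le_of_dvd hdv.1 i1.ne_zero
      rw [natDegree_pow, XX_natDegree, i2] at this
      omega
  -- the fibres
  have hfib : ∀ s ≤ l, (W.filter fun L => sf L = s).card * q ^ (κ + a) ≤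
      if s = l then 4 ^ l * D₁ ^ l * q ^ (κ + a) else 64 ^ l * (q + 1) * D₁ ^ (2 * l) := by
    intro s hs
    set Ws := W.filter fun L => sf L = s with hWs
    have hex : ∀ L ∈ Ws, ∃ r', lprod L = smul (XX σ x ^ s) r' := by
      intro L hL
      rw [hWs, Finset.mem_filter] at hL
      have := hs_dv L
      rw [hL.2] at this
      exact Dv_iff.1 this
    set g : List (Sk σ) → Sk σ := fun L =>
      if h : ∃ r', lprod L = smul (XX σ x ^ s) r' then h.choose else 1 with hg
    have hgs : ∀ L ∈ Ws, lprod L = smul (XX σ x ^ s) (g L) := by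
      intro L hL
      have h := hex L hL
      rw [hg]
      simp only
      rw [dif_pos h]
      exact h.choose_spec
    have hcond : ∀ r ∈ Ws.image g, Cond σ (XX σ x ^ (l - s)) (2 * (l - s)) a b r := by
      intro r hr
      rw [Finset.mem_image] at hr
      obtain ⟨L, hL, rfl⟩ := hr
      have hLW : L ∈ W := (Finset.mem_filter.1 hL).1
      obtain ⟨i1, i2, i3, i4, i5, i6⟩ := hinv L hLW
      exact cond_of hσ hx0 hs i1 i2 i3 i4 i5 i6 (hgs L hL)
    have hc1 : Ws.card ≤ 2 ^ (2 * l) * D₁ ^ s * (Ws.image g).card := by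
      refine Finset.card_le_mul_card_image _ _ fun r hr => ?_
      rw [Finset.mem_image] at hr
      obtain ⟨L₀, hL₀, rfl⟩ := hr
      have hsub : (Ws.filter fun L => g L = g L₀) ⊆ (seqs P (2 * l)).filter
          fun L => lprod L = lprod L₀ := by
        intro L hL
        rw [Finset.mem_filter] at hL
        obtain ⟨hL1, hL2⟩ := hL
        rw [Finset.mem_filter]
        refine ⟨?_, ?_⟩
        · have := (Finset.mem_filter.1 hL1).1
          rw [hW] at this
          exact (Finset.mem_filter.1 this).1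
        · rw [hgs L hL1, hL2, ← hgs L₀ hL₀]
      refine (Finset.card_le_card hsub).trans ?_
      have hmax := hs_max L₀ (Finset.mem_filter.1 hL₀).1
      rw [(Finset.mem_filter.1 hL₀).2] at hmax
      exact cnt_le hσ hx hP hD1 hD (2 * l) s _ hmax
    have hYs : sg σ (XX σ x ^ (l - s)) = XX σ x ^ (l - s) := by rw [map_pow, sg_XX hσ]
    have hY0 : (XX σ x ^ (l - s)).coeff 0 ≠ 0 := XX_pow_coeff_zero hx0 _
    have h4 : (2 : ℕ) ^ (2 * l) = 4 ^ l := by rw [pow_mul]; norm_num
    by_cases hj : 2 * (l - s) ≤ κ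
    · -- trivial walks
      have hone : ∀ r ∈ Ws.image g, r = ⟨XX σ x ^ (l - s), 0⟩ := fun r hr =>
        (hcond r hr).small h2 hYs hY0 ha1 hκa hκb hj
      by_cases hsl : s = l
      · rw [if_pos hsl]
        have hc2 : (Ws.image g).card ≤ 1 := by
          rw [Finset.card_le_one]
          intro r hr r' hr'
          rw [hone r hr, hone r' hr']
        refine Nat.mul_le_mul_right _ ?_
        calc Ws.card ≤ 2 ^ (2 * l) * D₁ ^ s * (Ws.image g).card := hc1
          _ ≤ 2 ^ (2 * l) * D₁ ^ s * 1 := Nat.mul_le_mul_left _ hc2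
          _ = 4 ^ l * D₁ ^ l := by rw [mul_one, h4, hsl]
      · rw [if_neg hsl]
        have hemp : Ws = ∅ := by
          rw [Finset.eq_empty_iff_forall_notMem]
          intro L hL
          have h5 := hone (g L) (Finset.mem_image_of_mem _ hL)
          have h6 := hgs L hL
          rw [h5] at h6
          have hmax := hs_max L (Finset.mem_filter.1 hL).1
          rw [(Finset.mem_filter.1 hL).2] at hmax
          apply hmax
          rw [h6]
          refine ⟨?_, ?_⟩
          · change XX σ x ^ (s + 1) ∣ XX σ x ^ s * XX σ x ^ (l - s)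
            rw [← pow_add]
            exact pow_dvd_pow _ (by omega)
          · change XX σ x ^ (s + 1) ∣ XX σ x ^ s * 0
            rw [mul_zero]
            exact dvd_zero _
        rw [hemp]
        simp
    · have hsl : s ≠ l := by
        rintro rfl
        apply hj
        simp
      rw [if_neg hsl]
      have hc2 := Cond.card (R := Ws.image g) hσ h2 hfix htr hnm hYs hY0 ha1 hκa hκb hcond
      set u := l - s with hu
      have hul : u ≤ l := Nat.sub_le _ _
      have e16 : (2 : ℕ) ^ (2 * (2 * u)) ≤ 16 ^ l := by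
        calc (2 : ℕ) ^ (2 * (2 * u)) = 16 ^ u := by
              rw [show 2 * (2 * u) = 4 * u by ring, pow_mul]; norm_num
          _ ≤ 16 ^ l := Nat.pow_le_pow_right (by norm_num) hul
      have eq1 : q ^ (2 * u - κ) * q ^ (2 * u - a) * q ^ (κ + a) = (q ^ 2) ^ (2 * u) := by
        rw [← pow_add, ← pow_add, ← pow_mul]
        congr 1
        omega
      have eq2 : (q ^ 2) ^ (2 * u) ≤ D₁ ^ (2 * u) := Nat.pow_le_pow_left hqD _
      calc Ws.card * q ^ (κ + a)
          ≤ 2 ^ (2 * l) * D₁ ^ s * (Ws.image g).card * q ^ (κ + a) := Nat.mul_le_mul_right _ hc1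
        _ ≤ 2 ^ (2 * l) * D₁ ^ s * ((q + 1) * 2 ^ (2 * (2 * u)) *
              (q ^ (2 * u - κ) * q ^ (2 * u - a))) * q ^ (κ + a) :=
            Nat.mul_le_mul_right _ (Nat.mul_le_mul_left _ hc2)
        _ = 4 ^ l * D₁ ^ s * ((q + 1) * 2 ^ (2 * (2 * u))) *
              (q ^ (2 * u - κ) * q ^ (2 * u - a) * q ^ (κ + a)) := by rw [h4]; ring
        _ = 4 ^ l * D₁ ^ s * ((q + 1) * 2 ^ (2 * (2 * u))) * (q ^ 2) ^ (2 * u) := by rw [eq1]
        _ ≤ 4 ^ l * D₁ ^ s * ((q + 1) * 16 ^ l) * D₁ ^ (2 * u) :=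
            Nat.mul_le_mul (Nat.mul_le_mul_left _ (Nat.mul_le_mul_left _ e16)) eq2
        _ = 64 ^ l * (q + 1) * D₁ ^ (s + 2 * u) := by
            rw [show (64 : ℕ) = 4 * 16 by norm_num, mul_pow, pow_add]; ring
        _ ≤ 64 ^ l * (q + 1) * D₁ ^ (2 * l) :=
            Nat.mul_le_mul_left _ (Nat.pow_le_pow_right hD1 (by omega))
  -- sum over the fibres
  have hsum : W.card = ∑ s ∈ Finset.range (l + 1), (W.filter fun L => sf L = s).card :=
    Finset.card_eq_sum_card_fiberwise fun L _ => by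
      rw [Finset.mem_coe, Finset.mem_range]
      exact Nat.lt_succ_of_le (hs_le L)
  rw [hsum, Finset.sum_mul, Finset.sum_range_succ]
  have hlast := hfib l le_rfl
  rw [if_pos rfl] at hlast
  have hrest : ∑ s ∈ Finset.range l, (W.filter fun L => sf L = s).card * q ^ (κ + a) ≤
      l * (64 ^ l * (q + 1) * D₁ ^ (2 * l)) := by
    have : ∀ s ∈ Finset.range l, (W.filter fun L => sf L = s).card * q ^ (κ + a) ≤
        64 ^ l * (q + 1) * D₁ ^ (2 * l) := by
      intro s hs
      rw [Finset.mem_range] at hs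
      have := hfib s hs.le
      rwa [if_neg hs.ne] at this
    refine (Finset.sum_le_card_nsmul _ _ _ this).trans ?_
    rw [Finset.card_range, smul_eq_mul]
  rw [Nat.add_comm]
  exact Nat.add_le_add hlast hrest

end final

section instances

open scoped Classical

variable [Fintype K] {q : ℕ}

theorem card_roots_le {p : K[X]} (hp : p ≠ 0) {n : ℕ} (hn : p.natDegree ≤ n) {S : Finset K}
    (hS : ∀ c ∈ S, p.eval c = 0) : S.card ≤ n := by
  have hsub : S ⊆ p.roots.toFinset := by
    intro c hc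
    rw [Multiset.mem_toFinset, mem_roots hp]
    exact hS c hc
  exact (Finset.card_le_card hsub).trans
    ((Multiset.toFinset_card_le _).trans ((card_roots' p).trans hn))

theorem conj_conj (hc : Fintype.card K = q ^ 2) (hσq : ∀ a, σ a = a ^ q) (a : K) :
    σ (σ a) = a := by
  rw [hσq, hσq, ← pow_mul, ← sq, ← hc, FiniteField.pow_card]

theorem card_fix (hq : 2 ≤ q) (hσq : ∀ a, σ a = a ^ q) :
    (Finset.univ.filter fun c : K => σ c = c).card ≤ q := by
  have hd : (X ^ q - X : K[X]).natDegree = q := by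
    rw [natDegree_sub_eq_left_of_natDegree_lt] <;> simp <;> omega
  have h0 : (X ^ q - X : K[X]) ≠ 0 := by
    intro h
    rw [h, natDegree_zero] at hd
    omega
  refine card_roots_le h0 hd.le fun c hc => ?_
  rw [Finset.mem_filter] at hc
  rw [eval_sub, eval_pow, eval_X, ← hσq, hc.2, sub_self]

theorem card_trz (hq : 2 ≤ q) (hσq : ∀ a, σ a = a ^ q) :
    (Finset.univ.filter fun c : K => σ c = - c).card ≤ q := by
  have hd : (X ^ q + X : K[X]).natDegree = q := by
    rw [natDegree_add_eq_left_of_natDegree_lt] <;> simp <;> omega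
  have h0 : (X ^ q + X : K[X]) ≠ 0 := by
    intro h
    rw [h, natDegree_zero] at hd
    omega
  refine card_roots_le h0 hd.le fun c hc => ?_
  rw [Finset.mem_filter] at hc
  rw [eval_add, eval_pow, eval_X, ← hσq, hc.2, neg_add_cancel]

theorem card_nm (hσq : ∀ a, σ a = a ^ q) (d : K) :
    (Finset.univ.filter fun c : K => c * σ c = d).card ≤ q + 1 := by
  have hd : (X ^ (q + 1) - C d : K[X]).natDegree = q + 1 := natDegree_X_pow_sub_C
  have h0 : (X ^ (q + 1) - C d : K[X]) ≠ 0 := by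
    intro h
    rw [h, natDegree_zero] at hd
    omega
  refine card_roots_le h0 hd.le fun c hc => ?_
  rw [Finset.mem_filter] at hc
  rw [eval_sub, eval_pow, eval_X, eval_C, pow_succ, mul_comm, ← hσq, hc.2, sub_self]

/-- **(I), finite field form**: `|K| = q ^ 2`, `σ a = a ^ q`, `q` odd, `x ∉ 𝔽_q`, `P` any set of
elements `(t + c) + b τ` of norm `(t - x)(t - σ x)` with `|P| ≤ D₁`, `q ^ 2 ≤ D₁`; the number of
sequences of length `2 l` whose product is `XX ^ l` modulo `τ ^ (k + 1)` [`a = ⌈(k + 1) / 2⌉`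
coefficients of `re`, `b = ⌊(k + 1) / 2⌋` coefficients of `im`]. -/
theorem closed_walks_ff (hc : Fintype.card K = q ^ 2) (hσq : ∀ a, σ a = a ^ q) (hq : 2 ≤ q)
    (h2 : (2 : K) ≠ 0) {x : K} (hx : σ x ≠ x) {P : Finset (Sk σ)} (hP : ∀ w ∈ P, IsPi σ x w)
    {D₁ : ℕ} (hD : P.card ≤ D₁) (hqD : q ^ 2 ≤ D₁) (k l : ℕ) :
    ((seqs P (2 * l)).filter fun L => X ^ (k / 2 + 1) ∣ (lprod L).re - XX σ x ^ l ∧
        X ^ ((k + 1) / 2) ∣ (lprod L).im).card * q ^ (k + 1 + (k / 2 + 1)) ≤
      4 ^ l * D₁ ^ l * q ^ (k + 1 + (k / 2 + 1)) + l * (64 ^ l * (q + 1) * D₁ ^ (2 * l)) := by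
  have hx0 : x ≠ 0 := by
    rintro rfl
    exact hx (map_zero σ)
  have hD1 : 1 ≤ D₁ := le_trans (Nat.one_le_pow _ _ (by omega)) hqD
  exact closed_walks (conj_conj hc hσq) hx hx0 h2 (card_fix hq hσq) (card_trz hq hσq)
    (fun d _ => card_nm hσq d) hP hD1 hD hqD (κ := k + 1) (by omega) (by omega) (by omega)
    (by omega) l

end instances

end Crest.Agent.R289.Exp820
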