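import Mathlib
import Crest.Agent.R289.Tower_962

/-!
Row 289, block B1 (expansion), passage from the norm-one group to the principal units
(helper291).

* `passage` : a relative gap on `SG` (over the constants) for `t i = (p i0)⁻¹ p i` gives the gap
  on the mean-zero functions of `P = ker β` for `al i = be i * (be i0)⁻¹`, `be i = p i (κ i)⁻¹`.
* `MZ`, `MZ.inv` : real form, adjoint.
* `MZ.exp` : the form `Exp` of LR_846.
-/

set_option autoImplicit false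
set_option linter.unusedSectionVars false

namespace Crest.Agent.R289.Exp291

open Finset TraceM962 Tower962

section passage

variable {𝒢 : Type*} [Group 𝒢] {ι : Type*} [Fintype ι]

theorem passage (SG P : Subgroup 𝒢) [Fintype SG] [DecidableEq SG] [Fintype P]
    {B : Type*} [Group B] [Fintype B]
    (β : SG →* B) (m : B →* SG) (hβm : ∀ b, β (m b) = b)
    (hker : ∀ g : SG, β g = 1 ↔ (g : 𝒢) ∈ P) (hPS : P ≤ SG)
    (hmm : ∀ a b, m a * m b = m b * m a)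
    (p κ : ι → 𝒢) (i0 : ι) (t : ι → SG) (ht : ∀ i, (t i : 𝒢) = (p i0)⁻¹ * p i)
    (hconj : ∀ g ∈ P, p i0 * g * (p i0)⁻¹ ∈ P)
    (e : B → ι ≃ ι) (he : ∀ b i, (m b : 𝒢) * p i * (m b : 𝒢)⁻¹ = p (e b i))
    (hκ : ∀ b i, κ (e b i) = κ i)
    (hκm : ∀ i, (m (β (t i)) : 𝒢) = (κ i0)⁻¹ * κ i)
    (al : ι → P) (hal : ∀ i, (al i : 𝒢) = p i * (κ i)⁻¹ * κ i0 * (p i0)⁻¹)
    {μ : ℝ} (hgap : RelGap (β : SG → B) t μ) (h : P → ℂ) (hh : ∑ v, h v = 0) :
    ∑ v, ‖∑ i, h (v * al i)‖ ^ 2 ≤ μ * ∑ v, ‖h v‖ ^ 2 := by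
  classical
  -- conjugation by `p i0`
  let cj : P → P := fun v => ⟨p i0 * v * (p i0)⁻¹, hconj v v.2⟩
  have hcj : Function.Bijective cj := by
    rw [← Finite.injective_iff_bijective]
    intro v w hvw
    have h1 : p i0 * (v : 𝒢) * (p i0)⁻¹ = p i0 * (w : 𝒢) * (p i0)⁻¹ := congrArg Subtype.val hvw
    exact Subtype.ext (by simpa using h1)
  -- the retraction
  have hret : ∀ g : SG, ((g * (m (β g))⁻¹ : SG) : 𝒢) ∈ P := by
    intro g
    rw [← hker, map_mul, map_inv, hβm, mul_inv_cancel]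
  let F : SG → ℂ := fun g => h (cj ⟨((g * (m (β g))⁻¹ : SG) : 𝒢), hret g⟩)
  -- coordinates
  let E : P × B ≃ SG :=
    { toFun := fun z => ⟨(z.1 : 𝒢), hPS z.1.2⟩ * m z.2
      invFun := fun g => (⟨((g * (m (β g))⁻¹ : SG) : 𝒢), hret g⟩, β g)
      left_inv := by
        rintro ⟨v, b⟩
        have h1 : β ⟨(v : 𝒢), hPS v.2⟩ = 1 := (hker _).2 v.2
        have h2 : β (⟨(v : 𝒢), hPS v.2⟩ * m b) = b := by rw [map_mul, h1, hβm, one_mul]
        refine Prod.ext ?_ h2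
        apply Subtype.ext
        simp only [h2, mul_inv_cancel_right]
      right_inv := by
        intro g
        apply Subtype.ext
        simp }
  have hβE : ∀ v b, β (E (v, b)) = b := by
    intro v b
    have h1 : β ⟨(v : 𝒢), hPS v.2⟩ = 1 := (hker _).2 v.2
    change β (⟨(v : 𝒢), hPS v.2⟩ * m b) = b
    rw [map_mul, h1, hβm, one_mul]
  have hcoeE : ∀ v b, (E (v, b) : 𝒢) = (v : 𝒢) * (m b : 𝒢) := fun v b => rfl
  have hFE : ∀ v b, F (E (v, b)) = h (cj v) := by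
    intro v b
    simp only [F]
    congr 2
    apply Subtype.ext
    simp only [Subgroup.coe_mul, Subgroup.coe_inv, hβE, hcoeE, mul_inv_cancel_right]
  have hsum : ∀ u : P → ℂ, ∑ v, u (cj v) = ∑ v, u v := fun u => hcj.sum_comp u
  -- orthogonality
  have horth : Orth (β : SG → B) F := by
    intro w
    rw [← Equiv.sum_comp E, Fintype.sum_prod_type, Finset.sum_comm]
    refine Finset.sum_eq_zero fun b _ => ?_
    simp only [hβE, hFE]
    rw [← Finset.mul_sum, hsum h, hh, mul_zero]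
  have key := hgap F horth
  -- the right hand side
  have e1 : ∑ g, ‖F g‖ ^ 2 = Fintype.card B * ∑ v, ‖h v‖ ^ 2 := by
    rw [← Equiv.sum_comp E, Fintype.sum_prod_type, Finset.sum_comm]
    simp only [hFE]
    rw [Finset.sum_const, Finset.card_univ, nsmul_eq_mul]
    congr 1
    exact hcj.sum_comp fun v => ‖h v‖ ^ 2
  -- the left hand side
  have hterm : ∀ v b i, F (E (v, b) * t i) = h (cj v * (al (e b i0))⁻¹ * al (e b i)) := by
    intro v b i
    simp only [F]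
    congr 1
    apply Subtype.ext
    have h1 : β (E (v, b) * t i) = b * β (t i) := by rw [map_mul, hβE]
    have h2 : ((m (b * β (t i)))⁻¹ : SG) = (m b)⁻¹ * (m (β (t i)))⁻¹ := by
      rw [map_mul, hmm, mul_inv_rev]
    simp only [cj, h1, h2, Subgroup.coe_mul, Subgroup.coe_inv, hcoeE, ht, hal, hκ, hκm]
    have h3 : p (e b i0) = (m b : 𝒢) * p i0 * (m b : 𝒢)⁻¹ := (he b i0).symm
    have h4 : p (e b i) = (m b : 𝒢) * p i * (m b : 𝒢)⁻¹ := (he b i).symm
    rw [h3, h4]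
    group
  have e2 : ∑ g, ‖adj t F g‖ ^ 2 = Fintype.card B * ∑ v, ‖∑ i, h (v * al i)‖ ^ 2 := by
    rw [← Equiv.sum_comp E, Fintype.sum_prod_type, Finset.sum_comm]
    have hb : ∀ b : B, ∑ v, ‖adj t F (E (v, b))‖ ^ 2 = ∑ v, ‖∑ i, h (v * al i)‖ ^ 2 := by
      intro b
      have h1 : ∀ v, adj t F (E (v, b)) = ∑ i, h (cj v * (al (e b i0))⁻¹ * al i) := by
        intro v
        simp only [adj, hterm]
        exact Equiv.sum_comp (e b) fun i => h (cj v * (al (e b i0))⁻¹ * al i)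
      simp only [h1]
      rw [hcj.sum_comp fun v => ‖∑ i, h (v * (al (e b i0))⁻¹ * al i)‖ ^ 2]
      exact Equiv.sum_comp (Equiv.mulRight (al (e b i0))⁻¹)
        fun v => ‖∑ i, h (v * al i)‖ ^ 2
    rw [Finset.sum_congr rfl fun b _ => hb b, Finset.sum_const, Finset.card_univ, nsmul_eq_mul]
  rw [e1, e2] at key
  have hB : (0 : ℝ) < Fintype.card B := by exact_mod_cast Fintype.card_pos
  refine le_of_mul_le_mul_left ?_ hB
  calc (Fintype.card B : ℝ) * ∑ v, ‖∑ i, h (v * al i)‖ ^ 2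
      ≤ μ * (Fintype.card B * ∑ v, ‖h v‖ ^ 2) := key
    _ = Fintype.card B * (μ * ∑ v, ‖h v‖ ^ 2) := by ring

end passage

section mz

variable {P : Type*} [Group P] [Fintype P] {ι : Type*} [Fintype ι]

/-- gap on the mean-zero real functions -/
def MZ (s : ι → P) (μ : ℝ) : Prop :=
  ∀ h : P → ℝ, ∑ v, h v = 0 → ∑ v, (∑ i, h (v * s i)) ^ 2 ≤ μ * ∑ v, h v ^ 2

theorem MZ.of_complex {s : ι → P} {μ : ℝ}
    (H : ∀ h : P → ℂ, ∑ v, h v = 0 → ∑ v, ‖∑ i, h (v * s i)‖ ^ 2 ≤ μ * ∑ v, ‖h v‖ ^ 2) :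
    MZ s μ := by
  intro h hh
  have h1 := H (fun v => (h v : ℂ)) (by rw [← Complex.ofReal_sum, hh, Complex.ofReal_zero])
  have h2 : ∀ v, ‖∑ i, ((h (v * s i) : ℝ) : ℂ)‖ ^ 2 = (∑ i, h (v * s i)) ^ 2 := by
    intro v
    rw [← Complex.ofReal_sum, Complex.norm_real, Real.norm_eq_abs, sq_abs]
  have h3 : ∀ v, ‖((h v : ℝ) : ℂ)‖ ^ 2 = h v ^ 2 := by
    intro v
    rw [Complex.norm_real, Real.norm_eq_abs, sq_abs]
  simpa only [h2, h3] using h1

/-- the adjoint -/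
theorem MZ.inv {s : ι → P} {μ : ℝ} (hμ : 0 ≤ μ) (H : MZ s μ) : MZ (fun i => (s i)⁻¹) μ := by
  intro h hh
  set g : P → ℝ := fun v => ∑ i, h (v * (s i)⁻¹) with hg
  have hg0 : ∑ v, g v = 0 := by
    simp only [hg]
    rw [Finset.sum_comm]
    refine Finset.sum_eq_zero fun i _ => ?_
    rw [← hh]
    exact Equiv.sum_comp (Equiv.mulRight (s i)⁻¹) h
  have h1 := H g hg0
  have h2 : ∑ v, g v ^ 2 = ∑ u, h u * ∑ i, g (u * s i) := by
    have : ∀ v, g v ^ 2 = ∑ i, h (v * (s i)⁻¹) * g v := by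
      intro v
      rw [← Finset.sum_mul, sq]
    simp only [this, Finset.mul_sum]
    rw [Finset.sum_comm]
    conv_rhs => rw [Finset.sum_comm]
    refine Finset.sum_congr rfl fun i _ => ?_
    rw [← Equiv.sum_comp (Equiv.mulRight (s i)) (fun v => h (v * (s i)⁻¹) * g v)]
    simp only [Equiv.coe_mulRight, mul_inv_cancel_right]
  have h3 : (∑ v, g v ^ 2) ^ 2 ≤ (∑ v, h v ^ 2) * (μ * ∑ v, g v ^ 2) := by
    calc (∑ v, g v ^ 2) ^ 2 = (∑ u, h u * ∑ i, g (u * s i)) ^ 2 := by rw [h2]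
      _ ≤ (∑ u, h u ^ 2) * ∑ u, (∑ i, g (u * s i)) ^ 2 := Finset.sum_mul_sq_le_sq_mul_sq _ _ _
      _ ≤ (∑ u, h u ^ 2) * (μ * ∑ v, g v ^ 2) :=
          mul_le_mul_of_nonneg_left h1 (Finset.sum_nonneg fun _ _ => sq_nonneg _)
  have h4 : 0 ≤ ∑ v, g v ^ 2 := Finset.sum_nonneg fun _ _ => sq_nonneg _
  have h5 : 0 ≤ ∑ v, h v ^ 2 := Finset.sum_nonneg fun _ _ => sq_nonneg _
  change ∑ v, g v ^ 2 ≤ μ * ∑ v, h v ^ 2
  rcases h4.eq_or_lt with h6 | h6
  · rw [← h6]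
    positivity
  · refine le_of_mul_le_mul_right ?_ h6
    calc (∑ v, g v ^ 2) * ∑ v, g v ^ 2 = (∑ v, g v ^ 2) ^ 2 := (sq _).symm
      _ ≤ (∑ v, h v ^ 2) * (μ * ∑ v, g v ^ 2) := h3
      _ = μ * (∑ v, h v ^ 2) * ∑ v, g v ^ 2 := by ring

/-- right translates of the generators -/
theorem MZ.mul_right {s : ι → P} {μ : ℝ} (H : MZ s μ) (a : P) : MZ (fun i => s i * a) μ := by
  intro h hh
  have h0 : ∑ v, h (v * a) = 0 := by
    rw [← hh]
    exact Equiv.sum_comp (Equiv.mulRight a) h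
  have h1 := H (fun v => h (v * a)) h0
  have h2 : ∑ v, h (v * a) ^ 2 = ∑ v, h v ^ 2 :=
    Equiv.sum_comp (Equiv.mulRight a) fun v => h v ^ 2
  simpa only [h2, mul_assoc] using h1

/-- left translates of the generators -/
theorem MZ.mul_left {s : ι → P} {μ : ℝ} (H : MZ s μ) (a : P) : MZ (fun i => a * s i) μ := by
  intro h hh
  have h1 := H h hh
  have h2 : ∑ v, (∑ i, h (v * (a * s i))) ^ 2 = ∑ v, (∑ i, h (v * s i)) ^ 2 := by
    rw [← Equiv.sum_comp (Equiv.mulRight a) fun v => (∑ i, h (v * s i)) ^ 2]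
    simp only [Equiv.coe_mulRight, mul_assoc]
  rw [h2]
  exact h1

/-- the form of LR_846 (`Exp`) -/
theorem MZ.exp {s : ι → P} {lam : ℝ}
    (H : MZ s ((Fintype.card ι : ℝ) ^ 2 * lam ^ 2)) (g : P → ℝ) :
    ∑ v, (∑ i, g (v * s i)) ^ 2 ≤ (Fintype.card ι : ℝ) ^ 2 *
      ((∑ v, g v) ^ 2 / Fintype.card P + lam ^ 2 * ∑ v, g v ^ 2) := by
  set N : ℝ := (Fintype.card P : ℝ) with hN
  set n : ℝ := (Fintype.card ι : ℝ) with hn
  have hN0 : 0 < N := by
    rw [hN]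
    exact_mod_cast Fintype.card_pos
  set a : ℝ := (∑ v, g v) / N with ha
  set h : P → ℝ := fun v => g v - a with hh
  have hNa : N * a = ∑ v, g v := by
    rw [ha]
    field_simp
  have hsum : ∑ v, h v = 0 := by
    simp only [hh, Finset.sum_sub_distrib, Finset.sum_const, Finset.card_univ, nsmul_eq_mul]
    rw [← hN, hNa, sub_self]
  have h1 := H h hsum
  have hG : ∀ v, ∑ i, g (v * s i) = ∑ i, h (v * s i) + n * a := by
    intro v
    simp only [hh, Finset.sum_sub_distrib, Finset.sum_const, Finset.card_univ, nsmul_eq_mul]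
    rw [← hn]
    ring
  have hcross : ∑ v, ∑ i, h (v * s i) = 0 := by
    rw [Finset.sum_comm]
    refine Finset.sum_eq_zero fun i _ => ?_
    rw [← hsum]
    exact Equiv.sum_comp (Equiv.mulRight (s i)) h
  have h2 : ∑ v, (∑ i, g (v * s i)) ^ 2 = ∑ v, (∑ i, h (v * s i)) ^ 2 + N * (n * a) ^ 2 := by
    have : ∀ v, (∑ i, g (v * s i)) ^ 2 =
        (∑ i, h (v * s i)) ^ 2 + 2 * (n * a) * ∑ i, h (v * s i) + (n * a) ^ 2 := by
      intro v
      rw [hG]
      ring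
    simp only [this, Finset.sum_add_distrib, ← Finset.mul_sum, hcross, Finset.sum_const,
      Finset.card_univ, nsmul_eq_mul, mul_zero, add_zero]
    rw [← hN]
  have h3 : ∑ v, h v ^ 2 = ∑ v, g v ^ 2 - N * a ^ 2 := by
    have : ∀ v, h v ^ 2 = g v ^ 2 - 2 * a * g v + a ^ 2 := by
      intro v
      simp only [hh]
      ring
    simp only [this, Finset.sum_add_distrib, Finset.sum_sub_distrib, ← Finset.mul_sum,
      Finset.sum_const, Finset.card_univ, nsmul_eq_mul]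
    rw [← hN, ← hNa]
    ring
  have h4 : (∑ v, g v) ^ 2 / N = N * a ^ 2 := by
    rw [← hNa]
    field_simp
  rw [h2, h4]
  have h5 : (n : ℝ) ^ 2 * lam ^ 2 * ∑ v, h v ^ 2 ≤ n ^ 2 * lam ^ 2 * ∑ v, g v ^ 2 := by
    refine mul_le_mul_of_nonneg_left ?_ (by positivity)
    rw [h3]
    have : 0 ≤ N * a ^ 2 := by positivity
    linarith
  calc ∑ v, (∑ i, h (v * s i)) ^ 2 + N * (n * a) ^ 2
      ≤ n ^ 2 * lam ^ 2 * ∑ v, g v ^ 2 + N * (n * a) ^ 2 := by linarith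
    _ = n ^ 2 * (N * a ^ 2 + lam ^ 2 * ∑ v, g v ^ 2) := by ring

end mz

end Crest.Agent.R289.Exp291
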