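import Mathlib

/-!
Row 289, block B3 (helper509).  Local testability of a two-place (square complex) code from
vertex expansion and agreement robustness of the local codes.
-/

set_option autoImplicit false
set_option linter.unusedSectionVars false

namespace Crest.Agent.R289.LTC509

open Finset Classical

/-- A square complex, given by its flags (vertex, x-label, y-label). -/
structure SqC (V I J : Type*) where
  xn : V → I → V
  xi : V → I → I
  xj : V → I → J → J
  yn : V → J → V
  yj : V → J → J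
  yi : V → J → I → I
  xxn : ∀ v i, xn (xn v i) (xi v i) = v
  xxi : ∀ v i, xi (xn v i) (xi v i) = i
  xxj : ∀ v i j, xj (xn v i) (xi v i) (xj v i j) = j
  yyn : ∀ v j, yn (yn v j) (yj v j) = v
  yyj : ∀ v j, yj (yn v j) (yj v j) = j
  yyi : ∀ v j i, yi (yn v j) (yj v j) (yi v j i) = i
  comm_v : ∀ v i j, yn (xn v i) (xj v i j) = xn (yn v j) (yi v j i)
  comm_i : ∀ v i j, yi (xn v i) (xj v i j) (xi v i) = xi (yn v j) (yi v j i)
  comm_j : ∀ v i j, yj (xn v i) (xj v i j) = xj (yn v j) (yi v j i) (yj v j)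
  xne : ∀ v i, xn v i ≠ v
  yne : ∀ v j, yn v j ≠ v

variable {V I J K : Type*} [Fintype V] [Fintype I] [Fintype J]

namespace SqC

variable (S : SqC V I J)

/-- value of the table family at the x-opposite flag -/
def oX (T : V → I → J → K) (v : V) (i : I) (j : J) : K := T (S.xn v i) (S.xi v i) (S.xj v i j)

/-- value of the table family at the y-opposite flag -/
def oY (T : V → I → J → K) (v : V) (i : I) (j : J) : K := T (S.yn v j) (S.yi v j i) (S.yj v j)

/-- disputed x-edge -/
def dX (T : V → I → J → K) (v : V) (i : I) : Prop := ∃ j, T v i j ≠ S.oX T v i j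

/-- disputed y-edge -/
def dY (T : V → I → J → K) (v : V) (j : J) : Prop := ∃ i, T v i j ≠ S.oY T v i j

/-- weighted number of disputed x-edges at a vertex -/
noncomputable def px (T : V → I → J → K) (v : V) : ℕ :=
  Fintype.card J * (univ.filter fun i => S.dX T v i).card

/-- weighted number of disputed y-edges at a vertex -/
noncomputable def py (T : V → I → J → K) (v : V) : ℕ :=
  Fintype.card I * (univ.filter fun j => S.dY T v j).card

/-- the potential -/
noncomputable def pot (T : V → I → J → K) : ℕ := ∑ v, (S.px T v + S.py T v)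

/-- a word (family of tables that agree on all squares) -/
def Word (T : V → I → J → K) : Prop := (∀ v i j, T v i j = S.oX T v i j) ∧ ∀ v i j, T v i j = S.oY T v i j

theorem word_of_pot (hI : Nonempty I) (hJ : Nonempty J) (T : V → I → J → K) (h : S.pot T = 0) :
    S.Word T := by
  have h1 := Finset.sum_eq_zero_iff.1 h
  have cI : 0 < Fintype.card I := Fintype.card_pos
  have cJ : 0 < Fintype.card J := Fintype.card_pos
  constructor
  · intro v i j
    by_contra hne
    have h2 := h1 v (mem_univ _)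
    have h3 : S.px T v = 0 := by omega
    rw [px, Nat.mul_eq_zero] at h3
    rcases h3 with h3 | h3
    · omega
    · rw [Finset.card_eq_zero, Finset.filter_eq_empty_iff] at h3
      exact h3 (mem_univ i) ⟨j, hne⟩
  · intro v i j
    by_contra hne
    have h2 := h1 v (mem_univ _)
    have h3 : S.py T v = 0 := by omega
    rw [py, Nat.mul_eq_zero] at h3
    rcases h3 with h3 | h3
    · omega
    · rw [Finset.card_eq_zero, Finset.filter_eq_empty_iff] at h3
      exact h3 (mem_univ j) ⟨i, hne⟩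

/-- the x-edge involution on (vertex, x-label) -/
def ex (e : V × I) : V × I := (S.xn e.1 e.2, S.xi e.1 e.2)

/-- the y-edge involution on (vertex, y-label) -/
def ey (e : V × J) : V × J := (S.yn e.1 e.2, S.yj e.1 e.2)

theorem ex_ex (e : V × I) : S.ex (S.ex e) = e := by
  simp [ex, S.xxn, S.xxi]

theorem ey_ey (e : V × J) : S.ey (S.ey e) = e := by
  simp [ey, S.yyn, S.yyj]

theorem dX_ex (T : V → I → J → K) (e : V × I) :
    S.dX T (S.ex e).1 (S.ex e).2 ↔ S.dX T e.1 e.2 := by
  constructor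
  · rintro ⟨j, hj⟩
    refine ⟨S.xj (S.ex e).1 (S.ex e).2 j, fun h => hj ?_⟩
    have h1 : S.oX T (S.ex e).1 (S.ex e).2 j = T e.1 e.2 (S.xj (S.ex e).1 (S.ex e).2 j) := by
      simp only [oX, ex, S.xxn, S.xxi]
    have h2 : S.oX T e.1 e.2 (S.xj (S.ex e).1 (S.ex e).2 j) = T (S.ex e).1 (S.ex e).2 j := by
      have h3 := S.xxj (S.ex e).1 (S.ex e).2 j
      simp only [ex, S.xxn, S.xxi] at h3
      simp only [oX, ex]
      rw [h3]
    rw [h1, h, h2]
  · rintro ⟨j, hj⟩
    refine ⟨S.xj e.1 e.2 j, fun h => hj ?_⟩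
    have h1 : S.oX T (S.ex e).1 (S.ex e).2 (S.xj e.1 e.2 j) = T e.1 e.2 j := by
      simp only [oX, ex, S.xxn, S.xxi, S.xxj]
    rw [h1] at h
    rw [← h]
    rfl

theorem dY_ey (T : V → I → J → K) (e : V × J) :
    S.dY T (S.ey e).1 (S.ey e).2 ↔ S.dY T e.1 e.2 := by
  constructor
  · rintro ⟨i, hi⟩
    refine ⟨S.yi (S.ey e).1 (S.ey e).2 i, fun h => hi ?_⟩
    have h1 : S.oY T (S.ey e).1 i (S.ey e).2 = T e.1 (S.yi (S.ey e).1 (S.ey e).2 i) e.2 := by
      simp only [oY, ey, S.yyn, S.yyj]
    have h2 : S.oY T e.1 (S.yi (S.ey e).1 (S.ey e).2 i) e.2 = T (S.ey e).1 i (S.ey e).2 := by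
      have h3 := S.yyi (S.ey e).1 (S.ey e).2 i
      simp only [ey, S.yyn, S.yyj] at h3
      simp only [oY, ey]
      rw [h3]
    rw [h1, h, h2]
  · rintro ⟨i, hi⟩
    refine ⟨S.yi e.1 e.2 i, fun h => hi ?_⟩
    have h1 : S.oY T (S.ey e).1 (S.yi e.1 e.2 i) (S.ey e).2 = T e.1 i e.2 := by
      simp only [oY, ey, S.yyn, S.yyj, S.yyi]
    rw [h1] at h
    rw [← h]
    rfl

end SqC

/-- sums over the edges of an involution without loops: the part at a vertex counts twice -/
theorem sum_edges {E V : Type*} [Fintype E] [Fintype V] (src : E → V) (inv : E → E)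
    (hinv : ∀ e, inv (inv e) = e) (hne : ∀ e, src (inv e) ≠ src e) (c : E → ℕ)
    (hc : ∀ e, c (inv e) = c e) (v : V) :
    ∑ e, c e = 2 * (∑ e ∈ univ.filter (fun e => src e = v), c e) +
      ∑ e ∈ univ.filter (fun e => src e ≠ v ∧ src (inv e) ≠ v), c e := by
  have h1 : ∑ e, c e = ∑ e ∈ univ.filter (fun e => src e = v), c e +
      ∑ e ∈ univ.filter (fun e => ¬ src e = v), c e := by
    rw [Finset.sum_filter_add_sum_filter_not]
  have h2 : ∑ e ∈ univ.filter (fun e => ¬ src e = v), c e =
      ∑ e ∈ (univ.filter (fun e => ¬ src e = v)).filter (fun e => src (inv e) = v), c e +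
      ∑ e ∈ (univ.filter (fun e => ¬ src e = v)).filter (fun e => ¬ src (inv e) = v), c e := by
    rw [Finset.sum_filter_add_sum_filter_not]
  have h3 : ∑ e ∈ (univ.filter (fun e => ¬ src e = v)).filter (fun e => src (inv e) = v), c e =
      ∑ e ∈ univ.filter (fun e => src e = v), c e := by
    refine Finset.sum_bij' (fun e _ => inv e) (fun e _ => inv e) ?_ ?_ ?_ ?_ ?_
    · intro e he
      simp only [mem_filter, mem_univ, true_and] at he ⊢
      exact he.2
    · intro e he
      simp only [mem_filter, mem_univ, true_and] at he ⊢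
      refine ⟨?_, by rw [hinv]; exact he⟩
      rw [← he]
      exact hne e
    · intro e _; exact hinv e
    · intro e _; exact hinv e
    · intro e _; exact (hc e).symm
  have h4 : (univ.filter (fun e => ¬ src e = v)).filter (fun e => ¬ src (inv e) = v) =
      univ.filter (fun e => src e ≠ v ∧ src (inv e) ≠ v) := by
    ext e; simp
  rw [h1, h2, h3, h4]
  ring

namespace SqC

variable (S : SqC V I J)

/-- change one table -/
noncomputable def upd (T : V → I → J → K) (v : V) (w : I → J → K) : V → I → J → K :=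
  Function.update T v w

theorem px_sum (T : V → I → J → K) :
    ∑ v, S.px T v = Fintype.card J * ∑ e : V × I, (if S.dX T e.1 e.2 then 1 else 0) := by
  rw [Fintype.sum_prod_type, Finset.mul_sum]
  refine Finset.sum_congr rfl fun v _ => ?_
  rw [px, Finset.card_filter]

theorem py_sum (T : V → I → J → K) :
    ∑ v, S.py T v = Fintype.card I * ∑ e : V × J, (if S.dY T e.1 e.2 then 1 else 0) := by
  rw [Fintype.sum_prod_type, Finset.mul_sum]
  refine Finset.sum_congr rfl fun v _ => ?_
  rw [py, Finset.card_filter]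

theorem at_v {E : Type*} [Fintype E] (v : V) (c : V × E → ℕ) :
    ∑ e ∈ univ.filter (fun e : V × E => e.1 = v), c e = ∑ i, c (v, i) := by
  rw [Finset.sum_filter, Fintype.sum_prod_type]
  rw [Finset.sum_eq_single v]
  · simp
  · intro b _ hb
    simp [hb]
  · intro h; exact absurd (mem_univ v) h

theorem px_eq (T : V → I → J → K) (v : V) :
    S.px T v = Fintype.card J * ∑ i, (if S.dX T v i then 1 else 0) := by
  rw [px, Finset.card_filter]

theorem py_eq (T : V → I → J → K) (v : V) :
    S.py T v = Fintype.card I * ∑ j, (if S.dY T v j then 1 else 0) := by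
  rw [py, Finset.card_filter]

theorem dX_upd_of_ne (T : V → I → J → K) (v : V) (w : I → J → K) (u : V) (i : I) (h1 : u ≠ v)
    (h2 : S.xn u i ≠ v) : S.dX (upd T v w) u i ↔ S.dX T u i := by
  simp only [dX, oX, upd, Function.update_of_ne h1, Function.update_of_ne h2]

theorem dY_upd_of_ne (T : V → I → J → K) (v : V) (w : I → J → K) (u : V) (j : J) (h1 : u ≠ v)
    (h2 : S.yn u j ≠ v) : S.dY (upd T v w) u j ↔ S.dY T u j := by
  simp only [dY, oY, upd, Function.update_of_ne h1, Function.update_of_ne h2]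

/-- the potential changes by twice the change at the vertex -/
theorem pot_upd (T : V → I → J → K) (v : V) (w : I → J → K) :
    ∃ R : ℕ, S.pot T = 2 * (S.px T v + S.py T v) + R ∧
      S.pot (upd T v w) = 2 * (S.px (upd T v w) v + S.py (upd T v w) v) + R := by
  have key : ∀ T' : V → I → J → K, S.pot T' = 2 * (S.px T' v + S.py T' v) +
      (Fintype.card J * ∑ e ∈ univ.filter (fun e : V × I => e.1 ≠ v ∧ (S.ex e).1 ≠ v),
          (if S.dX T' e.1 e.2 then 1 else 0) +
        Fintype.card I * ∑ e ∈ univ.filter (fun e : V × J => e.1 ≠ v ∧ (S.ey e).1 ≠ v),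
          (if S.dY T' e.1 e.2 then 1 else 0)) := by
    intro T'
    rw [pot, Finset.sum_add_distrib, S.px_sum, S.py_sum]
    rw [sum_edges (fun e : V × I => e.1) S.ex S.ex_ex (fun e => S.xne e.1 e.2)
      (fun e => if S.dX T' e.1 e.2 then 1 else 0)
      (fun e => by simp only [S.dX_ex]) v]
    rw [sum_edges (fun e : V × J => e.1) S.ey S.ey_ey (fun e => S.yne e.1 e.2)
      (fun e => if S.dY T' e.1 e.2 then 1 else 0)
      (fun e => by simp only [S.dY_ey]) v]
    rw [at_v, at_v, S.px_eq, S.py_eq]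
    ring
  refine ⟨_, key T, ?_⟩
  rw [key (upd T v w)]
  congr 1
  congr 1
  · congr 1
    refine Finset.sum_congr rfl fun e he => ?_
    simp only [mem_filter, mem_univ, true_and] at he
    simp only [S.dX_upd_of_ne T v w e.1 e.2 he.1 he.2]
  · congr 1
    refine Finset.sum_congr rfl fun e he => ?_
    simp only [mem_filter, mem_univ, true_and] at he
    simp only [S.dY_upd_of_ne T v w e.1 e.2 he.1 he.2]

/-- agreement robustness of the local codes -/
def Rob (LC : V → Set (I → J → K)) (κ : ℝ) : Prop :=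
  ∀ (v : V) (T : V → I → J → K), (∀ u, T u ∈ LC u) → ∃ w ∈ LC v,
    ((Fintype.card J * (univ.filter fun i => ∃ j, w i j ≠ S.oX T v i j).card +
      Fintype.card I * (univ.filter fun j => ∃ i, w i j ≠ S.oY T v i j).card : ℕ) : ℝ) ≤
      κ * ((univ.filter fun p : I × J => S.oY T v p.1 p.2 ≠ S.oX T v p.1 p.2).card : ℝ)

/-- expansion of the x-graph and the y-graph on vertices -/
def Exp (a l : ℝ) : Prop :=
  (∀ h : V → ℝ, (∀ v, 0 ≤ h v) → ∑ v, ((∑ i, h (S.xn v i)) / Fintype.card I) ^ 2 ≤
      a / Fintype.card V * (∑ v, h v) ^ 2 + l ^ 2 * ∑ v, h v ^ 2) ∧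
  (∀ h : V → ℝ, (∀ v, 0 ≤ h v) → ∑ v, ((∑ j, h (S.yn v j)) / Fintype.card J) ^ 2 ≤
      a / Fintype.card V * (∑ v, h v) ^ 2 + l ^ 2 * ∑ v, h v ^ 2)

theorem px_upd (T : V → I → J → K) (v : V) (w : I → J → K) :
    S.px (upd T v w) v = Fintype.card J * (univ.filter fun i => ∃ j, w i j ≠ S.oX T v i j).card := by
  have h : ∀ i, S.dX (upd T v w) v i ↔ ∃ j, w i j ≠ S.oX T v i j := fun i => by
    simp only [dX, oX, upd, Function.update_self, Function.update_of_ne (S.xne _ _)]
  simp only [px, h]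

theorem py_upd (T : V → I → J → K) (v : V) (w : I → J → K) :
    S.py (upd T v w) v = Fintype.card I * (univ.filter fun j => ∃ i, w i j ≠ S.oY T v i j).card := by
  have h : ∀ j, S.dY (upd T v w) v j ↔ ∃ i, w i j ≠ S.oY T v i j := fun j => by
    simp only [dY, oY, upd, Function.update_self, Function.update_of_ne (S.yne _ _)]
  simp only [py, h]

theorem yi_bij (v : V) (j : J) : Function.Bijective (S.yi v j) := by
  have hinj : Function.Injective (S.yi v j) := by
    intro i i' h
    have h1 := S.yyi v j i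
    rw [h, S.yyi] at h1
    exact h1.symm
  exact (Finite.injective_iff_bijective).1 hinj

theorem xj_bij (v : V) (i : I) : Function.Bijective (S.xj v i) := by
  have hinj : Function.Injective (S.xj v i) := by
    intro j j' h
    have h1 := S.xxj v i j
    rw [h, S.xxj] at h1
    exact h1.symm
  exact (Finite.injective_iff_bijective).1 hinj

/-- around the far corner of a square -/
theorem far (T : V → I → J → K) (v : V) (i : I) (j : J) (h : S.oY T v i j ≠ S.oX T v i j) :
    S.dX T (S.yn v j) (S.yi v j i) ∨ S.dY T (S.xn v i) (S.xj v i j) := by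
  by_contra hcon
  rw [not_or] at hcon
  obtain ⟨h1, h2⟩ := hcon
  apply h
  have e1 : T (S.yn v j) (S.yi v j i) (S.yj v j) =
      S.oX T (S.yn v j) (S.yi v j i) (S.yj v j) := by
    by_contra hne
    exact h1 ⟨_, hne⟩
  have e2 : T (S.xn v i) (S.xi v i) (S.xj v i j) =
      S.oY T (S.xn v i) (S.xi v i) (S.xj v i j) := by
    by_contra hne
    exact h2 ⟨_, hne⟩
  have e3 : S.oX T (S.yn v j) (S.yi v j i) (S.yj v j) =
      S.oY T (S.xn v i) (S.xi v i) (S.xj v i j) := by
    simp only [oX, oY, S.comm_v, S.comm_i, S.comm_j]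
  calc S.oY T v i j = T (S.yn v j) (S.yi v j i) (S.yj v j) := rfl
    _ = S.oX T (S.yn v j) (S.yi v j i) (S.yj v j) := e1
    _ = S.oY T (S.xn v i) (S.xi v i) (S.xj v i j) := e3
    _ = T (S.xn v i) (S.xi v i) (S.xj v i j) := e2.symm
    _ = S.oX T v i j := rfl

theorem far_count (hI : Nonempty I) (hJ : Nonempty J) (T : V → I → J → K) (v : V) :
    ((univ.filter fun p : I × J => S.oY T v p.1 p.2 ≠ S.oX T v p.1 p.2).card : ℝ) ≤
      (∑ j, (S.px T (S.yn v j) : ℝ)) / Fintype.card J +
        (∑ i, (S.py T (S.xn v i) : ℝ)) / Fintype.card I := by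
  have cI : (0 : ℝ) < Fintype.card I := by exact_mod_cast Fintype.card_pos
  have cJ : (0 : ℝ) < Fintype.card J := by exact_mod_cast Fintype.card_pos
  have h1 : (univ.filter fun p : I × J => S.oY T v p.1 p.2 ≠ S.oX T v p.1 p.2).card ≤
      ∑ p : I × J, ((if S.dX T (S.yn v p.2) (S.yi v p.2 p.1) then 1 else 0) +
        (if S.dY T (S.xn v p.1) (S.xj v p.1 p.2) then 1 else 0)) := by
    rw [Finset.card_filter]
    refine Finset.sum_le_sum fun p _ => ?_
    by_cases hp : S.oY T v p.1 p.2 ≠ S.oX T v p.1 p.2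
    · rcases S.far T v p.1 p.2 hp with h | h
      · rw [if_pos hp, if_pos h]; omega
      · rw [if_pos hp, if_pos h]; omega
    · rw [if_neg hp]; omega
  have h2 : ∑ p : I × J, ((if S.dX T (S.yn v p.2) (S.yi v p.2 p.1) then 1 else 0) +
        (if S.dY T (S.xn v p.1) (S.xj v p.1 p.2) then 1 else 0)) =
      ∑ j, (univ.filter fun i => S.dX T (S.yn v j) i).card +
        ∑ i, (univ.filter fun j => S.dY T (S.xn v i) j).card := by
    rw [Finset.sum_add_distrib]
    congr 1
    · rw [Fintype.sum_prod_type_right]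
      refine Finset.sum_congr rfl fun j _ => ?_
      rw [Finset.card_filter]
      exact (S.yi_bij v j).sum_comp (fun i => if S.dX T (S.yn v j) i then 1 else 0)
    · rw [Fintype.sum_prod_type]
      refine Finset.sum_congr rfl fun i _ => ?_
      rw [Finset.card_filter]
      exact (S.xj_bij v i).sum_comp (fun j => if S.dY T (S.xn v i) j then 1 else 0)
  have h3 : (∑ j, (S.px T (S.yn v j) : ℝ)) / Fintype.card J =
      ((∑ j, (univ.filter fun i => S.dX T (S.yn v j) i).card : ℕ) : ℝ) := by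
    rw [div_eq_iff cJ.ne', Nat.cast_sum, Finset.sum_mul]
    refine Finset.sum_congr rfl fun j _ => ?_
    rw [px]; push_cast; ring
  have h4 : (∑ i, (S.py T (S.xn v i) : ℝ)) / Fintype.card I =
      ((∑ i, (univ.filter fun j => S.dY T (S.xn v i) j).card : ℕ) : ℝ) := by
    rw [div_eq_iff cI.ne', Nat.cast_sum, Finset.sum_mul]
    refine Finset.sum_congr rfl fun i _ => ?_
    rw [py]; push_cast; ring
  rw [h3, h4, ← Nat.cast_add, ← h2]
  exact_mod_cast h1

/-- at a local minimum the disputes at a vertex are bounded by the far disputes -/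
theorem locmin (hI : Nonempty I) (hJ : Nonempty J) {LC : V → Set (I → J → K)} {κ : ℝ}
    (hκ : 0 ≤ κ) (hR : S.Rob LC κ) (T : V → I → J → K) (hT : ∀ u, T u ∈ LC u)
    (hmin : ∀ v, ∀ w ∈ LC v, S.px T v + S.py T v ≤ S.px (upd T v w) v + S.py (upd T v w) v)
    (v : V) :
    ((S.px T v + S.py T v : ℕ) : ℝ) ≤ κ * ((∑ j, (S.px T (S.yn v j) : ℝ)) / Fintype.card J +
        (∑ i, (S.py T (S.xn v i) : ℝ)) / Fintype.card I) := by
  obtain ⟨w, hw, hle⟩ := hR v T hT
  have h1 := hmin v w hw
  rw [S.px_upd, S.py_upd] at h1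
  calc ((S.px T v + S.py T v : ℕ) : ℝ) ≤ _ := by exact_mod_cast h1
    _ ≤ _ := hle
    _ ≤ _ := mul_le_mul_of_nonneg_left (S.far_count hI hJ T v) hκ

/-- no small non-zero local minima -/
theorem gap (hI : Nonempty I) (hJ : Nonempty J) {LC : V → Set (I → J → K)} {κ a l : ℝ}
    (hκ : 0 ≤ κ) (ha : 0 ≤ a) (hl : 4 * κ ^ 2 * l ^ 2 ≤ 1) (hR : S.Rob LC κ) (hE : S.Exp a l)
    (T : V → I → J → K) (hT : ∀ u, T u ∈ LC u)
    (hmin : ∀ v, ∀ w ∈ LC v, S.px T v + S.py T v ≤ S.px (upd T v w) v + S.py (upd T v w) v)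
    (hsmall : 4 * κ ^ 2 * a * (S.pot T : ℝ) < Fintype.card V) : S.pot T = 0 := by
  by_contra hne
  set p : V → ℝ := fun v => ((S.px T v + S.py T v : ℕ) : ℝ) with hp
  set x : V → ℝ := fun v => (S.px T v : ℝ) with hx
  set y : V → ℝ := fun v => (S.py T v : ℝ) with hy
  have hx0 : ∀ v, 0 ≤ x v := fun v => Nat.cast_nonneg _
  have hy0 : ∀ v, 0 ≤ y v := fun v => Nat.cast_nonneg _
  have hpxy : ∀ v, p v = x v + y v := fun v => by simp [hp, hx, hy]
  have hpot : (S.pot T : ℝ) = ∑ v, p v := by
    rw [pot]; push_cast; simp [hp]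
  have hcV : (0 : ℝ) ≤ Fintype.card V := Nat.cast_nonneg _
  have hac : 0 ≤ a / Fintype.card V := div_nonneg ha hcV
  -- pointwise square bound
  have hsq : ∀ v, p v ^ 2 ≤ 2 * κ ^ 2 * (((∑ j, x (S.yn v j)) / Fintype.card J) ^ 2 +
      ((∑ i, y (S.xn v i)) / Fintype.card I) ^ 2) := by
    intro v
    have h1 := S.locmin hI hJ hκ hR T hT hmin v
    have h0 : 0 ≤ p v := Nat.cast_nonneg _
    set A := (∑ j, x (S.yn v j)) / Fintype.card J
    set B := (∑ i, y (S.xn v i)) / Fintype.card I
    have h2 : p v ≤ κ * (A + B) := h1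
    calc p v ^ 2 ≤ (κ * (A + B)) ^ 2 := by
          apply pow_le_pow_left₀ h0 h2
      _ ≤ 2 * κ ^ 2 * (A ^ 2 + B ^ 2) := by nlinarith [sq_nonneg (κ * (A - B))]
  have hX2 : ∑ v, x v ^ 2 + ∑ v, y v ^ 2 ≤ ∑ v, p v ^ 2 := by
    rw [← Finset.sum_add_distrib]
    refine Finset.sum_le_sum fun v _ => ?_
    rw [hpxy]
    nlinarith [mul_nonneg (hx0 v) (hy0 v)]
  have hX1 : (∑ v, x v) ^ 2 + (∑ v, y v) ^ 2 ≤ (∑ v, p v) ^ 2 := by
    have h1 : ∑ v, p v = ∑ v, x v + ∑ v, y v := by
      rw [← Finset.sum_add_distrib]; exact Finset.sum_congr rfl fun v _ => hpxy v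
    have h2 : 0 ≤ ∑ v, x v := Finset.sum_nonneg fun v _ => hx0 v
    have h3 : 0 ≤ ∑ v, y v := Finset.sum_nonneg fun v _ => hy0 v
    rw [h1]
    nlinarith [mul_nonneg h2 h3]
  have hsum : ∑ v, p v ^ 2 ≤ 2 * κ ^ 2 * (a / Fintype.card V * (∑ v, p v) ^ 2 +
      l ^ 2 * ∑ v, p v ^ 2) := by
    have e1 := hE.2 x hx0
    have e2 := hE.1 y hy0
    calc ∑ v, p v ^ 2 ≤ ∑ v, 2 * κ ^ 2 * (((∑ j, x (S.yn v j)) / Fintype.card J) ^ 2 +
          ((∑ i, y (S.xn v i)) / Fintype.card I) ^ 2) := Finset.sum_le_sum fun v _ => hsq v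
      _ = 2 * κ ^ 2 * (∑ v, ((∑ j, x (S.yn v j)) / Fintype.card J) ^ 2 +
          ∑ v, ((∑ i, y (S.xn v i)) / Fintype.card I) ^ 2) := by
          rw [← Finset.mul_sum, Finset.sum_add_distrib]
      _ ≤ 2 * κ ^ 2 * ((a / Fintype.card V * (∑ v, x v) ^ 2 + l ^ 2 * ∑ v, x v ^ 2) +
          (a / Fintype.card V * (∑ v, y v) ^ 2 + l ^ 2 * ∑ v, y v ^ 2)) := by
          apply mul_le_mul_of_nonneg_left (add_le_add e1 e2) (by positivity)
      _ = 2 * κ ^ 2 * (a / Fintype.card V * ((∑ v, x v) ^ 2 + (∑ v, y v) ^ 2) +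
          l ^ 2 * (∑ v, x v ^ 2 + ∑ v, y v ^ 2)) := by ring
      _ ≤ _ := by
          apply mul_le_mul_of_nonneg_left _ (by positivity)
          exact add_le_add (mul_le_mul_of_nonneg_left hX1 hac)
            (mul_le_mul_of_nonneg_left hX2 (sq_nonneg l))
  have hP2 : 0 ≤ ∑ v, p v ^ 2 := Finset.sum_nonneg fun v _ => sq_nonneg _
  have hfin : ∑ v, p v ^ 2 ≤ 4 * κ ^ 2 * (a / Fintype.card V) * (∑ v, p v) ^ 2 := by
    nlinarith [mul_le_mul_of_nonneg_right hl hP2]
  have hint : ∑ v, p v ≤ ∑ v, p v ^ 2 := by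
    refine Finset.sum_le_sum fun v _ => ?_
    have : (S.px T v + S.py T v) ≤ (S.px T v + S.py T v) ^ 2 := Nat.le_self_pow (by norm_num) _
    simp only [hp]
    exact_mod_cast this
  have hpos : 0 < ∑ v, p v := by
    rw [← hpot]
    exact_mod_cast Nat.pos_of_ne_zero hne
  rw [hpot] at hsmall
  have hVpos : (0 : ℝ) < Fintype.card V := by
    have : 0 ≤ 4 * κ ^ 2 * a * ∑ v, p v := by positivity
    linarith
  have h5 : ∑ v, p v ≤ 4 * κ ^ 2 * (a / Fintype.card V) * (∑ v, p v) ^ 2 := hint.trans hfin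
  have h6 : 4 * κ ^ 2 * (a / Fintype.card V) * (∑ v, p v) ^ 2 =
      (4 * κ ^ 2 * a * (∑ v, p v)) / Fintype.card V * (∑ v, p v) := by
    field_simp
  rw [h6] at h5
  have h7 : (4 * κ ^ 2 * a * (∑ v, p v)) / Fintype.card V < 1 := by
    rw [div_lt_one hVpos]; exact hsmall
  nlinarith [mul_lt_mul_of_pos_right h7 hpos]

/-- greedy descent -/
theorem descent (hI : Nonempty I) (hJ : Nonempty J) {LC : V → Set (I → J → K)} {κ a l : ℝ}
    (hκ : 0 ≤ κ) (ha : 0 ≤ a) (hl : 4 * κ ^ 2 * l ^ 2 ≤ 1) (hR : S.Rob LC κ) (hE : S.Exp a l) :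
    ∀ (n : ℕ) (T : V → I → J → K), S.pot T ≤ n → (∀ u, T u ∈ LC u) →
      4 * κ ^ 2 * a * (S.pot T : ℝ) < Fintype.card V →
      ∃ T' : V → I → J → K, (∀ u, T' u ∈ LC u) ∧ S.pot T' = 0 ∧
        2 * (univ.filter fun v => T' v ≠ T v).card ≤ S.pot T := by
  intro n
  induction n with
  | zero =>
    intro T hn hT _
    exact ⟨T, hT, by omega, by simp⟩
  | succ n ih =>
    intro T hn hT hs
    by_cases hmin : ∀ v, ∀ w ∈ LC v,
        S.px T v + S.py T v ≤ S.px (upd T v w) v + S.py (upd T v w) v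
    · exact ⟨T, hT, S.gap hI hJ hκ ha hl hR hE T hT hmin hs, by simp⟩
    · simp only [not_forall, not_le] at hmin
      obtain ⟨v, w, hw, hlt⟩ := hmin
      obtain ⟨R, e1, e2⟩ := S.pot_upd T v w
      have hlt2 : S.pot (upd T v w) + 2 ≤ S.pot T := by omega
      have hT1 : ∀ u, upd T v w u ∈ LC u := by
        intro u
        by_cases hu : u = v
        · subst hu; simpa [upd] using hw
        · simpa [upd, hu] using hT u
      have hs1 : 4 * κ ^ 2 * a * (S.pot (upd T v w) : ℝ) < Fintype.card V := by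
        refine lt_of_le_of_lt ?_ hs
        apply mul_le_mul_of_nonneg_left _ (by positivity)
        exact_mod_cast (by omega : S.pot (upd T v w) ≤ S.pot T)
      obtain ⟨T', h1, h2, h3⟩ := ih (upd T v w) (by omega) hT1 hs1
      refine ⟨T', h1, h2, ?_⟩
      have hsub : (univ.filter fun u => T' u ≠ T u) ⊆
          insert v (univ.filter fun u => T' u ≠ upd T v w u) := by
        intro u hu
        simp only [mem_filter, mem_univ, true_and, mem_insert] at hu ⊢
        by_cases huv : u = v
        · exact Or.inl huv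
        · right
          simpa [upd, huv] using hu
      have hcard := Finset.card_le_card hsub
      have hins := Finset.card_insert_le v (univ.filter fun u => T' u ≠ upd T v w u)
      omega

theorem cnt {E : Type*} [Fintype E] (B : Finset V) :
    ∑ e : V × E, (if e.1 ∈ B then 1 else 0) = B.card * Fintype.card E := by
  rw [Fintype.sum_prod_type_right]
  simp only [Finset.sum_boole, Finset.filter_univ_mem, Nat.cast_id, Finset.sum_const,
    Finset.card_univ, smul_eq_mul]
  ring

/-- the potential of a table family that agrees with a word outside few vertices -/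
theorem pot_le_of_bad (T : V → I → J → K) (B : Finset V)
    (hx : ∀ v i, v ∉ B → S.xn v i ∉ B → ¬ S.dX T v i)
    (hy : ∀ v j, v ∉ B → S.yn v j ∉ B → ¬ S.dY T v j) :
    S.pot T ≤ 4 * (Fintype.card I * Fintype.card J) * B.card := by
  have hbx : ∑ e : V × I, (if S.dX T e.1 e.2 then 1 else 0) ≤ 2 * (B.card * Fintype.card I) := by
    calc ∑ e : V × I, (if S.dX T e.1 e.2 then 1 else 0)
        ≤ ∑ e : V × I, ((if e.1 ∈ B then 1 else 0) + (if (S.ex e).1 ∈ B then 1 else 0)) := by
          refine Finset.sum_le_sum fun e _ => ?_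
          by_cases h1 : e.1 ∈ B
          · rw [if_pos h1]; split_ifs <;> omega
          · by_cases h2 : (S.ex e).1 ∈ B
            · rw [if_pos h2]; split_ifs <;> omega
            · rw [if_neg (hx e.1 e.2 h1 h2)]; omega
      _ = ∑ e : V × I, (if e.1 ∈ B then 1 else 0) +
          ∑ e : V × I, (if (S.ex e).1 ∈ B then 1 else 0) := Finset.sum_add_distrib
      _ = ∑ e : V × I, (if e.1 ∈ B then 1 else 0) +
          ∑ e : V × I, (if e.1 ∈ B then 1 else 0) := by
          congr 1
          exact (Function.Involutive.bijective S.ex_ex).sum_comp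
            (fun e : V × I => if e.1 ∈ B then 1 else 0)
      _ = 2 * (B.card * Fintype.card I) := by
          rw [cnt]; ring
  have hby : ∑ e : V × J, (if S.dY T e.1 e.2 then 1 else 0) ≤ 2 * (B.card * Fintype.card J) := by
    calc ∑ e : V × J, (if S.dY T e.1 e.2 then 1 else 0)
        ≤ ∑ e : V × J, ((if e.1 ∈ B then 1 else 0) + (if (S.ey e).1 ∈ B then 1 else 0)) := by
          refine Finset.sum_le_sum fun e _ => ?_
          by_cases h1 : e.1 ∈ B
          · rw [if_pos h1]; split_ifs <;> omega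
          · by_cases h2 : (S.ey e).1 ∈ B
            · rw [if_pos h2]; split_ifs <;> omega
            · rw [if_neg (hy e.1 e.2 h1 h2)]; omega
      _ = ∑ e : V × J, (if e.1 ∈ B then 1 else 0) +
          ∑ e : V × J, (if (S.ey e).1 ∈ B then 1 else 0) := Finset.sum_add_distrib
      _ = ∑ e : V × J, (if e.1 ∈ B then 1 else 0) +
          ∑ e : V × J, (if e.1 ∈ B then 1 else 0) := by
          congr 1
          exact (Function.Involutive.bijective S.ey_ey).sum_comp
            (fun e : V × J => if e.1 ∈ B then 1 else 0)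
      _ = 2 * (B.card * Fintype.card J) := by
          rw [cnt]; ring
  rw [pot, Finset.sum_add_distrib, S.px_sum, S.py_sum]
  calc Fintype.card J * ∑ e : V × I, (if S.dX T e.1 e.2 then 1 else 0) +
      Fintype.card I * ∑ e : V × J, (if S.dY T e.1 e.2 then 1 else 0)
      ≤ Fintype.card J * (2 * (B.card * Fintype.card I)) +
        Fintype.card I * (2 * (B.card * Fintype.card J)) :=
        Nat.add_le_add (Nat.mul_le_mul_left _ hbx) (Nat.mul_le_mul_left _ hby)
    _ = _ := by ring

/-- **Local testability.**  A word whose local views are in the local codes outside few vertices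
agrees with a code word outside few vertices. -/
theorem ltc (hI : Nonempty I) (hJ : Nonempty J) {LC : V → Set (I → J → K)} {κ a l : ℝ}
    (hκ : 0 ≤ κ) (ha : 0 ≤ a) (hl : 4 * κ ^ 2 * l ^ 2 ≤ 1) (hR : S.Rob LC κ) (hE : S.Exp a l)
    (hne : ∀ v, (LC v).Nonempty) (f : V → I → J → K) (hf : S.Word f)
    (hsmall : 16 * κ ^ 2 * a * (Fintype.card I * Fintype.card J) *
      ((univ.filter fun v => f v ∉ LC v).card : ℝ) < Fintype.card V) :
    ∃ g : V → I → J → K, (∀ v, g v ∈ LC v) ∧ S.Word g ∧
      (univ.filter fun v => g v ≠ f v).card ≤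
        (2 * (Fintype.card I * Fintype.card J) + 1) * (univ.filter fun v => f v ∉ LC v).card := by
  set B : Finset V := univ.filter fun v => f v ∉ LC v with hB
  set T : V → I → J → K := fun v => if f v ∈ LC v then f v else (hne v).some with hT
  have hTf : ∀ v, v ∉ B → T v = f v := by
    intro v hv
    have : f v ∈ LC v := by
      by_contra h; exact hv (by simp [hB, h])
    simp [hT, this]
  have hTL : ∀ v, T v ∈ LC v := by
    intro v
    by_cases h : f v ∈ LC v
    · simp [hT, h]
    · simp only [hT, if_neg h]; exact (hne v).some_mem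
  have hpot : S.pot T ≤ 4 * (Fintype.card I * Fintype.card J) * B.card := by
    refine S.pot_le_of_bad T B ?_ ?_
    · rintro v i h1 h2 ⟨j, hj⟩
      apply hj
      rw [hTf v h1, oX, hTf _ h2]
      exact hf.1 v i j
    · rintro v j h1 h2 ⟨i, hi⟩
      apply hi
      rw [hTf v h1, oY, hTf _ h2]
      exact hf.2 v i j
  have hs : 4 * κ ^ 2 * a * (S.pot T : ℝ) < Fintype.card V := by
    refine lt_of_le_of_lt ?_ hsmall
    have h1 : (S.pot T : ℝ) ≤ 4 * (Fintype.card I * Fintype.card J) * B.card := by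
      exact_mod_cast hpot
    calc 4 * κ ^ 2 * a * (S.pot T : ℝ)
        ≤ 4 * κ ^ 2 * a * (4 * (Fintype.card I * Fintype.card J) * B.card) :=
          mul_le_mul_of_nonneg_left h1 (by positivity)
      _ = _ := by ring
  obtain ⟨g, h1, h2, h3⟩ := S.descent hI hJ hκ ha hl hR hE (S.pot T) T le_rfl hTL hs
  refine ⟨g, h1, S.word_of_pot hI hJ g h2, ?_⟩
  have hsub : (univ.filter fun v => g v ≠ f v) ⊆ (univ.filter fun v => g v ≠ T v) ∪ B := by
    intro v hv
    simp only [mem_filter, mem_univ, true_and, mem_union] at hv ⊢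
    by_cases hvB : v ∈ B
    · exact Or.inr hvB
    · left
      rw [hTf v hvB]; exact hv
  have hc := (Finset.card_le_card hsub).trans (Finset.card_union_le _ _)
  have h4 : (univ.filter fun v => g v ≠ T v).card ≤ 2 * (Fintype.card I * Fintype.card J) * B.card := by
    have : 2 * (univ.filter fun v => g v ≠ T v).card ≤
        4 * (Fintype.card I * Fintype.card J) * B.card := h3.trans hpot
    have e : 4 * (Fintype.card I * Fintype.card J) * B.card =
        2 * (2 * (Fintype.card I * Fintype.card J) * B.card) := by ring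
    omega
  calc (univ.filter fun v => g v ≠ f v).card
      ≤ (univ.filter fun v => g v ≠ T v).card + B.card := hc
    _ ≤ 2 * (Fintype.card I * Fintype.card J) * B.card + B.card := Nat.add_le_add_right h4 _
    _ = _ := by ring

end SqC

end Crest.Agent.R289.LTC509
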