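import Mathlib
import Crest.Agent.R289.DefD_721
import Crest.Agent.R289.Contr_248

/-!
# Row 289: contraction on product unit sets, product walks

* `prod_contr`: counting form of the two-factor contraction;
* `dist_corrProd`, `dist_corrProd_quarter`: the same for `DefD.dist`;
* `ExpAt.prod`: variance form of expansion for the product of two families of maps.
-/

set_option autoImplicit false
set_option linter.unusedSectionVars false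

namespace Crest.Agent.R289.ProdContr929

open Finset

/-! ### counting form -/

section counting

open Classical in
/-- indicator of a proposition -/
noncomputable def ind (p : Prop) : ℝ := if p then 1 else 0

theorem ind_nonneg (p : Prop) : 0 ≤ ind p := by
  unfold ind
  split_ifs <;> norm_num

theorem ind_le (p : Prop) : ind p ≤ 1 := by
  unfold ind
  split_ifs <;> norm_num

variable {U₁ U₂ : Type*} [Fintype U₁] [Fintype U₂]

/-- number of points of the slice `· , y` -/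
noncomputable def c1 (E : U₁ → U₂ → Prop) (y : U₂) : ℝ := ∑ x, ind (E x y)

/-- number of points of the slice `x , ·` -/
noncomputable def c2 (E : U₁ → U₂ → Prop) (x : U₁) : ℝ := ∑ y, ind (E x y)

/-- number of points -/
noncomputable def tot (E : U₁ → U₂ → Prop) : ℝ := ∑ x, ∑ y, ind (E x y)

theorem tot_eq_c2 (E : U₁ → U₂ → Prop) : tot E = ∑ x, c2 E x := rfl

theorem tot_eq_c1 (E : U₁ → U₂ → Prop) : tot E = ∑ y, c1 E y := by
  unfold tot c1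
  exact Finset.sum_comm

theorem c1_nonneg (E : U₁ → U₂ → Prop) (y : U₂) : 0 ≤ c1 E y :=
  Finset.sum_nonneg fun _ _ => ind_nonneg _

theorem c2_nonneg (E : U₁ → U₂ → Prop) (x : U₁) : 0 ≤ c2 E x :=
  Finset.sum_nonneg fun _ _ => ind_nonneg _

theorem c2_le (E : U₁ → U₂ → Prop) (x : U₁) : c2 E x ≤ Fintype.card U₂ := by
  unfold c2
  calc (∑ y, ind (E x y)) ≤ ∑ _y : U₂, (1 : ℝ) :=
        Finset.sum_le_sum fun y _ => ind_le _
    _ = Fintype.card U₂ := by simp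

theorem tot_nonneg (E : U₁ → U₂ → Prop) : 0 ≤ tot E := by
  rw [tot_eq_c2]
  exact Finset.sum_nonneg fun x _ => c2_nonneg E x

/-- Contraction on a product: the first map contracts all sparse slices `(·, y)`, the second map all
sparse slices `(x, ·)`; on dense slices both are arbitrary. -/
theorem prod_contr {ρ₁ ρ₂ th₁ th₂ : ℝ} (hρ₁ : 0 < ρ₁) (hρ₂ : 0 < ρ₂) (hth₁ : 0 ≤ th₁)
    (hth₂ : 0 ≤ th₂) (E E₁ E₂ : U₁ → U₂ → Prop)
    (h1 : ∀ y, c1 E y ≤ ρ₁ * Fintype.card U₁ → c1 E₁ y ≤ th₁ * c1 E y)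
    (h2 : ∀ x, c2 E₁ x ≤ ρ₂ * Fintype.card U₂ → c2 E₂ x ≤ th₂ * c2 E₁ x)
    (hE : tot E ≤ ρ₁ * ρ₂ / 2 * (Fintype.card U₁ * Fintype.card U₂)) :
    tot E₂ ≤ (th₂ / ρ₁ + th₁ * th₂ + 2 * th₁ / ρ₂) * tot E := by
  set n₁ : ℝ := (Fintype.card U₁ : ℝ) with hn₁
  set n₂ : ℝ := (Fintype.card U₂ : ℝ) with hn₂
  have hcoef : 0 ≤ th₂ / ρ₁ + th₁ * th₂ + 2 * th₁ / ρ₂ := by positivity
  have hT := tot_nonneg E
  rcases isEmpty_or_nonempty U₁ with he | hne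
  · have : tot E₂ = 0 := by unfold tot; simp
    rw [this]; positivity
  have hn₁p : 0 < n₁ := by rw [hn₁]; exact_mod_cast Fintype.card_pos
  -- dense slices
  classical
  let B : Finset U₂ := univ.filter fun y => ρ₁ * n₁ < c1 E y
  have hB : (B.card : ℝ) * (ρ₁ * n₁) ≤ tot E := by
    rw [tot_eq_c1]
    calc (B.card : ℝ) * (ρ₁ * n₁) = ∑ _y ∈ B, ρ₁ * n₁ := by rw [sum_const, nsmul_eq_mul]
      _ ≤ ∑ y ∈ B, c1 E y := sum_le_sum fun y hy => (mem_filter.1 hy).2.le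
      _ ≤ ∑ y, c1 E y := sum_le_sum_of_subset_of_nonneg (subset_univ _) fun y _ _ => c1_nonneg E y
  have hB1 : (B.card : ℝ) * n₁ ≤ tot E / ρ₁ := by
    rw [le_div_iff₀ hρ₁]; linarith
  have hB2 : (B.card : ℝ) ≤ ρ₂ * n₂ / 2 := by
    have h := hB.trans hE
    have h' : (B.card : ℝ) * (ρ₁ * n₁) ≤ (ρ₂ * n₂ / 2) * (ρ₁ * n₁) := by linarith
    exact le_of_mul_le_mul_right h' (by positivity)
  -- the part outside the dense slices
  let g : U₁ → ℝ := fun x => ∑ y ∈ univ \ B, ind (E₁ x y)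
  have hg0 : ∀ x, 0 ≤ g x := fun x => sum_nonneg fun _ _ => ind_nonneg _
  have hgsum : ∑ x, g x ≤ th₁ * tot E := by
    have e : ∑ x, g x = ∑ y ∈ univ \ B, c1 E₁ y := by
      simp only [g, c1]
      exact sum_comm
    rw [e, tot_eq_c1, mul_sum]
    calc ∑ y ∈ univ \ B, c1 E₁ y ≤ ∑ y ∈ univ \ B, th₁ * c1 E y := by
          refine sum_le_sum fun y hy => h1 y ?_
          have : y ∉ B := (mem_sdiff.1 hy).2
          simpa [B] using this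
      _ ≤ ∑ y, th₁ * c1 E y := sum_le_sum_of_subset_of_nonneg (subset_univ _)
          fun y _ _ => mul_nonneg hth₁ (c1_nonneg E y)
  have hrow : ∀ x, c2 E₁ x ≤ B.card + g x := by
    intro x
    have : c2 E₁ x = (∑ y ∈ univ \ B, ind (E₁ x y)) +
        ∑ y ∈ B, ind (E₁ x y) := by
      unfold c2
      exact (sum_sdiff (subset_univ B)).symm
    rw [this]
    have h3 : (∑ y ∈ B, ind (E₁ x y)) ≤ B.card := by
      calc (∑ y ∈ B, ind (E₁ x y)) ≤ ∑ _y ∈ B, (1 : ℝ) :=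
            sum_le_sum fun y _ => ind_le _
        _ = B.card := by simp
    have : g x = ∑ y ∈ univ \ B, ind (E₁ x y) := rfl
    linarith
  have hall : ∀ x, c2 E₂ x ≤ th₂ * (B.card + g x) + 2 / ρ₂ * g x := by
    intro x
    by_cases hx : c2 E₁ x ≤ ρ₂ * n₂
    · have h4 := h2 x hx
      have h5 : th₂ * c2 E₁ x ≤ th₂ * (B.card + g x) := mul_le_mul_of_nonneg_left (hrow x) hth₂
      have h6 : 0 ≤ 2 / ρ₂ * g x := mul_nonneg (by positivity) (hg0 x)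
      linarith
    · have hx' : ρ₂ * n₂ < c2 E₁ x := not_le.1 hx
      have h4 := hrow x
      have h5 : ρ₂ * n₂ / 2 ≤ g x := by linarith
      have h6 : n₂ ≤ 2 / ρ₂ * g x := by
        rw [div_mul_eq_mul_div, le_div_iff₀ hρ₂]; linarith
      have h7 : c2 E₂ x ≤ n₂ := c2_le E₂ x
      have h8 : 0 ≤ th₂ * (B.card + g x) := mul_nonneg hth₂ (add_nonneg (Nat.cast_nonneg _) (hg0 x))
      linarith
  calc tot E₂ = ∑ x, c2 E₂ x := rfl
    _ ≤ ∑ x, (th₂ * (B.card + g x) + 2 / ρ₂ * g x) := sum_le_sum fun x _ => hall x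
    _ = th₂ * (n₁ * B.card) + (th₂ + 2 / ρ₂) * ∑ x, g x := by
        rw [sum_add_distrib, ← mul_sum, ← mul_sum, sum_add_distrib, sum_const, card_univ,
          nsmul_eq_mul]
        ring
    _ ≤ th₂ * (tot E / ρ₁) + (th₂ + 2 / ρ₂) * (th₁ * tot E) := by
        have h9 : n₁ * B.card ≤ tot E / ρ₁ := by linarith [mul_comm (B.card : ℝ) n₁]
        have h10 : 0 ≤ th₂ + 2 / ρ₂ := by positivity
        exact add_le_add (mul_le_mul_of_nonneg_left h9 hth₂)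
          (mul_le_mul_of_nonneg_left hgsum h10)
    _ = (th₂ / ρ₁ + th₁ * th₂ + 2 * th₁ / ρ₂) * tot E := by
        field_simp
        ring

end counting

/-! ### the same for `DefD.dist` -/

section defd
open DefD

variable {U₁ U₂ Γ : Type} [Fintype U₁] [Fintype U₂]

/-- apply a map of `U₁`-arrays (depending on `y`) in all slices `(·, y)` -/
def lift1 (f : U₂ → (U₁ → Option Γ) → (U₁ → Option Γ)) (X : U₁ × U₂ → Option Γ) :
    U₁ × U₂ → Option Γ := fun u => f u.2 (fun x => X (x, u.2)) u.1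

/-- apply a map of `U₂`-arrays (depending on `x`) in all slices `(x, ·)` -/
def lift2 (f : U₁ → (U₂ → Option Γ) → (U₂ → Option Γ)) (X : U₁ × U₂ → Option Γ) :
    U₁ × U₂ → Option Γ := fun u => f u.1 (fun y => X (u.1, y)) u.2

/-- first factor, then second factor -/
def corrProd (f₁ : U₂ → (U₁ → Option Γ) → (U₁ → Option Γ))
    (f₂ : U₁ → (U₂ → Option Γ) → (U₂ → Option Γ)) (X : U₁ × U₂ → Option Γ) : U₁ × U₂ → Option Γ :=
  lift2 f₂ (lift1 f₁ X)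

open Classical in
theorem card_filter_real {U : Type} [Fintype U] (p : U → Prop) :
    ((univ.filter p).card : ℝ) = ∑ u, ind (p u) := by
  unfold ind
  rw [Finset.sum_ite, Finset.sum_const_zero, add_zero, Finset.sum_const, nsmul_eq_mul, mul_one]

theorem frac_mul {U : Type} [Fintype U] [Nonempty U] (p : U → Prop) :
    frac p * Fintype.card U = ∑ u, ind (p u) := by
  unfold frac
  have : (Fintype.card U : ℝ) ≠ 0 := by
    have : 0 < Fintype.card U := Fintype.card_pos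
    positivity
  rw [div_mul_cancel₀ _ this, card_filter_real]

theorem frac_prod_tot [Nonempty U₁] [Nonempty U₂] (E : U₁ → U₂ → Prop) :
    frac (fun u : U₁ × U₂ => E u.1 u.2) * (Fintype.card U₁ * Fintype.card U₂) = tot E := by
  have h := frac_mul (fun u : U₁ × U₂ => E u.1 u.2)
  rw [Fintype.card_prod, Nat.cast_mul] at h
  rw [h, Fintype.sum_prod_type]
  rfl

theorem dist_corrProd [Nonempty U₁] [Nonempty U₂] {ρ₁ ρ₂ th₁ th₂ : ℝ} (hρ₁ : 0 < ρ₁)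
    (hρ₂ : 0 < ρ₂) (hth₁ : 0 ≤ th₁) (hth₂ : 0 ≤ th₂)
    (f₁ : U₂ → (U₁ → Option Γ) → (U₁ → Option Γ)) (f₂ : U₁ → (U₂ → Option Γ) → (U₂ → Option Γ))
    (w : U₁ × U₂ → Γ)
    (h1 : ∀ y, ∀ X : U₁ → Option Γ, dist X (fun x => w (x, y)) ≤ ρ₁ →
      dist (f₁ y X) (fun x => w (x, y)) ≤ th₁ * dist X (fun x => w (x, y)))
    (h2 : ∀ x, ∀ X : U₂ → Option Γ, dist X (fun y => w (x, y)) ≤ ρ₂ →
      dist (f₂ x X) (fun y => w (x, y)) ≤ th₂ * dist X (fun y => w (x, y)))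
    (X : U₁ × U₂ → Option Γ) (hX : dist X w ≤ ρ₁ * ρ₂ / 2) :
    dist (corrProd f₁ f₂ X) w ≤ (th₂ / ρ₁ + th₁ * th₂ + 2 * th₁ / ρ₂) * dist X w := by
  have hn₁ : (0 : ℝ) < Fintype.card U₁ := by exact_mod_cast Fintype.card_pos
  have hn₂ : (0 : ℝ) < Fintype.card U₂ := by exact_mod_cast Fintype.card_pos
  have key := prod_contr (U₁ := U₁) (U₂ := U₂) hρ₁ hρ₂ hth₁ hth₂
    (fun x y => X (x, y) ≠ some (w (x, y)))
    (fun x y => lift1 f₁ X (x, y) ≠ some (w (x, y)))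
    (fun x y => corrProd f₁ f₂ X (x, y) ≠ some (w (x, y))) ?_ ?_ ?_
  · have e1 := frac_prod_tot (U₁ := U₁) (U₂ := U₂) (fun x y => X (x, y) ≠ some (w (x, y)))
    have e2 := frac_prod_tot (U₁ := U₁) (U₂ := U₂)
      (fun x y => corrProd f₁ f₂ X (x, y) ≠ some (w (x, y)))
    have e1' : dist X w * (Fintype.card U₁ * Fintype.card U₂) =
        tot fun x y => X (x, y) ≠ some (w (x, y)) := e1
    have e2' : dist (corrProd f₁ f₂ X) w * (Fintype.card U₁ * Fintype.card U₂) =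
        tot fun x y => corrProd f₁ f₂ X (x, y) ≠ some (w (x, y)) := e2
    rw [← e1', ← e2'] at key
    have hpos : (0 : ℝ) < Fintype.card U₁ * Fintype.card U₂ := mul_pos hn₁ hn₂
    refine le_of_mul_le_mul_right ?_ hpos
    linarith
  · intro y hy
    have a : ∀ Y : U₁ → Option Γ, dist Y (fun x => w (x, y)) * Fintype.card U₁ =
        ∑ x, ind (Y x ≠ some (w (x, y))) := fun Y =>
      frac_mul _
    have b1 := a fun x => X (x, y)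
    have b2 := a (f₁ y fun x => X (x, y))
    have hy' : dist (fun x => X (x, y)) (fun x => w (x, y)) ≤ ρ₁ := by
      refine le_of_mul_le_mul_right ?_ hn₁
      rw [b1]; exact hy
    have h := h1 y _ hy'
    have : c1 (fun x y => lift1 f₁ X (x, y) ≠ some (w (x, y))) y =
        dist (f₁ y fun x => X (x, y)) (fun x => w (x, y)) * Fintype.card U₁ := b2.symm
    rw [this]
    have : c1 (fun x y => X (x, y) ≠ some (w (x, y))) y =
        dist (fun x => X (x, y)) (fun x => w (x, y)) * Fintype.card U₁ := b1.symm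
    rw [this]
    nlinarith
  · intro x hx
    have a : ∀ Y : U₂ → Option Γ, dist Y (fun y => w (x, y)) * Fintype.card U₂ =
        ∑ y, ind (Y y ≠ some (w (x, y))) := fun Y =>
      frac_mul _
    have b1 := a fun y => lift1 f₁ X (x, y)
    have b2 := a (f₂ x fun y => lift1 f₁ X (x, y))
    have hx' : dist (fun y => lift1 f₁ X (x, y)) (fun y => w (x, y)) ≤ ρ₂ := by
      refine le_of_mul_le_mul_right ?_ hn₂
      rw [b1]; exact hx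
    have h := h2 x _ hx'
    have : c2 (fun x y => corrProd f₁ f₂ X (x, y) ≠ some (w (x, y))) x =
        dist (f₂ x fun y => lift1 f₁ X (x, y)) (fun y => w (x, y)) * Fintype.card U₂ := b2.symm
    rw [this]
    have : c2 (fun x y => lift1 f₁ X (x, y) ≠ some (w (x, y))) x =
        dist (fun y => lift1 f₁ X (x, y)) (fun y => w (x, y)) * Fintype.card U₂ := b1.symm
    rw [this]
    nlinarith
  · have e1 := frac_prod_tot (U₁ := U₁) (U₂ := U₂) (fun x y => X (x, y) ≠ some (w (x, y)))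
    have e1' : dist X w * (Fintype.card U₁ * Fintype.card U₂) =
        tot fun x y => X (x, y) ≠ some (w (x, y)) := e1
    rw [← e1']
    exact mul_le_mul_of_nonneg_right hX (mul_nonneg hn₁.le hn₂.le)

/-- factor `1/4` (needed by `MData.Ax.corr_le`) -/
theorem dist_corrProd_quarter [Nonempty U₁] [Nonempty U₂] {ρ₁ ρ₂ th₁ th₂ : ℝ} (hρ₁ : 0 < ρ₁)
    (hρ₂ : 0 < ρ₂) (hth₁ : 0 ≤ th₁) (hth₂ : 0 ≤ th₂) (h₁ : th₁ ≤ 1) (hq₁ : th₂ ≤ ρ₁ / 16)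
    (hq₂ : th₁ ≤ ρ₂ / 32) (hq : th₂ ≤ 1 / 8)
    (f₁ : U₂ → (U₁ → Option Γ) → (U₁ → Option Γ)) (f₂ : U₁ → (U₂ → Option Γ) → (U₂ → Option Γ))
    (w : U₁ × U₂ → Γ)
    (h1 : ∀ y, ∀ X : U₁ → Option Γ, dist X (fun x => w (x, y)) ≤ ρ₁ →
      dist (f₁ y X) (fun x => w (x, y)) ≤ th₁ * dist X (fun x => w (x, y)))
    (h2 : ∀ x, ∀ X : U₂ → Option Γ, dist X (fun y => w (x, y)) ≤ ρ₂ →
      dist (f₂ x X) (fun y => w (x, y)) ≤ th₂ * dist X (fun y => w (x, y)))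
    (X : U₁ × U₂ → Option Γ) (hX : dist X w ≤ ρ₁ * ρ₂ / 2) :
    dist (corrProd f₁ f₂ X) w ≤ dist X w / 4 := by
  have h := dist_corrProd hρ₁ hρ₂ hth₁ hth₂ f₁ f₂ w h1 h2 X hX
  have hd : 0 ≤ dist X w := by
    unfold DefD.dist DefD.frac
    positivity
  have e1 : th₂ / ρ₁ ≤ 1 / 16 := by
    rw [div_le_iff₀ hρ₁]; linarith
  have e2 : 2 * th₁ / ρ₂ ≤ 1 / 16 := by
    rw [div_le_iff₀ hρ₂]; linarith
  have e3 : th₁ * th₂ ≤ 1 / 8 := by nlinarith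
  nlinarith

end defd

/-! ### product of fibre walks -/

section walks
open Contr248

variable {X₁ Y₁ I₁ X₂ Y₂ I₂ : Type*} [Fintype X₁] [Fintype Y₁] [Fintype I₁] [Fintype X₂] [Fintype Y₂]
  [Fintype I₂]

/-- strong variance form -/
def ExpS {X Y I : Type*} [Fintype X] [Fintype Y] [Fintype I] (nb : Y → I → X) (l : ℝ) : Prop :=
  ∀ f : X → ℝ, ∑ y, (∑ z, f (nb y z)) ^ 2 ≤
    (Fintype.card I : ℝ) ^ 2 *
      ((1 - l) * ((∑ x, f x) ^ 2 / Fintype.card X) + l * ∑ x, f x ^ 2)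

theorem sq_sum_div_le {X : Type*} [Fintype X] (f : X → ℝ) :
    (∑ x, f x) ^ 2 / Fintype.card X ≤ ∑ x, f x ^ 2 := by
  rcases isEmpty_or_nonempty X with h | h
  · simp
  · rw [div_le_iff₀ (by exact_mod_cast Fintype.card_pos)]
    have := sq_sum_le_card_mul_sum_sq (s := (univ : Finset X)) (f := f)
    rw [card_univ] at this
    linarith [mul_comm (Fintype.card X : ℝ) (∑ x, f x ^ 2)]

/-- the form of block B1 and regularity give the strong form -/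
theorem ExpS.of_expAt {X Y I : Type*} [Fintype X] [Fintype Y] [Fintype I] {nb : Y → I → X}
    {lam : ℝ} (hr : Reg nb) (hc : Fintype.card X = Fintype.card Y) (he : ExpAt nb lam) :
    ExpS nb (lam ^ 2) := by
  intro f
  rcases isEmpty_or_nonempty X with hX | hX
  · have hY : IsEmpty Y := by
      rw [← Fintype.card_eq_zero_iff, ← hc, Fintype.card_eq_zero_iff]; exact hX
    simp
  set n : ℝ := (Fintype.card X : ℝ) with hn
  set d : ℝ := (Fintype.card I : ℝ) with hd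
  have hn0 : 0 < n := by rw [hn]; exact_mod_cast Fintype.card_pos
  set m : ℝ := (∑ x, f x) / n with hm
  have hY : (Fintype.card Y : ℝ) = n := by rw [hn, hc]
  have h0 := he fun x => f x - m
  have s0 : ∑ x, (f x - m) = 0 := by
    rw [sum_sub_distrib, sum_const, card_univ, nsmul_eq_mul, ← hn, hm]
    field_simp
    ring
  have s1 : ∑ y, ∑ z, f (nb y z) = d * ∑ x, f x := by
    rw [sum_comm]
    calc ∑ z, ∑ y, f (nb y z) = ∑ _z : I, ∑ x, f x :=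
          sum_congr rfl fun z _ => (Equiv.ofBijective _ (hr z)).sum_comp f
      _ = d * ∑ x, f x := by rw [sum_const, card_univ, nsmul_eq_mul]
  have s2 : ∑ x, (f x - m) ^ 2 = ∑ x, f x ^ 2 - n * m ^ 2 := by
    have : ∀ x, (f x - m) ^ 2 = f x ^ 2 - 2 * m * f x + m ^ 2 := fun x => by ring
    simp only [this]
    rw [sum_add_distrib, sum_sub_distrib, ← mul_sum, sum_const, card_univ, nsmul_eq_mul, ← hn]
    have : ∑ x, f x = n * m := by rw [hm]; field_simp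
    rw [this]; ring
  have s3 : ∑ y, (∑ z, (f (nb y z) - m)) ^ 2 = ∑ y, (∑ z, f (nb y z)) ^ 2 - n * (d * m) ^ 2 := by
    have e : ∀ y, (∑ z, (f (nb y z) - m)) ^ 2 =
        (∑ z, f (nb y z)) ^ 2 - 2 * (d * m) * (∑ z, f (nb y z)) + (d * m) ^ 2 := fun y => by
      rw [sum_sub_distrib, sum_const, card_univ, nsmul_eq_mul, ← hd]; ring
    simp only [e]
    rw [sum_add_distrib, sum_sub_distrib, ← mul_sum, s1, sum_const, card_univ, nsmul_eq_mul, hY]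
    have : ∑ x, f x = n * m := by rw [hm]; field_simp
    rw [this]; ring
  rw [s0, s2, s3] at h0
  have e4 : (∑ x, f x) ^ 2 / n = n * m ^ 2 := by
    rw [hm]; field_simp
  rw [e4]
  rw [← hd, zero_pow two_ne_zero, zero_div, zero_add] at h0
  have e5 : d ^ 2 * ((1 - lam ^ 2) * (n * m ^ 2) + lam ^ 2 * ∑ x, f x ^ 2) =
      n * (d * m) ^ 2 + d ^ 2 * (lam ^ 2 * (∑ x, f x ^ 2 - n * m ^ 2)) := by ring
  rw [e5]
  linarith

theorem ExpS.mono {X Y I : Type*} [Fintype X] [Fintype Y] [Fintype I] {nb : Y → I → X}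
    {l l' : ℝ} (h : ExpS nb l) (hl : l ≤ l') : ExpS nb l' := by
  intro f
  refine (h f).trans (mul_le_mul_of_nonneg_left ?_ (sq_nonneg _))
  have := sq_sum_div_le f
  nlinarith

theorem ExpS.expAt {X Y I : Type*} [Fintype X] [Fintype Y] [Fintype I] {nb : Y → I → X}
    {lam : ℝ} (h : ExpS nb (lam ^ 2)) : ExpAt nb lam := by
  intro f
  refine (h f).trans (mul_le_mul_of_nonneg_left ?_ (sq_nonneg _))
  have : 0 ≤ (∑ x, f x) ^ 2 / (Fintype.card X : ℝ) := by positivity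
  nlinarith [mul_nonneg (sq_nonneg lam) this]

/-- neighbour maps of the product -/
def nbProd (nb₁ : Y₁ → I₁ → X₁) (nb₂ : Y₂ → I₂ → X₂) : Y₁ × Y₂ → I₁ × I₂ → X₁ × X₂ :=
  fun y z => (nb₁ y.1 z.1, nb₂ y.2 z.2)

theorem Reg.prod {nb₁ : Y₁ → I₁ → X₁} {nb₂ : Y₂ → I₂ → X₂} (h₁ : Reg nb₁) (h₂ : Reg nb₂) :
    Reg (nbProd nb₁ nb₂) := fun z => (h₁ z.1).prodMap (h₂ z.2)

theorem prod_var_identity (F : X₁ → X₂ → ℝ) (hX₁ : 0 < Fintype.card X₁)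
    (hX₂ : 0 < Fintype.card X₂) :
    (∑ x₂, (∑ x₁, F x₁ x₂) ^ 2) / Fintype.card X₁ + (∑ x₁, (∑ x₂, F x₁ x₂) ^ 2) / Fintype.card X₂ ≤
      ∑ x₁, ∑ x₂, F x₁ x₂ ^ 2 +
        (∑ x₁, ∑ x₂, F x₁ x₂) ^ 2 / ((Fintype.card X₁ : ℝ) * Fintype.card X₂) := by
  set n₁ : ℝ := (Fintype.card X₁ : ℝ) with hn₁
  set n₂ : ℝ := (Fintype.card X₂ : ℝ) with hn₂
  have p₁ : 0 < n₁ := by rw [hn₁]; exact_mod_cast hX₁
  have p₂ : 0 < n₂ := by rw [hn₂]; exact_mod_cast hX₂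
  set a : X₁ → ℝ := fun x₁ => ∑ x₂, F x₁ x₂ with ha
  set b : X₂ → ℝ := fun x₂ => ∑ x₁, F x₁ x₂ with hb
  set T : ℝ := ∑ x₁, ∑ x₂, F x₁ x₂ with hT
  have sa : ∑ x₁, a x₁ = T := rfl
  have sb : ∑ x₂, b x₂ = T := by rw [hT, hb]; exact sum_comm
  have key : 0 ≤ ∑ x₁, ∑ x₂, (F x₁ x₂ - a x₁ / n₂ - b x₂ / n₁ + T / (n₁ * n₂)) ^ 2 :=
    sum_nonneg fun _ _ => sum_nonneg fun _ _ => sq_nonneg _
  have e : ∑ x₁, ∑ x₂, (F x₁ x₂ - a x₁ / n₂ - b x₂ / n₁ + T / (n₁ * n₂)) ^ 2 =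
      ∑ x₁, ∑ x₂, F x₁ x₂ ^ 2 - (∑ x₁, a x₁ ^ 2) / n₂ - (∑ x₂, b x₂ ^ 2) / n₁ +
        T ^ 2 / (n₁ * n₂) := by
    have e1 : ∀ x₁, ∑ x₂, (F x₁ x₂ - a x₁ / n₂ - b x₂ / n₁ + T / (n₁ * n₂)) ^ 2 =
        ∑ x₂, F x₁ x₂ ^ 2 + n₂ * (a x₁ / n₂ - T / (n₁ * n₂)) ^ 2 + (∑ x₂, b x₂ ^ 2) / n₁ ^ 2
        - 2 * (a x₁ / n₂ - T / (n₁ * n₂)) * a x₁ - 2 / n₁ * (∑ x₂, F x₁ x₂ * b x₂)
        + 2 * (a x₁ / n₂ - T / (n₁ * n₂)) * T / n₁ := fun x₁ => by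
      have e2 : ∀ x₂, (F x₁ x₂ - a x₁ / n₂ - b x₂ / n₁ + T / (n₁ * n₂)) ^ 2 =
          F x₁ x₂ ^ 2 + (a x₁ / n₂ - T / (n₁ * n₂)) ^ 2 + b x₂ ^ 2 / n₁ ^ 2
          - 2 * (a x₁ / n₂ - T / (n₁ * n₂)) * F x₁ x₂ - 2 / n₁ * (F x₁ x₂ * b x₂)
          + 2 * (a x₁ / n₂ - T / (n₁ * n₂)) / n₁ * b x₂ := fun x₂ => by
        field_simp
        ring
      simp only [e2]
      rw [sum_add_distrib, sum_sub_distrib, sum_sub_distrib, sum_add_distrib, sum_add_distrib,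
        ← mul_sum, ← mul_sum, ← mul_sum, sb, ← sum_div, sum_const, card_univ, nsmul_eq_mul, ← hn₂]
      have : ∑ x₂, F x₁ x₂ = a x₁ := rfl
      rw [this]
      ring
    simp only [e1]
    have e3 : ∑ x₁, ∑ x₂, F x₁ x₂ * b x₂ = ∑ x₂, b x₂ ^ 2 := by
      rw [sum_comm]
      refine sum_congr rfl fun x₂ _ => ?_
      rw [← sum_mul]
      have : ∑ x₁, F x₁ x₂ = b x₂ := rfl
      rw [this]; ring
    have e4 : ∀ x₁, ∑ x₂, F x₁ x₂ ^ 2 + n₂ * (a x₁ / n₂ - T / (n₁ * n₂)) ^ 2 +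
        (∑ x₂, b x₂ ^ 2) / n₁ ^ 2
        - 2 * (a x₁ / n₂ - T / (n₁ * n₂)) * a x₁ - 2 / n₁ * (∑ x₂, F x₁ x₂ * b x₂)
        + 2 * (a x₁ / n₂ - T / (n₁ * n₂)) * T / n₁ =
        ∑ x₂, F x₁ x₂ ^ 2 - a x₁ ^ 2 / n₂ + (2 * T / (n₁ * n₂)) * a x₁
        - 2 / n₁ * (∑ x₂, F x₁ x₂ * b x₂)
        + (∑ x₂, b x₂ ^ 2) / n₁ ^ 2 - T ^ 2 / (n₁ ^ 2 * n₂) := fun x₁ => by
      field_simp
      ring
    simp only [e4]
    rw [sum_sub_distrib, sum_add_distrib, sum_sub_distrib, sum_add_distrib, sum_sub_distrib,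
      ← mul_sum, ← mul_sum, e3, sa, ← sum_div, sum_const, sum_const, card_univ, nsmul_eq_mul,
      nsmul_eq_mul, ← hn₁]
    field_simp
    ring
  rw [e] at key
  have ea : ∑ x₁, (∑ x₂, F x₁ x₂) ^ 2 = ∑ x₁, a x₁ ^ 2 := rfl
  have eb : ∑ x₂, (∑ x₁, F x₁ x₂) ^ 2 = ∑ x₂, b x₂ ^ 2 := rfl
  rw [ea, eb]
  linarith

/-- **product of fibre walks, strong form** -/
theorem ExpS.prod {nb₁ : Y₁ → I₁ → X₁} {nb₂ : Y₂ → I₂ → X₂} {l : ℝ} (hl0 : 0 ≤ l) (hl1 : l ≤ 1)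
    (h₁ : ExpS nb₁ l) (h₂ : ExpS nb₂ l) : ExpS (nbProd nb₁ nb₂) l := by
  intro f
  rcases Nat.eq_zero_or_pos (Fintype.card X₁) with c₁ | c₁
  · have i1 : IsEmpty X₁ := Fintype.card_eq_zero_iff.1 c₁
    rcases isEmpty_or_nonempty (Y₁ × Y₂) with hy | ⟨⟨y₁, y₂⟩⟩
    · simp
    · rcases isEmpty_or_nonempty I₁ with hi | ⟨⟨i⟩⟩
      · simp
      · exact (i1.false (nb₁ y₁ i)).elim
  rcases Nat.eq_zero_or_pos (Fintype.card X₂) with c₂ | c₂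
  · have i1 : IsEmpty X₂ := Fintype.card_eq_zero_iff.1 c₂
    rcases isEmpty_or_nonempty (Y₁ × Y₂) with hy | ⟨⟨y₁, y₂⟩⟩
    · simp
    · rcases isEmpty_or_nonempty I₂ with hi | ⟨⟨i⟩⟩
      · simp
      · exact (i1.false (nb₂ y₂ i)).elim
  set n₁ : ℝ := (Fintype.card X₁ : ℝ) with hn₁
  set n₂ : ℝ := (Fintype.card X₂ : ℝ) with hn₂
  set d₁ : ℝ := (Fintype.card I₁ : ℝ) with hd₁
  set d₂ : ℝ := (Fintype.card I₂ : ℝ) with hd₂
  have p₁ : 0 < n₁ := by rw [hn₁]; exact_mod_cast c₁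
  have p₂ : 0 < n₂ := by rw [hn₂]; exact_mod_cast c₂
  let F : X₁ → X₂ → ℝ := fun a b => f (a, b)
  let G : X₁ → Y₂ → ℝ := fun x₁ y₂ => ∑ z₂, F x₁ (nb₂ y₂ z₂)
  -- step 1
  have s1 : ∑ y : Y₁ × Y₂, (∑ z : I₁ × I₂, f (nbProd nb₁ nb₂ y z)) ^ 2 =
      ∑ y₂, ∑ y₁, (∑ z₁, G (nb₁ y₁ z₁) y₂) ^ 2 := by
    rw [Fintype.sum_prod_type, sum_comm]
    refine sum_congr rfl fun y₂ _ => sum_congr rfl fun y₁ _ => ?_
    rw [Fintype.sum_prod_type]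
    rfl
  have s2 : ∀ y₂, ∑ y₁, (∑ z₁, G (nb₁ y₁ z₁) y₂) ^ 2 ≤
      d₁ ^ 2 * ((1 - l) * ((∑ x₁, G x₁ y₂) ^ 2 / n₁) + l * ∑ x₁, G x₁ y₂ ^ 2) := fun y₂ =>
    h₁ fun x₁ => G x₁ y₂
  have s3 : ∑ y₂, (∑ x₁, G x₁ y₂) ^ 2 ≤
      d₂ ^ 2 * ((1 - l) * ((∑ x₂, ∑ x₁, F x₁ x₂) ^ 2 / n₂) + l * ∑ x₂, (∑ x₁, F x₁ x₂) ^ 2) := by
    have := h₂ fun x₂ => ∑ x₁, F x₁ x₂
    refine le_trans (le_of_eq ?_) this
    refine sum_congr rfl fun y₂ _ => ?_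
    congr 1
    exact sum_comm
  have s4 : ∑ y₂, ∑ x₁, G x₁ y₂ ^ 2 ≤
      d₂ ^ 2 * ((1 - l) * ((∑ x₁, (∑ x₂, F x₁ x₂) ^ 2) / n₂) + l * ∑ x₁, ∑ x₂, F x₁ x₂ ^ 2) := by
    rw [sum_comm]
    calc ∑ x₁, ∑ y₂, G x₁ y₂ ^ 2 ≤
        ∑ x₁, d₂ ^ 2 * ((1 - l) * ((∑ x₂, F x₁ x₂) ^ 2 / n₂) + l * ∑ x₂, F x₁ x₂ ^ 2) :=
          sum_le_sum fun x₁ _ => h₂ fun x₂ => F x₁ x₂
      _ = _ := by
          rw [← mul_sum, sum_add_distrib, ← mul_sum, ← mul_sum, ← sum_div]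
  have s5 : ∑ y₂, ∑ y₁, (∑ z₁, G (nb₁ y₁ z₁) y₂) ^ 2 ≤
      d₁ ^ 2 * ((1 - l) * ((∑ y₂, (∑ x₁, G x₁ y₂) ^ 2) / n₁) + l * ∑ y₂, ∑ x₁, G x₁ y₂ ^ 2) := by
    refine (sum_le_sum fun y₂ _ => s2 y₂).trans (le_of_eq ?_)
    rw [← mul_sum, sum_add_distrib, ← mul_sum, ← mul_sum, ← sum_div]
  have hid := prod_var_identity F c₁ c₂
  rw [s1, Fintype.card_prod, Fintype.card_prod, Nat.cast_mul, Nat.cast_mul]
  have t1 : ∑ x : X₁ × X₂, f x = ∑ x₁, ∑ x₂, F x₁ x₂ := Fintype.sum_prod_type _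
  have t2 : ∑ x : X₁ × X₂, f x ^ 2 = ∑ x₁, ∑ x₂, F x₁ x₂ ^ 2 := Fintype.sum_prod_type _
  have t3 : ∑ x₂, ∑ x₁, F x₁ x₂ = ∑ x₁, ∑ x₂, F x₁ x₂ := sum_comm
  rw [t1, t2]
  rw [t3] at s3
  set T : ℝ := ∑ x₁, ∑ x₂, F x₁ x₂
  set Q : ℝ := ∑ x₁, ∑ x₂, F x₁ x₂ ^ 2
  set A : ℝ := ∑ x₂, (∑ x₁, F x₁ x₂) ^ 2
  set B : ℝ := ∑ x₁, (∑ x₂, F x₁ x₂) ^ 2
  rw [← hn₁, ← hn₂] at hid
  have u1 : (∑ y₂, (∑ x₁, G x₁ y₂) ^ 2) / n₁ ≤
      d₂ ^ 2 * ((1 - l) * (T ^ 2 / (n₁ * n₂)) + l * (A / n₁)) := by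
    rw [div_le_iff₀ p₁]
    refine s3.trans (le_of_eq ?_)
    field_simp
  have v1 := mul_le_mul_of_nonneg_left u1 (sub_nonneg.2 hl1)
  have v2 := mul_le_mul_of_nonneg_left s4 hl0
  refine s5.trans ?_
  have hd : (d₁ * d₂) ^ 2 = d₁ ^ 2 * d₂ ^ 2 := by ring
  rw [← hd₁, ← hd₂, ← hn₁, ← hn₂, hd, mul_assoc]
  refine mul_le_mul_of_nonneg_left ?_ (sq_nonneg _)
  refine (add_le_add v1 v2).trans ?_
  have w : 0 ≤ d₂ ^ 2 * (l * (1 - l)) :=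
    mul_nonneg (sq_nonneg _) (mul_nonneg hl0 (sub_nonneg.2 hl1))
  have w2 := mul_le_mul_of_nonneg_left hid w
  have e : d₂ ^ 2 * ((1 - l) * (T ^ 2 / (n₁ * n₂)) + l * Q) -
      ((1 - l) * (d₂ ^ 2 * ((1 - l) * (T ^ 2 / (n₁ * n₂)) + l * (A / n₁))) +
        l * (d₂ ^ 2 * ((1 - l) * (B / n₂) + l * Q))) =
      d₂ ^ 2 * (l * (1 - l)) * (Q + T ^ 2 / (n₁ * n₂)) -
        d₂ ^ 2 * (l * (1 - l)) * (A / n₁ + B / n₂) := by
    ring
  linarith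

/-- **product of fibre walks**, form of block B -/
theorem ExpAt.prod {nb₁ : Y₁ → I₁ → X₁} {nb₂ : Y₂ → I₂ → X₂} {lam : ℝ}
    (hl1 : lam ^ 2 ≤ 1) (hr₁ : Reg nb₁) (hr₂ : Reg nb₂)
    (hc₁ : Fintype.card X₁ = Fintype.card Y₁) (hc₂ : Fintype.card X₂ = Fintype.card Y₂)
    (h₁ : ExpAt nb₁ lam) (h₂ : ExpAt nb₂ lam) : ExpAt (nbProd nb₁ nb₂) lam :=
  ExpS.expAt (ExpS.prod (sq_nonneg _) hl1 (ExpS.of_expAt hr₁ hc₁ h₁) (ExpS.of_expAt hr₂ hc₂ h₂))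

end walks

end Crest.Agent.R289.ProdContr929
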