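import Mathlib
import Crest.Agent.R289.Tensor_560

/-!
# Row 289, leaf B10: product of two objects (content group `P × T`)

(a) expansion of the product family of step maps (real-valued functions of both signs, or only
    nonnegative ones), the counting form `mix_of_exp` (expander mixing lemma, any two sets);
(b) rigid memory: `V₁ ⊗ V₂ → (P × T → K)` is bijective; explicit extension, delta words;
(c) invariance of the tensor product under products of symmetries.
-/

set_option autoImplicit false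

namespace Crest.Agent.R289.ProdObj351

open Finset Crest.Agent.R289.Tensor560

/-! ### (a) expansion -/

section expansion

variable {P T I J : Type*} [Fintype P] [Fintype T] [Fintype I] [Fintype J]

/-- variance inequality for one function -/
def VarIneq (st : I → P → P) (N L : ℝ) (f : P → ℝ) : Prop :=
  ∑ v, (∑ i, f (st i v)) ^ 2 ≤ (Fintype.card I : ℝ) ^ 2 * ((∑ v, f v) ^ 2 / N + L * ∑ v, f v ^ 2)

/-- expansion of a family of step maps: the variance inequality for all functions -/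
def Exp (st : I → P → P) (N L : ℝ) : Prop := ∀ f : P → ℝ, VarIneq st N L f

/-- the same for nonnegative functions only -/
def ExpNN (st : I → P → P) (N L : ℝ) : Prop := ∀ f : P → ℝ, (∀ v, 0 ≤ f v) → VarIneq st N L f

theorem Exp.nn {st : I → P → P} {N L : ℝ} (h : Exp st N L) : ExpNN st N L := fun f _ => h f

/-- product family -/
def prodSt (st : I → P → P) (st' : J → T → T) : I × J → P × T → P × T :=
  fun ij pt => (st ij.1 pt.1, st' ij.2 pt.2)

theorem varIneq_prod {st : I → P → P} {st' : J → T → T} {L L' : ℝ}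
    (hL : 0 ≤ L) (hL' : 0 ≤ L') (hP : 0 < Fintype.card P)
    (f : P × T → ℝ)
    (h1 : ∀ t, VarIneq st (Fintype.card P) L (fun p => ∑ j, f (p, st' j t)))
    (h2 : ∀ p, VarIneq st' (Fintype.card T) L' (fun t => f (p, t)))
    (h3 : VarIneq st' (Fintype.card T) L' (fun t => ∑ p, f (p, t))) :
    VarIneq (prodSt st st') (Fintype.card (P × T)) (L + L' + L * L') f := by
  classical
  unfold VarIneq at *
  set n : ℝ := (Fintype.card I : ℝ) with hn
  set m : ℝ := (Fintype.card J : ℝ) with hm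
  set NP : ℝ := (Fintype.card P : ℝ) with hNP
  set NT : ℝ := (Fintype.card T : ℝ) with hNT
  have hNP0 : 0 < NP := by rw [hNP]; exact_mod_cast hP
  have hNT0 : 0 ≤ NT := Nat.cast_nonneg _
  -- the sum over the product
  have e1 : ∑ v : P × T, (∑ ij : I × J, f (prodSt st st' ij v)) ^ 2
      = ∑ t, ∑ p, (∑ i, ∑ j, f (st i p, st' j t)) ^ 2 := by
    rw [Fintype.sum_prod_type, Finset.sum_comm]
    refine Finset.sum_congr rfl fun t _ => Finset.sum_congr rfl fun p _ => ?_
    rw [Fintype.sum_prod_type]; rfl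
  have e2 : ∑ v : P × T, f v = ∑ t, ∑ p, f (p, t) := by
    rw [Fintype.sum_prod_type, Finset.sum_comm]
  have e3 : ∑ v : P × T, f v ^ 2 = ∑ p, ∑ t, f (p, t) ^ 2 := by
    rw [Fintype.sum_prod_type]
  set Q : ℝ := ∑ p, ∑ t, f (p, t) ^ 2 with hQ
  have hQ0 : 0 ≤ Q := Finset.sum_nonneg fun p _ => Finset.sum_nonneg fun t _ => sq_nonneg _
  set F : ℝ := ∑ t, ∑ p, f (p, t) with hF
  -- first step
  have s1 : ∑ t, ∑ p, (∑ i, ∑ j, f (st i p, st' j t)) ^ 2
      ≤ ∑ t, n ^ 2 * ((∑ p, ∑ j, f (p, st' j t)) ^ 2 / NP + L * ∑ p, (∑ j, f (p, st' j t)) ^ 2) :=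
    Finset.sum_le_sum fun t _ => h1 t
  have s1' : ∑ t, n ^ 2 * ((∑ p, ∑ j, f (p, st' j t)) ^ 2 / NP
        + L * ∑ p, (∑ j, f (p, st' j t)) ^ 2)
      = n ^ 2 * ((∑ t, (∑ j, ∑ p, f (p, st' j t)) ^ 2) / NP
        + L * ∑ p, ∑ t, (∑ j, f (p, st' j t)) ^ 2) := by
    rw [← Finset.mul_sum]
    congr 1
    rw [Finset.sum_add_distrib, ← Finset.mul_sum, Finset.sum_div, Finset.sum_comm (s := univ) (t := univ)
      (f := fun t p => (∑ j, f (p, st' j t)) ^ 2)]
    congr 1
    refine Finset.sum_congr rfl fun t _ => ?_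
    rw [Finset.sum_comm]
  -- second step, part 1
  have s2 : ∑ t, (∑ j, ∑ p, f (p, st' j t)) ^ 2 ≤ m ^ 2 * (F ^ 2 / NT + L' * (NP * Q)) := by
    refine le_trans h3 ?_
    have hc : ∑ t, (∑ p, f (p, t)) ^ 2 ≤ NP * Q := by
      rw [hQ, Finset.sum_comm, Finset.mul_sum]
      refine Finset.sum_le_sum fun t _ => ?_
      have := sq_sum_le_card_mul_sum_sq (s := (univ : Finset P)) (f := fun p => f (p, t))
      simpa [hNP] using this
    have : L' * ∑ t, (∑ p, f (p, t)) ^ 2 ≤ L' * (NP * Q) := mul_le_mul_of_nonneg_left hc hL'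
    exact mul_le_mul_of_nonneg_left (by linarith) (sq_nonneg m)
  -- second step, part 2
  have s3 : ∑ p, ∑ t, (∑ j, f (p, st' j t)) ^ 2 ≤ m ^ 2 * (Q + L' * Q) := by
    have h : ∑ p, ∑ t, (∑ j, f (p, st' j t)) ^ 2
        ≤ ∑ p, m ^ 2 * ((∑ t, f (p, t)) ^ 2 / NT + L' * ∑ t, f (p, t) ^ 2) :=
      Finset.sum_le_sum fun p _ => h2 p
    refine le_trans h ?_
    rw [← Finset.mul_sum]
    refine mul_le_mul_of_nonneg_left ?_ (sq_nonneg m)
    rw [Finset.sum_add_distrib, ← Finset.mul_sum]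
    have hc : ∑ p, (∑ t, f (p, t)) ^ 2 / NT ≤ Q := by
      rw [hQ]
      refine Finset.sum_le_sum fun p _ => ?_
      have h := sq_sum_le_card_mul_sum_sq (s := (univ : Finset T)) (f := fun t => f (p, t))
      rcases eq_or_lt_of_le hNT0 with h0 | h0
      · rw [← h0, div_zero]; exact Finset.sum_nonneg fun t _ => sq_nonneg _
      · rw [div_le_iff₀ h0]
        have h' : (∑ t, f (p, t)) ^ 2 ≤ NT * ∑ t, f (p, t) ^ 2 := by simpa [hNT] using h
        linarith
    linarith
  rw [e1, e2, e3]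
  refine le_trans s1 ?_
  rw [s1']
  have hcard : ((Fintype.card (I × J) : ℕ) : ℝ) = n * m := by
    rw [Fintype.card_prod]; push_cast; rfl
  have hcard' : ((Fintype.card (P × T) : ℕ) : ℝ) = NP * NT := by
    rw [Fintype.card_prod]; push_cast; rfl
  rw [hcard, hcard']
  have key : (∑ t, (∑ j, ∑ p, f (p, st' j t)) ^ 2) / NP + L * ∑ p, ∑ t, (∑ j, f (p, st' j t)) ^ 2
      ≤ m ^ 2 * (F ^ 2 / (NP * NT) + (L + L' + L * L') * Q) := by
    have t1 : (∑ t, (∑ j, ∑ p, f (p, st' j t)) ^ 2) / NP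
        ≤ m ^ 2 * (F ^ 2 / NT + L' * (NP * Q)) / NP := by
      exact div_le_div_of_nonneg_right s2 hNP0.le
    have t2 : L * ∑ p, ∑ t, (∑ j, f (p, st' j t)) ^ 2 ≤ L * (m ^ 2 * (Q + L' * Q)) :=
      mul_le_mul_of_nonneg_left s3 hL
    have t3 : m ^ 2 * (F ^ 2 / NT + L' * (NP * Q)) / NP = m ^ 2 * (F ^ 2 / (NP * NT) + L' * Q) := by
      have : F ^ 2 / (NP * NT) = F ^ 2 / NT / NP := by rw [div_div, mul_comm]
      rw [this]; field_simp
    rw [t3] at t1
    calc _ ≤ m ^ 2 * (F ^ 2 / (NP * NT) + L' * Q) + L * (m ^ 2 * (Q + L' * Q)) := add_le_add t1 t2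
      _ = _ := by ring
  calc n ^ 2 * ((∑ t, (∑ j, ∑ p, f (p, st' j t)) ^ 2) / NP
        + L * ∑ p, ∑ t, (∑ j, f (p, st' j t)) ^ 2)
      ≤ n ^ 2 * (m ^ 2 * (F ^ 2 / (NP * NT) + (L + L' + L * L') * Q)) :=
        mul_le_mul_of_nonneg_left key (sq_nonneg n)
    _ = (n * m) ^ 2 * (F ^ 2 / (NP * NT) + (L + L' + L * L') * Q) := by ring

/-- **expansion of a product family** -/
theorem exp_prod {st : I → P → P} {st' : J → T → T} {L L' : ℝ} (hL : 0 ≤ L) (hL' : 0 ≤ L')
    (hP : 0 < Fintype.card P) (h : Exp st (Fintype.card P) L) (h' : Exp st' (Fintype.card T) L') :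
    Exp (prodSt st st') (Fintype.card (P × T)) (L + L' + L * L') := fun f =>
  varIneq_prod hL hL' hP f (fun _ => h _) (fun _ => h' _) (h' _)

theorem expNN_prod {st : I → P → P} {st' : J → T → T} {L L' : ℝ} (hL : 0 ≤ L) (hL' : 0 ≤ L')
    (hP : 0 < Fintype.card P) (h : ExpNN st (Fintype.card P) L)
    (h' : ExpNN st' (Fintype.card T) L') :
    ExpNN (prodSt st st') (Fintype.card (P × T)) (L + L' + L * L') := fun f hf =>
  varIneq_prod hL hL' hP f (fun _ => h _ fun _ => Finset.sum_nonneg fun _ _ => hf _)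
    (fun _ => h' _ fun _ => hf _) (h' _ fun _ => Finset.sum_nonneg fun _ _ => hf _)

open Classical in
/-- **mixing, counting form** (valid for any two sets; only functions of sum `0` are used) -/
theorem mix_of_exp {st : I → P → P} {L : ℝ} (hL : 0 ≤ L) (h : Exp st (Fintype.card P) L)
    (A B : Finset P) :
    (((A ×ˢ (univ : Finset I)).filter fun gi => st gi.2 gi.1 ∈ B).card : ℝ)
      ≤ Fintype.card I * ((A.card : ℝ) * B.card / Fintype.card P
          + Real.sqrt L * Real.sqrt (A.card * B.card)) := by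
  classical
  rcases Nat.eq_zero_or_pos (Fintype.card P) with hP | hP
  · have : IsEmpty P := Fintype.card_eq_zero_iff.mp hP
    have hA : A = ∅ := Finset.eq_empty_of_isEmpty A
    subst hA
    simp
  set N : ℝ := (Fintype.card P : ℝ) with hN
  have hN0 : 0 < N := by rw [hN]; exact_mod_cast hP
  set n : ℝ := (Fintype.card I : ℝ) with hn
  set b : ℝ := (B.card : ℝ) with hb
  set a : ℝ := (A.card : ℝ) with ha
  let f : P → ℝ := fun v => (if v ∈ B then 1 else 0) - b / N
  have hsum : ∑ v, f v = 0 := by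
    simp only [f]
    rw [Finset.sum_sub_distrib, Finset.sum_const, Finset.card_univ, nsmul_eq_mul, ← hN]
    have : ∑ v : P, (if v ∈ B then (1 : ℝ) else 0) = b := by
      rw [Finset.sum_ite_mem, Finset.univ_inter, Finset.sum_const, nsmul_eq_mul, mul_one]
    rw [this]; field_simp; ring
  have hsq : ∑ v, f v ^ 2 ≤ b := by
    have h1 : ∑ v, f v ^ 2 = b - b ^ 2 / N := by
      have : ∀ v, f v ^ 2 = (if v ∈ B then (1 : ℝ) else 0) * (1 - 2 * (b / N)) + (b / N) ^ 2 := by
        intro v; simp only [f]; split_ifs <;> ring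
      simp_rw [this]
      rw [Finset.sum_add_distrib, ← Finset.sum_mul, Finset.sum_const, Finset.card_univ,
        nsmul_eq_mul, ← hN]
      have : ∑ v : P, (if v ∈ B then (1 : ℝ) else 0) = b := by
        rw [Finset.sum_ite_mem, Finset.univ_inter, Finset.sum_const, nsmul_eq_mul, mul_one]
      rw [this]; field_simp; ring
    rw [h1]
    have : 0 ≤ b ^ 2 / N := by positivity
    linarith
  have hexp := h f
  unfold VarIneq at hexp
  rw [hsum] at hexp
  have hexp' : ∑ v, (∑ i, f (st i v)) ^ 2 ≤ n ^ 2 * (L * b) := by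
    refine le_trans hexp ?_
    refine mul_le_mul_of_nonneg_left ?_ (sq_nonneg n)
    have : L * ∑ v, f v ^ 2 ≤ L * b := mul_le_mul_of_nonneg_left hsq hL
    simpa using this
  -- the count
  have hcount : ((((A ×ˢ (univ : Finset I)).filter fun gi => st gi.2 gi.1 ∈ B).card : ℕ) : ℝ)
      = ∑ v ∈ A, ∑ i, (if st i v ∈ B then (1 : ℝ) else 0) := by
    rw [Finset.card_filter]
    push_cast
    rw [Finset.sum_product]
  have hcount' : ∑ v ∈ A, ∑ i, (if st i v ∈ B then (1 : ℝ) else 0)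
      = ∑ v ∈ A, (∑ i, f (st i v)) + n * (a * b / N) := by
    have : ∀ v, ∑ i, (if st i v ∈ B then (1 : ℝ) else 0) = (∑ i, f (st i v)) + n * (b / N) := by
      intro v
      simp only [f]
      rw [Finset.sum_sub_distrib, Finset.sum_const, Finset.card_univ, nsmul_eq_mul, ← hn]
      ring
    simp_rw [this]
    rw [Finset.sum_add_distrib, Finset.sum_const, nsmul_eq_mul, ← ha]
    ring
  have hcs : ∑ v ∈ A, (∑ i, f (st i v)) ≤ n * (Real.sqrt L * Real.sqrt (a * b)) := by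
    have h1 : (∑ v ∈ A, (∑ i, f (st i v))) ^ 2 ≤ a * ∑ v ∈ A, (∑ i, f (st i v)) ^ 2 := by
      have := sq_sum_le_card_mul_sum_sq (s := A) (f := fun v => ∑ i, f (st i v))
      simpa [ha] using this
    have h2 : ∑ v ∈ A, (∑ i, f (st i v)) ^ 2 ≤ ∑ v, (∑ i, f (st i v)) ^ 2 :=
      Finset.sum_le_sum_of_subset_of_nonneg (Finset.subset_univ A) fun _ _ _ => sq_nonneg _
    have ha0 : 0 ≤ a := Nat.cast_nonneg _
    have hb0 : 0 ≤ b := Nat.cast_nonneg _
    have hn0 : 0 ≤ n := Nat.cast_nonneg _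
    have h3 : (∑ v ∈ A, (∑ i, f (st i v))) ^ 2 ≤ (n * (Real.sqrt L * Real.sqrt (a * b))) ^ 2 := by
      have h4 : (n * (Real.sqrt L * Real.sqrt (a * b))) ^ 2 = a * (n ^ 2 * (L * b)) := by
        rw [mul_pow, mul_pow, Real.sq_sqrt hL, Real.sq_sqrt (mul_nonneg ha0 hb0)]; ring
      rw [h4]
      refine le_trans h1 (mul_le_mul_of_nonneg_left (le_trans h2 hexp') ha0)
    exact le_trans (le_abs_self _) (abs_le_of_sq_le_sq h3 (by positivity))
  rw [hcount, hcount']
  calc _ ≤ n * (Real.sqrt L * Real.sqrt (a * b)) + n * (a * b / N) := by linarith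
    _ = _ := by ring

end expansion

/-! ### (b) rigid memory -/

section memory

variable {K : Type*} [Field K] {P T Ω₁ Ω₂ : Type*} [Fintype P] [Fintype T]

/-- restriction to the content orbit -/
def res (h : P → Ω₁) (V : Submodule K (Ω₁ → K)) : V →ₗ[K] (P → K) where
  toFun v p := v.1 (h p)
  map_add' _ _ := rfl
  map_smul' _ _ := rfl

theorem tens_res_injective {h : P → Ω₁} {h' : T → Ω₂}
    {V : Submodule K (Ω₁ → K)} {V' : Submodule K (Ω₂ → K)}
    (hV : ∀ v ∈ V, (∀ p, v (h p) = 0) → v = 0) (hV' : ∀ v ∈ V', (∀ t, v (h' t) = 0) → v = 0)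
    {w : Ω₁ × Ω₂ → K} (hw : w ∈ tens V V') (h0 : ∀ p t, w (h p, h' t) = 0) : w = 0 := by
  have h1 : ∀ t, (fun ω => w (ω, h' t)) = 0 := fun t => hV _ (hw.1 _) fun p => h0 p t
  funext ⟨ω, τ⟩
  have h2 := hV' _ (hw.2 ω) (fun t => congrFun (h1 t) ω)
  exact congrFun h2 τ

/-- **the content of a word of the tensor product of two rigid memories is arbitrary** -/
theorem tens_res_surjective {h : P → Ω₁} {h' : T → Ω₂}
    {V : Submodule K (Ω₁ → K)} {V' : Submodule K (Ω₂ → K)}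
    (hV : ∀ c : P → K, ∃ v ∈ V, ∀ p, v (h p) = c p) (hV' : ∀ c : T → K, ∃ v ∈ V', ∀ t, v (h' t) = c t)
    (c : P × T → K) : ∃ w ∈ tens V V', ∀ p t, w (h p, h' t) = c (p, t) := by
  classical
  choose E hE hE' using fun p : P => hV (Pi.single p 1)
  choose F hF hF' using fun t : T => hV' (Pi.single t 1)
  refine ⟨fun x => ∑ p, ∑ t, c (p, t) * E p x.1 * F t x.2, ⟨fun τ => ?_, fun ω => ?_⟩, fun p t => ?_⟩
  · have : (fun ω => ∑ p, ∑ t, c (p, t) * E p ω * F t τ)
        = ∑ p, (∑ t, c (p, t) * F t τ) • E p := by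
      funext ω
      simp only [Finset.sum_apply, Pi.smul_apply, smul_eq_mul, Finset.sum_mul]
      refine Finset.sum_congr rfl fun p _ => Finset.sum_congr rfl fun t _ => by ring
    show (fun ω => ∑ p, ∑ t, c (p, t) * E p ω * F t τ) ∈ V
    rw [this]
    exact V.sum_mem fun p _ => V.smul_mem _ (hE p)
  · have : (fun τ => ∑ p, ∑ t, c (p, t) * E p ω * F t τ)
        = ∑ t, (∑ p, c (p, t) * E p ω) • F t := by
      funext τ
      simp only [Finset.sum_apply, Pi.smul_apply, smul_eq_mul, Finset.sum_mul]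
      rw [Finset.sum_comm]
    show (fun τ => ∑ p, ∑ t, c (p, t) * E p ω * F t τ) ∈ V'
    rw [this]
    exact V'.sum_mem fun t _ => V'.smul_mem _ (hF t)
  · show ∑ p', ∑ t', c (p', t') * E p' (h p) * F t' (h' t) = c (p, t)
    simp_rw [hE', hF']
    rw [Finset.sum_eq_single p, Finset.sum_eq_single t]
    · simp
    · intro t' _ ht'; rw [Pi.single_eq_of_ne (Ne.symm ht')]; ring
    · simp
    · intro p' _ hp'
      refine Finset.sum_eq_zero fun t' _ => ?_
      rw [Pi.single_eq_of_ne (Ne.symm hp')]; ring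
    · simp

/-- rigid memory of the product: restriction to the product orbit is bijective -/
theorem tens_res_bijective {h : P → Ω₁} {h' : T → Ω₂}
    {V : Submodule K (Ω₁ → K)} {V' : Submodule K (Ω₂ → K)}
    (hV : Function.Bijective (res h V)) (hV' : Function.Bijective (res h' V')) :
    Function.Bijective (res (fun pt : P × T => (h pt.1, h' pt.2)) (tens V V')) := by
  constructor
  · rw [injective_iff_map_eq_zero]
    intro w hw
    have : w.1 = 0 := tens_res_injective (V := V) (V' := V')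
      (fun v hv h0 => congrArg Subtype.val ((injective_iff_map_eq_zero _).mp hV.1 ⟨v, hv⟩ (funext h0)))
      (fun v hv h0 => congrArg Subtype.val ((injective_iff_map_eq_zero _).mp hV'.1 ⟨v, hv⟩ (funext h0)))
      w.2 (fun p t => congrFun hw (p, t))
    exact Subtype.ext this
  · intro c
    obtain ⟨w, hw, hw'⟩ := tens_res_surjective (h := h) (h' := h') (V := V) (V' := V')
      (fun c => by obtain ⟨v, hv⟩ := hV.2 c; exact ⟨v.1, v.2, fun p => congrFun hv p⟩)
      (fun c => by obtain ⟨v, hv⟩ := hV'.2 c; exact ⟨v.1, v.2, fun p => congrFun hv p⟩) c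
    exact ⟨⟨w, hw⟩, funext fun pt => hw' pt.1 pt.2⟩

/-- the rigid word of a product content is the product of the words -/
theorem tens_mul_mem {V : Submodule K (Ω₁ → K)} {V' : Submodule K (Ω₂ → K)}
    {v : Ω₁ → K} {v' : Ω₂ → K} (hv : v ∈ V) (hv' : v' ∈ V') :
    (fun x : Ω₁ × Ω₂ => v x.1 * v' x.2) ∈ tens V V' := by
  constructor
  · intro t
    have : (fun ω => v ω * v' t) = v' t • v := by funext ω; simp [mul_comm]
    show (fun ω => v ω * v' t) ∈ V
    rw [this]; exact V.smul_mem _ hv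
  · intro ω
    have : (fun t => v ω * v' t) = v ω • v' := by funext t; simp
    show (fun t => v ω * v' t) ∈ V'
    rw [this]; exact V'.smul_mem _ hv'

/-- symmetries: a map preserving `C₁` times a map preserving `C₂` preserves the tensor product -/
theorem tens_comp_mem {C₁ : Submodule K (Ω₁ → K)} {C₂ : Submodule K (Ω₂ → K)}
    {σ : Ω₁ → Ω₁} {ρ : Ω₂ → Ω₂} (hσ : ∀ v ∈ C₁, v ∘ σ ∈ C₁) (hρ : ∀ v ∈ C₂, v ∘ ρ ∈ C₂)
    {w : Ω₁ × Ω₂ → K} (hw : w ∈ tens C₁ C₂) : (fun x => w (σ x.1, ρ x.2)) ∈ tens C₁ C₂ :=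
  ⟨fun t => hσ _ (hw.1 (ρ t)), fun ω => hρ _ (hw.2 (σ ω))⟩

/-- products of words: degrees add in each factor -/
theorem tens_mul {A₁ B₁ C₁ : Submodule K (Ω₁ → K)} {A₂ B₂ C₂ : Submodule K (Ω₂ → K)}
    (h₁ : ∀ v ∈ A₁, ∀ w ∈ B₁, v * w ∈ C₁) (h₂ : ∀ v ∈ A₂, ∀ w ∈ B₂, v * w ∈ C₂)
    {v w : Ω₁ × Ω₂ → K} (hv : v ∈ tens A₁ A₂) (hw : w ∈ tens B₁ B₂) : v * w ∈ tens C₁ C₂ :=
  ⟨fun t => h₁ _ (hv.1 t) _ (hw.1 t), fun ω => h₂ _ (hv.2 ω) _ (hw.2 ω)⟩

/-- monotonicity of the tensor product -/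
theorem tens_mono {A₁ B₁ : Submodule K (Ω₁ → K)} {A₂ B₂ : Submodule K (Ω₂ → K)}
    (h₁ : A₁ ≤ B₁) (h₂ : A₂ ≤ B₂) : tens A₁ A₂ ≤ tens B₁ B₂ :=
  fun _ hw => ⟨fun t => h₁ (hw.1 t), fun ω => h₂ (hw.2 ω)⟩

end memory

end Crest.Agent.R289.ProdObj351
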