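import Mathlib
import Crest.Agent.R289.ExpPass_291
import Crest.Agent.R289.TP_846
import Crest.Agent.R289.Dist_101
import Crest.Agent.R289.Cascade_397
import Crest.Agent.R289.Contr_248
import Crest.Agent.R289.ProdContr_929
import Crest.Agent.R289.ProdObj_351
import Crest.Agent.R289.MixProd_178
import Crest.Agent.R289.LCodeS_152
import Crest.Agent.R289.LTC_509

/-!
Row 289, the joints of block B1 (helper219): from 291's form `Exp291.MZ s (n² lam²)` (gap on the
mean-zero functions of the right Cayley graph) to every form used by the other blocks.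

* `GX st lam` : the variance form for a family of maps `st : ι → V → V`, all real functions.
* `GX.mono`, `GX.reindex`, `GX.transport`, `GX.inv` (inverse maps), `GX.words` (words of length `t`).
* consumers, maps: `GX.mixF`, `GX.exp351`, `GX.expNN`, `GX.expAt`, `GX.expS`, `GX.mixLCb`,
  `GX.mixes`, `GX.exp509`, `GX.tan`.
* groups (`s : ι → P`, `Gap s lam := MZ s (n² lam²)`): `Gap.right`, `Gap.rightInv`, `Gap.left`,
  `Gap.leftInv` (the four actions), `Gap.tp`, `Gap.tpInv` (`TP846.Exp`), `Gap.exX`, `Gap.exXInv`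
  (`Dist101.ExX`), `Gap.ex`, `Gap.exSymm` (`Tan846.Ex`), `Gap.mix`, `Gap.mixInv`
  (`Cascade397.Mix`), `expX`, `expY` (`TP846`).
-/

set_option autoImplicit false
set_option linter.unusedSectionVars false
set_option linter.unusedVariables false

namespace Crest.Agent.R289.ExpForms219

open Finset

/-! ### families of maps -/

section maps

variable {ι κ V W : Type*} [Fintype ι] [Fintype κ] [Fintype V] [Fintype W]

/-- variance form of expansion, all functions -/
def GX (st : ι → V → V) (lam : ℝ) : Prop :=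
  ∀ f : V → ℝ, ∑ v, (∑ i, f (st i v)) ^ 2 ≤
    (Fintype.card ι : ℝ) ^ 2 * ((∑ v, f v) ^ 2 / (Fintype.card V : ℝ) + lam ^ 2 * ∑ v, f v ^ 2)

theorem GX.mono {st : ι → V → V} {l l' : ℝ} (h : GX st l) (hl : l ^ 2 ≤ l' ^ 2) : GX st l' := by
  intro f
  refine (h f).trans ?_
  have h1 : 0 ≤ ∑ v, f v ^ 2 := Finset.sum_nonneg fun v _ => sq_nonneg _
  have h2 : l ^ 2 * ∑ v, f v ^ 2 ≤ l' ^ 2 * ∑ v, f v ^ 2 := mul_le_mul_of_nonneg_right hl h1
  exact mul_le_mul_of_nonneg_left (by linarith) (sq_nonneg _)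

theorem GX.reindex {st : ι → V → V} {l : ℝ} (h : GX st l) (e : κ ≃ ι) :
    GX (fun k => st (e k)) l := by
  intro f
  have h1 : ∀ v, ∑ k, f (st (e k) v) = ∑ i, f (st i v) := fun v =>
    Equiv.sum_comp e fun i => f (st i v)
  simp only [h1, Fintype.card_congr e]
  exact h f

theorem GX.transport {st : ι → V → V} {l : ℝ} (h : GX st l) (e : V ≃ W) :
    GX (fun i w => e (st i (e.symm w))) l := by
  intro f
  have h0 := h fun v => f (e v)
  have h1 : ∑ w, (∑ i, f (e (st i (e.symm w)))) ^ 2 = ∑ v, (∑ i, f (e (st i v))) ^ 2 := by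
    rw [← Equiv.sum_comp e]
    simp
  have h2 : ∑ w, f w = ∑ v, f (e v) := (Equiv.sum_comp e f).symm
  have h3 : ∑ w, f w ^ 2 = ∑ v, f (e v) ^ 2 := (Equiv.sum_comp e fun w => f w ^ 2).symm
  rw [h1, h2, h3, ← Fintype.card_congr e]
  exact h0

theorem GX.mixF {st : ι → V → V} {l : ℝ} (h : GX st l) : MixProd178.MixF st l := fun f _ => h f

theorem GX.exp351 {st : ι → V → V} {l : ℝ} (h : GX st l) :
    ProdObj351.Exp st (Fintype.card V : ℝ) (l ^ 2) := fun f => h f

theorem GX.expNN {st : ι → V → V} {l : ℝ} (h : GX st l) :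
    ProdObj351.ExpNN st (Fintype.card V : ℝ) (l ^ 2) := fun f _ => h f

theorem GX.expAt {st : ι → V → V} {l : ℝ} (h : GX st l) :
    Contr248.ExpAt (fun y z => st z y) l := fun f => h f

theorem reg_of_bij {st : ι → V → V} (hb : ∀ i, Function.Bijective (st i)) :
    Contr248.Reg (fun y z => st z y) := fun z => hb z

theorem GX.expS {st : ι → V → V} {l : ℝ} (h : GX st l) (hb : ∀ i, Function.Bijective (st i)) :
    ProdContr929.ExpS (fun y z => st z y) (l ^ 2) :=
  ProdContr929.ExpS.of_expAt (reg_of_bij hb) rfl h.expAt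

/-- one bijective step keeps the sum -/
theorem sum_step {st : ι → V → V} (hb : ∀ i, Function.Bijective (st i)) (f : V → ℝ) :
    ∑ v, ∑ i, f (st i v) = (Fintype.card ι : ℝ) * ∑ v, f v := by
  rw [Finset.sum_comm]
  have : ∀ i, ∑ v, f (st i v) = ∑ v, f v := fun i =>
    Equiv.sum_comp (Equiv.ofBijective (st i) (hb i)) f
  simp only [this, Finset.sum_const, Finset.card_univ, nsmul_eq_mul]

/-- gap on the mean-zero functions, maps -/
def GZ (st : ι → V → V) (lam : ℝ) : Prop :=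
  ∀ f : V → ℝ, ∑ v, f v = 0 → ∑ v, (∑ i, f (st i v)) ^ 2 ≤
    (Fintype.card ι : ℝ) ^ 2 * (lam ^ 2 * ∑ v, f v ^ 2)

theorem GX.gz {st : ι → V → V} {l : ℝ} (h : GX st l) : GZ st l := by
  intro f hf
  have := h f
  rw [hf] at this
  simpa using this

/-- the normalised variance form -/
theorem var_form {st : ι → V → V} {lam : ℝ} (h : GZ st lam)
    (hb : ∀ i, Function.Bijective (st i)) (f : V → ℝ) :
    ∑ v, (∑ i, f (st i v) - (Fintype.card ι : ℝ) * ((∑ v, f v) / (Fintype.card V : ℝ))) ^ 2 ≤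
      (Fintype.card ι : ℝ) ^ 2 *
        (lam ^ 2 * (∑ v, f v ^ 2 - (∑ v, f v) ^ 2 / (Fintype.card V : ℝ))) := by
  rcases isEmpty_or_nonempty V with hV | hV
  · simp
  set N : ℝ := (Fintype.card V : ℝ) with hN
  have hN0 : 0 < N := by rw [hN]; exact_mod_cast Fintype.card_pos
  set n : ℝ := (Fintype.card ι : ℝ) with hn
  set a : ℝ := (∑ v, f v) / N with ha
  have hNa : N * a = ∑ v, f v := by rw [ha]; field_simp
  have h1 := h (fun v => f v - a) (by
    simp only [Finset.sum_sub_distrib, Finset.sum_const, Finset.card_univ, nsmul_eq_mul]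
    rw [← hN, hNa, sub_self])
  have h2 : ∀ v, ∑ i, (f (st i v) - a) = ∑ i, f (st i v) - n * a := by
    intro v
    simp only [Finset.sum_sub_distrib, Finset.sum_const, Finset.card_univ, nsmul_eq_mul]
    rw [← hn]
  have h3 : ∑ v, (f v - a) ^ 2 = ∑ v, f v ^ 2 - (∑ v, f v) ^ 2 / N := by
    have h4 : ∀ v, (f v - a) ^ 2 = f v ^ 2 - 2 * a * f v + a ^ 2 := fun v => by ring
    simp only [h4, Finset.sum_add_distrib, Finset.sum_sub_distrib, Finset.sum_const,
      Finset.card_univ, nsmul_eq_mul, ← Finset.mul_sum]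
    rw [← hN, ← hNa]
    field_simp
    ring
  simp only [h2] at h1
  rw [h3] at h1
  exact h1

theorem GZ.gx {st : ι → V → V} {lam : ℝ} (h : GZ st lam)
    (hb : ∀ i, Function.Bijective (st i)) : GX st lam := by
  intro f
  rcases isEmpty_or_nonempty V with hV | hV
  · simp
  have h0 := var_form h hb f
  set N : ℝ := (Fintype.card V : ℝ) with hN
  have hN0 : 0 < N := by rw [hN]; exact_mod_cast Fintype.card_pos
  set n : ℝ := (Fintype.card ι : ℝ) with hn
  have h1 : ∑ v, (∑ i, f (st i v) - n * ((∑ v, f v) / N)) ^ 2 =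
      ∑ v, (∑ i, f (st i v)) ^ 2 - n ^ 2 * ((∑ v, f v) ^ 2 / N) := by
    have h4 : ∀ v, (∑ i, f (st i v) - n * ((∑ v, f v) / N)) ^ 2 =
        (∑ i, f (st i v)) ^ 2 - 2 * (n * ((∑ v, f v) / N)) * (∑ i, f (st i v)) +
          (n * ((∑ v, f v) / N)) ^ 2 := fun v => by ring
    simp only [h4, Finset.sum_add_distrib, Finset.sum_sub_distrib, Finset.sum_const,
      Finset.card_univ, nsmul_eq_mul, ← Finset.mul_sum]
    rw [sum_step hb f, ← hN, ← hn]
    field_simp
    ring
  rw [h1] at h0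
  have h5 : 0 ≤ n ^ 2 * (lam ^ 2 * ((∑ v, f v) ^ 2 / N)) := by positivity
  nlinarith [h0, h5]

/-- the adjoint family -/
theorem GX.inv {st : ι → V ≃ V} {lam : ℝ} (h : GX (fun i => (st i : V → V)) lam) :
    GX (fun i => ((st i).symm : V → V)) lam := by
  refine GZ.gx ?_ fun i => (st i).symm.bijective
  intro f hf
  set n : ℝ := (Fintype.card ι : ℝ) with hn
  set g : V → ℝ := fun v => ∑ i, f ((st i).symm v) with hg
  have hg0 : ∑ v, g v = 0 := by
    have := sum_step (st := fun i => ((st i).symm : V → V)) (fun i => (st i).symm.bijective) f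
    simp only [hg]
    rw [this, hf, mul_zero]
  have h1 := h.gz g hg0
  have h2 : ∑ v, g v ^ 2 = ∑ u, f u * ∑ i, g (st i u) := by
    have : ∀ v, g v ^ 2 = ∑ i, f ((st i).symm v) * g v := by
      intro v
      rw [← Finset.sum_mul, sq]
    simp only [this, Finset.mul_sum]
    rw [Finset.sum_comm]
    conv_rhs => rw [Finset.sum_comm]
    refine Finset.sum_congr rfl fun i _ => ?_
    rw [← Equiv.sum_comp (st i) (fun v => f ((st i).symm v) * g v)]
    simp only [Equiv.symm_apply_apply]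
  have h3 : (∑ v, g v ^ 2) ^ 2 ≤ (∑ v, f v ^ 2) * (n ^ 2 * (lam ^ 2 * ∑ v, g v ^ 2)) := by
    calc (∑ v, g v ^ 2) ^ 2 = (∑ u, f u * ∑ i, g (st i u)) ^ 2 := by rw [h2]
      _ ≤ (∑ u, f u ^ 2) * ∑ u, (∑ i, g (st i u)) ^ 2 := Finset.sum_mul_sq_le_sq_mul_sq _ _ _
      _ ≤ (∑ u, f u ^ 2) * (n ^ 2 * (lam ^ 2 * ∑ v, g v ^ 2)) :=
          mul_le_mul_of_nonneg_left h1 (Finset.sum_nonneg fun _ _ => sq_nonneg _)
  have h4 : 0 ≤ ∑ v, g v ^ 2 := Finset.sum_nonneg fun _ _ => sq_nonneg _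
  have h5 : 0 ≤ ∑ v, f v ^ 2 := Finset.sum_nonneg fun _ _ => sq_nonneg _
  change ∑ v, g v ^ 2 ≤ n ^ 2 * (lam ^ 2 * ∑ v, f v ^ 2)
  rcases h4.eq_or_lt with h6 | h6
  · rw [← h6]
    positivity
  · refine le_of_mul_le_mul_right ?_ h6
    calc (∑ v, g v ^ 2) * ∑ v, g v ^ 2 = (∑ v, g v ^ 2) ^ 2 := (sq _).symm
      _ ≤ (∑ v, f v ^ 2) * (n ^ 2 * (lam ^ 2 * ∑ v, g v ^ 2)) := h3
      _ = n ^ 2 * (lam ^ 2 * ∑ v, f v ^ 2) * ∑ v, g v ^ 2 := by ring

/-- words of length `t` -/
def wd (st : ι → V → V) : (t : ℕ) → (Fin t → ι) → V → V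
  | 0, _ => id
  | t + 1, w => fun v => st (w (Fin.last t)) (wd st t (fun i => w i.castSucc) v)

theorem GX.words {st : ι → V → V} {lam : ℝ} (h : GX st lam)
    (hb : ∀ i, Function.Bijective (st i)) (t : ℕ) : GX (wd st t) (lam ^ t) := by
  have hbt : ∀ t (w : Fin t → ι), Function.Bijective (wd st t w) := by
    intro t
    induction t with
    | zero => intro w; exact Function.bijective_id
    | succ t ih => intro w; exact (hb _).comp (ih _)
  refine GZ.gx ?_ (hbt t)
  induction t with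
  | zero =>
    intro f _
    simp [wd]
  | succ t ih =>
    intro f hf
    have h1 : ∀ v, ∑ w : Fin (t + 1) → ι, f (wd st (t + 1) w v) =
        ∑ w : Fin t → ι, (fun u => ∑ i, f (st i u)) (wd st t w v) := by
      intro v
      rw [← (Fin.snocEquiv fun _ => ι).sum_comp, Fintype.sum_prod_type, Finset.sum_comm]
      refine Finset.sum_congr rfl fun w _ => Finset.sum_congr rfl fun i _ => ?_
      simp [wd]
    have h2 : ∑ u, (∑ i, f (st i u)) = 0 := by
      rw [sum_step hb f, hf, mul_zero]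
    simp only [h1]
    refine (ih (fun u => ∑ i, f (st i u)) h2).trans ?_
    have h3 := h.gz f hf
    have h4 : (Fintype.card (Fin (t + 1) → ι) : ℝ) =
        (Fintype.card (Fin t → ι) : ℝ) * (Fintype.card ι : ℝ) := by
      simp [pow_succ]
    rw [h4]
    calc (Fintype.card (Fin t → ι) : ℝ) ^ 2 * ((lam ^ t) ^ 2 * ∑ u, (∑ i, f (st i u)) ^ 2)
        ≤ (Fintype.card (Fin t → ι) : ℝ) ^ 2 * ((lam ^ t) ^ 2 *
          ((Fintype.card ι : ℝ) ^ 2 * (lam ^ 2 * ∑ v, f v ^ 2))) := by gcongr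
      _ = ((Fintype.card (Fin t → ι) : ℝ) * (Fintype.card ι : ℝ)) ^ 2 *
          ((lam ^ (t + 1)) ^ 2 * ∑ v, f v ^ 2) := by ring

end maps

/-! ### the clock forms (`Type`, normalised) -/

section clock

variable {ι V : Type} [Fintype ι] [Fintype V]

/-- `LCb72.Mix st (lam ^ 2)` -/
theorem GX.mixLCb [Nonempty ι] {st : ι → V → V} {lam : ℝ} (h : GX st lam)
    (hb : ∀ i, Function.Bijective (st i)) (f : V → ℝ) :
    ∑ s, ((∑ j, f (st j s)) / (Fintype.card ι : ℝ) -
      (∑ s, f s) / (Fintype.card V : ℝ)) ^ 2 ≤ lam ^ 2 * ∑ s, (f s) ^ 2 := by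
  have hn : (0 : ℝ) < (Fintype.card ι : ℝ) := by exact_mod_cast Fintype.card_pos
  have h0 := var_form h.gz hb f
  have h1 : ∀ s, ((∑ j, f (st j s)) / (Fintype.card ι : ℝ) -
      (∑ s, f s) / (Fintype.card V : ℝ)) ^ 2 =
      (∑ j, f (st j s) - (Fintype.card ι : ℝ) * ((∑ v, f v) / (Fintype.card V : ℝ))) ^ 2 /
        (Fintype.card ι : ℝ) ^ 2 := by
    intro s
    field_simp
  simp only [h1]
  rw [← Finset.sum_div, div_le_iff₀ (by positivity)]
  refine h0.trans ?_
  have h2 : 0 ≤ (∑ v, f v) ^ 2 / (Fintype.card V : ℝ) := by positivity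
  have h3 : lam ^ 2 * (∑ v, f v ^ 2 - (∑ v, f v) ^ 2 / (Fintype.card V : ℝ)) ≤
      lam ^ 2 * ∑ v, f v ^ 2 := mul_le_mul_of_nonneg_left (by linarith) (sq_nonneg _)
  nlinarith [mul_le_mul_of_nonneg_left h3 (sq_nonneg (Fintype.card ι : ℝ))]

theorem GX.mixes [Nonempty ι] {st : ι → Equiv.Perm V} {lam : ℝ}
    (h : GX (fun i => (st i : V → V)) lam) : LCodeS152.Mixes st (lam ^ 2) := by
  intro f
  exact h.mixLCb (fun i => (st i).bijective) f

end clock

/-! ### groups -/

section groups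

variable {P : Type*} [Group P] [Fintype P] {ι : Type*} [Fintype ι]

open Exp291

/-- the form in which block B1 delivers the expansion -/
def Gap (s : ι → P) (lam : ℝ) : Prop := MZ s ((Fintype.card ι : ℝ) ^ 2 * lam ^ 2)

theorem Gap.of_MZ {s : ι → P} {lam μ : ℝ} (h : MZ s μ)
    (hμ : μ ≤ (Fintype.card ι : ℝ) ^ 2 * lam ^ 2) : Gap s lam := by
  intro f hf
  exact (h f hf).trans (mul_le_mul_of_nonneg_right hμ (Finset.sum_nonneg fun _ _ => sq_nonneg _))

theorem Gap.mono {s : ι → P} {l l' : ℝ} (h : Gap s l) (hl : l ^ 2 ≤ l' ^ 2) : Gap s l' :=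
  Gap.of_MZ h (mul_le_mul_of_nonneg_left hl (sq_nonneg _))

theorem Gap.inv {s : ι → P} {lam : ℝ} (h : Gap s lam) : Gap (fun i => (s i)⁻¹) lam :=
  MZ.inv (by positivity) h

theorem Gap.mul_left {s : ι → P} {lam : ℝ} (h : Gap s lam) (a : P) : Gap (fun i => a * s i) lam :=
  MZ.mul_left h a

theorem Gap.mul_right {s : ι → P} {lam : ℝ} (h : Gap s lam) (a : P) :
    Gap (fun i => s i * a) lam :=
  MZ.mul_right h a

/-- conjugate generators -/
theorem Gap.conj {s : ι → P} {lam : ℝ} (h : Gap s lam) (a : P) :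
    Gap (fun i => a * s i * a⁻¹) lam :=
  Gap.mul_right (s := fun i => a * s i) (h.mul_left a) a⁻¹

theorem Gap.right {s : ι → P} {lam : ℝ} (h : Gap s lam) : GX (fun i v => v * s i) lam :=
  fun f => MZ.exp h f

theorem Gap.rightInv {s : ι → P} {lam : ℝ} (h : Gap s lam) : GX (fun i v => v * (s i)⁻¹) lam :=
  h.inv.right

theorem Gap.leftInv {s : ι → P} {lam : ℝ} (h : Gap s lam) : GX (fun i v => (s i)⁻¹ * v) lam := by
  intro f
  have h0 := h.right fun v => f v⁻¹
  have h1 : ∑ v, (∑ i, f ((s i)⁻¹ * v)) ^ 2 = ∑ v, (∑ i, f ((v * s i)⁻¹)) ^ 2 := by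
    rw [← Equiv.sum_comp (Equiv.inv P)]
    simp
  have h2 : ∑ v, f v = ∑ v, f v⁻¹ := by
    rw [← Equiv.sum_comp (Equiv.inv P)]
    simp
  have h3 : ∑ v, f v ^ 2 = ∑ v, f v⁻¹ ^ 2 := by
    rw [← Equiv.sum_comp (Equiv.inv P)]
    simp
  rw [h1, h2, h3]
  exact h0

theorem Gap.left {s : ι → P} {lam : ℝ} (h : Gap s lam) : GX (fun i v => s i * v) lam := by
  have := h.inv.leftInv
  simpa only [inv_inv] using this

theorem Gap.mix {s : ι → P} {lam : ℝ} (h : Gap s lam) : Cascade397.Mix s lam :=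
  fun f _ => h.leftInv f

theorem Gap.mixInv {s : ι → P} {lam : ℝ} (h : Gap s lam) :
    Cascade397.Mix (fun i => (s i)⁻¹) lam :=
  h.inv.mix

end groups

section small

variable {P ι : Type} [Group P] [Fintype P] [Fintype ι]

theorem Gap.tp {s : ι → P} {lam : ℝ} (h : Gap s lam) : TP846.Exp s lam := fun f _ => h.right f

theorem Gap.tpInv {s : ι → P} {lam : ℝ} (h : Gap s lam) : TP846.Exp (fun z => (s z)⁻¹) lam :=
  h.inv.tp

theorem Gap.exX {s : ι → P} {lam : ℝ} (h : Gap s lam) : Dist101.ExX s lam :=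
  fun f _ => h.rightInv f

theorem Gap.exXInv {s : ι → P} {lam : ℝ} (h : Gap s lam) :
    Dist101.ExX (fun z => (s z)⁻¹) lam :=
  h.inv.exX

theorem Gap.ex {s : ι → P} {lam : ℝ} (h : Gap s lam) :
    Tan846.Ex (fun l => Equiv.mulRight (s l)) (Fintype.card P : ℝ) lam :=
  Dist101.ex_of h.exX

theorem Gap.exSymm {s : ι → P} {lam : ℝ} (h : Gap s lam) :
    Tan846.Ex (fun l => (Equiv.mulRight (s l)).symm) (Fintype.card P : ℝ) lam := by
  intro g _
  simpa using h.right g

variable {D : TP846.TP P ι}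

theorem expX {lam : ℝ} (h : Gap D.a lam) : D.cx.ExpX (Fintype.card ι) (Fintype.card P) lam :=
  TP846.TP.expX D h.tp h.tpInv

theorem expY {lam : ℝ} (h : Gap D.b lam) : D.cx.ExpY (Fintype.card ι) (Fintype.card P) lam :=
  TP846.TP.expY D h.tp h.tpInv

end small

/-! ### 509's complex -/

section ltc509

variable {V I J : Type*} [Fintype V] [Fintype I] [Fintype J] [Nonempty I] [Nonempty J]

theorem exp509 (S : LTC509.SqC V I J) {lam : ℝ} (hx : GX (fun i v => S.xn v i) lam)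
    (hy : GX (fun j v => S.yn v j) lam) : S.Exp 1 lam := by
  have hI : (0 : ℝ) < (Fintype.card I : ℝ) := by exact_mod_cast Fintype.card_pos
  have hJ : (0 : ℝ) < (Fintype.card J : ℝ) := by exact_mod_cast Fintype.card_pos
  refine ⟨fun h _ => ?_, fun h _ => ?_⟩
  · have h0 := hx h
    simp only [div_pow]
    rw [← Finset.sum_div, div_le_iff₀ (by positivity)]
    refine h0.trans (le_of_eq ?_)
    ring
  · have h0 := hy h
    simp only [div_pow]
    rw [← Finset.sum_div, div_le_iff₀ (by positivity)]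
    refine h0.trans (le_of_eq ?_)
    ring

end ltc509

end Crest.Agent.R289.ExpForms219
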