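import Crest.Agent.R289.SkewMult_877
import Crest.Agent.R289.ExpPhi_820

/-!
# Relative gap of the norm-one groups over the constants, all levels (row 289, block B)

From 820's count of closed words (`closedWords_tk`), the multiplicity bounds (`relGap_level`),
level one (hypothesis `h1`) and the tower.
-/

namespace Crest.Agent.R289.SkewGrp877

open Crest.Agent.R289.TraceM962 Crest.Agent.R289.Tower962 Crest.Agent.R289.Exp820

variable {K : Type*} [Field K] {σ : K →+* K} {x : K} {ι : Type*} {cc bb : ι → K}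

lemma trU_pe (hx0 : x ≠ 0) (hm : PMem σ x cc bb) {k k' : ℕ} (hk : k' ≤ k) (i : ι) :
    trU σ hk (pe σ cc bb k i) = pe σ cc bb k' i := by
  refine Units.ext ?_
  rw [val_trU, pe_val hx0 hm, pe_val hx0 hm]
  refine ext' fun n hn => ?_
  rw [SkewGrp877.c_tr hk _ hn, pev, pev, c_mk _ hn, c_mk _ (hn.trans hk)]

lemma trSG_tk (hσ : ∀ a, σ (σ a) = a) (hx0 : x ≠ 0) (hm : PMem σ x cc bb) (i₀ : ι) {k k' : ℕ}
    (hk : k' ≤ k) (i : ι) : trSG hσ hk (tk hσ hx0 hm i₀ k i) = tk hσ hx0 hm i₀ k' i := by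
  refine Subtype.ext ?_
  change trU σ hk ((pe σ cc bb k i₀)⁻¹ * pe σ cc bb k i) = (pe σ cc bb k' i₀)⁻¹ * pe σ cc bb k' i
  rw [map_mul, map_inv, trU_pe hx0 hm, trU_pe hx0 hm]

/-- **relative gap over the constants at every level `k + 1`**, from level one. -/
theorem relGap_tk [Fintype K] [Fintype ι] (hσ : ∀ a, σ (σ a) = a) {Q : ℕ}
    (hc : Fintype.card K = Q ^ 2) (hσq : ∀ a, σ a = a ^ Q) (hQ2 : 2 ≤ Q) (h2 : (2 : K) ≠ 0)
    (hx : σ x ≠ x) (hx0 : x ≠ 0) (hm : PMem σ x cc bb)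
    (hinj : Function.Injective fun i => (cc i, bb i)) (i₀ : ι)
    [∀ k, DecidableEq ↥(SG hσ k)] {r : ℝ} (hr : 0 < r) (hrq : r ^ 3 ≤ Q)
    (h1 : RelGap (tr1 hσ 1 : SG hσ 1 → SG hσ 0) (tk hσ hx0 hm i₀ 1)
      ((314 / r) * ((Q : ℝ) ^ 2 + 1) ^ 2)) (k : ℕ) :
    RelGap (trSG hσ (Nat.zero_le (k + 1)) : SG hσ (k + 1) → SG hσ 0)
      (tk hσ hx0 hm i₀ (k + 1)) ((314 / r) * ((Q : ℝ) ^ 2 + 1) ^ 2) := by
  refine relGap_tower hσ h2 (fun k => tk hσ hx0 hm i₀ k) (fun k i => trSG_tk hσ hx0 hm i₀ _ i)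
    ?_ k
  intro k
  rcases Nat.eq_zero_or_pos k with rfl | hk
  · exact h1
  · refine relGap_level (k := k + 1) hσ h2 ⟨x, hx⟩ (by rw [Nat.card_eq_fintype_card, hc]) hr hrq
      (by omega) _ ?_
    exact closedWords_tk hc hσq hQ2 h2 hx hσ hx0 hm hinj i₀ (k + 1)

end Crest.Agent.R289.SkewGrp877
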