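import Crest.Agent.R289.ExpOne_291
import Crest.Agent.R289.SkewGap_877

/-!
Row 289, block B1: level one of the tower, concrete (helper718).

`level_one_tk` : `RelGap (tr1 hσ 1) (tk hσ hx0 hm i₀ 1) ((Q + 1) * (2 * Q ^ 2))`;
`level_one_tk'` : the hypothesis `h1` of `SkewGrp877.relGap_tk`;
`relGap_all` : `relGap_tk` without `h1`.
-/

set_option autoImplicit false

namespace Crest.Agent.R289.ExpL1718

open Finset Crest.Agent.R289.TraceM962 Crest.Agent.R289.Tower962 Crest.Agent.R289.Exp820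
  Crest.Agent.R289.SkewGrp877 Crest.Agent.R289.Exp291

variable {K : Type*} [Field K] {σ : K →+* K} {x : K} {ι : Type*} {cc bb : ι → K}

theorem c0_mul {k : ℕ} (f g : R σ k) : c (f * g) 0 = c f 0 * c g 0 := by
  rw [c_mul _ _ (Nat.zero_le _)]
  simp

theorem c1_mul (f g : R σ 1) : c (f * g) 1 = c f 0 * c g 1 + c f 1 * σ (c g 0) := by
  rw [c_mul _ _ le_rfl]
  simp [Finset.Nat.antidiagonal_succ]

/-- value of an element of the norm-one group -/
abbrev vv {hσ : ∀ a, σ (σ a) = a} {k : ℕ} (u : SG hσ k) : R σ k := ((u : (R σ k)ˣ) : R σ k)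

theorem sg_ext1 {hσ : ∀ a, σ (σ a) = a} {u v : SG hσ 1} (h0 : c (vv u) 0 = c (vv v) 0)
    (h1 : c (vv u) 1 = c (vv v) 1) : u = v := by
  refine Subtype.ext (Units.ext (ext' fun n hn => ?_))
  interval_cases n
  · exact h0
  · exact h1

theorem sg_ext0 {hσ : ∀ a, σ (σ a) = a} {u v : SG hσ 0} (h0 : c (vv u) 0 = c (vv v) 0) :
    u = v := by
  refine Subtype.ext (Units.ext (ext' fun n hn => ?_))
  obtain rfl : n = 0 := by omega
  exact h0

theorem vv_mul {hσ : ∀ a, σ (σ a) = a} {k : ℕ} (u v : SG hσ k) : vv (u * v) = vv u * vv v := rfl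

/-- `1 + a τ` -/
def jj (hσ : ∀ a, σ (σ a) = a) (a : K) : SG hσ 1 :=
  ⟨ex le_rfl a, (ex_mem hσ le_rfl (Or.inl rfl)).1⟩

theorem c0_jj (hσ : ∀ a, σ (σ a) = a) (a : K) : c (vv (jj hσ a)) 0 = 1 := by
  change c (1 + mono 1 a : R σ 1) 0 = 1
  rw [c_add, c_one (Nat.zero_le _), c_mono _ _ (Nat.zero_le _)]
  simp

theorem c1_jj (hσ : ∀ a, σ (σ a) = a) (a : K) : c (vv (jj hσ a)) 1 = a := by
  change c (1 + mono 1 a : R σ 1) 1 = a
  rw [c_add, c_one le_rfl, c_mono _ _ le_rfl]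
  simp

/-- the constants of level one -/
def mt (hσ : ∀ a, σ (σ a) = a) (a : K) (ha : a * σ a = 1) : SG hσ 1 :=
  ⟨tor 1 a ha, tor_mem hσ _ _⟩

theorem c0_mt (hσ : ∀ a, σ (σ a) = a) (a : K) (ha : a * σ a = 1) : c (vv (mt hσ a ha)) 0 = a := by
  change c (mono 0 a : R σ 1) 0 = a
  rw [c_mono _ _ (Nat.zero_le _), if_pos rfl]

theorem c1_mt (hσ : ∀ a, σ (σ a) = a) (a : K) (ha : a * σ a = 1) : c (vv (mt hσ a ha)) 1 = 0 := by
  change c (mono 0 a : R σ 1) 1 = 0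
  rw [c_mono _ _ le_rfl, if_neg one_ne_zero]

/-- the constants -/
def mm (hσ : ∀ a, σ (σ a) = a) : SG hσ 0 →* SG hσ 1 where
  toFun u := mt hσ (c (vv u) 0) (const_SG hσ u.2)
  map_one' := by
    refine sg_ext1 ?_ ?_
    · rw [c0_mt]
      change c (1 : R σ 0) 0 = c (1 : R σ 1) 0
      rw [c_one le_rfl, c_one (Nat.zero_le _)]
    · rw [c1_mt]
      change 0 = c (1 : R σ 1) 1
      rw [c_one le_rfl, if_neg one_ne_zero]
  map_mul' u v := by
    refine sg_ext1 ?_ ?_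
    · rw [c0_mt, vv_mul, vv_mul, c0_mul, c0_mul, c0_mt, c0_mt]
    · rw [c1_mt, vv_mul, c1_mul, c1_mt, c1_mt, mul_zero, zero_mul, add_zero]

theorem c0_mm (hσ : ∀ a, σ (σ a) = a) (u : SG hσ 0) : c (vv (mm hσ u)) 0 = c (vv u) 0 :=
  c0_mt hσ _ _

theorem c1_mm (hσ : ∀ a, σ (σ a) = a) (u : SG hσ 0) : c (vv (mm hσ u)) 1 = 0 := c1_mt hσ _ _

/-- the element of level zero with given constant term -/
def uz (hσ : ∀ a, σ (σ a) = a) (a : K) (ha : a * σ a = 1) : SG hσ 0 :=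
  ⟨tor 0 a ha, tor_mem hσ _ _⟩

theorem c0_uz (hσ : ∀ a, σ (σ a) = a) (a : K) (ha : a * σ a = 1) : c (vv (uz hσ a ha)) 0 = a := by
  change c (mono 0 a : R σ 0) 0 = a
  rw [c_mono _ _ (Nat.zero_le _), if_pos rfl]

/-- truncation to level zero -/
def be (hσ : ∀ a, σ (σ a) = a) : SG hσ 1 →* SG hσ 0 := tr1 hσ 1

theorem c0_be (hσ : ∀ a, σ (σ a) = a) (u : SG hσ 1) : c (vv (be hσ u)) 0 = c (vv u) 0 :=
  SkewGrp877.c_tr (Nat.zero_le 1) _ le_rfl

theorem norm0 {hσ : ∀ a, σ (σ a) = a} {k : ℕ} (u : SG hσ k) :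
    c (vv u) 0 * σ (c (vv u) 0) = 1 := const_SG hσ u.2

theorem jj_add (hσ : ∀ a, σ (σ a) = a) (a b : K) : jj hσ (a + b) = jj hσ a * jj hσ b := by
  refine sg_ext1 ?_ ?_
  · rw [vv_mul, c0_mul, c0_jj, c0_jj, c0_jj, one_mul]
  · rw [vv_mul, c1_mul, c1_jj, c0_jj, c1_jj, c1_jj, c0_jj, map_one, mul_one, one_mul, add_comm]

theorem conj_jj (hσ : ∀ a, σ (σ a) = a) (u : SG hσ 0) (b : K) :
    mm hσ u * jj hσ b = jj hσ (c (vv u) 0 ^ 2 * b) * mm hσ u := by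
  have hu := norm0 u
  refine sg_ext1 ?_ ?_
  · rw [vv_mul, vv_mul, c0_mul, c0_mul, c0_jj, c0_jj, mul_one, one_mul]
  · rw [vv_mul, vv_mul, c1_mul, c1_mul, c1_jj, c1_jj, c0_jj, c1_mm, c0_mm, zero_mul, add_zero,
      mul_zero, zero_add]
    linear_combination (-(c (vv u) 0) * b) * hu

theorem jm_bij (hσ : ∀ a, σ (σ a) = a) :
    Function.Bijective fun p : K × SG hσ 0 => jj hσ p.1 * mm hσ p.2 := by
  have e0 : ∀ p : K × SG hσ 0, c (vv (jj hσ p.1 * mm hσ p.2)) 0 = c (vv p.2) 0 := by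
    intro p
    rw [vv_mul, c0_mul, c0_jj, c0_mm, one_mul]
  have e1 : ∀ p : K × SG hσ 0, c (vv (jj hσ p.1 * mm hσ p.2)) 1 = p.1 * σ (c (vv p.2) 0) := by
    intro p
    rw [vv_mul, c1_mul, c1_jj, c1_mm, c0_mm, mul_zero, zero_add]
  constructor
  · rintro ⟨a, u⟩ ⟨b, v⟩ h
    simp only at h
    have h0 := e0 (a, u)
    have h0' := e0 (b, v)
    have h1 := e1 (a, u)
    have h1' := e1 (b, v)
    simp only at h0 h0' h1 h1'
    rw [h] at h0 h1
    have huv : c (vv u) 0 = c (vv v) 0 := h0.symm.trans h0'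
    have hu : u = v := sg_ext0 huv
    have hab : a * σ (c (vv u) 0) = b * σ (c (vv u) 0) := by
      rw [← h1, h1', huv]
    have hne : σ (c (vv u) 0) ≠ 0 := by
      intro h
      have := norm0 u
      rw [h, mul_zero] at this
      exact zero_ne_one this
    exact Prod.ext (mul_right_cancel₀ hne hab) hu
  · intro g
    refine ⟨(c (vv g) 1 * c (vv g) 0, be hσ g), ?_⟩
    refine sg_ext1 ?_ ?_
    · rw [e0]
      exact c0_be hσ g
    · rw [e1]
      change c (vv g) 1 * c (vv g) 0 * σ (c (vv (be hσ g)) 0) = _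
      rw [c0_be, mul_assoc, norm0, mul_one]

/-- the number of elements of norm one -/
theorem card_norm [Fintype K] [DecidableEq K] (hσ : ∀ a, σ (σ a) = a) {Q : ℕ}
    (hc : Fintype.card K = Q ^ 2) (h2 : (2 : K) ≠ 0) (hx : σ x ≠ x) :
    (univ.filter fun v : K => v * σ v = 1).card = Q + 1 := by
  have h1 : w σ = Q + 1 := by
    rw [w_eq hσ h2 ⟨x, hx⟩, q_eq hσ h2 ⟨x, hx⟩ (by rw [Nat.card_eq_fintype_card, hc])]
  rw [← h1, w, Set.coe_ofPred, Nat.card_eq_fintype_card, Fintype.card_subtype]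

theorem card_SG0 [Fintype K] (hσ : ∀ a, σ (σ a) = a) {Q : ℕ}
    (hc : Fintype.card K = Q ^ 2) (h2 : (2 : K) ≠ 0) (hx : σ x ≠ x) :
    Fintype.card (SG hσ 0) = Q + 1 := by
  rw [card_SG' hσ h2 ⟨x, hx⟩, q_eq hσ h2 ⟨x, hx⟩ (by rw [Nat.card_eq_fintype_card, hc])]
  simp

/-- at most two elements with given value of `n` -/
theorem two_roots [Fintype K] [DecidableEq K] (hσ : ∀ a, σ (σ a) = a) (hx0 : x ≠ 0) (y : K) :
    (univ.filter fun u : SG hσ 0 => (x * c (vv u) 0 + σ (x * c (vv u) 0) + (x + σ x)) /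
      (x * σ x) = y).card ≤ 2 := by
  classical
  have hx1 : σ x ≠ 0 := (map_ne_zero σ).2 hx0
  set P : Polynomial K := Polynomial.C x * Polynomial.X ^ 2 +
    Polynomial.C (x + σ x - y * (x * σ x)) * Polynomial.X + Polynomial.C (σ x) with hP
  have hP0 : P ≠ 0 := by
    intro h
    have := congrArg (fun p : Polynomial K => p.coeff 0) h
    simp [hP] at this
    exact hx0 this
  have hdeg : P.natDegree ≤ 2 := Polynomial.natDegree_quadratic_le
  have h1 : (univ.filter fun u : SG hσ 0 => (x * c (vv u) 0 + σ (x * c (vv u) 0) + (x + σ x)) /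
      (x * σ x) = y).card ≤ P.roots.toFinset.card := by
    refine Finset.card_le_card_of_injOn (fun u => c (vv u) 0) ?_ ?_
    · intro u hu
      rw [Finset.mem_coe, Finset.mem_filter, div_eq_iff (mul_ne_zero hx0 hx1)] at hu
      rw [Finset.mem_coe, Multiset.mem_toFinset, Polynomial.mem_roots hP0, Polynomial.IsRoot.def]
      simp only [hP, Polynomial.eval_add, Polynomial.eval_mul, Polynomial.eval_C,
        Polynomial.eval_pow, Polynomial.eval_X]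
      have hu1 := norm0 u
      have hu2 := hu.2
      rw [map_mul] at hu2
      linear_combination (c (vv u) 0) * hu2 - σ x * hu1
    · intro u _ v _ h
      exact sg_ext0 h
  exact h1.trans ((Multiset.toFinset_card_le _).trans ((Polynomial.card_roots' P).trans hdeg))

/-- `x⁻¹ π_i`, level one, as a member of the norm-one group -/
noncomputable def ss (hσ : ∀ a, σ (σ a) = a) (x : K) (cc bb : ι → K)
    (hu : ∀ i, (x⁻¹ * cc i) * σ (x⁻¹ * cc i) = 1) (i : ι) : SG hσ 1 :=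
  jj hσ (x⁻¹ * bb i * (x⁻¹ * cc i)) * mm hσ (uz hσ (x⁻¹ * cc i) (hu i))

theorem norm_u (hx0 : x ≠ 0) (hm : PMem σ x cc bb) (i : ι) :
    (x⁻¹ * cc i) * σ (x⁻¹ * cc i) = 1 := by
  have hx1 : σ x ≠ 0 := (map_ne_zero σ).2 hx0
  have h := (hm i).1
  rw [map_mul, map_inv₀]
  field_simp
  exact h

theorem tk_one (hσ : ∀ a, σ (σ a) = a) (hx0 : x ≠ 0) (hm : PMem σ x cc bb) (i₀ i : ι) :
    tk hσ hx0 hm i₀ 1 i = (ss hσ x cc bb (norm_u hx0 hm) i₀)⁻¹ *
      ss hσ x cc bb (norm_u hx0 hm) i := by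
  have hx1 : σ x ≠ 0 := (map_ne_zero σ).2 hx0
  -- the scalar `x⁻¹`
  set X : (R σ 1)ˣ := ⟨mono 0 x⁻¹, mono 0 x, by rw [mono_zero_mul, inv_mul_cancel₀ hx0,
    mono_zero_one], by rw [mono_zero_mul, mul_inv_cancel₀ hx0, mono_zero_one]⟩ with hX
  have key : ∀ j, ((ss hσ x cc bb (norm_u hx0 hm) j : SG hσ 1) : (R σ 1)ˣ) =
      X * pe σ cc bb 1 j := by
    intro j
    refine Units.ext ?_
    have h0 : c ((X * pe σ cc bb 1 j : (R σ 1)ˣ) : R σ 1) 0 = x⁻¹ * cc j := by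
      rw [Units.val_mul, c0_mul, pe_val hx0 hm]
      change c (mono 0 x⁻¹ : R σ 1) 0 * _ = _
      rw [c_mono _ _ (Nat.zero_le _), pev, c_mk _ (Nat.zero_le _), if_pos rfl, if_pos rfl]
    have h1 : c ((X * pe σ cc bb 1 j : (R σ 1)ˣ) : R σ 1) 1 = x⁻¹ * bb j := by
      rw [Units.val_mul, c1_mul, pe_val hx0 hm]
      change c (mono 0 x⁻¹ : R σ 1) 0 * _ + c (mono 0 x⁻¹ : R σ 1) 1 * _ = _
      rw [c_mono _ _ (Nat.zero_le _), c_mono _ _ le_rfl, pev, c_mk _ le_rfl]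
      simp
    have g0 : c (vv (ss hσ x cc bb (norm_u hx0 hm) j)) 0 = x⁻¹ * cc j := by
      rw [ss, vv_mul, c0_mul, c0_jj, c0_mm, c0_uz, one_mul]
    have g1 : c (vv (ss hσ x cc bb (norm_u hx0 hm) j)) 1 = x⁻¹ * bb j := by
      rw [ss, vv_mul, c1_mul, c1_jj, c0_jj, c1_mm, c0_mm, c0_uz, mul_zero, zero_add, mul_assoc,
        norm_u hx0 hm j, mul_one]
    refine ext' fun n hn => ?_
    interval_cases n
    · exact g0.trans h0.symm
    · exact g1.trans h1.symm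
  refine Subtype.ext ?_
  rw [tk_val]
  change _ = ((ss hσ x cc bb (norm_u hx0 hm) i₀ : SG hσ 1) : (R σ 1)ˣ)⁻¹ *
    ((ss hσ x cc bb (norm_u hx0 hm) i : SG hσ 1) : (R σ 1)ˣ)
  rw [key, key]
  group

/-- **level one** -/
theorem level_one_tk [Fintype K] [Fintype ι] (hσ : ∀ a, σ (σ a) = a) {Q : ℕ}
    (hc : Fintype.card K = Q ^ 2) (h2 : (2 : K) ≠ 0) (hx : σ x ≠ x) (hx0 : x ≠ 0)
    (hm : PMem σ x cc bb) (hinj : Function.Injective fun i => (cc i, bb i))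
    (hsur : ∀ c b : K, c * σ c = x * σ x → b * σ b = c + σ c + (x + σ x) →
      ∃ i, cc i = c ∧ bb i = b) (i₀ : ι) [∀ k, DecidableEq ↥(SG hσ k)] :
    RelGap (tr1 hσ 1 : SG hσ 1 → SG hσ 0) (tk hσ hx0 hm i₀ 1)
      (((Q : ℝ) + 1) * (2 * (Q : ℝ) ^ 2)) := by
  classical
  have hx1 : σ x ≠ 0 := (map_ne_zero σ).2 hx0
  have hnu := norm_u hx0 hm
  have hN : x * σ x ≠ 0 := mul_ne_zero hx0 hx1
  have main := level_one (G := SG hσ 1) (C := SG hσ 0) σ (card_norm hσ hc h2 hx) (jj hσ) (mm hσ)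
    (fun u => c (vv u) 0 ^ 2) (be hσ) (jj_add hσ) (conj_jj hσ) (jm_bij hσ)
    (fun u => by
      refine pow_ne_zero 2 fun h => ?_
      have := norm0 u
      rw [h, zero_mul] at this
      exact zero_ne_one this)
    (fun a => sg_ext0 (by
      rw [c0_be, c0_jj]
      change 1 = c (1 : R σ 0) 0
      rw [c_one le_rfl, if_pos rfl]))
    (fun u => sg_ext0 (by rw [c0_be, c0_mm]))
    (ss hσ x cc bb hnu) (fun i => x⁻¹ * bb i * (x⁻¹ * cc i))
    (fun i => uz hσ (x⁻¹ * cc i) (hnu i)) (fun i => rfl)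
    (fun u => (x * c (vv u) 0 + σ (x * c (vv u) 0) + (x + σ x)) / (x * σ x))
    (two_roots hσ hx0) ?_ ?_ ?_
  · have e : (((Q : ℝ) + 1) * (2 * (Q : ℝ) ^ 2)) =
        (Fintype.card (SG hσ 0) : ℝ) * (2 * (Fintype.card K : ℝ)) := by
      rw [card_SG0 hσ hc h2 hx, hc]
      push_cast
      ring
    rw [e]
    have := relGap_mul_left (be hσ : SG hσ 1 → SG hσ 0) (ss hσ x cc bb hnu)
      (tk hσ hx0 hm i₀ 1) (ss hσ x cc bb hnu i₀)⁻¹ (tk_one hσ hx0 hm i₀) main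
    exact this
  · intro i j hij hb
    have h0 := congrArg (fun u : SG hσ 0 => c (vv u) 0) hij
    simp only [c0_uz] at h0
    have hcc : cc i = cc j := mul_left_cancel₀ (inv_ne_zero hx0) h0
    have hcj : x⁻¹ * cc j ≠ 0 := by
      intro h
      have := hnu j
      rw [h, zero_mul] at this
      exact zero_ne_one this
    have hbb : bb i = bb j := by
      rw [hcc] at hb
      exact mul_left_cancel₀ (inv_ne_zero hx0) (mul_right_cancel₀ hcj hb)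
    exact hinj (Prod.ext hcc hbb)
  · intro i
    simp only [c0_uz]
    have h1 := hnu i
    have h2' := (hm i).2
    have e1 : x * (x⁻¹ * cc i) = cc i := mul_inv_cancel_left₀ hx0 _
    rw [e1, eq_div_iff hN, ← h2']
    have e2 : σ (x⁻¹ * bb i * (x⁻¹ * cc i)) = (σ x)⁻¹ * σ (bb i) * σ (x⁻¹ * cc i) := by
      rw [map_mul, map_mul, map_inv₀]
    rw [e2]
    have e3 : x⁻¹ * x = 1 := inv_mul_cancel₀ hx0
    have e4 : (σ x)⁻¹ * σ x = 1 := inv_mul_cancel₀ hx1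
    calc x⁻¹ * bb i * (x⁻¹ * cc i) * ((σ x)⁻¹ * σ (bb i) * σ (x⁻¹ * cc i)) * (x * σ x)
        = (bb i * σ (bb i)) * ((x⁻¹ * cc i) * σ (x⁻¹ * cc i)) * (x⁻¹ * x) *
            ((σ x)⁻¹ * σ x) := by ring
      _ = bb i * σ (bb i) := by rw [h1, e3, e4]; ring
  · intro u y hy
    rw [eq_div_iff hN] at hy
    have hu := norm0 u
    obtain ⟨i, hi, hi'⟩ := hsur (x * c (vv u) 0) (x * y * σ (c (vv u) 0))
      (by
        rw [map_mul]
        calc x * c (vv u) 0 * (σ x * σ (c (vv u) 0)) =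
            x * σ x * (c (vv u) 0 * σ (c (vv u) 0)) := by ring
          _ = x * σ x := by rw [hu, mul_one])
      (by
        rw [map_mul, map_mul, hσ, ← hy]
        calc x * y * σ (c (vv u) 0) * (σ x * σ y * c (vv u) 0) =
            y * σ y * (x * σ x) * (c (vv u) 0 * σ (c (vv u) 0)) := by ring
          _ = y * σ y * (x * σ x) := by rw [hu, mul_one])
    refine ⟨i, ?_, ?_⟩
    · refine sg_ext0 ?_
      rw [c0_uz, hi, inv_mul_cancel_left₀ hx0]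
    · rw [hi, hi', inv_mul_cancel_left₀ hx0]
      calc x⁻¹ * (x * y * σ (c (vv u) 0)) * c (vv u) 0 =
          x⁻¹ * x * y * (c (vv u) 0 * σ (c (vv u) 0)) := by ring
        _ = y := by rw [hu, inv_mul_cancel₀ hx0]; ring

/-- `RelGap` is monotone in the bound -/
theorem relGap_mono {N : Type*} [Group N] [Fintype N] [Fintype ι] {B : Type*} {β : N → B}
    {t : ι → N} {μ μ' : ℝ} (h : RelGap β t μ) (hμ : μ ≤ μ') : RelGap β t μ' := fun f hf =>
  (h f hf).trans (mul_le_mul_of_nonneg_right hμ (Finset.sum_nonneg fun _ _ => sq_nonneg _))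

/-- **level one**, in the form `h1` of `relGap_tk` -/
theorem level_one_tk' [Fintype K] [Fintype ι] (hσ : ∀ a, σ (σ a) = a) {Q : ℕ}
    (hc : Fintype.card K = Q ^ 2) (hQ2 : 2 ≤ Q) (h2 : (2 : K) ≠ 0) (hx : σ x ≠ x) (hx0 : x ≠ 0)
    (hm : PMem σ x cc bb) (hinj : Function.Injective fun i => (cc i, bb i))
    (hsur : ∀ c b : K, c * σ c = x * σ x → b * σ b = c + σ c + (x + σ x) →
      ∃ i, cc i = c ∧ bb i = b) (i₀ : ι) [∀ k, DecidableEq ↥(SG hσ k)]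
    {r : ℝ} (hr : 0 < r) (hrq : r ^ 3 ≤ Q) :
    RelGap (tr1 hσ 1 : SG hσ 1 → SG hσ 0) (tk hσ hx0 hm i₀ 1)
      ((314 / r) * ((Q : ℝ) ^ 2 + 1) ^ 2) := by
  refine relGap_mono (level_one_tk hσ hc h2 hx hx0 hm hinj hsur i₀) ?_
  have hQ1 : (1 : ℝ) ≤ Q := by exact_mod_cast (by omega : 1 ≤ Q)
  have hrQ : r ≤ Q := by
    rcases le_or_gt r 1 with h | h
    · exact h.trans hQ1
    · refine le_trans ?_ hrq
      nlinarith [sq_nonneg r, mul_pos hr hr]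
  rw [div_mul_eq_mul_div, le_div_iff₀ hr]
  have h1 : ((Q : ℝ) + 1) * (2 * (Q : ℝ) ^ 2) * r ≤ ((Q : ℝ) + 1) * (2 * (Q : ℝ) ^ 2) * Q :=
    mul_le_mul_of_nonneg_left hrQ (by positivity)
  refine h1.trans ?_
  nlinarith [sq_nonneg ((Q : ℝ) ^ 2), sq_nonneg (Q : ℝ), mul_nonneg (sq_nonneg (Q : ℝ))
    (mul_nonneg (sub_nonneg.2 hQ1) (le_trans zero_le_one hQ1))]

/-- **relative gap over the constants at every level**, no hypothesis left -/
theorem relGap_all [Fintype K] [Fintype ι] (hσ : ∀ a, σ (σ a) = a) {Q : ℕ}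
    (hc : Fintype.card K = Q ^ 2) (hσq : ∀ a, σ a = a ^ Q) (hQ2 : 2 ≤ Q) (h2 : (2 : K) ≠ 0)
    (hx : σ x ≠ x) (hx0 : x ≠ 0) (hm : PMem σ x cc bb)
    (hinj : Function.Injective fun i => (cc i, bb i))
    (hsur : ∀ c b : K, c * σ c = x * σ x → b * σ b = c + σ c + (x + σ x) →
      ∃ i, cc i = c ∧ bb i = b) (i₀ : ι) [∀ k, DecidableEq ↥(SG hσ k)]
    {r : ℝ} (hr : 0 < r) (hrq : r ^ 3 ≤ Q) (k : ℕ) :
    RelGap (trSG hσ (Nat.zero_le (k + 1)) : SG hσ (k + 1) → SG hσ 0)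
      (tk hσ hx0 hm i₀ (k + 1)) ((314 / r) * ((Q : ℝ) ^ 2 + 1) ^ 2) :=
  relGap_tk hσ hc hσq hQ2 h2 hx hx0 hm hinj i₀ hr hrq
    (level_one_tk' hσ hc hQ2 h2 hx hx0 hm hinj hsur i₀ hr hrq) k

end Crest.Agent.R289.ExpL1718
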