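import Crest.Agent.R289.ExpOne_291
import Crest.Agent.R289.SkewGap_877

/-!
# Row 289, block B1: level one of the tower, concrete (helper722)

`relGap_one` : the relative gap of `SG hσ 1` over the constants `SG hσ 0` for the elements
`t_i = π_{i₀}⁻¹ π_i` (`tk`), with `μ = (Q + 1) * (2 * Q ^ 2)`; this is the hypothesis `h1` of
`SkewGrp877.relGap_tk`.  `relGap_all` : the gap at all levels `k + 1`.
-/

set_option autoImplicit false
set_option linter.unusedSectionVars false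

namespace Crest.Agent.R289.ExpL1722

open Finset Crest.Agent.R289.TraceM962 Crest.Agent.R289.Tower962 Crest.Agent.R289.Exp820
open Crest.Agent.R289.SkewGrp877 Crest.Agent.R289.Exp291

/-- monotonicity of the gap in `μ` -/
theorem relGap_mono {N : Type*} [Group N] [Fintype N] {ι : Type*} [Fintype ι] {B : Type*}
    {β : N → B} {t : ι → N} {μ μ' : ℝ} (h : RelGap β t μ) (hμ : μ ≤ μ') : RelGap β t μ' :=
  fun f hf => (h f hf).trans (mul_le_mul_of_nonneg_right hμ (sum_nonneg fun _ _ => sq_nonneg _))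

section level

variable {K : Type*} [Field K] {σ : K →+* K} (hσ : ∀ x, σ (σ x) = x)

lemma c_mul_one (f g : R σ 1) : c (f * g) 1 = c f 0 * c g 1 + c f 1 * σ (c g 0) := by
  rw [c_mul _ _ le_rfl]
  rw [show (antidiagonal 1 : Finset (ℕ × ℕ)) = {(0, 1), (1, 0)} from rfl]
  rw [sum_pair (by decide)]
  simp

/-- the constants of level one -/
def mC : SG hσ 0 →* SG hσ 1 where
  toFun u := ⟨tor 1 (c ((u : (R σ 0)ˣ) : R σ 0) 0) (const_SG hσ u.2), tor_mem hσ _ _⟩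
  map_one' := by
    refine Subtype.ext (Units.ext ?_)
    change (mono 0 (c (1 : R σ 0) 0) : R σ 1) = 1
    rw [c_one le_rfl, if_pos rfl, mono_zero_one]
  map_mul' u v := by
    refine Subtype.ext (Units.ext ?_)
    change (mono 0 (c ((u : (R σ 0)ˣ) * (v : (R σ 0)ˣ) : R σ 0) 0) : R σ 1) =
      mono 0 (c ((u : (R σ 0)ˣ) : R σ 0) 0) * mono 0 (c ((v : (R σ 0)ˣ) : R σ 0) 0)
    rw [mono_zero_mul, c_mul_zero]

/-- the elements `1 + a τ` -/
def jK (a : K) : SG hσ 1 :=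
  ⟨ex le_rfl a, (ex_mem hσ le_rfl (Or.inl rfl)).1⟩

lemma jK_val (a : K) : (((jK hσ a : SG hσ 1) : (R σ 1)ˣ) : R σ 1) = 1 + mono 1 a := rfl

lemma mC_val (u : SG hσ 0) : (((mC hσ u : SG hσ 1) : (R σ 1)ˣ) : R σ 1) =
    mono 0 (c ((u : (R σ 0)ˣ) : R σ 0) 0) := rfl

lemma jK_add (a b : K) : jK hσ (a + b) = jK hσ a * jK hσ b :=
  Subtype.ext (ex_add le_rfl a b)

lemma tr1_jK (a : K) : tr1 hσ 1 (jK hσ a) = 1 :=
  tr1_eq_one hσ le_rfl (jK hσ a) (ex_mem hσ le_rfl (Or.inl rfl))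

lemma tr1_mC (u : SG hσ 0) : tr1 hσ 1 (mC hσ u) = u := by
  refine Subtype.ext (Units.ext ?_)
  change SkewGrp877.tr σ (Nat.sub_le 1 1)
    (mono 0 (c ((u : (R σ 0)ˣ) : R σ 0) 0) : R σ 1) = ((u : (R σ 0)ˣ) : R σ 0)
  refine ext' fun n hn => ?_
  rw [SkewGrp877.c_tr _ _ hn, c_mono _ _ (hn.trans (Nat.sub_le 1 1))]
  have : n = 0 := by simpa using hn
  subst this
  rw [if_pos rfl]

lemma mC_jK (u : SG hσ 0) (b : K) : mC hσ u * jK hσ b =
    jK hσ (c ((u : (R σ 0)ˣ) : R σ 0) 0 * c ((u : (R σ 0)ˣ) : R σ 0) 0 * b) * mC hσ u := by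
  refine Subtype.ext ?_
  have h := conj_ex hσ (k := 1) le_rfl (mC hσ u).2 rfl b
  rw [mul_inv_eq_iff_eq_mul] at h
  have h0 : c (((mC hσ u : SG hσ 1) : (R σ 1)ˣ) : R σ 1) 0 = c ((u : (R σ 0)ˣ) : R σ 0) 0 := by
    rw [mC_val, c_mono _ _ (Nat.zero_le _), if_pos rfl]
  rw [h0] at h
  exact h

lemma const_inj {u v : SG hσ 0}
    (h : c ((u : (R σ 0)ˣ) : R σ 0) 0 = c ((v : (R σ 0)ˣ) : R σ 0) 0) : u = v := by
  refine Subtype.ext (Units.ext (ext' fun n hn => ?_))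
  have : n = 0 := by omega
  subst this
  exact h

lemma jK_mC_bij : Function.Bijective fun p : K × SG hσ 0 => jK hσ p.1 * mC hσ p.2 := by
  constructor
  · rintro ⟨a, u⟩ ⟨b, v⟩ h
    simp only at h
    have h1 := congrArg (tr1 hσ 1) h
    rw [map_mul, map_mul, tr1_jK, tr1_jK, one_mul, one_mul, tr1_mC, tr1_mC] at h1
    subst h1
    have h2 := mul_right_cancel h
    have h3 := congrArg (fun g : SG hσ 1 => c ((g : (R σ 1)ˣ) : R σ 1) 1) h2
    simp only [jK_val, c_add] at h3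
    rw [c_mono _ _ le_rfl, c_mono _ _ le_rfl, if_pos rfl, if_pos rfl] at h3
    rw [add_left_cancel h3]
  · intro g
    have h1 : tr1 hσ 1 (g * (mC hσ (tr1 hσ 1 g))⁻¹) = 1 := by
      rw [map_mul, map_inv, tr1_mC]
      exact mul_inv_cancel _
    rw [trSG_eq_one_iff hσ] at h1
    have h2 := eq_ex (k := 1) le_rfl h1.2
    refine ⟨(c (((g * (mC hσ (tr1 hσ 1 g))⁻¹ : SG hσ 1) : (R σ 1)ˣ) - 1 : R σ 1) 1,
      tr1 hσ 1 g), ?_⟩
    have h3 : jK hσ (c (((g * (mC hσ (tr1 hσ 1 g))⁻¹ : SG hσ 1) : (R σ 1)ˣ) - 1 : R σ 1) 1) =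
        g * (mC hσ (tr1 hσ 1 g))⁻¹ := Subtype.ext h2.symm
    change jK hσ _ * mC hσ _ = g
    rw [h3, inv_mul_cancel_right]

end level

section concrete

variable {K : Type*} [Field K] {σ : K →+* K} (hσ : ∀ a, σ (σ a) = a) {x : K} {ι : Type*}
  {cc bb : ι → K}

/-- `u_i = x⁻¹ c_i` has norm one -/
lemma norm_ui (hx0 : x ≠ 0) (hm : PMem σ x cc bb) (i : ι) :
    (x⁻¹ * cc i) * σ (x⁻¹ * cc i) = 1 := by
  have hσx : σ x ≠ 0 := (map_ne_zero σ).2 hx0
  rw [map_mul, map_inv₀]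
  calc x⁻¹ * cc i * ((σ x)⁻¹ * σ (cc i)) = (x * σ x)⁻¹ * (cc i * σ (cc i)) := by
        rw [mul_inv]; ring
    _ = 1 := by rw [(hm i).1]; exact inv_mul_cancel₀ (mul_ne_zero hx0 hσx)

/-- constant part of `s_i` -/
def kp (hx0 : x ≠ 0) (hm : PMem σ x cc bb) (i : ι) : SG hσ 0 :=
  ⟨tor 0 (x⁻¹ * cc i) (norm_ui hx0 hm i), tor_mem hσ _ _⟩

lemma c_kp (hx0 : x ≠ 0) (hm : PMem σ x cc bb) (i : ι) :
    c (((kp hσ hx0 hm i : SG hσ 0) : (R σ 0)ˣ) : R σ 0) 0 = x⁻¹ * cc i := by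
  change c (mono 0 (x⁻¹ * cc i) : R σ 0) 0 = _
  rw [c_mono _ _ le_rfl, if_pos rfl]

/-- `a_i = x⁻¹ b_i u_i` -/
def ai (x : K) (cc bb : ι → K) (i : ι) : K := x⁻¹ * bb i * (x⁻¹ * cc i)

/-- `s_i = (1 + a_i τ) u_i` -/
def sI (hx0 : x ≠ 0) (hm : PMem σ x cc bb) (i : ι) : SG hσ 1 :=
  jK hσ (ai x cc bb i) * mC hσ (kp hσ hx0 hm i)

/-- the unit `x` -/
def xU (hx0 : x ≠ 0) : (R σ 1)ˣ where
  val := mono 0 x
  inv := mono 0 x⁻¹
  val_inv := by rw [mono_zero_mul, mul_inv_cancel₀ hx0, mono_zero_one]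
  inv_val := by rw [mono_zero_mul, inv_mul_cancel₀ hx0, mono_zero_one]

lemma pe_eq (hx0 : x ≠ 0) (hm : PMem σ x cc bb) (i : ι) :
    pe σ cc bb 1 i = xU hx0 * ((sI hσ hx0 hm i : SG hσ 1) : (R σ 1)ˣ) := by
  refine Units.ext ?_
  rw [pe_val hx0 hm]
  change pev σ cc bb 1 i = (mono 0 x : R σ 1) *
    ((1 + mono 1 (ai x cc bb i)) * mono 0 (c (((kp hσ hx0 hm i : SG hσ 0) : (R σ 0)ˣ) : R σ 0) 0))
  rw [c_kp]
  refine ext' fun n hn => ?_
  rw [pev, c_mk _ hn]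
  have hn' : n = 0 ∨ n = 1 := by omega
  rcases hn' with rfl | rfl
  · rw [c_mul_zero, c_mul_zero, c_add, c_one (Nat.zero_le _), c_mono _ _ (Nat.zero_le _),
      c_mono _ _ (Nat.zero_le _), c_mono _ _ (Nat.zero_le _)]
    simp only [if_true]
    rw [if_neg (by omega : ¬ (0 : ℕ) = 1), add_zero, one_mul, mul_inv_cancel_left₀ hx0]
  · rw [c_mul_one, c_mul_one, c_mul_zero]
    simp only [c_add, c_one le_rfl, c_one (Nat.zero_le _), c_mono _ _ le_rfl,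
      c_mono _ _ (Nat.zero_le _)]
    simp only [if_true, one_ne_zero, zero_ne_one, if_false, mul_zero, add_zero, zero_add,
      zero_mul, one_mul]
    have h := norm_ui hx0 hm i
    rw [ai]
    calc bb i = x * x⁻¹ * bb i * ((x⁻¹ * cc i) * σ (x⁻¹ * cc i)) := by
          rw [h, mul_inv_cancel₀ hx0]; ring
      _ = x * (x⁻¹ * bb i * (x⁻¹ * cc i) * σ (x⁻¹ * cc i)) := by ring

lemma tk_eq (hx0 : x ≠ 0) (hm : PMem σ x cc bb) (i₀ i : ι) :
    tk hσ hx0 hm i₀ 1 i = (sI hσ hx0 hm i₀)⁻¹ * sI hσ hx0 hm i := by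
  refine Subtype.ext ?_
  rw [tk_val, pe_eq hσ hx0 hm, pe_eq hσ hx0 hm]
  change _ = ((sI hσ hx0 hm i₀ : SG hσ 1) : (R σ 1)ˣ)⁻¹ * ((sI hσ hx0 hm i : SG hσ 1) : (R σ 1)ˣ)
  rw [mul_inv_rev, mul_assoc, inv_mul_cancel_left]

/-- the function `n` -/
def nn (σ : K →+* K) (x u : K) : K := (x * u + σ (x * u) + (x + σ x)) / (x * σ x)

/-- `n` is at most two-to-one on the constants of norm one -/
lemma nn_two [Finite K] (hx0 : x ≠ 0) (y : K) [Fintype (SG hσ 0)] [DecidableEq K] :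
    (univ.filter fun u : SG hσ 0 =>
      nn σ x (c ((u : (R σ 0)ˣ) : R σ 0) 0) = y).card ≤ 2 := by
  classical
  have hσx : σ x ≠ 0 := (map_ne_zero σ).2 hx0
  set p : Polynomial K := Polynomial.C x * Polynomial.X ^ 2 +
    Polynomial.C (x + σ x - y * (x * σ x)) * Polynomial.X + Polynomial.C (σ x) with hp
  have hdeg : p.natDegree ≤ 2 := Polynomial.natDegree_quadratic_le
  have hp0 : p ≠ 0 := by
    intro h
    have := congrArg (fun f => Polynomial.coeff f 0) h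
    simp [hp] at this
    exact hx0 this
  refine le_trans ?_ ((Multiset.toFinset_card_le p.roots).trans ((Polynomial.card_roots' p).trans hdeg))
  refine card_le_card_of_injOn (fun u => c ((u : (R σ 0)ˣ) : R σ 0) 0) ?_ ?_
  · intro u hu
    rw [mem_coe, mem_filter] at hu
    rw [mem_coe, Multiset.mem_toFinset, Polynomial.mem_roots hp0, Polynomial.IsRoot.def]
    have hu1 := const_SG hσ u.2
    set z := c ((u : (R σ 0)ˣ) : R σ 0) 0 with hz
    have hz0 : z ≠ 0 := left_ne_zero_of_mul_eq_one hu1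
    have h2 := hu.2
    rw [nn, div_eq_iff (mul_ne_zero hx0 hσx), map_mul] at h2
    simp only [hp, Polynomial.eval_add, Polynomial.eval_mul, Polynomial.eval_C,
      Polynomial.eval_pow, Polynomial.eval_X]
    linear_combination z * h2 - σ x * hu1
  · intro u _ v _ h
    exact const_inj hσ h

variable [Fintype K] [Fintype ι]

/-- **level one**: relative gap of `SG hσ 1` over the constants -/
theorem relGap_one {Q : ℕ} (hc : Fintype.card K = Q ^ 2) (h2 : (2 : K) ≠ 0) (hx : σ x ≠ x)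
    (hx0 : x ≠ 0) (hm : PMem σ x cc bb) (hinj : Function.Injective fun i => (cc i, bb i))
    (hsur : ∀ a b : K, a * σ a = x * σ x → b * σ b = a + σ a + (x + σ x) →
      ∃ i, cc i = a ∧ bb i = b) (i₀ : ι) :
    RelGap (tr1 hσ 1 : SG hσ 1 → SG hσ 0) (tk hσ hx0 hm i₀ 1)
      (((Q : ℝ) + 1) * (2 * (Q : ℝ) ^ 2)) := by
  classical
  have hσx : σ x ≠ 0 := (map_ne_zero σ).2 hx0
  have hQ : SkewGrp877.q σ = Q := q_eq hσ h2 ⟨x, hx⟩ (by rw [Nat.card_eq_fintype_card, hc])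
  have hcard : Fintype.card (SG hσ 0) = Q + 1 := by
    rw [card_SG' hσ h2 ⟨x, hx⟩, hQ]
    simp
  have hq : (univ.filter fun v : K => v * σ v = 1).card = Q + 1 := by
    have h := w_eq hσ h2 ⟨x, hx⟩
    rw [hQ, SkewGrp877.w, Nat.card_eq_fintype_card] at h
    rw [← h, Fintype.card_ofFinset]
    congr 1
  have key := level_one (ι := ι) (G := SG hσ 1) (C := SG hσ 0) σ hq (jK hσ) (mC hσ)
    (fun u => c ((u : (R σ 0)ˣ) : R σ 0) 0 * c ((u : (R σ 0)ˣ) : R σ 0) 0) (tr1 hσ 1)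
    (jK_add hσ) (mC_jK hσ) (jK_mC_bij hσ)
    (fun u => by
      have h := const_SG hσ u.2
      exact mul_ne_zero (left_ne_zero_of_mul_eq_one h) (left_ne_zero_of_mul_eq_one h))
    (tr1_jK hσ) (tr1_mC hσ) (sI hσ hx0 hm) (ai x cc bb) (kp hσ hx0 hm) (fun i => rfl)
    (fun u => nn σ x (c ((u : (R σ 0)ˣ) : R σ 0) 0)) (fun y => nn_two hσ hx0 y)
    (fun i j h1 h3 => by
      have e1 := congrArg (fun u : SG hσ 0 => c ((u : (R σ 0)ˣ) : R σ 0) 0) h1
      simp only [c_kp] at e1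
      have e2 : cc i = cc j := mul_left_cancel₀ (inv_ne_zero hx0) e1
      have hn := left_ne_zero_of_mul_eq_one (norm_ui hx0 hm j)
      rw [ai, ai, e1] at h3
      exact hinj (Prod.ext e2 (mul_left_cancel₀ (inv_ne_zero hx0) (mul_right_cancel₀ hn h3))))
    (fun i => by
      rw [c_kp, nn, mul_inv_cancel_left₀ hx0, ← (hm i).2, eq_div_iff (mul_ne_zero hx0 hσx), ai]
      have h := norm_ui hx0 hm i
      rw [map_mul, map_mul σ x⁻¹ (bb i), map_inv₀]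
      calc x⁻¹ * bb i * (x⁻¹ * cc i) * ((σ x)⁻¹ * σ (bb i) * σ (x⁻¹ * cc i)) * (x * σ x)
          = (x⁻¹ * x) * ((σ x)⁻¹ * σ x) * (bb i * σ (bb i)) *
            ((x⁻¹ * cc i) * σ (x⁻¹ * cc i)) := by ring
        _ = bb i * σ (bb i) := by
            rw [h, inv_mul_cancel₀ hx0, inv_mul_cancel₀ hσx]; ring)
    (fun u y hy => by
      have hu := const_SG hσ u.2
      set z := c ((u : (R σ 0)ˣ) : R σ 0) 0 with hz
      rw [nn, eq_div_iff (mul_ne_zero hx0 hσx)] at hy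
      obtain ⟨i, hi1, hi2⟩ := hsur (x * z) (x * y * σ z)
        (by
          rw [map_mul]
          calc x * z * (σ x * σ z) = x * σ x * (z * σ z) := by ring
            _ = x * σ x := by rw [hu, mul_one])
        (by
          rw [map_mul, map_mul, hσ, ← hy]
          calc x * y * σ z * (σ x * σ y * z) = y * σ y * (x * σ x) * (z * σ z) := by ring
            _ = y * σ y * (x * σ x) := by rw [hu, mul_one])
      refine ⟨i, const_inj hσ ?_, ?_⟩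
      · rw [c_kp, hi1, inv_mul_cancel_left₀ hx0]
      · rw [ai, hi1, hi2, inv_mul_cancel_left₀ hx0]
        calc x⁻¹ * (x * y * σ z) * z = (x⁻¹ * x) * y * (z * σ z) := by ring
          _ = y := by rw [hu, inv_mul_cancel₀ hx0]; ring)
  rw [hcard, hc] at key
  have key' := relGap_mul_left (tr1 hσ 1 : SG hσ 1 → SG hσ 0) (sI hσ hx0 hm)
    (tk hσ hx0 hm i₀ 1) ((sI hσ hx0 hm i₀)⁻¹) (tk_eq hσ hx0 hm i₀) key
  push_cast at key'
  exact key'

include hσ in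
/-- the pairs `(c_i, b_i)` are all solutions as soon as there are `Q ^ 2 + 1` of them -/
theorem sur_of_card {Q : ℕ} (hσQ : ∀ a, σ a = a ^ Q) (hx : σ x ≠ x)
    (hm : PMem σ x cc bb) (hinj : Function.Injective fun i => (cc i, bb i))
    (hι : Fintype.card ι = Q ^ 2 + 1) (a b : K) (ha : a * σ a = x * σ x)
    (hb : b * σ b = a + σ a + (x + σ x)) : ∃ i, cc i = a ∧ bb i = b := by
  classical
  have h1 : (univ.image (pil σ cc bb)) ⊆ allPi σ x := by
    intro w hw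
    rw [mem_image] at hw
    obtain ⟨i, -, rfl⟩ := hw
    exact mem_allPi.2 (isPi_pil hm i)
  have h2 : (univ.image (pil σ cc bb)).card = Q ^ 2 + 1 := by
    rw [card_image_of_injective _ (pil_injective hinj), card_univ, hι]
  have h3 : univ.image (pil σ cc bb) = allPi σ x :=
    eq_of_subset_of_card_le h1 (by
      rw [h2]
      exact card_allPi hσ hx (fun d => card_nm hσQ d))
  have h4 : (⟨Polynomial.X + Polynomial.C a, Polynomial.C b⟩ : Sk σ) ∈ allPi σ x :=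
    mem_allPi.2 ⟨a, b, rfl, (N_lin_eq_iff _ _).2 ⟨ha, hb⟩⟩
  rw [← h3, mem_image] at h4
  obtain ⟨i, -, hi⟩ := h4
  refine ⟨i, ?_, ?_⟩
  · have := congrArg (fun r : Sk σ => r.re.coeff 0) hi
    simpa [pil] using this
  · have := congrArg (fun r : Sk σ => r.im.coeff 0) hi
    simpa [pil] using this

/-- numbers of level one -/
theorem level_num {Q : ℕ} (hQ : 2 ≤ Q) {r : ℝ} (hr : 0 < r) (hrq : r ^ 3 ≤ Q) :
    ((Q : ℝ) + 1) * (2 * (Q : ℝ) ^ 2) ≤ (314 / r) * ((Q : ℝ) ^ 2 + 1) ^ 2 := by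
  have hQ' : (2 : ℝ) ≤ Q := by exact_mod_cast hQ
  have h1 : r ≤ Q := by
    by_contra h
    push Not at h
    have h3 : (Q : ℝ) ^ 3 < r ^ 3 := pow_lt_pow_left₀ h (by linarith) (by norm_num)
    have h4 : (Q : ℝ) ≤ (Q : ℝ) ^ 3 := by nlinarith [sq_nonneg ((Q : ℝ) - 1)]
    linarith
  rw [div_mul_eq_mul_div, le_div_iff₀ hr]
  have h5 : ((Q : ℝ) + 1) * (2 * (Q : ℝ) ^ 2) * r ≤ ((Q : ℝ) + 1) * (2 * (Q : ℝ) ^ 2) * Q :=
    mul_le_mul_of_nonneg_left h1 (by positivity)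
  nlinarith [sq_nonneg ((Q : ℝ) ^ 2), sq_nonneg (Q : ℝ), pow_pos (by linarith : (0 : ℝ) < Q) 3,
    mul_nonneg (by linarith : (0 : ℝ) ≤ (Q : ℝ) - 1) (pow_pos (by linarith : (0 : ℝ) < Q) 3).le]

/-- **relative gap over the constants at every level `k + 1`** (hypothesis `h1` of `relGap_tk`
discharged) -/
theorem relGap_all {Q : ℕ} (hc : Fintype.card K = Q ^ 2) (hσq : ∀ a, σ a = a ^ Q) (hQ2 : 2 ≤ Q)
    (h2 : (2 : K) ≠ 0) (hx : σ x ≠ x) (hx0 : x ≠ 0) (hm : PMem σ x cc bb)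
    (hinj : Function.Injective fun i => (cc i, bb i)) (hι : Fintype.card ι = Q ^ 2 + 1) (i₀ : ι)
    [∀ k, DecidableEq ↥(SG hσ k)] {r : ℝ} (hr : 0 < r) (hrq : r ^ 3 ≤ Q) (k : ℕ) :
    RelGap (trSG hσ (Nat.zero_le (k + 1)) : SG hσ (k + 1) → SG hσ 0)
      (tk hσ hx0 hm i₀ (k + 1)) ((314 / r) * ((Q : ℝ) ^ 2 + 1) ^ 2) :=
  relGap_tk hσ hc hσq hQ2 h2 hx hx0 hm hinj i₀ hr hrq
    (relGap_mono (relGap_one hσ hc h2 hx hx0 hm hinj
      (sur_of_card hσ hσq hx hm hinj hι) i₀) (level_num hQ2 hr hrq)) k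

end concrete

end Crest.Agent.R289.ExpL1722
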