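import Crest.Agent.R289.ExpObj_820
import Crest.Agent.R289.SkewGap_877
import Crest.Agent.R289.ExpPass_291
import Crest.Agent.R289.TP_846

/-!
Row 289, block B: from the relative gap on `SG` (877) through the passage (291) to the expansion
`TP846.Exp` of the families `a i = z * be_i` on `P = U hσ k 1`.
-/

set_option autoImplicit false

namespace Crest.Agent.R289.Exp820

open Polynomial TraceM962 SkewGrp877 Tower962 Exp291

section consts

variable {K : Type*} [Field K] {σ : K →+* K} {k : ℕ}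

theorem c_const_mul (a : K) (f : R σ k) {n : ℕ} (hn : n ≤ k) :
    c (mono 0 a * f) n = a * c f n := by
  rw [c_mul _ _ hn, Finset.sum_eq_single (0, n)]
  · rw [c_mono _ _ (Nat.zero_le k), if_pos rfl, pow_zero]; rfl
  · rintro ⟨u, v⟩ hp hne
    rw [Finset.HasAntidiagonal.mem_antidiagonal] at hp
    have hu : u ≠ 0 := by
      rintro rfl
      exact hne (by simp at hp; rw [hp])
    simp only
    rw [c_mono _ _ (by simp at hp; omega), if_neg hu, zero_mul]
  · intro h; exact absurd (Finset.HasAntidiagonal.mem_antidiagonal.mpr (Nat.zero_add n)) h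

theorem c_mul_const (a : K) (f : R σ k) {n : ℕ} (hn : n ≤ k) :
    c (f * mono 0 a) n = c f n * (σ ^ n) a := by
  rw [c_mul _ _ hn, Finset.sum_eq_single (n, 0)]
  · rw [c_mono _ _ (Nat.zero_le k), if_pos rfl]
  · rintro ⟨u, v⟩ hp hne
    rw [Finset.HasAntidiagonal.mem_antidiagonal] at hp
    have hv : v ≠ 0 := by
      rintro rfl
      exact hne (by simp at hp; rw [hp])
    simp only
    rw [c_mono _ _ (by simp at hp; omega), if_neg hv, map_zero, mul_zero]
  · intro h; exact absurd (Finset.HasAntidiagonal.mem_antidiagonal.mpr (Nat.add_zero n)) h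

open scoped Classical in
/-- constant unit -/
noncomputable def cu (σ : K →+* K) (k : ℕ) (a : K) : (R σ k)ˣ :=
  if h : a ≠ 0 then ⟨mono 0 a, mono 0 a⁻¹, by rw [mono_zero_mul, mul_inv_cancel₀ h, mono_zero_one],
    by rw [mono_zero_mul, inv_mul_cancel₀ h, mono_zero_one]⟩ else 1

theorem cu_val {a : K} (h : a ≠ 0) : ((cu σ k a : (R σ k)ˣ) : R σ k) = mono 0 a := by
  rw [cu, dif_pos h]

theorem c_inv_zero (u : (R σ k)ˣ) :
    c ((u⁻¹ : (R σ k)ˣ) : R σ k) 0 = (c (u : R σ k) 0)⁻¹ := by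
  have h : c ((u⁻¹ : (R σ k)ˣ) : R σ k) 0 * c (u : R σ k) 0 = 1 := by
    rw [← c_mul_zero, Units.inv_mul, c_one (Nat.zero_le k), if_pos rfl]
  exact eq_inv_of_mul_eq_one_left h

/-- constants of norm one, as a homomorphism `SG 0 → SG k` -/
noncomputable def mSG (hσ : ∀ x, σ (σ x) = x) (k : ℕ) : SG hσ 0 →* SG hσ k where
  toFun b := ⟨tor k (c ((b : (R σ 0)ˣ) : R σ 0) 0) (const_SG hσ b.2), tor_mem hσ _ _⟩
  map_one' := by
    refine Subtype.ext (Units.ext ?_)
    change (mono 0 (c (1 : R σ 0) 0) : R σ k) = 1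
    rw [c_one le_rfl, if_pos rfl, mono_zero_one]
  map_mul' b b' := by
    refine Subtype.ext (Units.ext ?_)
    change (mono 0 (c (((b : (R σ 0)ˣ) : R σ 0) * ((b' : (R σ 0)ˣ) : R σ 0)) 0) : R σ k) =
      mono 0 (c ((b : (R σ 0)ˣ) : R σ 0) 0) * mono 0 (c ((b' : (R σ 0)ˣ) : R σ 0) 0)
    rw [mono_zero_mul, c_mul_zero]

theorem mSG_val (hσ : ∀ x, σ (σ x) = x) (k : ℕ) (b : SG hσ 0) :
    (((mSG hσ k b : SG hσ k) : (R σ k)ˣ) : R σ k) = mono 0 (c ((b : (R σ 0)ˣ) : R σ 0) 0) := rfl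

end consts

section mz

variable {K : Type*} [Field K] {σ : K →+* K} {x : K} {ι : Type*} {cc bb : ι → K}

theorem cc_ne (hx0 : x ≠ 0) (hm : PMem σ x cc bb) (i : ι) : cc i ≠ 0 := by
  intro h
  have := (hm i).1
  rw [h, zero_mul] at this
  exact (mul_ne_zero hx0 ((map_ne_zero σ).2 hx0)) this.symm

/-- conjugation by `π_i` preserves `U 1` -/
theorem pe_conj_U (hσ : ∀ a, σ (σ a) = a) (hx0 : x ≠ 0) (hm : PMem σ x cc bb) (k : ℕ) (i : ι)
    {g : (R σ k)ˣ} (hg : g ∈ U hσ k 1) :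
    pe σ cc bb k i * g * (pe σ cc bb k i)⁻¹ ∈ U hσ k 1 := by
  have h1 := pe_mul_conj hσ hx0 hm k i
  have h2 := pe_conj_mul hσ hx0 hm k i
  have hz : ∀ m : R σ k, Commute (Exp820.tr k (⟨XX σ x, 0⟩ : Sk σ)) m :=
    tr_central hσ (sg_XX (x := x) hσ)
  have hgn : (g : R σ k) * SkewGrp877.conj (g : R σ k) = 1 := (mem_SG hσ).1 hg.1
  have hpp : ((pe σ cc bb k i : (R σ k)ˣ) : R σ k) * (((pe σ cc bb k i)⁻¹ : (R σ k)ˣ) : R σ k) = 1 :=
    Units.mul_inv _
  have hpp' : (((pe σ cc bb k i)⁻¹ : (R σ k)ˣ) : R σ k) * ((pe σ cc bb k i : (R σ k)ˣ) : R σ k) = 1 :=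
    Units.inv_mul _
  refine ⟨?_, ?_⟩
  · rw [mem_SG hσ, Units.val_mul, Units.val_mul]
    set p : R σ k := ((pe σ cc bb k i : (R σ k)ˣ) : R σ k) with hp
    set w : R σ k := (((pe σ cc bb k i)⁻¹ : (R σ k)ˣ) : R σ k) with hw
    set z : R σ k := Exp820.tr k (⟨XX σ x, 0⟩ : Sk σ) with hzd
    have hcw : SkewGrp877.conj w * SkewGrp877.conj p = 1 := by
      rw [← SkewGrp877.conj_mul hσ, hpp, SkewGrp877.conj_one]
    have hwz : w * SkewGrp877.conj w * z = 1 := by
      rw [← h2]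
      calc w * SkewGrp877.conj w * (SkewGrp877.conj p * p)
          = w * (SkewGrp877.conj w * SkewGrp877.conj p) * p := by simp only [mul_assoc]
        _ = 1 := by rw [hcw, mul_one, hpp']
    have key : p * (g : R σ k) * w * SkewGrp877.conj (p * (g : R σ k) * w) * z = z := by
      rw [SkewGrp877.conj_mul hσ, SkewGrp877.conj_mul hσ]
      calc p * (g : R σ k) * w *
            (SkewGrp877.conj w * (SkewGrp877.conj (g : R σ k) * SkewGrp877.conj p)) * z
          = p * (g : R σ k) * (w * SkewGrp877.conj w) *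
              (SkewGrp877.conj (g : R σ k) * SkewGrp877.conj p * z) := by simp only [mul_assoc]
        _ = p * (g : R σ k) * (w * SkewGrp877.conj w) *
              (z * (SkewGrp877.conj (g : R σ k) * SkewGrp877.conj p)) := by
            rw [(hz _).eq]
        _ = p * (g : R σ k) * (w * SkewGrp877.conj w * z) *
              (SkewGrp877.conj (g : R σ k) * SkewGrp877.conj p) := by simp only [mul_assoc]
        _ = p * ((g : R σ k) * SkewGrp877.conj (g : R σ k)) * SkewGrp877.conj p := by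
            rw [hwz, mul_one]; simp only [mul_assoc]
        _ = z := by rw [hgn, mul_one, h1]
    have hzu : z * (w * SkewGrp877.conj w) = 1 := by rw [(hz _).eq, hwz]
    calc p * (g : R σ k) * w * SkewGrp877.conj (p * (g : R σ k) * w)
        = p * (g : R σ k) * w * SkewGrp877.conj (p * (g : R σ k) * w) *
            (z * (w * SkewGrp877.conj w)) := by rw [hzu, mul_one]
      _ = (p * (g : R σ k) * w * SkewGrp877.conj (p * (g : R σ k) * w) * z) *
            (w * SkewGrp877.conj w) := by simp only [mul_assoc]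
      _ = z * (w * SkewGrp877.conj w) := by rw [key]
      _ = 1 := hzu
  · rw [Units.val_mul, Units.val_mul]
    have : ((pe σ cc bb k i : (R σ k)ˣ) : R σ k) * (g : R σ k) *
        (((pe σ cc bb k i)⁻¹ : (R σ k)ˣ) : R σ k) - 1 =
        ((pe σ cc bb k i : (R σ k)ˣ) : R σ k) * ((g : R σ k) - 1) *
          (((pe σ cc bb k i)⁻¹ : (R σ k)ˣ) : R σ k) := by
      rw [mul_sub, sub_mul, mul_one, hpp]
    rw [this]
    exact (hg.2.mul_left _).mul_right _

/-- conjugation by a constant permutes the `π_i` -/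
theorem tor_conj (hx0 : x ≠ 0) (hm : PMem σ x cc bb) {k : ℕ} {a : K} (ha : a * σ a = 1) {i j : ι}
    (h1 : cc j = cc i) (h2 : bb j = a * a * bb i) {m : (R σ k)ˣ}
    (hmv : (m : R σ k) = mono 0 a) (hσ : ∀ a, σ (σ a) = a) :
    m * pe σ cc bb k i * m⁻¹ = pe σ cc bb k j := by
  rw [mul_inv_eq_iff_eq_mul]
  refine Units.ext ?_
  rw [Units.val_mul, Units.val_mul, hmv, pe_val hx0 hm, pe_val hx0 hm]
  refine SkewGrp877.ext' fun n hn => ?_
  rw [c_const_mul _ _ hn, c_mul_const _ _ hn, pev, pev, c_mk _ hn, c_mk _ hn]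
  by_cases h0 : n = 0
  · subst h0
    rw [if_pos rfl, if_pos rfl, h1, pow_zero]
    change a * cc i = cc i * a
    ring
  · rw [if_neg h0, if_neg h0]
    by_cases h1' : n = 1
    · subst h1'
      rw [if_pos rfl, if_pos rfl, h2, pow_one]
      linear_combination (-(a * bb i)) * ha
    · rw [if_neg h1', if_neg h1']
      by_cases h2' : n = 2
      · subst h2'
        rw [if_pos rfl, spow_even hσ (by norm_num), mul_one, one_mul]
      · rw [if_neg h2', mul_zero, zero_mul]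

variable [Fintype K] [Fintype ι]

/-- **mean-zero gap on `P = U 1`** for `al i = be_i be_{i₀}⁻¹`, `be_i = π_i c_i⁻¹` -/
theorem mz_al (hσ : ∀ a, σ (σ a) = a) (hx0 : x ≠ 0)
    (hm : PMem σ x cc bb) (hinj : Function.Injective fun i => (cc i, bb i))
    (hsur : ∀ c b : K, (c * σ c = x * σ x ∧ b * σ b = c + σ c + (x + σ x)) →
      ∃ i, cc i = c ∧ bb i = b) (i₀ : ι) {k : ℕ} {μ : ℝ}
    (hgap : RelGap (trSG hσ (Nat.zero_le k) : SG hσ k → SG hσ 0) (tk hσ hx0 hm i₀ k) μ)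
    [Fintype (U hσ k 1)] (al : ι → U hσ k 1)
    (hal : ∀ i, ((al i : U hσ k 1) : (R σ k)ˣ) =
      pe σ cc bb k i * (cu σ k (cc i))⁻¹ * cu σ k (cc i₀) * (pe σ cc bb k i₀)⁻¹) :
    MZ al μ := by
  classical
  -- the permutation of the indices
  have hex : ∀ (b : SG hσ 0) (i : ι), ∃ j, cc j = cc i ∧
      bb j = c ((b : (R σ 0)ˣ) : R σ 0) 0 * c ((b : (R σ 0)ˣ) : R σ 0) 0 * bb i := by
    intro b i
    have hb := const_SG hσ b.2
    set a := c ((b : (R σ 0)ˣ) : R σ 0) 0 with ha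
    obtain ⟨h1, h2⟩ := hm i
    obtain ⟨j, hj1, hj2⟩ := hsur (cc i) (a * a * bb i) ⟨h1, by
      rw [map_mul, map_mul, ← h2]
      linear_combination (bb i * σ (bb i) * (a * σ a + 1)) * hb⟩
    exact ⟨j, hj1, hj2⟩
  choose f hf1 hf2 using hex
  have hfinj : ∀ b, Function.Injective (f b) := by
    intro b i j hij
    apply hinj
    have e1 : cc i = cc j := by rw [← hf1 b i, ← hf1 b j, hij]
    have e2 := hf2 b i
    rw [hij, hf2 b j] at e2
    have hb := const_SG hσ b.2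
    have ha : c ((b : (R σ 0)ˣ) : R σ 0) 0 ≠ 0 := fun h => by rw [h, zero_mul] at hb; exact zero_ne_one hb
    exact Prod.ext e1 (mul_left_cancel₀ (mul_ne_zero ha ha) e2).symm
  refine MZ.of_complex fun h hh => ?_
  refine passage (SG hσ k) (U hσ k 1) (trSG hσ (Nat.zero_le k)) (mSG hσ k) ?_ ?_ ?_ ?_
    (fun i => pe σ cc bb k i) (fun i => cu σ k (cc i)) i₀ (tk hσ hx0 hm i₀ k)
    (fun i => tk_val hσ hx0 hm i₀ k i) (fun g hg => pe_conj_U hσ hx0 hm k i₀ hg)
    (fun b => Equiv.ofBijective (f b) (Finite.injective_iff_bijective.1 (hfinj b))) ?_ ?_ ?_ al hal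
    hgap h hh
  · intro b
    refine Subtype.ext (Units.ext ?_)
    refine SkewGrp877.ext' fun n hn => ?_
    have hn0 : n = 0 := by omega
    subst hn0
    change c (SkewGrp877.tr σ (Nat.zero_le k) (mono 0 (c ((b : (R σ 0)ˣ) : R σ 0) 0))) 0 = _
    rw [SkewGrp877.c_tr _ _ le_rfl, c_mono _ _ (Nat.zero_le k), if_pos rfl]
  · intro g
    exact trSG_eq_one_iff hσ (Nat.zero_le k) g
  · exact fun u hu => hu.1
  · intro a b
    refine Subtype.ext (Units.ext ?_)
    change (mono 0 (c ((a : (R σ 0)ˣ) : R σ 0) 0) : R σ k) * mono 0 (c ((b : (R σ 0)ˣ) : R σ 0) 0) =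
      mono 0 (c ((b : (R σ 0)ˣ) : R σ 0) 0) * mono 0 (c ((a : (R σ 0)ˣ) : R σ 0) 0)
    rw [mono_zero_mul, mono_zero_mul, mul_comm]
  · intro b i
    exact tor_conj hx0 hm (const_SG hσ b.2) (hf1 b i) (hf2 b i) (mSG_val hσ k b) hσ
  · intro b i
    change cu σ k (cc (f b i)) = cu σ k (cc i)
    rw [hf1 b i]
  · intro i
    refine Units.ext ?_
    rw [mSG_val, Units.val_mul, cu_val (cc_ne hx0 hm i)]
    have hv : c ((pe σ cc bb k i : (R σ k)ˣ) : R σ k) 0 = cc i := by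
      rw [pe_val hx0 hm, pev, c_mk _ (Nat.zero_le k), if_pos rfl]
    have hv0 : c ((pe σ cc bb k i₀ : (R σ k)ˣ) : R σ k) 0 = cc i₀ := by
      rw [pe_val hx0 hm, pev, c_mk _ (Nat.zero_le k), if_pos rfl]
    have e1 : c (((trSG hσ (Nat.zero_le k) (tk hσ hx0 hm i₀ k i) : SG hσ 0) : (R σ 0)ˣ) : R σ 0) 0 =
        (cc i₀)⁻¹ * cc i := by
      change c (SkewGrp877.tr σ (Nat.zero_le k)
        (((pe σ cc bb k i₀)⁻¹ * pe σ cc bb k i : (R σ k)ˣ) : R σ k)) 0 = _
      rw [SkewGrp877.c_tr _ _ le_rfl, Units.val_mul, c_mul_zero, c_inv_zero, hv, hv0]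
    have e2 : (((cu σ k (cc i₀))⁻¹ : (R σ k)ˣ) : R σ k) = mono 0 (cc i₀)⁻¹ := by
      have h1 : ((cu σ k (cc i₀) : (R σ k)ˣ) : R σ k) * mono 0 (cc i₀)⁻¹ = 1 := by
        rw [cu_val (cc_ne hx0 hm i₀), mono_zero_mul, mul_inv_cancel₀ (cc_ne hx0 hm i₀),
          mono_zero_one]
      exact (Units.inv_eq_of_mul_eq_one_right h1)
    rw [e1, e2, mono_zero_mul]

/-- the same for `a i = z be_i`, `z` central -/
theorem mz_a (hσ : ∀ a, σ (σ a) = a) (hx0 : x ≠ 0)
    (hm : PMem σ x cc bb) (hinj : Function.Injective fun i => (cc i, bb i))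
    (hsur : ∀ c b : K, (c * σ c = x * σ x ∧ b * σ b = c + σ c + (x + σ x)) →
      ∃ i, cc i = c ∧ bb i = b) (i₀ : ι) {k : ℕ} {μ : ℝ}
    (hgap : RelGap (trSG hσ (Nat.zero_le k) : SG hσ k → SG hσ 0) (tk hσ hx0 hm i₀ k) μ)
    [Fintype (U hσ k 1)] (a : ι → U hσ k 1) (z : (R σ k)ˣ) (hz : ∀ u : (R σ k)ˣ, z * u = u * z)
    (ha : ∀ i, ((a i : U hσ k 1) : (R σ k)ˣ) = z * (pe σ cc bb k i * (cu σ k (cc i))⁻¹)) :
    MZ a μ := by
  have h1 := mz_al hσ hx0 hm hinj hsur i₀ hgap (fun i => a i * (a i₀)⁻¹) (fun i => by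
    change ((a i : U hσ k 1) : (R σ k)ˣ) * (((a i₀ : U hσ k 1) : (R σ k)ˣ))⁻¹ = _
    rw [ha, ha]
    have key : ∀ A B : (R σ k)ˣ, z * A * (z * B)⁻¹ = A * B⁻¹ := by
      intro A B
      calc z * A * (z * B)⁻¹ = (z * (A * B⁻¹)) * z⁻¹ := by group
        _ = (A * B⁻¹) * z * z⁻¹ := by rw [hz]
        _ = A * B⁻¹ := by group
    rw [key]
    group)
  have h2 := h1.mul_right (a i₀)
  simpa using h2

end mz

end Crest.Agent.R289.Exp820
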