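import Mathlib

/-!
Row 289, block B1 (expansion), the numbers (helper291).

`numeric`: from the bound for the number of closed words (ExpCnt_820) and the order of the group
to the hypothesis `hcount` of `Tower962.relGap_of_mult`, for `l = k`, `μ = (256 / Y) n ^ 2`.
-/

set_option autoImplicit false

namespace Crest.Agent.R289.Exp291

theorem numeric {q k : ℕ} (hq : 1 ≤ q) {Y : ℝ} (hY : 1 ≤ Y) {n C G D : ℕ} (hn : q ^ 2 ≤ n)
    (hC : C * q ^ (k + 1 + (k / 2 + 1)) ≤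
      4 ^ k * n ^ k * q ^ (k + 1 + (k / 2 + 1)) + k * (64 ^ k * (q + 1) * n ^ (2 * k)))
    (hG : G ≤ (q + 1) * q ^ (2 * k - k / 2))
    (h1 : 2 * Y ^ k * (q + 1) ≤ D * 64 ^ k * q ^ (k / 2))
    (h2 : 2 * k * Y ^ k * (q + 1) ^ 2 * q ^ (k % 2) ≤ D * 4 ^ k * q ^ 2) :
    (G : ℝ) * C ≤ D * ((256 / Y) * (n : ℝ) ^ 2) ^ k := by
  obtain ⟨h, r, hr, hk⟩ : ∃ h r : ℕ, k % 2 = r ∧ k = 2 * h + r := ⟨k / 2, k % 2, rfl, by omega⟩
  have hh : k / 2 = h := by omega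
  rw [hh] at hC hG h1
  rw [hr] at h2
  have ea : 2 * k - h = 3 * h + 2 * r := by omega
  have ee : k + 1 + (h + 1) = 3 * h + r + 2 := by omega
  rw [ea] at hG
  rw [ee] at hC
  have hq0 : (0 : ℝ) < q := by exact_mod_cast hq
  have hY0 : (0 : ℝ) < Y := by linarith
  have hn' : (q : ℝ) ^ 2 ≤ n := by exact_mod_cast hn
  have hn0 : (0 : ℝ) < n := lt_of_lt_of_le (by positivity) hn'
  have hC' : (C : ℝ) * q ^ (3 * h + r + 2) ≤
      4 ^ k * n ^ k * q ^ (3 * h + r + 2) + k * (64 ^ k * (q + 1) * n ^ (2 * k)) := by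
    exact_mod_cast hC
  have hG' : (G : ℝ) ≤ (q + 1) * q ^ (3 * h + 2 * r) := by exact_mod_cast hG
  have hYk : (0 : ℝ) < Y ^ k := pow_pos hY0 k
  have hqe : (0 : ℝ) < (q : ℝ) ^ (3 * h + r + 2) := pow_pos hq0 _
  have hnk : (q : ℝ) ^ (3 * h + 2 * r) * q ^ h ≤ n ^ k := by
    calc (q : ℝ) ^ (3 * h + 2 * r) * q ^ h = ((q : ℝ) ^ 2) ^ k := by
          rw [← pow_add, ← pow_mul]
          congr 1
          omega
      _ ≤ n ^ k := pow_le_pow_left₀ (by positivity) hn' k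
  rw [div_mul_eq_mul_div, div_pow, mul_div_assoc', le_div_iff₀ hYk]
  -- multiply by `q ^ e`
  refine le_of_mul_le_mul_right ?_ hqe
  have hT1 : Y ^ k * ((q + 1) * (q : ℝ) ^ (3 * h + 2 * r)) * (4 ^ k * n ^ k) ≤
      (D : ℝ) * 256 ^ k * n ^ (2 * k) / 2 := by
    have e1 : (D : ℝ) * 256 ^ k * n ^ (2 * k) / 2 =
        ((D : ℝ) * 64 ^ k / 2) * n ^ k * (4 ^ k * n ^ k) := by
      rw [show (256 : ℝ) = 64 * 4 by norm_num, mul_pow, two_mul, pow_add]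
      ring
    rw [e1]
    refine mul_le_mul_of_nonneg_right ?_ (by positivity)
    calc Y ^ k * ((q + 1) * (q : ℝ) ^ (3 * h + 2 * r))
        = (2 * Y ^ k * (q + 1)) / 2 * (q : ℝ) ^ (3 * h + 2 * r) := by ring
      _ ≤ (D * 64 ^ k * q ^ h) / 2 * (q : ℝ) ^ (3 * h + 2 * r) := by
          refine mul_le_mul_of_nonneg_right ?_ (by positivity)
          linarith
      _ = (D * 64 ^ k / 2) * ((q : ℝ) ^ (3 * h + 2 * r) * q ^ h) := by ring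
      _ ≤ (D * 64 ^ k / 2) * n ^ k := mul_le_mul_of_nonneg_left hnk (by positivity)
  have hT2 : Y ^ k * ((q + 1) * (q : ℝ) ^ (3 * h + 2 * r)) * (k * (64 ^ k * (q + 1) * n ^ (2 * k)))
      ≤ (D : ℝ) * 256 ^ k * n ^ (2 * k) * q ^ (3 * h + r + 2) / 2 := by
    calc Y ^ k * ((q + 1) * (q : ℝ) ^ (3 * h + 2 * r)) * (k * (64 ^ k * (q + 1) * n ^ (2 * k)))
        = (2 * k * Y ^ k * (q + 1) ^ 2 * q ^ r) / 2 *
            (64 ^ k * n ^ (2 * k) * (q : ℝ) ^ (3 * h + r)) := by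
          rw [show 3 * h + 2 * r = (3 * h + r) + r by ring, pow_add]
          ring
      _ ≤ (D * 4 ^ k * q ^ 2) / 2 * (64 ^ k * n ^ (2 * k) * (q : ℝ) ^ (3 * h + r)) := by
          refine mul_le_mul_of_nonneg_right ?_ (by positivity)
          linarith
      _ = (D : ℝ) * 256 ^ k * n ^ (2 * k) * q ^ (3 * h + r + 2) / 2 := by
          rw [show (256 : ℝ) = 4 * 64 by norm_num, mul_pow, pow_add (q : ℝ) (3 * h + r) 2]
          ring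
  calc (G : ℝ) * C * Y ^ k * q ^ (3 * h + r + 2)
      = G * Y ^ k * (C * q ^ (3 * h + r + 2)) := by ring
    _ ≤ G * Y ^ k * (4 ^ k * n ^ k * q ^ (3 * h + r + 2) +
          k * (64 ^ k * (q + 1) * n ^ (2 * k))) := mul_le_mul_of_nonneg_left hC' (by positivity)
    _ ≤ ((q + 1) * q ^ (3 * h + 2 * r)) * Y ^ k * (4 ^ k * n ^ k * q ^ (3 * h + r + 2) +
          k * (64 ^ k * (q + 1) * n ^ (2 * k))) := by
        refine mul_le_mul_of_nonneg_right ?_ (by positivity)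
        exact mul_le_mul_of_nonneg_right hG' hYk.le
    _ = (Y ^ k * ((q + 1) * (q : ℝ) ^ (3 * h + 2 * r)) * (4 ^ k * n ^ k)) *
          q ^ (3 * h + r + 2) +
        Y ^ k * ((q + 1) * (q : ℝ) ^ (3 * h + 2 * r)) *
          (k * (64 ^ k * (q + 1) * n ^ (2 * k))) := by ring
    _ ≤ ((D : ℝ) * 256 ^ k * n ^ (2 * k) / 2) * q ^ (3 * h + r + 2) +
          (D : ℝ) * 256 ^ k * n ^ (2 * k) * q ^ (3 * h + r + 2) / 2 :=
        add_le_add (mul_le_mul_of_nonneg_right hT1 hqe.le) hT2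
    _ = D * (256 * (n : ℝ) ^ 2) ^ k * q ^ (3 * h + r + 2) := by
        rw [mul_pow, ← pow_mul]
        ring

section cond

variable {q : ℕ} {Y : ℝ}

theorem q_ge_one_real (hY : 1 ≤ Y) (hYq : Y ^ 5 ≤ q) : (1 : ℝ) ≤ q :=
  (one_le_pow₀ hY).trans hYq

/-- large levels -/
theorem cond_large (hY : 1 ≤ Y) (hYq : Y ^ 5 ≤ q) {k D : ℕ} (hk : 4 ≤ k)
    (hD : q ^ (k / 2 - (1 - k % 2)) ≤ D) :
    2 * Y ^ k * ((q : ℝ) + 1) ≤ D * 64 ^ k * q ^ (k / 2) ∧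
    2 * k * Y ^ k * ((q : ℝ) + 1) ^ 2 * q ^ (k % 2) ≤ D * 4 ^ k * q ^ 2 := by
  have hq1 := q_ge_one_real hY hYq
  have hq0 : (0 : ℝ) < q := by linarith
  have hY0 : (0 : ℝ) < Y := by linarith
  obtain ⟨h, r, hr, hkk⟩ : ∃ h r : ℕ, k % 2 = r ∧ k = 2 * h + r := ⟨k / 2, k % 2, rfl, by omega⟩
  have hr1 : r ≤ 1 := by omega
  have hh : k / 2 = h := by omega
  rw [hh, hr] at hD
  rw [hh, hr]
  have hD' : (q : ℝ) ^ (h - (1 - r)) ≤ D := by exact_mod_cast hD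
  -- `Y ^ k ≤ q ^ (h - 1)`
  have hYk : Y ^ k ≤ (q : ℝ) ^ (h - 1) := by
    calc Y ^ k ≤ Y ^ (5 * (h - 1)) := pow_le_pow_right₀ hY (by omega)
      _ = (Y ^ 5) ^ (h - 1) := pow_mul _ _ _
      _ ≤ (q : ℝ) ^ (h - 1) := pow_le_pow_left₀ (by positivity) hYq _
  have hqq : (q : ℝ) + 1 ≤ 2 * q := by linarith
  have hk8 : (8 : ℝ) * k ≤ 4 ^ k := by
    have : ∀ m : ℕ, 8 * (m + 4) ≤ 4 ^ (m + 4) := by
      intro m
      induction m with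
      | zero => norm_num
      | succ m ih =>
        have h1 : 4 ^ (m + 1 + 4) = 4 * 4 ^ (m + 4) := by ring
        omega
    have h2 := this (k - 4)
    rw [show k - 4 + 4 = k by omega] at h2
    exact_mod_cast h2
  have hk64 : (4 : ℝ) ≤ 64 ^ k := by
    calc (4 : ℝ) ≤ 64 := by norm_num
      _ = 64 ^ 1 := by norm_num
      _ ≤ 64 ^ k := pow_le_pow_right₀ (by norm_num) (by omega)
  constructor
  · calc 2 * Y ^ k * ((q : ℝ) + 1) ≤ 2 * (q : ℝ) ^ (h - 1) * (2 * q) := by gcongr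
      _ = 4 * (q : ℝ) ^ h := by
          rw [show h = (h - 1) + 1 by omega, pow_succ]
          simp only [Nat.add_sub_cancel]
          ring
      _ ≤ 64 ^ k * (q : ℝ) ^ h := by gcongr
      _ = 1 * 64 ^ k * (q : ℝ) ^ h := by ring
      _ ≤ D * 64 ^ k * (q : ℝ) ^ h := by
          have : (1 : ℝ) ≤ D := (one_le_pow₀ hq1).trans hD'
          gcongr
  · have e1 : (q : ℝ) ^ (h - 1) * q ^ r = (q : ℝ) ^ (h - (1 - r)) := by
      rw [← pow_add]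
      congr 1
      omega
    calc 2 * k * Y ^ k * ((q : ℝ) + 1) ^ 2 * q ^ r
        ≤ 2 * k * (q : ℝ) ^ (h - 1) * (2 * q) ^ 2 * q ^ r := by gcongr
      _ = (8 * k) * ((q : ℝ) ^ (h - 1) * q ^ r) * q ^ 2 := by ring
      _ = (8 * k) * (q : ℝ) ^ (h - (1 - r)) * q ^ 2 := by rw [e1]
      _ ≤ 4 ^ k * D * q ^ 2 := by gcongr
      _ = D * 4 ^ k * q ^ 2 := by ring

/-- level two, `D = q` -/
theorem cond_two (hY : 1 ≤ Y) (hYq : Y ^ 5 ≤ q) {D : ℕ} (hD : q ≤ D) :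
    2 * Y ^ 2 * ((q : ℝ) + 1) ≤ D * 64 ^ 2 * q ^ (2 / 2) ∧
    2 * ((2 : ℕ) : ℝ) * Y ^ 2 * ((q : ℝ) + 1) ^ 2 * (q : ℝ) ^ (2 % 2) ≤
      (D : ℝ) * 4 ^ 2 * (q : ℝ) ^ 2 := by
  have hq1 := q_ge_one_real hY hYq
  have hq0 : (0 : ℝ) < q := by linarith
  have hY0 : (0 : ℝ) < Y := by linarith
  have hY2 : Y ^ 2 ≤ q := (pow_le_pow_right₀ hY (by norm_num)).trans hYq
  have hqq : (q : ℝ) + 1 ≤ 2 * q := by linarith
  have hD' : (q : ℝ) ≤ D := by exact_mod_cast hD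
  constructor
  · calc 2 * Y ^ 2 * ((q : ℝ) + 1) ≤ 2 * q * (2 * q) := by gcongr
      _ ≤ q * 64 ^ 2 * q := by nlinarith
      _ ≤ D * 64 ^ 2 * q := by gcongr
      _ = D * 64 ^ 2 * q ^ (2 / 2) := by norm_num
  · have e2 : ((2 : ℕ) : ℝ) = 2 := by norm_num
    have e3 : (q : ℝ) ^ (2 % 2) = 1 := by norm_num
    rw [e2, e3]
    calc 2 * 2 * Y ^ 2 * ((q : ℝ) + 1) ^ 2 * 1 ≤ 2 * 2 * q * (2 * q) ^ 2 * 1 := by gcongr
      _ = (q : ℝ) * 4 ^ 2 * (q : ℝ) ^ 2 := by ring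
      _ ≤ D * 4 ^ 2 * (q : ℝ) ^ 2 := by gcongr

/-- level three, `D = q (q + 1) / 2` -/
theorem cond_three (hY : 1 ≤ Y) (hYq : Y ^ 5 ≤ q) {D : ℕ} (hD : q * (q + 1) ≤ 2 * D) :
    2 * Y ^ 3 * ((q : ℝ) + 1) ≤ D * 64 ^ 3 * q ^ (3 / 2) ∧
    2 * ((3 : ℕ) : ℝ) * Y ^ 3 * ((q : ℝ) + 1) ^ 2 * (q : ℝ) ^ (3 % 2) ≤
      (D : ℝ) * 4 ^ 3 * (q : ℝ) ^ 2 := by
  have hq1 := q_ge_one_real hY hYq
  have hq0 : (0 : ℝ) < q := by linarith
  have hY0 : (0 : ℝ) < Y := by linarith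
  have hY2 : Y ^ 3 ≤ q := (pow_le_pow_right₀ hY (by norm_num)).trans hYq
  have hqq : (q : ℝ) + 1 ≤ 2 * q := by linarith
  have hD' : (q : ℝ) * (q + 1) / 2 ≤ D := by
    have : (q : ℝ) * (q + 1) ≤ 2 * D := by exact_mod_cast hD
    linarith
  constructor
  · calc 2 * Y ^ 3 * ((q : ℝ) + 1) ≤ 2 * q * (q + 1) := by gcongr
      _ = (q * (q + 1) / 2) * 4 * 1 := by ring
      _ ≤ D * 64 ^ 3 * q ^ (3 / 2) := by
          have : (1 : ℝ) ≤ (q : ℝ) ^ (3 / 2) := one_le_pow₀ hq1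
          gcongr
          norm_num
  · have e2 : ((3 : ℕ) : ℝ) = 3 := by norm_num
    have e3 : (q : ℝ) ^ (3 % 2) = q := by norm_num
    rw [e2, e3]
    calc 2 * 3 * Y ^ 3 * ((q : ℝ) + 1) ^ 2 * q
        = 6 * Y ^ 3 * ((q : ℝ) + 1) * ((q : ℝ) + 1) * (q : ℝ) := by ring
      _ ≤ 6 * (q : ℝ) * (2 * (q : ℝ)) * ((q : ℝ) + 1) * (q : ℝ) := by gcongr
      _ = ((q : ℝ) * (q + 1) / 2) * 24 * (q : ℝ) ^ 2 := by ring
      _ ≤ D * 4 ^ 3 * (q : ℝ) ^ 2 := by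
          gcongr
          norm_num

end cond

/-- level one: `2 (q + 1) q ^ 2 ≤ (256 / Y) n ^ 2` -/
theorem cond_one {q n : ℕ} {Y : ℝ} (hY : 1 ≤ Y) (hYq : Y ^ 5 ≤ q) (hn : q ^ 2 ≤ n) :
    ((q : ℝ) + 1) * (2 * (q : ℝ) ^ 2) ≤ (256 / Y) * (n : ℝ) ^ 2 := by
  have hq1 := q_ge_one_real hY hYq
  have hY0 : (0 : ℝ) < Y := by linarith
  have hn' : (q : ℝ) ^ 2 ≤ n := by exact_mod_cast hn
  have hYY : Y ≤ q := (le_self_pow₀ hY (by norm_num : (5 : ℕ) ≠ 0)).trans hYq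
  rw [div_mul_eq_mul_div, le_div_iff₀ hY0]
  calc ((q : ℝ) + 1) * (2 * (q : ℝ) ^ 2) * Y ≤ (2 * q) * (2 * (q : ℝ) ^ 2) * q := by
        gcongr
        linarith
    _ = 4 * ((q : ℝ) ^ 2) ^ 2 := by ring
    _ ≤ 256 * (n : ℝ) ^ 2 := by gcongr; norm_num

end Crest.Agent.R289.Exp291
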