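import Mathlib

/-!
Row 289, block B1: the numerical closing of the trace method.
-/

set_option autoImplicit false

namespace Crest.Agent.R289.Exp820

/-- `C ^ k ≤ θ ^ k Q ^ g` from `C ^ 5 ≤ θ ^ 5 Q`, `k ≤ 5 g`, `θ ≤ 1 ≤ C`. -/
theorem pow_gain {C θ Q : ℝ} (hC : 1 ≤ C) (h0 : 0 ≤ θ) (h1 : θ ≤ 1) (hQ : 0 ≤ Q)
    (h : C ^ 5 ≤ θ ^ 5 * Q) {k g : ℕ} (hg : k ≤ 5 * g) : C ^ k ≤ θ ^ k * Q ^ g := by
  calc C ^ k ≤ C ^ (5 * g) := pow_le_pow_right₀ hC hg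
    _ = (C ^ 5) ^ g := by rw [pow_mul]
    _ ≤ (θ ^ 5 * Q) ^ g := pow_le_pow_left₀ (by positivity) h g
    _ = θ ^ (5 * g) * Q ^ g := by rw [mul_pow, ← pow_mul]
    _ ≤ θ ^ k * Q ^ g := by
        refine mul_le_mul_of_nonneg_right ?_ (by positivity)
        exact pow_le_pow_of_le_one h0 h1 hg

/-- **numerical closing**: `cw` closed words (bounded as in `closed_walks_ff` with `l = k`), group
order `(q + 1) q ^ (2 k - k / 2)`, dimension bound `D`, gain exponent `g` (`k ≤ 5 g`). -/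
theorem closing {q n k g cw : ℕ} {D θ : ℝ} (hq : 1 ≤ q) (hn : q ^ 2 ≤ n) (hk : 2 ≤ k)
    (hg : k ≤ 5 * g) (hD0 : 0 ≤ D)
    (hD : ((q : ℝ) + 1) ^ 2 * (q : ℝ) ^ (k % 2) * (q : ℝ) ^ g ≤ 8 * D * (q : ℝ) ^ 2)
    (h0 : 0 ≤ θ) (h1 : θ ≤ 1) (hθ : (512 : ℝ) ^ 5 ≤ θ ^ 5 * (q : ℝ))
    (hcw : cw * q ^ (k + 1 + (k / 2 + 1)) ≤
      4 ^ k * n ^ k * q ^ (k + 1 + (k / 2 + 1)) + k * (64 ^ k * (q + 1) * n ^ (2 * k))) :
    (((q + 1) * q ^ (2 * k - k / 2) : ℕ) : ℝ) * (cw : ℝ) ≤ D * (θ * (n : ℝ) ^ 2) ^ k := by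
  have hcw' : (cw : ℝ) * (q : ℝ) ^ (k + 1 + (k / 2 + 1)) ≤
      4 ^ k * (n : ℝ) ^ k * (q : ℝ) ^ (k + 1 + (k / 2 + 1)) +
        k * (64 ^ k * ((q : ℝ) + 1) * (n : ℝ) ^ (2 * k)) := by exact_mod_cast hcw
  have hnr : (q : ℝ) ^ 2 ≤ (n : ℝ) := by exact_mod_cast hn
  have hQ1 : (1 : ℝ) ≤ (q : ℝ) := by exact_mod_cast hq
  push_cast
  set Q : ℝ := (q : ℝ) with hQ
  set m : ℝ := (n : ℝ) with hm
  have hQ0 : (0 : ℝ) < Q := by linarith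
  have hm0 : (0 : ℝ) < m := lt_of_lt_of_le (by positivity) hnr
  have gain : (512 : ℝ) ^ k ≤ θ ^ k * Q ^ g := pow_gain (by norm_num) h0 h1 hQ0.le hθ hg
  have e1 : 2 * k - k / 2 = k % 2 + (k + k / 2) := by omega
  have e2 : k + 1 + (k / 2 + 1) = (k + k / 2) + 2 := by omega
  have hk8 : (16 * k : ℝ) ≤ 8 ^ k := by
    have : ∀ j : ℕ, 16 * (j + 2) ≤ 8 ^ (j + 2) := by
      intro j
      induction j with
      | zero => norm_num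
      | succ j ih =>
        have e : 8 ^ (j + 1 + 2) = 8 * 8 ^ (j + 2) := by ring
        rw [e]
        omega
    have h := this (k - 2)
    rw [Nat.sub_add_cancel hk] at h
    exact_mod_cast h
  -- claim 1
  have c1 : 2 * ((Q + 1) * Q ^ (2 * k - k / 2)) * 4 ^ k * m ^ k ≤ D * θ ^ k * m ^ (2 * k) := by
    have a1 : 2 * (Q + 1) * 4 ^ k ≤ D * θ ^ k * Q ^ (k / 2) := by
      have b1 : (Q + 1) ^ 2 * Q ^ 1 * 512 ^ k ≤ 8 * D * Q ^ 2 * (θ ^ k * Q ^ (k / 2)) := by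
        calc (Q + 1) ^ 2 * Q ^ 1 * 512 ^ k
            ≤ (Q + 1) ^ 2 * Q ^ (k % 2 + k / 2) * (θ ^ k * Q ^ g) := by
              refine mul_le_mul (mul_le_mul_of_nonneg_left ?_ (by positivity)) gain
                (by positivity) (by positivity)
              exact pow_le_pow_right₀ hQ1 (by omega)
          _ = ((Q + 1) ^ 2 * Q ^ (k % 2) * Q ^ g) * (θ ^ k * Q ^ (k / 2)) := by
              rw [pow_add]; ring
          _ ≤ 8 * D * Q ^ 2 * (θ ^ k * Q ^ (k / 2)) :=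
              mul_le_mul_of_nonneg_right hD (by positivity)
      have b2 : 16 * (4 : ℝ) ^ k ≤ 512 ^ k := by
        have h16 : (16 : ℝ) ≤ 128 ^ k := by
          calc (16 : ℝ) ≤ 128 ^ 1 := by norm_num
            _ ≤ 128 ^ k := pow_le_pow_right₀ (by norm_num) (by omega)
        calc 16 * (4 : ℝ) ^ k ≤ 128 ^ k * 4 ^ k := mul_le_mul_of_nonneg_right h16 (by positivity)
          _ = 512 ^ k := by rw [← mul_pow]; norm_num
      have b3 : (8 * Q ^ 2) * (2 * (Q + 1) * 4 ^ k) ≤ (8 * Q ^ 2) * (D * θ ^ k * Q ^ (k / 2)) := by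
        calc (8 * Q ^ 2) * (2 * (Q + 1) * 4 ^ k) = (Q * Q * (Q + 1)) * (16 * 4 ^ k) := by ring
          _ ≤ ((Q + 1) * Q * (Q + 1)) * 512 ^ k := by
              refine mul_le_mul ?_ b2 (by positivity) (by positivity)
              have : Q * Q ≤ (Q + 1) * Q := by nlinarith
              exact mul_le_mul_of_nonneg_right this (by positivity)
          _ = (Q + 1) ^ 2 * Q ^ 1 * 512 ^ k := by ring
          _ ≤ 8 * D * Q ^ 2 * (θ ^ k * Q ^ (k / 2)) := b1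
          _ = (8 * Q ^ 2) * (D * θ ^ k * Q ^ (k / 2)) := by ring
      exact le_of_mul_le_mul_left b3 (by positivity)
    have a2 : Q ^ (k / 2) * Q ^ (2 * k - k / 2) = (Q ^ 2) ^ k := by
      rw [← pow_add, ← pow_mul]
      congr 1
      omega
    calc 2 * ((Q + 1) * Q ^ (2 * k - k / 2)) * 4 ^ k * m ^ k
        = (2 * (Q + 1) * 4 ^ k) * (Q ^ (2 * k - k / 2) * m ^ k) := by ring
      _ ≤ (D * θ ^ k * Q ^ (k / 2)) * (Q ^ (2 * k - k / 2) * m ^ k) :=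
          mul_le_mul_of_nonneg_right a1 (by positivity)
      _ = D * θ ^ k * (Q ^ (k / 2) * Q ^ (2 * k - k / 2)) * m ^ k := by ring
      _ = D * θ ^ k * (Q ^ 2) ^ k * m ^ k := by rw [a2]
      _ ≤ D * θ ^ k * m ^ k * m ^ k := by
          refine mul_le_mul_of_nonneg_right (mul_le_mul_of_nonneg_left ?_ (by positivity))
            (by positivity)
          exact pow_le_pow_left₀ (by positivity) hnr k
      _ = D * θ ^ k * m ^ (2 * k) := by rw [two_mul, pow_add]; ring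
  -- claim 2
  have c2 : 2 * ((Q + 1) * Q ^ (2 * k - k / 2)) * (k * (64 ^ k * (Q + 1))) ≤
      D * θ ^ k * Q ^ (k + 1 + (k / 2 + 1)) := by
    have a1 : 512 ^ k * (2 * ((Q + 1) * Q ^ (2 * k - k / 2)) * (k * (64 ^ k * (Q + 1)))) ≤
        512 ^ k * (D * θ ^ k * Q ^ (k + 1 + (k / 2 + 1))) := by
      have hk0 : (0 : ℝ) ≤ (k : ℝ) := Nat.cast_nonneg k
      calc 512 ^ k * (2 * ((Q + 1) * Q ^ (2 * k - k / 2)) * (k * (64 ^ k * (Q + 1))))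
          ≤ (θ ^ k * Q ^ g) * (2 * ((Q + 1) * Q ^ (2 * k - k / 2)) * (k * (64 ^ k * (Q + 1)))) :=
            mul_le_mul_of_nonneg_right gain (by positivity)
        _ = ((Q + 1) ^ 2 * Q ^ (k % 2) * Q ^ g) * (θ ^ k * Q ^ (k + k / 2) * (2 * k * 64 ^ k)) := by
            rw [e1, pow_add Q (k % 2)]; ring
        _ ≤ (8 * D * Q ^ 2) * (θ ^ k * Q ^ (k + k / 2) * (2 * k * 64 ^ k)) :=
            mul_le_mul_of_nonneg_right hD (by positivity)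
        _ = (16 * k * 64 ^ k) * (D * θ ^ k * (Q ^ (k + k / 2) * Q ^ 2)) := by ring
        _ ≤ 512 ^ k * (D * θ ^ k * (Q ^ (k + k / 2) * Q ^ 2)) := by
            refine mul_le_mul_of_nonneg_right ?_ (by positivity)
            calc (16 * k * 64 ^ k : ℝ) ≤ 8 ^ k * 64 ^ k :=
                  mul_le_mul_of_nonneg_right hk8 (by positivity)
              _ = 512 ^ k := by rw [← mul_pow]; norm_num
        _ = 512 ^ k * (D * θ ^ k * Q ^ (k + 1 + (k / 2 + 1))) := by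
            rw [e2, pow_add Q (k + k / 2)]
    exact le_of_mul_le_mul_left a1 (by positivity)
  have hE : (0 : ℝ) < Q ^ (k + 1 + (k / 2 + 1)) := by positivity
  refine le_of_mul_le_mul_right ?_ hE
  have hA : 0 ≤ (Q + 1) * Q ^ (2 * k - k / 2) := by positivity
  calc (Q + 1) * Q ^ (2 * k - k / 2) * (cw : ℝ) * Q ^ (k + 1 + (k / 2 + 1))
      = ((Q + 1) * Q ^ (2 * k - k / 2)) * ((cw : ℝ) * Q ^ (k + 1 + (k / 2 + 1))) := by ring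
    _ ≤ ((Q + 1) * Q ^ (2 * k - k / 2)) * (4 ^ k * m ^ k * Q ^ (k + 1 + (k / 2 + 1)) +
          k * (64 ^ k * (Q + 1) * m ^ (2 * k))) := mul_le_mul_of_nonneg_left hcw' hA
    _ = (1 / 2) * ((2 * ((Q + 1) * Q ^ (2 * k - k / 2)) * 4 ^ k * m ^ k) *
          Q ^ (k + 1 + (k / 2 + 1))) + (1 / 2) * ((2 * ((Q + 1) * Q ^ (2 * k - k / 2)) *
            (k * (64 ^ k * (Q + 1)))) * m ^ (2 * k)) := by ring
    _ ≤ (1 / 2) * ((D * θ ^ k * m ^ (2 * k)) * Q ^ (k + 1 + (k / 2 + 1))) +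
          (1 / 2) * ((D * θ ^ k * Q ^ (k + 1 + (k / 2 + 1))) * m ^ (2 * k)) := by
        refine add_le_add ?_ ?_
        · exact mul_le_mul_of_nonneg_left (mul_le_mul_of_nonneg_right c1 hE.le) (by norm_num)
        · exact mul_le_mul_of_nonneg_left (mul_le_mul_of_nonneg_right c2 (by positivity))
            (by norm_num)
    _ = D * (θ * m ^ 2) ^ k * Q ^ (k + 1 + (k / 2 + 1)) := by
        rw [mul_pow, ← pow_mul]; ring

/-- dimension bounds which suffice: `k ≥ 4` even, `D ≥ q ^ (k / 2 - 1)`. -/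
theorem dim_even {q k : ℕ} {D : ℝ} (hq : 1 ≤ q) (hk : 4 ≤ k) (he : k % 2 = 0)
    (hD : (q : ℝ) ^ (k / 2 - 1) ≤ D) :
    k ≤ 5 * (k / 2 - 1) ∧
      ((q : ℝ) + 1) ^ 2 * (q : ℝ) ^ (k % 2) * (q : ℝ) ^ (k / 2 - 1) ≤ 8 * D * (q : ℝ) ^ 2 := by
  refine ⟨by omega, ?_⟩
  have hQ1 : (1 : ℝ) ≤ (q : ℝ) := by exact_mod_cast hq
  rw [he, pow_zero, mul_one]
  have h2 : ((q : ℝ) + 1) ^ 2 ≤ 8 * (q : ℝ) ^ 2 := by nlinarith
  calc ((q : ℝ) + 1) ^ 2 * (q : ℝ) ^ (k / 2 - 1) ≤ (8 * (q : ℝ) ^ 2) * D :=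
        mul_le_mul h2 hD (by positivity) (by positivity)
    _ = _ := by ring

/-- `k ≥ 5` odd, `D ≥ q ^ ((k - 1) / 2)`. -/
theorem dim_odd {q k : ℕ} {D : ℝ} (hq : 1 ≤ q) (hk : 5 ≤ k) (ho : k % 2 = 1)
    (hD : (q : ℝ) ^ ((k - 1) / 2) ≤ D) :
    k ≤ 5 * ((k - 3) / 2) ∧
      ((q : ℝ) + 1) ^ 2 * (q : ℝ) ^ (k % 2) * (q : ℝ) ^ ((k - 3) / 2) ≤
        8 * D * (q : ℝ) ^ 2 := by
  refine ⟨by omega, ?_⟩
  have hQ1 : (1 : ℝ) ≤ (q : ℝ) := by exact_mod_cast hq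
  have h2 : ((q : ℝ) + 1) ^ 2 ≤ 8 * (q : ℝ) ^ 2 := by nlinarith
  have h3 : (q : ℝ) ^ (k % 2) * (q : ℝ) ^ ((k - 3) / 2) = (q : ℝ) ^ ((k - 1) / 2) := by
    rw [← pow_add]
    congr 1
    omega
  calc ((q : ℝ) + 1) ^ 2 * (q : ℝ) ^ (k % 2) * (q : ℝ) ^ ((k - 3) / 2)
      = ((q : ℝ) + 1) ^ 2 * ((q : ℝ) ^ (k % 2) * (q : ℝ) ^ ((k - 3) / 2)) := by ring
    _ ≤ (8 * (q : ℝ) ^ 2) * D := by
        rw [h3]
        exact mul_le_mul h2 hD (by positivity) (by positivity)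
    _ = _ := by ring

/-- `k = 2`, `D ≥ q` -/
theorem dim_two {q : ℕ} {D : ℝ} (hq : 1 ≤ q) (hD : (q : ℝ) ≤ D) :
    ((q : ℝ) + 1) ^ 2 * (q : ℝ) ^ (2 % 2) * (q : ℝ) ^ 1 ≤ 8 * D * (q : ℝ) ^ 2 := by
  have hQ1 : (1 : ℝ) ≤ (q : ℝ) := by exact_mod_cast hq
  have h2 : ((q : ℝ) + 1) ^ 2 ≤ 8 * (q : ℝ) ^ 2 := by nlinarith
  calc ((q : ℝ) + 1) ^ 2 * (q : ℝ) ^ (2 % 2) * (q : ℝ) ^ 1 = ((q : ℝ) + 1) ^ 2 * (q : ℝ) := by
        norm_num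
    _ ≤ (8 * (q : ℝ) ^ 2) * D := mul_le_mul h2 hD (by positivity) (by positivity)
    _ = _ := by ring

/-- `k = 3`, `D ≥ q (q + 1) / 4` -/
theorem dim_three {q : ℕ} {D : ℝ} (hq : 1 ≤ q) (hD : (q : ℝ) * ((q : ℝ) + 1) / 4 ≤ D) :
    ((q : ℝ) + 1) ^ 2 * (q : ℝ) ^ (3 % 2) * (q : ℝ) ^ 1 ≤ 8 * D * (q : ℝ) ^ 2 := by
  have hQ1 : (1 : ℝ) ≤ (q : ℝ) := by exact_mod_cast hq
  calc ((q : ℝ) + 1) ^ 2 * (q : ℝ) ^ (3 % 2) * (q : ℝ) ^ 1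
      = (((q : ℝ) + 1) * (q : ℝ) ^ 2) * ((q : ℝ) + 1) := by norm_num; ring
    _ ≤ (((q : ℝ) + 1) * (q : ℝ) ^ 2) * (2 * (q : ℝ)) :=
        mul_le_mul_of_nonneg_left (by linarith) (by positivity)
    _ = (8 * ((q : ℝ) * ((q : ℝ) + 1) / 4)) * (q : ℝ) ^ 2 := by ring
    _ ≤ (8 * D) * (q : ℝ) ^ 2 := mul_le_mul_of_nonneg_right (by linarith) (by positivity)

end Crest.Agent.R289.Exp820
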