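import Crest.Agent.R289.ExpPhi_820
import Crest.Agent.R289.FacB_281

/-!
Row 289, block B: the monic elements `π_i` behind `Fac281.be σ x (sec i)`, `i : Option K`.
-/

set_option autoImplicit false

namespace Crest.Agent.R289.Exp820

open Polynomial Sk Fac281 Mob459

section data

variable {K : Type*} [Field K] (σ : K →+* K) (x : K)

/-- constant coefficient of `π_i` -/
noncomputable def ccx (i : Option K) : K := (Fac281.gam σ x (sec i))⁻¹

/-- `τ`-coefficient of `π_i` -/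
noncomputable def bbx (i : Option K) : K :=
  Fac281.bet σ x (sec i) * (σ (Fac281.gam σ x (sec i)))⁻¹

variable {σ x}

theorem gam_bet (hσ : ∀ a, σ (σ a) = a) (hx : σ x ≠ x) {l : K × K} (hl : l ≠ 0) :
    Fac281.gam σ x l * σ (Fac281.gam σ x l) = (x * σ x)⁻¹ ∧
      Fac281.gam σ x l + σ (Fac281.gam σ x l) - Fac281.bet σ x l * σ (Fac281.bet σ x l) =
        - (x + σ x) * (x * σ x)⁻¹ := by
  have h := Fac281.N_be hσ hx hl
  have hL : N (Fac281.be σ x l) = 1 +
      C (Fac281.gam σ x l + σ (Fac281.gam σ x l) - Fac281.bet σ x l * σ (Fac281.bet σ x l)) * X +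
      C (Fac281.gam σ x l * σ (Fac281.gam σ x l)) * X ^ 2 := by
    simp only [N, Fac281.be, map_add, map_one, map_mul, sg_C, sg_X, C_sub]
    ring
  rw [hL, XX_eq] at h
  have e1 : ∀ u v : K, (1 + C u * X + C v * X ^ 2 : K[X]).coeff 1 = u := by
    intro u v; simp [coeff_one]
  have e2 : ∀ u v : K, (1 + C u * X + C v * X ^ 2 : K[X]).coeff 2 = v := by
    intro u v; simp [coeff_one, coeff_X]
  have e3 : ∀ w u v : K, (C w * (X ^ 2 + C u * X + C v) : K[X]).coeff 1 = w * u := by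
    intro w u v; rw [coeff_C_mul]; simp
  have e4 : ∀ w u v : K, (C w * (X ^ 2 + C u * X + C v) : K[X]).coeff 2 = w := by
    intro w u v; rw [coeff_C_mul]; simp [coeff_X, coeff_C]
  have h1 := congrArg (fun p => coeff p 1) h
  have h2 := congrArg (fun p => coeff p 2) h
  simp only [e1, e3] at h1
  simp only [e2, e4] at h2
  exact ⟨h2, by rw [h1]; ring⟩

theorem gam_ne_zero (hσ : ∀ a, σ (σ a) = a) (hx : σ x ≠ x) {l : K × K} (hl : l ≠ 0) :
    Fac281.gam σ x l ≠ 0 := by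
  intro h
  have h1 := (gam_bet hσ hx hl).1
  rw [h, zero_mul] at h1
  have hx0 : x ≠ 0 := Fac281.x_ne_zero hx
  exact inv_ne_zero (mul_ne_zero hx0 ((map_ne_zero σ).2 hx0)) h1.symm

theorem ccx_ne_zero (hσ : ∀ a, σ (σ a) = a) (hx : σ x ≠ x) (i : Option K) : ccx σ x i ≠ 0 :=
  inv_ne_zero (gam_ne_zero hσ hx (sec_ne_zero i))

theorem pmem_x (hσ : ∀ a, σ (σ a) = a) (hx : σ x ≠ x) : PMem σ x (ccx σ x) (bbx σ x) := by
  intro i
  obtain ⟨h1, h2⟩ := gam_bet hσ hx (sec_ne_zero i)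
  have hg := gam_ne_zero hσ hx (sec_ne_zero i)
  have hx0 : x ≠ 0 := Fac281.x_ne_zero hx
  have hsx0 : σ x ≠ 0 := (map_ne_zero σ).2 hx0
  have hsg : σ (Fac281.gam σ x (sec i)) ≠ 0 := (map_ne_zero σ).2 hg
  unfold ccx bbx
  set g := Fac281.gam σ x (sec i) with hgd
  set b := Fac281.bet σ x (sec i) with hbd
  have h3 : g * σ g * (x * σ x) = 1 := by
    rw [h1, inv_mul_cancel₀ (mul_ne_zero hx0 hsx0)]
  have h4 : (g + σ g - b * σ b) * (x * σ x) = -(x + σ x) := by
    rw [h2, mul_assoc, inv_mul_cancel₀ (mul_ne_zero hx0 hsx0), mul_one]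
  have k1 : g⁻¹ = σ g * (x * σ x) := inv_eq_of_mul_eq_one_right (by rw [← mul_assoc]; exact h3)
  have k2 : (σ g)⁻¹ = g * (x * σ x) :=
    inv_eq_of_mul_eq_one_right (by rw [← mul_assoc, mul_comm (σ g)]; exact h3)
  refine ⟨?_, ?_⟩
  · rw [map_inv₀, ← mul_inv]
    exact inv_eq_of_mul_eq_one_right h3
  · rw [map_mul, map_inv₀, map_inv₀, hσ, k1, k2]
    linear_combination (b * σ b * (x * σ x)) * h3 - h4

theorem inj_x (hσ : ∀ a, σ (σ a) = a) (hx : σ x ≠ x) :
    Function.Injective fun i => (ccx σ x i, bbx σ x i) := by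
  intro i j h
  have h1 : ccx σ x i = ccx σ x j := congrArg Prod.fst h
  have h2 : bbx σ x i = bbx σ x j := congrArg Prod.snd h
  have hg : Fac281.gam σ x (sec i) = Fac281.gam σ x (sec j) := inv_injective h1
  have hb : Fac281.bet σ x (sec i) = Fac281.bet σ x (sec j) := by
    unfold bbx at h2
    rw [hg] at h2
    have hne : (σ (Fac281.gam σ x (sec j)))⁻¹ ≠ 0 :=
      inv_ne_zero ((map_ne_zero σ).2 (gam_ne_zero hσ hx (sec_ne_zero j)))
    exact mul_right_cancel₀ hne h2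
  refine FacB281.be_sec_inj hσ hx ?_
  unfold Fac281.be
  rw [hg, hb]

theorem sur_x [Fintype K] {q : ℕ} (hc : Fintype.card K = q ^ 2) (hσq : ∀ a, σ a = a ^ q)
    (hx : σ x ≠ x) (c b : K) (h : c * σ c = x * σ x ∧ b * σ b = c + σ c + (x + σ x)) :
    ∃ i : Option K, ccx σ x i = c ∧ bbx σ x i = b := by
  classical
  have hσ : ∀ a, σ (σ a) = a := conj_conj hc hσq
  have h1 : (Finset.univ.image fun i : Option K => pil σ (ccx σ x) (bbx σ x) i) ⊆ allPi σ x := by
    intro w hw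
    obtain ⟨i, -, rfl⟩ := Finset.mem_image.1 hw
    exact mem_allPi.2 (isPi_pil (pmem_x hσ hx) i)
  have h2 : (Finset.univ.image fun i : Option K => pil σ (ccx σ x) (bbx σ x) i).card = q ^ 2 + 1 := by
    rw [Finset.card_image_of_injective _ (pil_injective (inj_x hσ hx)), Finset.card_univ,
      Fintype.card_option, hc]
  have h3 := Finset.eq_of_subset_of_card_le h1
    ((card_allPi hσ hx fun d => card_nm hσq d).trans h2.ge)
  have h4 : (⟨X + C c, C b⟩ : Sk σ) ∈ allPi σ x :=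
    mem_allPi.2 ⟨c, b, rfl, (N_lin_eq_iff _ _).2 h⟩
  rw [← h3] at h4
  obtain ⟨i, -, hi⟩ := Finset.mem_image.1 h4
  refine ⟨i, ?_, ?_⟩
  · have := congrArg (fun r : Sk σ => r.re.coeff 0) hi
    simpa [pil] using this
  · have := congrArg (fun r : Sk σ => r.im.coeff 0) hi
    simpa [pil] using this

/-- `be = π · constant` -/
theorem be_eq (hσ : ∀ a, σ (σ a) = a) (hx : σ x ≠ x) (i : Option K) :
    Fac281.be σ x (sec i) = pil σ (ccx σ x) (bbx σ x) i * ⟨C (ccx σ x i)⁻¹, 0⟩ := by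
  have hg := gam_ne_zero hσ hx (sec_ne_zero i)
  have hsg : σ (Fac281.gam σ x (sec i)) ≠ 0 := (map_ne_zero σ).2 hg
  ext1
  · simp only [mul_re, pil, Fac281.be, map_zero, mul_zero, add_zero, ccx, inv_inv]
    rw [add_mul, ← C_mul, inv_mul_cancel₀ hg, C_1]
    ring
  · simp only [mul_im, pil, Fac281.be, mul_zero, zero_add, sg_C, ccx, bbx, inv_inv]
    rw [← C_mul, mul_assoc, inv_mul_cancel₀ hsg, mul_one]

end data

end Crest.Agent.R289.Exp820
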