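import Crest.Agent.R289.Obj289_233
import Crest.Agent.R289.NuExp_547
import Crest.Agent.R289.SkewL1_877
import Crest.Agent.R289.ExpPass_291

/-!
# Row 289, assembly A + B: the expansion leaf over `Par`

`mz_alP` : gap of the steps `alP` at every level; `expOK`, `ev_expOK`.
-/

set_option autoImplicit false
set_option linter.unusedSectionVars false

namespace Crest.Agent.R289.ExpPlug233

open Polynomial Crest.Agent.R289.SkewGrp877 Crest.Agent.R289.Exp820 Crest.Agent.R289.Exp820.Sk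
open Crest.Agent.R289.Exp291 Crest.Agent.R289.NuExp547 Crest.Agent.R289.Tower962

section gen

variable {K : Type} [Field K] {σ : K →+* K} (hσ : ∀ x, σ (σ x) = x)

/-- constants of norm one -/
def cs (k : ℕ) : SG hσ 0 →* SG hσ k where
  toFun b := ⟨tor k (c ((b : (R σ 0)ˣ) : R σ 0) 0) (const_SG hσ b.2), tor_mem hσ _ _⟩
  map_one' := by
    apply Subtype.ext
    apply Units.ext
    change (mono 0 (c (1 : R σ 0) 0) : R σ k) = 1
    rw [c_one (Nat.zero_le 0), if_pos rfl, mono_zero_one]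
  map_mul' a b := by
    apply Subtype.ext
    apply Units.ext
    change (mono 0 (c (((a : (R σ 0)ˣ) : R σ 0) * ((b : (R σ 0)ˣ) : R σ 0)) 0) : R σ k) =
      mono 0 (c ((a : (R σ 0)ˣ) : R σ 0) 0) * mono 0 (c ((b : (R σ 0)ˣ) : R σ 0) 0)
    rw [mono_zero_mul, c_mul_zero]

theorem cs_val (k : ℕ) (b : SG hσ 0) : (((cs hσ k b : SG hσ k) : (R σ k)ˣ) : R σ k) =
    mono 0 (c ((b : (R σ 0)ˣ) : R σ 0) 0) := rfl

theorem cs_inv_val (k : ℕ) (b : SG hσ 0) :
    ((((cs hσ k b : SG hσ k) : (R σ k)ˣ)⁻¹ : (R σ k)ˣ) : R σ k) =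
    mono 0 (σ (c ((b : (R σ 0)ˣ) : R σ 0) 0)) := rfl

theorem cs_comm (k : ℕ) (a b : SG hσ 0) : cs hσ k a * cs hσ k b = cs hσ k b * cs hσ k a := by
  apply Subtype.ext
  apply Units.ext
  change (mono 0 _ : R σ k) * mono 0 _ = mono 0 _ * mono 0 _
  rw [mono_zero_mul, mono_zero_mul, mul_comm]

theorem tr_cs (k : ℕ) (b : SG hσ 0) : trSG hσ (Nat.zero_le k) (cs hσ k b) = b := by
  apply Subtype.ext
  apply Units.ext
  change SkewGrp877.tr σ (Nat.zero_le k) (mono 0 (c ((b : (R σ 0)ˣ) : R σ 0) 0)) =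
    ((b : (R σ 0)ˣ) : R σ 0)
  refine ext' fun n hn => ?_
  have hn0 : n = 0 := by omega
  subst hn0
  rw [c_tr _ _ hn, c_mono _ _ (Nat.zero_le k), if_pos rfl]

theorem conj_mem {k : ℕ} {u : (R σ k)ˣ} {z : R σ k} (hz : ∀ m : R σ k, z * m = m * z)
    (h1 : (u : R σ k) * SkewGrp877.conj (u : R σ k) = z)
    (h2 : SkewGrp877.conj (u : R σ k) * (u : R σ k) = z) {g : (R σ k)ˣ} (hg : g ∈ U hσ k 1) :
    u * g * u⁻¹ ∈ U hσ k 1 := by
  set U' : R σ k := (u : R σ k) with hU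
  set w : R σ k := ((u⁻¹ : (R σ k)ˣ) : R σ k) with hw
  set G : R σ k := (g : R σ k) with hG
  have huw : U' * w = 1 := Units.mul_inv _
  have hwu : w * U' = 1 := Units.inv_mul _
  have hc1 : SkewGrp877.conj w * SkewGrp877.conj U' = 1 := by
    rw [← conj_mul hσ, huw, conj_one]
  have hc2 : SkewGrp877.conj U' * SkewGrp877.conj w = 1 := by
    rw [← conj_mul hσ, hwu, conj_one]
  set t : R σ k := w * SkewGrp877.conj w with ht
  have hzt : z * t = 1 := by
    calc z * t = SkewGrp877.conj U' * U' * (w * SkewGrp877.conj w) := by rw [h2]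
      _ = SkewGrp877.conj U' * (U' * w) * SkewGrp877.conj w := by noncomm_ring
      _ = 1 := by rw [huw, mul_one, hc2]
  have htz : t * z = 1 := by rw [← hz t, hzt]
  have htc : ∀ a : R σ k, t * a = a * t := by
    intro a
    calc t * a = t * a * (z * t) := by rw [hzt, mul_one]
      _ = t * (a * z) * t := by noncomm_ring
      _ = t * (z * a) * t := by rw [hz a]
      _ = t * z * a * t := by noncomm_ring
      _ = a * t := by rw [htz, one_mul]
  have hgc : G * SkewGrp877.conj G = 1 := (mem_SG hσ).1 hg.1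
  refine (mem_U hσ).2 ⟨?_, ?_⟩
  · rw [mem_SG hσ, Units.val_mul, Units.val_mul, ← hU, ← hw, ← hG, conj_mul hσ, conj_mul hσ]
    calc U' * G * w * (SkewGrp877.conj w * (SkewGrp877.conj G * SkewGrp877.conj U'))
        = U' * G * (w * SkewGrp877.conj w) * (SkewGrp877.conj G * SkewGrp877.conj U') := by
          noncomm_ring
      _ = U' * (G * t) * (SkewGrp877.conj G * SkewGrp877.conj U') := by rw [← ht]; noncomm_ring
      _ = U' * (t * G) * (SkewGrp877.conj G * SkewGrp877.conj U') := by rw [htc G]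
      _ = U' * t * (G * SkewGrp877.conj G) * SkewGrp877.conj U' := by noncomm_ring
      _ = U' * t * SkewGrp877.conj U' := by rw [hgc, mul_one]
      _ = t * U' * SkewGrp877.conj U' := by rw [htc U']
      _ = t * (U' * SkewGrp877.conj U') := by rw [mul_assoc]
      _ = 1 := by rw [h1, htz]
  · have h3 : U' * G * w - 1 = U' * (G - 1) * w := by
      rw [mul_sub, mul_one, sub_mul, huw]
    rw [Units.val_mul, Units.val_mul, ← hU, ← hw, ← hG, h3]
    exact ((hg.2).mul_left U').mul_right w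

end gen

section place

variable {K : Type} [Field K] [Finite K] {σ : K →+* K} (hσ : ∀ x, σ (σ x) = x) {x : K}
  (hx : σ x ≠ x)

/-- the value of a constant -/
theorem val_const (b : SG hσ 0) :
    c ((b : (R σ 0)ˣ) : R σ 0) 0 * σ (c ((b : (R σ 0)ˣ) : R σ 0) 0) = 1 := const_SG hσ b.2

include hx in
theorem exists_e (b : SG hσ 0) (i : Option K) : ∃ j : Option K, cc σ x j = cc σ x i ∧
    bb σ x j = c ((b : (R σ 0)ˣ) : R σ 0) 0 ^ 2 * bb σ x i := by
  have h1 := pmem hσ hx i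
  have hb := val_const hσ b
  set u := c ((b : (R σ 0)ˣ) : R σ 0) 0 with hu
  refine ccbb_sur hσ hx _ _ h1.1 ?_
  rw [map_mul, map_pow, ← h1.2]
  linear_combination (u * σ u + 1) * bb σ x i * σ (bb σ x i) * hb

/-- action of the constants on the labels -/
noncomputable def ef (b : SG hσ 0) (i : Option K) : Option K := (exists_e hσ hx b i).choose

theorem ef_spec (b : SG hσ 0) (i : Option K) : cc σ x (ef hσ hx b i) = cc σ x i ∧
    bb σ x (ef hσ hx b i) = c ((b : (R σ 0)ˣ) : R σ 0) 0 ^ 2 * bb σ x i :=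
  (exists_e hσ hx b i).choose_spec

theorem ef_inj (b : SG hσ 0) : Function.Injective (ef hσ hx b) := by
  intro i j h
  have h1 := ef_spec hσ hx b i
  have h2 := ef_spec hσ hx b j
  rw [h] at h1
  have hb := val_const hσ b
  have hu : c ((b : (R σ 0)ˣ) : R σ 0) 0 ≠ 0 := fun h0 => by
    rw [h0, zero_mul] at hb
    exact zero_ne_one hb
  apply ccbb_inj hσ hx
  refine Prod.ext ?_ ?_
  · change cc σ x i = cc σ x j
    rw [← h1.1, ← h2.1]
  · change bb σ x i = bb σ x j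
    have h3 := h1.2.symm.trans h2.2
    exact mul_left_cancel₀ (pow_ne_zero 2 hu) h3

/-- the same as an equivalence -/
noncomputable def ee (b : SG hσ 0) : Option K ≃ Option K :=
  Equiv.ofBijective _ (Finite.injective_iff_bijective.1 (ef_inj hσ hx b))

theorem he (k : ℕ) (b : SG hσ 0) (i : Option K) :
    ((cs hσ k b : SG hσ k) : (R σ k)ˣ) * pe σ (cc σ x) (bb σ x) k i *
      ((cs hσ k b : SG hσ k) : (R σ k)ˣ)⁻¹ = pe σ (cc σ x) (bb σ x) k (ee hσ hx b i) := by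
  have hx0 : x ≠ 0 := Fac281.x_ne_zero hx
  have hb := val_const hσ b
  obtain ⟨s1, s2⟩ := ef_spec hσ hx b i
  apply Units.ext
  rw [Units.val_mul, Units.val_mul, cs_val, cs_inv_val, pe_val' hx0 (pmem hσ hx),
    pe_val' hx0 (pmem hσ hx)]
  set u := c ((b : (R σ 0)ˣ) : R σ 0) 0 with hu
  have e1 : ((⟨C u, 0⟩ : Sk σ) * pil σ (cc σ x) (bb σ x) i) * (⟨C (σ u), 0⟩ : Sk σ) =
      pil σ (cc σ x) (bb σ x) (ee hσ hx b i) := by
    have hC : (C u * C (σ u) : K[X]) = 1 := by rw [← C_mul, hb, C_1]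
    change _ = pil σ (cc σ x) (bb σ x) (ef hσ hx b i)
    apply Sk.ext
    · simp only [pil, mul_re, map_zero, mul_zero, add_zero, s1]
      linear_combination (X + C (cc σ x i)) * hC
    · simp only [pil, mul_im, mul_zero, zero_add, sg_C, hσ, s2, C_mul, C_pow, zero_mul, add_zero]
      ring
  rw [← e1, Exp820.tr_mul hσ, Exp820.tr_mul hσ, tr_mono, tr_mono]

/-- **gap of the steps at level `k + 1`** -/
theorem mz_quot [Fintype K] (h2 : (2 : K) ≠ 0) {Q : ℕ} (hc : Fintype.card K = Q ^ 2)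
    (hσq : ∀ a, σ a = a ^ Q) (hQ2 : 2 ≤ Q) {r : ℝ} (hr : 0 < r) (hrq : r ^ 3 ≤ Q) (k : ℕ)
    [Fintype (U hσ (k + 1) 1)] (i0 : Option K) :
    MZ (fun i => TPgrp547.alP hσ h2 (k + 1) hx i * (TPgrp547.alP hσ h2 (k + 1) hx i0)⁻¹)
      ((314 / r) * ((Q : ℝ) ^ 2 + 1) ^ 2) := by
  classical
  have hx0 : x ≠ 0 := Fac281.x_ne_zero hx
  have hm := pmem hσ hx
  have hgap := relGap_all hσ hc hσq hQ2 h2 hx hx0 hm (ccbb_inj hσ hx)
    (fun a b => ccbb_sur hσ hx a b) i0 hr hrq k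
  refine MZ.of_complex fun h hh => ?_
  refine passage (SG hσ (k + 1)) (U hσ (k + 1) 1) (trSG hσ (Nat.zero_le (k + 1))) (cs hσ (k + 1))
    (tr_cs hσ (k + 1)) (fun g => trSG_eq_one_iff hσ (Nat.zero_le (k + 1)) g) (fun g hg => hg.1)
    (cs_comm hσ (k + 1)) (pe σ (cc σ x) (bb σ x) (k + 1))
    (fun i => kap (k + 1) (cc σ x i) (cc_ne hσ hx i)) i0 (tk hσ hx0 hm i0 (k + 1))
    (fun i => rfl) (fun g hg => ?_) (ee hσ hx) (he hσ hx (k + 1)) (fun b i => ?_) (fun i => ?_)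
    _ (fun i => alP_quot h2 hσ (k + 1) hx i i0) hgap h hh
  · exact conj_mem hσ (fun m => tr_central hσ (sg_XX (x := x) hσ) m)
      (pe_mul_conj hσ hx0 hm (k + 1) i0) (pe_conj_mul hσ hx0 hm (k + 1) i0) hg
  · apply Units.ext
    change (mono 0 (cc σ x (ef hσ hx b i)) : R σ (k + 1)) = mono 0 (cc σ x i)
    rw [(ef_spec hσ hx b i).1]
  · apply Units.ext
    rw [cs_val]
    change mono 0 (c (SkewGrp877.tr σ (Nat.zero_le (k + 1))
      ((((pe σ (cc σ x) (bb σ x) (k + 1) i0)⁻¹ * pe σ (cc σ x) (bb σ x) (k + 1) i :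
        (R σ (k + 1))ˣ)) : R σ (k + 1))) 0) = (mono 0 (cc σ x i0)⁻¹ : R σ (k + 1)) *
          mono 0 (cc σ x i)
    rw [mono_zero_mul, c_tr _ _ (le_refl 0), Units.val_mul, c_mul_zero]
    have e : ∀ j, c ((pe σ (cc σ x) (bb σ x) (k + 1) j : (R σ (k + 1))ˣ) : R σ (k + 1)) 0 =
        cc σ x j := by
      intro j
      rw [pe_val hx0 hm, pev, c_mk _ (Nat.zero_le _), if_pos rfl]
    have e' : c (((pe σ (cc σ x) (bb σ x) (k + 1) i0)⁻¹ : (R σ (k + 1))ˣ) : R σ (k + 1)) 0 =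
        (cc σ x i0)⁻¹ := by
      refine eq_inv_of_mul_eq_one_left ?_
      rw [← e i0, ← c_mul_zero, Units.inv_mul, c_one (Nat.zero_le _), if_pos rfl]
    rw [e, e']

end place

/-! ### the leaf over `Par` -/

section leaf

open Filter Crest.Agent.R289.ObjDef233 Crest.Agent.R289.Obj289233

theorem mz_triv {P ι : Type} [Group P] [Fintype P] [Fintype ι] (h : ∀ g : P, g = 1) (s : ι → P)
    {μ : ℝ} (_hμ : 0 ≤ μ) : MZ s μ := by
  intro f hf
  have hu : (Finset.univ : Finset P) = {1} := by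
    ext g
    simp [h g]
  rw [hu, Finset.sum_singleton] at hf
  have hf' : ∀ v, f v = 0 := fun v => by rw [h v, hf]
  simp [hf']

/-- gap of the steps `alP` at all even levels -/
theorem mz_steps {K : Type} [Field K] [Fintype K] {σ : K →+* K} (hσ : ∀ x, σ (σ x) = x) {x : K}
    (hx : σ x ≠ x) (h2 : (2 : K) ≠ 0) {Q : ℕ} (hc : Fintype.card K = Q ^ 2)
    (hσq : ∀ a, σ a = a ^ Q) (hQ2 : 2 ≤ Q) {r : ℝ} (hr : 0 < r) (hrq : r ^ 3 ≤ Q) (k : ℕ)
    [Fintype (U hσ (2 * k) 1)] :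
    MZ (fun i => TPgrp547.alP hσ h2 (2 * k) hx i) ((314 / r) * ((Q : ℝ) ^ 2 + 1) ^ 2) := by
  have hμ : 0 ≤ (314 / r) * ((Q : ℝ) ^ 2 + 1) ^ 2 := by positivity
  rcases Nat.eq_zero_or_pos k with hk | hk
  · subst hk
    refine mz_triv (fun g => Subtype.ext (U_top hσ g.2)) _ hμ
  · obtain ⟨n, hn⟩ : ∃ n, 2 * k = n + 1 := ⟨2 * k - 1, by omega⟩
    revert hn
    generalize 2 * k = m at *
    rintro rfl
    have h := (mz_quot hσ hx h2 hc hσq hQ2 hr hrq n none).mul_right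
      (TPgrp547.alP hσ h2 (n + 1) hx none)
    simpa only [inv_mul_cancel_right] using h

theorem expOK (D : Par) (hQ2 : 2 ≤ D.q) {r : ℝ} (hr : 0 < r) (hrq : r ^ 3 ≤ D.q) {lam : ℝ}
    (hlam : lam ^ 2 = 314 / r) : ExpOK D lam := by
  have hcard : ((Fintype.card (Option D.K) : ℝ)) ^ 2 * lam ^ 2 =
      (314 / r) * ((D.q : ℝ) ^ 2 + 1) ^ 2 := by
    rw [Fintype.card_option, D.card, hlam]
    push_cast
    ring
  have hμ : 0 ≤ (314 / r) * ((D.q : ℝ) ^ 2 + 1) ^ 2 := by positivity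
  have key : ∀ (x : D.K) (hx : D.σ x ≠ x) (k : ℕ),
      TP846.Exp (fun z => (TPgrp547.alP D.hσ D.two (2 * k) hx z : D.P k)) lam ∧
        TP846.Exp (fun z => (TPgrp547.alP D.hσ D.two (2 * k) hx z : D.P k)⁻¹) lam := by
    intro x hx k
    have h1 := mz_steps D.hσ hx D.two D.card D.frob hQ2 hr hrq k
    have h2 := MZ.inv hμ h1
    rw [← hcard] at h1 h2
    exact ⟨fun g _ => MZ.exp h1 g, fun g _ => MZ.exp h2 g⟩
  intro k
  exact ⟨(key D.x D.hx k).1, (key D.x D.hx k).2, (key D.y D.hy k).1, (key D.y D.hy k).2⟩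

/-- **the leaf `hexp` of `obj289_of`** -/
theorem ev_expOK (eps : ℝ) (heps : 0 < eps) : ∀ᶠ q : ℕ in atTop, ∀ D : Par, D.q = q →
    ∃ lam : ℝ, 0 ≤ lam ∧ lam ≤ eps ∧ ExpOK D lam := by
  filter_upwards [Params233.eventually_small 314 (1 / 3) (eps ^ 2) (by norm_num) (by positivity),
    eventually_ge_atTop 2] with q hq h2 D hD
  subst hD
  have hq0 : (0 : ℝ) < D.q := by
    have : 0 < D.q := by omega
    exact_mod_cast this
  set r : ℝ := (D.q : ℝ) ^ (1 / 3 : ℝ) with hr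
  have hr0 : 0 < r := Real.rpow_pos_of_pos hq0 _
  have hr3 : r ^ 3 = D.q := by
    rw [hr, ← Real.rpow_natCast, ← Real.rpow_mul hq0.le]
    norm_num
  have hle : 314 / r ≤ eps ^ 2 := by
    rw [Real.rpow_neg hq0.le, ← hr, ← div_eq_mul_inv] at hq
    exact hq
  refine ⟨Real.sqrt (314 / r), Real.sqrt_nonneg _, ?_, ?_⟩
  · rw [show eps = Real.sqrt (eps ^ 2) from (Real.sqrt_sq heps.le).symm]
    exact Real.sqrt_le_sqrt hle
  · exact expOK D h2 hr0 hr3.le (Real.sq_sqrt (by positivity))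

end leaf

end Crest.Agent.R289.ExpPlug233
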