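import Mathlib

/-!
# B1, small levels: the number of conjugate characters at levels 2 and 3 (row 289, block B)

`K` finite field with an involution `σ`, `2 ≠ 0`.  `Fx σ` = fixed elements, `Sk σ` = skew elements.
* level 2 (Heisenberg): a character of `Fx × Sk` that is non-trivial on `0 × Sk` has at least
  `#Fx` conjugates under `(a, d) ↦ (a, d + 2 e a)`, `e` skew;
* level 3: a character of `Sk × K` non-trivial on `0 × K` has at least
  `#Fx * #{u² : u σ(u) = 1}` conjugates under `(d, c) ↦ (d, u² c - 2 e d)`, `e ∈ K`, `u σ(u) = 1`.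
-/

set_option autoImplicit false

namespace Crest.Agent.R289.ExpSmall718

variable {K : Type*} [Field K]

/-- fixed elements. -/
def Fx (σ : K →+* K) : AddSubgroup K where
  carrier := {a | σ a = a}
  zero_mem' := map_zero σ
  add_mem' := by
    intro a b ha hb
    simp only [Set.mem_ofPred_eq] at *
    rw [map_add, ha, hb]
  neg_mem' := by
    intro a ha
    simp only [Set.mem_ofPred_eq] at *
    rw [map_neg, ha]

/-- skew elements. -/
def Sk (σ : K →+* K) : AddSubgroup K where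
  carrier := {a | σ a = -a}
  zero_mem' := by simp
  add_mem' := by
    intro a b ha hb
    simp only [Set.mem_ofPred_eq] at *
    rw [map_add, ha, hb]; ring
  neg_mem' := by
    intro a ha
    simp only [Set.mem_ofPred_eq] at *
    rw [map_neg, ha]

lemma mem_Fx {σ : K →+* K} {a : K} : a ∈ Fx σ ↔ σ a = a := Iff.rfl
lemma mem_Sk {σ : K →+* K} {a : K} : a ∈ Sk σ ↔ σ a = -a := Iff.rfl

lemma Fx_mul_Sk {σ : K →+* K} {a b : K} (ha : a ∈ Fx σ) (hb : b ∈ Sk σ) : a * b ∈ Sk σ := by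
  rw [mem_Fx] at ha
  rw [mem_Sk] at *
  rw [map_mul, ha, hb]; ring

lemma Fx_mul {σ : K →+* K} {a b : K} (ha : a ∈ Fx σ) (hb : b ∈ Fx σ) : a * b ∈ Fx σ := by
  rw [mem_Fx] at *
  rw [map_mul, ha, hb]

lemma Fx_inv {σ : K →+* K} {a : K} (ha : a ∈ Fx σ) : a⁻¹ ∈ Fx σ := by
  rw [mem_Fx] at *
  rw [map_inv₀, ha]

lemma two_mem_Fx (σ : K →+* K) : (2 : K) ∈ Fx σ := by
  rw [mem_Fx]; exact map_ofNat σ 2

/-- the conjugation at level 2: `(a, d) ↦ (a, d + 2 e a)`. -/
def cj2 (σ : K →+* K) (e : Sk σ) (b : Fx σ × Sk σ) : Fx σ × Sk σ :=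
  (b.1, b.2 + ⟨2 * (b.1 : K) * (e : K), Fx_mul_Sk (Fx_mul (two_mem_Fx σ) b.1.2) e.2⟩)

/-- the conjugation at level 3: `(d, c) ↦ (d, u² c - 2 e d)`. -/
def cj3 (σ : K →+* K) (u e : K) (b : Sk σ × K) : Sk σ × K :=
  (b.1, u ^ 2 * b.2 - 2 * e * (b.1 : K))

/-- level 2. -/
theorem orb2 [Fintype K] (σ : K →+* K) (h2 : (2 : K) ≠ 0)
    (ψ : AddChar (Fx σ × Sk σ) ℂ) (hψ : ∃ c : Sk σ, ψ (0, c) ≠ 1) :
    ∃ Ψ : Finset (Fx σ × Sk σ → ℂ), Nat.card (Fx σ) ≤ Ψ.card ∧
      ∀ χ ∈ Ψ, ∃ e : Sk σ, ∀ b, χ b = ψ (cj2 σ e b) := by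
  classical
  obtain ⟨c, hc⟩ := hψ
  have : Fintype (Fx σ) := Fintype.ofFinite _
  let E : Fx σ → Sk σ := fun r => ⟨(r : K) * (c : K), Fx_mul_Sk r.2 c.2⟩
  let X : Fx σ → (Fx σ × Sk σ → ℂ) := fun r b => ψ (cj2 σ (E r) b)
  have hinj : Function.Injective X := by
    intro r s hrs
    by_contra hne
    have hd : ((r : K) - s) ≠ 0 := by
      intro h
      exact hne (Subtype.ext (sub_eq_zero.mp h))
    have hdm : ((r : K) - s) ∈ Fx σ := (Fx σ).sub_mem r.2 s.2
    let a : Fx σ := ⟨(2 * ((r : K) - s))⁻¹, Fx_inv (Fx_mul (two_mem_Fx σ) hdm)⟩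
    have h1 := congrFun hrs (a, 0)
    change ψ (cj2 σ (E r) (a, 0)) = ψ (cj2 σ (E s) (a, 0)) at h1
    have h3 : cj2 σ (E r) (a, 0) = (0, c) + cj2 σ (E s) (a, 0) := by
      unfold cj2
      refine Prod.ext ?_ ?_
      · simp
      · apply Subtype.ext
        simp only [E, a, AddSubgroup.coe_add, Prod.snd_add, zero_add]
        field_simp
        ring
    rw [h3, AddChar.map_add_eq_mul] at h1
    have h4 : ψ (cj2 σ (E s) (a, 0)) ≠ 0 := by
      intro h0
      have h5 : ψ (cj2 σ (E s) (a, 0) + -(cj2 σ (E s) (a, 0))) = 1 := by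
        rw [add_neg_cancel]; exact AddChar.map_zero_eq_one ψ
      rw [AddChar.map_add_eq_mul, h0, zero_mul] at h5
      exact zero_ne_one h5
    exact hc (mul_right_cancel₀ h4 (by rw [h1, one_mul]))
  refine ⟨Finset.univ.image X, ?_, ?_⟩
  · rw [Finset.card_image_of_injective _ hinj, Finset.card_univ, Nat.card_eq_fintype_card]
  · intro χ hχ
    obtain ⟨r, -, rfl⟩ := Finset.mem_image.mp hχ
    exact ⟨E r, fun b => rfl⟩

/-- level 3. -/
theorem orb3 [Fintype K] (σ : K →+* K) (h2 : (2 : K) ≠ 0) (ξ : K) (hξ : ξ ∈ Sk σ) (hξ0 : ξ ≠ 0)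
    (ψ : AddChar (Sk σ × K) ℂ) (hψ : ∃ c : K, ψ (0, c) ≠ 1) :
    ∃ Ψ : Finset (Sk σ × K → ℂ),
      Nat.card (Fx σ) * Set.ncard ((fun u : K => u ^ 2) '' {u | u * σ u = 1}) ≤ Ψ.card ∧
      ∀ χ ∈ Ψ, ∃ u e : K, u * σ u = 1 ∧ ∀ b, χ b = ψ (cj3 σ u e b) := by
  classical
  obtain ⟨c, hc⟩ := hψ
  have : Fintype (Fx σ) := Fintype.ofFinite _
  set Q : Finset K := Finset.univ.filter (fun v => v ∈ (fun u : K => u ^ 2) '' {u | u * σ u = 1})
    with hQ
  have hQc : Set.ncard ((fun u : K => u ^ 2) '' {u | u * σ u = 1}) = Q.card := by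
    rw [← Set.ncard_coe_finset]
    congr 1
    ext v
    simp [hQ]
  let e1 : K := -(c * (2 * ξ)⁻¹)
  let X : Fx σ × K → (Sk σ × K → ℂ) := fun p b =>
    ψ (b.1, p.2 * b.2 - 2 * ((p.1 : K) * e1) * (b.1 : K))
  have hψ0 : ∀ z, ψ z ≠ 0 := by
    intro z h0
    have h5 : ψ (z + -z) = 1 := by
      rw [add_neg_cancel]; exact AddChar.map_zero_eq_one ψ
    rw [AddChar.map_add_eq_mul, h0, zero_mul] at h5
    exact zero_ne_one h5
  have hinj : Function.Injective X := by
    rintro ⟨r, v⟩ ⟨s, w⟩ hrs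
    have hvw : v = w := by
      by_contra hne
      have hd : v - w ≠ 0 := sub_ne_zero.mpr hne
      have h1 := congrFun hrs (0, c * (v - w)⁻¹)
      simp only [X] at h1
      have h3 : ((0 : Sk σ), v * (c * (v - w)⁻¹) - 2 * ((r : K) * e1) * ((0 : Sk σ) : K)) =
          (0, c) + (0, w * (c * (v - w)⁻¹) - 2 * ((s : K) * e1) * ((0 : Sk σ) : K)) := by
        refine Prod.ext ?_ ?_
        · simp
        · simp only [ZeroMemClass.coe_zero, mul_zero, sub_zero, Prod.snd_add]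
          field_simp
          ring
      rw [h3, AddChar.map_add_eq_mul] at h1
      exact hc (mul_right_cancel₀ (hψ0 _) (by rw [h1, one_mul]))
    subst hvw
    refine Prod.ext ?_ rfl
    by_contra hne
    have hd : ((r : K) - s) ≠ 0 := by
      intro h
      exact hne (Subtype.ext (sub_eq_zero.mp h))
    have hdm : ((r : K) - s) ∈ Fx σ := (Fx σ).sub_mem r.2 s.2
    let a : Sk σ := ⟨((r : K) - s)⁻¹ * ξ, Fx_mul_Sk (Fx_inv hdm) hξ⟩
    have h1 := congrFun hrs (a, 0)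
    simp only [X] at h1
    have h3 : ((a : Sk σ), v * (0 : K) - 2 * ((r : K) * e1) * (a : K)) =
        (0, c) + (a, v * (0 : K) - 2 * ((s : K) * e1) * (a : K)) := by
      refine Prod.ext ?_ ?_
      · simp
      · simp only [mul_zero, zero_sub, Prod.snd_add, a, e1]
        field_simp
        ring
    rw [h3, AddChar.map_add_eq_mul] at h1
    exact hc (mul_right_cancel₀ (hψ0 _) (by rw [h1, one_mul]))
  refine ⟨(Finset.univ ×ˢ Q).image X, ?_, ?_⟩
  · rw [Finset.card_image_of_injective _ hinj, Finset.card_product, Finset.card_univ,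
      Nat.card_eq_fintype_card, hQc]
  · intro χ hχ
    obtain ⟨⟨r, v⟩, hrv, rfl⟩ := Finset.mem_image.mp hχ
    have hv : v ∈ Q := (Finset.mem_product.mp hrv).2
    obtain ⟨u, hu, rfl⟩ := (Finset.mem_filter.mp hv).2
    exact ⟨u, (r : K) * e1, hu, fun b => rfl⟩

/-- at least half of the norm-one elements survive squaring. -/
theorem ncard_sq [Finite K] (S : Set K) :
    S.ncard ≤ 2 * Set.ncard ((fun u : K => u ^ 2) '' S) := by
  classical
  have hf : S.Finite := Set.toFinite S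
  set T := hf.toFinset with hT
  have h1 : S.ncard = T.card := by rw [Set.ncard_eq_toFinset_card S hf]
  have h2 : Set.ncard ((fun u : K => u ^ 2) '' S) = (T.image (fun u : K => u ^ 2)).card := by
    rw [← Set.ncard_coe_finset]
    congr 1
    ext v
    simp [hT]
  rw [h1, h2]
  refine Finset.card_le_mul_card_image T 2 ?_
  intro v hv
  obtain ⟨u, hu, rfl⟩ := Finset.mem_image.mp hv
  have : T.filter (fun x => x ^ 2 = u ^ 2) ⊆ {u, -u} := by
    intro x hx
    have hx2 := (Finset.mem_filter.mp hx).2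
    rcases sq_eq_sq_iff_eq_or_eq_neg.mp hx2 with h | h
    · simp [h]
    · simp [h]
  exact (Finset.card_le_card this).trans Finset.card_le_two

end Crest.Agent.R289.ExpSmall718
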