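import Crest.Agent.R289.OrbitDim_962

/-!
# B1d: the norm-one group of truncated skew power series and its orbit bound (row 289, block B)

`K` a field with an involution `σ`; `R σ k = K{τ}/τ^(k+1)`, `τ x = σ x τ` (truncated skew power
series, coefficients `c f n`, `n ≤ k`); `conj` = the anti-involution `τ ↦ -τ`, `x ↦ σ x`;
`SG = {u : u * conj u = 1}`; `U i = {u ∈ SG : u = 1 mod τ^i}`.

* `lead_mem_iff`: leading coefficients of `U i`: all of `K` (`i` odd), `σ x = -x` (`i` even);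
* `comm_eq`: `h n h⁻¹ = n (1 + d τ^k)` for `h ∈ U i`, `n ∈ U (k-i)`;
* `stab_bound`: `q^((k-1)/2) |S| ≤ |U 1|` for the stabiliser `S` of a character of
  `U (k/2+1)` which is not trivial on `U k`;
* `dim_bound`: a nonzero left-stable space of functions without `U k`-fixed vectors has
  dimension at least `q^((k-1)/2)`.
-/

namespace Crest.Agent.R289.SkewGrp877

open Finset

variable {K : Type*} [Field K]

/-- truncated skew power series. -/
def R (_σ : K →+* K) (k : ℕ) : Type _ := Fin (k + 1) → K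

section ring

variable {σ : K →+* K} {k : ℕ}

instance : AddCommGroup (R σ k) := inferInstanceAs (AddCommGroup (Fin (k + 1) → K))
instance [Finite K] : Finite (R σ k) := inferInstanceAs (Finite (Fin (k + 1) → K))

/-- `n`-th coefficient (zero above `k`). -/
def c (f : R σ k) (n : ℕ) : K := if h : n < k + 1 then f ⟨n, h⟩ else 0

/-- the element with given coefficients. -/
def mk (F : ℕ → K) : R σ k := fun i => F i

lemma c_mk (F : ℕ → K) {n : ℕ} (hn : n ≤ k) : c (mk F : R σ k) n = F n := by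
  unfold c mk; rw [dif_pos (Nat.lt_succ_of_le hn)]

lemma c_gt (f : R σ k) {n : ℕ} (hn : k < n) : c f n = 0 := by
  unfold c; rw [dif_neg (by omega)]

lemma ext' {f g : R σ k} (h : ∀ n ≤ k, c f n = c g n) : f = g := by
  funext i
  have := h i (by omega)
  unfold c at this
  rw [dif_pos i.2, dif_pos i.2] at this
  exact this

@[simp] lemma c_add (f g : R σ k) (n : ℕ) : c (f + g) n = c f n + c g n := by
  unfold c; split_ifs
  · rfl
  · simp
@[simp] lemma c_zero (n : ℕ) : c (0 : R σ k) n = 0 := by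
  unfold c; split_ifs <;> rfl
@[simp] lemma c_neg (f : R σ k) (n : ℕ) : c (-f) n = - c f n := by
  unfold c; split_ifs
  · rfl
  · simp
@[simp] lemma c_sub (f g : R σ k) (n : ℕ) : c (f - g) n = c f n - c g n := by
  rw [sub_eq_add_neg, c_add, c_neg, sub_eq_add_neg]

instance : One (R σ k) := ⟨mk fun n => if n = 0 then 1 else 0⟩
instance : Mul (R σ k) :=
  ⟨fun f g => mk fun n => ∑ p ∈ antidiagonal n, c f p.1 * (σ ^ p.1) (c g p.2)⟩

lemma c_one {n : ℕ} (hn : n ≤ k) : c (1 : R σ k) n = if n = 0 then 1 else 0 := c_mk _ hn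

lemma c_mul (f g : R σ k) {n : ℕ} (hn : n ≤ k) :
    c (f * g) n = ∑ p ∈ antidiagonal n, c f p.1 * (σ ^ p.1) (c g p.2) := c_mk _ hn

lemma spow_spow (m n : ℕ) (x : K) : (σ ^ m) ((σ ^ n) x) = (σ ^ (m + n)) x := by
  rw [pow_add]; rfl

private lemma mul_assoc' (f g h : R σ k) : f * g * h = f * (g * h) := by
  refine ext' fun n hn => ?_
  rw [c_mul _ _ hn, c_mul _ _ hn]
  have h1 : ∀ p ∈ antidiagonal n, c (f * g) p.1 * (σ ^ p.1) (c h p.2) =
      ∑ r ∈ antidiagonal p.1, c f r.1 * (σ ^ r.1) (c g r.2) * (σ ^ p.1) (c h p.2) := by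
    intro p hp
    rw [HasAntidiagonal.mem_antidiagonal] at hp
    rw [c_mul _ _ (by omega), Finset.sum_mul]
  have h2 : ∀ p ∈ antidiagonal n, c f p.1 * (σ ^ p.1) (c (g * h) p.2) =
      ∑ r ∈ antidiagonal p.2, c f p.1 * ((σ ^ p.1) (c g r.1) * (σ ^ (p.1 + r.1)) (c h r.2)) := by
    intro p hp
    rw [HasAntidiagonal.mem_antidiagonal] at hp
    rw [c_mul _ _ (by omega), map_sum, Finset.mul_sum]
    refine Finset.sum_congr rfl fun r _ => ?_
    rw [map_mul, spow_spow]
  rw [Finset.sum_congr rfl h1, Finset.sum_congr rfl h2]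
  simp only [Finset.sum_sigma']
  apply Finset.sum_nbij' (fun ⟨⟨_i, j⟩, ⟨k, l⟩⟩ ↦ ⟨(k, l + j), (l, j)⟩)
    (fun ⟨⟨i, _j⟩, ⟨k, l⟩⟩ ↦ ⟨(i + k, l), (i, k)⟩)
  · rintro ⟨⟨i, j⟩, ⟨a, b⟩⟩ hx
    simp only [mem_sigma, HasAntidiagonal.mem_antidiagonal] at hx ⊢
    exact ⟨by omega, trivial⟩
  · rintro ⟨⟨i, j⟩, ⟨a, b⟩⟩ hx
    simp only [mem_sigma, HasAntidiagonal.mem_antidiagonal] at hx ⊢
    exact ⟨by omega, trivial⟩
  · rintro ⟨⟨i, j⟩, ⟨a, b⟩⟩ hx
    simp only [mem_sigma, HasAntidiagonal.mem_antidiagonal] at hx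
    obtain ⟨h1, rfl⟩ := hx
    rfl
  · rintro ⟨⟨i, j⟩, ⟨a, b⟩⟩ hx
    simp only [mem_sigma, HasAntidiagonal.mem_antidiagonal] at hx
    obtain ⟨h1, rfl⟩ := hx
    rfl
  · rintro ⟨⟨i, j⟩, ⟨a, b⟩⟩ hx
    simp only [mem_sigma, HasAntidiagonal.mem_antidiagonal] at hx
    obtain ⟨h1, rfl⟩ := hx
    simp only [mul_assoc]

private lemma one_mul' (f : R σ k) : 1 * f = f := by
  refine ext' fun n hn => ?_
  rw [c_mul _ _ hn, Finset.sum_eq_single (0, n)]
  · rw [c_one (Nat.zero_le k), if_pos rfl, pow_zero, one_mul]; rfl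
  · rintro ⟨a, b⟩ hp hne
    rw [HasAntidiagonal.mem_antidiagonal] at hp
    have ha : a ≠ 0 := by
      rintro rfl
      exact hne (by simp at hp; rw [hp])
    simp only
    rw [c_one (by simp at hp; omega), if_neg ha, zero_mul]
  · intro h; exact absurd (HasAntidiagonal.mem_antidiagonal.mpr (Nat.zero_add n)) h

private lemma mul_one' (f : R σ k) : f * 1 = f := by
  refine ext' fun n hn => ?_
  rw [c_mul _ _ hn, Finset.sum_eq_single (n, 0)]
  · rw [c_one (Nat.zero_le k), if_pos rfl, map_one, mul_one]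
  · rintro ⟨a, b⟩ hp hne
    rw [HasAntidiagonal.mem_antidiagonal] at hp
    have hb : b ≠ 0 := by
      rintro rfl
      exact hne (by simp at hp; rw [hp])
    simp only
    rw [c_one (by simp at hp; omega), if_neg hb, map_zero, mul_zero]
  · intro h; exact absurd (HasAntidiagonal.mem_antidiagonal.mpr (Nat.add_zero n)) h

private lemma left_distrib' (f g h : R σ k) : f * (g + h) = f * g + f * h := by
  refine ext' fun n hn => ?_
  rw [c_add, c_mul _ _ hn, c_mul _ _ hn, c_mul _ _ hn, ← Finset.sum_add_distrib]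
  refine Finset.sum_congr rfl fun p _ => ?_
  rw [c_add, map_add, mul_add]

private lemma right_distrib' (f g h : R σ k) : (f + g) * h = f * h + g * h := by
  refine ext' fun n hn => ?_
  rw [c_add, c_mul _ _ hn, c_mul _ _ hn, c_mul _ _ hn, ← Finset.sum_add_distrib]
  refine Finset.sum_congr rfl fun p _ => ?_
  rw [c_add, add_mul]

instance instRing : Ring (R σ k) where
  __ := (inferInstance : AddCommGroup (R σ k))
  mul_assoc := mul_assoc'
  one_mul := one_mul'
  mul_one := mul_one'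
  left_distrib := left_distrib'
  right_distrib := right_distrib'
  zero_mul f := by
    have := right_distrib' (0 : R σ k) 0 f
    rw [add_zero] at this
    exact left_eq_add.mp this
  mul_zero f := by
    have := left_distrib' f (0 : R σ k) 0
    rw [add_zero] at this
    exact left_eq_add.mp this

/-- `x ∈ J i`: the coefficients below `i` vanish. -/
def J (i : ℕ) (x : R σ k) : Prop := ∀ n < i, c x n = 0

lemma J_zero (x : R σ k) : J 0 x := fun _ h => absurd h (Nat.not_lt_zero _)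
lemma J.mono {i j : ℕ} {x : R σ k} (h : J i x) (hij : j ≤ i) : J j x :=
  fun n hn => h n (by omega)
lemma J.add {i : ℕ} {x y : R σ k} (hx : J i x) (hy : J i y) : J i (x + y) := fun n hn => by
  rw [c_add, hx n hn, hy n hn, add_zero]
lemma J.neg {i : ℕ} {x : R σ k} (hx : J i x) : J i (-x) := fun n hn => by
  rw [c_neg, hx n hn, neg_zero]
lemma J.sub {i : ℕ} {x y : R σ k} (hx : J i x) (hy : J i y) : J i (x - y) := by
  rw [sub_eq_add_neg]; exact hx.add hy.neg

lemma J.mul {i j : ℕ} {x y : R σ k} (hx : J i x) (hy : J j y) : J (i + j) (x * y) := by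
  intro n hn
  by_cases hk : n ≤ k
  · rw [c_mul _ _ hk]
    refine Finset.sum_eq_zero fun p hp => ?_
    rw [HasAntidiagonal.mem_antidiagonal] at hp
    by_cases h : p.1 < i
    · rw [hx _ h, zero_mul]
    · rw [hy _ (by omega), map_zero, mul_zero]
  · exact c_gt _ (by omega)

lemma c_mul_lead {i j : ℕ} {x y : R σ k} (hx : J i x) (hy : J j y) (hij : i + j ≤ k) :
    c (x * y) (i + j) = c x i * (σ ^ i) (c y j) := by
  rw [c_mul _ _ hij, Finset.sum_eq_single (i, j)]
  · rintro ⟨a, b⟩ hp hne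
    rw [HasAntidiagonal.mem_antidiagonal] at hp
    simp only at hp ⊢
    by_cases h : a < i
    · rw [hx _ h, zero_mul]
    · have : b < j := by
        by_contra hb
        have h1 : a = i := by omega
        have h2 : b = j := by omega
        exact hne (by rw [h1, h2])
      rw [hy _ this, map_zero, mul_zero]
  · intro h
    exact absurd (HasAntidiagonal.mem_antidiagonal.mpr (show (i, j).1 + (i, j).2 = i + j from rfl)) h

lemma J.mul_left {i : ℕ} {x : R σ k} (y : R σ k) (hx : J i x) : J i (y * x) := by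
  have := (J_zero y).mul hx
  rwa [Nat.zero_add] at this
lemma J.mul_right {i : ℕ} {x : R σ k} (hx : J i x) (y : R σ k) : J i (x * y) := by
  have := hx.mul (J_zero y)
  rwa [Nat.add_zero] at this

lemma J.eq_zero {i : ℕ} {x : R σ k} (hx : J i x) (hi : k < i) : x = 0 :=
  ext' fun n hn => by rw [hx n (by omega), c_zero]

/-- `x τ^i`. -/
def mono (i : ℕ) (x : K) : R σ k := mk fun n => if n = i then x else 0

lemma c_mono (i : ℕ) (x : K) {n : ℕ} (hn : n ≤ k) :
    c (mono i x : R σ k) n = if n = i then x else 0 := c_mk _ hn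

lemma J_mono (i : ℕ) (x : K) : J i (mono i x : R σ k) := by
  intro n hn
  by_cases hk : n ≤ k
  · rw [c_mono i x hk, if_neg (by omega)]
  · exact c_gt _ (by omega)

lemma eq_mono {z : R σ k} (hz : J k z) : z = mono k (c z k) := by
  refine ext' fun n hn => ?_
  rw [c_mono _ _ hn]
  split_ifs with h
  · rw [h]
  · exact hz n (by omega)

lemma mono_add (x y : K) : (mono k (x + y) : R σ k) = mono k x + mono k y := by
  refine ext' fun n hn => ?_
  rw [c_add, c_mono _ _ hn, c_mono _ _ hn, c_mono _ _ hn]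
  split_ifs <;> simp

/-- the anti-involution `x ↦ σ x`, `τ ↦ -τ`. -/
def conj (f : R σ k) : R σ k := mk fun n => (-1) ^ n * (σ ^ (n + 1)) (c f n)

lemma c_conj (f : R σ k) {n : ℕ} (hn : n ≤ k) :
    c (conj f) n = (-1) ^ n * (σ ^ (n + 1)) (c f n) := c_mk _ hn

lemma conj_add (f g : R σ k) : conj (f + g) = conj f + conj g := by
  refine ext' fun n hn => ?_
  rw [c_add, c_conj _ hn, c_conj _ hn, c_conj _ hn, c_add, map_add, mul_add]

lemma conj_neg (f : R σ k) : conj (-f) = -conj f := by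
  refine ext' fun n hn => ?_
  rw [c_neg, c_conj _ hn, c_conj _ hn, c_neg, map_neg, mul_neg]

lemma conj_one : conj (1 : R σ k) = 1 := by
  refine ext' fun n hn => ?_
  rw [c_conj _ hn, c_one hn]
  split_ifs with h
  · rw [h]; simp
  · simp

end ring

section inv

variable {σ : K →+* K} {k : ℕ}

lemma spow_congr (hσ : ∀ x, σ (σ x) = x) {m n : ℕ} (h : m % 2 = n % 2) (x : K) :
    (σ ^ m) x = (σ ^ n) x := by
  have h2 : ∀ (a b : ℕ) (x : K), (σ ^ (2 * a + b)) x = (σ ^ b) x := by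
    intro a
    induction a with
    | zero => intro b x; rw [Nat.mul_zero, Nat.zero_add]
    | succ a ih =>
      intro b x
      have : 2 * (a + 1) + b = (2 * a + b) + 2 := by ring
      rw [this, ← spow_spow, ih]
      have h3 : (σ ^ 2) x = x := by
        rw [pow_two]; exact hσ x
      rw [h3]
  have hm := h2 (m / 2) (m % 2) x
  have hn := h2 (n / 2) (n % 2) x
  rw [Nat.div_add_mod] at hm hn
  rw [hm, hn, h]

lemma spow_even (hσ : ∀ x, σ (σ x) = x) {m : ℕ} (h : m % 2 = 0) (x : K) : (σ ^ m) x = x := by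
  rw [spow_congr hσ (n := 0) (by omega), pow_zero]; rfl
lemma spow_odd (hσ : ∀ x, σ (σ x) = x) {m : ℕ} (h : m % 2 = 1) (x : K) : (σ ^ m) x = σ x := by
  rw [spow_congr hσ (n := 1) (by omega), pow_one]

lemma conj_mul (hσ : ∀ x, σ (σ x) = x) (f g : R σ k) : conj (f * g) = conj g * conj f := by
  refine ext' fun n hn => ?_
  rw [c_conj _ hn, c_mul _ _ hn, c_mul _ _ hn, map_sum, Finset.mul_sum,
    ← Finset.Nat.sum_antidiagonal_swap]
  refine Finset.sum_congr rfl fun p hp => ?_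
  rw [HasAntidiagonal.mem_antidiagonal] at hp
  simp only [Prod.fst_swap, Prod.snd_swap]
  rw [c_conj _ (by omega), c_conj _ (by omega), map_mul, map_mul, spow_spow, spow_spow,
    map_pow, map_neg, map_one, ← hp,
    spow_congr hσ (m := p.1 + p.2 + 1 + p.2) (n := p.1 + 1) (by omega),
    show p.1 + (p.2 + 1) = p.1 + p.2 + 1 by ring, pow_add]
  ring

lemma conj_conj (hσ : ∀ x, σ (σ x) = x) (f : R σ k) : conj (conj f) = f := by
  refine ext' fun n hn => ?_
  rw [c_conj _ hn, c_conj _ hn, map_mul, spow_spow, map_pow, map_neg, map_one,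
    spow_even hσ (by omega), ← mul_assoc, ← mul_pow]
  simp

/-- the norm-one group. -/
def SG (hσ : ∀ x, σ (σ x) = x) (k : ℕ) : Subgroup (R σ k)ˣ where
  carrier := {u | (u : R σ k) * conj (u : R σ k) = 1}
  one_mem' := by
    change ((1 : (R σ k)ˣ) : R σ k) * conj ((1 : (R σ k)ˣ) : R σ k) = 1
    rw [Units.val_one, conj_one, mul_one]
  mul_mem' := by
    intro a b ha hb
    change (a : R σ k) * conj (a : R σ k) = 1 at ha
    change (b : R σ k) * conj (b : R σ k) = 1 at hb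
    change ((a * b : (R σ k)ˣ) : R σ k) * conj ((a * b : (R σ k)ˣ) : R σ k) = 1
    rw [Units.val_mul, conj_mul hσ, mul_assoc, ← mul_assoc (b : R σ k), hb, one_mul, ha]
  inv_mem' := by
    intro a ha
    change (a : R σ k) * conj (a : R σ k) = 1 at ha
    change ((a⁻¹ : (R σ k)ˣ) : R σ k) * conj ((a⁻¹ : (R σ k)ˣ) : R σ k) = 1
    have h : conj (a : R σ k) = ((a⁻¹ : (R σ k)ˣ) : R σ k) := by
      rw [← one_mul (conj (a : R σ k)), ← Units.inv_mul a, mul_assoc, ha, mul_one]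
    rw [← h, ← conj_mul hσ, h, Units.inv_mul, conj_one]

lemma mem_SG (hσ : ∀ x, σ (σ x) = x) {u : (R σ k)ˣ} :
    u ∈ SG hσ k ↔ (u : R σ k) * conj (u : R σ k) = 1 := Iff.rfl

/-- the filtration of the norm-one group. -/
def U (hσ : ∀ x, σ (σ x) = x) (k i : ℕ) : Subgroup (R σ k)ˣ where
  carrier := {u | u ∈ SG hσ k ∧ J i ((u : R σ k) - 1)}
  one_mem' := ⟨(SG hσ k).one_mem, fun n _ => by rw [Units.val_one, sub_self, c_zero]⟩
  mul_mem' := by
    rintro a b ⟨ha, ha'⟩ ⟨hb, hb'⟩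
    refine ⟨(SG hσ k).mul_mem ha hb, ?_⟩
    have : ((a * b : (R σ k)ˣ) : R σ k) - 1 = ((a : R σ k) - 1) * b + ((b : R σ k) - 1) := by
      rw [Units.val_mul]; noncomm_ring
    rw [this]
    exact (ha'.mul_right _).add hb'
  inv_mem' := by
    rintro a ⟨ha, ha'⟩
    refine ⟨(SG hσ k).inv_mem ha, ?_⟩
    have : ((a⁻¹ : (R σ k)ˣ) : R σ k) - 1 = -(((a⁻¹ : (R σ k)ˣ) : R σ k) * ((a : R σ k) - 1)) := by
      rw [mul_sub, Units.inv_mul]; noncomm_ring
    rw [this]
    exact (ha'.mul_left _).neg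

variable (hσ : ∀ x, σ (σ x) = x)
include hσ

lemma mem_U {i : ℕ} {u : (R σ k)ˣ} : u ∈ U hσ k i ↔ u ∈ SG hσ k ∧ J i ((u : R σ k) - 1) :=
  Iff.rfl

lemma U_zero : U hσ k 0 = SG hσ k := by
  ext u; rw [mem_U hσ]; exact ⟨fun h => h.1, fun h => ⟨h, J_zero _⟩⟩

lemma U_mono {i j : ℕ} (h : i ≤ j) : U hσ k j ≤ U hσ k i := fun _ hu => ⟨hu.1, hu.2.mono h⟩

lemma U_top {u : (R σ k)ˣ} (hu : u ∈ U hσ k (k + 1)) : u = 1 := by
  have := hu.2.eq_zero (Nat.lt_succ_self k)
  exact Units.ext (by rw [Units.val_one]; exact sub_eq_zero.mp this)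

lemma U_conj {i : ℕ} {g u : (R σ k)ˣ} (hg : g ∈ SG hσ k) (hu : u ∈ U hσ k i) :
    g * u * g⁻¹ ∈ U hσ k i := by
  refine ⟨(SG hσ k).mul_mem ((SG hσ k).mul_mem hg hu.1) ((SG hσ k).inv_mem hg), ?_⟩
  have : ((g * u * g⁻¹ : (R σ k)ˣ) : R σ k) - 1 =
      (g : R σ k) * ((u : R σ k) - 1) * ((g⁻¹ : (R σ k)ˣ) : R σ k) := by
    rw [Units.val_mul, Units.val_mul, mul_sub, sub_mul, mul_one, Units.mul_inv]
  rw [this]
  exact (hu.2.mul_left _).mul_right _

lemma U_comm {j : ℕ} (hj : k + 1 ≤ 2 * j) {u v : (R σ k)ˣ} (hu : u ∈ U hσ k j)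
    (hv : v ∈ U hσ k j) : u * v = v * u := by
  refine Units.ext ?_
  rw [Units.val_mul, Units.val_mul]
  have h1 := (hu.2.mul hv.2).eq_zero (by omega)
  have h2 := (hv.2.mul hu.2).eq_zero (by omega)
  have h3 : (u : R σ k) * v - v * u =
    ((u : R σ k) - 1) * ((v : R σ k) - 1) - ((v : R σ k) - 1) * ((u : R σ k) - 1) := by
    noncomm_ring
  rw [h1, h2, sub_zero] at h3
  exact sub_eq_zero.mp h3

/-- leading coefficients are additive. -/
lemma lead_mul {i : ℕ} (hi : 1 ≤ i) {u v : (R σ k)ˣ} (hu : u ∈ U hσ k i) (hv : v ∈ U hσ k i) :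
    c (((u * v : (R σ k)ˣ) : R σ k) - 1) i = c ((u : R σ k) - 1) i + c ((v : R σ k) - 1) i := by
  have h : ((u * v : (R σ k)ˣ) : R σ k) - 1 = ((u : R σ k) - 1) + ((v : R σ k) - 1) +
      ((u : R σ k) - 1) * ((v : R σ k) - 1) := by
    rw [Units.val_mul]; noncomm_ring
  rw [h, c_add, c_add, (hu.2.mul hv.2) i (by omega), add_zero]

end inv


section lead

variable {σ : K →+* K} {k : ℕ}

/-- leading coefficients allowed at level `i`. -/
def A (σ : K →+* K) (i : ℕ) : Set K := {x | i % 2 = 1 ∨ σ x = -x}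

lemma mem_A {i : ℕ} {x : K} : x ∈ A σ i ↔ (i % 2 = 1 ∨ σ x = -x) := Iff.rfl

lemma A_zero (i : ℕ) : (0 : K) ∈ A σ i := Or.inr (by rw [map_zero, neg_zero])

lemma A_add {i : ℕ} {x y : K} (hx : x ∈ A σ i) (hy : y ∈ A σ i) : x + y ∈ A σ i := by
  rcases hx with h | h
  · exact Or.inl h
  · rcases hy with h' | h'
    · exact Or.inl h'
    · exact Or.inr (by rw [map_add, h, h']; ring)

lemma A_smul {i : ℕ} {f x : K} (hf : σ f = f) (hx : x ∈ A σ i) : f * x ∈ A σ i := by
  rcases hx with h | h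
  · exact Or.inl h
  · exact Or.inr (by rw [map_mul, h, hf]; ring)

lemma J_conj {i : ℕ} {x : R σ k} (hx : J i x) : J i (conj x) := by
  intro n hn
  by_cases hk : n ≤ k
  · rw [c_conj _ hk, hx n hn, map_zero, mul_zero]
  · exact c_gt _ (by omega)

variable (hσ : ∀ x, σ (σ x) = x)
include hσ

lemma lead_mem {i : ℕ} (hi : 1 ≤ i) (hik : i ≤ k) {u : (R σ k)ˣ} (hu : u ∈ U hσ k i) :
    c ((u : R σ k) - 1) i ∈ A σ i := by
  by_cases hodd : i % 2 = 1
  · exact Or.inl hodd
  · right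
    obtain ⟨h1, h2⟩ := hu
    rw [mem_SG hσ] at h1
    set x : R σ k := (u : R σ k) - 1 with hx
    have hu1 : (u : R σ k) = 1 + x := by rw [hx]; noncomm_ring
    rw [hu1, conj_add, conj_one] at h1
    have h3 : x + conj x + x * conj x = 0 := by
      have : (1 + x) * (1 + conj x) = 1 + (x + conj x + x * conj x) := by noncomm_ring
      rw [this] at h1
      exact left_eq_add.mp h1.symm
    have h4 : c (x + conj x + x * conj x) i = 0 := by rw [h3, c_zero]
    rw [c_add, c_add, (h2.mul (J_conj h2)) i (by omega), add_zero, c_conj _ hik,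
      spow_odd hσ (by omega), Even.neg_one_pow (Nat.even_iff.mpr (by omega)), one_mul] at h4
    exact eq_neg_of_add_eq_zero_right h4

lemma exists_lead (h2 : (2 : K) ≠ 0) {i : ℕ} (hi : 1 ≤ i) (hik : i ≤ k) {x : K}
    (hx : x ∈ A σ i) : ∃ u ∈ U hσ k i, c ((u : R σ k) - 1) i = x := by
  set y : R σ k := mono i (x / 2) with hy
  have hJ : J i y := J_mono i _
  have hconj : conj y = -y := by
    refine ext' fun n hn => ?_
    rw [c_neg, c_conj _ hn, hy, c_mono _ _ hn]
    split_ifs with h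
    · subst h
      by_cases hodd : n % 2 = 1
      · rw [Odd.neg_one_pow (Nat.odd_iff.mpr hodd), spow_even hσ (by omega)]; ring
      · have h3 : σ x = -x := by
          rcases hx with h | h
          · exact absurd h hodd
          · exact h
        rw [Even.neg_one_pow (Nat.even_iff.mpr (by omega)), spow_odd hσ (by omega), map_div₀, h3,
          map_ofNat]; ring
    · simp
  have hnil : IsNilpotent y := by
    refine ⟨k + 1, ?_⟩
    have : ∀ n, J n (y ^ n) := by
      intro n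
      induction n with
      | zero => exact J_zero _
      | succ n ih => rw [pow_succ]; exact ih.mul (hJ.mono hi)
    exact (this (k + 1)).eq_zero (Nat.lt_succ_self k)
  obtain ⟨a, ha⟩ := hnil.isUnit_one_add
  obtain ⟨b, hb⟩ := hnil.isUnit_one_sub
  have hab : a * b = b * a := by
    refine Units.ext ?_
    rw [Units.val_mul, Units.val_mul, ha, hb]; noncomm_ring
  have hca : conj (a : R σ k) = b := by
    rw [ha, hb, conj_add, conj_one, hconj, sub_eq_add_neg]
  have hcb : conj (b : R σ k) = a := by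
    rw [ha, hb, sub_eq_add_neg, conj_add, conj_one, conj_neg, hconj, neg_neg]
  have hcb' : conj ((b⁻¹ : (R σ k)ˣ) : R σ k) = ((a⁻¹ : (R σ k)ˣ) : R σ k) := by
    have : conj ((b⁻¹ : (R σ k)ˣ) : R σ k) * (a : R σ k) = 1 := by
      rw [← hcb, ← conj_mul hσ, Units.mul_inv, conj_one]
    calc conj ((b⁻¹ : (R σ k)ˣ) : R σ k)
        = conj ((b⁻¹ : (R σ k)ˣ) : R σ k) * (a : R σ k) * ((a⁻¹ : (R σ k)ˣ) : R σ k) := by
          rw [mul_assoc, Units.mul_inv, mul_one]
      _ = _ := by rw [this, one_mul]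
  have hw : (((a * b⁻¹ : (R σ k)ˣ) : R σ k) - 1) =
      (y + y) + (((a * b⁻¹ : (R σ k)ˣ) : R σ k) - 1) * y := by
    have h3 : (((a * b⁻¹ : (R σ k)ˣ) : R σ k) - 1) * (b : R σ k) = y + y := by
      rw [sub_mul, one_mul, Units.val_mul, mul_assoc, Units.inv_mul, mul_one, ha, hb]
      noncomm_ring
    rw [hb] at h3
    rw [← h3]; noncomm_ring
  have hJw : J i (((a * b⁻¹ : (R σ k)ˣ) : R σ k) - 1) := by
    rw [hw]; exact (hJ.add hJ).add (hJ.mul_left _)
  refine ⟨a * b⁻¹, ⟨?_, hJw⟩, ?_⟩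
  · rw [mem_SG hσ, Units.val_mul, conj_mul hσ, hca, hcb', ← Units.val_mul, ← Units.val_mul,
      ← Units.val_mul]
    have : a * b⁻¹ * (a⁻¹ * b) = 1 := by
      have h5 : b⁻¹ * a⁻¹ = a⁻¹ * b⁻¹ := by rw [← mul_inv_rev, ← mul_inv_rev, hab]
      rw [mul_assoc, ← mul_assoc b⁻¹, h5, mul_assoc, inv_mul_cancel, mul_one, mul_inv_cancel]
    rw [this, Units.val_one]
  · rw [hw, c_add, c_add, (hJw.mul hJ) i (by omega), add_zero, hy, c_mono _ _ hik, if_pos rfl]
    field_simp
    ring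

/-- the leading coefficient homomorphism. -/
def leadHom {i : ℕ} (hi : 1 ≤ i) (S : Subgroup (R σ k)ˣ) (hS : S ≤ U hσ k i) :
    S →* Multiplicative K where
  toFun u := Multiplicative.ofAdd (c (((u : (R σ k)ˣ) : R σ k) - 1) i)
  map_one' := by simp
  map_mul' u v := by
    rw [← ofAdd_add]
    congr 1
    exact lead_mul hσ hi (hS u.2) (hS v.2)

lemma card_lead {i : ℕ} (hi : 1 ≤ i) (S : Subgroup (R σ k)ˣ)
    (hS : S ≤ U hσ k i) :
    Nat.card S = Nat.card {x : K | ∃ u ∈ S, c ((u : R σ k) - 1) i = x} *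
      Nat.card (S ⊓ U hσ k (i + 1) : Subgroup (R σ k)ˣ) := by
  set φ := leadHom hσ hi S hS with hφ
  have h1 := Subgroup.card_mul_index φ.ker
  rw [Subgroup.index_ker] at h1
  have h2 : Nat.card φ.ker = Nat.card (S ⊓ U hσ k (i + 1) : Subgroup (R σ k)ˣ) := by
    refine Nat.card_congr ⟨fun x => ⟨x.1.1, x.1.2, (hS x.1.2).1, ?_⟩,
      fun x => ⟨⟨x.1, x.2.1⟩, ?_⟩, fun x => rfl, fun x => rfl⟩
    · intro n hn
      by_cases h : n < i
      · exact (hS x.1.2).2 n h
      · have hni : n = i := by omega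
        rw [hni]
        have := x.2
        rw [MonoidHom.mem_ker] at this
        exact ofAdd_eq_one.mp this
    · rw [MonoidHom.mem_ker]
      exact ofAdd_eq_one.mpr (x.2.2.2 i (Nat.lt_succ_self i))
  have h3 : Nat.card φ.range = Nat.card {x : K | ∃ u ∈ S, c ((u : R σ k) - 1) i = x} := by
    refine Nat.card_congr ⟨fun x => ⟨Multiplicative.toAdd x.1, ?_⟩,
      fun x => ⟨Multiplicative.ofAdd x.1, ?_⟩, fun x => rfl, fun x => rfl⟩
    · obtain ⟨u, hu⟩ := x.2
      exact ⟨u.1, u.2, by rw [← hu]; rfl⟩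
    · obtain ⟨u, hu, hx⟩ := x.2
      exact ⟨⟨u, hu⟩, by rw [← hx]; rfl⟩
  rw [← h1, h2, h3, mul_comm]

lemma card_U (h2 : (2 : K) ≠ 0) {i : ℕ} (hi : 1 ≤ i) (hik : i ≤ k) :
    Nat.card (U hσ k i) = Nat.card (A σ i) * Nat.card (U hσ k (i + 1)) := by
  rw [card_lead hσ hi (U hσ k i) le_rfl, inf_of_le_right (U_mono hσ (Nat.le_succ i))]
  congr 2
  have : {x : K | ∃ u ∈ U hσ k i, c ((u : R σ k) - 1) i = x} = A σ i := by
    ext x
    constructor
    · rintro ⟨u, hu, rfl⟩; exact lead_mem hσ hi hik hu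
    · intro hx; exact exists_lead hσ h2 hi hik hx
  rw [this]

omit hσ in
lemma mono_sq (hk : 1 ≤ k) (x y : K) : (mono k x : R σ k) * mono k y = 0 :=
  ((J_mono k x).mul (J_mono k y)).eq_zero (by omega)

/-- the unit `1 + x τ^k`. -/
def ex (hk : 1 ≤ k) (x : K) : (R σ k)ˣ where
  val := 1 + mono k x
  inv := 1 - mono k x
  val_inv := by
    have := mono_sq (σ := σ) hk x x
    have h : (1 + mono k x : R σ k) * (1 - mono k x) = 1 - mono k x * mono k x := by noncomm_ring
    rw [h, this, sub_zero]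
  inv_val := by
    have := mono_sq (σ := σ) hk x x
    have h : (1 - mono k x : R σ k) * (1 + mono k x) = 1 - mono k x * mono k x := by noncomm_ring
    rw [h, this, sub_zero]

omit hσ in
lemma ex_add (hk : 1 ≤ k) (x y : K) : (ex hk (x + y) : (R σ k)ˣ) = ex hk x * ex hk y := by
  refine Units.ext ?_
  have := mono_sq (σ := σ) hk x y
  change (1 + mono k (x + y) : R σ k) = (1 + mono k x) * (1 + mono k y)
  rw [mono_add, add_mul, mul_add, mul_add, this, one_mul, mul_one, one_mul]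
  abel

omit hσ in
lemma eq_ex (hk : 1 ≤ k) {u : (R σ k)ˣ} (hu : J k ((u : R σ k) - 1)) :
    u = ex hk (c ((u : R σ k) - 1) k) := by
  refine Units.ext ?_
  change (u : R σ k) = 1 + mono k _
  rw [← eq_mono hu]; noncomm_ring

lemma ex_mem (hk : 1 ≤ k) {x : K} (hx : x ∈ A σ k) : ex hk x ∈ U hσ k k := by
  have hJ : J k (mono k x : R σ k) := J_mono k x
  have hc : conj (mono k x : R σ k) = - mono k x := by
    refine ext' fun n hn => ?_
    rw [c_neg, c_conj _ hn, c_mono _ _ hn]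
    split_ifs with h
    · subst h
      by_cases hodd : n % 2 = 1
      · rw [Odd.neg_one_pow (Nat.odd_iff.mpr hodd), spow_even hσ (by omega)]; ring
      · have h3 : σ x = -x := by
          rcases hx with h | h
          · exact absurd h hodd
          · exact h
        rw [Even.neg_one_pow (Nat.even_iff.mpr (by omega)), spow_odd hσ (by omega), h3]; ring
    · simp
  refine ⟨?_, ?_⟩
  · rw [mem_SG hσ]
    change (1 + mono k x : R σ k) * conj (1 + mono k x) = 1
    rw [conj_add, conj_one, hc, ← sub_eq_add_neg]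
    exact (ex hk x).val_inv
  · change J k ((1 + mono k x : R σ k) - 1)
    rw [add_sub_cancel_left]
    exact hJ

omit hσ in
lemma J_mul_unit {z : R σ k} (hz : J k z) {u : R σ k} (hu : J 1 (u - 1)) :
    z * u = z ∧ u * z = z := by
  have h1 : z * (u - 1) = 0 := (hz.mul hu).eq_zero (Nat.lt_succ_self k)
  have h2 : (u - 1) * z = 0 := (hu.mul hz).eq_zero (by omega)
  rw [mul_sub, mul_one] at h1
  rw [sub_mul, one_mul] at h2
  exact ⟨sub_eq_zero.mp h1, sub_eq_zero.mp h2⟩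

/-- the commutator pairing of leading coefficients. -/
def D (σ : K →+* K) (i l : ℕ) (a b : K) : K := a * (σ ^ i) b - b * (σ ^ l) a

/-- **commutator formula.** -/
lemma comm_eq {i l : ℕ} (hi : 1 ≤ i) (hl : 1 ≤ l) (hil : i + l = k) (hk : 1 ≤ k)
    {h n : (R σ k)ˣ} (hh : h ∈ U hσ k i) (hn : n ∈ U hσ k l) :
    h * n * h⁻¹ = n * ex hk (D σ i l (c ((h : R σ k) - 1) i) (c ((n : R σ k) - 1) l)) := by
  set d := D σ i l (c ((h : R σ k) - 1) i) (c ((n : R σ k) - 1) l) with hd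
  rw [mul_inv_eq_iff_eq_mul]
  refine Units.ext ?_
  rw [Units.val_mul, Units.val_mul, Units.val_mul]
  change (h : R σ k) * (n : R σ k) = (n : R σ k) * (1 + mono k d) * (h : R σ k)
  set x := (h : R σ k) - 1 with hx
  set y := (n : R σ k) - 1 with hy
  have hJ : J k (x * y - y * x) := by
    refine J.sub ?_ ?_
    · exact (hh.2.mul hn.2).mono (by omega)
    · exact (hn.2.mul hh.2).mono (by omega)
  have hc : c (x * y - y * x) k = d := by
    rw [c_sub]
    have e1 := c_mul_lead (σ := σ) (k := k) hh.2 hn.2 (by omega)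
    have e2 := c_mul_lead (σ := σ) (k := k) hn.2 hh.2 (by omega)
    rw [hil] at e1
    rw [Nat.add_comm l i, hil] at e2
    rw [e1, e2]; rfl
  have h1 : (h : R σ k) * (n : R σ k) = (n : R σ k) * (h : R σ k) + (x * y - y * x) := by
    rw [hx, hy]; noncomm_ring
  have h2 : x * y - y * x = mono k d := by rw [← hc]; exact eq_mono hJ
  have hJd : J k (mono k d : R σ k) := J_mono k d
  have h3 := (J_mul_unit hJd (hn.2.mono hl)).2
  have h4 := (J_mul_unit hJd (hh.2.mono hi)).1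
  rw [h1, h2, mul_add, mul_one, h3, add_mul, h4]

end lead


section gain

variable {σ : K →+* K}

lemma D_add (i l : ℕ) (a a' b : K) : D σ i l (a + a') b = D σ i l a b + D σ i l a' b := by
  unfold D; rw [map_add]; ring

lemma spow_fix {f : K} (hf : σ f = f) (n : ℕ) : (σ ^ n) f = f := by
  induction n with
  | zero => rw [pow_zero]; rfl
  | succ n ih => rw [pow_succ]; change (σ ^ n) (σ f) = f; rw [hf, ih]

lemma D_smul (i l : ℕ) {f : K} (hf : σ f = f) (a b : K) :
    D σ i l (f * a) b = D σ i l a (f * b) := by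
  unfold D; rw [map_mul, map_mul, spow_fix hf, spow_fix hf]; ring

variable (hσ : ∀ x, σ (σ x) = x)
include hσ

lemma D_mem {i l : ℕ} {a b : K} (ha : a ∈ A σ i) (hb : b ∈ A σ l) : D σ i l a b ∈ A σ (i + l) := by
  by_cases hodd : (i + l) % 2 = 1
  · exact Or.inl hodd
  · right
    unfold D
    by_cases hi : i % 2 = 1
    · rw [spow_odd hσ hi, spow_odd hσ (by omega), map_sub, map_mul, map_mul, hσ, hσ]; ring
    · have ha' : σ a = -a := ha.resolve_left hi
      have hb' : σ b = -b := hb.resolve_left (by omega)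
      rw [spow_even hσ (by omega), spow_even hσ (by omega), map_sub, map_mul, map_mul, ha', hb']
      ring

variable [Finite K]

/-- the number of elements of the fixed field. -/
noncomputable def q (σ : K →+* K) : ℕ := Nat.card {x : K | σ x = x}

omit hσ in
lemma gain_aux (T B : Set K) (hTa : ∀ a ∈ T, ∀ b ∈ T, a + b ∈ T)
    (hTs : ∀ f, σ f = f → ∀ a ∈ T, f * a ∈ T) (hBa : ∀ a ∈ B, ∀ b ∈ B, a + b ∈ B)
    (hBs : ∀ f, σ f = f → ∀ a ∈ B, f * a ∈ B) (hTB : T ⊆ B) {a₀ : K} (h0 : a₀ ∈ B)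
    (h1 : a₀ ∉ T) : q σ * Nat.card T ≤ Nat.card B := by
  unfold q
  rw [← Nat.card_prod]
  refine Nat.card_le_card_of_injective
    (fun p : {x : K | σ x = x} × T => (⟨p.2.1 + p.1.1 * a₀, ?_⟩ : B)) ?_
  · exact hBa _ (hTB p.2.2) _ (hBs _ p.1.2 _ h0)
  · rintro ⟨⟨f, hf⟩, ⟨t, ht⟩⟩ ⟨⟨f', hf'⟩, ⟨t', ht'⟩⟩ he
    simp only [Subtype.mk.injEq] at he
    rw [Set.mem_ofPred_eq] at hf hf'
    by_cases hff : f = f'
    · subst hff
      have : t = t' := add_right_cancel he
      subst this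
      rfl
    · exfalso
      apply h1
      have hd : f - f' ≠ 0 := sub_ne_zero.mpr hff
      have h2 : a₀ = (f - f')⁻¹ * (t' + (-1) * t) := by
        field_simp
        linear_combination he
      rw [h2]
      refine hTs _ (by rw [map_inv₀, map_sub, hf, hf']) _ (hTa _ ht' _ (hTs _ (by simp) _ ht))

/-- the annihilator at level `i` of a character at level `i + l`. -/
def Tset (σ : K →+* K) (ψ : K → ℂ) (i l : ℕ) : Set K :=
  {a | a ∈ A σ i ∧ ∀ b ∈ A σ l, ψ (D σ i l a b) = 1}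

variable {ψ : K → ℂ} {i l k : ℕ}

omit hσ [Finite K] in
lemma T_subset : Tset σ ψ i l ⊆ A σ i := fun _ h => h.1

omit hσ in
lemma card_T_le : Nat.card (Tset σ ψ i l) ≤ Nat.card (A σ i) :=
  Nat.card_mono (Set.toFinite _) T_subset

omit [Finite K] in
lemma T_add (hil : i + l = k)
    (hadd : ∀ x ∈ A σ k, ∀ y ∈ A σ k, ψ (x + y) = ψ x * ψ y) {a b : K}
    (ha : a ∈ Tset σ ψ i l) (hb : b ∈ Tset σ ψ i l) : a + b ∈ Tset σ ψ i l := by
  refine ⟨A_add ha.1 hb.1, fun z hz => ?_⟩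
  have h1 := D_mem hσ ha.1 hz
  have h2 := D_mem hσ hb.1 hz
  rw [hil] at h1 h2
  rw [D_add, hadd _ h1 _ h2, ha.2 z hz, hb.2 z hz, one_mul]

omit hσ [Finite K] in
lemma T_smul {f : K} (hf : σ f = f) {a : K} (ha : a ∈ Tset σ ψ i l) :
    f * a ∈ Tset σ ψ i l :=
  ⟨A_smul hf ha.1, fun z hz => by rw [D_smul i l hf]; exact ha.2 _ (A_smul hf hz)⟩

omit [Finite K] in
/-- a nonzero trace-zero element. -/
lemma exists_theta (hne : ∃ x, σ x ≠ x) : ∃ θ : K, θ ≠ 0 ∧ σ θ = -θ := by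
  obtain ⟨x, hx⟩ := hne
  refine ⟨x - σ x, fun h => hx (sub_eq_zero.mp h).symm, ?_⟩
  rw [map_sub, hσ]; ring

/-- gain `q` at every level if `k` is odd. -/
lemma gain_odd (h2 : (2 : K) ≠ 0) (hne : ∃ x, σ x ≠ x) (hil : i + l = k) (hk : k % 2 = 1)
    (hadd : ∀ x ∈ A σ k, ∀ y ∈ A σ k, ψ (x + y) = ψ x * ψ y) (hψ : ∃ x ∈ A σ k, ψ x ≠ 1) :
    q σ * Nat.card (Tset σ ψ i l) ≤ Nat.card (A σ i) := by
  obtain ⟨θ, hθ, hθ'⟩ := exists_theta hσ hne
  obtain ⟨x, hx, hx1⟩ := hψ
  have key : ∃ a ∈ A σ i, ∃ b ∈ A σ l, D σ i l a b = x := by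
    by_cases hi : i % 2 = 1
    · refine ⟨-x / (2 * θ), Or.inl hi, θ, Or.inr hθ', ?_⟩
      unfold D
      rw [spow_odd hσ hi, spow_even hσ (by omega), hθ']
      field_simp
      ring
    · refine ⟨θ, Or.inr hθ', x / (2 * θ), Or.inl (by omega), ?_⟩
      unfold D
      rw [spow_even hσ (by omega), spow_odd hσ (by omega), hθ']
      field_simp
      ring
  obtain ⟨a, ha, b, hb, hD⟩ := key
  exact gain_aux (Tset σ ψ i l) (A σ i) (fun a ha b hb => T_add hσ hil hadd ha hb)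
    (fun f hf a ha => T_smul hf ha) (fun a ha b hb => A_add ha hb) (fun f hf a ha => A_smul hf ha)
    T_subset ha (fun h => hx1 (by rw [← hD]; exact h.2 b hb))

omit hσ in
lemma q_pos : 0 < q σ := by
  unfold q
  have : Nonempty {x : K | σ x = x} := ⟨⟨0, map_zero σ⟩⟩
  exact Nat.card_pos

lemma card_A_odd (h2 : (2 : K) ≠ 0) (hne : ∃ x, σ x ≠ x) : q σ * q σ ≤ Nat.card K := by
  obtain ⟨θ, hθ, hθ'⟩ := exists_theta hσ hne
  have h := gain_aux (σ := σ) {x : K | σ x = x} Set.univ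
    (fun a ha b hb => by rw [Set.mem_ofPred_eq] at *; rw [map_add, ha, hb])
    (fun f hf a ha => by rw [Set.mem_ofPred_eq] at *; rw [map_mul, ha, hf])
    (fun a _ b _ => Set.mem_univ _) (fun f _ a _ => Set.mem_univ _) (Set.subset_univ _)
    (a₀ := θ) (Set.mem_univ _) (fun h => by
      rw [Set.mem_ofPred_eq, hθ'] at h
      apply hθ
      have h3 : 2 * θ = 0 := by linear_combination -h
      exact (mul_eq_zero.mp h3).resolve_left h2)
  rwa [Nat.card_univ] at h

/-- gain `q ^ 2` at the odd levels if `k` is even. -/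
lemma gain_even (h2 : (2 : K) ≠ 0) (hne : ∃ x, σ x ≠ x) (hil : i + l = k) (hk : k % 2 = 0)
    (hi : i % 2 = 1) (hψ : ∃ x ∈ A σ k, ψ x ≠ 1) :
    q σ ^ 2 * Nat.card (Tset σ ψ i l) ≤ Nat.card (A σ i) := by
  obtain ⟨x, hx, hx1⟩ := hψ
  have hx' : σ x = -x := hx.resolve_left (by omega)
  have hT : Tset σ ψ i l ⊆ {0} := by
    intro a ha
    by_contra ha0
    rw [Set.mem_singleton_iff] at ha0
    have hsa : σ a ≠ 0 := fun h => ha0 ((map_eq_zero σ).mp h)
    apply hx1
    have := ha.2 (-x / (2 * σ a)) (Or.inl (by omega))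
    have hD : D σ i l a (-x / (2 * σ a)) = x := by
      unfold D
      rw [spow_odd hσ hi, spow_odd hσ (by omega), map_div₀, map_neg, map_mul, hσ, hx', map_ofNat]
      field_simp
      ring
    rwa [hD] at this
  have h1 : Nat.card (Tset σ ψ i l) ≤ 1 := by
    have := Nat.card_mono (Set.finite_singleton (0 : K)) hT
    simpa using this
  have h3 : A σ i = Set.univ := by
    ext z; exact ⟨fun _ => Set.mem_univ _, fun _ => Or.inl hi⟩
  rw [h3, Nat.card_univ, pow_two]
  calc q σ * q σ * Nat.card (Tset σ ψ i l) ≤ q σ * q σ * 1 := Nat.mul_le_mul_left _ h1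
    _ ≤ Nat.card K := by rw [mul_one]; exact card_A_odd hσ h2 hne

end gain

section orbit

variable {σ : K →+* K} {k : ℕ} (hσ : ∀ x, σ (σ x) = x) [Finite K]
include hσ

/-- exponent gained at level `i`. -/
def gexp (k i : ℕ) : ℕ := if k % 2 = 1 then 1 else if i % 2 = 1 then 2 else 0

omit hσ [Finite K] in
lemma sum_gexp (k m : ℕ) : m ≤ ∑ i ∈ Finset.Ico 1 (m + 1), gexp k i := by
  by_cases hk : k % 2 = 1
  · simp [gexp, hk]
  · have : ∀ m, ∑ i ∈ Finset.Ico 1 (m + 1), gexp k i = 2 * ((m + 1) / 2) := by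
      intro m
      induction m with
      | zero => simp
      | succ m ih =>
        rw [Finset.sum_Ico_succ_top (by omega), ih]
        unfold gexp
        rw [if_neg hk]
        split_ifs <;> omega
    rw [this]; omega

lemma gain_le {ψ : K → ℂ} {i l : ℕ} (h2 : (2 : K) ≠ 0) (hne : ∃ x, σ x ≠ x) (hil : i + l = k)
    (hadd : ∀ x ∈ A σ k, ∀ y ∈ A σ k, ψ (x + y) = ψ x * ψ y) (hψ : ∃ x ∈ A σ k, ψ x ≠ 1) :
    q σ ^ gexp k i * Nat.card (Tset σ ψ i l) ≤ Nat.card (A σ i) := by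
  unfold gexp
  split_ifs with h h'
  · rw [pow_one]; exact gain_odd hσ h2 hne hil h hadd hψ
  · exact gain_even hσ h2 hne hil (by omega) h' hψ
  · rw [pow_zero, one_mul]; exact card_T_le

/-- **stabiliser bound.** `χ` multiplicative on `U (k/2+1)`, not trivial on `U k`; `S` a
subgroup of `U 1` which fixes `χ` under conjugation. -/
theorem stab_bound (h2 : (2 : K) ≠ 0) (hne : ∃ x, σ x ≠ x) (hk : 1 ≤ k)
    (χ : (R σ k)ˣ → ℂ) (hχ1 : χ 1 = 1)
    (hmul : ∀ a ∈ U hσ k (k / 2 + 1), ∀ b ∈ U hσ k (k / 2 + 1), χ (a * b) = χ a * χ b)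
    (hχ : ∃ u ∈ U hσ k k, χ u ≠ 1) (S : Subgroup (R σ k)ˣ)
    (hS : ∀ s ∈ S, ∀ n ∈ U hσ k (k / 2 + 1), χ (s * n * s⁻¹) = χ n) :
    q σ ^ ((k - 1) / 2) * Nat.card (S ⊓ U hσ k 1 : Subgroup (R σ k)ˣ) ≤ Nat.card (U hσ k 1) := by
  by_cases hk1 : k = 1
  · subst hk1
    rw [show (1 - 1) / 2 = 0 by rfl, pow_zero, one_mul]
    exact Nat.card_mono (Set.toFinite _) inf_le_right
  set ψ : K → ℂ := fun x => χ (ex hk x) with hψdef
  have hkk : k / 2 + 1 ≤ k := by omega
  have hex : ∀ x ∈ A σ k, ex hk x ∈ U hσ k (k / 2 + 1) := fun x hx =>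
    U_mono hσ hkk (ex_mem hσ hk hx)
  have hadd : ∀ x ∈ A σ k, ∀ y ∈ A σ k, ψ (x + y) = ψ x * ψ y := by
    intro x hx y hy
    simp only [hψdef]
    rw [ex_add, hmul _ (hex x hx) _ (hex y hy)]
  have hψ : ∃ x ∈ A σ k, ψ x ≠ 1 := by
    obtain ⟨u, hu, hu1⟩ := hχ
    refine ⟨_, lead_mem hσ hk le_rfl hu, ?_⟩
    simp only [hψdef]
    rwa [← eq_ex hk hu.2]
  have hstep : ∀ t, t ≤ (k - 1) / 2 →
      q σ ^ (∑ i ∈ Finset.Ico ((k - 1) / 2 + 1 - t) ((k - 1) / 2 + 1), gexp k i) *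
        Nat.card (S ⊓ U hσ k ((k - 1) / 2 + 1 - t) : Subgroup (R σ k)ˣ) ≤
        Nat.card (U hσ k ((k - 1) / 2 + 1 - t)) := by
    intro t
    induction t with
    | zero =>
      intro _
      rw [Nat.sub_zero, Finset.Ico_self, Finset.sum_empty, pow_zero, one_mul]
      exact Nat.card_mono (Set.toFinite _) inf_le_right
    | succ t ih =>
      intro ht
      have ih' := ih (by omega)
      obtain ⟨i, hi⟩ : ∃ i, i = (k - 1) / 2 + 1 - (t + 1) := ⟨_, rfl⟩
      have hi' : (k - 1) / 2 + 1 - t = i + 1 := by omega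
      rw [hi'] at ih'
      rw [← hi]
      have hi1 : 1 ≤ i := by omega
      have him : i < (k - 1) / 2 + 1 := by omega
      have hl : k / 2 + 1 ≤ k - i := by omega
      rw [Finset.sum_eq_sum_Ico_succ_bot him, pow_add, card_U hσ h2 hi1 (by omega),
        card_lead hσ hi1 (S ⊓ U hσ k i) inf_le_right]
      have hint : S ⊓ U hσ k i ⊓ U hσ k (i + 1) = S ⊓ U hσ k (i + 1) := by
        rw [inf_assoc, inf_of_le_right (U_mono hσ (Nat.le_succ i))]
      rw [hint]
      have hTle : Nat.card {x : K | ∃ u ∈ S ⊓ U hσ k i, c ((u : R σ k) - 1) i = x} ≤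
          Nat.card (Tset σ ψ i (k - i)) := by
        refine Nat.card_mono (Set.toFinite _) ?_
        rintro x ⟨u, ⟨huS, hu⟩, rfl⟩
        refine ⟨lead_mem hσ hi1 (by omega) hu, fun b hb => ?_⟩
        obtain ⟨n, hn, hnb⟩ := exists_lead hσ h2 (k := k) (i := k - i) (by omega) (by omega) hb
        have h3 := comm_eq hσ hi1 (by omega) (by omega : i + (k - i) = k) hk hu hn
        have h4 := hS u huS n (U_mono hσ hl hn)
        have hD := D_mem hσ (lead_mem hσ hi1 (by omega) hu) hb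
        rw [show i + (k - i) = k by omega] at hD
        rw [h3, hnb, hmul n (U_mono hσ hl hn) _ (hex _ hD)] at h4
        have hn0 : χ n ≠ 0 := by
          intro h0
          have h5 := hmul n (U_mono hσ hl hn) n⁻¹ ((U hσ k (k / 2 + 1)).inv_mem (U_mono hσ hl hn))
          rw [mul_inv_cancel, hχ1, h0, zero_mul] at h5
          exact one_ne_zero h5
        exact mul_left_cancel₀ hn0 (by rw [h4, mul_one])
      have hg := gain_le hσ h2 hne (by omega : i + (k - i) = k) hadd hψ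
      calc q σ ^ gexp k i * q σ ^ (∑ i ∈ Finset.Ico (i + 1) ((k - 1) / 2 + 1), gexp k i) *
            (Nat.card {x : K | ∃ u ∈ S ⊓ U hσ k i, c ((u : R σ k) - 1) i = x} *
              Nat.card (S ⊓ U hσ k (i + 1) : Subgroup (R σ k)ˣ))
          = (q σ ^ gexp k i *
              Nat.card {x : K | ∃ u ∈ S ⊓ U hσ k i, c ((u : R σ k) - 1) i = x}) *
            (q σ ^ (∑ i ∈ Finset.Ico (i + 1) ((k - 1) / 2 + 1), gexp k i) *
              Nat.card (S ⊓ U hσ k (i + 1) : Subgroup (R σ k)ˣ)) := by ring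
        _ ≤ Nat.card (A σ i) * Nat.card (U hσ k (i + 1)) :=
            Nat.mul_le_mul ((Nat.mul_le_mul_left _ hTle).trans hg) ih'
  have h := hstep ((k - 1) / 2) le_rfl
  rw [show (k - 1) / 2 + 1 - (k - 1) / 2 = 1 by omega] at h
  refine le_trans ?_ h
  exact Nat.mul_le_mul_right _ (Nat.pow_le_pow_right q_pos (sum_gexp k _))

end orbit

end Crest.Agent.R289.SkewGrp877
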