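import Crest.Agent.R289.ExpBr_820
import Crest.Agent.R289.ExpNum_820
import Crest.Agent.R289.SkewGrp_877

/-!
Row 289, block B1: the map `Sk σ → R σ k` (truncated skew power series of `SkewGrp_877`) and the
bound for the number of closed words in its unit group.
-/

set_option autoImplicit false

namespace Crest.Agent.R289.Exp820

open Polynomial Sk TraceM962 SkewGrp877

section trunc

variable {K : Type*} [Field K] {σ : K →+* K}

theorem range_even (g : ℕ → K) (m : ℕ) : ∑ i ∈ Finset.range (2 * m + 1), g i =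
    ∑ i ∈ Finset.range (m + 1), g (2 * i) + ∑ i ∈ Finset.range m, g (2 * i + 1) := by
  induction m with
  | zero => simp
  | succ m ih =>
    rw [show 2 * (m + 1) + 1 = (2 * m + 1) + 1 + 1 by ring, Finset.sum_range_succ,
      Finset.sum_range_succ, ih, Finset.sum_range_succ _ (m + 1), Finset.sum_range_succ _ m,
      Finset.sum_range_succ _ m]
    ring_nf

theorem range_odd (g : ℕ → K) (m : ℕ) : ∑ i ∈ Finset.range (2 * m + 2), g i =
    ∑ i ∈ Finset.range (m + 1), g (2 * i) + ∑ i ∈ Finset.range (m + 1), g (2 * i + 1) := by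
  rw [Finset.sum_range_succ, range_even, Finset.sum_range_succ (fun i => g (2 * i + 1)) m]
  ring

/-- `n`-th coefficient of `re + im τ` as a power series in `τ` -/
noncomputable def cf (r : Sk σ) (n : ℕ) : K :=
  if n % 2 = 0 then r.re.coeff (n / 2) else r.im.coeff (n / 2)

theorem cf_even (r : Sk σ) (i : ℕ) : cf r (2 * i) = r.re.coeff i := by
  have h1 : 2 * i % 2 = 0 := by omega
  have h2 : 2 * i / 2 = i := by omega
  rw [cf, if_pos h1, h2]

theorem cf_odd (r : Sk σ) (i : ℕ) : cf r (2 * i + 1) = r.im.coeff i := by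
  have h1 : ¬ (2 * i + 1) % 2 = 0 := by omega
  have h2 : (2 * i + 1) / 2 = i := by omega
  rw [cf, if_neg h1, h2]

theorem cf_mul (hσ : ∀ a, σ (σ a) = a) (r s : Sk σ) (n : ℕ) :
    cf (r * s) n = ∑ p ∈ Finset.HasAntidiagonal.antidiagonal n, cf r p.1 * (σ ^ p.1) (cf s p.2) := by
  rw [Finset.Nat.sum_antidiagonal_eq_sum_range_succ (fun i j => cf r i * (σ ^ i) (cf s j)) n]
  rcases Nat.even_or_odd' n with ⟨m, rfl | rfl⟩
  · rw [cf_even, mul_re, coeff_add, range_even]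
    congr 1
    · rw [coeff_mul, Finset.Nat.sum_antidiagonal_eq_sum_range_succ
        (fun i j => r.re.coeff i * s.re.coeff j) m]
      refine Finset.sum_congr rfl fun i hi => ?_
      rw [Finset.mem_range] at hi
      rw [cf_even, show 2 * m - 2 * i = 2 * (m - i) by omega, cf_even,
        spow_even hσ (by omega)]
    · cases m with
      | zero => simp [mul_assoc]
      | succ m =>
        rw [mul_assoc, coeff_X_mul, coeff_mul, Finset.Nat.sum_antidiagonal_eq_sum_range_succ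
          (fun i j => r.im.coeff i * (sg σ s.im).coeff j) m]
        refine Finset.sum_congr rfl fun i hi => ?_
        rw [Finset.mem_range] at hi
        rw [cf_odd, show 2 * (m + 1) - (2 * i + 1) = 2 * (m - i) + 1 by omega, cf_odd,
          spow_odd hσ (by omega), sg_coeff]
  · rw [cf_odd, mul_im, coeff_add, show (2 * m + 1).succ = 2 * m + 2 by rfl, range_odd]
    congr 1
    · rw [coeff_mul, Finset.Nat.sum_antidiagonal_eq_sum_range_succ
        (fun i j => r.re.coeff i * s.im.coeff j) m]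
      refine Finset.sum_congr rfl fun i hi => ?_
      rw [Finset.mem_range] at hi
      rw [cf_even, show 2 * m + 1 - 2 * i = 2 * (m - i) + 1 by omega, cf_odd,
        spow_even hσ (by omega)]
    · rw [coeff_mul, Finset.Nat.sum_antidiagonal_eq_sum_range_succ
        (fun i j => r.im.coeff i * (sg σ s.re).coeff j) m]
      refine Finset.sum_congr rfl fun i hi => ?_
      rw [Finset.mem_range] at hi
      rw [cf_odd, show 2 * m + 1 - (2 * i + 1) = 2 * (m - i) by omega, cf_even,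
        spow_odd hσ (by omega), sg_coeff]

variable {k : ℕ}

/-- **truncation** `Sk σ → R σ k` -/
noncomputable def tr (k : ℕ) (r : Sk σ) : R σ k := mk fun n => cf r n

theorem c_tr (r : Sk σ) {n : ℕ} (hn : n ≤ k) : c (tr k r) n = cf r n := c_mk _ hn

theorem tr_one : tr k (1 : Sk σ) = 1 := by
  refine ext' fun n hn => ?_
  rw [c_tr _ hn, c_one hn]
  rcases Nat.even_or_odd' n with ⟨m, rfl | rfl⟩
  · rw [cf_even, one_re, coeff_one]
    by_cases h : m = 0
    · simp [h]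
    · rw [if_neg h, if_neg (by omega)]
  · rw [cf_odd, one_im, coeff_zero, if_neg (by omega)]

theorem tr_mul (hσ : ∀ a, σ (σ a) = a) (r s : Sk σ) : tr k (r * s) = tr k r * tr k s := by
  refine ext' fun n hn => ?_
  rw [c_tr _ hn, c_mul _ _ hn, cf_mul hσ]
  refine Finset.sum_congr rfl fun p hp => ?_
  rw [Finset.HasAntidiagonal.mem_antidiagonal] at hp
  rw [c_tr _ (by omega), c_tr _ (by omega)]

theorem tr_conj (hσ : ∀ a, σ (σ a) = a) (r : Sk σ) :
    tr k (Sk.conj r) = SkewGrp877.conj (tr k r) := by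
  refine ext' fun n hn => ?_
  rw [c_tr _ hn, c_conj _ hn, c_tr _ hn]
  rcases Nat.even_or_odd' n with ⟨m, rfl | rfl⟩
  · rw [cf_even, cf_even, spow_odd hσ (by omega), pow_mul, neg_one_sq, one_pow, one_mul]
    change (sg σ r.re).coeff m = _
    rw [sg_coeff]
  · rw [cf_odd, cf_odd, spow_even hσ (by omega), pow_succ, pow_mul, neg_one_sq, one_pow, one_mul,
      neg_one_mul]
    change (- r.im).coeff m = _
    rw [coeff_neg]

theorem tr_central (hσ : ∀ a, σ (σ a) = a) {p : K[X]} (hp : sg σ p = p) (m : R σ k) :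
    Commute (tr k (⟨p, 0⟩ : Sk σ)) m := by
  have hfix : ∀ i, σ (p.coeff i) = p.coeff i := fun i => by
    rw [← sg_coeff, hp]
  have hcf : ∀ n j : ℕ, (σ ^ j) (cf (⟨p, 0⟩ : Sk σ) n) = cf (⟨p, 0⟩ : Sk σ) n := by
    intro n j
    rcases Nat.even_or_odd' n with ⟨i, rfl | rfl⟩
    · rw [cf_even, spow_fix (hfix i)]
    · rw [cf_odd]
      simp
  have hodd : ∀ n j : ℕ, ∀ y : K, cf (⟨p, 0⟩ : Sk σ) n * (σ ^ n) y =
      y * cf (⟨p, 0⟩ : Sk σ) n := by
    intro n j y
    rcases Nat.even_or_odd' n with ⟨i, rfl | rfl⟩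
    · rw [spow_even hσ (by omega), mul_comm]
    · rw [cf_odd]
      simp
  refine ext' fun n hn => ?_
  rw [c_mul _ _ hn, c_mul _ _ hn, ← Finset.Nat.sum_antidiagonal_swap]
  refine Finset.sum_congr rfl fun q hq => ?_
  rw [Finset.HasAntidiagonal.mem_antidiagonal] at hq
  simp only [Prod.fst_swap, Prod.snd_swap]
  rw [c_tr _ (by omega), hcf, hodd _ 0]

theorem tr_ker {r : Sk σ} {Y : K[X]} (h : tr k r = tr k (⟨Y, 0⟩ : Sk σ)) :
    X ^ (k / 2 + 1) ∣ r.re - Y ∧ X ^ ((k + 1) / 2) ∣ r.im := by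
  have hc : ∀ n ≤ k, cf r n = cf (⟨Y, 0⟩ : Sk σ) n := fun n hn => by
    rw [← c_tr (k := k) r hn, h, c_tr _ hn]
  constructor
  · rw [X_pow_dvd_iff]
    intro d hd
    have := hc (2 * d) (by omega)
    rw [cf_even, cf_even] at this
    rw [coeff_sub, this, sub_self]
  · rw [X_pow_dvd_iff]
    intro d hd
    have := hc (2 * d + 1) (by omega)
    rw [cf_odd, cf_odd] at this
    rw [this, coeff_zero]

theorem mul_conj_N (hσ : ∀ a, σ (σ a) = a) (r : Sk σ) : r * Sk.conj r = ⟨N r, 0⟩ := by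
  ext1
  · simp only [mul_re, Sk.conj, N, map_neg]
    ring
  · simp only [mul_im, Sk.conj, sg_sg hσ]
    ring

end trunc

section bound

variable {K : Type*} [Field K] [Fintype K] {σ : K →+* K} {q : ℕ} {x : K} {k : ℕ}
variable {ι : Type*} [Fintype ι] {G : Type*} [Group G] [DecidableEq G]

/-- **closed words in the truncated ring.**  `t i = a π_i b` in the unit group of `R σ k`
(`a`, `b` fixed units, e.g. `a` = central square root of `X(0) / X`, `b` = constant). -/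
theorem closedWords_trunc (hc : Fintype.card K = q ^ 2) (hσq : ∀ a, σ a = a ^ q) (hq : 2 ≤ q)
    (h2 : (2 : K) ≠ 0) (hx : σ x ≠ x) (f : G →* (R σ k)ˣ) (t : ι → G) (a b : (R σ k)ˣ)
    {π : ι → Sk σ} (hπi : Function.Injective π) (hπ : ∀ i, IsPi σ x (π i))
    (ht : ∀ i, ((f (t i) : (R σ k)ˣ) : R σ k) = a * tr k (π i) * b) (l : ℕ) :
    closedWords t l * q ^ (k + 1 + (k / 2 + 1)) ≤
      4 ^ l * (q ^ 2 + 1) ^ l * q ^ (k + 1 + (k / 2 + 1)) +
        l * (64 ^ l * (q + 1) * (q ^ 2 + 1) ^ (2 * l)) := by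
  classical
  have hσ : ∀ a, σ (σ a) = a := conj_conj hc hσq
  set s : ι → (R σ k)ˣ := fun i => a⁻¹ * f (t i) * b⁻¹ with hs
  have hsv : ∀ i, (s i : R σ k) = tr k (π i) := by
    intro i
    rw [hs]
    simp only [Units.val_mul]
    rw [ht]
    have e1 : ((a⁻¹ : (R σ k)ˣ) : R σ k) * (a : R σ k) = 1 := Units.inv_mul a
    have e2 : (b : R σ k) * ((b⁻¹ : (R σ k)ˣ) : R σ k) = 1 := Units.mul_inv b
    calc ((a⁻¹ : (R σ k)ˣ) : R σ k) * ((a : R σ k) * tr k (π i) * b) * ((b⁻¹ : (R σ k)ˣ) : R σ k)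
        = (((a⁻¹ : (R σ k)ˣ) : R σ k) * (a : R σ k)) * tr k (π i) *
            ((b : R σ k) * ((b⁻¹ : (R σ k)ˣ) : R σ k)) := by simp only [mul_assoc]
      _ = tr k (π i) := by rw [e1, e2, one_mul, mul_one]
  have hXc : ∀ m : R σ k, Commute (tr k (⟨XX σ x, 0⟩ : Sk σ)) m := tr_central hσ (sg_XX hσ)
  have hNi : ∀ i, tr k (π i) * tr k (Sk.conj (π i)) = tr k (⟨XX σ x, 0⟩ : Sk σ) := by
    intro i
    obtain ⟨c, b, hw, hn⟩ := hπ i
    rw [← tr_mul hσ, mul_conj_N hσ, hn]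
  set e : G →* R σ k := (Units.coeHom (R σ k)).comp
    ((MulAut.conj b).toMonoidHom.comp f) with he
  have hev : ∀ i j, e ((t i)⁻¹ * t j) = (((s i)⁻¹ * s j : (R σ k)ˣ) : R σ k) := by
    intro i j
    rw [he]
    simp only [MonoidHom.comp_apply, Units.coeHom_apply]
    congr 1
    change b * f ((t i)⁻¹ * t j) * b⁻¹ = (s i)⁻¹ * s j
    rw [hs]
    simp only [map_mul, map_inv]
    group
  have main := closedWords_le (M := R σ k) (φ := tr k) hσ tr_one (tr_mul hσ)
    (a := k / 2 + 1) (b := (k + 1) / 2) (fun r l h => tr_ker h) (e := e) (s := t) hπi hXc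
    (fun i j => by
      rw [hev, Units.val_mul, mul_assoc, ← (hXc _).eq, ← mul_assoc, ← hNi i, hsv j]
      have e1 : (((s i)⁻¹ : (R σ k)ˣ) : R σ k) * tr k (π i) = 1 := by
        rw [← hsv i]; exact Units.inv_mul _
      rw [← mul_assoc, e1, one_mul, tr_mul hσ])
    (P := allPi σ x) (fun i => mem_allPi.2 (hπ i)) (fun i => mem_allPi.2 ((hπ i).conj hσ)) l
  refine (Nat.mul_le_mul_right _ main).trans ?_
  exact closed_walks_ff hc hσq hq h2 hx (fun w hw => mem_allPi.1 hw)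
    (card_allPi hσ hx (fun d => card_nm hσq d)) (Nat.le_succ _) k l

/-- **B1, one level**: `|G| * closedWords ≤ D μ ^ k`, `μ = θ (q² + 1)²`. -/
theorem level_closing (hc : Fintype.card K = q ^ 2) (hσq : ∀ a, σ a = a ^ q) (hq : 2 ≤ q)
    (h2 : (2 : K) ≠ 0) (hx : σ x ≠ x) (f : G →* (R σ k)ˣ) (t : ι → G) (a b : (R σ k)ˣ)
    {π : ι → Sk σ} (hπi : Function.Injective π) (hπ : ∀ i, IsPi σ x (π i))
    (ht : ∀ i, ((f (t i) : (R σ k)ˣ) : R σ k) = a * tr k (π i) * b)
    {g : ℕ} {D θ C : ℝ} (hC : C ≤ (((q + 1) * q ^ (2 * k - k / 2) : ℕ) : ℝ)) (hk : 2 ≤ k)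
    (hg : k ≤ 5 * g) (hD0 : 0 ≤ D)
    (hD : ((q : ℝ) + 1) ^ 2 * (q : ℝ) ^ (k % 2) * (q : ℝ) ^ g ≤ 8 * D * (q : ℝ) ^ 2)
    (h0 : 0 ≤ θ) (h1 : θ ≤ 1) (hθ : (512 : ℝ) ^ 5 ≤ θ ^ 5 * (q : ℝ)) :
    C * (closedWords t k : ℝ) ≤ D * (θ * (((q : ℝ) ^ 2 + 1)) ^ 2) ^ k := by
  have h := closing (n := q ^ 2 + 1) (by omega) (Nat.le_succ _) hk hg hD0 hD h0 h1 hθ
    (closedWords_trunc hc hσq hq h2 hx f t a b hπi hπ ht k)
  push_cast at h hC
  exact (mul_le_mul_of_nonneg_right hC (Nat.cast_nonneg _)).trans h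

end bound

end Crest.Agent.R289.Exp820
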