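import Crest.Prelude.Def_GenCircuit

/-!
Row 289: expression compiler for generalized circuits and unit assembly (helper118).

`Ex ι` are arithmetic expressions over input slots `ι` (constants, scaling, capped addition,
floored subtraction).  `comp` turns an expression into gates with fresh output nodes;
`comp_sound` : if all gates are `ε`-satisfied, the output node is within `err e * ε` of the exact
value `eval e`.  `Template` describes one unit (registers + scratch nodes); `assemble` puts `n`
units together; `badUnits_le` bounds the number of units with a violated gate.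
-/

set_option autoImplicit false

namespace Crest.Agent.R289.Expr118

open Crest.PPADPCP

/-- arithmetic expressions over input slots `ι` -/
inductive Ex (ι : Type) : Type
  | inp : ι → Ex ι
  | const : ℚ → Ex ι
  | scale : ℚ → Ex ι → Ex ι
  | add : Ex ι → Ex ι → Ex ι
  | sub : Ex ι → Ex ι → Ex ι

namespace Ex

variable {ι κ : Type}

/-- exact value -/
def eval (x : ι → ℚ) : Ex ι → ℚ
  | inp i => x i
  | const q => q
  | scale q a => q * a.eval x
  | add a b => min (a.eval x + b.eval x) 1
  | sub a b => max (a.eval x - b.eval x) 0

/-- parameters in `[0,1]` -/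
def WF : Ex ι → Prop
  | inp _ => True
  | const q => 0 ≤ q ∧ q ≤ 1
  | scale q a => (0 ≤ q ∧ q ≤ 1) ∧ a.WF
  | add a b => a.WF ∧ b.WF
  | sub a b => a.WF ∧ b.WF

instance decWF : (e : Ex ι) → Decidable e.WF
  | inp _ => isTrue trivial
  | const q => inferInstanceAs (Decidable (0 ≤ q ∧ q ≤ 1))
  | scale q a => @instDecidableAnd (0 ≤ q ∧ q ≤ 1) a.WF inferInstance (decWF a)
  | add a b => @instDecidableAnd a.WF b.WF (decWF a) (decWF b)
  | sub a b => @instDecidableAnd a.WF b.WF (decWF a) (decWF b)

/-- error coefficient -/
def err : Ex ι → ℕ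
  | inp _ => 0
  | const _ => 1
  | scale _ a => a.err + 1
  | add a b => a.err + b.err + 1
  | sub a b => a.err + b.err + 1

/-- number of gates -/
def size : Ex ι → ℕ
  | inp _ => 0
  | const _ => 1
  | scale _ a => a.size + 1
  | add a b => a.size + b.size + 1
  | sub a b => a.size + b.size + 1

/-- number of occurrences of inputs (a Lipschitz constant) -/
def occ : Ex ι → ℕ
  | inp _ => 1
  | const _ => 0
  | scale _ a => a.occ
  | add a b => a.occ + b.occ
  | sub a b => a.occ + b.occ

/-- all inputs satisfy `P` -/
def All (P : ι → Prop) : Ex ι → Prop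
  | inp i => P i
  | const _ => True
  | scale _ a => a.All P
  | add a b => a.All P ∧ b.All P
  | sub a b => a.All P ∧ b.All P

/-- substitution of expressions for the inputs -/
def bind (f : ι → Ex κ) : Ex ι → Ex κ
  | inp i => f i
  | const q => const q
  | scale q a => scale q (a.bind f)
  | add a b => add (a.bind f) (b.bind f)
  | sub a b => sub (a.bind f) (b.bind f)

/-- renaming of the inputs -/
def map (f : ι → κ) (e : Ex ι) : Ex κ := e.bind fun i => inp (f i)

theorem eval_bind (f : ι → Ex κ) (x : κ → ℚ) (e : Ex ι) :
    (e.bind f).eval x = e.eval fun i => (f i).eval x := by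
  induction e with
  | inp i => rfl
  | const q => rfl
  | scale q a ih => simp only [bind, eval, ih]
  | add a b iha ihb => simp only [bind, eval, iha, ihb]
  | sub a b iha ihb => simp only [bind, eval, iha, ihb]

theorem eval_map (f : ι → κ) (x : κ → ℚ) (e : Ex ι) :
    (e.map f).eval x = e.eval fun i => x (f i) := by
  rw [map, eval_bind]
  rfl

theorem WF_bind (f : ι → Ex κ) (hf : ∀ i, (f i).WF) (e : Ex ι) (he : e.WF) : (e.bind f).WF := by
  induction e with
  | inp i => exact hf i
  | const q => exact he
  | scale q a ih => exact ⟨he.1, ih he.2⟩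
  | add a b iha ihb => exact ⟨iha he.1, ihb he.2⟩
  | sub a b iha ihb => exact ⟨iha he.1, ihb he.2⟩

theorem WF_map (f : ι → κ) (e : Ex ι) (he : e.WF) : (e.map f).WF :=
  WF_bind _ (fun i => show (inp (f i) : Ex κ).WF from trivial) e he

/-- values stay in `[0,1]` -/
theorem eval_mem (x : ι → ℚ) (hx : ∀ i, 0 ≤ x i ∧ x i ≤ 1) (e : Ex ι) (he : e.WF) :
    0 ≤ e.eval x ∧ e.eval x ≤ 1 := by
  induction e with
  | inp i => exact hx i
  | const q => exact he
  | scale q a ih =>
    have h := ih he.2
    refine ⟨mul_nonneg he.1.1 h.1, ?_⟩
    calc q * a.eval x ≤ 1 * 1 := mul_le_mul he.1.2 h.2 h.1 zero_le_one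
      _ = 1 := one_mul 1
  | add a b iha ihb =>
    have ha := iha he.1
    have hb := ihb he.2
    exact ⟨le_min (add_nonneg ha.1 hb.1) zero_le_one, min_le_right _ _⟩
  | sub a b iha ihb =>
    have ha := iha he.1
    have hb := ihb he.2
    refine ⟨le_max_right _ _, max_le ?_ zero_le_one⟩
    have h1 := hb.1
    have h2 := ha.2
    linarith

theorem abs_min_sub (a b c d : ℚ) : |min (a + b) 1 - min (c + d) 1| ≤ |a - c| + |b - d| := by
  have h := abs_min_sub_min_le_max (a + b) 1 (c + d) 1
  rw [sub_self, abs_zero, max_eq_left (abs_nonneg _)] at h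
  refine h.trans ?_
  have : a + b - (c + d) = (a - c) + (b - d) := by ring
  rw [this]
  exact abs_add_le _ _

theorem abs_max_sub (a b c d : ℚ) : |max (a - b) 0 - max (c - d) 0| ≤ |a - c| + |b - d| := by
  have h := abs_max_sub_max_le_max (a - b) 0 (c - d) 0
  rw [sub_self, abs_zero, max_eq_left (abs_nonneg (a - b - (c - d)))] at h
  refine h.trans ?_
  have : a - b - (c - d) = (a - c) + (d - b) := by ring
  rw [this]
  refine (abs_add_le _ _).trans ?_
  rw [abs_sub_comm d b]

/-- Lipschitz bound -/
theorem eval_lip (x y : ι → ℚ) (η : ℚ) (e : Ex ι) (he : e.WF)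
    (h : e.All fun i => |x i - y i| ≤ η) : |e.eval x - e.eval y| ≤ e.occ * η := by
  induction e with
  | inp i => simpa [eval, occ, All] using h
  | const q => simp [eval, occ]
  | scale q a ih =>
    have h1 := ih he.2 h
    simp only [eval, occ]
    rw [← mul_sub, abs_mul, abs_of_nonneg he.1.1]
    calc q * |a.eval x - a.eval y| ≤ 1 * |a.eval x - a.eval y| :=
          mul_le_mul_of_nonneg_right he.1.2 (abs_nonneg _)
      _ = |a.eval x - a.eval y| := one_mul _
      _ ≤ _ := h1
  | add a b iha ihb =>
    have h1 := iha he.1 h.1
    have h2 := ihb he.2 h.2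
    simp only [eval, occ]
    push_cast
    exact (abs_min_sub _ _ _ _).trans (by linarith)
  | sub a b iha ihb =>
    have h1 := iha he.1 h.1
    have h2 := ihb he.2 h.2
    simp only [eval, occ]
    push_cast
    exact (abs_max_sub _ _ _ _).trans (by linarith)

theorem All.mono {P Q : ι → Prop} (hPQ : ∀ i, P i → Q i) {e : Ex ι} (h : e.All P) : e.All Q := by
  induction e with
  | inp i => exact hPQ _ h
  | const q => trivial
  | scale q a ih => exact ih h
  | add a b iha ihb => exact ⟨iha h.1, ihb h.2⟩
  | sub a b iha ihb => exact ⟨iha h.1, ihb h.2⟩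

theorem All.of_forall {P : ι → Prop} (hP : ∀ i, P i) (e : Ex ι) : e.All P := by
  induction e with
  | inp i => exact hP _
  | const q => trivial
  | scale q a ih => exact ih
  | add a b iha ihb => exact ⟨iha, ihb⟩
  | sub a b iha ihb => exact ⟨iha, ihb⟩

/-- output node of the compiled expression -/
def outN (node : ι → ℕ) (base : ℕ) : Ex ι → ℕ
  | inp i => node i
  | const _ => base
  | scale _ a => base + a.size
  | add a b => base + a.size + b.size
  | sub a b => base + a.size + b.size

/-- gates of the compiled expression, fresh nodes `base, base+1, …` -/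
def comp (node : ι → ℕ) (base : ℕ) : Ex ι → List GGate
  | inp _ => []
  | const q => [GGate.const q base]
  | scale q a => a.comp node base ++ [GGate.scale q (a.outN node base) (base + a.size)]
  | add a b => a.comp node base ++ (b.comp node (base + a.size) ++
      [GGate.add (a.outN node base) (b.outN node (base + a.size)) (base + a.size + b.size)])
  | sub a b => a.comp node base ++ (b.comp node (base + a.size) ++
      [GGate.sub (a.outN node base) (b.outN node (base + a.size)) (base + a.size + b.size)])

theorem comp_length (node : ι → ℕ) (base : ℕ) (e : Ex ι) : (e.comp node base).length = e.size := by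
  induction e generalizing base with
  | inp i => rfl
  | const q => rfl
  | scale q a ih => simp [comp, size, ih]
  | add a b iha ihb => simp [comp, size, iha, ihb, add_assoc]
  | sub a b iha ihb => simp [comp, size, iha, ihb, add_assoc]

theorem comp_out (node : ι → ℕ) (base : ℕ) (e : Ex ι) :
    (e.comp node base).map GGate.out = List.range' base e.size := by
  induction e generalizing base with
  | inp i => rfl
  | const q => rfl
  | scale q a ih =>
    simp only [comp, size, List.map_append, ih, List.map_cons, List.map_nil, GGate.out]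
    rw [List.range'_concat]
    simp
  | add a b iha ihb =>
    simp only [comp, size, List.map_append, iha, ihb, List.map_cons, List.map_nil, GGate.out]
    rw [List.range'_concat, ← List.append_assoc]
    congr 1
    · have := List.range'_append (s := base) (m := a.size) (n := b.size) (step := 1)
      simp at this ⊢
    · simp [add_assoc]
  | sub a b iha ihb =>
    simp only [comp, size, List.map_append, iha, ihb, List.map_cons, List.map_nil, GGate.out]
    rw [List.range'_concat, ← List.append_assoc]
    congr 1
    · have := List.range'_append (s := base) (m := a.size) (n := b.size) (step := 1)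
      simp at this ⊢
    · simp [add_assoc]

theorem outN_lt (node : ι → ℕ) (base M : ℕ) (e : Ex ι) (hin : e.All fun i => node i < M)
    (hb : base + e.size ≤ M) : e.outN node base < M := by
  cases e with
  | inp i => exact hin
  | const q => simp only [size, outN] at *; omega
  | scale q a => simp only [size, outN] at *; omega
  | add a b => simp only [size, outN] at *; omega
  | sub a b => simp only [size, outN] at *; omega

theorem comp_wf (node : ι → ℕ) (base M : ℕ) (e : Ex ι) (he : e.WF)
    (hin : e.All fun i => node i < M) (hb : base + e.size ≤ M) :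
    ∀ g ∈ e.comp node base, g.WF M := by
  induction e generalizing base with
  | inp i => intro g hg; simp [comp] at hg
  | const q =>
    intro g hg
    simp only [comp, List.mem_singleton] at hg
    subst hg
    simp only [size] at hb
    exact ⟨he.1, he.2, by omega⟩
  | scale q a ih =>
    intro g hg
    simp only [size] at hb
    simp only [comp, List.mem_append, List.mem_singleton] at hg
    rcases hg with hg | rfl
    · exact ih base he.2 hin (by omega) g hg
    · exact ⟨he.1.1, he.1.2, outN_lt node base M a hin (by omega), by omega⟩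
  | add a b iha ihb =>
    intro g hg
    simp only [size] at hb
    simp only [comp, List.mem_append, List.mem_singleton] at hg
    rcases hg with hg | hg | rfl
    · exact iha base he.1 hin.1 (by omega) g hg
    · exact ihb _ he.2 hin.2 (by omega) g hg
    · exact ⟨outN_lt node base M a hin.1 (by omega), outN_lt node _ M b hin.2 (by omega), by omega⟩
  | sub a b iha ihb =>
    intro g hg
    simp only [size] at hb
    simp only [comp, List.mem_append, List.mem_singleton] at hg
    rcases hg with hg | hg | rfl
    · exact iha base he.1 hin.1 (by omega) g hg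
    · exact ihb _ he.2 hin.2 (by omega) g hg
    · exact ⟨outN_lt node base M a hin.1 (by omega), outN_lt node _ M b hin.2 (by omega), by omega⟩

/-- **Soundness of the compiler.** -/
theorem comp_sound (ε : ℚ) (x : ℕ → ℚ) (node : ι → ℕ) (base : ℕ) (e : Ex ι) (he : e.WF)
    (hok : ∀ g ∈ e.comp node base, gateOK ε x g = true) :
    |x (e.outN node base) - e.eval fun i => x (node i)| ≤ e.err * ε := by
  induction e generalizing base with
  | inp i => simp [outN, eval, err]
  | const q =>
    have h := hok _ (by simp [comp]; rfl)
    simpa [gateOK, outN, eval, err] using h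
  | scale q a ih =>
    have h1 := ih base he.2 fun g hg => hok g (by simp [comp, hg])
    have h2 := hok (GGate.scale q (a.outN node base) (base + a.size)) (by simp [comp])
    simp only [gateOK, decide_eq_true_eq] at h2
    simp only [outN, eval, err]
    push_cast
    have h3 : |q * x (a.outN node base) - q * a.eval (fun i => x (node i))| ≤ a.err * ε := by
      rw [← mul_sub, abs_mul, abs_of_nonneg he.1.1]
      calc _ ≤ 1 * |x (a.outN node base) - a.eval fun i => x (node i)| :=
            mul_le_mul_of_nonneg_right he.1.2 (abs_nonneg _)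
        _ = _ := one_mul _
        _ ≤ _ := h1
    have h4 := abs_add_le (x (base + a.size) - q * x (a.outN node base))
      (q * x (a.outN node base) - q * a.eval (fun i => x (node i)))
    rw [sub_add_sub_cancel] at h4
    linarith
  | add a b iha ihb =>
    have h1 := iha base he.1 fun g hg => hok g (by simp [comp, hg])
    have h2 := ihb (base + a.size) he.2 fun g hg => hok g (by simp [comp, hg])
    have h3 := hok (GGate.add (a.outN node base) (b.outN node (base + a.size))
      (base + a.size + b.size)) (by simp [comp])
    simp only [gateOK, decide_eq_true_eq] at h3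
    simp only [outN, eval, err]
    push_cast
    have h4 := abs_min_sub (x (a.outN node base)) (x (b.outN node (base + a.size)))
      (a.eval fun i => x (node i)) (b.eval fun i => x (node i))
    have h5 := abs_add_le (x (base + a.size + b.size) -
      min (x (a.outN node base) + x (b.outN node (base + a.size))) 1)
      (min (x (a.outN node base) + x (b.outN node (base + a.size))) 1 -
        min ((a.eval fun i => x (node i)) + (b.eval fun i => x (node i))) 1)
    rw [sub_add_sub_cancel] at h5
    linarith
  | sub a b iha ihb =>
    have h1 := iha base he.1 fun g hg => hok g (by simp [comp, hg])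
    have h2 := ihb (base + a.size) he.2 fun g hg => hok g (by simp [comp, hg])
    have h3 := hok (GGate.sub (a.outN node base) (b.outN node (base + a.size))
      (base + a.size + b.size)) (by simp [comp])
    simp only [gateOK, decide_eq_true_eq] at h3
    simp only [outN, eval, err]
    push_cast
    have h4 := abs_max_sub (x (a.outN node base)) (x (b.outN node (base + a.size)))
      (a.eval fun i => x (node i)) (b.eval fun i => x (node i))
    have h5 := abs_add_le (x (base + a.size + b.size) -
      max (x (a.outN node base) - x (b.outN node (base + a.size))) 0)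
      (max (x (a.outN node base) - x (b.outN node (base + a.size))) 0 -
        max ((a.eval fun i => x (node i)) - (b.eval fun i => x (node i))) 0)
    rw [sub_add_sub_cancel] at h5
    linarith

/-! ### derived expressions -/

/-- `1 - a` -/
def notE (a : Ex ι) : Ex ι := sub (const 1) a
/-- `max (a + b - 1) 0` -/
def andE (a b : Ex ι) : Ex ι := sub a (notE b)
/-- `min (a + b) 1` -/
def orE (a b : Ex ι) : Ex ι := add a b
/-- minimum -/
def minE (a b : Ex ι) : Ex ι := sub a (sub a b)
/-- maximum -/
def maxE (a b : Ex ι) : Ex ι := add b (sub a b)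
/-- `|a - b|` -/
def distE (a b : Ex ι) : Ex ι := add (sub a b) (sub b a)
/-- `if s = 0 then a else b` for definite `s` -/
def muxE (s a b : Ex ι) : Ex ι := add (sub a s) (sub b (notE s))
/-- `min (2^k * a) 1` -/
def dblE : ℕ → Ex ι → Ex ι
  | 0, a => a
  | k + 1, a => add (dblE k a) (dblE k a)
/-- the ramp `clamp (2^k * (a - t))` -/
def rampE (k : ℕ) (t : ℚ) (a : Ex ι) : Ex ι := dblE k (sub a (const t))
/-- sum of a list, capped at 1 -/
def sumE : List (Ex ι) → Ex ι
  | [] => const 0
  | a :: l => add a (sumE l)
/-- average of a list with weight `q` (usually `1 / length`) -/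
def avgE (q : ℚ) (l : List (Ex ι)) : Ex ι := sumE (l.map (scale q))

theorem eval_notE (x : ι → ℚ) (a : Ex ι) (ha : a.eval x ≤ 1) :
    (notE a).eval x = 1 - a.eval x := by
  simp only [notE, eval]
  exact max_eq_left (by linarith)

theorem eval_andE (x : ι → ℚ) (a b : Ex ι) (hb : b.eval x ≤ 1) :
    (andE a b).eval x = max (a.eval x + b.eval x - 1) 0 := by
  simp only [andE, eval]
  rw [eval_notE x b hb]
  congr 1
  ring

theorem eval_orE (x : ι → ℚ) (a b : Ex ι) : (orE a b).eval x = min (a.eval x + b.eval x) 1 := rfl

theorem eval_minE (x : ι → ℚ) (a b : Ex ι) (ha : 0 ≤ a.eval x) (hb : 0 ≤ b.eval x) :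
    (minE a b).eval x = min (a.eval x) (b.eval x) := by
  simp only [minE, eval]
  rcases le_total (a.eval x) (b.eval x) with h | h
  · rw [min_eq_left h, max_eq_right (a := a.eval x - b.eval x) (by linarith), sub_zero,
      max_eq_left ha]
  · rw [min_eq_right h, max_eq_left (a := a.eval x - b.eval x) (by linarith), sub_sub_cancel,
      max_eq_left hb]

theorem eval_maxE (x : ι → ℚ) (a b : Ex ι) (ha : a.eval x ≤ 1) (hb : b.eval x ≤ 1) :
    (maxE a b).eval x = max (a.eval x) (b.eval x) := by
  simp only [maxE, eval]
  rcases le_total (a.eval x) (b.eval x) with h | h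
  · rw [max_eq_right h, max_eq_right (a := a.eval x - b.eval x) (by linarith), add_zero,
      min_eq_left hb]
  · rw [max_eq_left h, max_eq_left (a := a.eval x - b.eval x) (by linarith), add_sub_cancel,
      min_eq_left ha]

theorem eval_distE (x : ι → ℚ) (a b : Ex ι) (ha : 0 ≤ a.eval x ∧ a.eval x ≤ 1)
    (hb : 0 ≤ b.eval x ∧ b.eval x ≤ 1) : (distE a b).eval x = |a.eval x - b.eval x| := by
  simp only [distE, eval]
  rcases le_total (a.eval x) (b.eval x) with h | h
  · rw [max_eq_right (a := a.eval x - b.eval x) (by linarith),
      max_eq_left (a := b.eval x - a.eval x) (by linarith), zero_add,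
      abs_of_nonpos (by linarith), neg_sub, min_eq_left (by linarith [ha.1, hb.2])]
  · rw [max_eq_left (a := a.eval x - b.eval x) (by linarith),
      max_eq_right (a := b.eval x - a.eval x) (by linarith), add_zero,
      abs_of_nonneg (by linarith), min_eq_left (by linarith [ha.2, hb.1])]

theorem eval_dblE (x : ι → ℚ) (k : ℕ) (a : Ex ι) (ha : 0 ≤ a.eval x ∧ a.eval x ≤ 1) :
    (dblE k a).eval x = min (2 ^ k * a.eval x) 1 := by
  induction k with
  | zero => simp [dblE, ha.2]
  | succ k ih =>
    simp only [dblE, eval, ih]
    have h0 : 0 ≤ 2 ^ k * a.eval x := mul_nonneg (by positivity) ha.1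
    rcases le_total (2 ^ k * a.eval x) 1 with h | h
    · rw [min_eq_left h, pow_succ]
      congr 1
      ring
    · rw [min_eq_right h, pow_succ, min_eq_right (by norm_num), min_eq_right (by nlinarith)]

theorem eval_rampE (x : ι → ℚ) (k : ℕ) (t : ℚ) (ht : 0 ≤ t) (a : Ex ι) (ha : a.eval x ≤ 1) :
    (rampE k t a).eval x = min (2 ^ k * max (a.eval x - t) 0) 1 := by
  rw [rampE, eval_dblE]
  · rfl
  · simp only [eval]
    exact ⟨le_max_right _ _, max_le (by linarith) zero_le_one⟩

theorem eval_muxE_zero (x : ι → ℚ) (s a b : Ex ι) (hs : s.eval x = 0) (ha : 0 ≤ a.eval x)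
    (ha1 : a.eval x ≤ 1) (hb : b.eval x ≤ 1) : (muxE s a b).eval x = a.eval x := by
  simp only [muxE, eval]
  rw [eval_notE x s (by rw [hs]; exact zero_le_one), hs, sub_zero, sub_zero, max_eq_left ha,
    max_eq_right (by linarith), add_zero, min_eq_left ha1]

theorem eval_muxE_one (x : ι → ℚ) (s a b : Ex ι) (hs : s.eval x = 1) (ha1 : a.eval x ≤ 1)
    (hb0 : 0 ≤ b.eval x) (hb : b.eval x ≤ 1) : (muxE s a b).eval x = b.eval x := by
  simp only [muxE, eval]
  rw [eval_notE x s (by rw [hs]), hs, sub_self, sub_zero, max_eq_right (by linarith),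
    max_eq_left hb0, zero_add, min_eq_left hb]

theorem eval_sumE (x : ι → ℚ) (l : List (Ex ι)) (hl : ∀ a ∈ l, 0 ≤ a.eval x) :
    (sumE l).eval x = min ((l.map fun a => a.eval x).sum) 1 := by
  induction l with
  | nil => simp [sumE, eval]
  | cons a l ih =>
    simp only [sumE, eval, List.map_cons, List.sum_cons]
    rw [ih fun b hb => hl b (List.mem_cons_of_mem _ hb)]
    have ha : 0 ≤ a.eval x := hl a List.mem_cons_self
    rcases le_total ((l.map fun a => a.eval x).sum) 1 with h | h
    · rw [min_eq_left h]
    · rw [min_eq_right h, min_eq_right (by linarith), min_eq_right (by linarith)]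

theorem eval_avgE (x : ι → ℚ) (q : ℚ) (hq : 0 ≤ q) (l : List (Ex ι))
    (hl : ∀ a ∈ l, 0 ≤ a.eval x ∧ a.eval x ≤ 1) (hlen : q * l.length ≤ 1) :
    (avgE q l).eval x = q * (l.map fun a => a.eval x).sum := by
  rw [avgE, eval_sumE]
  · have h1 : ((l.map (scale q)).map fun a => a.eval x).sum = q * (l.map fun a => a.eval x).sum := by
      rw [List.map_map]
      have : ((fun a => eval x a) ∘ scale q) = fun a : Ex ι => q * a.eval x := rfl
      rw [this, List.sum_map_mul_left]
    rw [h1]
    refine min_eq_left (le_trans ?_ hlen)
    refine mul_le_mul_of_nonneg_left ?_ hq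
    have : (l.map fun a => a.eval x).sum ≤ (l.map fun _ => (1 : ℚ)).sum :=
      List.sum_le_sum fun a ha => (hl a ha).2
    simpa using this
  · intro a ha
    obtain ⟨b, hb, rfl⟩ := List.mem_map.1 ha
    exact mul_nonneg hq (hl b hb).1

end Ex

end Crest.Agent.R289.Expr118
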