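import Crest.Agent.R289.FD_367
import Crest.Agent.R289.RobG_459

/-!
Row 289, block B (helper367).  `RobAt` (one vertex, square-dependent scalars) from helper459's
uniform `PS459.Rob`, and the Reed-Solomon instance with an arbitrary non-zero scalar for every
square and every register.
-/

set_option autoImplicit false
set_option linter.unusedSectionVars false

namespace Crest.Agent.R289.FD367

open Finset Crest.Agent.R289.LTC509 Crest.Agent.R289.PS459

variable {I J A : Type*} [Fintype I] [Fintype J]

open Classical in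
/-- the bridge from helper459's robustness -/
theorem RobAt.of_Rob {R : Set (J → A)} {L : Set (I → A)} {n C : ℕ} (h : Rob R L n C)
    (hI : Fintype.card I = n) (hJ : Fintype.card J = n) :
    RobAt {w : I → J → A | (∀ i, w i ∈ R) ∧ ∀ j, (fun i => w i j) ∈ L} (fun _ => R) (fun _ => L)
      (C : ℝ) := by
  intro r c hr hc
  obtain ⟨u, h1, h2, h3⟩ := h r hr (fun j i => c i j) hc
  refine ⟨u, ⟨h1, h2⟩, ?_⟩
  have e1 : (univ.filter fun i => ∃ j, u i j ≠ r i j) = univ.filter fun i => u i ≠ r i := by
    refine Finset.filter_congr fun i _ => ?_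
    rw [Function.ne_iff]
  have e2 : (univ.filter fun j => ∃ i, u i j ≠ c i j) =
      univ.filter fun j => (fun i => u i j) ≠ fun i => c i j := by
    refine Finset.filter_congr fun j _ => ?_
    rw [Function.ne_iff]
  have e3 : (univ.filter fun p : I × J => c p.1 p.2 ≠ r p.1 p.2) =
      univ.filter fun p : I × J => r p.1 p.2 ≠ c p.1 p.2 := by
    refine Finset.filter_congr fun p _ => ne_comm
  rw [e1, e2, e3, hI, hJ]
  have h4 : (((n * (univ.filter fun i => u i ≠ r i).card +
      n * (univ.filter fun j => (fun i => u i j) ≠ fun i => c i j).card : ℕ)) : ℝ) ≤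
      ((C * (univ.filter fun p : I × J => r p.1 p.2 ≠ c p.1 p.2).card : ℕ) : ℝ) := by
    refine Nat.cast_le.2 (le_trans (le_of_eq ?_) (h3.trans (le_of_eq ?_)))
    · congr!
    · congr!
  refine h4.trans (le_of_eq ?_)
  push_cast
  ring

variable {K : Type*} [Field K]

/-- multiplication by a non-zero scalar in every register -/
noncomputable def scal {ι : Type*} (m : ι → K) (hm : ∀ r, m r ≠ 0) : (ι → K) ≃ (ι → K) :=
  Equiv.piCongrRight fun r => Equiv.mulLeft₀ (m r) (hm r)

theorem scal_apply {ι : Type*} (m : ι → K) (hm : ∀ r, m r ≠ 0) (x : ι → K) (r : ι) :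
    scal m hm x r = m r * x r := rfl

/-- **Reed-Solomon local codes with an arbitrary non-zero scalar `m r i j` for every square and
every register**: rows (functions of `j`, `i` fixed) are in `RSC (d r) ψ`, columns (functions of
`i`, `j` fixed) in `RSC (e r) φ`, after multiplication by `m`. -/
theorem robAt_RS [Fintype K] {ι : Type*} [Fintype ι] (s : ℕ) (hn : 8 * s + 32 ≤ Fintype.card K)
    (φ : I ≃ Option K) (ψ : J ≃ Option K) (d e : ι → ℕ) (hd : ∀ r, d r ≤ s) (he : ∀ r, e r ≤ s)
    (m : I → J → ι → K) (hm : ∀ i j r, m i j r ≠ 0) :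
    RobAt
      {w : I → J → ι → K | (∀ i r, (fun j => m i j r * w i j r) ∈ RSC (d r) ψ (fun _ => (1 : K))) ∧
        ∀ j r, (fun i => m i j r * w i j r) ∈ RSC (e r) φ (fun _ => (1 : K))}
      (fun i => {u : J → ι → K | ∀ r, (fun j => m i j r * u j r) ∈ RSC (d r) ψ (fun _ => (1 : K))})
      (fun j => {u : I → ι → K | ∀ r, (fun i => m i j r * u i r) ∈ RSC (e r) φ (fun _ => (1 : K))})
      (92 : ℝ) := by
  have cI : Fintype.card I = Fintype.card K + 1 := by
    rw [Fintype.card_congr φ, Fintype.card_option]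
  have cJ : Fintype.card J = Fintype.card K + 1 := by
    rw [Fintype.card_congr ψ, Fintype.card_option]
  have h := (RobAt.of_Rob (rob_RSC (ι := ι) s hn φ ψ d e hd he (fun _ _ => (1 : K)) (fun _ _ => (1 : K))
    (fun _ _ => one_ne_zero) (fun _ _ => one_ne_zero)) cI cJ).twist
      (fun i j => scal (m i j) (hm i j))
  intro r c hr hc
  obtain ⟨w, hw, hle⟩ := h r c (fun i => hr i) (fun j => hc j)
  refine ⟨w, ⟨fun i r => hw.1 i r, fun j r => hw.2 j r⟩, ?_⟩
  exact_mod_cast hle

end Crest.Agent.R289.FD367
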