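import Crest.Agent.R289.FD_367

/-!
Row 289, block B (helper367).  Words of the abstract two-place square complex `FD.sq` as functions
`f : P → I → J → K` on the squares (`f g i j` = value on the square with even-even corner `g` and
labels `i, j` there); left translations; codes given by one local code per vertex type; the local
testability theorem in this form.
-/

set_option autoImplicit false
set_option linter.unusedSectionVars false

namespace Crest.Agent.R289.FD367

open Finset Crest.Agent.R289.LTC509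

namespace FD

variable {P I J K : Type*} [Group P] (F : FD P I J)

/-- the family of local tables of a function on the squares -/
noncomputable def toT (f : P → I → J → K) : Vx P → I → J → K
  | (false, false, g), i, j => f g i j
  | (true, false, g), i, j => f (g * (F.a i)⁻¹) i ((F.ja i).symm j)
  | (false, true, g), i, j => f (g * (F.b j)⁻¹) ((F.ib j).symm i) j
  | (true, true, g), i, j =>
      f (g * (F.b j)⁻¹ * (F.a (F.Phi.symm (i, j)).1)⁻¹) (F.Phi.symm (i, j)).1 (F.Phi.symm (i, j)).2

/-- the even-even tables -/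
def ofT (T : Vx P → I → J → K) (g : P) (i : I) (j : J) : K := T (false, false, g) i j

theorem ofT_toT (f : P → I → J → K) : ofT (F.toT f) = f := rfl

/-- the other description of the odd-odd corner -/
theorem oo_eq (g : P) (i : I) (j : J) :
    g * (F.b j)⁻¹ * (F.a (F.Phi.symm (i, j)).1)⁻¹ = g * (F.a i)⁻¹ * (F.b (F.Phi.symm (i, j)).2)⁻¹ := by
  have h := F.fac4 g (F.Phi.symm (i, j)).1 (F.Phi.symm (i, j)).2
  rw [F.ib_Phi (i, j), F.ja_Phi (i, j)] at h
  exact h.symm

variable [Fintype P] [Fintype I] [Fintype J]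

theorem toT_word (f : P → I → J → K) : F.sq.Word (F.toT f) := by
  constructor
  · rintro ⟨_ | _, _ | _, g⟩ i j
    · simp [SqC.oX, sq, xn, xj, toT]
    · simp only [SqC.oX, sq, xn, xj, toT, F.Phi_eo, mul_inv_cancel_right]
      have h := F.oo_eq (g * F.a i) i (F.ja ((F.ib j).symm i) j)
      rw [F.Phi_eo, mul_inv_cancel_right] at h
      rw [h]
    · simp [SqC.oX, sq, xn, xj, toT]
    · simp only [SqC.oX, sq, xn, xj, toT, F.ib_symm_Phi (i, j), F.oo_eq g i j]
  · rintro ⟨_ | _, _ | _, g⟩ i j
    · simp [SqC.oY, sq, yn, yi, toT]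
    · simp [SqC.oY, sq, yn, yi, toT]
    · simp only [SqC.oY, sq, yn, yi, toT, F.Phi_oe, mul_inv_cancel_right]
    · simp only [SqC.oY, sq, yn, yi, toT, F.ja_symm_Phi (i, j)]

theorem toT_ofT (T : Vx P → I → J → K) (h : F.sq.Word T) : F.toT (ofT T) = T := by
  funext v i j
  obtain ⟨_ | _, _ | _, g⟩ := v
  · rfl
  · exact (h.2 (false, true, g) i j).symm
  · exact (h.1 (true, false, g) i j).symm
  · have h1 := h.2 (true, true, g) i j
    have h2 := h.1 (true, false, g * (F.b j)⁻¹) (F.Phi.symm (i, j)).1 j
    simp only [SqC.oX, SqC.oY, sq, xn, xj, yn, yi, F.ja_symm_Phi (i, j)] at h1 h2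
    rw [h1, h2]
    rfl

/-- left translation -/
def lt (γ : P) (f : P → I → J → K) (g : P) (i : I) (j : J) : K := f (γ⁻¹ * g) i j

theorem toT_lt (γ : P) (f : P → I → J → K) (s t : Bool) (g : P) :
    F.toT (lt γ f) (s, t, g) = F.toT f (s, t, γ⁻¹ * g) := by
  funext i j
  cases s <;> cases t <;> simp only [toT, lt, mul_assoc]

/-- the code of a family of local codes, one for every vertex type -/
def Code (LC : Bool → Bool → Set (I → J → K)) : Set (P → I → J → K) :=
  {f | ∀ s t g, F.toT f (s, t, g) ∈ LC s t}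

theorem lt_mem {LC : Bool → Bool → Set (I → J → K)} (γ : P) {f : P → I → J → K}
    (hf : f ∈ F.Code LC) : lt γ f ∈ F.Code LC := fun s t g => by
  rw [toT_lt]
  exact hf s t _

open Classical in
/-- **Local testability** for functions on the squares. -/
theorem ltc [Nonempty I] [Nonempty J] {LC : Bool → Bool → Set (I → J → K)} {κ l : ℝ}
    (hκ : 0 ≤ κ) (hl : 4 * κ ^ 2 * l ^ 2 ≤ 1) (hR : F.sq.Rob (fun v => LC v.1 v.2.1) κ)
    (ha : EA F.a l) (ha' : EA (fun i => (F.a i)⁻¹) l) (hb : EA F.b l)
    (hb' : EA (fun j => (F.b j)⁻¹) l) (hne : ∀ s t, (LC s t).Nonempty) (f : P → I → J → K)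
    (hsmall : 16 * κ ^ 2 * (Fintype.card I * Fintype.card J) *
      ((univ.filter fun v : Vx P => F.toT f v ∉ LC v.1 v.2.1).card : ℝ) < Fintype.card P) :
    ∃ f' ∈ F.Code LC,
      (univ.filter fun v : Vx P => F.toT f' v ≠ F.toT f v).card ≤
        (2 * (Fintype.card I * Fintype.card J) + 1) *
          (univ.filter fun v : Vx P => F.toT f v ∉ LC v.1 v.2.1).card ∧
      (univ.filter fun g : P => f' g ≠ f g).card ≤
        (2 * (Fintype.card I * Fintype.card J) + 1) *
          (univ.filter fun v : Vx P => F.toT f v ∉ LC v.1 v.2.1).card := by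
  obtain ⟨T, hT, hW, hle⟩ := F.sq.ltc inferInstance inferInstance hκ (by norm_num : (0 : ℝ) ≤ 4) hl
    hR (F.exp ha ha' hb hb') (fun v => hne _ _) (F.toT f) (F.toT_word f) (by
      rw [card_Vx]
      linarith)
  have hTe := F.toT_ofT T hW
  refine ⟨ofT T, fun s t g => ?_, ?_, ?_⟩
  · rw [hTe]
    exact hT (s, t, g)
  · rw [hTe]
    exact hle
  · refine le_trans ?_ hle
    refine Finset.card_le_card_of_injOn (fun g => ((false, false, g) : Vx P)) ?_ ?_
    · intro g hg
      simp only [coe_filter, mem_univ, true_and, Set.mem_ofPred_eq] at hg ⊢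
      exact hg
    · intro g _ g' _ h
      simpa using h

end FD

end Crest.Agent.R289.FD367
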