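import Crest.Agent.R289.LTC_509

/-!
Row 289, block B (helper367).  The two-place square complex as an abstract object: a finite group
`P`, two families of elements `a : I → P`, `b : J → P` and label transports with
`a i * b (ja i j) = b j * a (ib j i)`.  Vertices are `Bool × Bool × P` (x-parity, y-parity, group
element), flags carry the labels of the vertex itself.

* `FD.sq` : the square complex in the sense of `LTC509.SqC`;
* `FD.exp` : expansion from the one-sided statements on `P`;
* `rob_of_local`, `RobAt.twist`, `RobAt.relabel` : agreement robustness;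
* left translations.
-/

set_option autoImplicit false
set_option linter.unusedSectionVars false

namespace Crest.Agent.R289.FD367

open Finset Crest.Agent.R289.LTC509

/-- Factorisation data of a two-place square complex. -/
structure FD (P I J : Type*) [Group P] where
  /-- x-directions -/
  a : I → P
  /-- y-directions -/
  b : J → P
  /-- transport of the y-label along the x-edge `i` -/
  ja : I → J ≃ J
  /-- transport of the x-label along the y-edge `j` -/
  ib : J → I ≃ I
  fac : ∀ i j, a i * b (ja i j) = b j * a (ib j i)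
  phi : Function.Bijective fun p : I × J => (ib p.2 p.1, ja p.1 p.2)

/-- the vertices: x-parity, y-parity, group element -/
abbrev Vx (P : Type*) := Bool × Bool × P

namespace FD

variable {P I J : Type*} [Group P] (F : FD P I J)

/-- the labels at the even-even corner versus those at the odd-odd corner -/
noncomputable def Phi : I × J ≃ I × J := Equiv.ofBijective _ F.phi

theorem Phi_apply (i : I) (j : J) : F.Phi (i, j) = (F.ib j i, F.ja i j) := rfl

theorem Phi_symm (i : I) (j : J) : F.Phi.symm (F.ib j i, F.ja i j) = (i, j) := by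
  rw [← F.Phi_apply, Equiv.symm_apply_apply]

theorem Phi_eo (i' : I) (j : J) :
    F.Phi.symm (i', F.ja ((F.ib j).symm i') j) = ((F.ib j).symm i', j) := by
  conv_lhs => rw [← (F.ib j).apply_symm_apply i']
  rw [Equiv.symm_apply_apply, F.Phi_symm]

theorem Phi_oe (i : I) (j' : J) :
    F.Phi.symm (F.ib ((F.ja i).symm j') i, j') = (i, (F.ja i).symm j') := by
  conv_lhs => rw [← (F.ja i).apply_symm_apply j']
  rw [Equiv.symm_apply_apply, F.Phi_symm]

theorem ib_Phi (p : I × J) : F.ib (F.Phi.symm p).2 (F.Phi.symm p).1 = p.1 :=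
  congrArg Prod.fst (F.Phi.apply_symm_apply p)

theorem ja_Phi (p : I × J) : F.ja (F.Phi.symm p).1 (F.Phi.symm p).2 = p.2 :=
  congrArg Prod.snd (F.Phi.apply_symm_apply p)

theorem ib_symm_Phi (p : I × J) : (F.ib (F.Phi.symm p).2).symm p.1 = (F.Phi.symm p).1 := by
  rw [Equiv.symm_apply_eq, F.ib_Phi]

theorem ja_symm_Phi (p : I × J) : (F.ja (F.Phi.symm p).1).symm p.2 = (F.Phi.symm p).2 := by
  rw [Equiv.symm_apply_eq, F.ja_Phi]

/-- x-neighbour -/
def xn : Vx P → I → Vx P
  | (false, s, g), i => (true, s, g * F.a i)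
  | (true, s, g), i => (false, s, g * (F.a i)⁻¹)

/-- y-neighbour -/
def yn : Vx P → J → Vx P
  | (s, false, g), j => (s, true, g * F.b j)
  | (s, true, g), j => (s, false, g * (F.b j)⁻¹)

/-- transport of the y-label along an x-edge -/
noncomputable def xj : Vx P → I → J → J
  | (false, false, _), i, j => F.ja i j
  | (true, false, _), i, j => (F.ja i).symm j
  | (false, true, _), i, j => F.ja ((F.ib j).symm i) j
  | (true, true, _), i, j => (F.Phi.symm (i, j)).2

/-- transport of the x-label along a y-edge -/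
noncomputable def yi : Vx P → J → I → I
  | (false, false, _), j, i => F.ib j i
  | (false, true, _), j, i => (F.ib j).symm i
  | (true, false, _), j, i => F.ib ((F.ja i).symm j) i
  | (true, true, _), j, i => (F.Phi.symm (i, j)).1

theorem fac1 (g : P) (i : I) (j : J) :
    g * F.a i * F.b (F.ja i j) = g * F.b j * F.a (F.ib j i) := by
  rw [mul_assoc, F.fac, ← mul_assoc]

theorem fac2 (g : P) (i : I) (j : J) :
    g * (F.a i)⁻¹ * F.b j = g * F.b (F.ja i j) * (F.a (F.ib j i))⁻¹ := by
  rw [mul_assoc, mul_assoc]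
  congr 1
  rw [inv_mul_eq_iff_eq_mul, ← mul_assoc, F.fac, mul_inv_cancel_right]

theorem fac3 (g : P) (i : I) (j : J) :
    g * F.a (F.ib j i) * (F.b (F.ja i j))⁻¹ = g * (F.b j)⁻¹ * F.a i := by
  rw [mul_assoc, mul_assoc]
  congr 1
  rw [eq_inv_mul_iff_mul_eq, ← mul_assoc, ← F.fac, mul_inv_cancel_right]

theorem fac4 (g : P) (i : I) (j : J) :
    g * (F.a (F.ib j i))⁻¹ * (F.b j)⁻¹ = g * (F.b (F.ja i j))⁻¹ * (F.a i)⁻¹ := by
  rw [mul_assoc, mul_assoc, ← mul_inv_rev, ← mul_inv_rev, F.fac]

/-- **The square complex.** -/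
noncomputable def sq : SqC (Vx P) I J where
  xn := F.xn
  xi := fun _ i => i
  xj := F.xj
  yn := F.yn
  yj := fun _ j => j
  yi := F.yi
  xxn := by
    rintro ⟨_ | _, s, g⟩ i <;> simp [xn]
  xxi := fun _ _ => rfl
  xxj := by
    rintro ⟨_ | _, _ | _, g⟩ i j
    · simp [xn, xj]
    · simp only [xn, xj, F.Phi_eo]
    · simp [xn, xj]
    · simp only [xn, xj, F.ib_symm_Phi (i, j), F.ja_Phi (i, j)]
  yyn := by
    rintro ⟨s, _ | _, g⟩ j <;> simp [yn]
  yyj := fun _ _ => rfl
  yyi := by
    rintro ⟨_ | _, _ | _, g⟩ j i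
    · simp [yn, yi]
    · simp [yn, yi]
    · simp only [yn, yi, F.Phi_oe]
    · simp only [yn, yi, F.ja_symm_Phi (i, j), F.ib_Phi (i, j)]
  comm_v := by
    rintro ⟨_ | _, _ | _, g⟩ i j
    · simp only [xn, yn, xj, yi, F.fac1]
    · simp only [xn, yn, xj, yi, Prod.mk.injEq, true_and]
      have h := F.fac3 g ((F.ib j).symm i) j
      rwa [Equiv.apply_symm_apply] at h
    · simp only [xn, yn, xj, yi, Prod.mk.injEq, true_and]
      have h := F.fac2 g i ((F.ja i).symm j)
      rwa [Equiv.apply_symm_apply] at h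
    · simp only [xn, yn, xj, yi, Prod.mk.injEq, true_and]
      have h := F.fac4 g (F.Phi.symm (i, j)).1 (F.Phi.symm (i, j)).2
      rwa [F.ib_Phi (i, j), F.ja_Phi (i, j)] at h
  comm_i := by
    rintro ⟨_ | _, _ | _, g⟩ i j
    · simp [xn, yn, xj, yi]
    · simp only [xn, yn, xj, yi, F.Phi_eo]
    · simp [xn, yn, xj, yi]
    · simp only [xn, yn, xj, yi, F.ib_symm_Phi (i, j)]
  comm_j := by
    rintro ⟨_ | _, _ | _, g⟩ i j
    · simp [xn, yn, xj, yi]
    · simp [xn, yn, xj, yi]
    · simp only [xn, yn, xj, yi, F.Phi_oe]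
    · simp only [xn, yn, xj, yi, F.ja_symm_Phi (i, j)]
  xne := by
    rintro ⟨_ | _, s, g⟩ i h <;> simp [xn] at h
  yne := by
    rintro ⟨s, _ | _, g⟩ j h <;> simp [yn] at h

end FD

section Expansion

variable {P I J : Type*} [Group P] [Fintype P] [Fintype I] [Fintype J] (F : FD P I J)

/-- one-graph expansion (the form of block B1) -/
def EA {P I : Type*} [Group P] [Fintype P] [Fintype I] (s : I → P) (l : ℝ) : Prop :=
  ∀ f : P → ℝ, (∀ g, 0 ≤ f g) → ∑ g, (∑ i, f (g * s i)) ^ 2 ≤
    (Fintype.card I : ℝ) ^ 2 * ((∑ g, f g) ^ 2 / Fintype.card P + l ^ 2 * ∑ g, f g ^ 2)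

theorem EA.div [Nonempty I] {s : I → P} {l : ℝ} (h : EA s l) (f : P → ℝ) (hf : ∀ g, 0 ≤ f g) :
    ∑ g, ((∑ i, f (g * s i)) / Fintype.card I) ^ 2 ≤
      (∑ g, f g) ^ 2 / Fintype.card P + l ^ 2 * ∑ g, f g ^ 2 := by
  have cI : (0 : ℝ) < Fintype.card I := by exact_mod_cast Fintype.card_pos
  have h1 := h f hf
  simp only [div_pow]
  rw [← Finset.sum_div, div_le_iff₀ (by positivity)]
  linarith

omit [Group P] [Fintype I] [Fintype J] in
theorem card_Vx : (Fintype.card (Vx P) : ℝ) = 4 * Fintype.card P := by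
  simp only [Vx, Fintype.card_prod, Fintype.card_bool]
  push_cast
  ring

omit [Group P] [Fintype I] [Fintype J] in
theorem four (f : Vx P → ℝ) (G : Bool → Bool → ℝ) (l : ℝ) (hf : ∀ v, 0 ≤ f v)
    (h : ∀ s t, G s t ≤ (∑ g, f (s, t, g)) ^ 2 / Fintype.card P + l ^ 2 * ∑ g, f (s, t, g) ^ 2) :
    G true true + G true false + (G false true + G false false) ≤
      4 / Fintype.card (Vx P) * (∑ v, f v) ^ 2 + l ^ 2 * ∑ v, f v ^ 2 := by
  have e1 : ∑ v, f v = (∑ g, f (true, true, g)) + (∑ g, f (true, false, g)) +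
      ((∑ g, f (false, true, g)) + (∑ g, f (false, false, g))) := by
    simp only [Fintype.sum_prod_type, Fintype.sum_bool]
  have e2 : ∑ v, f v ^ 2 = (∑ g, f (true, true, g) ^ 2) + (∑ g, f (true, false, g) ^ 2) +
      ((∑ g, f (false, true, g) ^ 2) + (∑ g, f (false, false, g) ^ 2)) := by
    simp only [Fintype.sum_prod_type, Fintype.sum_bool]
  have e3 : (4 : ℝ) / Fintype.card (Vx P) = 1 / Fintype.card P := by
    rw [card_Vx, div_mul_eq_div_div]
    norm_num
  have hn : ∀ s t, 0 ≤ ∑ g, f (s, t, g) := fun s t => Finset.sum_nonneg fun g _ => hf _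
  have h1 := h true true
  have h2 := h true false
  have h3 := h false true
  have h4 := h false false
  have n1 := hn true true
  have n2 := hn true false
  have n3 := hn false true
  have n4 := hn false false
  rw [e1, e2, e3]
  set A := ∑ g, f (true, true, g)
  set B := ∑ g, f (true, false, g)
  set C := ∑ g, f (false, true, g)
  set D := ∑ g, f (false, false, g)
  have hP : (0 : ℝ) ≤ 1 / Fintype.card P := by positivity
  have h5 : A ^ 2 + B ^ 2 + C ^ 2 + D ^ 2 ≤ (A + B + (C + D)) ^ 2 := by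
    nlinarith [mul_nonneg n1 n2, mul_nonneg n1 n3, mul_nonneg n1 n4, mul_nonneg n2 n3,
      mul_nonneg n2 n4, mul_nonneg n3 n4]
  have h6 := mul_le_mul_of_nonneg_left h5 hP
  have d1 : ∀ x : ℝ, x / Fintype.card P = 1 / Fintype.card P * x := fun x => by ring
  rw [d1] at h1 h2 h3 h4
  linarith

theorem FD.exp [Nonempty I] [Nonempty J] {l : ℝ} (ha : EA F.a l) (ha' : EA (fun i => (F.a i)⁻¹) l)
    (hb : EA F.b l) (hb' : EA (fun j => (F.b j)⁻¹) l) : F.sq.Exp 4 l := by
  constructor
  · intro h hh
    have e : ∑ v, ((∑ i, h (F.sq.xn v i)) / Fintype.card I) ^ 2 =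
        ∑ s : Bool × Bool, ∑ g, ((∑ i, h (F.xn (s.1, s.2, g) i)) / Fintype.card I) ^ 2 := by
      simp only [Fintype.sum_prod_type]
      rfl
    rw [e]
    have key := four h (fun s t => ∑ g, ((∑ i, h (F.xn (!s, t, g) i)) / Fintype.card I) ^ 2) l hh ?_
    · refine le_trans (le_of_eq ?_) key
      simp only [Fintype.sum_prod_type, Fintype.sum_bool, Bool.not_true, Bool.not_false]
      ring
    · rintro (_ | _) t
      · exact ha'.div (fun g => h (false, t, g)) (fun g => hh _)
      · exact ha.div (fun g => h (true, t, g)) (fun g => hh _)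
  · intro h hh
    have e : ∑ v, ((∑ j, h (F.sq.yn v j)) / Fintype.card J) ^ 2 =
        ∑ s : Bool × Bool, ∑ g, ((∑ j, h (F.yn (s.1, s.2, g) j)) / Fintype.card J) ^ 2 := by
      simp only [Fintype.sum_prod_type]
      rfl
    rw [e]
    have key := four h (fun s t => ∑ g, ((∑ j, h (F.yn (s, !t, g) j)) / Fintype.card J) ^ 2) l hh ?_
    · refine le_trans (le_of_eq ?_) key
      simp only [Fintype.sum_prod_type, Fintype.sum_bool, Bool.not_true, Bool.not_false]
      ring
    · rintro s (_ | _)
      · exact hb'.div (fun g => h (s, false, g)) (fun g => hh _)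
      · exact hb.div (fun g => h (s, true, g)) (fun g => hh _)

end Expansion

section Robustness

open Classical

variable {V I J K : Type*} [Fintype I] [Fintype J]

/-- agreement robustness of one local code `LC` with row codes `R i` (functions of `j`) and column
codes `C j` (functions of `i`). -/
def RobAt (LC : Set (I → J → K)) (R : I → Set (J → K)) (C : J → Set (I → K)) (κ : ℝ) : Prop :=
  ∀ r c : I → J → K, (∀ i, r i ∈ R i) → (∀ j, (fun i => c i j) ∈ C j) → ∃ w ∈ LC,
    ((Fintype.card J * (univ.filter fun i => ∃ j, w i j ≠ r i j).card +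
      Fintype.card I * (univ.filter fun j => ∃ i, w i j ≠ c i j).card : ℕ) : ℝ) ≤
      κ * ((univ.filter fun p : I × J => c p.1 p.2 ≠ r p.1 p.2).card : ℝ)

/-- `SqC.Rob` from agreement robustness at every vertex -/
theorem rob_of_local [Fintype V] (S : SqC V I J) {LC : V → Set (I → J → K)}
    {R : V → I → Set (J → K)} {C : V → J → Set (I → K)} {κ : ℝ}
    (hX : ∀ v i, ∀ t ∈ LC (S.xn v i), (fun j => t (S.xi v i) (S.xj v i j)) ∈ R v i)
    (hY : ∀ v j, ∀ t ∈ LC (S.yn v j), (fun i => t (S.yi v j i) (S.yj v j)) ∈ C v j)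
    (hR : ∀ v, RobAt (LC v) (R v) (C v) κ) : S.Rob LC κ := fun v T hT =>
  hR v (fun i j => S.oX T v i j) (fun i j => S.oY T v i j) (fun i => hX v i _ (hT _))
    (fun j => hY v j _ (hT _))

/-- the twist by arbitrary bijections of the alphabet, one for every square -/
theorem RobAt.twist {K' : Type*} {LC : Set (I → J → K)} {R : I → Set (J → K)}
    {C : J → Set (I → K)} {κ : ℝ} (h : RobAt LC R C κ) (σ : I → J → K' ≃ K) :
    RobAt {w : I → J → K' | (fun i j => σ i j (w i j)) ∈ LC}
      (fun i => {r | (fun j => σ i j (r j)) ∈ R i})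
      (fun j => {c | (fun i => σ i j (c i)) ∈ C j}) κ := by
  intro r c hr hc
  obtain ⟨w, hw, hle⟩ := h (fun i j => σ i j (r i j)) (fun i j => σ i j (c i j)) hr hc
  refine ⟨fun i j => (σ i j).symm (w i j), ?_, ?_⟩
  · simpa only [Set.mem_ofPred_eq, Equiv.apply_symm_apply] using hw
  · have e : ∀ i j (x : K'), (σ i j).symm (w i j) ≠ x ↔ w i j ≠ σ i j x := fun i j x => by
      rw [Ne, Equiv.symm_apply_eq]
    simp only [e]
    simpa only [ne_eq, EmbeddingLike.apply_eq_iff_eq] using hle

/-- relabelling of the two index sets -/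
theorem RobAt.relabel {I' J' : Type*} [Fintype I'] [Fintype J'] {LC : Set (I → J → K)}
    {R : I → Set (J → K)} {C : J → Set (I → K)} {κ : ℝ} (h : RobAt LC R C κ) (eI : I' ≃ I)
    (eJ : J' ≃ J) :
    RobAt {w : I' → J' → K | (fun i j => w (eI.symm i) (eJ.symm j)) ∈ LC}
      (fun i' => {r | (fun j => r (eJ.symm j)) ∈ R (eI i')})
      (fun j' => {c | (fun i => c (eI.symm i)) ∈ C (eJ j')}) κ := by
  intro r c hr hc
  obtain ⟨w, hw, hle⟩ := h (fun i j => r (eI.symm i) (eJ.symm j))
    (fun i j => c (eI.symm i) (eJ.symm j))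
    (fun i => by simpa only [Set.mem_ofPred_eq, Equiv.apply_symm_apply] using hr (eI.symm i))
    (fun j => by simpa only [Set.mem_ofPred_eq, Equiv.apply_symm_apply] using hc (eJ.symm j))
  refine ⟨fun i j => w (eI i) (eJ j), ?_, ?_⟩
  · simpa only [Set.mem_ofPred_eq, Equiv.apply_symm_apply] using hw
  · have c1 : (univ.filter fun i => ∃ j, w (eI i) (eJ j) ≠ r i j).card =
        (univ.filter fun i => ∃ j, w i j ≠ r (eI.symm i) (eJ.symm j)).card := by
      refine Finset.card_equiv eI fun i => ?_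
      simp only [mem_filter, mem_univ, true_and, Equiv.symm_apply_apply]
      rw [← eJ.exists_congr_right]
      simp only [Equiv.symm_apply_apply]
    have c2 : (univ.filter fun j => ∃ i, w (eI i) (eJ j) ≠ c i j).card =
        (univ.filter fun j => ∃ i, w i j ≠ c (eI.symm i) (eJ.symm j)).card := by
      refine Finset.card_equiv eJ fun j => ?_
      simp only [mem_filter, mem_univ, true_and, Equiv.symm_apply_apply]
      rw [← eI.exists_congr_right]
      simp only [Equiv.symm_apply_apply]
    have c3 : (univ.filter fun p : I' × J' => c p.1 p.2 ≠ r p.1 p.2).card =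
        (univ.filter fun p : I × J => c (eI.symm p.1) (eJ.symm p.2) ≠
          r (eI.symm p.1) (eJ.symm p.2)).card := by
      refine Finset.card_equiv (eI.prodCongr eJ) fun p => ?_
      simp only [mem_filter, mem_univ, true_and, Equiv.prodCongr_apply, Prod.map_fst,
        Prod.map_snd, Equiv.symm_apply_apply]
    rw [c1, c2, c3, Fintype.card_congr eI, Fintype.card_congr eJ]
    exact hle

theorem RobAt.mono {LC : Set (I → J → K)} {R R' : I → Set (J → K)} {C C' : J → Set (I → K)}
    {κ κ' : ℝ} (h : RobAt LC R C κ) (hR : ∀ i, R' i ⊆ R i) (hC : ∀ j, C' j ⊆ C j) (hκ : κ ≤ κ') :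
    RobAt LC R' C' κ' := by
  intro r c hr hc
  obtain ⟨w, hw, hle⟩ := h r c (fun i => hR i (hr i)) (fun j => hC j (hc j))
  exact ⟨w, hw, hle.trans (mul_le_mul_of_nonneg_right hκ (Nat.cast_nonneg _))⟩

end Robustness

end Crest.Agent.R289.FD367
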