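import Crest.Agent.R289.GlueD2_180
import Crest.Agent.R289.GlueD2_194

/-!
# Row 289: `Fam289 → Machine289` (block D complete; helper180)
-/

set_option autoImplicit false

namespace Crest.Agent.R289.D2180

open Crest.Agent.R289 Crest.Agent.R289.DefD

/-- **block D**: what block C delivers gives `Machine289` -/
theorem fam289_machine (h : Asm12.Fam289) : Machine289 :=
  GlueD194.machine289_of_fam289 (fun _ _ _ R => d2Stm R) h

end Crest.Agent.R289.D2180
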