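import Crest.Agent.R289.FamComb_715
import Crest.Agent.R289.Word2_508

/-!
# Row 289, E20_FamPTF: finite values without codes, and the PTF calculus of the word-level
constructions of `Word508` (helper715)

* `FP f` (`f : α → B`, `B` any finite type, no `PTCode`): every Boolean function of `f a` is PTF.
  `FP.toPTF`, `FP.case`, `FP.map`, `FP.map₂`, `FP.prodMk`, `FP.pi`, `FP.ite`, `FP.comp`,
  `FP.of_ptf`, `FP.of_num`, `FP.toNum`, `FP.const`, `FP.bitN`.
* `FP₂ p` (`p : α → ℕ → B`): the same for functions of a unit number.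
* the constructions `dnb`, `dpub`, `inb`, `ipub`, `onb`, `snb`, `spub`, product slots of `Word508` are
  polymorphic in the set of units; used with `U := ℕ` they are the index functions:
  `inb_comm`, `ipub_comm`, `snb_comm`, .. (intertwining) and `ptf_inb`, `fp_ipub`, `ptf_snb`, ..
-/

set_option autoImplicit false
set_option linter.dupNamespace false

namespace Crest.Agent.R289.FamPub715

open Crest.Agent.Lib.PT Crest.Agent.Lib.PT.Arith Crest.Agent.R288.PtDp115 Crest.Agent.R289
open Crest.Agent.R289.Tab858 Crest.Agent.R289.YIdx901 Crest.Agent.R289.FamComb715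
open Crest.Agent.R289.Word508

/-! ### values in a finite type without code -/

section FP

variable {α α' β : Type} [PTCode α] [PTCode α'] [PTCode β] {B C : Type}

/-- every Boolean function of `f a` is polynomial time -/
def FP (f : α → B) : Prop := ∀ F : B → Bool, PTF (fun a => F (f a))

theorem FP.of_ptf {B : Type} [PTCode B] [Finite B] {f : α → B} (h : PTF f) : FP f :=
  fun F => ptf_fin h F

theorem FP.toPTF [Finite B] {f : α → B} (h : FP f) (F : B → β) : PTF (fun a => F (f a)) := by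
  classical
  rcases isEmpty_or_nonempty α with hα | ⟨⟨a0⟩⟩
  · exact PTF.of_finite _
  · have : Fintype B := Fintype.ofFinite B
    have key : ∀ l : List B, PTF (fun a => if f a ∈ l then F (f a) else F (f a0)) := by
      intro l
      induction l with
      | nil => simpa using PTF.const (α := α) (F (f a0))
      | cons b l ih =>
        have h1 : PTPred (fun a => f a = b) := by
          refine PTPred.of_iff (PTF.toPTPred (h fun c => decide (c = b))) fun a => ?_
          simp
        refine PTF.of_eq (PTF.ite h1 (PTF.const (F b)) ih) fun a => ?_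
        by_cases hb : f a = b
        · simp [hb]
        · simp [hb]
    refine PTF.of_eq (key Finset.univ.toList) fun a => ?_
    simp

theorem FP.ptf {B : Type} [PTCode B] [Finite B] {f : α → B} (h : FP f) : PTF f :=
  h.toPTF fun b => b

theorem FP.iff_ptf {B : Type} [PTCode B] [Finite B] {f : α → B} : FP f ↔ PTF f :=
  ⟨FP.ptf, FP.of_ptf⟩

theorem FP.const (b : B) : FP (fun _ : α => b) := fun _ => PTF.const _

theorem FP.map {f : α → B} (h : FP f) (G : B → C) : FP (fun a => G (f a)) :=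
  fun F => h fun b => F (G b)

/-- substitution in the argument -/
theorem FP.comp {f : α → B} (h : FP f) {g : α' → α} (hg : PTF g) : FP (fun a => f (g a)) :=
  fun F => PTF.comp (g := fun a => F (f a)) (h F) hg

theorem FP.of_eq {f g : α → B} (h : FP f) (e : ∀ a, f a = g a) : FP g :=
  fun F => PTF.of_eq (h F) fun a => by rw [e]

/-- case distinction on the value -/
theorem FP.case [Finite B] {p : α → B} (hp : FP p) {f : B → α → β} (hf : ∀ x, PTF (f x)) :
    PTF (fun a => f (p a) a) := by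
  obtain ⟨n, ⟨e⟩⟩ := Finite.exists_equiv_fin B
  exact ptf_caseNum e hf (hp.toPTF fun b => ((e b : Fin n) : ℕ)) fun a => rfl

theorem FP.case' [Finite B] {p : α → B} (hp : FP p) {f : B → α → C} (hf : ∀ x, FP (f x)) :
    FP (fun a => f (p a) a) := fun F => hp.case fun x => hf x F

theorem FP.map₂ [Finite B] {D : Type} {f : α → B} {g : α → C} (hf : FP f) (hg : FP g)
    (G : B → C → D) : FP (fun a => G (f a) (g a)) :=
  hf.case' (f := fun x a => G x (g a)) fun x => hg.map (G x)

theorem FP.prodMk [Finite B] {f : α → B} {g : α → C} (hf : FP f) (hg : FP g) :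
    FP (fun a => (f a, g a)) := hf.map₂ hg Prod.mk

theorem FP.ite {p : α → Prop} [DecidablePred p] {f g : α → B} (hp : PTPred p) (hf : FP f)
    (hg : FP g) : FP (fun a => if p a then f a else g a) := by
  intro F
  refine PTF.of_eq (PTF.ite hp (hf F) (hg F)) fun a => ?_
  by_cases h : p a
  · simp [h]
  · simp [h]

/-- tuples -/
theorem FP.pi {κ : Type} [Finite κ] {B : κ → Type} [∀ s, Finite (B s)] {v : ∀ s, α → B s}
    (hv : ∀ s, FP (v s)) : FP (fun a s => v s a) := by
  intro F
  choose c e using fun s => Finite.exists_equiv_fin (B s)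
  let _ : ∀ s, PTCode (B s) := fun s => PTCode.ofInj (e s).some (e s).some.injective
  exact ptf_family (fun s => (hv s).ptf) F

/-- value given by its number -/
theorem FP.of_num {n : ℕ} (e : B ≃ Fin n) {f : α → B} {num : α → ℕ} (hn : PTF num)
    (h : ∀ a, num a = (e (f a) : Fin n)) : FP f :=
  fun F => ptf_caseNum e (f := fun b _ => F b) (fun _ => PTF.const _) hn h

theorem FP.toNum {n : ℕ} (e : B ≃ Fin n) {f : α → B} (h : FP f) :
    PTF (fun a => ((e (f a) : Fin n) : ℕ)) := by
  have : Finite B := Finite.of_equiv _ e.symm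
  exact h.toPTF fun b => ((e b : Fin n) : ℕ)

theorem FP.pred {f : α → B} (h : FP f) (P : B → Prop) : PTPred (fun a => P (f a)) := by
  classical
  exact PTPred.of_iff (PTF.toPTPred (h fun b => decide (P b))) fun a => by simp

/-- value given by finitely many tests -/
theorem FP.of_preds [Finite B] {f : α → B} (h : ∀ b, PTPred (fun a => f a = b)) : FP f := by
  classical
  intro F
  have : Fintype B := Fintype.ofFinite B
  have key : ∀ l : List B, PTF (fun a => decide (f a ∈ l) && F (f a)) := by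
    intro l
    induction l with
    | nil => simpa using PTF.const (α := α) false
    | cons b l ih =>
      refine PTF.of_eq (PTF.ite (h b) (PTF.const (F b)) ih) fun a => ?_
      by_cases hb : f a = b
      · simp [hb]
      · simp [hb]
  refine PTF.of_eq (key Finset.univ.toList) fun a => ?_
  simp

/-- functions of a unit number -/
def FP₂ (p : α → ℕ → B) : Prop := FP (fun x : α × ℕ => p x.1 x.2)

theorem FP₂.comp {p : α → ℕ → B} (hp : FP₂ p) {a : α' → α} {u : α' → ℕ} (ha : PTF a)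
    (hu : PTF u) : FP (fun x => p (a x) (u x)) :=
  FP.comp (f := fun x : α × ℕ => p x.1 x.2) hp (ha.prodMk hu)

theorem FP₂.slot {p : α → ℕ → B} (hp : FP₂ p) {g : α → ℕ → ℕ} (hg : PTF₂ g) :
    FP₂ (fun a u => p a (g a u)) := FP₂.comp hp PTF.fst hg

theorem FP₂.map {p : α → ℕ → B} (hp : FP₂ p) (G : B → C) : FP₂ (fun a u => G (p a u)) :=
  FP.map hp G

theorem FP₂.pi {κ : Type} [Finite κ] {B : κ → Type} [∀ s, Finite (B s)]
    {v : ∀ s, α → ℕ → B s} (hv : ∀ s, FP₂ (v s)) : FP₂ (fun a u s => v s a u) :=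
  FP.pi (v := fun s (x : α × ℕ) => v s x.1 x.2) hv

theorem FP₂.prodMk [Finite B] {p : α → ℕ → B} {q : α → ℕ → C} (hp : FP₂ p) (hq : FP₂ q) :
    FP₂ (fun a u => (p a u, q a u)) := FP.prodMk hp hq

theorem FP₂.div {n : α → ℕ} {p : α → ℕ → B} (hn : PTF n) (hp : FP₂ p) :
    FP₂ (fun a u => p a (u / n a)) :=
  FP₂.comp hp PTF.fst (PTF.natDiv PTF.snd (PTF.comp hn PTF.fst))

theorem FP₂.mod {n : α → ℕ} {p : α → ℕ → B} (hn : PTF n) (hp : FP₂ p) :
    FP₂ (fun a u => p a (u % n a)) :=
  FP₂.comp hp PTF.fst (PTF.natMod PTF.snd (PTF.comp hn PTF.fst))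

theorem FP₂.divmod {n : α → ℕ} {p : α → ℕ → ℕ → B} (hn : PTF n)
    (hp : FP (fun x : α × ℕ × ℕ => p x.1 x.2.1 x.2.2)) :
    FP₂ (fun a u => p a (u / n a) (u % n a)) :=
  FP.comp (f := fun x : α × ℕ × ℕ => p x.1 x.2.1 x.2.2) hp
    (PTF.fst.prodMk ((PTF.natDiv PTF.snd (PTF.comp hn PTF.fst)).prodMk
      (PTF.natMod PTF.snd (PTF.comp hn PTF.fst))))

/-- bit functions of the family, values without code -/
theorem FP₂.bitN {r : ℕ} (enc : B → Fin r → Bool) {p : α → ℕ → B} (hp : FP₂ p) :
    PTF (bitN enc p) := by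
  have h := ptf_disp (α := α × ℕ × ℕ) (β := Bool) (k := r)
    (f := fun s x => enc (p x.1 x.2.1) s) (d := fun _ => false) (i := fun x => x.2.2)
    (fun s => FP₂.comp hp PTF.fst (PTF.comp PTF.fst PTF.snd) fun b => enc b s)
    (PTF.const false) (PTF.comp PTF.snd PTF.snd)
  exact PTF.of_eq h fun x => rfl

end FP

/-! ### intertwining -/

section comm

variable {ι κ U V P : Type} {nb : ι → U → U} {nb' : ι → V → V} {pub : U → P} {pub' : V → P}
  {φ : U → V}

theorem dnb_comm (h : ∀ i u, φ (nb i u) = nb' i (φ u)) (i : ι ⊕ ι × ι) (u : U) :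
    φ (dnb nb i u) = dnb nb' i (φ u) := by
  rcases i with i | ⟨i, j⟩
  · exact h i u
  · show φ (nb j (nb i u)) = nb' j (nb' i (φ u))
    rw [h, h]

theorem dpub_comm (h : ∀ i u, φ (nb i u) = nb' i (φ u)) (hp : ∀ u, pub' (φ u) = pub u) (u : U) :
    dpub nb' pub' (φ u) = dpub nb pub u := by
  show (pub' (φ u), fun i => pub' (nb' i (φ u))) = (pub u, fun i => pub (nb i u))
  rw [hp]
  congr 1
  funext i
  rw [← h, hp]

theorem inb_comm (h : ∀ i u, φ (nb i u) = nb' i (φ u)) :
    ∀ (s : ℕ) (i : ItI s ι) (u : U), φ (inb nb s i u) = inb nb' s i (φ u)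
  | 0 => h
  | s + 1 => dnb_comm (inb_comm h s)

theorem ipub_comm (h : ∀ i u, φ (nb i u) = nb' i (φ u)) (hp : ∀ u, pub' (φ u) = pub u) :
    ∀ (s : ℕ) (u : U), ipub nb' pub' s (φ u) = ipub nb pub s u
  | 0 => hp
  | s + 1 => dpub_comm (inb_comm h s) (ipub_comm h hp s)

theorem onb_comm (h : ∀ i u, φ (nb i u) = nb' i (φ u)) (i : Option ι) (u : U) :
    φ (onb nb i u) = onb nb' i (φ u) := by
  rcases i with _ | i
  · rfl
  · exact h i u

variable {d : ℕ} {sm : Fin d → U → U} {sm' : Fin d → V → V}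

theorem snb_comm (h : ∀ i u, φ (nb i u) = nb' i (φ u)) (hs : ∀ a u, φ (sm a u) = sm' a (φ u))
    (i : ι ⊕ Fin d × ι) (u : U) : φ (snb nb sm i u) = snb nb' sm' i (φ u) := by
  rcases i with i | ⟨a, i⟩
  · exact h i u
  · show φ (nb i (sm a u)) = nb' i (sm' a (φ u))
    rw [h, hs]

theorem spub_comm (hs : ∀ a u, φ (sm a u) = sm' a (φ u)) (hp : ∀ u, pub' (φ u) = pub u) (u : U) :
    spub pub' sm' (φ u) = spub pub sm u := by
  show (pub' (φ u), fun a => pub' (sm' a (φ u))) = (pub u, fun a => pub (sm a u))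
  rw [hp]
  congr 1
  funext a
  rw [← hs, hp]

end comm

/-! ### polynomial time of the constructions, `U := ℕ` -/

section ptf

variable {α : Type} [PTCode α] {ι P : Type} {g : ι → α → ℕ → ℕ} {p : α → ℕ → P}

theorem ptf_dnb (hg : ∀ i, PTF₂ (g i)) (i : ι ⊕ ι × ι) :
    PTF₂ (fun a u => dnb (fun j => g j a) i u) := by
  rcases i with i | ⟨i, j⟩
  · exact hg i
  · exact ptf₂_comp (g := g j) (h := g i) (hg j) (hg i)

theorem fp_dpub [Finite ι] [Finite P] (hg : ∀ i, PTF₂ (g i)) (hp : FP₂ p) :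
    FP₂ (fun a u => dpub (fun j => g j a) (p a) u) :=
  FP₂.prodMk hp (FP₂.pi (v := fun i a u => p a (g i a u)) fun i => FP₂.slot hp (hg i))

theorem ptf_inb (hg : ∀ i, PTF₂ (g i)) :
    ∀ (s : ℕ) (i : ItI s ι), PTF₂ (fun a u => inb (fun j => g j a) s i u)
  | 0 => hg
  | s + 1 => ptf_dnb (g := fun i a u => inb (fun j => g j a) s i u) (ptf_inb hg s)

theorem fp_ipub [Finite ι] [Finite P] (hg : ∀ i, PTF₂ (g i)) (hp : FP₂ p) :
    ∀ s : ℕ, FP₂ (fun a u => ipub (fun j => g j a) (p a) s u)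
  | 0 => hp
  | s + 1 => by
    have : Fintype ι := Fintype.ofFinite ι
    exact fp_dpub (g := fun i a u => inb (fun j => g j a) s i u)
      (p := fun a u => ipub (fun j => g j a) (p a) s u) (ptf_inb hg s) (fp_ipub hg hp s)

theorem ptf_onb (hg : ∀ i, PTF₂ (g i)) (i : Option ι) :
    PTF₂ (fun a u => onb (fun j => g j a) i u) := by
  rcases i with _ | i
  · exact ptf₂_id
  · exact hg i

variable {d : ℕ} {sm : Fin d → α → ℕ → ℕ}

theorem ptf_snb (hg : ∀ i, PTF₂ (g i)) (hs : ∀ a, PTF₂ (sm a)) (i : ι ⊕ Fin d × ι) :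
    PTF₂ (fun x u => snb (fun j => g j x) (fun a => sm a x) i u) := by
  rcases i with i | ⟨a, i⟩
  · exact hg i
  · exact ptf₂_comp (g := g i) (h := sm a) (hg i) (hs a)

theorem fp_spub [Finite P] (hp : FP₂ p) (hs : ∀ a, PTF₂ (sm a)) :
    FP₂ (fun x u => spub (p x) (fun a => sm a x) u) :=
  FP₂.prodMk hp (FP₂.pi (v := fun a x u => p x (sm a x u)) fun a => FP₂.slot hp (hs a))

end ptf

/-! ### product of registers -/

section prod

variable {α : Type} [PTCode α] {J : Type} {ι P : J → Type} {U V : Type}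

theorem prodnb_comm {nb : ∀ j, ι j → U → U} {nb' : ∀ j, ι j → V → V} {φ : U → V}
    (h : ∀ j i u, φ (nb j i u) = nb' j i (φ u)) (i : Σ j, ι j) (u : U) :
    φ (nb i.1 i.2 u) = nb' i.1 i.2 (φ u) := h i.1 i.2 u

theorem ptf_prodnb {g : ∀ j, ι j → α → ℕ → ℕ} (hg : ∀ j i, PTF₂ (g j i)) (i : Σ j, ι j) :
    PTF₂ (fun a u => g i.1 i.2 a u) := hg i.1 i.2

theorem fp_prodpub [Finite J] [∀ j, Finite (P j)] {p : ∀ j, α → ℕ → P j}
    (hp : ∀ j, FP₂ (p j)) : FP₂ (fun a u j => p j a u) := FP₂.pi hp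

end prod

end Crest.Agent.R289.FamPub715
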