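import Crest.Agent.R289.FamU2_782
import Crest.Agent.R289.ExactI_654
import Crest.Agent.R289.GapObj_719

/-!
# Row 289, block C: the uniform part is closed (helper782)

* `exactM` : the exact facts of every member, gap and density `1 / 15616`;
* `hWM` : the legal words are the words of the legal configurations;
* **`fam_of_HC`** : the instance clause `HC` gives `Fam289`.
-/

set_option autoImplicit false
set_option linter.unusedSectionVars false

namespace Crest.Agent.R289.FamU782

open Crest.PPADPCP Crest.Agent.Lib.PT Crest.Agent.R289 Crest.Agent.R289.DefD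
open Crest.Agent.R289.Word508 Crest.Agent.R289.Asm12 Crest.Agent.R289.DefC
open Crest.Agent.R289.DefI Crest.Agent.R289.InsObj576 Crest.Agent.R289.Mem12
open Crest.Agent.R289.Compile827 Crest.Agent.R289.UFam715

variable {D : Obj} {M0 : ℕ} {lam0 Kr : ℝ} {h : D.OK M0 lam0 Kr} {W c0 : ℕ}

/-- **the exact facts of a member** -/
theorem exactM (h4 : 4 ≤ M0) (hl : lam0 ≤ 1 / 4096) (i : Mem h W c0) :
    Exact (semM h W c0) i i.C i.w0 (1 / 15616) (1 / 15616) :=
  ExactI654.exactI (fun i : Mem h W c0 => i.I) (fun i => clkI i) i (hypM i) (hx0M i) (hb0M i)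
    (codeC_eq i) (GapObj719.numM h4 hl i) (clkOK i)

/-- **the legal words of a member** -/
theorem hWM (i : Mem h W c0) : ∀ w ∈ (semM h W c0).W i i.C, ∃ f, i.lm.Legal f ∧ w = i.word f := by
  intro w hw
  have h1 := ExactI654.W_eq (fun i : Mem h W c0 => i.I) (fun i => clkI i) i (hypM i) (hx0M i)
    (hb0M i) (codeC_eq i) (clkOK i)
  have h2 : w ∈ SemN844.W (hypM i) (hx0M i) (hb0M i) (clkI i).cw := by
    rw [← h1]
    exact hw
  exact (SemN844.mem_W_iff (hypM i) (hx0M i) (hb0M i) (clkI i).cw w).1 h2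

/-- **the instance clause gives `Fam289`** -/
theorem fam_of_HC (h : D.OK M0 lam0 Kr) (W c0 : ℕ) (hK : 0 ≤ Kr) (h4 : 4 ≤ M0)
    (hl : lam0 ≤ 1 / 4096) {gN gM : (cst h W).Lab (ZMod 3) → Bool} (hH : HC h W c0 gN gM) :
    Fam289 :=
  fam_of_exact h W c0 hK h4 (hl.trans (by norm_num)) (g := 1 / 15616) (ρ := 1 / 15616)
    (by norm_num) (by norm_num) hWM (exactM h4 hl) hH

end Crest.Agent.R289.FamU782
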