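import Crest.Agent.R289.UFam_715
import Crest.Agent.R289.ULSteps_579
import Crest.Agent.R289.DefIFin_465

/-!
# Row 289, block C: top joint over a family of instances of `DefI_306` (helper782)

`fam_of_sem` : for a family `I : Inst → Ins c` of `DefI_306` with clock moves `mc i`, public data
`pc i` of the clock and a local code of label words with slots `nb0 i`, semantic data which are
local over the FRAME of `DefI_306` (frame moves, public data `pd`), the exact facts, and base tables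
of frame moves and code slots give `Fam289`.
-/

set_option autoImplicit false
set_option linter.unusedSectionVars false

namespace Crest.Agent.R289.TopU782

open Crest.PPADPCP Crest.Agent.Lib.PT Crest.Agent.R289 Crest.Agent.R289.DefD
open Crest.Agent.R289.Word508 Crest.Agent.R289.ULoc406 Crest.Agent.R289.ULAsm406
open Crest.Agent.R289.UFam715 Crest.Agent.R289.ULSteps579 Crest.Agent.R289.DefI
open Crest.Agent.R289.Asm12 Crest.Agent.R289.DefIFin465

/-! ### multiplicity -/

theorem nbMult_inj {ι U : Type} [Fintype U] {nb : ι → U → U}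
    (h : ∀ i, Function.Injective (nb i)) : NbMult nb 1 := by
  classical
  have h1 := nbMult_of_fiber nb 1 (fun i v => by
    rw [Finset.card_le_one]
    intro a ha b hb
    simp only [Finset.mem_filter, Finset.mem_univ, true_and] at ha hb
    exact h i (ha.trans hb.symm))
  simpa using h1

section frame
variable {K : Type} [Field K] {c : Cst K} (I : Ins c) {Gc Pc : Type}
  {mc : Gc → I.U → I.U} (pc : I.U → Pc)

/-- the moves of the frame are injective -/
theorem frame_inj (hmc : ∀ g, Function.Injective (mc g)) (g : c.Gen Gc) :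
    Function.Injective ((I.frame mc pc).act g) := by
  cases g with
  | fwd g =>
    rintro ⟨a, b⟩ ⟨a', b'⟩ h
    have h' : (I.act g a, b) = (I.act g a', b') := h
    simp only [Prod.mk.injEq, EmbeddingLike.apply_eq_iff_eq] at h'
    rw [h'.1, h'.2]
  | bwd g =>
    rintro ⟨a, b⟩ ⟨a', b'⟩ h
    have h' : ((I.act g).symm a, b) = ((I.act g).symm a', b') := h
    simp only [Prod.mk.injEq, EmbeddingLike.apply_eq_iff_eq] at h'
    rw [h'.1, h'.2]
  | cas j =>
    rintro ⟨a, b⟩ ⟨a', b'⟩ h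
    have h' : (I.mv j a, b) = (I.mv j a', b') := h
    simp only [Prod.mk.injEq, EmbeddingLike.apply_eq_iff_eq] at h'
    rw [h'.1, h'.2]
  | t1 j =>
    rintro ⟨a, b⟩ ⟨a', b'⟩ h
    have h' : (a, I.h1 j * b) = (a', I.h1 j * b') := h
    simp only [Prod.mk.injEq, mul_right_inj] at h'
    rw [h'.1, h'.2]
  | t2 j =>
    rintro ⟨a, b⟩ ⟨a', b'⟩ h
    have h' : (a, I.h2 j * b) = (a', I.h2 j * b') := h
    simp only [Prod.mk.injEq, mul_right_inj] at h'
    rw [h'.1, h'.2]
  | tm j =>
    rintro ⟨a, b⟩ ⟨a', b'⟩ h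
    have h' : (a, (I.gam j)⁻¹ * b) = (a', (I.gam j)⁻¹ * b') := h
    simp only [Prod.mk.injEq, mul_right_inj] at h'
    rw [h'.1, h'.2]
  | ck g => exact hmc g

theorem frame_mult (hmc : ∀ g, Function.Injective (mc g)) :
    NbMult (U := I.U) ((I.frame mc pc).act) 1 := nbMult_inj (U := I.U) (frame_inj I pc hmc)

end frame

theorem NbMult.mono' {ι U : Type} [Fintype U] {nb : ι → U → U} {m m' : ℝ} (h : NbMult nb m)
    (hm : m ≤ m') : NbMult nb m' := fun i E =>
  (h i E).trans (mul_le_mul_of_nonneg_right hm (frac_nonneg _))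

/-! ### the family -/

section family

variable {K : Type} [Field K] [Finite K] {c : Cst K} {Inst : Type} (I : Inst → Ins c)
  {Ck Gc Pc ι0 P0 : Type} (mc : ∀ i, Gc → (I i).U → (I i).U) (pc : ∀ i, (I i).U → Pc)
  (nb0 : ∀ i, ι0 → (I i).U → (I i).U) (pub0 : ∀ i, (I i).U → P0)

/-- base steps of the machine: frame moves and slots of the code -/
def mvF (i : Inst) : c.Gen Gc ⊕ ι0 → (I i).U → (I i).U :=
  mvS (U := fun i => (I i).U) (fun i => ((I i).frame (mc i) (pc i)).act) nb0 i

/-- base public data of the machine -/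
def pubF (i : Inst) (u : (I i).U) : (c.PD × Pc) × P0 :=
  pubS2 (U := fun i => (I i).U) (fun i => ((I i).frame (mc i) (pc i)).pub) pub0 i u

@[simp] theorem mvF_inl (i : Inst) (g : c.Gen Gc) (u : (I i).U) :
    mvF I mc pc nb0 i (.inl g) u = ((I i).frame (mc i) (pc i)).act g u := rfl

@[simp] theorem mvF_inr (i : Inst) (s : ι0) (u : (I i).U) :
    mvF I mc pc nb0 i (.inr s) u = nb0 i s u := rfl

@[simp] theorem pubF_eq (i : Inst) (u : (I i).U) :
    pubF I mc pc pub0 i u = (((I i).pd u, pc i u), pub0 i u) := rfl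

/-- **the top joint** -/
theorem fam_of_sem [Nonempty c.A.Stg] [Finite Ck] [Nonempty Ck] [Finite Gc] [Finite Pc]
    [Nonempty Pc] [Finite ι0] [Finite P0] [Nonempty P0] [∀ i, Nonempty (I i).Γ]
    {Jr J J' : Type} [Finite Jr] [Finite J] [Finite J'] {V : J → Type} {V' : J' → Type}
    [∀ j, Finite (V j)] [∀ j, Finite (V' j)]
    (D : Sem Inst (fun i => (I i).U) (c.Lab Ck) Jr J J' V V')
    (hD : D.Loc (fun i => ((I i).frame (mc i) (pc i)).act)
      (fun i => ((I i).frame (mc i) (pc i)).pub))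
    (hmc : ∀ i g, Function.Injective (mc i g))
    {R0 : CRules ι0 (c.Lab Ck) P0} {C : ∀ i, Set ((I i).U → c.Lab Ck)}
    {w0 : ∀ i, (I i).U → c.Lab Ck} {m zs r0 d0 cc θ g ρ : ℝ}
    (hcode : ∀ i, CAx R0 (nb0 i) (pub0 i) (C i) m zs r0 d0 cc θ)
    (hzs : 0 < zs) (hr0 : 0 < r0) (hd0 : 0 < d0) (hc : 0 ≤ cc) (hθ : θ ≤ 1 / 4)
    (hg : 0 < g) (hρ : 0 < ρ)
    (hex : ∀ i, Exact D i (C i) (w0 i) g ρ) (gN gM : c.Lab Ck → Bool)
    (H : ∀ n0 : ℕ, ∃ (T : BaseT (c.Gen Gc ⊕ ι0) (c.Lab Ck) ((c.PD × Pc) × P0)) (a b : ℕ),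
      T.PT ∧ ∀ E : EOL, E.WF → ∃ i : Inst,
        T.On E (mvF I mc pc nb0 i) (pubF I mc pc pub0 i) (w0 i) (D.W i (C i)) (D.N i) (D.M i)
          gN gM n0 a b) :
    Fam289 := by
  have : Nonempty (c.Lab Ck) := nonemptyLab c
  refine fam289_of_sem (mv := mvF I mc pc nb0) (pub := pubF I mc pc pub0) (nb0 := nb0)
    (pub0 := pub0) (D := D) (mm := max m 1) (Real.inr (mv := fun i => ((I i).frame (mc i) (pc i)).act)
      (pub := fun i => ((I i).frame (mc i) (pc i)).pub)) (Sem.Loc.inl hD) hcode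
    (fun i => ?_) (le_max_right _ _) hzs hr0 hd0 hc hθ hg hρ hex gN gM H
  have h1 : NbMult (U := (I i).U) ((I i).frame (mc i) (pc i)).act (max m 1) :=
    NbMult.mono' (frame_mult (I i) (pc i) (hmc i)) (le_max_right _ _)
  have h2 : NbMult (nb0 i) (max m 1) := NbMult.mono' (hcode i).mult (le_max_left _ _)
  exact nbMult_mvS (U := fun i => (I i).U) (mv := fun i => ((I i).frame (mc i) (pc i)).act)
    (nb0 := nb0) h1 h2

end family

end Crest.Agent.R289.TopU782
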