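import Crest.Agent.R289.Mem_12
import Crest.Agent.R289.RegsObj_335
import Crest.Agent.R289.ClockObj_698
import Crest.Agent.R289.HypObj_146
import Crest.Agent.R289.LabEq_560
import Crest.Agent.R289.TopU_782

/-!
# Row 289, block C: the uniform part over the family `Mem12.Mem` (helper782)

* `hypM`, `hx0M`, `hb0M`, `lmM` : the literal machine of a member (`LMI827.lmI`);
* `nbc`, `nb0`, `codeM` : clock slots, slots and code of the labels; `caxM` : the local code with
  constants and rules independent of the member;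
* `codeM_eq` : the code words are the label words of the configurations over `XS`, `ZS` with `t ≤ L`.
-/

set_option autoImplicit false
set_option linter.unusedSectionVars false

namespace Crest.Agent.R289.FamU782

open Crest.PPADPCP Crest.Agent.Lib.PT Crest.Agent.R289 Crest.Agent.R289.DefD
open Crest.Agent.R289.Word508 Crest.Agent.R289.Asm12 Crest.Agent.R289.DefC
open Crest.Agent.R289.DefI Crest.Agent.R289.InsObj576 Crest.Agent.R289.Mem12
open Crest.Agent.R289.Compile827 Crest.Agent.R289.RegsObj335 Crest.Agent.R289.RegsFac335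
open Crest.Agent.R289.LUofTP239 Crest.Agent.R289.ClockU698 Crest.Agent.R289.ClockE698
open Crest.Agent.R289.Clock425

instance fact3 : Fact (Nat.Prime 3) := ⟨by norm_num⟩

variable {D : Obj} {M0 : ℕ} {lam0 Kr : ℝ} {h : D.OK M0 lam0 Kr} {W c0 : ℕ}

/-! ### the machine of a member -/

section mem
variable (i : Mem h W c0)

theorem hypM : LMI827.Hyp i.I (CG D i.kP i.kR) (HypObj146.CT D i.kT) i.P.tt :=
  HypObj146.hyp h i.P i.lay i.ok i.h0

theorem hx0M : (cst h W).A.Legal i.I.act i.I.pubC i.I.stg0 (i.I.con i.I.xs) :=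
  HypObj146.hx0 h i.P i.lay i.ok

theorem hb0M : ∀ ρ, ¬ (i.I.stg0 = (cst h W).A.tgt ρ ∧
    (cst h W).A.Bk i.I.act i.I.pubC ρ (i.I.con i.I.xs)) :=
  HypObj146.hb0 h i.P i.lay i.ok

/-- content words of degree one -/
abbrev XM : Type := LMI827.XS i.I (CG D i.kP i.kR)

/-- certificate words -/
abbrev ZM : Type := LMI827.ZS i.I (CG D i.kP i.kR) (HypObj146.CT D i.kT)

/-- **the labelled machine of a member** -/
noncomputable def lmM : LM (XM i) (ZM i) (cst h W).A.Tr :=
  LMI827.lmI (hypM i) (hx0M i) (hb0M i)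

/-! ### the code of the labels -/

/-- slots of the clock register -/
noncomputable def nbc : Slot (SJ 3) → i.U → i.U := cnbr i.e (sg i.siz)

/-- slots of the label code -/
noncomputable def nb0 : SO D (Slot (SJ 3)) → i.I.U → i.I.U := labNbO D (nbc i)

/-- clock code -/
def clkM : Set (i.U → ZMod 3) := {w | ∃ t ≤ i.I.L, w = i.cw t}

/-- code of the labels -/
def codeM : Set (i.I.U → (cst h W).Lab (ZMod 3)) := labCO h W i.kP i.kR i.kT (clkM i)

theorem clk_CAxM : CAx (clkRules 3 (SJ 3)) (nbc i) (fun _ => ()) (clkM i)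
    1 (1 / 205) (1 / 8) (1 / 2) 16 (1 / 4) := by
  have : Nonempty (Fin i.siz.rho) := ⟨(i.e (Classical.arbitrary i.U)).2.2.2⟩
  exact ClockObj698.cw_CAx i.I i.e (mixes_sg i.siz) (by norm_num) le_rfl

/-- label word of a configuration -/
noncomputable def labM (f : Conf (XM i) (ZM i) (cst h W).A.Tr) : i.I.U → (cst h W).Lab (ZMod 3) :=
  i.I.labE i.cw ⟨f.l, f.t, f.x1.1, f.z1.1, f.x2.1, f.z2.1⟩

/-- **the code words are the label words of the configurations** -/
theorem codeM_eq : codeM i = {w | ∃ f : Conf (XM i) (ZM i) (cst h W).A.Tr,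
    f.t ≤ i.I.L ∧ w = labM i f} := by
  have h1 := LabCAx560.labC_eq (I := i.I) (Ck := ZMod 3)
    (LabCAx560.cur (CG D i.kP i.kR 1)) (LabCAx560.cur (CG D i.kP i.kR 4))
    (LabCAx560.cur (HypObj146.CT D i.kT 1)) (LabCAx560.cur (HypObj146.CT D i.kT 2)) (clkM i)
  have h2 := LabCAx560.LabCode_labS (I := i.I) (CG D i.kP i.kR) (HypObj146.CT D i.kT) i.cw i.I.L
  exact h1.trans h2

end mem

/-- constants of the label code -/
structure CK (D : Obj) where
  n : ℕ
  zs : ℝ
  r0 : ℝ
  d0 : ℝ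
  cc : ℝ
  zs_pos : 0 < zs
  r0_pos : 0 < r0
  d0_pos : 0 < d0
  cc_nn : 0 ≤ cc

/-- **the local code of the labels**, constants and rules before the member -/
theorem caxM (h : D.OK M0 lam0 Kr) (W c0 : ℕ) (hK : 0 ≤ Kr) (h4 : 4 ≤ M0) (hl : lam0 ≤ 1 / 64) :
    ∃ k : CK D, ∀ i : Mem h W c0,
      CAx (labRO h W k.n (P := Unit) (clkRules 3 (SJ 3))) (nb0 i) (fun _ => ()) (codeM i)
        1 k.zs k.r0 k.d0 k.cc (1 / 4) := by
  obtain ⟨n, hn⟩ := lab_obj h hK h4 hl
  obtain ⟨m, hF⟩ := fac_obj D h hK h4 hl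
  refine ⟨⟨n, ZS (VS (Option D.K)) (zsP D Kr) (cP D) (1 / 205), RS (1 / 8), DS (1 / 2),
    5 * CS (VS (Option D.K)) (zsP D Kr) (cP D) 16, ZS_pos hF (by norm_num),
    RS_pos (by norm_num), DS_pos (by norm_num), ?_⟩, fun i => ?_⟩
  · have := three_le_CS (VS (Option D.K)) (zsP D Kr) (cP D) 16
    linarith
  · exact hn W i.kP i.kR i.kT _ _ Unit _ (nbc i) (clkM i) _ _ _ _ _ (by norm_num) (clk_CAxM i)

end Crest.Agent.R289.FamU782
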