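import Crest.Agent.R289.FamW_970
import Crest.Agent.R289.Asm_12

/-!
# Row 289, leaf D7b (helper970): word-level families give `Asm12.Fam289`
-/

set_option autoImplicit false

namespace Crest.Agent.R289.FamX970

open Crest.PPADPCP Crest.Agent.Lib.PT Crest.Agent.R289 Crest.Agent.R289.DefD
open Crest.Agent.R289.Word508 Crest.Agent.R289.GlueD194 Crest.Agent.R289.FamW970
open Crest.Agent.R289.Tab858

variable {ι A P : Type} {k l r : ℕ} [Fintype ι] [Nonempty A] [Nonempty P]

theorem distW_self {U Γ : Type} [Fintype U] (w : U → Γ) : distW w w = 0 :=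
  frac_eq_zero fun _ h => h rfl

/-- **D7b**: word-level families for all `n0`, with one choice of rules and constants, give `Fam289` -/
theorem fam289_of_wfam {R : MRules ι A P} {eι : ι ≃ Fin k} {enc : A → (Fin l → Bool)}
    {encP : P → (Fin r → Bool)} {i0 : ι} {m zs r0 d0 c θ γ : ℝ}
    (H : ∀ n0 : ℕ, Nonempty (WFam R eι enc encP i0 m zs r0 d0 c θ γ n0))
    (he : Function.Injective enc) (heP : Function.Injective encP) (hθ : θ ≤ 1 / 4)
    (hzs : 0 < zs) (hd0 : 0 < d0) (hγ : 0 ≤ γ) (h1 : 5 * γ < r0) (h2 : 5 * γ < d0) :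
    Asm12.Fam289 := by
  have hr0 : 0 < r0 := by linarith
  have hK1 : (1 : ℝ) ≤ max 1 (max (c + 1) (Fintype.card ι * m)) := le_max_left _ _
  set K : MConst := mconst zs r0 d0 (max 1 (max (c + 1) (Fintype.card ι * m))) γ hzs hr0 hd0 hK1 hγ
    with hK
  refine ⟨k, l, r, R.toL eι enc encP, K, h1, h2, fun n0 => ?_⟩
  obtain ⟨F⟩ := H n0
  obtain ⟨G⟩ := fam_of_wfam F he heP hθ K le_rfl le_rfl le_rfl
    (le_trans (le_max_left _ _) (le_max_right _ _))
    (le_trans (le_max_right _ _) (le_max_right _ _)) le_rfl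
  refine ⟨G.A, G.b, G.n, fun p => if p.2.1 < k then G.nb p.1 p.2.2 p.2.1 else 0,
    fun p => (G.pb p.1 p.2.1).getD p.2.2 false, fun p => (G.wb p.1 p.2.1).getD p.2.2 false,
    G.cA, G.cB, PTU.toPTF G.ptu_n, ?_, ?_, ?_, G.ptf_cA, G.ptf_cB, fun I hI => ?_⟩
  · have := ptf_upto (α := EI × ℕ × ℕ) k (fun s p => G.nb p.1 p.2.2 s) (d := fun _ => 0)
      (t := fun p => p.2.1) (fun s hs => PTF.comp (g := fun q : EI × ℕ => G.nb q.1 q.2 s)
        (f := fun p : EI × ℕ × ℕ => (p.1, p.2.2)) (G.ptf_nb s hs) (by fun_prop))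
      (PTF.const 0) (by fun_prop)
    exact this
  · exact Dec589.getDN (by fun_prop) (PTF.comp (g := fun q : EI × ℕ => G.pb q.1 q.2)
      (f := fun p : EI × ℕ × ℕ => (p.1, p.2.1)) G.ptf_pb (by fun_prop)) (PTF.const false)
  · exact Dec589.getDN (by fun_prop) (PTF.comp (g := fun q : EI × ℕ => G.wb q.1 q.2)
      (f := fun p : EI × ℕ × ℕ => (p.1, p.2.1)) G.ptf_wb (by fun_prop)) (PTF.const false)
  · obtain ⟨hn0, hn⟩ := G.n_ge I hI
    obtain ⟨W, N, M, D, hD, hAx, hdA, hdB⟩ := G.mach I hI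
    subst hD
    refine ⟨hn0, hn, G.n_le I hI, fun i hi u hu => ?_, W, N, M, ?_, fun w hw hf => ?_,
      fun w hw hf hne => ?_⟩
    · dsimp only
      rw [if_pos hi]
      exact G.nb_lt I hI u hu i hi
    · have e : (fun i : Fin k => GlueD194.toF (G.n (raw I)) fun u => G.nb (raw I) u i) =
          fun i : Fin k => Asm12.toF (G.n (raw I))
            (fun u => if (i : ℕ) < k then G.nb (raw I) u i else 0) := by
        funext i u
        simp only [GlueD194.toF, Asm12.toF, i.2, if_true]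
      have h := hAx
      rw [e] at h
      exact h
    · exact hdA w hw hf w (by rw [distW_self]; exact hr0.le)
    · exact hdB w hw hne hf w (by rw [distW_self]; exact hr0.le)

end Crest.Agent.R289.FamX970
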