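import Crest.Agent.R289.Core_217
import Crest.Agent.R289.Total_217
import Crest.Agent.Lib.PT.Alphabet

/-!
# Row 289, block E: from `Machine289` to the statement

`machine_to_statement`: given parsers for End-of-Line instances and assignments (hypotheses of this
file, supplied by E1, E3), `Machine289` implies the statement.
-/

set_option autoImplicit false

namespace Crest.Agent.R289.Fin217

open Crest.PPADPCP Crest.Agent.R289 Crest.Agent.R289.Units726 Crest.Agent.R289.Comp217
open Crest.Agent.R289.Core217 Crest.Agent.Lib.PT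

/-- the table of rounded variables from the list of rounded nodes -/
def bitsTab (SS L n : ℕ) (h : List Bool) : List (List Bool) :=
  (List.range n).map fun u => (List.range L).map fun l => h.getD (min (u * SS + l) h.length) false

theorem bitsTab_eq {SS L n : ℕ} (hL : L ≤ SS) {x : List ℚ} (hx : x.length = n * SS) :
    bitsTab SS L n (x.map fun q => decide (1 / 2 ≤ q)) =
      bitsOf L n (varsOf SS fun v => x.getD v 0) := by
  unfold bitsTab bitsOf
  refine List.map_congr_left fun u hu => ?_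
  refine List.map_congr_left fun l hl => ?_
  rw [List.mem_range] at hu hl
  have h1 : u * SS + l < x.length := by
    rw [hx]
    calc u * SS + l < u * SS + SS := by omega
      _ = (u + 1) * SS := by ring
      _ ≤ n * SS := Nat.mul_le_mul_right _ hu
  rw [min_eq_left (by simpa using h1.le), varsOf]
  rw [List.getD_eq_getElem _ _ (by simpa using h1), List.getElem_map,
    List.getD_eq_getElem _ _ h1]

theorem ptf_bitsTab (SS L : ℕ) {α : Type} [PTCode α] {U : α → Units} (hU : PTF U)
    {h : α → List Bool} (hh : PTF h) : PTF (fun a => bitsTab SS L (U a).length (h a)) := by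
  unfold bitsTab
  refine PTF.map (PTF.range (PTU.length hU)) ?_
  refine PTF.map (PTF.const _) ?_
  refine PTF.getD ?_ ?_ (PTF.const _)
  · refine PTF.natMinUn ?_ ?_
    · exact PTF.natAdd (PTF.natMul (by fun_prop) (PTF.const _)) (by fun_prop)
    · exact PTU.length (PTF.comp hh (by fun_prop))
  · exact PTF.comp hh (by fun_prop)

theorem clog_le_of_le {a b : ℕ} (h : a ≤ b) : Nat.clog 2 (a + 2) ≤ Nat.clog 2 (b + 2) :=
  Nat.clog_mono_right 2 (by omega)

theorem clog_mul_le (a b : ℕ) (ha : 1 ≤ a) (hb : 1 ≤ b) :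
    Nat.clog 2 (a * b + 2) ≤ Nat.clog 2 (a + 2) + Nat.clog 2 (b + 2) := by
  refine Nat.clog_le_of_le_pow ?_
  rw [pow_add]
  have h1 := Nat.le_pow_clog (b := 2) (by norm_num) (a + 2)
  have h2 := Nat.le_pow_clog (b := 2) (by norm_num) (b + 2)
  have h3 := Nat.mul_le_mul h1 h2
  nlinarith

theorem clog_pow_le (c b : ℕ) (hc : 1 ≤ c) :
    Nat.clog 2 (c ^ b + 2) ≤ (b + 1) * Nat.clog 2 (c + 2) := by
  induction b with
  | zero =>
    simp only [pow_zero, Nat.zero_add, one_mul]
    exact clog_le_of_le hc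
  | succ b ih =>
    rw [pow_succ]
    have h1 := clog_mul_le (c ^ b) c (Nat.one_le_pow _ _ hc) hc
    have h2 : (b + 1 + 1) * Nat.clog 2 (c + 2) = (b + 1) * Nat.clog 2 (c + 2) + Nat.clog 2 (c + 2) := by
      ring
    omega

theorem clog_self_le (c : ℕ) (hc : 1 ≤ c) : Nat.clog 2 (c + 2) ≤ 2 * c := by
  refine Nat.clog_le_of_le_pow ?_
  have h1 : c < 2 ^ c := Nat.lt_two_pow_self
  have h2 : 2 ≤ 2 ^ c := by
    calc 2 = 2 ^ 1 := by norm_num
      _ ≤ 2 ^ c := Nat.pow_le_pow_right (by norm_num) hc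
  have h3 : 2 ^ (2 * c) = 2 ^ c * 2 ^ c := by rw [two_mul, pow_add]
  rw [h3]
  nlinarith

/-- size arithmetic: `n ≤ A N l ^ b` implies `n * clog (n + 2) ≤ A' N l ^ (b + 1)`, `l = clog (N + 2)` -/
theorem size_arith (A b : ℕ) : ∃ A' b' : ℕ, 0 < A' ∧ ∀ n N : ℕ, 1 ≤ N →
    n ≤ A * N * Nat.clog 2 (N + 2) ^ b →
      n * Nat.clog 2 (n + 2) ≤ A' * N * Nat.clog 2 (N + 2) ^ b' := by
  refine ⟨(A + 1) * (Nat.clog 2 (A + 1 + 2) + 1 + 2 * (b + 1)), b + 1, by positivity,
    fun n N hN hn => ?_⟩
  set l := Nat.clog 2 (N + 2) with hl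
  have hl1 : 1 ≤ l := one_le_clog N
  have h1 : n ≤ (A + 1) * (N * l ^ b) := by
    refine hn.trans ?_
    rw [mul_assoc]
    exact Nat.mul_le_mul_right _ (by omega)
  have hlb : 1 ≤ l ^ b := Nat.one_le_pow _ _ hl1
  have hNl : 1 ≤ N * l ^ b := Nat.one_le_iff_ne_zero.2 (by positivity)
  have h2 : Nat.clog 2 (n + 2) ≤ Nat.clog 2 (A + 1 + 2) + (l + 2 * (b + 1) * l) := by
    refine (clog_le_of_le h1).trans ?_
    refine (clog_mul_le _ _ (by omega) hNl).trans ?_
    refine Nat.add_le_add_left ?_ _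
    refine (clog_mul_le _ _ hN hlb).trans ?_
    refine Nat.add_le_add_left ?_ _
    refine (clog_pow_le _ _ hl1).trans ?_
    have := clog_self_le l hl1
    calc (b + 1) * Nat.clog 2 (l + 2) ≤ (b + 1) * (2 * l) := Nat.mul_le_mul_left _ this
      _ = 2 * (b + 1) * l := by ring
  have h3 : Nat.clog 2 (n + 2) ≤ (Nat.clog 2 (A + 1 + 2) + 1 + 2 * (b + 1)) * l := by
    refine h2.trans ?_
    have : Nat.clog 2 (A + 1 + 2) ≤ Nat.clog 2 (A + 1 + 2) * l := Nat.le_mul_of_pos_right _ hl1
    calc Nat.clog 2 (A + 1 + 2) + (l + 2 * (b + 1) * l)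
        ≤ Nat.clog 2 (A + 1 + 2) * l + (l + 2 * (b + 1) * l) := by omega
      _ = (Nat.clog 2 (A + 1 + 2) + 1 + 2 * (b + 1)) * l := by ring
  calc n * Nat.clog 2 (n + 2)
      ≤ ((A + 1) * (N * l ^ b)) * ((Nat.clog 2 (A + 1 + 2) + 1 + 2 * (b + 1)) * l) :=
        Nat.mul_le_mul h1 h3
    _ = (A + 1) * (Nat.clog 2 (A + 1 + 2) + 1 + 2 * (b + 1)) * N * l ^ (b + 1) := by ring

theorem encode_pos (I : EOL) : 1 ≤ I.encode.length := by
  rw [EOL.encode, List.flatMap_cons, List.length_append, natBits_length]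
  omega

/-- the statement of row 289 -/
def Statement : Prop :=
    ∃ ε δ : ℚ, 0 < ε ∧ ε < 1 / 10 ∧ 0 < δ ∧ δ < 1 ∧
    ∃ A b : ℕ, 0 < A ∧ ∃ p : Polynomial ℕ,
    ∃ (R : List Bool → List Bool) (D : List Bool × List Bool → List Bool),
      Crest.Complexity.PolyTime R ∧
      Crest.Complexity.PolyTimeComputable Crest.Complexity.pairEnc
        (Computability.encodingList Bool).encode D ∧
      (∀ G : Crest.PPADPCP.GCircuit, G.WF → ∃ x : List ℚ, Crest.PPADPCP.Acceptable ε δ p G x) ∧
      ∀ I : Crest.PPADPCP.EOL, I.WF → ∃ G : Crest.PPADPCP.GCircuit, G.WF ∧ R I.encode = G.encode ∧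
        G.encode.length ≤ A * I.encode.length * (Nat.clog 2 (I.encode.length + 2)) ^ b ∧
        ∀ x : List ℚ, Crest.PPADPCP.Acceptable ε δ p G x →
          ∃ v : Fin I.n → Bool, I.IsSolution v ∧
            D (I.encode, Crest.PPADPCP.assignmentBits x) = Crest.PPADPCP.solutionBits v

/-- **block E**: `Machine289` implies the statement (parsers as hypotheses) -/
theorem machine_to_statement {eolOf : List Bool → EI} (hE : PTF eolOf)
    (hE' : ∀ I : EOL, eolOf I.encode = raw I) {halfs : List Bool → List Bool} (hH : PTF halfs)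
    (hH' : ∀ x : List ℚ, (∀ q ∈ x, 0 ≤ q) →
      halfs (assignmentBits x) = x.map fun q => decide (1 / 2 ≤ q))
    (hM : Machine289) : Statement := by
  obtain ⟨S, η, β, A, b, units, dec, hS, hη, hβ, hunits, hdec, hI⟩ := hM
  obtain ⟨ε, δ, C, hε, hε', hδ, hδ', hcore⟩ := core hS hη hβ
  obtain ⟨A', b', hA', harith⟩ := size_arith A b
  obtain ⟨c, hc⟩ := Total217.total hε hε'
  refine ⟨ε, δ, hε, hε', hδ, hδ', (C + 1) * A', b', by positivity, Polynomial.C c * Polynomial.X,
    fun s => (asm (slots S) (fun t => (table S).getD t []) (units (eolOf s))).encode,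
    fun p => dec (eolOf p.1, bitsTab (slots S) S.L (units (eolOf p.1)).length (halfs p.2)),
    ?_, ?_, ?_, ?_⟩
  · have h1 := ptf_asm_encode (slots S) (table S)
    have h2 : PTF (fun s => units (eolOf s)) := PTF.comp hunits hE
    exact PTF.polyTime (PTF.comp (g := fun U : List (ℕ × List ℕ) =>
      (asm (slots S) (fun t => (table S).getD t []) U).encode) h1 h2)
  · refine PTF.polyTimeComputable_pairEnc ?_
    have h1 : PTF (fun p : List Bool × List Bool => eolOf p.1) := PTF.comp hE PTF.fst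
    have h2 : PTF (fun p : List Bool × List Bool => units (eolOf p.1)) := PTF.comp hunits h1
    have h3 : PTF (fun p : List Bool × List Bool => halfs p.2) := PTF.comp hH PTF.snd
    exact PTF.comp hdec (PTF.prodMk h1 (ptf_bitsTab _ _ h2 h3))
  · intro G hG
    obtain ⟨x, h1, h2, h3, h4⟩ := hc G hG
    exact ⟨x, Total217.acceptable_of_total hδ.le (fun M => by simp) h1 h2 h3 h4⟩
  · intro I hIWF
    obtain ⟨hU, hlen, hsol⟩ := hI I hIWF
    obtain ⟨hW, henc, hrest⟩ := hcore _ hU
    refine ⟨_, hW, by simp only [hE'], ?_, ?_⟩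
    · refine henc.trans ?_
      have h1 := harith _ _ (encode_pos I) hlen
      calc C * ((units (raw I)).length * Nat.clog 2 ((units (raw I)).length + 2))
          ≤ (C + 1) * (A' * I.encode.length * Nat.clog 2 (I.encode.length + 2) ^ b') :=
            Nat.mul_le_mul (by omega) h1
        _ = (C + 1) * A' * I.encode.length * Nat.clog 2 (I.encode.length + 2) ^ b' := by ring
    · intro x hx
      obtain ⟨v, hv, hd⟩ := hsol _ (hrest x hx.2.1 hx.2.2.2)
      refine ⟨v, hv, ?_⟩
      have h1 : x.length = (units (raw I)).length * slots S := hx.1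
      show dec (eolOf I.encode, bitsTab (slots S) S.L (units (eolOf I.encode)).length
        (halfs (assignmentBits x))) = solutionBits v
      rw [hE', hH' x (fun q hq => (hx.2.1 q hq).1), bitsTab_eq (L_le S) h1, hd]
      rfl

end Crest.Agent.R289.Fin217
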