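import Crest.Agent.R289.Soft_180

/-!
# Row 289, block D, leaf D2: the force formulas and the frequency lemmas (helper180)

* `forceS`, `forceΨ`: the two Kleene formulas of `DefD.MRest`, as `PExp` over nine estimate
  expressions; `rep_forceS`, `rep_forceΨ` represent literally the Kleene values of `MRest`.
* `kS`, `kΨ`: the Kleene formulas (definitionally the ones of `MRest`).
* `frac` lemmas: union bound, means of flags.
-/

set_option autoImplicit false
set_option linter.unusedSimpArgs false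

namespace Crest.Agent.R289.Soft180

open Crest.Agent.R289 Crest.Agent.R289.DefD

/-- the nine estimates of a unit -/
structure Est where
  S : PExp
  Ψ : PExp
  vA : PExp
  vB : PExp
  dAB : PExp
  dN : PExp
  dM : PExp
  a0 : PExp
  b0 : PExp

/-- the nine true means -/
structure Means where
  S : ℝ
  Ψ : ℝ
  vA : ℝ
  vB : ℝ
  dAB : ℝ
  dN : ℝ
  dM : ℝ
  a0 : ℝ
  b0 : ℝ

/-- the Kleene value of the force of `s` -/
noncomputable def kS (e t : ℝ) (m : Means) : K3 :=
  k3mux (cmp e m.Ψ (1 / 4))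
    (k3mux (cmp e m.S (1 / 2)) (cmp e m.dAB t)
      (k3not (k3and (cmp e m.dN t) (k3not (cmp e m.dAB t)))))
    (k3mux (cmp e m.S (1 / 2)) (k3and (cmp e m.dM t) (k3not (cmp e m.dAB t)))
      (k3not (cmp e m.dAB t)))

/-- the Kleene value of the force of `ψ` -/
noncomputable def kΨ (e t z : ℝ) (m : Means) : K3 :=
  k3and (k3not (k3and (cmp e m.a0 t) (cmp e m.b0 t)))
    (k3or
      (k3or
        (k3or (k3and (cmp e m.S (7 / 10)) (k3not (cmp e m.vB z)))
          (k3and (k3not (cmp e m.S (3 / 10))) (k3not (cmp e m.vA z))))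
        (k3and (k3and (k3not (cmp e m.S (7 / 20))) (cmp e m.S (13 / 20)))
          (k3and (k3not (cmp e m.dAB t)) (k3not (cmp e m.dN t)))))
      (k3not (cmp e m.Ψ (1 / 2))))

/-- the force of `s` -/
def forceS (n : ℕ) (t : ℚ) (E : Est) : PExp :=
  muxP (ltP (1 / 4) n E.Ψ)
    (muxP (ltP (1 / 2) n E.S) (ltP t n E.dAB)
      (notP (andP (ltP t n E.dN) (notP (ltP t n E.dAB)))))
    (muxP (ltP (1 / 2) n E.S) (andP (ltP t n E.dM) (notP (ltP t n E.dAB)))
      (notP (ltP t n E.dAB)))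

/-- the force of `ψ` -/
def forceΨ (n : ℕ) (t z : ℚ) (E : Est) : PExp :=
  andP (notP (andP (ltP t n E.a0) (ltP t n E.b0)))
    (orP
      (orP
        (orP (andP (ltP (7 / 10) n E.S) (notP (ltP z n E.vB)))
          (andP (notP (ltP (3 / 10) n E.S)) (notP (ltP z n E.vA))))
        (andP (andP (notP (ltP (7 / 20) n E.S)) (ltP (13 / 20) n E.S))
          (andP (notP (ltP t n E.dAB)) (notP (ltP t n E.dN)))))
      (notP (ltP (1 / 2) n E.Ψ)))

/-- all estimates are accurate up to `e / 2` -/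
structure Acc (x : ℕ → ℕ → ℚ) (e : ℝ) (E : Est) (m : Means) : Prop where
  S : |((E.S.eval x : ℚ) : ℝ) - m.S| ≤ e / 2
  Ψ : |((E.Ψ.eval x : ℚ) : ℝ) - m.Ψ| ≤ e / 2
  vA : |((E.vA.eval x : ℚ) : ℝ) - m.vA| ≤ e / 2
  vB : |((E.vB.eval x : ℚ) : ℝ) - m.vB| ≤ e / 2
  dAB : |((E.dAB.eval x : ℚ) : ℝ) - m.dAB| ≤ e / 2
  dN : |((E.dN.eval x : ℚ) : ℝ) - m.dN| ≤ e / 2
  dM : |((E.dM.eval x : ℚ) : ℝ) - m.dM| ≤ e / 2
  a0 : |((E.a0.eval x : ℚ) : ℝ) - m.a0| ≤ e / 2
  b0 : |((E.b0.eval x : ℚ) : ℝ) - m.b0| ≤ e / 2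

/-- all estimates are well formed -/
structure Est.WF (K L : ℕ) (E : Est) : Prop where
  S : E.S.WF K L
  Ψ : E.Ψ.WF K L
  vA : E.vA.WF K L
  vB : E.vB.WF K L
  dAB : E.dAB.WF K L
  dN : E.dN.WF K L
  dM : E.dM.WF K L
  a0 : E.a0.WF K L
  b0 : E.b0.WF K L

section
variable {x : ℕ → ℕ → ℚ} {e : ℝ} {E : Est} {m : Means} {n : ℕ}

/-- comparator against a numeral threshold -/
theorem Rep.lt' {e μ : ℝ} {t : ℚ} {n : ℕ} {a : PExp} (he : 0 < e) (hn : 2 / e ≤ n)
    (h : |((a.eval x : ℚ) : ℝ) - μ| ≤ e / 2) {t' : ℝ} (ht : (t : ℝ) = t') :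
    Rep ((ltP t n a).eval x) (cmp e μ t') := ht ▸ Rep.lt he hn h

theorem rep_forceS (he : 0 < e) (hn : 2 / e ≤ n) (hE : Acc x e E m) (t : ℚ) :
    Rep ((forceS n t E).eval x) (kS e t m) := by
  refine Rep.mux (Rep.lt' he hn hE.Ψ (by norm_num))
    (Rep.mux (Rep.lt' he hn hE.S (by norm_num)) (Rep.lt he hn hE.dAB)
      (Rep.not (Rep.and (Rep.lt he hn hE.dN) (Rep.not (Rep.lt he hn hE.dAB)))))
    (Rep.mux (Rep.lt' he hn hE.S (by norm_num))
      (Rep.and (Rep.lt he hn hE.dM) (Rep.not (Rep.lt he hn hE.dAB)))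
      (Rep.not (Rep.lt he hn hE.dAB)))

theorem rep_forceΨ (he : 0 < e) (hn : 2 / e ≤ n) (hE : Acc x e E m) (t z : ℚ) :
    Rep ((forceΨ n t z E).eval x) (kΨ e t z m) := by
  refine Rep.and (Rep.not (Rep.and (Rep.lt he hn hE.a0) (Rep.lt he hn hE.b0)))
    (Rep.or (Rep.or (Rep.or
      (Rep.and (Rep.lt' he hn hE.S (by norm_num)) (Rep.not (Rep.lt he hn hE.vB)))
      (Rep.and (Rep.not (Rep.lt' he hn hE.S (by norm_num))) (Rep.not (Rep.lt he hn hE.vA))))
      (Rep.and (Rep.and (Rep.not (Rep.lt' he hn hE.S (by norm_num)))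
        (Rep.lt' he hn hE.S (by norm_num)))
        (Rep.and (Rep.not (Rep.lt he hn hE.dAB)) (Rep.not (Rep.lt he hn hE.dN)))))
      (Rep.not (Rep.lt' he hn hE.Ψ (by norm_num))))

end

section
variable {K L : ℕ} {E : Est}

theorem WF_forceS (hE : E.WF K L) (n : ℕ) {t : ℚ} (ht : 0 ≤ t ∧ t ≤ 1) :
    (forceS n t E).WF K L :=
  WF_muxP (WF_ltP (by norm_num) n hE.Ψ)
    (WF_muxP (WF_ltP (by norm_num) n hE.S) (WF_ltP ht n hE.dAB)
      (WF_notP (WF_andP (WF_ltP ht n hE.dN) (WF_notP (WF_ltP ht n hE.dAB)))))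
    (WF_muxP (WF_ltP (by norm_num) n hE.S)
      (WF_andP (WF_ltP ht n hE.dM) (WF_notP (WF_ltP ht n hE.dAB)))
      (WF_notP (WF_ltP ht n hE.dAB)))

theorem WF_forceΨ (hE : E.WF K L) (n : ℕ) {t z : ℚ} (ht : 0 ≤ t ∧ t ≤ 1) (hz : 0 ≤ z ∧ z ≤ 1) :
    (forceΨ n t z E).WF K L :=
  WF_andP (WF_notP (WF_andP (WF_ltP ht n hE.a0) (WF_ltP ht n hE.b0)))
    (WF_orP (WF_orP (WF_orP
      (WF_andP (WF_ltP (by norm_num) n hE.S) (WF_notP (WF_ltP hz n hE.vB)))
      (WF_andP (WF_notP (WF_ltP (by norm_num) n hE.S)) (WF_notP (WF_ltP hz n hE.vA))))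
      (WF_andP (WF_andP (WF_notP (WF_ltP (by norm_num) n hE.S)) (WF_ltP (by norm_num) n hE.S))
        (WF_andP (WF_notP (WF_ltP ht n hE.dAB)) (WF_notP (WF_ltP ht n hE.dN)))))
      (WF_notP (WF_ltP (by norm_num) n hE.Ψ)))

end

/-! ### fractions -/

section frac
variable {U : Type} [Fintype U]

theorem frac_def (p : U → Prop) [DecidablePred p] :
    frac p = ((Finset.univ.filter p).card : ℝ) / (Fintype.card U : ℝ) := by
  unfold frac
  congr!

theorem frac_nonneg (p : U → Prop) : 0 ≤ frac p := by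
  classical
  rw [frac_def]
  positivity

theorem frac_mono {p q : U → Prop} (h : ∀ u, p u → q u) : frac p ≤ frac q := by
  classical
  rw [frac_def p, frac_def q]
  gcongr
  exact h _

theorem frac_or (p q : U → Prop) : frac (fun u => p u ∨ q u) ≤ frac p + frac q := by
  classical
  rw [frac_def p, frac_def q, frac_def, ← add_div]
  gcongr
  rw [Finset.filter_or]
  exact_mod_cast Finset.card_union_le _ _

theorem frac_or_le {p q : U → Prop} {a b : ℝ} (hp : frac p ≤ a) (hq : frac q ≤ b) :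
    frac (fun u => p u ∨ q u) ≤ a + b := (frac_or p q).trans (add_le_add hp hq)

/-- union bound over `Fin m` -/
theorem frac_exists {m : ℕ} (p : Fin m → U → Prop) {γ : ℝ} (h : ∀ i, frac (p i) ≤ γ) :
    frac (fun u => ∃ i, p i u) ≤ m * γ := by
  classical
  have h1 : frac (fun u => ∃ i, p i u) ≤ ∑ i, frac (p i) := by
    rw [frac_def, Finset.sum_congr rfl fun i _ => frac_def (p i), ← Finset.sum_div]
    gcongr
    have : (Finset.univ.filter fun u => ∃ i, p i u) =
        Finset.univ.biUnion fun i => Finset.univ.filter fun u => p i u := by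
      ext u
      simp
    rw [this]
    exact_mod_cast Finset.card_biUnion_le
  calc _ ≤ _ := h1
    _ ≤ ∑ _i : Fin m, γ := Finset.sum_le_sum fun i _ => h i
    _ = m * γ := by simp

open Classical in
/-- a mean of values in `[0,1]` which are `≥ 1 - η` at the good units with `p` -/
theorem mean_ge [Nonempty U] {y : U → ℝ} {p bad : U → Prop} {η : ℝ} (hη : 0 ≤ η)
    (h0 : ∀ u, 0 ≤ y u) (h : ∀ u, ¬ bad u → p u → 1 - η ≤ y u) :
    frac p - (frac bad + η) ≤ (∑ u, y u) / (Fintype.card U : ℝ) := by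
  have hc : (0 : ℝ) < (Fintype.card U : ℝ) := by exact_mod_cast Fintype.card_pos
  unfold frac
  rw [le_div_iff₀ hc, sub_mul, add_mul, div_mul_cancel₀ _ hc.ne', div_mul_cancel₀ _ hc.ne']
  have h1 : ∀ u, (if p u then (1 : ℝ) else 0) - ((if bad u then (1 : ℝ) else 0) + η) ≤ y u := by
    intro u
    have := h0 u
    by_cases hp : p u <;> by_cases hb : bad u
    · simp only [hp, hb, if_true]; linarith
    · have := h u hb hp
      simp only [hp, hb, if_true, if_false]; linarith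
    · simp only [hp, hb, if_true, if_false]; linarith
    · simp only [hp, hb, if_false]; linarith
  have h2 := Finset.sum_le_sum fun u (_ : u ∈ (Finset.univ : Finset U)) => h1 u
  simp only [Finset.sum_sub_distrib, Finset.sum_add_distrib, Finset.sum_boole, Finset.sum_const,
    Finset.card_univ, nsmul_eq_mul] at h2
  linarith

open Classical in
/-- a mean of values in `[0,1]` which are `≤ η` at the good units without `p` -/
theorem mean_le [Nonempty U] {y : U → ℝ} {p bad : U → Prop} {η : ℝ} (hη : 0 ≤ η)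
    (h1 : ∀ u, y u ≤ 1) (h : ∀ u, ¬ bad u → ¬ p u → y u ≤ η) :
    (∑ u, y u) / (Fintype.card U : ℝ) ≤ frac p + (frac bad + η) := by
  have hc : (0 : ℝ) < (Fintype.card U : ℝ) := by exact_mod_cast Fintype.card_pos
  unfold frac
  rw [div_le_iff₀ hc, add_mul, add_mul, div_mul_cancel₀ _ hc.ne', div_mul_cancel₀ _ hc.ne']
  have h2 : ∀ u, y u ≤ (if p u then (1 : ℝ) else 0) + ((if bad u then (1 : ℝ) else 0) + η) := by
    intro u
    have := h1 u
    by_cases hp : p u <;> by_cases hb : bad u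
    · simp only [hp, hb, if_true]; linarith
    · simp only [hp, hb, if_true, if_false]; linarith
    · simp only [hp, hb, if_true, if_false]; linarith
    · have := h u hb hp
      simp only [hp, hb, if_false]; linarith
  have h3 := Finset.sum_le_sum fun u (_ : u ∈ (Finset.univ : Finset U)) => h2 u
  simp only [Finset.sum_add_distrib, Finset.sum_boole, Finset.sum_const,
    Finset.card_univ, nsmul_eq_mul] at h3
  linarith

end frac

/-! ### `Rest` and sampling on `Fin n` -/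

/-- the units that do not obey their rules are a `β` fraction -/
theorem frac_notOK {S : LSys} {V : Units} {η β : ℚ} {x : ℕ → ℕ → ℚ} (hR : Rest S V η β x) {n : ℕ}
    (hn : V.length = n) (hn0 : 0 < n) :
    frac (fun u : Fin n => ¬ UnitOK S V η x u) ≤ (β : ℝ) := by
  classical
  subst hn
  obtain ⟨B, hB, h⟩ := hR.2
  have hc : (0 : ℝ) < (V.length : ℝ) := by exact_mod_cast hn0
  rw [frac_def, Fintype.card_fin, div_le_iff₀ hc]
  have h1 : (Finset.univ.filter fun u : Fin V.length => ¬ UnitOK S V η x u).card ≤ B.card := by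
    rw [← Finset.card_map Fin.valEmbedding]
    refine Finset.card_le_card fun v hv => ?_
    rw [Finset.mem_map] at hv
    obtain ⟨u, hu, rfl⟩ := hv
    rw [Finset.mem_filter] at hu
    by_contra hb
    exact hu.2 (h u u.2 hb)
  calc ((Finset.univ.filter fun u : Fin V.length => ¬ UnitOK S V η x u).card : ℝ) ≤ (B.card : ℝ) := by
        exact_mod_cast h1
    _ ≤ (β : ℝ) * (V.length : ℝ) := by exact_mod_cast hB

/-- estimate of a mean: `avgP` over `d` expressions which read a field `y` at the sample points -/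
theorem avg_samples {x : ℕ → ℕ → ℚ} {n d : ℕ} (hd : 0 < d) {f : Fin d → PExp} {nb : Fin d → Fin n → Fin n}
    {y : Fin n → ℝ} {u : Fin n} (hf : ∀ i, In x (f i))
    (hy : ∀ i, (((f i).eval x : ℚ) : ℝ) = y (nb i u)) :
    (((avgP (1 / (d : ℚ)) (List.ofFn f)).eval x : ℚ) : ℝ) = (∑ i, y (nb i u)) / (d : ℝ) := by
  have hd' : (0 : ℚ) < d := by exact_mod_cast hd
  rw [eval_avgP (by positivity)]
  · rw [List.map_ofFn, List.sum_ofFn]
    push_cast
    rw [one_div, inv_mul_eq_div]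
    congr 1
    exact Finset.sum_congr rfl fun i _ => hy i
  · intro a ha
    rw [List.mem_ofFn] at ha
    obtain ⟨i, rfl⟩ := ha
    exact hf i
  · rw [List.length_ofFn, one_div, inv_mul_cancel₀ hd'.ne']

theorem WF_avg_ofFn {K L d : ℕ} {f : Fin d → PExp} (hf : ∀ i, (f i).WF K L) :
    (avgP (1 / (d : ℚ)) (List.ofFn f)).WF K L := by
  refine WF_avgP ⟨by positivity, ?_⟩ ?_
  · rcases Nat.eq_zero_or_pos d with rfl | h
    · norm_num
    · rw [div_le_one (by exact_mod_cast h)]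
      exact_mod_cast h
  · intro a ha
    rw [List.mem_ofFn] at ha
    obtain ⟨i, rfl⟩ := ha
    exact hf i

/-- the units that see a bad sample of one of `m` fields -/
theorem frac_badSample {n d m : ℕ} {nb : Fin d → Fin n → Fin n} {e γ : ℝ} (hS : Sampler d nb e γ)
    (y : Fin m → Fin n → ℝ) (hy : ∀ j u, 0 ≤ y j u ∧ y j u ≤ 1) :
    frac (fun u => ∃ j : Fin m,
      ¬ |(∑ i, y j (nb i u)) / (d : ℝ) - (∑ v, y j v) / (n : ℝ)| ≤ e) ≤ m * γ := by
  refine frac_exists _ fun j => ?_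
  have := hS (y j) (hy j)
  rwa [Fintype.card_fin] at this

end Crest.Agent.R289.Soft180
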