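import Mathlib
import Crest.Agent.R289.RobG_459

/-!
Row 289, block B, leaf TP1c (helper595): binary forms on row vectors `K × K`, their relation to
`PS459.ev` (values on `Option K` through the sections `(z,1)`, `(1,0)`), closure under products and
under composition with linear maps, and the TRANSPORT of an edge condition: the two descriptions of
one edge code in charts which differ by an invertible linear map (and explicit scalars) agree.
-/

set_option autoImplicit false

namespace Crest.Agent.R289.Forms595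

open Polynomial Finset
open Crest.Agent.R289.PS459 (ev)

section forms

variable {K : Type*} [Field K]

/-- section of the projective line -/
def sect : Option K → K × K
  | some x => (x, 1)
  | none => (1, 0)

/-- value of the form of degree `e` with coefficients `p.coeff` -/
noncomputable def H (e : ℕ) (p : K[X]) (v : K × K) : K :=
  ∑ k ∈ range (e + 1), p.coeff k * (v.1 ^ k * v.2 ^ (e - k))

theorem H_zero_snd (e : ℕ) (p : K[X]) (a : K) : H e p (a, 0) = p.coeff e * a ^ e := by
  unfold H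
  rw [Finset.sum_eq_single e]
  · simp
  · intro k hk hne
    have hk' : k < e + 1 := mem_range.mp hk
    have : e - k ≠ 0 := by omega
    simp [this]
  · intro h
    exact absurd (mem_range.mpr (Nat.lt_succ_self e)) h

theorem H_of_ne (e : ℕ) (p : K[X]) (hp : p.natDegree ≤ e) (a b : K) (hb : b ≠ 0) :
    H e p (a, b) = b ^ e * p.eval (a / b) := by
  unfold H
  rw [Polynomial.eval_eq_sum_range' (Nat.lt_succ_of_le hp), Finset.mul_sum]
  refine Finset.sum_congr rfl fun k hk => ?_
  have hk' : k ≤ e := Nat.lt_succ_iff.mp (mem_range.mp hk)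
  have h1 : b ^ e = b ^ (e - k) * b ^ k := by rw [← pow_add]; congr 1; omega
  have h2 : b ^ k ≠ 0 := pow_ne_zero _ hb
  rw [div_pow, h1]
  field_simp

theorem H_sect (e : ℕ) (p : K[X]) (hp : p.natDegree ≤ e) (b : Option K) :
    H e p (sect b) = ev e p b := by
  cases b with
  | some x =>
    change H e p (x, 1) = p.eval x
    rw [H_of_ne e p hp x 1 one_ne_zero]
    simp
  | none =>
    change H e p (1, 0) = p.coeff e
    rw [H_zero_snd]
    simp

theorem H_smul (e : ℕ) (p : K[X]) (a : K) (v : K × K) : H e p (a • v) = a ^ e * H e p v := by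
  unfold H
  rw [Finset.mul_sum]
  refine Finset.sum_congr rfl fun k hk => ?_
  have hk' : k ≤ e := Nat.lt_succ_iff.mp (mem_range.mp hk)
  have h1 : a ^ e = a ^ k * a ^ (e - k) := by rw [← pow_add]; congr 1; omega
  simp only [Prod.smul_fst, Prod.smul_snd, smul_eq_mul, mul_pow]
  rw [h1]; ring

theorem H_add (e : ℕ) (p q : K[X]) (v : K × K) : H e (p + q) v = H e p v + H e q v := by
  unfold H
  rw [← Finset.sum_add_distrib]
  exact Finset.sum_congr rfl fun k _ => by rw [coeff_add]; ring

theorem H_smul_left (e : ℕ) (a : K) (p : K[X]) (v : K × K) : H e (a • p) v = a * H e p v := by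
  unfold H
  rw [Finset.mul_sum]
  exact Finset.sum_congr rfl fun k _ => by rw [coeff_smul, smul_eq_mul]; ring

theorem H_zero_left (e : ℕ) (v : K × K) : H e (0 : K[X]) v = 0 := by
  unfold H
  exact Finset.sum_eq_zero fun k _ => by rw [coeff_zero, zero_mul]

theorem H_mul (e e' : ℕ) (p q : K[X]) (hp : p.natDegree ≤ e) (hq : q.natDegree ≤ e')
    (v : K × K) : H (e + e') (p * q) v = H e p v * H e' q v := by
  obtain ⟨a, b⟩ := v
  by_cases hb : b = 0
  · subst hb
    rw [H_zero_snd, H_zero_snd, H_zero_snd, coeff_mul_add_eq_of_natDegree_le hp hq, pow_add]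
    ring
  · rw [H_of_ne e p hp a b hb, H_of_ne e' q hq a b hb,
      H_of_ne (e + e') (p * q) (natDegree_mul_le.trans (add_le_add hp hq)) a b hb, eval_mul,
      pow_add]
    ring

/-- forms of degree `e` -/
def IsForm (e : ℕ) (f : K × K → K) : Prop :=
  ∃ p : K[X], p.natDegree ≤ e ∧ ∀ v, f v = H e p v

theorem IsForm.mul {e e' : ℕ} {f g : K × K → K} (hf : IsForm e f) (hg : IsForm e' g) :
    IsForm (e + e') (fun v => f v * g v) := by
  obtain ⟨p, hp, hf⟩ := hf
  obtain ⟨q, hq, hg⟩ := hg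
  exact ⟨p * q, natDegree_mul_le.trans (add_le_add hp hq), fun v => by
    rw [H_mul e e' p q hp hq, ← hf, ← hg]⟩

theorem IsForm.one : IsForm 0 (fun _ : K × K => (1 : K)) :=
  ⟨1, by simp, fun v => by unfold H; simp⟩

theorem IsForm.pow {e : ℕ} {f : K × K → K} (hf : IsForm e f) (k : ℕ) :
    IsForm (k * e) (fun v => f v ^ k) := by
  induction k with
  | zero => simpa using (IsForm.one : IsForm 0 (fun _ : K × K => (1 : K)))
  | succ k ih =>
    have h := ih.mul hf
    have h1 : k * e + e = (k + 1) * e := by ring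
    rw [h1] at h
    simpa only [pow_succ] using h

theorem IsForm.smul {e : ℕ} {f : K × K → K} (hf : IsForm e f) (a : K) :
    IsForm e (fun v => a * f v) := by
  obtain ⟨p, hp, hf⟩ := hf
  exact ⟨a • p, (natDegree_smul_le _ _).trans hp, fun v => by rw [H_smul_left, ← hf]⟩

theorem IsForm.add {e : ℕ} {f g : K × K → K} (hf : IsForm e f) (hg : IsForm e g) :
    IsForm e (fun v => f v + g v) := by
  obtain ⟨p, hp, hf⟩ := hf
  obtain ⟨q, hq, hg⟩ := hg
  exact ⟨p + q, (natDegree_add_le p q).trans (max_le hp hq), fun v => by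
    rw [H_add, ← hf, ← hg]⟩

theorem IsForm.zero (e : ℕ) : IsForm e (fun _ : K × K => (0 : K)) :=
  ⟨0, by simp, fun v => by rw [H_zero_left]⟩

theorem IsForm.sum {e : ℕ} {α : Type*} (s : Finset α) (f : α → K × K → K)
    (h : ∀ a ∈ s, IsForm e (f a)) : IsForm e (fun v => ∑ a ∈ s, f a v) := by
  classical
  induction s using Finset.induction_on with
  | empty => simpa using IsForm.zero (K := K) e
  | insert a s ha ih =>
    have h1 := (h a (mem_insert_self a s)).add (ih fun b hb => h b (mem_insert_of_mem hb))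
    simpa only [Finset.sum_insert ha] using h1

theorem IsForm.lin (a b : K) : IsForm 1 (fun v : K × K => a * v.1 + b * v.2) := by
  refine ⟨C a * X + C b, ?_, fun v => ?_⟩
  · exact natDegree_linear_le
  · unfold H
    rw [Finset.sum_range_succ, Finset.sum_range_one]
    simp [coeff_X, coeff_C]
    ring

theorem lin_apply (A : (K × K) →ₗ[K] (K × K)) (v : K × K) :
    A v = v.1 • A (1, 0) + v.2 • A (0, 1) := by
  have hv : v = v.1 • ((1 : K), (0 : K)) + v.2 • ((0 : K), (1 : K)) := by
    ext <;> simp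
  conv_lhs => rw [hv]
  rw [map_add, map_smul, map_smul]

/-- a form composed with a linear map is a form. -/
theorem H_comp_lin (e : ℕ) (p : K[X]) (A : (K × K) →ₗ[K] (K × K)) :
    IsForm e (fun v => H e p (A v)) := by
  have hA1 : IsForm 1 (fun v : K × K => (A v).1) := by
    obtain ⟨q, hq, h⟩ := IsForm.lin (K := K) (A (1, 0)).1 (A (0, 1)).1
    refine ⟨q, hq, fun v => ?_⟩
    rw [← h]
    change (A v).1 = (A (1, 0)).1 * v.1 + (A (0, 1)).1 * v.2
    rw [lin_apply A v]
    simp only [Prod.fst_add, Prod.smul_fst, smul_eq_mul]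
    ring
  have hA2 : IsForm 1 (fun v : K × K => (A v).2) := by
    obtain ⟨q, hq, h⟩ := IsForm.lin (K := K) (A (1, 0)).2 (A (0, 1)).2
    refine ⟨q, hq, fun v => ?_⟩
    rw [← h]
    change (A v).2 = (A (1, 0)).2 * v.1 + (A (0, 1)).2 * v.2
    rw [lin_apply A v]
    simp only [Prod.snd_add, Prod.smul_snd, smul_eq_mul]
    ring
  have hk : ∀ k ∈ range (e + 1),
      IsForm e (fun v => p.coeff k * ((A v).1 ^ k * (A v).2 ^ (e - k))) := by
    intro k hk
    have hk' : k ≤ e := Nat.lt_succ_iff.mp (mem_range.mp hk)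
    have h := ((hA1.pow k).mul (hA2.pow (e - k))).smul (p.coeff k)
    have h1 : k * 1 + (e - k) * 1 = e := by omega
    rw [h1] at h
    exact h
  exact IsForm.sum (range (e + 1)) _ hk

theorem sect_ne_zero (b : Option K) : sect b ≠ (0 : K × K) := by
  cases b with
  | some x => intro h; exact one_ne_zero (congrArg Prod.snd h)
  | none => intro h; exact one_ne_zero (congrArg Prod.fst h)

/-- **transport of an edge condition**, one direction: a linear map `A` carries the section at
`ψ' j` to `t j` times the section at `ψ j`. -/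
theorem edge_imp {J : Type*} (D : ℕ) (ψ ψ' : J → Option K) (c c' t : J → K) (κ : K)
    (A : (K × K) →ₗ[K] (K × K))
    (hA : ∀ j, A (sect (ψ' j)) = t j • sect (ψ j))
    (hc : ∀ j, c' j = κ * (c j * t j ^ D)) (x : J → K)
    (h : ∃ p : K[X], p.natDegree ≤ D ∧ ∀ j, c j * x j = ev D p (ψ j)) :
    ∃ p : K[X], p.natDegree ≤ D ∧ ∀ j, c' j * x j = ev D p (ψ' j) := by
  obtain ⟨p, hp, hx⟩ := h
  obtain ⟨p', hp', h'⟩ := (H_comp_lin D p A).smul κ
  refine ⟨p', hp', fun j => ?_⟩
  rw [← H_sect D p' hp', ← h']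
  change c' j * x j = κ * H D p (A (sect (ψ' j)))
  rw [hA, H_smul, H_sect D p hp, ← hx, hc]
  ring

/-- **transport of an edge condition**: equivalence of the two descriptions, for an invertible
linear map. -/
theorem edge_iff {J : Type*} (D : ℕ) (ψ ψ' : J → Option K) (c c' t : J → K) (κ : K)
    (hκ : κ ≠ 0) (ht : ∀ j, t j ≠ 0) (A : (K × K) ≃ₗ[K] (K × K))
    (hA : ∀ j, A (sect (ψ' j)) = t j • sect (ψ j))
    (hc : ∀ j, c' j = κ * (c j * t j ^ D)) (x : J → K) :
    (∃ p : K[X], p.natDegree ≤ D ∧ ∀ j, c j * x j = ev D p (ψ j)) ↔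
      ∃ p : K[X], p.natDegree ≤ D ∧ ∀ j, c' j * x j = ev D p (ψ' j) := by
  constructor
  · exact edge_imp D ψ ψ' c c' t κ (A : (K × K) →ₗ[K] (K × K)) hA hc x
  · refine edge_imp D ψ' ψ c' c (fun j => (t j)⁻¹) κ⁻¹
      (A.symm : (K × K) →ₗ[K] (K × K)) (fun j => ?_) (fun j => ?_) x
    · change A.symm (sect (ψ j)) = (t j)⁻¹ • sect (ψ' j)
      rw [LinearEquiv.symm_apply_eq, map_smul, hA, smul_smul, inv_mul_cancel₀ (ht j), one_smul]
    · rw [hc, inv_pow]
      have h1 : t j ^ D ≠ 0 := pow_ne_zero _ (ht j)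
      field_simp

/-- the same with vectors: `u j = a j • sect (ψ j)`, `u' j = a' j • sect (ψ' j)`, `A (u' j) = u j`
and scalars `c j = a j ^ (-D)`, `c' j = κ a' j ^ (-D)`. -/
theorem edge_iff_vec {J : Type*} (D : ℕ) (ψ ψ' : J → Option K) (a a' : J → K) (w w' : J → K)
    (κ : K) (hκ : κ ≠ 0) (ha : ∀ j, a j ≠ 0) (ha' : ∀ j, a' j ≠ 0)
    (A : (K × K) ≃ₗ[K] (K × K))
    (hA : ∀ j, A (a' j • sect (ψ' j)) = a j • sect (ψ j))
    (hw : ∀ j, w' j = κ * w j) (x : J → K) :
    (∃ p : K[X], p.natDegree ≤ D ∧ ∀ j, w j * (a j)⁻¹ ^ D * x j = ev D p (ψ j)) ↔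
      ∃ p : K[X], p.natDegree ≤ D ∧ ∀ j, w' j * (a' j)⁻¹ ^ D * x j = ev D p (ψ' j) := by
  refine edge_iff D ψ ψ' _ _ (fun j => (a' j)⁻¹ * a j) κ hκ
    (fun j => mul_ne_zero (inv_ne_zero (ha' j)) (ha j)) A (fun j => ?_) (fun j => ?_) x
  · have h := hA j
    rw [map_smul] at h
    rw [mul_smul, ← h, smul_smul, inv_mul_cancel₀ (ha' j), one_smul]
  · have h1 : a j ^ D ≠ 0 := pow_ne_zero _ (ha j)
    have h2 : a' j ^ D ≠ 0 := pow_ne_zero _ (ha' j)
    rw [hw, mul_pow, inv_pow, inv_pow]
    field_simp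

end forms

end Crest.Agent.R289.Forms595
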