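import Crest.Agent.R289.ObjTO_821
import Crest.Agent.R289.ProdObj_351
import Crest.Agent.R289.LInst_827

/-!
# Row 289: the content side `Gam = P k × P k'` of one object (`Obj.OK` of AsmObj_12)

Points `Om = Gam × (S × S)`, `S = Option K × Option K`; `gmod D k k' d` = words of degree `d` (all
slices are words of degree `d` of the factors); left translations by elements of `Gam`, products,
rigidity, words of given contents, linear encoder `genc`, and the structure `LInst827.CD`.
-/

set_option autoImplicit false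

namespace Crest.Agent.R289.GamObj821

open Crest.Agent.R289.Asm12 Crest.Agent.R289.ObjTO821 Crest.Agent.R289.Tensor560
open Crest.Agent.R289.ProdObj351 Crest.Agent.R289.DefC Crest.Agent.R289.LInst827

variable (D : Obj) (k k' : ℕ)

/-- content group -/
abbrev Gam : Type := D.P k × D.P k'

/-- symbols of a unit of `Gam` -/
abbrev SyG : Type := Sy D × Sy D

/-- content symbol -/
abbrev syG0 : SyG D := (sy0 D, sy0 D)

/-- points -/
abbrev Om : Type := Gam D k k' × SyG D

/-- words of degree `d` on `Gam` -/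
def gmod (d : ℕ) : Submodule D.K (Om D k k' → D.K) where
  carrier := {f |
    (∀ y : D.P k' × Sy D, (fun x : D.P k × Sy D => f ((x.1, y.1), (x.2, y.2))) ∈ wmod D k d) ∧
    ∀ x : D.P k × Sy D, (fun y : D.P k' × Sy D => f ((x.1, y.1), (x.2, y.2))) ∈ wmod D k' d}
  zero_mem' := ⟨fun _ => (wmod D k d).zero_mem, fun _ => (wmod D k' d).zero_mem⟩
  add_mem' hf hg := ⟨fun y => (wmod D k d).add_mem (hf.1 y) (hg.1 y),
    fun x => (wmod D k' d).add_mem (hf.2 x) (hg.2 x)⟩
  smul_mem' c _ hf := ⟨fun y => (wmod D k d).smul_mem c (hf.1 y),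
    fun x => (wmod D k' d).smul_mem c (hf.2 x)⟩

variable {D k k'}

/-- the words are the tensor product of the words of the factors -/
theorem mem_gmod_iff {d : ℕ} {f : Om D k k' → D.K} :
    f ∈ gmod D k k' d ↔ (fun z : (D.P k × Sy D) × (D.P k' × Sy D) =>
      f ((z.1.1, z.2.1), (z.1.2, z.2.2))) ∈ tens (wmod D k d) (wmod D k' d) := Iff.rfl

theorem mem_gmod_of_tens {d : ℕ} {w : (D.P k × Sy D) × (D.P k' × Sy D) → D.K}
    (hw : w ∈ tens (wmod D k d) (wmod D k' d)) :
    (fun x : Om D k k' => w ((x.1.1, x.2.1), (x.1.2, x.2.2))) ∈ gmod D k k' d := hw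

variable (D k k')

/-- left multiplication on the points -/
def glmul (a : Gam D k k') : Equiv.Perm (Om D k k') :=
  (Equiv.mulLeft a).prodCongr (Equiv.refl _)

@[simp] theorem glmul_apply (a : Gam D k k') (x : Om D k k') :
    glmul D k k' a x = (a * x.1, x.2) := rfl

@[simp] theorem glmul_symm_apply (a : Gam D k k') (x : Om D k k') :
    (glmul D k k' a).symm x = (a⁻¹ * x.1, x.2) := rfl

/-- orbit of the contents -/
def gh0 (a : Gam D k k') : Om D k k' := (a, syG0 D)

variable {D k k'}

theorem gmod_tr {d : ℕ} (a : Gam D k k') {f : Om D k k' → D.K} (hf : f ∈ gmod D k k' d) :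
    (fun x => f (glmul D k k' a x)) ∈ gmod D k k' d :=
  ⟨fun y => wmod_tr D a.1 (hf.1 (a.2 * y.1, y.2)), fun x => wmod_tr D a.2 (hf.2 (a.1 * x.1, x.2))⟩

theorem gmod_ti {d : ℕ} (a : Gam D k k') {f : Om D k k' → D.K} (hf : f ∈ gmod D k k' d) :
    (fun x => f ((glmul D k k' a).symm x)) ∈ gmod D k k' d :=
  gmod_tr (a := a⁻¹) hf

variable {M0 : ℕ} {lam0 Kr : ℝ}

theorem gmod_mul (h : D.OK M0 lam0 Kr) {a b : ℕ} {f g : Om D k k' → D.K}
    (hf : f ∈ gmod D k k' a) (hg : g ∈ gmod D k k' b) :
    (fun x => f x * g x) ∈ gmod D k k' (a + b) :=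
  ⟨fun y => wmod_mul h (hf.1 y) (hg.1 y), fun x => wmod_mul h (hf.2 x) (hg.2 x)⟩

/-- words of degree one are determined by their contents -/
theorem gmod_rig (h : D.OK M0 lam0 Kr) {f : Om D k k' → D.K}
    (hf : f ∈ gmod D k k' 1) (h0 : ∀ a, f (gh0 D k k' a) = 0) : f = 0 := by
  have h1 := tens_res_injective (h := fun p : D.P k => (p, sy0 D))
    (h' := fun t : D.P k' => (t, sy0 D)) (V := wmod D k 1) (V' := wmod D k' 1)
    (fun v hv h0 => wmod_rig h hv h0) (fun v hv h0 => wmod_rig h hv h0)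
    (mem_gmod_iff.1 hf) (fun p t => h0 (p, t))
  funext x
  obtain ⟨⟨p, t⟩, s, s'⟩ := x
  exact congrFun h1 ((p, s), (t, s'))

/-- words of given contents -/
theorem gmod_surj (h : D.OK M0 lam0 Kr) (c : Gam D k k' → D.K) :
    ∃ f ∈ gmod D k k' 1, ∀ a, f (gh0 D k k' a) = c a := by
  obtain ⟨w, hw, hc⟩ := tens_res_surjective (h := fun p : D.P k => (p, sy0 D))
    (h' := fun t : D.P k' => (t, sy0 D)) (V := wmod D k 1) (V' := wmod D k' 1)
    (fun c => wmod_surj h c) (fun c => wmod_surj h c) c
  exact ⟨fun x => w ((x.1.1, x.2.1), (x.1.2, x.2.2)), mem_gmod_of_tens hw, fun a => hc a.1 a.2⟩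

variable (D k k')

/-- restriction to the contents -/
def gres : gmod D k k' 1 →ₗ[D.K] (Gam D k k' → D.K) where
  toFun f a := f.1 (gh0 D k k' a)
  map_add' _ _ := rfl
  map_smul' _ _ := rfl

variable {D k k'}

theorem gres_bijective (h : D.OK M0 lam0 Kr) : Function.Bijective (gres D k k') := by
  constructor
  · rw [injective_iff_map_eq_zero]
    intro w hw
    exact Subtype.ext (gmod_rig h w.2 fun a => congrFun hw a)
  · intro c
    obtain ⟨f, hf, hc⟩ := gmod_surj h c
    exact ⟨⟨f, hf⟩, funext hc⟩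

/-- the word of degree one with given contents -/
noncomputable def genc (h : D.OK M0 lam0 Kr) : (Gam D k k' → D.K) →ₗ[D.K] (Om D k k' → D.K) :=
  (gmod D k k' 1).subtype ∘ₗ (LinearEquiv.ofBijective (gres D k k') (gres_bijective h)).symm.toLinearMap

theorem genc_mem (h : D.OK M0 lam0 Kr) (c : Gam D k k' → D.K) : genc h c ∈ gmod D k k' 1 :=
  ((LinearEquiv.ofBijective (gres D k k') (gres_bijective h)).symm c).2

theorem genc_content (h : D.OK M0 lam0 Kr) (c : Gam D k k' → D.K) (a : Gam D k k') :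
    genc h c (gh0 D k k' a) = c a :=
  congrFun ((LinearEquiv.ofBijective (gres D k k') (gres_bijective h)).apply_symm_apply c) a

theorem eq_genc (h : D.OK M0 lam0 Kr) {f : Om D k k' → D.K} (hf : f ∈ gmod D k k' 1) :
    f = genc h (fun a => f (gh0 D k k' a)) := by
  have h1 : f - genc h (fun a => f (gh0 D k k' a)) ∈ gmod D k k' 1 :=
    (gmod D k k' 1).sub_mem hf (genc_mem h _)
  have h2 := gmod_rig h h1 (fun a => by
    rw [Pi.sub_apply, genc_content]; exact sub_self _)
  exact sub_eq_zero.1 h2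

/-- equivariance of the encoder -/
theorem genc_tr (h : D.OK M0 lam0 Kr) (c : Gam D k k' → D.K) (a : Gam D k k') :
    genc h (fun x => c (a * x)) = fun x => genc h c (glmul D k k' a x) := by
  have h1 := eq_genc h (gmod_tr (k := k) (k' := k') a (genc_mem h c))
  rw [h1]
  congr 1
  funext x
  exact (genc_content h c (a * x)).symm

/-- **the content side of the machine** (steps `st g`, public words with contents `pcont`) -/
noncomputable def toCD (h : D.OK M0 lam0 Kr) {G : Type} (B : PMach D.K G)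
    (st : G → Gam D k k') (pcont : B.Pub → Gam D k k' → D.K) :
    CD D.K G B (Gam D k k') (Om D k k') where
  act g := Equiv.mulLeft (st g)
  actO g := glmul D k k' (st g)
  h0 := gh0 D k k'
  hh _ _ := rfl
  C := gmod D k k'
  hmul _ _ _ _ hf hg := gmod_mul h hf hg
  htr g _ _ hf := gmod_tr (st g) hf
  hti g _ _ hf := gmod_ti (st g) hf
  hrig _ hf h0 := gmod_rig h hf h0
  pw i := genc h (pcont i)
  hpw _ := genc_mem h _

theorem toCD_pc (h : D.OK M0 lam0 Kr) {G : Type} (B : PMach D.K G)
    (st : G → Gam D k k') (pcont : B.Pub → Gam D k k' → D.K) :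
    (toCD h B st pcont).pc = pcont := by
  funext i a
  exact genc_content h (pcont i) a

end Crest.Agent.R289.GamObj821
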