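import Mathlib
import Crest.Agent.R289.Compile_827
import Crest.Agent.R289.Word2_508

/-!
# Row 289, block C: from the exact machine `LM` (Compile_827) and local formulas to `asm_Ax` (Word2_508)

* `Lab` : label of a unit; `Rul` : instance independent local rules; `Loc` : the local formulas are
  correct for an instance `m : LM X Z R` with unit realisations `rx`, `rz`, `clk`;
* `rel`, `SN`, `SM` : relation, forward and backward step rule of the assembled machine;
* `gap`, `mem_W`, `N_eq`, `M_eq`, `cohN`, `cohM` : the hypotheses of `asm_Ax`;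
* `loc_Ax` : the literal `MData.Ax`; `ends_N`, `ends_M` : dead ends.
-/

set_option autoImplicit false
set_option linter.unusedSimpArgs false
set_option linter.unusedVariables false
set_option linter.unusedSectionVars false

namespace Crest.Agent.R289.LocLM89

open Finset Crest.Agent.R289.DefD Crest.Agent.R289.Word508 Crest.Agent.R289.Compile827

/-! ### labels -/

/-- label of a unit -/
@[ext] structure Lab (AC AX AZ R : Type) where
  l : Letter R
  c : AC
  x1 : AX
  z1 : AZ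
  x2 : AX
  z2 : AZ

/-- letters as a sum -/
def letterEquiv (R : Type) : Letter R ≃ Option (Option (R ⊕ R)) where
  toFun
    | .boot => none
    | .rest => some none
    | .fw ρ => some (some (Sum.inl ρ))
    | .bw ρ => some (some (Sum.inr ρ))
  invFun
    | none => .boot
    | some none => .rest
    | some (some (Sum.inl ρ)) => .fw ρ
    | some (some (Sum.inr ρ)) => .bw ρ
  left_inv := by rintro (_ | _ | _ | _) <;> rfl
  right_inv := by rintro (_ | _ | _ | _) <;> rfl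

instance (R : Type) : Nonempty (Letter R) := ⟨.boot⟩

instance (R : Type) [Finite R] : Finite (Letter R) := Finite.of_equiv _ (letterEquiv R).symm

/-- labels as a product -/
def labEquiv (AC AX AZ R : Type) :
    Lab AC AX AZ R ≃ Letter R × AC × AX × AZ × AX × AZ where
  toFun a := (a.l, a.c, a.x1, a.z1, a.x2, a.z2)
  invFun p := ⟨p.1, p.2.1, p.2.2.1, p.2.2.2.1, p.2.2.2.2.1, p.2.2.2.2.2⟩
  left_inv _ := rfl
  right_inv _ := rfl

instance (AC AX AZ R : Type) [Finite AC] [Finite AX] [Finite AZ] [Finite R] :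
    Finite (Lab AC AX AZ R) := Finite.of_equiv _ (labEquiv AC AX AZ R).symm

instance (AC AX AZ R : Type) [Nonempty AC] [Nonempty AX] [Nonempty AZ] :
    Nonempty (Lab AC AX AZ R) :=
  ⟨⟨.boot, Classical.arbitrary _, Classical.arbitrary _, Classical.arbitrary _,
    Classical.arbitrary _, Classical.arbitrary _⟩⟩

/-! ### rules -/

/-- instance independent local rules.  Views: `ι → AC` = clock symbols of the slots, etc.;
`P` = public data of the unit. -/
structure Rul (ι P AC AX AZ R : Type) where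
  /-- slot of the unit itself -/
  i0 : ι
  /-- blank content label -/
  bx : P → AX
  /-- blank certificate label -/
  bz : P → AZ
  /-- label of the start content word -/
  sx : P → AX
  /-- clock at 0 -/
  c0 : P → AC
  /-- clock at `L` -/
  cL : P → AC
  /-- the clock shows `L` -/
  top : (ι → AC) → P → Prop
  /-- the clock shows `0` -/
  bot : (ι → AC) → P → Prop
  cup : (ι → AC) → P → AC
  cdn : (ι → AC) → P → AC
  /-- certificate of the depth shown by the clock -/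
  rc : (ι → AC) → (ι → AX) → (ι → AZ) → P → Prop
  /-- certificate of full depth -/
  rcL : (ι → AX) → (ι → AZ) → P → Prop
  st : (ι → AX) → (ι → AZ) → P → Prop
  en : R → (ι → AX) → (ι → AZ) → P → Prop
  bk : R → (ι → AX) → (ι → AZ) → P → Prop
  push : (ι → AC) → (ι → AX) → (ι → AZ) → P → AZ
  pop : (ι → AC) → (ι → AX) → (ι → AZ) → P → AZ
  up : R → (ι → AX) → P → AX
  dn : R → (ι → AX) → P → AX
  entUp : R → (ι → AX) → P → AZ
  entDn : R → (ι → AX) → P → AZ

section
variable {ι U P AC AX AZ R X Z : Type}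

/-- view of a word at a unit -/
def vw {A : Type} (nb : ι → U → U) (w : U → A) (u : U) : ι → A := fun i => w (nb i u)

/-- the local formulas are correct for the instance -/
structure Loc [Fintype U] (Q : Rul ι P AC AX AZ R) (m : LM X Z R) (nb : ι → U → U) (pub : U → P)
    (rx : X → U → AX) (rz : Z → U → AZ) (clk : ℕ → U → AC) (g : ℝ) : Prop where
  hi0 : ∀ u, nb Q.i0 u = u
  dx : ∀ x y, x ≠ y → g ≤ distW (rx x) (rx y)
  dz : ∀ z z', z ≠ z' → g ≤ distW (rz z) (rz z')
  dc : ∀ t t', t ≤ m.L → t' ≤ m.L → t ≠ t' → g ≤ distW (clk t) (clk t')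
  bx : ∀ u, Q.bx (pub u) = rx m.xz u
  bz : ∀ u, Q.bz (pub u) = rz m.zz u
  sx : ∀ u, Q.sx (pub u) = rx m.x0 u
  c0 : ∀ u, Q.c0 (pub u) = clk 0 u
  cL : ∀ u, Q.cL (pub u) = clk m.L u
  top : ∀ t, t ≤ m.L → ∀ u, Q.top (vw nb (clk t) u) (pub u) ↔ t = m.L
  bot : ∀ t, t ≤ m.L → ∀ u, Q.bot (vw nb (clk t) u) (pub u) ↔ t = 0
  cup : ∀ t, t < m.L → ∀ u, Q.cup (vw nb (clk t) u) (pub u) = clk (t + 1) u
  cdn : ∀ t, t < m.L → ∀ u, Q.cdn (vw nb (clk (t + 1)) u) (pub u) = clk t u
  rc : ∀ t, t ≤ m.L → ∀ x u,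
    Q.rc (vw nb (clk t) u) (vw nb (rx x) u) (vw nb (rz (m.cert x t)) u) (pub u)
  rcG : ∀ t, t ≤ m.L → ∀ x z, z ≠ m.cert x t → g ≤ frac fun u =>
    ¬ Q.rc (vw nb (clk t) u) (vw nb (rx x) u) (vw nb (rz z) u) (pub u)
  rcL : ∀ x u, Q.rcL (vw nb (rx x) u) (vw nb (rz (m.cert x m.L)) u) (pub u)
  rcLG : ∀ x z, z ≠ m.cert x m.L → g ≤ frac fun u =>
    ¬ Q.rcL (vw nb (rx x) u) (vw nb (rz z) u) (pub u)
  st : ∀ x, m.IsL x → ∀ u, Q.st (vw nb (rx x) u) (vw nb (rz (m.cert x m.L)) u) (pub u)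
  stG : ∀ x, ¬ m.IsL x → g ≤ frac fun u =>
    ¬ Q.st (vw nb (rx x) u) (vw nb (rz (m.cert x m.L)) u) (pub u)
  en : ∀ ρ x, m.IsL x → m.en ρ x → ∀ u,
    Q.en ρ (vw nb (rx x) u) (vw nb (rz (m.cert x m.L)) u) (pub u)
  enG : ∀ ρ x, m.IsL x → ¬ m.en ρ x → g ≤ frac fun u =>
    ¬ Q.en ρ (vw nb (rx x) u) (vw nb (rz (m.cert x m.L)) u) (pub u)
  bk : ∀ ρ x, m.IsL x → m.bk ρ x → ∀ u,
    Q.bk ρ (vw nb (rx x) u) (vw nb (rz (m.cert x m.L)) u) (pub u)
  bkG : ∀ ρ x, m.IsL x → ¬ m.bk ρ x → g ≤ frac fun u =>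
    ¬ Q.bk ρ (vw nb (rx x) u) (vw nb (rz (m.cert x m.L)) u) (pub u)
  push : ∀ t, t < m.L → ∀ x, m.IsL x → ∀ u,
    Q.push (vw nb (clk t) u) (vw nb (rx x) u) (vw nb (rz (m.cert x t)) u) (pub u) =
      rz (m.cert x (t + 1)) u
  pop : ∀ t, t < m.L → ∀ x, m.IsL x → ∀ u,
    Q.pop (vw nb (clk (t + 1)) u) (vw nb (rx x) u) (vw nb (rz (m.cert x (t + 1))) u) (pub u) =
      rz (m.cert x t) u
  up : ∀ ρ x, m.IsL x → m.en ρ x → ∀ u, Q.up ρ (vw nb (rx x) u) (pub u) = rx (m.up ρ x) u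
  dn : ∀ ρ x, m.IsL x → m.bk ρ x → ∀ u, Q.dn ρ (vw nb (rx x) u) (pub u) = rx (m.dn ρ x) u
  entUp : ∀ ρ x, m.IsL x → m.en ρ x → ∀ u,
    Q.entUp ρ (vw nb (rx x) u) (pub u) = rz (m.cert (m.up ρ x) 0) u
  entDn : ∀ ρ x, m.IsL x → m.bk ρ x → ∀ u,
    Q.entDn ρ (vw nb (rx x) u) (pub u) = rz (m.cert (m.dn ρ x) 0) u

/-! ### the assembled relation and the step rules -/

/-- the relation of the assembled machine -/
def rel (Q : Rul ι P AC AX AZ R) (_ : Unit) (x : ι → Lab AC AX AZ R) (p : P) : Prop :=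
  match (x Q.i0).l with
  | .boot => (x Q.i0).x1 = Q.bx p ∧ (x Q.i0).z1 = Q.bz p ∧ (x Q.i0).x2 = Q.sx p ∧
      Q.rc (fun i => (x i).c) (fun i => (x i).x2) (fun i => (x i).z2) p
  | .rest => (x Q.i0).c = Q.c0 p ∧ Q.rcL (fun i => (x i).x1) (fun i => (x i).z1) p ∧
      Q.st (fun i => (x i).x1) (fun i => (x i).z1) p ∧
      (x Q.i0).x2 = Q.bx p ∧ (x Q.i0).z2 = Q.bz p
  | .fw ρ => Q.rcL (fun i => (x i).x1) (fun i => (x i).z1) p ∧
      Q.st (fun i => (x i).x1) (fun i => (x i).z1) p ∧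
      Q.en ρ (fun i => (x i).x1) (fun i => (x i).z1) p ∧
      (x Q.i0).x2 = Q.up ρ (fun i => (x i).x1) p ∧
      Q.rc (fun i => (x i).c) (fun i => (x i).x2) (fun i => (x i).z2) p
  | .bw ρ => Q.rcL (fun i => (x i).x2) (fun i => (x i).z2) p ∧
      Q.st (fun i => (x i).x2) (fun i => (x i).z2) p ∧
      Q.bk ρ (fun i => (x i).x2) (fun i => (x i).z2) p ∧
      (x Q.i0).x1 = Q.dn ρ (fun i => (x i).x2) p ∧
      Q.rc (fun i => (x i).c) (fun i => (x i).x1) (fun i => (x i).z1) p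

open Classical in
/-- forward step rule -/
noncomputable def SN (Q : Rul ι P AC AX AZ R) :
    SRule ι (Lab AC AX AZ R) P R (fun _ => Unit) where
  val ρ x p := match (x Q.i0).l with
    | .rest => if Q.en ρ (fun i => (x i).x1) (fun i => (x i).z1) p then none else some ()
    | _ => none
  F x p r := match (x Q.i0).l with
    | .boot => if Q.top (fun i => (x i).c) p then
        ⟨.rest, Q.c0 p, (x Q.i0).x2, (x Q.i0).z2, Q.bx p, Q.bz p⟩
      else ⟨.boot, Q.cup (fun i => (x i).c) p, (x Q.i0).x1, (x Q.i0).z1, (x Q.i0).x2,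
        Q.push (fun i => (x i).c) (fun i => (x i).x2) (fun i => (x i).z2) p⟩
    | .rest => if h : ∃ ρ, r ρ = none then
        ⟨.fw h.choose, Q.c0 p, (x Q.i0).x1, (x Q.i0).z1,
          Q.up h.choose (fun i => (x i).x1) p, Q.entUp h.choose (fun i => (x i).x1) p⟩
      else x Q.i0
    | .fw ρ => if Q.top (fun i => (x i).c) p then
        ⟨.bw ρ, (x Q.i0).c, (x Q.i0).x1, (x Q.i0).z1, (x Q.i0).x2, (x Q.i0).z2⟩
      else ⟨.fw ρ, Q.cup (fun i => (x i).c) p, (x Q.i0).x1, (x Q.i0).z1, (x Q.i0).x2,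
        Q.push (fun i => (x i).c) (fun i => (x i).x2) (fun i => (x i).z2) p⟩
    | .bw ρ => if Q.bot (fun i => (x i).c) p then
        ⟨.rest, Q.c0 p, (x Q.i0).x2, (x Q.i0).z2, Q.bx p, Q.bz p⟩
      else ⟨.bw ρ, Q.cdn (fun i => (x i).c) p, (x Q.i0).x1,
        Q.pop (fun i => (x i).c) (fun i => (x i).x1) (fun i => (x i).z1) p,
        (x Q.i0).x2, (x Q.i0).z2⟩

open Classical in
/-- backward step rule -/
noncomputable def SM (Q : Rul ι P AC AX AZ R) :
    SRule ι (Lab AC AX AZ R) P (Option R) (fun _ => Unit) where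
  val j x p := match (x Q.i0).l with
    | .rest => match j with
      | some ρ => if Q.bk ρ (fun i => (x i).x1) (fun i => (x i).z1) p then none else some ()
      | none => if (x Q.i0).x1 = Q.sx p then none else some ()
    | _ => none
  F x p r := match (x Q.i0).l with
    | .boot => if Q.bot (fun i => (x i).c) p then x Q.i0
      else ⟨.boot, Q.cdn (fun i => (x i).c) p, (x Q.i0).x1, (x Q.i0).z1, (x Q.i0).x2,
        Q.pop (fun i => (x i).c) (fun i => (x i).x2) (fun i => (x i).z2) p⟩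
    | .rest => if h : ∃ ρ : R, r (some ρ) = none then
        ⟨.bw h.choose, Q.c0 p, Q.dn h.choose (fun i => (x i).x1) p,
          Q.entDn h.choose (fun i => (x i).x1) p, (x Q.i0).x1, (x Q.i0).z1⟩
      else if r none = none then
        ⟨.boot, Q.cL p, Q.bx p, Q.bz p, (x Q.i0).x1, (x Q.i0).z1⟩
      else x Q.i0
    | .fw ρ => if Q.bot (fun i => (x i).c) p then
        ⟨.rest, Q.c0 p, (x Q.i0).x1, (x Q.i0).z1, Q.bx p, Q.bz p⟩
      else ⟨.fw ρ, Q.cdn (fun i => (x i).c) p, (x Q.i0).x1, (x Q.i0).z1, (x Q.i0).x2,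
        Q.pop (fun i => (x i).c) (fun i => (x i).x2) (fun i => (x i).z2) p⟩
    | .bw ρ => if Q.top (fun i => (x i).c) p then
        ⟨.fw ρ, (x Q.i0).c, (x Q.i0).x1, (x Q.i0).z1, (x Q.i0).x2, (x Q.i0).z2⟩
      else ⟨.bw ρ, Q.cup (fun i => (x i).c) p, (x Q.i0).x1,
        Q.push (fun i => (x i).c) (fun i => (x i).x1) (fun i => (x i).z1) p,
        (x Q.i0).x2, (x Q.i0).z2⟩

/-- the unit word of a configuration -/
def word (rx : X → U → AX) (rz : Z → U → AZ) (clk : ℕ → U → AC) (c : Conf X Z R) :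
    U → Lab AC AX AZ R :=
  fun u => ⟨c.l, clk c.t u, rx c.x1 u, rz c.z1 u, rx c.x2 u, rz c.z2 u⟩

/-- the label code -/
def code (m : LM X Z R) (rx : X → U → AX) (rz : Z → U → AZ) (clk : ℕ → U → AC) :
    Set (U → Lab AC AX AZ R) :=
  {w | ∃ c : Conf X Z R, c.t ≤ m.L ∧ w = word rx rz clk c}

variable [Fintype U] {Q : Rul ι P AC AX AZ R} {m : LM X Z R} {nb : ι → U → U} {pub : U → P}
  {rx : X → U → AX} {rz : Z → U → AZ} {clk : ℕ → U → AC} {g : ℝ}

lemma distW_self {A : Type} (w : U → A) : distW w w = 0 :=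
  frac_eq_zero fun u hu => hu rfl

theorem Loc.rx_inj (H : Loc Q m nb pub rx rz clk g) (hg : 0 < g) {x y : X} (h : rx x = rx y) :
    x = y := by
  by_contra hne
  have := H.dx x y hne
  rw [h, distW_self] at this
  linarith

theorem Loc.rz_inj (H : Loc Q m nb pub rx rz clk g) (hg : 0 < g) {x y : Z} (h : rz x = rz y) :
    x = y := by
  by_contra hne
  have := H.dz x y hne
  rw [h, distW_self] at this
  linarith

theorem Loc.clk_inj (H : Loc Q m nb pub rx rz clk g) (hg : 0 < g) {t t' : ℕ} (ht : t ≤ m.L)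
    (ht' : t' ≤ m.L) (h : clk t = clk t') : t = t' := by
  by_contra hne
  have := H.dc t t' ht ht' hne
  rw [h, distW_self] at this
  linarith

/-- positive distance forces a unit -/
theorem nonempty_of_le {p : U → Prop} (hg : 0 < g) (h : g ≤ frac p) : ∃ u, p u := by
  by_contra hcon
  push Not at hcon
  rw [frac_eq_zero hcon] at h
  linarith

theorem word_inj [Nonempty U] (H : Loc Q m nb pub rx rz clk g) (hg : 0 < g) {c c' : Conf X Z R}
    (ht : c.t ≤ m.L) (ht' : c'.t ≤ m.L) (h : word rx rz clk c = word rx rz clk c') : c = c' := by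
  obtain ⟨u⟩ := ‹Nonempty U›
  have hl : c.l = c'.l := congrArg Lab.l (congrFun h u)
  have hc : c.t = c'.t := H.clk_inj hg ht ht' (funext fun u => congrArg Lab.c (congrFun h u))
  have h1 : c.x1 = c'.x1 := H.rx_inj hg (funext fun u => congrArg Lab.x1 (congrFun h u))
  have h2 : c.z1 = c'.z1 := H.rz_inj hg (funext fun u => congrArg Lab.z1 (congrFun h u))
  have h3 : c.x2 = c'.x2 := H.rx_inj hg (funext fun u => congrArg Lab.x2 (congrFun h u))
  have h4 : c.z2 = c'.z2 := H.rz_inj hg (funext fun u => congrArg Lab.z2 (congrFun h u))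
  exact Conf.ext hl hc h1 h2 h3 h4

/-- the clock of a state is at most `L` -/
theorem conf_t_le (a : m.CSt) : (m.conf a).t ≤ m.L := by
  cases a with
  | boot t ht => exact ht
  | rest x hx => exact Nat.zero_le _
  | fw ρ x hx h t ht => exact ht
  | bw ρ x hx h t ht => exact ht

/-- the relations hold at the words of the states -/
theorem rel_conf (H : Loc Q m nb pub rx rz clk g) (a : m.CSt) (j : Unit) (u : U) :
    rel Q j (fun i => word rx rz clk (m.conf a) (nb i u)) (pub u) := by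
  cases a with
  | boot t ht =>
    refine ⟨?_, ?_, ?_, ?_⟩
    · show rx m.xz (nb Q.i0 u) = _
      rw [H.hi0, H.bx]
    · show rz m.zz (nb Q.i0 u) = _
      rw [H.hi0, H.bz]
    · show rx m.x0 (nb Q.i0 u) = _
      rw [H.hi0, H.sx]
    · exact H.rc t ht m.x0 u
  | rest x hx =>
    refine ⟨?_, H.rcL x u, H.st x hx u, ?_, ?_⟩
    · show clk 0 (nb Q.i0 u) = _
      rw [H.hi0, H.c0]
    · show rx m.xz (nb Q.i0 u) = _
      rw [H.hi0, H.bx]
    · show rz m.zz (nb Q.i0 u) = _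
      rw [H.hi0, H.bz]
  | fw ρ x hx h t ht =>
    refine ⟨H.rcL x u, H.st x hx u, H.en ρ x hx h u, ?_, H.rc t ht (m.up ρ x) u⟩
    show rx (m.up ρ x) (nb Q.i0 u) = _
    rw [H.hi0]
    exact (H.up ρ x hx h u).symm
  | bw ρ x hx h t ht =>
    refine ⟨H.rcL x u, H.st x hx u, H.bk ρ x hx h u, ?_, H.rc t ht (m.dn ρ x) u⟩
    show rx (m.dn ρ x) (nb Q.i0 u) = _
    rw [H.hi0]
    exact (H.dn ρ x hx h u).symm

/-- **GAP**: an exact code word whose relation fails on less than `g` of the units is the word of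
a state -/
theorem conf_of_lt (H : Loc Q m nb pub rx rz clk g) (hg : 0 < g) (c : Conf X Z R)
    (ht : c.t ≤ m.L)
    (hlt : frac (fun u => ¬ rel Q () (fun i => word rx rz clk c (nb i u)) (pub u)) < g) :
    ∃ a : m.CSt, c = m.conf a := by
  obtain ⟨l, t, x1, z1, x2, z2⟩ := c
  have ht' : t ≤ m.L := ht
  -- generic tool: a pointwise consequence that fails on `≥ g` of the units must be true
  have key : ∀ {q : U → Prop} {b : Prop},
      (∀ u, rel Q () (fun i => word rx rz clk ⟨l, t, x1, z1, x2, z2⟩ (nb i u)) (pub u) → q u) →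
      (¬ b → g ≤ frac fun u => ¬ q u) → b := by
    intro q b hq hb
    by_contra hnb
    have h1 := hb hnb
    have h2 := frac_mono (p := fun u => ¬ q u)
      (q := fun u => ¬ rel Q () (fun i => word rx rz clk ⟨l, t, x1, z1, x2, z2⟩ (nb i u)) (pub u))
      (fun u hu hr => hu (hq u hr))
    linarith
  cases l with
  | boot =>
    have e1 : x1 = m.xz := key (q := fun u => rx x1 u = rx m.xz u)
      (fun u hu => by
        have h1 : rx x1 (nb Q.i0 u) = Q.bx (pub u) := hu.1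
        rwa [H.hi0, H.bx] at h1) (H.dx x1 m.xz)
    have e2 : z1 = m.zz := key (q := fun u => rz z1 u = rz m.zz u)
      (fun u hu => by
        have h1 : rz z1 (nb Q.i0 u) = Q.bz (pub u) := hu.2.1
        rwa [H.hi0, H.bz] at h1) (H.dz z1 m.zz)
    have e3 : x2 = m.x0 := key (q := fun u => rx x2 u = rx m.x0 u)
      (fun u hu => by
        have h1 : rx x2 (nb Q.i0 u) = Q.sx (pub u) := hu.2.2.1
        rwa [H.hi0, H.sx] at h1) (H.dx x2 m.x0)
    have e4 : z2 = m.cert x2 t := key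
      (q := fun u => Q.rc (vw nb (clk t) u) (vw nb (rx x2) u) (vw nb (rz z2) u) (pub u))
      (fun u hu => hu.2.2.2) (H.rcG t ht' x2 z2)
    subst e1 e2 e3 e4
    exact ⟨.boot t ht', rfl⟩
  | rest =>
    have e0 : t = 0 := key (q := fun u => clk t u = clk 0 u)
      (fun u hu => by
        have h1 : clk t (nb Q.i0 u) = Q.c0 (pub u) := hu.1
        rwa [H.hi0, H.c0] at h1) (H.dc t 0 ht' (Nat.zero_le _))
    have e1 : z1 = m.cert x1 m.L := key
      (q := fun u => Q.rcL (vw nb (rx x1) u) (vw nb (rz z1) u) (pub u))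
      (fun u hu => hu.2.1) (H.rcLG x1 z1)
    subst e0 e1
    have e2 : m.IsL x1 := key
      (q := fun u => Q.st (vw nb (rx x1) u) (vw nb (rz (m.cert x1 m.L)) u) (pub u))
      (fun u hu => hu.2.2.1) (H.stG x1)
    have e3 : x2 = m.xz := key (q := fun u => rx x2 u = rx m.xz u)
      (fun u hu => by
        have h1 : rx x2 (nb Q.i0 u) = Q.bx (pub u) := hu.2.2.2.1
        rwa [H.hi0, H.bx] at h1) (H.dx x2 m.xz)
    have e4 : z2 = m.zz := key (q := fun u => rz z2 u = rz m.zz u)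
      (fun u hu => by
        have h1 : rz z2 (nb Q.i0 u) = Q.bz (pub u) := hu.2.2.2.2
        rwa [H.hi0, H.bz] at h1) (H.dz z2 m.zz)
    subst e3 e4
    exact ⟨.rest x1 e2, rfl⟩
  | fw ρ =>
    have e1 : z1 = m.cert x1 m.L := key
      (q := fun u => Q.rcL (vw nb (rx x1) u) (vw nb (rz z1) u) (pub u))
      (fun u hu => hu.1) (H.rcLG x1 z1)
    subst e1
    have e2 : m.IsL x1 := key
      (q := fun u => Q.st (vw nb (rx x1) u) (vw nb (rz (m.cert x1 m.L)) u) (pub u))
      (fun u hu => hu.2.1) (H.stG x1)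
    have e3 : m.en ρ x1 := key
      (q := fun u => Q.en ρ (vw nb (rx x1) u) (vw nb (rz (m.cert x1 m.L)) u) (pub u))
      (fun u hu => hu.2.2.1) (H.enG ρ x1 e2)
    have e4 : x2 = m.up ρ x1 := key (q := fun u => rx x2 u = rx (m.up ρ x1) u)
      (fun u hu => by
        have h1 : rx x2 (nb Q.i0 u) = Q.up ρ (vw nb (rx x1) u) (pub u) := hu.2.2.2.1
        rwa [H.hi0, H.up ρ x1 e2 e3] at h1) (H.dx x2 _)
    subst e4
    have e5 : z2 = m.cert (m.up ρ x1) t := key
      (q := fun u => Q.rc (vw nb (clk t) u) (vw nb (rx (m.up ρ x1)) u) (vw nb (rz z2) u) (pub u))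
      (fun u hu => hu.2.2.2.2) (H.rcG t ht' _ z2)
    subst e5
    exact ⟨.fw ρ x1 e2 e3 t ht', rfl⟩
  | bw ρ =>
    have e1 : z2 = m.cert x2 m.L := key
      (q := fun u => Q.rcL (vw nb (rx x2) u) (vw nb (rz z2) u) (pub u))
      (fun u hu => hu.1) (H.rcLG x2 z2)
    subst e1
    have e2 : m.IsL x2 := key
      (q := fun u => Q.st (vw nb (rx x2) u) (vw nb (rz (m.cert x2 m.L)) u) (pub u))
      (fun u hu => hu.2.1) (H.stG x2)
    have e3 : m.bk ρ x2 := key
      (q := fun u => Q.bk ρ (vw nb (rx x2) u) (vw nb (rz (m.cert x2 m.L)) u) (pub u))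
      (fun u hu => hu.2.2.1) (H.bkG ρ x2 e2)
    have e4 : x1 = m.dn ρ x2 := key (q := fun u => rx x1 u = rx (m.dn ρ x2) u)
      (fun u hu => by
        have h1 : rx x1 (nb Q.i0 u) = Q.dn ρ (vw nb (rx x2) u) (pub u) := hu.2.2.2.1
        rwa [H.hi0, H.dn ρ x2 e2 e3] at h1) (H.dx x1 _)
    subst e4
    have e5 : z1 = m.cert (m.dn ρ x2) t := key
      (q := fun u => Q.rc (vw nb (clk t) u) (vw nb (rx (m.dn ρ x2)) u) (vw nb (rz z1) u) (pub u))
      (fun u hu => hu.2.2.2.2) (H.rcG t ht' _ z1)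
    subst e5
    exact ⟨.bw ρ x2 e2 e3 t ht', rfl⟩

/-- the gap hypothesis of `asm_Ax` -/
theorem gap (H : Loc Q m nb pub rx rz clk g) (hg : 0 < g) :
    ∀ w ∈ code m rx rz clk, (¬ ∀ j u, rel Q j (fun i => w (nb i u)) (pub u)) →
      ∃ j, g ≤ frac fun u => ¬ rel Q j (fun i => w (nb i u)) (pub u) := by
  rintro _ ⟨c, ht, rfl⟩ hne
  refine ⟨(), ?_⟩
  by_contra hcon
  push Not at hcon
  obtain ⟨a, rfl⟩ := conf_of_lt H hg c ht hcon
  exact hne fun j u => rel_conf H a j u

/-- the legal words -/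
theorem mem_W (H : Loc Q m nb pub rx rz clk g) (hg : 0 < g) (w : U → Lab AC AX AZ R) :
    w ∈ restrictC nb pub (code m rx rz clk) (rel Q) ↔
      ∃ a : m.CSt, w = word rx rz clk (m.conf a) := by
  constructor
  · rintro ⟨⟨c, ht, rfl⟩, hr⟩
    obtain ⟨a, ha⟩ := conf_of_lt H hg c ht (by
      rw [frac_eq_zero (fun u hu => hu (hr () u))]
      exact hg)
    exact ⟨a, by rw [ha]⟩
  · rintro ⟨a, rfl⟩
    exact ⟨⟨m.conf a, conf_t_le a, rfl⟩, fun j u => rel_conf H a j u⟩

open Classical in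
/-- the step map on unit words -/
noncomputable def stp (m : LM X Z R) (rx : X → U → AX) (rz : Z → U → AZ) (clk : ℕ → U → AC)
    (f : Conf X Z R → Conf X Z R) (w : U → Lab AC AX AZ R) : U → Lab AC AX AZ R :=
  if h : ∃ a : m.CSt, w = word rx rz clk (m.conf a) then word rx rz clk (f (m.conf h.choose))
  else w

theorem stp_word [Nonempty U] (H : Loc Q m nb pub rx rz clk g) (hg : 0 < g)
    (f : Conf X Z R → Conf X Z R) (a : m.CSt) :
    stp m rx rz clk f (word rx rz clk (m.conf a)) = word rx rz clk (f (m.conf a)) := by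
  have h : ∃ a' : m.CSt, word rx rz clk (m.conf a) = word rx rz clk (m.conf a') := ⟨a, rfl⟩
  unfold stp
  rw [dif_pos h]
  have := word_inj H hg (conf_t_le _) (conf_t_le _) h.choose_spec
  rw [← this]

/-! ### closure and inverses -/

theorem stepN_conf (a : m.CSt) : ∃ b : m.CSt, m.stepN (m.conf a) = m.conf b :=
  (m.legal_iff _).1 (m.legal_stepN (m.legal_conf a))

theorem stepM_conf (a : m.CSt) : ∃ b : m.CSt, m.stepM (m.conf a) = m.conf b :=
  (m.legal_iff _).1 (m.legal_stepM (m.legal_conf a))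

theorem N_mem [Nonempty U] (H : Loc Q m nb pub rx rz clk g) (hg : 0 < g) :
    ∀ w ∈ restrictC nb pub (code m rx rz clk) (rel Q),
      stp m rx rz clk m.stepN w ∈ restrictC nb pub (code m rx rz clk) (rel Q) := by
  intro w hw
  obtain ⟨a, rfl⟩ := (mem_W H hg w).1 hw
  obtain ⟨b, hb⟩ := stepN_conf (m := m) a
  rw [stp_word H hg, hb]
  exact (mem_W H hg _).2 ⟨b, rfl⟩

theorem M_mem [Nonempty U] (H : Loc Q m nb pub rx rz clk g) (hg : 0 < g) :
    ∀ w ∈ restrictC nb pub (code m rx rz clk) (rel Q),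
      stp m rx rz clk m.stepM w ∈ restrictC nb pub (code m rx rz clk) (rel Q) := by
  intro w hw
  obtain ⟨a, rfl⟩ := (mem_W H hg w).1 hw
  obtain ⟨b, hb⟩ := stepM_conf (m := m) a
  rw [stp_word H hg, hb]
  exact (mem_W H hg _).2 ⟨b, rfl⟩

theorem MN [Nonempty U] (H : Loc Q m nb pub rx rz clk g) (hg : 0 < g) :
    ∀ w ∈ restrictC nb pub (code m rx rz clk) (rel Q), stp m rx rz clk m.stepN w ≠ w →
      stp m rx rz clk m.stepM (stp m rx rz clk m.stepN w) = w := by
  intro w hw hne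
  obtain ⟨a, rfl⟩ := (mem_W H hg w).1 hw
  rw [stp_word H hg] at hne
  have h1 : m.stepN (m.conf a) ≠ m.conf a := fun h => hne (by rw [h])
  have h2 := m.stepM_stepN (m.legal_conf a) h1
  obtain ⟨b, hb⟩ := stepN_conf (m := m) a
  rw [stp_word H hg, hb, stp_word H hg, ← hb, h2]

theorem NM [Nonempty U] (H : Loc Q m nb pub rx rz clk g) (hg : 0 < g) :
    ∀ w ∈ restrictC nb pub (code m rx rz clk) (rel Q), stp m rx rz clk m.stepM w ≠ w →
      stp m rx rz clk m.stepN (stp m rx rz clk m.stepM w) = w := by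
  intro w hw hne
  obtain ⟨a, rfl⟩ := (mem_W H hg w).1 hw
  rw [stp_word H hg] at hne
  have h1 : m.stepM (m.conf a) ≠ m.conf a := fun h => hne (by rw [h])
  have h2 := m.stepN_stepM (m.legal_conf a) h1
  obtain ⟨b, hb⟩ := stepM_conf (m := m) a
  rw [stp_word H hg, hb, stp_word H hg, ← hb, h2]

/-- the start word -/
def w0 (m : LM X Z R) (rx : X → U → AX) (rz : Z → U → AZ) (clk : ℕ → U → AC) :
    U → Lab AC AX AZ R := word rx rz clk m.c0

theorem w0_mem (H : Loc Q m nb pub rx rz clk g) (hg : 0 < g) :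
    w0 m rx rz clk ∈ restrictC nb pub (code m rx rz clk) (rel Q) :=
  (mem_W H hg _).2 ⟨.boot 0 (Nat.zero_le _), by rw [← m.c0_eq]; rfl⟩

theorem M_w0 [Nonempty U] (H : Loc Q m nb pub rx rz clk g) (hg : 0 < g) :
    stp m rx rz clk m.stepM (w0 m rx rz clk) = w0 m rx rz clk := by
  unfold w0
  rw [m.c0_eq, stp_word H hg, ← m.c0_eq, m.stepM_c0]

theorem N_w0 [Nonempty U] (H : Loc Q m nb pub rx rz clk g) (hg : 0 < g) :
    stp m rx rz clk m.stepN (w0 m rx rz clk) ≠ w0 m rx rz clk := by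
  unfold w0
  rw [m.c0_eq, stp_word H hg]
  intro h
  obtain ⟨b, hb⟩ := stepN_conf (m := m) (.boot 0 (Nat.zero_le _))
  rw [hb] at h
  have h2 := word_inj H hg (conf_t_le _) (conf_t_le _) h
  have h3 := m.stepN_c0
  rw [m.c0_eq] at h3
  exact h3 (hb.trans h2)

/-! ### dead ends -/

theorem ends_N [Nonempty U] (H : Loc Q m nb pub rx rz clk g) (hg : 0 < g)
    (w : U → Lab AC AX AZ R) (hw : w ∈ restrictC nb pub (code m rx rz clk) (rel Q))
    (h : stp m rx rz clk m.stepN w = w) :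
    ∃ x, ∃ hx : m.IsL x, w = word rx rz clk (m.conf (.rest x hx)) ∧ ∀ ρ, ¬ m.en ρ x := by
  obtain ⟨a, rfl⟩ := (mem_W H hg w).1 hw
  rw [stp_word H hg] at h
  obtain ⟨b, hb⟩ := stepN_conf (m := m) a
  rw [hb] at h
  have h2 := word_inj H hg (conf_t_le _) (conf_t_le _) h
  obtain ⟨x, hx, h3, h4⟩ := (m.stepN_eq_self (m.legal_conf a)).1 (hb.trans h2)
  exact ⟨x, hx, by rw [h3], h4⟩

theorem ends_M [Nonempty U] (H : Loc Q m nb pub rx rz clk g) (hg : 0 < g)
    (w : U → Lab AC AX AZ R) (hw : w ∈ restrictC nb pub (code m rx rz clk) (rel Q))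
    (h : stp m rx rz clk m.stepM w = w) :
    w = w0 m rx rz clk ∨ ∃ x, ∃ hx : m.IsL x, w = word rx rz clk (m.conf (.rest x hx)) ∧
      (∀ ρ, ¬ m.bk ρ x) ∧ x ≠ m.x0 := by
  obtain ⟨a, rfl⟩ := (mem_W H hg w).1 hw
  rw [stp_word H hg] at h
  obtain ⟨b, hb⟩ := stepM_conf (m := m) a
  rw [hb] at h
  have h2 := word_inj H hg (conf_t_le _) (conf_t_le _) h
  rcases (m.stepM_eq_self (m.legal_conf a)).1 (hb.trans h2) with h3 | ⟨x, hx, h3, h4, h5⟩
  · left
    rw [h3]
    rfl
  · exact Or.inr ⟨x, hx, by rw [h3], h4, h5⟩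

/-! ### the rules compute the step maps -/

theorem pick_none_iff {κ V : Type} (y : κ → Option V) : pick y = none ↔ ∀ i, y i = none := by
  constructor
  · intro h i
    by_contra hne
    obtain ⟨v, hv⟩ := Option.ne_none_iff_exists'.mp hne
    unfold pick at h
    rw [dif_pos ⟨i, v, hv⟩] at h
    cases h
  · exact pick_eq_none

theorem Coh.unit {y : U → Option Unit} {ρ : ℝ} (h : (∀ u, y u = none) ∨ ρ ≤ frac fun u => y u ≠ none) :
    Coh y ρ := ⟨fun _ _ _ _ _ _ => rfl, h⟩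

open Classical in
/-- forward flags at a rest word -/
theorem gvalN_rest (H : Loc Q m nb pub rx rz clk g) (hg : 0 < g) {x : X} (hx : m.IsL x) (ρ : R) :
    (SN Q).gval nb pub (word rx rz clk (m.conf (.rest x hx))) ρ = none ↔ m.en ρ x := by
  unfold SRule.gval
  rw [pick_none_iff]
  constructor
  · intro h
    by_contra hne
    obtain ⟨u, hu⟩ := nonempty_of_le hg (H.enG ρ x hx hne)
    have h1 := h u
    change (if Q.en ρ (vw nb (rx x) u) (vw nb (rz (m.cert x m.L)) u) (pub u) then none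
      else some ()) = none at h1
    rw [if_neg hu] at h1
    cases h1
  · intro h u
    change (if Q.en ρ (vw nb (rx x) u) (vw nb (rz (m.cert x m.L)) u) (pub u) then none
      else some ()) = none
    rw [if_pos (H.en ρ x hx h u)]

open Classical in
/-- backward flags at a rest word -/
theorem gvalM_rest (H : Loc Q m nb pub rx rz clk g) (hg : 0 < g) {x : X} (hx : m.IsL x) (ρ : R) :
    (SM Q).gval nb pub (word rx rz clk (m.conf (.rest x hx))) (some ρ) = none ↔ m.bk ρ x := by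
  unfold SRule.gval
  rw [pick_none_iff]
  constructor
  · intro h
    by_contra hne
    obtain ⟨u, hu⟩ := nonempty_of_le hg (H.bkG ρ x hx hne)
    have h1 := h u
    change (if Q.bk ρ (vw nb (rx x) u) (vw nb (rz (m.cert x m.L)) u) (pub u) then none
      else some ()) = none at h1
    rw [if_neg hu] at h1
    cases h1
  · intro h u
    change (if Q.bk ρ (vw nb (rx x) u) (vw nb (rz (m.cert x m.L)) u) (pub u) then none
      else some ()) = none
    rw [if_pos (H.bk ρ x hx h u)]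

open Classical in
/-- start flag at a rest word -/
theorem gvalM_start (H : Loc Q m nb pub rx rz clk g) (hg : 0 < g) {x : X} (hx : m.IsL x) :
    (SM Q).gval nb pub (word rx rz clk (m.conf (.rest x hx))) none = none ↔ x = m.x0 := by
  unfold SRule.gval
  rw [pick_none_iff]
  constructor
  · intro h
    by_contra hne
    obtain ⟨u, hu⟩ := nonempty_of_le hg (H.dx x m.x0 hne)
    have h1 := h u
    change (if rx x (nb Q.i0 u) = Q.sx (pub u) then none else some ()) = none at h1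
    rw [H.hi0, H.sx, if_neg hu] at h1
    cases h1
  · rintro rfl u
    change (if rx m.x0 (nb Q.i0 u) = Q.sx (pub u) then none else some ()) = none
    rw [H.hi0, H.sx, if_pos rfl]

open Classical in
theorem N_eq [Nonempty U] (H : Loc Q m nb pub rx rz clk g) (hg : 0 < g) :
    ∀ w ∈ restrictC nb pub (code m rx rz clk) (rel Q),
      stp m rx rz clk m.stepN w = (SN Q).glob nb pub w := by
  intro w hw
  obtain ⟨a, rfl⟩ := (mem_W H hg w).1 hw
  rw [stp_word H hg]
  cases a with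
  | boot t ht =>
    rcases lt_or_eq_of_le ht with h | h
    · rw [m.stepN_boot_lt h]
      funext u
      have h1 : ¬ Q.top (vw nb (clk t) u) (pub u) := fun hh => absurd ((H.top t ht u).1 hh) h.ne
      have e1 := H.cup t h u
      have e2 := H.push t h m.x0 m.isL0 u
      show (⟨.boot, clk (t + 1) u, rx m.xz u, rz m.zz u, rx m.x0 u, rz (m.cert m.x0 (t + 1)) u⟩ :
        Lab AC AX AZ R) = if Q.top (vw nb (clk t) u) (pub u) then _ else
        ⟨.boot, Q.cup (vw nb (clk t) u) (pub u), rx m.xz (nb Q.i0 u), rz m.zz (nb Q.i0 u),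
          rx m.x0 (nb Q.i0 u),
          Q.push (vw nb (clk t) u) (vw nb (rx m.x0) u) (vw nb (rz (m.cert m.x0 t)) u) (pub u)⟩
      rw [if_neg h1, e1, e2, H.hi0]
    · subst h
      rw [m.stepN_boot_L]
      funext u
      have h1 : Q.top (vw nb (clk m.L) u) (pub u) := (H.top m.L ht u).2 rfl
      show (⟨.rest, clk 0 u, rx m.x0 u, rz (m.cert m.x0 m.L) u, rx m.xz u, rz m.zz u⟩ :
        Lab AC AX AZ R) = if Q.top (vw nb (clk m.L) u) (pub u) then
        ⟨.rest, Q.c0 (pub u), rx m.x0 (nb Q.i0 u), rz (m.cert m.x0 m.L) (nb Q.i0 u),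
          Q.bx (pub u), Q.bz (pub u)⟩ else _
      rw [if_pos h1, H.c0, H.hi0, H.bx, H.bz]
  | rest x hx =>
    by_cases hex : ∃ ρ, m.en ρ x
    · obtain ⟨ρ, hρ⟩ := hex
      rw [m.stepN_rest hx hρ]
      have hex : ∃ ρ, (SN Q).gval nb pub (word rx rz clk (m.conf (.rest x hx))) ρ = none :=
        ⟨ρ, (gvalN_rest H hg hx ρ).2 hρ⟩
      have hc : hex.choose = ρ :=
        m.en_uniq _ _ x hx ((gvalN_rest H hg hx _).1 hex.choose_spec) hρ
      funext u
      show (⟨.fw ρ, clk 0 u, rx x u, rz (m.cert x m.L) u, rx (m.up ρ x) u,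
          rz (m.cert (m.up ρ x) 0) u⟩ : Lab AC AX AZ R) =
        if h : ∃ ρ, (SN Q).gval nb pub (word rx rz clk (m.conf (.rest x hx))) ρ = none then
          ⟨.fw h.choose, Q.c0 (pub u), rx x (nb Q.i0 u), rz (m.cert x m.L) (nb Q.i0 u),
            Q.up h.choose (vw nb (rx x) u) (pub u), Q.entUp h.choose (vw nb (rx x) u) (pub u)⟩
        else _
      rw [dif_pos hex, hc, H.c0, H.hi0, H.up ρ x hx hρ, H.entUp ρ x hx hρ]
    · push Not at hex
      rw [m.stepN_rest_none hx hex]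
      have hno : ¬ ∃ ρ, (SN Q).gval nb pub (word rx rz clk (m.conf (.rest x hx))) ρ = none := by
        rintro ⟨ρ, hρ⟩
        exact hex ρ ((gvalN_rest H hg hx ρ).1 hρ)
      funext u
      show word rx rz clk (m.conf (.rest x hx)) u =
        if h : ∃ ρ, (SN Q).gval nb pub (word rx rz clk (m.conf (.rest x hx))) ρ = none then _
        else word rx rz clk (m.conf (.rest x hx)) (nb Q.i0 u)
      rw [dif_neg hno, H.hi0]
  | fw ρ x hx h t ht =>
    rcases lt_or_eq_of_le ht with h' | h'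
    · rw [m.stepN_fw_lt hx h h']
      funext u
      have h1 : ¬ Q.top (vw nb (clk t) u) (pub u) := fun hh => absurd ((H.top t ht u).1 hh) h'.ne
      have e1 := H.cup t h' u
      have e2 := H.push t h' (m.up ρ x) (m.fwd ρ x hx h).1 u
      show (⟨.fw ρ, clk (t + 1) u, rx x u, rz (m.cert x m.L) u, rx (m.up ρ x) u,
          rz (m.cert (m.up ρ x) (t + 1)) u⟩ : Lab AC AX AZ R) =
        if Q.top (vw nb (clk t) u) (pub u) then _ else
        ⟨.fw ρ, Q.cup (vw nb (clk t) u) (pub u), rx x (nb Q.i0 u), rz (m.cert x m.L) (nb Q.i0 u),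
          rx (m.up ρ x) (nb Q.i0 u),
          Q.push (vw nb (clk t) u) (vw nb (rx (m.up ρ x)) u)
            (vw nb (rz (m.cert (m.up ρ x) t)) u) (pub u)⟩
      rw [if_neg h1, e1, e2, H.hi0]
    · subst h'
      rw [m.stepN_fw_L hx h]
      have h3 := (m.fwd ρ x hx h).2.2
      funext u
      have h1 : Q.top (vw nb (clk m.L) u) (pub u) := (H.top m.L ht u).2 rfl
      show (⟨.bw ρ, clk m.L u, rx (m.dn ρ (m.up ρ x)) u, rz (m.cert (m.dn ρ (m.up ρ x)) m.L) u,
          rx (m.up ρ x) u, rz (m.cert (m.up ρ x) m.L) u⟩ : Lab AC AX AZ R) =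
        if Q.top (vw nb (clk m.L) u) (pub u) then
        ⟨.bw ρ, clk m.L (nb Q.i0 u), rx x (nb Q.i0 u), rz (m.cert x m.L) (nb Q.i0 u),
          rx (m.up ρ x) (nb Q.i0 u), rz (m.cert (m.up ρ x) m.L) (nb Q.i0 u)⟩ else _
      rw [if_pos h1, h3, H.hi0]
  | bw ρ x hx h t ht =>
    cases t with
    | zero =>
      rw [m.stepN_bw_zero hx h]
      funext u
      have h1 : Q.bot (vw nb (clk 0) u) (pub u) := (H.bot 0 (Nat.zero_le _) u).2 rfl
      show (⟨.rest, clk 0 u, rx x u, rz (m.cert x m.L) u, rx m.xz u, rz m.zz u⟩ :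
        Lab AC AX AZ R) = if Q.bot (vw nb (clk 0) u) (pub u) then
        ⟨.rest, Q.c0 (pub u), rx x (nb Q.i0 u), rz (m.cert x m.L) (nb Q.i0 u),
          Q.bx (pub u), Q.bz (pub u)⟩ else _
      rw [if_pos h1, H.c0, H.hi0, H.bx, H.bz]
    | succ t =>
      rw [m.stepN_bw_pos hx h ht]
      funext u
      have h1 : ¬ Q.bot (vw nb (clk (t + 1)) u) (pub u) := fun hh =>
        absurd ((H.bot (t + 1) ht u).1 hh) (Nat.succ_ne_zero t)
      have e1 := H.cdn t (by omega) u
      have e2 := H.pop t (by omega) (m.dn ρ x) (m.bwd ρ x hx h).1 u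
      show (⟨.bw ρ, clk t u, rx (m.dn ρ x) u, rz (m.cert (m.dn ρ x) t) u, rx x u,
          rz (m.cert x m.L) u⟩ : Lab AC AX AZ R) =
        if Q.bot (vw nb (clk (t + 1)) u) (pub u) then _ else
        ⟨.bw ρ, Q.cdn (vw nb (clk (t + 1)) u) (pub u), rx (m.dn ρ x) (nb Q.i0 u),
          Q.pop (vw nb (clk (t + 1)) u) (vw nb (rx (m.dn ρ x)) u)
            (vw nb (rz (m.cert (m.dn ρ x) (t + 1))) u) (pub u),
          rx x (nb Q.i0 u), rz (m.cert x m.L) (nb Q.i0 u)⟩
      rw [if_neg h1, e1, e2, H.hi0]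

open Classical in
theorem M_eq [Nonempty U] (H : Loc Q m nb pub rx rz clk g) (hg : 0 < g) :
    ∀ w ∈ restrictC nb pub (code m rx rz clk) (rel Q),
      stp m rx rz clk m.stepM w = (SM Q).glob nb pub w := by
  intro w hw
  obtain ⟨a, rfl⟩ := (mem_W H hg w).1 hw
  rw [stp_word H hg]
  cases a with
  | boot t ht =>
    cases t with
    | zero =>
      rw [m.stepM_boot_zero]
      funext u
      have h1 : Q.bot (vw nb (clk 0) u) (pub u) := (H.bot 0 (Nat.zero_le _) u).2 rfl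
      show word rx rz clk (m.conf (.boot 0 (Nat.zero_le _))) u =
        if Q.bot (vw nb (clk 0) u) (pub u) then
          word rx rz clk (m.conf (.boot 0 (Nat.zero_le _))) (nb Q.i0 u) else _
      rw [if_pos h1, H.hi0]
    | succ t =>
      rw [m.stepM_boot_pos ht]
      funext u
      have h1 : ¬ Q.bot (vw nb (clk (t + 1)) u) (pub u) := fun hh =>
        absurd ((H.bot (t + 1) ht u).1 hh) (Nat.succ_ne_zero t)
      have e1 := H.cdn t (by omega) u
      have e2 := H.pop t (by omega) m.x0 m.isL0 u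
      show (⟨.boot, clk t u, rx m.xz u, rz m.zz u, rx m.x0 u, rz (m.cert m.x0 t) u⟩ :
        Lab AC AX AZ R) = if Q.bot (vw nb (clk (t + 1)) u) (pub u) then _ else
        ⟨.boot, Q.cdn (vw nb (clk (t + 1)) u) (pub u), rx m.xz (nb Q.i0 u), rz m.zz (nb Q.i0 u),
          rx m.x0 (nb Q.i0 u),
          Q.pop (vw nb (clk (t + 1)) u) (vw nb (rx m.x0) u)
            (vw nb (rz (m.cert m.x0 (t + 1))) u) (pub u)⟩
      rw [if_neg h1, e1, e2, H.hi0]
  | rest x hx =>
    by_cases hex : ∃ ρ, m.bk ρ x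
    · obtain ⟨ρ, hρ⟩ := hex
      rw [m.stepM_rest hx hρ]
      have hex : ∃ ρ, (SM Q).gval nb pub (word rx rz clk (m.conf (.rest x hx))) (some ρ) = none :=
        ⟨ρ, (gvalM_rest H hg hx ρ).2 hρ⟩
      have hc : hex.choose = ρ :=
        m.bk_uniq _ _ x hx ((gvalM_rest H hg hx _).1 hex.choose_spec) hρ
      funext u
      show (⟨.bw ρ, clk 0 u, rx (m.dn ρ x) u, rz (m.cert (m.dn ρ x) 0) u, rx x u,
          rz (m.cert x m.L) u⟩ : Lab AC AX AZ R) =
        if h : ∃ ρ, (SM Q).gval nb pub (word rx rz clk (m.conf (.rest x hx))) (some ρ) = none then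
          ⟨.bw h.choose, Q.c0 (pub u), Q.dn h.choose (vw nb (rx x) u) (pub u),
            Q.entDn h.choose (vw nb (rx x) u) (pub u), rx x (nb Q.i0 u),
            rz (m.cert x m.L) (nb Q.i0 u)⟩
        else _
      rw [dif_pos hex, hc, H.c0, H.hi0, H.dn ρ x hx hρ, H.entDn ρ x hx hρ]
    · push Not at hex
      have hno : ¬ ∃ ρ, (SM Q).gval nb pub (word rx rz clk (m.conf (.rest x hx))) (some ρ) =
          none := by
        rintro ⟨ρ, hρ⟩
        exact hex ρ ((gvalM_rest H hg hx ρ).1 hρ)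
      by_cases h0 : x = m.x0
      · subst h0
        rw [m.stepM_rest_x0]
        have h2 : (SM Q).gval nb pub (word rx rz clk (m.conf (.rest m.x0 hx))) none = none :=
          (gvalM_start H hg hx).2 rfl
        funext u
        show (⟨.boot, clk m.L u, rx m.xz u, rz m.zz u, rx m.x0 u, rz (m.cert m.x0 m.L) u⟩ :
          Lab AC AX AZ R) =
          if h : ∃ ρ, (SM Q).gval nb pub (word rx rz clk (m.conf (.rest m.x0 hx))) (some ρ) =
            none then _
          else if (SM Q).gval nb pub (word rx rz clk (m.conf (.rest m.x0 hx))) none = none then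
            ⟨.boot, Q.cL (pub u), Q.bx (pub u), Q.bz (pub u), rx m.x0 (nb Q.i0 u),
              rz (m.cert m.x0 m.L) (nb Q.i0 u)⟩
          else _
        rw [dif_neg hno, if_pos h2, H.cL, H.bx, H.bz, H.hi0]
      · rw [m.stepM_rest_none hx hex h0]
        have h2 : ¬ (SM Q).gval nb pub (word rx rz clk (m.conf (.rest x hx))) none = none :=
          fun h => h0 ((gvalM_start H hg hx).1 h)
        funext u
        show word rx rz clk (m.conf (.rest x hx)) u =
          if h : ∃ ρ, (SM Q).gval nb pub (word rx rz clk (m.conf (.rest x hx))) (some ρ) =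
            none then _
          else if (SM Q).gval nb pub (word rx rz clk (m.conf (.rest x hx))) none = none then _
          else word rx rz clk (m.conf (.rest x hx)) (nb Q.i0 u)
        rw [dif_neg hno, if_neg h2, H.hi0]
  | fw ρ x hx h t ht =>
    cases t with
    | zero =>
      rw [m.stepM_fw_zero hx h]
      funext u
      have h1 : Q.bot (vw nb (clk 0) u) (pub u) := (H.bot 0 (Nat.zero_le _) u).2 rfl
      show (⟨.rest, clk 0 u, rx x u, rz (m.cert x m.L) u, rx m.xz u, rz m.zz u⟩ :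
        Lab AC AX AZ R) = if Q.bot (vw nb (clk 0) u) (pub u) then
        ⟨.rest, Q.c0 (pub u), rx x (nb Q.i0 u), rz (m.cert x m.L) (nb Q.i0 u),
          Q.bx (pub u), Q.bz (pub u)⟩ else _
      rw [if_pos h1, H.c0, H.hi0, H.bx, H.bz]
    | succ t =>
      rw [m.stepM_fw_pos hx h ht]
      funext u
      have h1 : ¬ Q.bot (vw nb (clk (t + 1)) u) (pub u) := fun hh =>
        absurd ((H.bot (t + 1) ht u).1 hh) (Nat.succ_ne_zero t)
      have e1 := H.cdn t (by omega) u
      have e2 := H.pop t (by omega) (m.up ρ x) (m.fwd ρ x hx h).1 u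
      show (⟨.fw ρ, clk t u, rx x u, rz (m.cert x m.L) u, rx (m.up ρ x) u,
          rz (m.cert (m.up ρ x) t) u⟩ : Lab AC AX AZ R) =
        if Q.bot (vw nb (clk (t + 1)) u) (pub u) then _ else
        ⟨.fw ρ, Q.cdn (vw nb (clk (t + 1)) u) (pub u), rx x (nb Q.i0 u),
          rz (m.cert x m.L) (nb Q.i0 u), rx (m.up ρ x) (nb Q.i0 u),
          Q.pop (vw nb (clk (t + 1)) u) (vw nb (rx (m.up ρ x)) u)
            (vw nb (rz (m.cert (m.up ρ x) (t + 1))) u) (pub u)⟩
      rw [if_neg h1, e1, e2, H.hi0]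
  | bw ρ x hx h t ht =>
    rcases lt_or_eq_of_le ht with h' | h'
    · rw [m.stepM_bw_lt hx h h']
      funext u
      have h1 : ¬ Q.top (vw nb (clk t) u) (pub u) := fun hh => absurd ((H.top t ht u).1 hh) h'.ne
      have e1 := H.cup t h' u
      have e2 := H.push t h' (m.dn ρ x) (m.bwd ρ x hx h).1 u
      show (⟨.bw ρ, clk (t + 1) u, rx (m.dn ρ x) u, rz (m.cert (m.dn ρ x) (t + 1)) u, rx x u,
          rz (m.cert x m.L) u⟩ : Lab AC AX AZ R) =
        if Q.top (vw nb (clk t) u) (pub u) then _ else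
        ⟨.bw ρ, Q.cup (vw nb (clk t) u) (pub u), rx (m.dn ρ x) (nb Q.i0 u),
          Q.push (vw nb (clk t) u) (vw nb (rx (m.dn ρ x)) u)
            (vw nb (rz (m.cert (m.dn ρ x) t)) u) (pub u),
          rx x (nb Q.i0 u), rz (m.cert x m.L) (nb Q.i0 u)⟩
      rw [if_neg h1, e1, e2, H.hi0]
    · subst h'
      rw [m.stepM_bw_L hx h]
      have h3 := (m.bwd ρ x hx h).2.2
      funext u
      have h1 : Q.top (vw nb (clk m.L) u) (pub u) := (H.top m.L ht u).2 rfl
      show (⟨.fw ρ, clk m.L u, rx (m.dn ρ x) u, rz (m.cert (m.dn ρ x) m.L) u,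
          rx (m.up ρ (m.dn ρ x)) u, rz (m.cert (m.up ρ (m.dn ρ x)) m.L) u⟩ : Lab AC AX AZ R) =
        if Q.top (vw nb (clk m.L) u) (pub u) then
        ⟨.fw ρ, clk m.L (nb Q.i0 u), rx (m.dn ρ x) (nb Q.i0 u),
          rz (m.cert (m.dn ρ x) m.L) (nb Q.i0 u), rx x (nb Q.i0 u),
          rz (m.cert x m.L) (nb Q.i0 u)⟩ else _
      rw [if_pos h1, h3, H.hi0]

/-! ### coherence of the reads -/

open Classical in
theorem cohN (H : Loc Q m nb pub rx rz clk g) (hg : 0 < g) :
    ∀ w ∈ restrictC nb pub (code m rx rz clk) (rel Q), ∀ j,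
      Coh (fun u => (SN Q).val j (fun i => w (nb i u)) (pub u)) g := by
  intro w hw ρ
  obtain ⟨a, rfl⟩ := (mem_W H hg w).1 hw
  apply Coh.unit
  cases a with
  | boot t ht => exact Or.inl fun u => rfl
  | fw ρ' x hx h t ht => exact Or.inl fun u => rfl
  | bw ρ' x hx h t ht => exact Or.inl fun u => rfl
  | rest x hx =>
    by_cases h : m.en ρ x
    · left
      intro u
      change (if Q.en ρ (vw nb (rx x) u) (vw nb (rz (m.cert x m.L)) u) (pub u) then none
        else some ()) = none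
      rw [if_pos (H.en ρ x hx h u)]
    · right
      refine (H.enG ρ x hx h).trans (frac_mono fun u hu => ?_)
      change (if Q.en ρ (vw nb (rx x) u) (vw nb (rz (m.cert x m.L)) u) (pub u) then none
        else some ()) ≠ none
      rw [if_neg hu]
      exact Option.some_ne_none _

open Classical in
theorem cohM (H : Loc Q m nb pub rx rz clk g) (hg : 0 < g) :
    ∀ w ∈ restrictC nb pub (code m rx rz clk) (rel Q), ∀ j,
      Coh (fun u => (SM Q).val j (fun i => w (nb i u)) (pub u)) g := by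
  intro w hw j
  obtain ⟨a, rfl⟩ := (mem_W H hg w).1 hw
  apply Coh.unit
  cases a with
  | boot t ht => exact Or.inl fun u => rfl
  | fw ρ' x hx h t ht => exact Or.inl fun u => rfl
  | bw ρ' x hx h t ht => exact Or.inl fun u => rfl
  | rest x hx =>
    cases j with
    | none =>
      by_cases h : x = m.x0
      · left
        intro u
        change (if rx x (nb Q.i0 u) = Q.sx (pub u) then none else some ()) = none
        rw [H.hi0, H.sx, h, if_pos rfl]
      · right
        refine (H.dx x m.x0 h).trans (frac_mono fun u hu => ?_)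
        change (if rx x (nb Q.i0 u) = Q.sx (pub u) then none else some ()) ≠ none
        rw [H.hi0, H.sx, if_neg hu]
        exact Option.some_ne_none _
    | some ρ =>
      by_cases h : m.bk ρ x
      · left
        intro u
        change (if Q.bk ρ (vw nb (rx x) u) (vw nb (rz (m.cert x m.L)) u) (pub u) then none
          else some ()) = none
        rw [if_pos (H.bk ρ x hx h u)]
      · right
        refine (H.bkG ρ x hx h).trans (frac_mono fun u hu => ?_)
        change (if Q.bk ρ (vw nb (rx x) u) (vw nb (rz (m.cert x m.L)) u) (pub u) then none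
          else some ()) ≠ none
        rw [if_neg hu]
        exact Option.some_ne_none _

end

/-! ### the literal machine -/

/-- constants of the instance, literal -/
theorem loc_Ax {ι U P AC AX AZ R X Z : Type} [Fintype ι] [Fintype U] [Nonempty U] [Fintype R]
    [Nonempty AC] [Nonempty AX] [Nonempty AZ] [Nonempty P] {d k l r : ℕ}
    (Q : Rul ι P AC AX AZ R) (R0 : CRules ι (Lab AC AX AZ R) P)
    {m : LM X Z R} {nb : ι → U → U} {pub : U → P} {rx : X → U → AX} {rz : Z → U → AZ}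
    {clk : ℕ → U → AC} {g : ℝ} (H : Loc Q m nb pub rx rz clk g) (hg : 0 < g)
    (sm : Fin d → U → U) {mu ms zs r0 d0 c θ e γ : ℝ}
    (h : CAx R0 nb pub (code m rx rz clk) mu zs r0 d0 c θ) (hm : 1 ≤ mu) (hms : NbMult sm ms)
    (hms1 : 1 ≤ ms) (hc : 0 ≤ c) (hs : Sampler d sm e γ) (he : e < g) (hγ : 0 ≤ γ)
    (hθ : θ ≤ 1 / 4) (eq : (ι ⊕ Fin d × ι) ≃ Fin k)
    (enc : Lab AC AX AZ R → (Fin l → Bool)) (henc : Function.Injective enc)
    (encP : P × (Fin d → P) → (Fin r → Bool)) (hencP : Function.Injective encP)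
    (K : MConst) (hzs : K.zs ≤ min zs (g / (2 * (1 + Fintype.card ι * mu * c))))
    (hr0 : K.r0 ≤ r0) (hd0 : K.d0 ≤ d0) (hcK : c + 1 ≤ K.c)
    (hcm : ((d : ℝ) + 1) * Fintype.card ι * (mu * ms) ≤ K.c)
    (hγK : ((Fintype.card R : ℝ) + 1) * γ ≤ K.γ) :
    (((asmRules d R0 (rel Q) (SN Q) (SM Q)).toL eq enc encP).data
      (fun i => snb nb sm (eq.symm i)) (fun u => encP (spub pub sm u))
      {X | ∃ w ∈ restrictC nb pub (code m rx rz clk) (rel Q), X = fun u => enc (w u)}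
      (fun u => enc (w0 m rx rz clk u))
      (liftMap enc (stp m rx rz clk m.stepN)) (liftMap enc (stp m rx rz clk m.stepM))).Ax K := by
  refine asm_Ax R0 (rel Q) (SN Q) (SM Q) nb pub (code m rx rz clk) sm h hm hms hms1 hc hg
    (gap H hg) hs he hγ (w0 m rx rz clk) (stp m rx rz clk m.stepN) (stp m rx rz clk m.stepM)
    (w0_mem H hg) (N_mem H hg) (M_mem H hg) (MN H hg) (NM H hg) (M_w0 H hg) (N_w0 H hg)
    (N_eq H hg) (M_eq H hg) (cohN H hg) (cohM H hg) Q.i0 H.hi0 hθ eq enc henc encP hencP K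
    hzs hr0 hd0 hcK hcm ?_ ?_
  · nlinarith
  · rw [Fintype.card_option]
    push_cast
    exact hγK

/-- dead ends of the literal machine, forward -/
theorem lit_ends_N {ι U P AC AX AZ R X Z : Type} [Fintype U] [Nonempty U] {l : ℕ}
    {Q : Rul ι P AC AX AZ R} {m : LM X Z R} {nb : ι → U → U} {pub : U → P} {rx : X → U → AX}
    {rz : Z → U → AZ} {clk : ℕ → U → AC} {g : ℝ} (H : Loc Q m nb pub rx rz clk g) (hg : 0 < g)
    {enc : Lab AC AX AZ R → (Fin l → Bool)} (henc : Function.Injective enc)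
    (Y : U → Fin l → Bool)
    (hY : ∃ w ∈ restrictC nb pub (code m rx rz clk) (rel Q), Y = fun u => enc (w u))
    (h : liftMap enc (stp m rx rz clk m.stepN) Y = Y) :
    ∃ x, ∃ hx : m.IsL x, (Y = fun u => enc (word rx rz clk (m.conf (.rest x hx)) u)) ∧
      ∀ ρ, ¬ m.en ρ x := by
  obtain ⟨w, hw, rfl⟩ := hY
  rw [liftMap_enc henc] at h
  obtain ⟨x, hx, h1, h2⟩ := ends_N H hg w hw (enc_comp_inj henc h)
  exact ⟨x, hx, by rw [← h1], h2⟩

/-- dead ends of the literal machine, backward -/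
theorem lit_ends_M {ι U P AC AX AZ R X Z : Type} [Fintype U] [Nonempty U] {l : ℕ}
    {Q : Rul ι P AC AX AZ R} {m : LM X Z R} {nb : ι → U → U} {pub : U → P} {rx : X → U → AX}
    {rz : Z → U → AZ} {clk : ℕ → U → AC} {g : ℝ} (H : Loc Q m nb pub rx rz clk g) (hg : 0 < g)
    {enc : Lab AC AX AZ R → (Fin l → Bool)} (henc : Function.Injective enc)
    (Y : U → Fin l → Bool)
    (hY : ∃ w ∈ restrictC nb pub (code m rx rz clk) (rel Q), Y = fun u => enc (w u))
    (h : liftMap enc (stp m rx rz clk m.stepM) Y = Y)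
    (h0 : Y ≠ fun u => enc (w0 m rx rz clk u)) :
    ∃ x, ∃ hx : m.IsL x, (Y = fun u => enc (word rx rz clk (m.conf (.rest x hx)) u)) ∧
      (∀ ρ, ¬ m.bk ρ x) ∧ x ≠ m.x0 := by
  obtain ⟨w, hw, rfl⟩ := hY
  rw [liftMap_enc henc] at h
  rcases ends_M H hg w hw (enc_comp_inj henc h) with h1 | ⟨x, hx, h1, h2, h3⟩
  · exact absurd (by rw [h1]) h0
  · exact ⟨x, hx, by rw [← h1], h2, h3⟩

/-! ### the label code from its registers -/

/-- rules of a pair of registers -/
def prod2 {ι₁ ι₂ A₁ A₂ P₁ P₂ : Type} (R₁ : CRules ι₁ A₁ P₁) (R₂ : CRules ι₂ A₂ P₂) :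
    CRules (ι₁ ⊕ ι₂) (A₁ × A₂) (P₁ × P₂) where
  viol x p := R₁.viol (fun i => (x (Sum.inl i)).1) p.1 ∨ R₂.viol (fun i => (x (Sum.inr i)).2) p.2
  corr x p := (R₁.corr (fun i => (x (Sum.inl i)).1) p.1, R₂.corr (fun i => (x (Sum.inr i)).2) p.2)

/-- **binary product of local codes** -/
theorem prod2_CAx {ι₁ ι₂ U A₁ A₂ P₁ P₂ : Type} [Fintype U] {R₁ : CRules ι₁ A₁ P₁}
    {R₂ : CRules ι₂ A₂ P₂} {nb₁ : ι₁ → U → U} {nb₂ : ι₂ → U → U} {pub₁ : U → P₁} {pub₂ : U → P₂}
    {C₁ : Set (U → A₁)} {C₂ : Set (U → A₂)} {m zs r0 d0 c₁ c₂ θ₁ θ₂ : ℝ} (hc₁ : 0 ≤ c₁)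
    (hc₂ : 0 ≤ c₂) (h₁ : CAx R₁ nb₁ pub₁ C₁ m zs r0 d0 c₁ θ₁)
    (h₂ : CAx R₂ nb₂ pub₂ C₂ m zs r0 d0 c₂ θ₂) :
    CAx (prod2 R₁ R₂) (Sum.elim nb₁ nb₂) (fun u => (pub₁ u, pub₂ u))
      {w | (fun u => (w u).1) ∈ C₁ ∧ (fun u => (w u).2) ∈ C₂} m zs r0 d0 (c₁ + c₂) (θ₁ + θ₂) where
  mult := by
    rintro (i | i) E
    · exact h₁.mult i E
    · exact h₂.mult i E
  sep v hv w hw hne := by
    by_cases h : (fun u => (v u).1) = fun u => (w u).1
    · have h' : (fun u => (v u).2) ≠ fun u => (w u).2 := by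
        intro h'
        exact hne (funext fun u => Prod.ext (congrFun h u) (congrFun h' u))
      exact (h₂.sep _ hv.2 _ hw.2 h').trans (frac_mono fun u hu heq => hu (by
        show (v u).2 = (w u).2
        rw [heq]))
    · exact (h₁.sep _ hv.1 _ hw.1 h).trans (frac_mono fun u hu heq => hu (by
        show (v u).1 = (w u).1
        rw [heq]))
  sound Y hY := by
    set V := frac (fun u => (prod2 R₁ R₂).viol (fun i => Y (Sum.elim nb₁ nb₂ i u))
      (pub₁ u, pub₂ u)) with hV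
    have e₁ : frac (fun u => R₁.viol (fun i => (Y (nb₁ i u)).1) (pub₁ u)) ≤ V :=
      frac_mono fun u hu => Or.inl hu
    have e₂ : frac (fun u => R₂.viol (fun i => (Y (nb₂ i u)).2) (pub₂ u)) ≤ V :=
      frac_mono fun u hu => Or.inr hu
    obtain ⟨w₁, hw₁, hd₁⟩ := h₁.sound (fun u => (Y u).1) (e₁.trans hY)
    obtain ⟨w₂, hw₂, hd₂⟩ := h₂.sound (fun u => (Y u).2) (e₂.trans hY)
    refine ⟨fun u => (w₁ u, w₂ u), ⟨hw₁, hw₂⟩, ?_⟩
    have h3 : distW Y (fun u => (w₁ u, w₂ u)) ≤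
        distW (fun u => (Y u).1) w₁ + distW (fun u => (Y u).2) w₂ := by
      refine (frac_mono (q := fun u => (Y u).1 ≠ w₁ u ∨ (Y u).2 ≠ w₂ u) ?_).trans (frac_or _ _)
      intro u hu
      by_contra hcon
      push Not at hcon
      exact hu (Prod.ext hcon.1 hcon.2)
    have h4 := hd₁.trans (mul_le_mul_of_nonneg_left e₁ hc₁)
    have h5 := hd₂.trans (mul_le_mul_of_nonneg_left e₂ hc₂)
    calc distW Y (fun u => (w₁ u, w₂ u)) ≤ _ := h3
      _ ≤ c₁ * V + c₂ * V := add_le_add h4 h5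
      _ = (c₁ + c₂) * V := by ring
  compl w hw u := by
    rintro (h | h)
    · exact h₁.compl _ hw.1 u h
    · exact h₂.compl _ hw.2 u h
  corr w hw E hE := by
    have e₁ := h₁.corr _ hw.1 E hE
    have e₂ := h₂.corr _ hw.2 E hE
    refine (frac_mono (q := fun u =>
      (∃ x : ι₁ → A₁, (∀ i, ¬ E (nb₁ i u) → x i = (w (nb₁ i u)).1) ∧
        R₁.corr x (pub₁ u) ≠ (w u).1) ∨
      (∃ x : ι₂ → A₂, (∀ i, ¬ E (nb₂ i u) → x i = (w (nb₂ i u)).2) ∧
        R₂.corr x (pub₂ u) ≠ (w u).2)) ?_).trans ?_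
    · rintro u ⟨x, hx, hne⟩
      by_cases h : R₁.corr (fun i => (x (Sum.inl i)).1) (pub₁ u) = (w u).1
      · right
        refine ⟨fun i => (x (Sum.inr i)).2, fun i hi => ?_, fun h' => hne (Prod.ext h h')⟩
        show (x (Sum.inr i)).2 = _
        rw [hx (Sum.inr i) hi]
        rfl
      · left
        refine ⟨fun i => (x (Sum.inl i)).1, fun i hi => ?_, h⟩
        show (x (Sum.inl i)).1 = _
        rw [hx (Sum.inl i) hi]
        rfl
    · refine (frac_or _ _).trans ((add_le_add e₁ e₂).trans (le_of_eq ?_))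
      ring

/-- rules over an equivalent alphabet -/
def relab {ι A B P : Type} (R : CRules ι A P) (f : B ≃ A) : CRules ι B P where
  viol x p := R.viol (fun i => f (x i)) p
  corr x p := f.symm (R.corr (fun i => f (x i)) p)

theorem relab_CAx {ι U A B P : Type} [Fintype U] {R : CRules ι A P} {nb : ι → U → U}
    {pub : U → P} {C : Set (U → A)} {m zs r0 d0 c θ : ℝ} (f : B ≃ A)
    (h : CAx R nb pub C m zs r0 d0 c θ) :
    CAx (relab R f) nb pub {w | (fun u => f (w u)) ∈ C} m zs r0 d0 c θ where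
  mult := h.mult
  sep v hv w hw hne := by
    have h' : (fun u => f (v u)) ≠ fun u => f (w u) := by
      intro h'
      exact hne (funext fun u => f.injective (congrFun h' u))
    exact (h.sep _ hv _ hw h').trans (frac_mono fun u hu heq => hu (by
      show f (v u) = f (w u)
      rw [heq]))
  sound Y hY := by
    obtain ⟨w, hw, hd⟩ := h.sound (fun u => f (Y u)) hY
    refine ⟨fun u => f.symm (w u), ?_, ?_⟩
    · show (fun u => f (f.symm (w u))) ∈ C
      simpa using hw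
    · refine (frac_mono fun u hu => ?_).trans hd
      intro heq
      exact hu (by
        show Y u = f.symm (w u)
        rw [← heq, f.symm_apply_apply])
  compl w hw u hu := h.compl _ hw u hu
  corr w hw E hE := by
    refine (frac_mono ?_).trans (h.corr _ hw E hE)
    rintro u ⟨x, hx, hne⟩
    refine ⟨fun i => f (x i), fun i hi => congrArg f (hx i hi), fun heq => hne ?_⟩
    show f.symm (R.corr (fun i => f (x i)) (pub u)) = w u
    rw [heq, f.symm_apply_apply]

/-- rules of the label code -/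
def codeRules {ιl ιc ιx ιz Pl Pc Px Pz AC AX AZ R : Type} (Rl : CRules ιl (Letter R) Pl)
    (Rc : CRules ιc AC Pc) (Rx : CRules ιx AX Px) (Rz : CRules ιz AZ Pz) :
    CRules (ιl ⊕ ιc ⊕ ιx ⊕ ιz ⊕ ιx ⊕ ιz) (Lab AC AX AZ R) (Pl × Pc × Px × Pz × Px × Pz) :=
  relab (prod2 Rl (prod2 Rc (prod2 Rx (prod2 Rz (prod2 Rx Rz))))) (labEquiv AC AX AZ R)

/-- **CAx of the label code** from the registers: control letter, clock, content words,
certificates -/
theorem code_CAx {ιl ιc ιx ιz U Pl Pc Px Pz AC AX AZ R X Z : Type} [Fintype U]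
    {Rl : CRules ιl (Letter R) Pl} {Rc : CRules ιc AC Pc} {Rx : CRules ιx AX Px}
    {Rz : CRules ιz AZ Pz} {nbl : ιl → U → U} {nbc : ιc → U → U} {nbx : ιx → U → U}
    {nbz : ιz → U → U} {publ : U → Pl} {pubc : U → Pc} {pubx : U → Px} {pubz : U → Pz}
    (m : LM X Z R) (rx : X → U → AX) (rz : Z → U → AZ) (clk : ℕ → U → AC)
    {mu zs r0 d0 cl cc cx cz θl θc θx θz : ℝ} (hcl : 0 ≤ cl) (hcc : 0 ≤ cc) (hcx : 0 ≤ cx)
    (hcz : 0 ≤ cz)
    (hl : CAx Rl nbl publ {w | ∃ a, w = fun _ => a} mu zs r0 d0 cl θl)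
    (hc : CAx Rc nbc pubc {w | ∃ t, t ≤ m.L ∧ w = clk t} mu zs r0 d0 cc θc)
    (hx : CAx Rx nbx pubx (Set.range rx) mu zs r0 d0 cx θx)
    (hz : CAx Rz nbz pubz (Set.range rz) mu zs r0 d0 cz θz) :
    CAx (codeRules Rl Rc Rx Rz)
      (Sum.elim nbl (Sum.elim nbc (Sum.elim nbx (Sum.elim nbz (Sum.elim nbx nbz)))))
      (fun u => (publ u, pubc u, pubx u, pubz u, pubx u, pubz u)) (code m rx rz clk) mu zs r0 d0
      (cl + (cc + (cx + (cz + (cx + cz))))) (θl + (θc + (θx + (θz + (θx + θz))))) := by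
  have h := relab_CAx (labEquiv AC AX AZ R) (prod2_CAx hcl (by positivity) hl
    (prod2_CAx hcc (by positivity) hc (prod2_CAx hcx (by positivity) hx
      (prod2_CAx hcz (by positivity) hz (prod2_CAx hcx hcz hx hz)))))
  have hC : (code m rx rz clk : Set (U → Lab AC AX AZ R)) = {w | (fun u => labEquiv AC AX AZ R (w u)) ∈
      {w : U → Letter R × AC × AX × AZ × AX × AZ | (fun u => (w u).1) ∈
          {w : U → Letter R | ∃ a, w = fun _ => a} ∧
        (fun u => (w u).2) ∈ {w : U → AC × AX × AZ × AX × AZ | (fun u => (w u).1) ∈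
          {w : U → AC | ∃ t, t ≤ m.L ∧ w = clk t} ∧
        (fun u => (w u).2) ∈ {w : U → AX × AZ × AX × AZ | (fun u => (w u).1) ∈ Set.range rx ∧
        (fun u => (w u).2) ∈ {w : U → AZ × AX × AZ | (fun u => (w u).1) ∈ Set.range rz ∧
        (fun u => (w u).2) ∈ {w : U → AX × AZ | (fun u => (w u).1) ∈ Set.range rx ∧
          (fun u => (w u).2) ∈ Set.range rz}}}}}} := by
    ext w
    constructor
    · rintro ⟨c, ht, rfl⟩
      exact ⟨⟨c.l, rfl⟩, ⟨c.t, ht, rfl⟩, ⟨c.x1, rfl⟩, ⟨c.z1, rfl⟩, ⟨c.x2, rfl⟩, ⟨c.z2, rfl⟩⟩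
    · rintro ⟨⟨a, ha⟩, ⟨t, ht, hc⟩, ⟨x1, h1⟩, ⟨z1, h2⟩, ⟨x2, h3⟩, ⟨z2, h4⟩⟩
      refine ⟨⟨a, t, x1, z1, x2, z2⟩, ht, ?_⟩
      funext u
      exact Lab.ext (congrFun ha u) (congrFun hc u) (congrFun h1 u).symm (congrFun h2 u).symm
        (congrFun h3 u).symm (congrFun h4 u).symm
  rw [hC]
  exact h

end Crest.Agent.R289.LocLM89
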