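import Crest.Agent.R289.LocI_306
import Crest.Agent.R289.LocLM_89
import Crest.Agent.R289.LMI_827
import Crest.Agent.R289.RecGap_719
import Crest.Agent.R289.ULoc_406

/-!
# Row 289, joint I2: the rules `LocLM89.Rul` of the compiled machine on `DefI`, and `LocLM89.Loc`

* `Clk`, `Clk.OK` : clock interface (absolute local maps, correct for an instance);
* `ev` : value of a `Local782.LMap` from the views over the slots `Sl Gen n` (words of moves);
* `Q n k st0 stz : Rul` : the instance independent rules;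
* `GapH` : distances and gaps of an instance; `loc : Loc (Q ..) (LMI827.lmI ..) ..`.
-/

set_option autoImplicit false
set_option linter.unusedSectionVars false

namespace Crest.Agent.R289.LocQ306

open Finset DefC DefI Compile827 Local782 LMI827 LInst827 LocLM89
open Crest.Agent.R289.DefD Crest.Agent.R289.Word508
open ULoc406 (Sl nbS)

/-! ### slots -/

section slots
variable {Gen Pub Γ Δ : Type} (n : ℕ)

/-- the slot of a word of moves -/
def sl (l : List Gen) : Sl Gen n := if h : l.length ≤ n then ⟨l, h⟩ else Sl.nil Gen n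

/-- value of a local map from the views over the slots -/
def ev (A : LMap Gen Pub Γ Δ) (x : Sl Gen n → Γ) (p : Sl Gen n → Pub) : Δ :=
  A.f (fun i => x (sl n (A.adr i))) (fun i => p (sl n (A.adr i)))

/-- all addresses have length at most `n` -/
def Fits (A : LMap Gen Pub Γ Δ) : Prop := ∀ i, (A.adr i).length ≤ n

theorem walk_eq_go (F : Frame Gen Pub) (l : List Gen) (u : F.U) :
    ULoc406.walk F.act l u = F.go l u := by
  induction l generalizing u with
  | nil => rfl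
  | cons g l ih => exact ih _

variable {n}

theorem ev_eq {A : LMap Gen Pub Γ Δ} (hA : Fits n A) (F : Frame Gen Pub) (w : F.U → Γ)
    (u : F.U) :
    ev n A (fun s => w (nbS F.act n s u)) (fun s => F.pub (nbS F.act n s u)) = A.run F w u := by
  unfold ev LMap.run
  have h : ∀ i, nbS F.act n (sl n (A.adr i)) u = F.go (A.adr i) u := by
    intro i
    unfold sl nbS
    rw [dif_pos (hA i)]
    exact walk_eq_go F _ u
  simp only [h]

theorem exists_fits (A : LMap Gen Pub Γ Δ) : ∃ n0, ∀ n, n0 ≤ n → Fits n A := by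
  obtain ⟨n0, h⟩ := (Set.finite_range fun i => (A.adr i).length).bddAbove
  exact ⟨n0, fun n hn i => (h ⟨i, rfl⟩).trans hn⟩

theorem exists_fits_pi {J : Type} [Finite J] {Γ Δ : J → Type}
    (A : ∀ j, LMap Gen Pub (Γ j) (Δ j)) : ∃ n0, ∀ n, n0 ≤ n → ∀ j, Fits n (A j) := by
  choose r hr using fun j => exists_fits (A j)
  obtain ⟨n0, h⟩ := (Set.finite_range r).bddAbove
  exact ⟨n0, fun n hn j => hr j n ((h ⟨j, rfl⟩).trans hn)⟩

end slots

variable {K : Type} [Field K] {c : Cst K} {Gc Pc Ck : Type}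

/-! ### the clock -/

/-- clock interface: absolute local maps -/
structure Clk (c : Cst K) (Gc Pc Ck : Type) where
  rd : c.LM Gc Pc Ck c.TD
  up : c.LM Gc Pc Ck Ck
  dn : c.LM Gc Pc Ck Ck
  c0 : Pc → Ck
  cL : Pc → Ck

/-- the clock interface is correct for an instance -/
structure Clk.OK (k : Clk c Gc Pc Ck) (I : Ins c) (mc : Gc → I.U → I.U) (pc : I.U → Pc)
    (cw : ℕ → I.U → Ck) : Prop where
  rd : ∀ t, t ≤ I.L → ∀ u : I.U, k.rd.run (I.frame mc pc) (cw t) u = I.td t u.2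
  up : ∀ t, t < I.L → ∀ u : I.U, k.up.run (I.frame mc pc) (cw t) u = cw (t + 1) u
  dn : ∀ t, t < I.L → ∀ u : I.U, k.dn.run (I.frame mc pc) (cw (t + 1)) u = cw t u
  c0 : ∀ u, k.c0 (pc u) = cw 0 u
  cL : ∀ u, k.cL (pc u) = cw I.L u

/-! ### local maps with the clock -/

/-- clock data and the rest of the label -/
def tdC (k : Clk c Gc Pc Ck) (Γ : Type) : c.LM Gc Pc (Ck × Γ) (c.TD × Γ) :=
  ((k.rd.comap Prod.fst).pair (atL fun x _ => x)).map fun y => (y.1, y.2.2)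

/-- certificate of the depth shown by the clock -/
def recC (k : Clk c Gc Pc Ck) : c.LM Gc Pc (Ck × c.LR × c.BZ) Prop :=
  Cst.recL.comp (tdC k _)

/-- full certificate -/
def recF : c.LM Gc Pc (c.LR × c.BZ) Prop :=
  Cst.recL.comp (atL fun x p => (p.1.tdL, x))

def pushC (k : Clk c Gc Pc Ck) : c.LM Gc Pc (Ck × c.LR × c.BZ) c.BZ :=
  Cst.pushL.comp (tdC k _)

def popC (k : Clk c Gc Pc Ck) : c.LM Gc Pc (Ck × c.LR × c.BZ) c.BZ :=
  Cst.popL.comp (tdC k _)

def upC (ρ : c.A.Tr) : c.LM Gc Pc c.BX c.BX := Cst.updL (c.A.tgt ρ) (c.A.up ρ)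

def dnC (ρ : c.A.Tr) : c.LM Gc Pc c.BX c.BX := Cst.updL (c.A.src ρ) (c.A.dn ρ)

def entUpC (ρ : c.A.Tr) : c.LM Gc Pc c.BX c.BZ := (Cst.entL.comap Prod.snd).comp (upC ρ)

def entDnC (ρ : c.A.Tr) : c.LM Gc Pc c.BX c.BZ := (Cst.entL.comap Prod.snd).comp (dnC ρ)

/-- **the rules of the compiled machine** -/
def Q (n : ℕ) (k : Clk c Gc Pc Ck) (st0 stz : c.A.Stg) :
    Rul (Sl (c.Gen Gc) n) (Sl (c.Gen Gc) n → c.PD × Pc) Ck c.BX c.BZ c.A.Tr where
  i0 := Sl.nil _ n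
  bx _ := (stz, 0)
  bz _ := ⟨0, 0, 0, 0⟩
  sx p := (st0, (p (Sl.nil _ n)).1.x0)
  c0 p := k.c0 (p (Sl.nil _ n)).2
  cL p := k.cL (p (Sl.nil _ n)).2
  top x p := (ev n k.rd x p).lst = true
  bot x p := (ev n k.rd x p).fst = true
  cup x p := ev n k.up x p
  cdn x p := ev n k.dn x p
  rc xc xx xz p := ev n (recC k) (fun i => (xc i, (xx i).2, xz i)) p
  rcL xx xz p := ev n recF (fun i => ((xx i).2, xz i)) p
  st xx xz p := ev n Cst.stL (fun i => (xx i, xz i)) p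
  en ρ xx xz p := ev n (Cst.enL ρ) (fun i => (xx i, xz i)) p
  bk ρ xx xz p := ev n (Cst.bkL ρ) (fun i => (xx i, xz i)) p
  push xc xx xz p := ev n (pushC k) (fun i => (xc i, (xx i).2, xz i)) p
  pop xc xx xz p := ev n (popC k) (fun i => (xc i, (xx i).2, xz i)) p
  up ρ xx p := ev n (upC ρ) xx p
  dn ρ xx p := ev n (dnC ρ) xx p
  entUp ρ xx p := ev n (entUpC ρ) xx p
  entDn ρ xx p := ev n (entDnC ρ) xx p

/-- `n` is large enough -/
structure Big (n : ℕ) (k : Clk c Gc Pc Ck) : Prop where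
  rd : Fits n k.rd
  up : Fits n k.up
  dn : Fits n k.dn
  rc : Fits n (recC k)
  rf : Fits n (recF : c.LM Gc Pc _ _)
  st : Fits n (Cst.stL : c.LM Gc Pc _ _)
  en : ∀ ρ, Fits n (Cst.enL ρ : c.LM Gc Pc _ _)
  bk : ∀ ρ, Fits n (Cst.bkL ρ : c.LM Gc Pc _ _)
  push : Fits n (pushC k)
  pop : Fits n (popC k)
  upc : ∀ ρ, Fits n (upC ρ : c.LM Gc Pc _ _)
  dnc : ∀ ρ, Fits n (dnC ρ : c.LM Gc Pc _ _)
  eu : ∀ ρ, Fits n (entUpC ρ : c.LM Gc Pc _ _)
  ed : ∀ ρ, Fits n (entDnC ρ : c.LM Gc Pc _ _)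

theorem exists_big (k : Clk c Gc Pc Ck) : ∃ n0, ∀ n, n0 ≤ n → Big n k := by
  obtain ⟨a1, h1⟩ := exists_fits k.rd
  obtain ⟨a2, h2⟩ := exists_fits k.up
  obtain ⟨a3, h3⟩ := exists_fits k.dn
  obtain ⟨a4, h4⟩ := exists_fits (recC k)
  obtain ⟨a5, h5⟩ := exists_fits (recF : c.LM Gc Pc _ _)
  obtain ⟨a6, h6⟩ := exists_fits (Cst.stL : c.LM Gc Pc _ _)
  obtain ⟨a7, h7⟩ := exists_fits_pi (fun ρ => (Cst.enL ρ : c.LM Gc Pc _ _))
  obtain ⟨a8, h8⟩ := exists_fits_pi (fun ρ => (Cst.bkL ρ : c.LM Gc Pc _ _))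
  obtain ⟨a9, h9⟩ := exists_fits (pushC k)
  obtain ⟨b1, g1⟩ := exists_fits (popC k)
  obtain ⟨b2, g2⟩ := exists_fits_pi (fun ρ => (upC ρ : c.LM Gc Pc _ _))
  obtain ⟨b3, g3⟩ := exists_fits_pi (fun ρ => (dnC ρ : c.LM Gc Pc _ _))
  obtain ⟨b4, g4⟩ := exists_fits_pi (fun ρ => (entUpC ρ : c.LM Gc Pc _ _))
  obtain ⟨b5, g5⟩ := exists_fits_pi (fun ρ => (entDnC ρ : c.LM Gc Pc _ _))
  refine ⟨a1 + a2 + a3 + a4 + a5 + a6 + a7 + a8 + a9 + b1 + b2 + b3 + b4 + b5, fun n hn =>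
    ⟨h1 n (by omega), h2 n (by omega), h3 n (by omega), h4 n (by omega), h5 n (by omega),
      h6 n (by omega), h7 n (by omega), h8 n (by omega), h9 n (by omega), g1 n (by omega),
      g2 n (by omega), g3 n (by omega), g4 n (by omega), g5 n (by omega)⟩⟩

section run
variable (I : Ins c) (mc : Gc → I.U → I.U) (pc : I.U → Pc)

theorem run_tdC {k : Clk c Gc Pc Ck} {cw : ℕ → I.U → Ck} (hk : k.OK I mc pc cw) {Γ : Type}
    (w : I.U → Γ) {t : ℕ} (ht : t ≤ I.L) :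
    (tdC k Γ).run (I.frame mc pc) (fun u => (cw t u, w u)) = fun u => (I.td t u.2, w u) := by
  funext u
  show (k.rd.run (I.frame mc pc) (cw t) u, w u) = _
  rw [hk.rd t ht u]

theorem run_recC {k : Clk c Gc Pc Ck} {cw : ℕ → I.U → Ck} (hk : k.OK I mc pc cw) {t : ℕ}
    (ht : t ≤ I.L) (x : I.XW) (z : I.ZW) :
    (recC k).run (I.frame mc pc) (fun u => (cw t u, I.rE x.2 u, I.zwE z u)) =
      (Cst.recL : c.LM Gc Pc _ _).run (I.frame mc pc)
        (fun u => (I.td t u.2, I.rE x.2 u, I.zwE z u)) := by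
  unfold recC
  rw [LMap.run_comp]
  exact congrArg _ (run_tdC I mc pc hk (fun u => (I.rE x.2 u, I.zwE z u)) ht)

theorem run_recF (x : I.XW) (z : I.ZW) :
    (recF : c.LM Gc Pc _ _).run (I.frame mc pc) (fun u => (I.rE x.2 u, I.zwE z u)) =
      (Cst.recL : c.LM Gc Pc _ _).run (I.frame mc pc)
        (fun u => (I.td I.L u.2, I.rE x.2 u, I.zwE z u)) := by
  unfold recF
  rw [LMap.run_comp]
  rfl

theorem run_pushC {k : Clk c Gc Pc Ck} {cw : ℕ → I.U → Ck} (hk : k.OK I mc pc cw) {t : ℕ}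
    (ht : t ≤ I.L) (x : I.XW) (z : I.ZW) :
    (pushC k).run (I.frame mc pc) (fun u => (cw t u, I.rE x.2 u, I.zwE z u)) =
      I.zwE (I.push t x z) := by
  unfold pushC
  rw [LMap.run_comp]
  rw [← I.run_pushL mc pc t x z]
  exact congrArg _ (run_tdC I mc pc hk (fun u => (I.rE x.2 u, I.zwE z u)) ht)

theorem run_popC {k : Clk c Gc Pc Ck} {cw : ℕ → I.U → Ck} (hk : k.OK I mc pc cw) {t : ℕ}
    (ht : t < I.L) (x : I.XW) (z : I.ZW) :
    (popC k).run (I.frame mc pc) (fun u => (cw (t + 1) u, I.rE x.2 u, I.zwE z u)) =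
      I.zwE (I.pop t x z) := by
  unfold popC
  rw [LMap.run_comp]
  rw [← I.run_popL mc pc t x z]
  exact congrArg _ (run_tdC I mc pc hk (fun u => (I.rE x.2 u, I.zwE z u)) (by omega))

theorem run_upC (ρ : c.A.Tr) (x : I.XW) :
    (upC ρ : c.LM Gc Pc _ _).run (I.frame mc pc) (I.xwE x) = I.xwE (I.up ρ x) :=
  I.run_updL mc pc _ _ x

theorem run_dnC (ρ : c.A.Tr) (x : I.XW) :
    (dnC ρ : c.LM Gc Pc _ _).run (I.frame mc pc) (I.xwE x) = I.xwE (I.dn ρ x) :=
  I.run_updL mc pc _ _ x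

theorem run_entUpC (ρ : c.A.Tr) (x : I.XW) :
    (entUpC ρ : c.LM Gc Pc _ _).run (I.frame mc pc) (I.xwE x) = I.zwE (I.ent (I.up ρ x)) := by
  unfold entUpC
  rw [LMap.run_comp, run_upC]
  exact I.run_entL mc pc (I.up ρ x)

theorem run_entDnC (ρ : c.A.Tr) (x : I.XW) :
    (entDnC ρ : c.LM Gc Pc _ _).run (I.frame mc pc) (I.xwE x) = I.zwE (I.ent (I.dn ρ x)) := by
  unfold entDnC
  rw [LMap.run_comp, run_dnC]
  exact I.run_entL mc pc (I.dn ρ x)

/-- the certificate relations at a unit, in the form of `RecGap_719` -/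
theorem recL_recU (t : ℕ) (x : I.XW) (z : I.ZW) (u : I.U) :
    (Cst.recL : c.LM Gc Pc _ _).run (I.frame mc pc)
      (fun u => (I.td t u.2, I.rE x.2 u, I.zwE z u)) u ↔ RecGap719.RecU I t x z u := by
  have hm : ∀ (q : I.n → I.AW) (U : c.C → I.n → I.AW),
      (Cst.mirL : c.LM Gc Pc _ _).run (I.frame mc pc) (fun u => (I.xE q u, I.zE U u)) u ↔
        RecGap719.MirU I q U u := by
    intro q U
    constructor
    · intro h c0 s' s
      rw [← I.mir_sum q U c0 u s' s]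
      exact congrFun (congrFun (h c0) s') s
    · intro h c0
      funext s' s
      exact (I.mir_sum q U c0 u s' s).trans (h c0 s' s)
  have hz : ∀ X : I.n → I.AW, I.xE X u c.s0' = 0 ↔ RecGap719.ZU I X u := by
    intro X
    constructor
    · intro h s
      exact congrFun h s
    · intro h
      funext s
      exact h s
  rw [I.run_recL mc pc t x z u, hm, hm, hz, hz]
  constructor
  · rintro ⟨h1, h2, h3, h4, h5, h6⟩
    exact ⟨h1, h2, h3, h4, fun q => (hz (z.Z q)).1 (h5 q), fun q => (hz (z.Zm q)).1 (h6 q)⟩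
  · rintro ⟨h1, h2, h3, h4, h5, h6⟩
    exact ⟨h1, h2, h3, h4, fun q => (hz (z.Z q)).2 (h5 q), fun q => (hz (z.Zm q)).2 (h6 q)⟩

end run

/-! ### distances and gaps -/

/-- distances of the words and gaps of the relations of an instance -/
structure GapH (I : Ins c) (CG : ℕ → Submodule K (I.Om → K)) (CT : ℕ → Submodule K (I.n → K))
    {tt : ℕ → I.T} (h : LMI827.Hyp I CG CT tt) (cw : ℕ → I.U → Ck) (g : ℝ) : Prop where
  g1 : g ≤ 1
  dx : ∀ x y : XS I CG, x ≠ y → g ≤ distW (I.xwE x.1) (I.xwE y.1)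
  dz : ∀ z z' : ZS I CG CT, z ≠ z' → g ≤ distW (I.zwE z.1) (I.zwE z'.1)
  dc : ∀ t t', t ≤ I.L → t' ≤ I.L → t ≠ t' → g ≤ distW (cw t) (cw t')
  rg : ∀ t, t ≤ I.L → ∀ (x : XS I CG) (z : ZS I CG CT), ¬ I.Rec t x.1 z.1 →
    g ≤ frac fun u => ¬ RecGap719.RecU I t x.1 z.1 u
  cz : ∀ (x : XS I CG) (m : c.A.Comp), ¬ I.CZ (certS h x I.L).1 m →
    g ≤ frac fun u => ¬ RecGap719.CZU I (certS h x I.L).1 m u
  iz : ∀ (x : XS I CG) (i : c.A.Idl), ¬ I.IZ x.1 i →
    g ≤ frac fun u : I.U => ¬ ∀ s, I.evalW (c.A.idl i) x.1.2 (u.1, s) = 0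

/-- gap of a list of zero claims -/
theorem GapH.claim {I : Ins c} {CG : ℕ → Submodule K (I.Om → K)}
    {CT : ℕ → Submodule K (I.n → K)} {tt : ℕ → I.T} {h : LMI827.Hyp I CG CT tt}
    {cw : ℕ → I.U → Ck} {g : ℝ} (H : GapH I CG CT h cw g) [Nonempty I.Γ]
    (mc : Gc → I.U → I.U) (pc : I.U → Pc) (st : c.A.Stg → Prop)
    (P : c.A.Stg → c.A.Comp → Prop) (R : c.A.Stg → c.A.Idl → Prop) (x : XS I CG)
    (hn : ¬ (st x.1.1 ∧ (∀ m, P x.1.1 m → I.CZ (certS h x I.L).1 m) ∧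
      ∀ i, R x.1.1 i → I.IZ x.1 i)) :
    g ≤ frac fun u : I.U => ¬ (Cst.claimL st P R : c.LM Gc Pc _ _).run (I.frame mc pc)
      (fun u => (I.xwE x.1 u, I.zwE (certS h x I.L).1 u)) u := by
  by_cases hs : st x.1.1
  · by_cases hm : ∀ m, P x.1.1 m → I.CZ (certS h x I.L).1 m
    · have hi : ¬ ∀ i, R x.1.1 i → I.IZ x.1 i := fun hi => hn ⟨hs, hm, hi⟩
      push Not at hi
      obtain ⟨i, hi, hz⟩ := hi
      refine (H.iz x i hz).trans (frac_mono fun u hu hu' => hu ?_)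
      exact ((I.run_claimL mc pc st P R x.1 (certS h x I.L).1 u).1 hu').2.2 i hi
    · push Not at hm
      obtain ⟨m, hm, hz⟩ := hm
      refine (H.cz x m hz).trans (frac_mono fun u hu hu' => hu ?_)
      exact ((I.run_claimL mc pc st P R x.1 (certS h x I.L).1 u).1 hu').2.1 m hm
  · have h1 : frac (fun _ : I.U => True) = 1 := by
      classical
      have hU : (Fintype.card I.U : ℝ) ≠ 0 := by
        have : Nonempty I.U := ⟨(Classical.arbitrary _, 1)⟩
        exact_mod_cast Fintype.card_ne_zero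
      unfold frac
      simp only [Finset.filter_true, card_univ]
      exact div_self hU
    refine H.g1.trans (h1.symm.le.trans (frac_mono fun u _ hu' => hs ?_))
    exact ((I.run_claimL mc pc st P R x.1 (certS h x I.L).1 u).1 hu').1

/-! ### `Loc` -/

/-- **the local formulas are correct** -/
theorem loc {I : Ins c} [Nonempty I.Γ] {CG : ℕ → Submodule K (I.Om → K)}
    {CT : ℕ → Submodule K (I.n → K)} {tt : ℕ → I.T} (h : LMI827.Hyp I CG CT tt)
    (hx0 : c.A.Legal I.act I.pubC I.stg0 (I.con I.xs))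
    (hb0 : ∀ ρ, ¬ (I.stg0 = c.A.tgt ρ ∧ c.A.Bk I.act I.pubC ρ (I.con I.xs)))
    {mc : Gc → I.U → I.U} {pc : I.U → Pc} {k : Clk c Gc Pc Ck} {cw : ℕ → I.U → Ck}
    (hk : k.OK I mc pc cw) {st0 stz : c.A.Stg} (hst0 : I.stg0 = st0) (hstz : I.stgz = stz)
    {n : ℕ} (hn : Big n k) {g : ℝ} (H : GapH I CG CT h cw g) :
    Loc (U := I.U) (Q n k st0 stz) (lmI h hx0 hb0) (nbS (I.frame mc pc).act n)
      (fun u s => (I.frame mc pc).pub (nbS (I.frame mc pc).act n s u))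
      (fun x => I.xwE x.1) (fun z => I.zwE z.1) cw g where
  hi0 u := rfl
  dx := H.dx
  dz := H.dz
  dc := H.dc
  bx u := by subst hstz; rfl
  bz u := rfl
  sx u := by subst hst0; rfl
  c0 u := hk.c0 u
  cL u := hk.cL u
  top t ht u := by
    have e := congrArg (fun d : c.TD => d.lst = true)
      ((ev_eq hn.rd (I.frame mc pc) (cw t) u).trans (hk.rd t ht u))
    refine (Iff.of_eq e).trans ?_
    simp only [Ins.td, decide_eq_true_eq]
    rfl
  bot t ht u := by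
    have e := congrArg (fun d : c.TD => d.fst = true)
      ((ev_eq hn.rd (I.frame mc pc) (cw t) u).trans (hk.rd t ht u))
    refine (Iff.of_eq e).trans ?_
    simp only [Ins.td, decide_eq_true_eq]
  cup t ht u := (ev_eq hn.up (I.frame mc pc) (cw t) u).trans (hk.up t ht u)
  cdn t ht u := (ev_eq hn.dn (I.frame mc pc) (cw (t + 1)) u).trans (hk.dn t ht u)
  rc t ht x u := by
    have h1 := (rec_iffS h t x (certS h x t) ht).2 rfl
    have h2 := (I.recL_iff (Gc := Gc) (Pc := Pc) mc pc t x.1 (certS h x t).1).1 h1 u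
    have e := (ev_eq hn.rc (I.frame mc pc)
      (fun u => (cw t u, I.rE x.1.2 u, I.zwE (certS h x t).1 u)) u).trans
      (congrFun (run_recC I mc pc hk ht x.1 (certS h x t).1) u)
    exact e.mpr h2
  rcG t ht x z hz := by
    have h1 : ¬ I.Rec t x.1 z.1 := fun hr => hz ((rec_iffS h t x z ht).1 hr)
    refine (H.rg t ht x z h1).trans (frac_mono fun u hu hu' => hu ?_)
    have e := (ev_eq hn.rc (I.frame mc pc)
      (fun u => (cw t u, I.rE x.1.2 u, I.zwE z.1 u)) u).trans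
      (congrFun (run_recC I mc pc hk ht x.1 z.1) u)
    exact (recL_recU I mc pc t x.1 z.1 u).1 (e.mp hu')
  rcL x u := by
    have h1 := (rec_iffS h I.L x (certS h x I.L) le_rfl).2 rfl
    have h2 := (I.recL_iff (Gc := Gc) (Pc := Pc) mc pc I.L x.1 (certS h x I.L).1).1 h1 u
    have e := (ev_eq hn.rf (I.frame mc pc)
      (fun u => (I.rE x.1.2 u, I.zwE (certS h x I.L).1 u)) u).trans
      (congrFun (run_recF I mc pc x.1 (certS h x I.L).1) u)
    exact e.mpr h2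
  rcLG x z hz := by
    have h1 : ¬ I.Rec I.L x.1 z.1 := fun hr => hz ((rec_iffS h I.L x z le_rfl).1 hr)
    refine (H.rg I.L le_rfl x z h1).trans (frac_mono fun u hu hu' => hu ?_)
    have e := (ev_eq hn.rf (I.frame mc pc)
      (fun u => (I.rE x.1.2 u, I.zwE z.1 u)) u).trans
      (congrFun (run_recF I mc pc x.1 z.1) u)
    exact (recL_recU I mc pc I.L x.1 z.1 u).1 (e.mp hu')
  st x hx u := by
    have h1 := (st_iffS h x).2 hx
    have h2 := (I.stL_iff (Gc := Gc) (Pc := Pc) mc pc x.1 (certS h x I.L).1).1 h1 u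
    exact (ev_eq hn.st (I.frame mc pc)
      (fun u => (I.xwE x.1 u, I.zwE (certS h x I.L).1 u)) u).mpr h2
  stG x hx := by
    have h1 : ¬ I.St x.1 (certS h x I.L).1 := fun hs => hx ((st_iffS h x).1 hs)
    refine (H.claim mc pc (fun _ => True) c.A.leg c.A.legI x
      (fun hh => h1 ⟨hh.2.1, hh.2.2⟩)).trans (frac_mono fun u hu hu' => hu ?_)
    exact (ev_eq hn.st (I.frame mc pc)
      (fun u => (I.xwE x.1 u, I.zwE (certS h x I.L).1 u)) u).mp hu'
  en ρ x hx he u := by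
    have h1 := (en_iffS h ρ x hx).2 he
    have h2 := (I.enL_iff (Gc := Gc) (Pc := Pc) mc pc ρ x.1 (certS h x I.L).1).1 h1 u
    exact (ev_eq (hn.en ρ) (I.frame mc pc)
      (fun u => (I.xwE x.1 u, I.zwE (certS h x I.L).1 u)) u).mpr h2
  enG ρ x hx he := by
    have h1 : ¬ I.En ρ x.1 (certS h x I.L).1 := fun hs => he ((en_iffS h ρ x hx).1 hs)
    refine (H.claim mc pc (fun s => s = c.A.src ρ) (fun _ => c.A.en ρ) (fun _ => c.A.enI ρ) x
      h1).trans (frac_mono fun u hu hu' => hu ?_)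
    exact (ev_eq (hn.en ρ) (I.frame mc pc)
      (fun u => (I.xwE x.1 u, I.zwE (certS h x I.L).1 u)) u).mp hu'
  bk ρ x hx he u := by
    have h1 := (bk_iffS h ρ x hx).2 he
    have h2 := (I.bkL_iff (Gc := Gc) (Pc := Pc) mc pc ρ x.1 (certS h x I.L).1).1 h1 u
    exact (ev_eq (hn.bk ρ) (I.frame mc pc)
      (fun u => (I.xwE x.1 u, I.zwE (certS h x I.L).1 u)) u).mpr h2
  bkG ρ x hx he := by
    have h1 : ¬ I.Bk ρ x.1 (certS h x I.L).1 := fun hs => he ((bk_iffS h ρ x hx).1 hs)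
    refine (H.claim mc pc (fun s => s = c.A.tgt ρ) (fun _ => c.A.bk ρ) (fun _ => c.A.bkI ρ) x
      h1).trans (frac_mono fun u hu hu' => hu ?_)
    exact (ev_eq (hn.bk ρ) (I.frame mc pc)
      (fun u => (I.xwE x.1 u, I.zwE (certS h x I.L).1 u)) u).mp hu'
  push t ht x hx u :=
    (ev_eq hn.push (I.frame mc pc)
      (fun u => (cw t u, I.rE x.1.2 u, I.zwE (certS h x t).1 u)) u).trans
      (congrFun (run_pushC I mc pc hk ht.le x.1 (certS h x t).1) u)
  pop t ht x hx u := by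
    have e := (ev_eq hn.pop (I.frame mc pc)
      (fun u => (cw (t + 1) u, I.rE x.1.2 u, I.zwE (certS h x (t + 1)).1 u)) u).trans
      (congrFun (run_popC I mc pc hk ht x.1 (certS h x (t + 1)).1) u)
    have e2 : I.pop t x.1 (certS h x (t + 1)).1 = (certS h x t).1 :=
      congrArg Subtype.val (pop_certS h x t)
    rw [e2] at e
    exact e
  up ρ x hx he u := (ev_eq (hn.upc ρ) (I.frame mc pc) (I.xwE x.1) u).trans
    (congrFun (run_upC I mc pc ρ x.1) u)
  dn ρ x hx he u := (ev_eq (hn.dnc ρ) (I.frame mc pc) (I.xwE x.1) u).trans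
    (congrFun (run_dnC I mc pc ρ x.1) u)
  entUp ρ x hx he u := (ev_eq (hn.eu ρ) (I.frame mc pc) (I.xwE x.1) u).trans
    (congrFun (run_entUpC I mc pc ρ x.1) u)
  entDn ρ x hx he u := (ev_eq (hn.ed ρ) (I.frame mc pc) (I.xwE x.1) u).trans
    (congrFun (run_entDnC I mc pc ρ x.1) u)

end Crest.Agent.R289.LocQ306
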