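import Mathlib
import Crest.Agent.R289.GapObj_719
import Crest.Agent.R289.LocQ_306

/-!
Row 289 (helper719): the gap facts `LocQ306.GapH` of line 1, from the numerical data
`GapS719.Num`, and for every member of the family `Mem12.Mem`, `g = 1 / 15616`.
-/

set_option autoImplicit false
set_option linter.unusedSectionVars false
set_option linter.unusedVariables false

namespace Crest.Agent.R289.GapH719

open Finset Crest.Agent.R289.DefD Crest.Agent.R289.LCa72 Compile827 LInst827 DefC DefI Gap731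
  RecGap719 LMI827 GapS719

section gen
variable {K : Type} [Field K] {c : Cst K} {I : Ins c} {CG : ℕ → Submodule K (I.Om → K)}
  {CT : ℕ → Submodule K (I.n → K)} {tt : ℕ → I.T} {g : ℝ} {Ck : Type}

theorem xAt_of {x y : I.XW} {u : I.U} (h : I.xwE x u = I.xwE y u) : I.XAt x y u := by
  have h1 : x.1 = y.1 := congrArg (fun p : c.BX => p.1) h
  have h2 : I.rE x.2 u = I.rE y.2 u := congrArg (fun p : c.BX => p.2) h
  exact ⟨h1, fun i s => congrFun (congrFun h2 i) s⟩

theorem zAt_of {z z' : I.ZW} {u : I.U} (h : I.zwE z u = I.zwE z' u) : I.ZAt z z' u := by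
  have h1 : I.xE z.X u = I.xE z'.X u := congrArg (fun p : c.BZ => p.X) h
  have h2 : I.xE z.Xm u = I.xE z'.Xm u := congrArg (fun p : c.BZ => p.Xm) h
  have h3 : I.zE z.Z u = I.zE z'.Z u := congrArg (fun p : c.BZ => p.Z) h
  have h4 : I.zE z.Zm u = I.zE z'.Zm u := congrArg (fun p : c.BZ => p.Zm) h
  exact ⟨fun s' s => congrFun (congrFun h1 s') s, fun s' s => congrFun (congrFun h2 s') s,
    fun a s' s => congrFun (congrFun (congrFun h3 a) s') s,
    fun a s' s => congrFun (congrFun (congrFun h4 a) s') s⟩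

/-- **the gap facts of line 1** -/
theorem gapH (N : Num I CG CT g) (h : Hyp I CG CT tt) {cw : ℕ → I.U → Ck}
    (hdc : ∀ t t', t ≤ I.L → t' ≤ I.L → t ≠ t' → g ≤ distW (cw t) (cw t')) :
    LocQ306.GapH I CG CT h cw g where
  g1 := N.le1
  dx x y hxy := (GapS719.dx N x y hxy).trans (frac_mono fun u hu he => hu (xAt_of he))
  dz z z' hzz := (GapS719.dz N z z' hzz).trans (frac_mono fun u hu he => hu (zAt_of he))
  dc := hdc
  rg t ht x z hr :=
    (rcG N h ht x z fun he => hr ((rec_iffS h t x z ht).2 he)).trans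
      (frac_mono fun u hu hu' => hu ((recAt_iff t x.1 z.1 u).2 hu'))
  cz x m hm := czG N h x m hm
  iz x i hi := izG N h x i hi

end gen

section members
open Crest.Agent.R289.Asm12 Crest.Agent.R289.InsObj576
open Crest.Agent.R289.HypObj146 (CT)

variable {D : Obj} {M0 : ℕ} {lam0 Kr : ℝ} {h : D.OK M0 lam0 Kr} {W c0 : ℕ}

/-- distance of the clock words of a member -/
theorem clkM (i : Mem12.Mem h W c0) {t t' : ℕ} (ht : t ≤ i.I.L) (ht' : t' ≤ i.I.L)
    (hne : t ≠ t') : (1 / 2 : ℝ) ≤ distW (i.cw t) (i.cw t') := by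
  have : Fact (Nat.Prime 3) := ⟨by norm_num⟩
  have : Nonempty (Fin i.siz.rho) := ⟨(i.e (Classical.arbitrary i.U)).2.2.2⟩
  exact ClkTD766.cw_sep i.I i.e ht ht' hne

/-- **the gap facts of line 1 for a member** -/
theorem gapHM (hM : 4 ≤ M0) (hl : lam0 ≤ 1 / 4096) (i : Mem12.Mem h W c0) :
    LocQ306.GapH i.I (CG D i.kP i.kR) (CT D i.kT) (HypObj146.hyp h i.P i.lay i.ok i.h0) i.cw
      (1 / 15616) :=
  gapH (GapObj719.numM hM hl i) (HypObj146.hyp h i.P i.lay i.ok i.h0)
    fun t t' ht ht' hne => le_trans (by norm_num) (clkM i ht ht' hne)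

end members

end Crest.Agent.R289.GapH719
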