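import Mathlib
import Crest.Agent.R289.GapI_731

/-!
Row 289, leaf C_GAP, part 4: the gaps of the relations of `DefI_306` (see `GapI_731`).
-/

set_option autoImplicit false
set_option linter.unusedSectionVars false
set_option maxHeartbeats 400000

namespace Crest.Agent.R289.DefI

open Finset DefC Compile827 Crest.Agent.R289.DefD Crest.Agent.R289.LCa72

variable {K : Type} [Field K] {c : Cst K} {I : Ins c}

namespace Ins

variable {A : Submodule K (I.Om → K)} {B : Submodule K (I.n → K)}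
  {CG : ℕ → Submodule K (I.Om → K)} {CT : ℕ → Submodule K (I.n → K)}

theorem frac_lt {U : Type} [Fintype U] {p q : U → Prop} {g g' : ℝ}
    (h : (frac fun u => ¬ p u) < g) (hpq : ∀ u, p u → q u) (hg : g ≤ g') :
    (frac fun u => ¬ q u) < g' :=
  lt_of_lt_of_le (lt_of_le_of_lt (frac_mono fun u hu hp => hu (hpq u hp)) h) hg

/-- uncurried bundle -/
theorem PWI.toPW {ι : Type} {F : ι → I.n → I.AW} (h : ∀ i, I.PWI A B (F i)) :
    Gap731.PW A B (fun (p : I.T × c.S') (k : ι × Fin (c.r + 1) × c.A.Comp) (ω : I.Γ × c.S) =>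
      F k.1 p ω k.2.1 k.2.2) :=
  ⟨fun p k => (h k.1).row p k.2.1 k.2.2, fun k ω => (h k.1).col ω k.2.1 k.2.2⟩

/-- a family of product words that vanishes at most units is zero -/
theorem pwi_zero [Nonempty I.Γ] {dG dT : ℝ} (hG : Gap731.UD (A : Set (I.Γ × c.S → K)) dG)
    (hT : Gap731.UD (B : Set (I.T × c.S' → K)) dT) (hT0 : 0 ≤ dT) {ι : Type}
    {F : ι → I.n → I.AW} (hF : ∀ i, I.PWI A B (F i))
    (h : (frac fun u : I.Γ × I.T => ¬ ∀ i s' s, F i (u.2, s') (u.1, s) = 0) < dT * dG) :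
    ∀ i, F i = 0 := by
  have h0 := Gap731.pw_eq (F' := 0) hG hT hT0 (PWI.toPW hF) Gap731.PW.zero (by
    refine lt_of_le_of_lt (frac_mono ?_) h
    intro u hu hcon
    apply hu
    rintro ⟨i, a, m⟩ s s'
    show F i (u.2, s') (u.1, s) a m = 0
    rw [hcon i s' s]
    rfl)
  intro i
  funext p ω a m
  exact congrFun (congrFun (congrFun h0 p) (i, a, m)) ω

theorem pwi_eq [Nonempty I.Γ] {dG dT : ℝ} (hG : Gap731.UD (A : Set (I.Γ × c.S → K)) dG)
    (hT : Gap731.UD (B : Set (I.T × c.S' → K)) dT) (hT0 : 0 ≤ dT) {ι : Type}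
    {F F' : ι → I.n → I.AW} (hF : ∀ i, I.PWI A B (F i)) (hF' : ∀ i, I.PWI A B (F' i))
    (h : (frac fun u : I.Γ × I.T => ¬ ∀ i s' s, F i (u.2, s') (u.1, s) = F' i (u.2, s') (u.1, s))
      < dT * dG) : F = F' := by
  have h0 := pwi_zero (F := fun i => F i - F' i) hG hT hT0 (fun i => (hF i).sub (hF' i)) (by
    refine lt_of_le_of_lt (frac_mono ?_) h
    intro u hu hcon
    apply hu
    intro i s' s
    rw [Pi.sub_apply, Pi.sub_apply, hcon i s' s, sub_self])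
  funext i
  exact sub_eq_zero.1 (h0 i)

/-! ### mirror relations -/

/-- residual of the mirror relation -/
def mres (q : I.n → I.AW) (U : c.C → I.n → I.AW) (a : c.C) (p : I.n) : I.AW :=
  ∑ s1, ∑ j, c.bet a s1 j • Mirror545.ext c.s0' q U s1 ((I.gam j)⁻¹ * p.1, p.2)

theorem COK.mres_mem (h : I.COK CG CT) {d e : ℕ} {q : I.n → I.AW} {U : c.C → I.n → I.AW}
    (hq : I.PWI (CG d) (CT e) q) (hU : ∀ a, I.PWI (CG d) (CT e) (U a)) (a : c.C) :
    I.PWI (CG d) (CT e) (mres q U a) := by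
  have hx : ∀ s1, I.PWI (CG d) (CT e) (Mirror545.ext c.s0' q U s1) := by
    intro s1
    unfold Mirror545.ext
    split_ifs with h1
    · exact hq
    · exact hU _
  have : mres q U a = ∑ s1, ∑ j, c.bet a s1 j •
      fun p : I.n => Mirror545.ext c.s0' q U s1 ((I.gam j)⁻¹ * p.1, p.2) := by
    funext p
    simp only [mres, Finset.sum_apply, Pi.smul_apply]
  rw [this]
  exact PWI.sum _ fun s1 _ => PWI.sum _ fun j _ => PWI.smul _ (h.leftP _ (hx s1))

theorem mirAt_iff (q : I.n → I.AW) (U : c.C → I.n → I.AW) (u : I.U) :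
    I.MirAt q U u ↔ ∀ a s' s, mres q U a (u.2, s') (u.1, s) = 0 := Iff.rfl

/-- GAP of the mirror relation -/
theorem mir_gap [Nonempty I.Γ] (h : I.COK CG CT) {d e : ℕ} {dG dT : ℝ}
    (hG : Gap731.UD (CG d : Set (I.Γ × c.S → K)) dG)
    (hT : Gap731.UD (CT e : Set (I.T × c.S' → K)) dT) (hT0 : 0 ≤ dT)
    {q : I.n → I.AW} {U : c.C → I.n → I.AW}
    (hq : I.PWI (CG d) (CT e) q) (hU : ∀ a, I.PWI (CG d) (CT e) (U a))
    (hz : (frac fun u : I.Γ × I.T => ¬ I.MirAt q U u) < dT * dG) : I.Mir q U := by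
  have h0 := pwi_zero hG hT hT0 (fun a => h.mres_mem hq hU a) (by
    refine lt_of_le_of_lt (frac_mono ?_) hz
    intro u hu hcon
    exact hu hcon)
  rw [mir_iff]
  intro u a s' s
  show mres q U a (u.2, s') (u.1, s) = 0
  rw [h0 a]
  rfl

/-- the mirror system of the instance -/
structure MOK (I : Ins c) {ι : Type} [Fintype ι] (al : ι → c.S' → c.JT → K)
    (P : {s : c.S' // s ≠ c.s0'} → ι → K) (Lm : ℕ) (dV : ℝ) : Prop where
  isP : Mirror545.IsP c.s0' al P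
  bet : c.bet = Mirror545.bet c.s0' al P
  nil : AugNil322.J K I.T ^ Lm = ⊥
  surj : ∀ w : I.T → K, ∃ f : I.T → c.S' → K, Mirror545.InV al I.gam f ∧ ∀ g, f g c.s0' = w g
  dV0 : 0 ≤ dV
  dist : ∀ f : I.T → c.S' → K, Mirror545.InV al I.gam f → f ≠ 0 → dV ≤ frac (fun g => f g ≠ 0)

variable {ι : Type} [Fintype ι] {al : ι → c.S' → c.JT → K}
  {P : {s : c.S' // s ≠ c.s0'} → ι → K} {Lm : ℕ} {dV : ℝ}

/-- GAP of the zero claims at the content symbol of `T` -/
theorem content_gap [Nonempty I.Γ] (hM : I.MOK al P Lm dV) {d e : ℕ} {dG : ℝ}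
    (hG : Gap731.UD (CG d : Set (I.Γ × c.S → K)) dG)
    {q : I.n → I.AW} {U : c.C → I.n → I.AW} (hq : I.PWI (CG d) (CT e) q) (hm : I.Mir q U)
    (hz : (frac fun u : I.Γ × I.T => ¬ ((∀ s, q (u.2, c.s0') (u.1, s) = 0) ∧
      ∀ a s, U a (u.2, c.s0') (u.1, s) = 0)) < dV * dG) :
    (∀ τ, q (τ, c.s0') = 0) ∧ ∀ a τ, U a (τ, c.s0') = 0 := by
  have hm' : Mirror545.MirRel c.s0' (Mirror545.bet c.s0' al P) I.gam
      (fun τ s' => q (τ, s')) (fun s τ s' => U s (τ, s')) := by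
    rw [← hM.bet]; exact hm
  let φ : (c.S' → I.AW) →ₗ[K] (c.S' → (Fin (c.r + 1) × c.A.Comp) → I.Om → K) :=
    { toFun := fun f s' k ω => f s' ω k.1 k.2
      map_add' := fun _ _ => rfl
      map_smul' := fun _ _ => rfl }
  have h1 := hm'.map φ
  have h2 := Gap731.pw_mir (G := I.Γ) (S := c.S) (Ω := Fin (c.r + 1) × c.A.Comp)
    (Q := fun p k ω => q p ω k.1 k.2) (C := fun a p k ω => U a p ω k.1 k.2) hG hM.dV0 c.s0' al P
    hM.isP I.gam hM.nil hM.surj hM.dist (fun τ k => hq.row (τ, c.s0') k.1 k.2) h1 (by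
      refine lt_of_le_of_lt (frac_mono ?_) hz
      intro u hu hcon
      apply hu
      refine ⟨fun k s => ?_, fun a k s => ?_⟩
      · show q (u.2, c.s0') (u.1, s) k.1 k.2 = 0
        rw [hcon.1 s]; rfl
      · show U a (u.2, c.s0') (u.1, s) k.1 k.2 = 0
        rw [hcon.2 a s]; rfl)
  have h3 : ∀ τ, q (τ, c.s0') = 0 := by
    intro τ
    funext ω a m
    exact congrFun (congrFun (h2 τ) (a, m)) ω
  refine ⟨h3, ?_⟩
  have h4 : Mirror545.MirRel c.s0' (Mirror545.bet c.s0' al P) I.gam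
      (fun τ => q (τ, c.s0')) (fun s τ => U s (τ, c.s0')) :=
    hm'.map (LinearMap.proj (R := K) (φ := fun _ : c.S' => I.AW) c.s0')
  exact Mirror545.mir_zero c.s0' al P hM.isP I.gam hM.nil h4 h3

/-! ### certificates -/

/-- code words of a bank -/
def XOK (CG : ℕ → Submodule K (I.Om → K)) (x : I.XW) : Prop := ∀ i, x.2 i ∈ CG 1

structure ZOK (CG : ℕ → Submodule K (I.Om → K)) (CT : ℕ → Submodule K (I.n → K)) (z : I.ZW) :
    Prop where
  X : I.PWI (CG 4) (CT 1) z.X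
  Xm : I.PWI (CG 4) (CT 1) z.Xm
  Z : ∀ a, I.PWI (CG 4) (CT 2) (z.Z a)
  Zm : ∀ a, I.PWI (CG 4) (CT 2) (z.Zm a)

/-- GAP of the relations of a certificate -/
theorem rec_gap [Nonempty I.Γ] (h : I.COK CG CT) (hM : I.MOK al P Lm dV) {dG dT g : ℝ}
    (hG : Gap731.UD (CG 4 : Set (I.Γ × c.S → K)) dG)
    (hT : Gap731.UD (CT 2 : Set (I.T × c.S' → K)) dT) (hT0 : 0 ≤ dT) (hg1 : g ≤ dT * dG)
    (hg2 : g ≤ dV * dG) {t : ℕ} (ht : t ≤ I.L) {x : I.XW} (hx : XOK CG x) {z : I.ZW}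
    (hz : ZOK CG CT z) (hr : (frac fun u : I.Γ × I.T => ¬ I.RecAt t x z u) < g) :
    I.Rec t x z := by
  have hw := h.wv_mem hx
  have hQ := h.Q_mem hw (h.D t ht) hz.X
  have hQm := h.Q_mem hw (h.Dm_mem ht) hz.Xm
  have h1 : I.Mir (I.Q (I.wv x.2) (I.D t) z.X) z.Z :=
    mir_gap h hG hT hT0 hQ hz.Z
      ((lt_of_le_of_lt (frac_mono fun u hu hcon => hu hcon.1) hr).trans_le hg1)
  have h2 : I.Mir (I.Q (I.wv x.2) (I.Dm t) z.Xm) z.Zm :=
    mir_gap h hG hT hT0 hQm hz.Zm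
      ((lt_of_le_of_lt (frac_mono fun u hu hcon => hu hcon.2.1) hr).trans_le hg1)
  have h3 := content_gap hM hG hQ h1
    ((lt_of_le_of_lt (frac_mono fun u hu hcon => hu ⟨hcon.2.2.1, hcon.2.2.2.2.1⟩) hr).trans_le hg2)
  have h4 := content_gap hM hG hQm h2
    ((lt_of_le_of_lt (frac_mono fun u hu hcon => hu ⟨hcon.2.2.2.1, hcon.2.2.2.2.2⟩) hr).trans_le
      hg2)
  exact ⟨h1, h2, h3.1, h4.1, h3.2, h4.2⟩

/-! ### components and identities -/

/-- the cascade operator on contents -/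
def LamC (I : Ins c) : (I.Γ → Fin (c.r + 1) → K) →+ (I.Γ → Fin (c.r + 1) → K) where
  toFun f := fun g a => ∑ j, ∑ b, c.lam j a b * f (I.mv j g) b
  map_zero' := by funext g a; simp
  map_add' f f' := by
    funext g a
    simp only [Pi.add_apply, mul_add, sum_add_distrib]

/-- contents of component `m` of a bundle -/
def conL (I : Ins c) (m : c.A.Comp) : I.AW →ₗ[K] (I.Γ → Fin (c.r + 1) → K) where
  toFun w := fun g a => w (g, c.s0) a m
  map_add' _ _ := rfl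
  map_smul' _ _ := rfl

theorem conL_Lam (m : c.A.Comp) (w : I.AW) : conL I m (I.Lam w) = LamC I (conL I m w) := rfl

/-- the record data of the instance: positions, contents of the words `D`, growth -/
structure ROK (I : Ins c) (pos : ℕ → I.T) (th m0 : ℕ) : Prop where
  two : 2 ≤ m0
  len : Nat.log m0 th + 2 ≤ I.L + 1
  grow : ∀ f : I.Γ → Fin (c.r + 1) → K, f ≠ 0 → (RevChain123.supp f).card ≤ th →
    (m0 + 1) * (RevChain123.supp f).card ≤ (RevChain123.supp (LamC I f)).card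
  D_pos : ∀ i j, i ≤ I.L → j ≤ I.L → I.D i (pos j, c.s0') = if i = j then 1 else 0

theorem recX_pos {pos : ℕ → I.T} {th m0 : ℕ} (hR : I.ROK pos th m0) (w : I.AW) (i : ℕ)
    (hi : i ≤ I.L) :
    Level492.recX I.Lam I.D w I.L (pos i, c.s0') = Level492.chain I.Lam w (I.L - i) := by
  rw [Level492.recX, Finset.sum_apply, Finset.sum_eq_single i]
  · simp only [Level492.ten]
    rw [hR.D_pos i i hi hi, if_pos rfl, one_smul]
  · intro j hj hji
    simp only [Level492.ten]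
    rw [hR.D_pos j i (by simpa [Nat.lt_succ_iff] using hj) hi, if_neg hji, zero_smul]
  · intro hn
    exact absurd (mem_range.2 (by omega)) hn

/-- GAP of a zero claim, at a full bank -/
theorem cz_gap [Nonempty I.Γ] {pos : ℕ → I.T} {th m0 : ℕ} (hR : I.ROK pos th m0) {d : ℕ}
    {dT g : ℝ} (hT : Gap731.UD (CT 1 : Set (I.T × c.S' → K)) dT) (hT0 : 0 ≤ dT)
    (hg : g ≤ dT * ((th : ℝ) / Fintype.card I.Γ)) {w : I.AW} {z : I.ZW}
    (hX : I.PWI (CG d) (CT 1) z.X) (hz : z.X = Level492.recX I.Lam I.D w I.L) {m : c.A.Comp}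
    (h : (frac fun u : I.Γ × I.T => ¬ I.CZAt z m u) < g) : I.CZ z m := by
  have hcol : ∀ ψ : (I.Γ → Fin (c.r + 1) → K) →ₗ[K] K,
      (fun p => ψ (conL I m (z.X p))) ∈ CT 1 := by
    classical
    intro ψ
    have : (fun p => ψ (conL I m (z.X p))) =
        ∑ g, ∑ a, ψ (Pi.single g (Pi.single a 1)) • fun p => z.X p (g, c.s0) a m := by
      funext p
      have e : conL I m (z.X p) =
          ∑ g, ∑ a, z.X p (g, c.s0) a m • (Pi.single g (Pi.single a (1 : K)) :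
            I.Γ → Fin (c.r + 1) → K) := by
        funext g' a'
        simp only [Finset.sum_apply, Pi.smul_apply, smul_eq_mul]
        rw [Finset.sum_eq_single g', Finset.sum_eq_single a']
        · simp [conL]
        · intro b _ hb
          simp [Pi.single_apply, hb, Ne.symm hb]
        · simp
        · intro b _ hb
          refine Finset.sum_eq_zero fun a _ => ?_
          simp [Pi.single_apply, Ne.symm hb]
        · simp
      rw [e]
      simp only [map_sum, map_smul, Finset.sum_apply, Pi.smul_apply, smul_eq_mul]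
      exact sum_congr rfl fun g _ => sum_congr rfl fun a _ => mul_comm _ _
    rw [this]
    exact (CT 1).sum_mem fun g _ => (CT 1).sum_mem fun a _ =>
      (CT 1).smul_mem _ (hX.col (g, c.s0) a m)
  have h0 : conL I m w = 0 :=
    Gap731.rec_zero' (G := I.Γ) (S' := c.S') (M := Fin (c.r + 1) → K) hT hT0 I.Lam
      (fun i => (pos i, c.s0')) (conL I m) (LamC I) (conL_Lam m) th I.L m0 hR.two hR.len hR.grow w
      z.X hcol (fun i hi => by rw [hz]; exact recX_pos hR w i hi) (by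
        refine lt_of_lt_of_le (lt_of_le_of_lt (frac_mono ?_) h) hg
        intro u hu hcon
        apply hu
        intro s'
        funext a
        exact hcon s' a)
  have h1 : ∀ j, conL I m (Level492.chain I.Lam w j) = 0 := by
    intro j
    have h2 : Level492.chain I.Lam w j = RevChain123.ys I.Lam.toAddMonoidHom w j :=
      Gap731.chain_eq_ys I.Lam w j
    rw [h2]
    have h3 := RevChain123.ys_map I.Lam.toAddMonoidHom (LamC I) (conL I m).toAddMonoidHom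
      (fun a => conL_Lam m a) w j
    refine h3.trans ?_
    have h4 : (conL I m).toAddMonoidHom w = 0 := h0
    rw [h4, RevChain123.ys_zero]
  intro p g a
  have h5 : conL I m (z.X p) = 0 := by
    rw [hz, Level492.recX, Finset.sum_apply, map_sum]
    refine Finset.sum_eq_zero fun i _ => ?_
    simp only [Level492.ten]
    rw [map_smul, h1, smul_zero]
  exact congrFun (congrFun h5 g) a

/-- GAP of a linear identity -/
theorem iz_gap [Nonempty I.Γ] [Nonempty I.T] (h : I.COK CG CT) {dG g : ℝ}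
    (hG : Gap731.UD (CG 1 : Set (I.Γ × c.S → K)) dG) (hg : g ≤ dG) {x : I.XW} (hx : XOK CG x)
    {i : c.A.Idl} (hi : (frac fun u : I.Γ × I.T => ¬ I.IZAt x i u) < g) : I.IZ x i := by
  have hm := h.evalW_mem hx (c.A.idl i) 1 (h.wf.idl_hom i)
  have h0 : (fun _ : Unit => I.evalW (c.A.idl i) x.2) = fun _ => 0 :=
    Gap731.gw_eq (G := I.Γ) (T := I.T) (S := c.S) (Ω := Unit) (CG := CG 1) hG (fun _ => hm)
      (fun _ => (CG 1).zero_mem) (by
        refine lt_of_lt_of_le (lt_of_le_of_lt (frac_mono ?_) hi) hg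
        intro u hu hcon
        exact hu fun _ s => hcon s)
  intro ω
  exact congrFun (congrFun h0 ()) ω

/-- GAP of the static claims -/
theorem st_gap [Nonempty I.Γ] [Nonempty I.T] (h : I.COK CG CT) {pos : ℕ → I.T} {th m0 : ℕ}
    (hR : I.ROK pos th m0) {dG dT g : ℝ} (hG : Gap731.UD (CG 1 : Set (I.Γ × c.S → K)) dG)
    (hT : Gap731.UD (CT 1 : Set (I.T × c.S' → K)) dT) (hT0 : 0 ≤ dT)
    (hg : g ≤ dT * ((th : ℝ) / Fintype.card I.Γ)) (hg' : g ≤ dG) {x : I.XW} (hx : XOK CG x)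
    {z : I.ZW} (hX : I.PWI (CG 4) (CT 1) z.X)
    (hz : z.X = Level492.recX I.Lam I.D (I.wv x.2) I.L)
    (hs : (frac fun u : I.Γ × I.T => ¬ I.StAt x z u) < g) : I.St x z := by
  refine ⟨fun m hm => cz_gap hR hT hT0 hg hX hz ?_, fun i hi => iz_gap h hG hg' hx ?_⟩
  · refine lt_of_le_of_lt (frac_mono ?_) hs
    exact fun u hu hcon => hu (hcon.1 m hm)
  · refine lt_of_le_of_lt (frac_mono ?_) hs
    exact fun u hu hcon => hu (hcon.2 i hi)

/-- a condition that does not depend on the unit -/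
theorem const_gap {U : Type} [Fintype U] [Nonempty U] {p : Prop} {g : ℝ} (hg : g ≤ 1)
    (h : (frac fun _ : U => ¬ p) < g) : p := by
  by_contra hp
  have h1 : (frac fun _ : U => ¬ p) = 1 := by
    have h2 : (fun _ : U => ¬ p) = fun _ => True := by
      funext _
      exact eq_true hp
    rw [h2]
    classical
    unfold frac
    rw [filter_true, card_univ]
    exact div_self (by exact_mod_cast Fintype.card_ne_zero)
  linarith

theorem en_gap [Nonempty I.Γ] [Nonempty I.T] (h : I.COK CG CT) {pos : ℕ → I.T} {th m0 : ℕ}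
    (hR : I.ROK pos th m0) {dG dT g : ℝ} (hG : Gap731.UD (CG 1 : Set (I.Γ × c.S → K)) dG)
    (hT : Gap731.UD (CT 1 : Set (I.T × c.S' → K)) dT) (hT0 : 0 ≤ dT)
    (hg : g ≤ dT * ((th : ℝ) / Fintype.card I.Γ)) (hg' : g ≤ dG) (hg1 : g ≤ 1) {x : I.XW}
    (hx : XOK CG x) {z : I.ZW} (hX : I.PWI (CG 4) (CT 1) z.X)
    (hz : z.X = Level492.recX I.Lam I.D (I.wv x.2) I.L) {ρ : c.A.Tr}
    (hs : (frac fun u : I.Γ × I.T => ¬ I.EnAt ρ x z u) < g) : I.En ρ x z := by
  have h0 : (frac fun _ : I.Γ × I.T => ¬ (x.1 = c.A.src ρ)) < g :=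
    frac_lt hs (fun u hu => hu.1) le_rfl
  refine ⟨const_gap hg1 h0, fun m hm => ?_, fun i hi => ?_⟩
  · have h1 : (frac fun u : I.Γ × I.T => ¬ I.CZAt z m u) < g :=
      frac_lt hs (fun u hu => hu.2.1 m hm) le_rfl
    exact cz_gap hR hT hT0 hg hX hz h1
  · have h1 : (frac fun u : I.Γ × I.T => ¬ I.IZAt x i u) < g :=
      frac_lt hs (fun u hu => hu.2.2 i hi) le_rfl
    exact iz_gap h hG hg' hx h1

theorem bk_gap [Nonempty I.Γ] [Nonempty I.T] (h : I.COK CG CT) {pos : ℕ → I.T} {th m0 : ℕ}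
    (hR : I.ROK pos th m0) {dG dT g : ℝ} (hG : Gap731.UD (CG 1 : Set (I.Γ × c.S → K)) dG)
    (hT : Gap731.UD (CT 1 : Set (I.T × c.S' → K)) dT) (hT0 : 0 ≤ dT)
    (hg : g ≤ dT * ((th : ℝ) / Fintype.card I.Γ)) (hg' : g ≤ dG) (hg1 : g ≤ 1) {x : I.XW}
    (hx : XOK CG x) {z : I.ZW} (hX : I.PWI (CG 4) (CT 1) z.X)
    (hz : z.X = Level492.recX I.Lam I.D (I.wv x.2) I.L) {ρ : c.A.Tr}
    (hs : (frac fun u : I.Γ × I.T => ¬ I.BkAt ρ x z u) < g) : I.Bk ρ x z := by
  have h0 : (frac fun _ : I.Γ × I.T => ¬ (x.1 = c.A.tgt ρ)) < g :=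
    frac_lt hs (fun u hu => hu.1) le_rfl
  refine ⟨const_gap hg1 h0, fun m hm => ?_, fun i hi => ?_⟩
  · have h1 : (frac fun u : I.Γ × I.T => ¬ I.CZAt z m u) < g :=
      frac_lt hs (fun u hu => hu.2.1 m hm) le_rfl
    exact cz_gap hR hT hT0 hg hX hz h1
  · have h1 : (frac fun u : I.Γ × I.T => ¬ I.IZAt x i u) < g :=
      frac_lt hs (fun u hu => hu.2.2 i hi) le_rfl
    exact iz_gap h hG hg' hx h1

/-- GAP of equality of content words -/
theorem x_gap [Nonempty I.Γ] [Nonempty I.T] {dG g : ℝ}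
    (hG : Gap731.UD (CG 1 : Set (I.Γ × c.S → K)) dG) (hg : g ≤ dG) (hg1 : g ≤ 1) {x y : I.XW}
    (hx : XOK CG x) (hy : XOK CG y) (h : (frac fun u : I.Γ × I.T => ¬ I.XAt x y u) < g) :
    x = y := by
  have h1 : (frac fun _ : I.Γ × I.T => ¬ (x.1 = y.1)) < g := by
    refine lt_of_le_of_lt (frac_mono ?_) h
    intro u hu hcon
    exact hu hcon.1
  have h2 : (frac fun u : I.Γ × I.T => ¬ ∀ (k : c.A.Reg) (s : c.S), x.2 k (u.1, s) = y.2 k (u.1, s))
      < dG := by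
    refine lt_of_lt_of_le (lt_of_le_of_lt (frac_mono ?_) h) hg
    intro u hu hcon
    exact hu hcon.2
  have e1 : x.1 = y.1 := const_gap hg1 h1
  have e2 : x.2 = y.2 := Gap731.gw_eq hG hx hy h2
  exact Prod.ext e1 e2

/-- GAP of equality of certificates -/
theorem z_gap [Nonempty I.Γ] {dG d1 d2 g : ℝ}
    (hG : Gap731.UD (CG 4 : Set (I.Γ × c.S → K)) dG)
    (hT1 : Gap731.UD (CT 1 : Set (I.T × c.S' → K)) d1) (h1 : 0 ≤ d1) (hg1 : g ≤ d1 * dG)
    (hT2 : Gap731.UD (CT 2 : Set (I.T × c.S' → K)) d2) (h2 : 0 ≤ d2) (hg2 : g ≤ d2 * dG)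
    {z z' : I.ZW} (hz : ZOK CG CT z) (hz' : ZOK CG CT z')
    (h : (frac fun u : I.Γ × I.T => ¬ I.ZAt z z' u) < g) : z = z' := by
  have k1 : (frac fun u : I.Γ × I.T => ¬ ∀ (_ : Unit) (s' : c.S') (s : c.S),
      z.X (u.2, s') (u.1, s) = z'.X (u.2, s') (u.1, s)) < d1 * dG :=
    frac_lt h (fun u hu _ => hu.1) hg1
  have k2 : (frac fun u : I.Γ × I.T => ¬ ∀ (_ : Unit) (s' : c.S') (s : c.S),
      z.Xm (u.2, s') (u.1, s) = z'.Xm (u.2, s') (u.1, s)) < d1 * dG :=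
    frac_lt h (fun u hu _ => hu.2.1) hg1
  have k3 : (frac fun u : I.Γ × I.T => ¬ ∀ (a : c.C) (s' : c.S') (s : c.S),
      z.Z a (u.2, s') (u.1, s) = z'.Z a (u.2, s') (u.1, s)) < d2 * dG :=
    frac_lt h (fun u hu => hu.2.2.1) hg2
  have k4 : (frac fun u : I.Γ × I.T => ¬ ∀ (a : c.C) (s' : c.S') (s : c.S),
      z.Zm a (u.2, s') (u.1, s) = z'.Zm a (u.2, s') (u.1, s)) < d2 * dG :=
    frac_lt h (fun u hu => hu.2.2.2) hg2
  have e1 : (fun _ : Unit => z.X) = fun _ => z'.X :=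
    pwi_eq hG hT1 h1 (fun _ => hz.X) (fun _ => hz'.X) k1
  have e2 : (fun _ : Unit => z.Xm) = fun _ => z'.Xm :=
    pwi_eq hG hT1 h1 (fun _ => hz.Xm) (fun _ => hz'.Xm) k2
  have e3 : z.Z = z'.Z := pwi_eq hG hT2 h2 hz.Z hz'.Z k3
  have e4 : z.Zm = z'.Zm := pwi_eq hG hT2 h2 hz.Zm hz'.Zm k4
  exact ZW.ext (congrFun e1 ()) (congrFun e2 ()) e3 e4

end Ins

end Crest.Agent.R289.DefI
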