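import Crest.Agent.R288.PtDp_115

/-!
# R289, block E: linear algebra over a finite field in polynomial time (helper115)

`K` a finite field with any code `[PTCode K]` (e.g. `codeK K`).

* `PTF.kadd, ksub, kmul, kneg, kinv, kpow` : field operations of PTF maps.
* `ptf_sumK` : `∑ i ∈ range (n a), f a i` in `K`.
* `tabK n f`, `getK t i`, `get2K t W i j` : tables of field elements.
* `kern n m A : List K` : a table `n × n` whose rows span
  `{x : ∀ c < m, ∑ j < n, A c j * x j = 0}` (`mem_kern_iff`), `ptf_kern`.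
* `sol n m A l : List K` : if some `x` in this space has `x l ≠ 0` then `sol` is such a vector
  with `sol l = 1` (`sol_spec`), `ptf_sol`.
* `solve n m A b` : a solution of `∑ j < n, A c j * x j = b c`, `c < m`, if there is one
  (`solve_spec`), `ptf_solve`.
-/

set_option autoImplicit false
set_option linter.dupNamespace false

namespace Crest.Agent.R289.Gauss115

open Crest.Agent.Lib.PT Crest.Agent.Lib.PT.Arith Crest.Agent.R288.PtDp115

/-- a code for a finite type -/
@[reducible] noncomputable def codeK (K : Type) [Finite K] : PTCode K :=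
  letI := Fintype.ofFinite K
  PTCode.ofInj (fun x : K => ((Fintype.equivFin K x : Fin _) : ℕ))
    (fun _ _ h => (Fintype.equivFin K).injective (Fin.ext h))

theorem exists_sz_le (K : Type) [Finite K] [PTCode K] : ∃ C : ℕ, ∀ x : K, sz x ≤ C := by
  classical
  let _ := Fintype.ofFinite K
  exact ⟨(Finset.univ : Finset K).sup (fun x => sz x),
    fun x => Finset.le_sup (f := fun x : K => sz x) (Finset.mem_univ x)⟩

section field

variable {K : Type} [Field K] [Finite K] [PTCode K]
variable {α β : Type} [PTCode α] [PTCode β]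

theorem ptf_kadd {f g : α → K} (hf : PTF f) (hg : PTF g) : PTF (fun a => f a + g a) :=
  PTF.comp (g := fun p : K × K => p.1 + p.2) (f := fun a => (f a, g a)) (PTF.of_finite _)
    (PTF.prodMk hf hg)

theorem ptf_ksub {f g : α → K} (hf : PTF f) (hg : PTF g) : PTF (fun a => f a - g a) :=
  PTF.comp (g := fun p : K × K => p.1 - p.2) (f := fun a => (f a, g a)) (PTF.of_finite _)
    (PTF.prodMk hf hg)

theorem ptf_kmul {f g : α → K} (hf : PTF f) (hg : PTF g) : PTF (fun a => f a * g a) :=
  PTF.comp (g := fun p : K × K => p.1 * p.2) (f := fun a => (f a, g a)) (PTF.of_finite _)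
    (PTF.prodMk hf hg)

theorem ptf_kneg {f : α → K} (hf : PTF f) : PTF (fun a => - f a) :=
  PTF.comp (g := fun p : K => -p) (f := f) (PTF.of_finite _) hf

theorem ptf_kinv {f : α → K} (hf : PTF f) : PTF (fun a => (f a)⁻¹) :=
  PTF.comp (g := fun p : K => p⁻¹) (f := f) (PTF.of_finite _) hf

theorem ptf_kpow {f : α → K} (hf : PTF f) (k : ℕ) : PTF (fun a => f a ^ k) :=
  PTF.comp (g := fun p : K => p ^ k) (f := f) (PTF.of_finite _) hf

omit [Finite K] in
theorem ptpred_kzero {f : α → K} (hf : PTF f) : PTPred (fun a => f a = 0) :=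
  PTPred.eq hf (PTF.const 0)

theorem ptf_sumK {n : α → ℕ} {f : α → ℕ → K} (hn : PTU n)
    (hf : PTF (fun p : α × ℕ => f p.1 p.2)) :
    PTF (fun a => ∑ i ∈ Finset.range (n a), f a i) := by
  obtain ⟨C, hC⟩ := exists_sz_le K
  refine ptf_natRec (r := fun a i => ∑ j ∈ Finset.range i, f a j) (s := fun a i t => t + f a i)
    hn (PTF.const 0) ?_ (fun a => by simp) (fun a i _ => Finset.sum_range_succ _ _)
    (B := fun _ => C) (by fun_prop) (fun a i _ => hC _)
  exact ptf_kadd (by fun_prop) (PTF.comp (g := fun p : α × ℕ => f p.1 p.2)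
      (f := fun p : α × ℕ × K => (p.1, p.2.1)) hf (by fun_prop))

theorem ptf_prodK {n : α → ℕ} {f : α → ℕ → K} (hn : PTU n)
    (hf : PTF (fun p : α × ℕ => f p.1 p.2)) :
    PTF (fun a => ∏ i ∈ Finset.range (n a), f a i) := by
  obtain ⟨C, hC⟩ := exists_sz_le K
  refine ptf_natRec (r := fun a i => ∏ j ∈ Finset.range i, f a j) (s := fun a i t => t * f a i)
    hn (PTF.const 1) ?_ (fun a => by simp) (fun a i _ => Finset.prod_range_succ _ _)
    (B := fun _ => C) (by fun_prop) (fun a i _ => hC _)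
  exact ptf_kmul (by fun_prop) (PTF.comp (g := fun p : α × ℕ => f p.1 p.2)
      (f := fun p : α × ℕ × K => (p.1, p.2.1)) hf (by fun_prop))

/-! ### tables of field elements -/

/-- the table of `f` on `i < n` -/
def tabK (n : ℕ) (f : ℕ → K) : List K := (List.range n).map f

/-- total reading -/
def getK (t : List K) (i : ℕ) : K := t.getD i 0

omit [Field K] [Finite K] [PTCode K] in
theorem length_tabK (n : ℕ) (f : ℕ → K) : (tabK n f).length = n := by simp [tabK]

omit [Finite K] [PTCode K] in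
theorem getK_tabK {n : ℕ} (f : ℕ → K) {i : ℕ} (h : i < n) : getK (tabK n f) i = f i := by
  simp [getK, tabK, List.getD_eq_getElem?_getD, h]

omit [Finite K] in
theorem ptf_getK {t : α → List K} {i : α → ℕ} (ht : PTF t) (hi : PTF i) :
    PTF (fun a => getK (t a) (i a)) := ptf_getB ht hi (PTF.const 0)

omit [Field K] [Finite K] in
theorem ptf_tabK {n : α → ℕ} {f : α → ℕ → K} (hn : PTU n)
    (hf : PTF (fun p : α × ℕ => f p.1 p.2)) : PTF (fun a => tabK (n a) (f a)) :=
  PTF.tabulate hn hf

/-- the table of `f i j`, `i < n`, `j < W`, at `i * W + j` -/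
def tab2K (n W : ℕ) (f : ℕ → ℕ → K) : List K := tabK (n * W) (fun k => f (k / W) (k % W))

/-- reading of a table with rows of length `W` -/
def get2K (t : List K) (W i j : ℕ) : K := getK t (i * W + j)

omit [Field K] [Finite K] [PTCode K] in
theorem length_tab2K (n W : ℕ) (f : ℕ → ℕ → K) : (tab2K n W f).length = n * W := by
  simp [tab2K, tabK]

omit [Finite K] [PTCode K] in
theorem get2K_tab2K {n W : ℕ} (f : ℕ → ℕ → K) {i j : ℕ} (hi : i < n) (hj : j < W) :
    get2K (tab2K n W f) W i j = f i j := by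
  unfold get2K tab2K
  rw [getK_tabK _ (idx_lt hi hj), idx_div hj, idx_mod hj]

omit [Finite K] in
theorem ptf_get2K {t : α → List K} {W i j : α → ℕ} (ht : PTF t) (hW : PTF W) (hi : PTF i)
    (hj : PTF j) : PTF (fun a => get2K (t a) (W a) (i a) (j a)) :=
  ptf_getK ht (PTF.natAdd (PTF.natMul hi hW) hj)

omit [Field K] [Finite K] in
theorem ptf_tab2K {n W : α → ℕ} {f : α → ℕ → ℕ → K} (hn : PTU n) (hW : PTU W)
    (hf : PTF (fun p : α × ℕ × ℕ => f p.1 p.2.1 p.2.2)) :
    PTF (fun a => tab2K (n a) (W a) (f a)) := by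
  refine ptf_tabK (f := fun a k => f a (k / W a) (k % W a)) (PTU.mul hn hW) ?_
  have hW' : PTF (fun p : α × ℕ => W p.1) := PTF.comp (g := W) hW.toPTF PTF.fst
  exact PTF.comp (g := fun p : α × ℕ × ℕ => f p.1 p.2.1 p.2.2)
    (f := fun p : α × ℕ => (p.1, p.2 / W p.1, p.2 % W p.1)) hf
    (PTF.prodMk PTF.fst (PTF.prodMk (PTF.natDiv PTF.snd hW') (PTF.natMod PTF.snd hW')))

/-! ### the first index with a non-zero value -/

open Classical in
/-- an index `< n` with `v i ≠ 0`, if there is one -/
noncomputable def piv (n : ℕ) (v : ℕ → K) : ℕ := argR n (fun i => if v i = 0 then 1 else 0)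

omit [Finite K] [PTCode K] in
theorem piv_le (n : ℕ) (v : ℕ → K) : piv n v ≤ n := argR_le_n _ _

omit [Finite K] [PTCode K] in
theorem piv_spec {n : ℕ} {v : ℕ → K} {i : ℕ} (hi : i < n) (h : v i ≠ 0) :
    piv n v < n ∧ v (piv n v) ≠ 0 := by
  classical
  refine ⟨argR_lt _ (by omega), fun h0 => ?_⟩
  have := argR_min (fun i => if v i = 0 then 1 else 0) hi
  simp only [h, if_false] at this
  have h1 : (if v (argR n fun i => if v i = 0 then 1 else 0) = 0 then 1 else 0) = 1 :=
    if_pos h0
  unfold piv at h0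
  omega

theorem ptf_piv {n : α → ℕ} {v : α → ℕ → K} (hn : PTU n)
    (hv : PTF (fun p : α × ℕ => v p.1 p.2)) : PTF (fun a => piv (n a) (v a)) := by
  classical
  unfold piv
  exact ptf_argR hn (PTF.ite (ptpred_kzero hv) (PTF.const 1) (PTF.const 0))

/-! ### the elimination step -/

/-- `∑ j < n, r j * (row i of t)_j` -/
def dot (n : ℕ) (r : ℕ → K) (t : List K) (i : ℕ) : K :=
  ∑ j ∈ Finset.range n, r j * get2K t n i j

theorem ptf_dot {n i : α → ℕ} {r : α → ℕ → K} {t : α → List K} (hn : PTU n)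
    (hr : PTF (fun p : α × ℕ => r p.1 p.2)) (ht : PTF t) (hi : PTF i) :
    PTF (fun a => dot (n a) (r a) (t a) (i a)) := by
  unfold dot
  refine ptf_sumK hn (ptf_kmul hr (ptf_get2K ?_ ?_ ?_ PTF.snd))
  · exact PTF.comp (g := t) ht PTF.fst
  · exact PTF.comp (g := n) hn.toPTF PTF.fst
  · exact PTF.comp (g := i) hi PTF.fst

/-- impose one more equation `∑ j < n, r j * x j = 0` on the row span of `t` -/
noncomputable def step (n : ℕ) (r : ℕ → K) (t : List K) : List K :=
  tab2K n n (fun i j => get2K t n i j -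
    dot n r t i * (dot n r t (piv n (dot n r t)))⁻¹ * get2K t n (piv n (dot n r t)) j)

theorem ptf_step {n : α → ℕ} {r : α → ℕ → K} {t : α → List K} (hn : PTU n)
    (hr : PTF (fun p : α × ℕ => r p.1 p.2)) (ht : PTF t) :
    PTF (fun a => step (n a) (r a) (t a)) := by
  have hd : PTF (fun p : α × ℕ => dot (n p.1) (r p.1) (t p.1) p.2) := by
    refine ptf_dot (n := fun p : α × ℕ => n p.1) (i := fun p => p.2)
      (r := fun p => r p.1) (t := fun p => t p.1) (PTU.comp hn PTF.fst) ?_
      (PTF.comp (g := t) ht PTF.fst) PTF.snd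
    exact PTF.comp (g := fun p : α × ℕ => r p.1 p.2)
      (f := fun p : (α × ℕ) × ℕ => (p.1.1, p.2)) hr (by fun_prop)
  have hp : PTF (fun a => piv (n a) (dot (n a) (r a) (t a))) := ptf_piv hn hd
  have hdp : PTF (fun a => dot (n a) (r a) (t a) (piv (n a) (dot (n a) (r a) (t a)))) :=
    PTF.comp (g := fun p : α × ℕ => dot (n p.1) (r p.1) (t p.1) p.2)
      (f := fun a => (a, piv (n a) (dot (n a) (r a) (t a)))) hd (PTF.prodMk PTF.id hp)
  unfold step
  refine ptf_tab2K hn hn ?_
  have hn' : PTF (fun p : α × ℕ × ℕ => n p.1) := PTF.comp (g := n) hn.toPTF PTF.fst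
  have ht' : PTF (fun p : α × ℕ × ℕ => t p.1) := PTF.comp (g := t) ht PTF.fst
  refine ptf_ksub (ptf_get2K ht' hn' (by fun_prop) (by fun_prop)) (ptf_kmul (ptf_kmul ?_ ?_)
    (ptf_get2K ht' hn' ?_ (by fun_prop)))
  · exact PTF.comp (g := fun p : α × ℕ => dot (n p.1) (r p.1) (t p.1) p.2)
      (f := fun p : α × ℕ × ℕ => (p.1, p.2.1)) hd (by fun_prop)
  · exact ptf_kinv (PTF.comp (g := fun a =>
      dot (n a) (r a) (t a) (piv (n a) (dot (n a) (r a) (t a)))) hdp PTF.fst)
  · exact PTF.comp (g := fun a => piv (n a) (dot (n a) (r a) (t a))) hp PTF.fst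

/-- row span of an `n × n` table -/
def InSpan (n : ℕ) (t : List K) (x : ℕ → K) : Prop :=
  ∃ c : ℕ → K, ∀ j, j < n → x j = ∑ i ∈ Finset.range n, c i * get2K t n i j

omit [Finite K] [PTCode K] in
theorem get2K_step {n : ℕ} {r : ℕ → K} {t : List K} {i j : ℕ} (hi : i < n) (hj : j < n) :
    get2K (step n r t) n i j = get2K t n i j -
    dot n r t i * (dot n r t (piv n (dot n r t)))⁻¹ * get2K t n (piv n (dot n r t)) j :=
  get2K_tab2K _ hi hj

omit [Finite K] [PTCode K] in
theorem dot_comb {n : ℕ} {r c x : ℕ → K} {t : List K}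
    (h : ∀ j, j < n → x j = ∑ i ∈ Finset.range n, c i * get2K t n i j) :
    ∑ j ∈ Finset.range n, r j * x j = ∑ i ∈ Finset.range n, c i * dot n r t i := by
  have h1 : ∑ j ∈ Finset.range n, r j * x j
      = ∑ j ∈ Finset.range n, ∑ i ∈ Finset.range n, c i * (r j * get2K t n i j) := by
    refine Finset.sum_congr rfl (fun j hj => ?_)
    rw [h j (Finset.mem_range.1 hj), Finset.mul_sum]
    exact Finset.sum_congr rfl (fun i _ => by ring)
  rw [h1, Finset.sum_comm]
  refine Finset.sum_congr rfl (fun i _ => ?_)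
  unfold dot
  rw [Finset.mul_sum]

omit [Finite K] [PTCode K] in
theorem step_span {n : ℕ} {r : ℕ → K} {t : List K} {x : ℕ → K} :
    InSpan n (step n r t) x ↔ InSpan n t x ∧ ∑ j ∈ Finset.range n, r j * x j = 0 := by
  classical
  set d := dot n r t with hd
  set p := piv n d with hp
  have hz : (∀ i, i < n → d i = 0) ∨ (p < n ∧ d p ≠ 0) := by
    by_cases h : ∀ i, i < n → d i = 0
    · exact Or.inl h
    · push Not at h
      obtain ⟨i, hi, h⟩ := h
      exact Or.inr (piv_spec hi h)
  constructor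
  · rintro ⟨c, hc⟩
    -- the combination in terms of the old rows
    have hx : ∀ j, j < n → x j = ∑ i ∈ Finset.range n, c i * get2K t n i j
        - (∑ i ∈ Finset.range n, c i * d i) * (d p)⁻¹ * get2K t n p j := by
      intro j hj
      rw [hc j hj, Finset.sum_mul, Finset.sum_mul, ← Finset.sum_sub_distrib]
      refine Finset.sum_congr rfl (fun i hi => ?_)
      rw [get2K_step (Finset.mem_range.1 hi) hj, ← hd, ← hp]
      ring
    rcases hz with h0 | ⟨hpn, hpd⟩
    · have h1 : ∑ i ∈ Finset.range n, c i * d i = 0 :=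
        Finset.sum_eq_zero (fun i hi => by rw [h0 i (Finset.mem_range.1 hi), mul_zero])
      have h2 : ∀ j, j < n → x j = ∑ i ∈ Finset.range n, c i * get2K t n i j := by
        intro j hj
        rw [hx j hj, h1]
        ring
      refine ⟨⟨c, h2⟩, ?_⟩
      rw [dot_comb h2]
      exact h1
    · set e : K := (∑ i ∈ Finset.range n, c i * d i) * (d p)⁻¹ with he
      have h2 : ∀ j, j < n → x j
          = ∑ i ∈ Finset.range n, (c i - if i = p then e else 0) * get2K t n i j := by
        intro j hj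
        rw [hx j hj]
        simp only [sub_mul, Finset.sum_sub_distrib, ite_mul, zero_mul,
          Finset.sum_ite_eq', Finset.mem_range, if_pos hpn]
      refine ⟨⟨_, h2⟩, ?_⟩
      rw [dot_comb h2]
      simp only [← hd, sub_mul, Finset.sum_sub_distrib, ite_mul, zero_mul,
          Finset.sum_ite_eq', Finset.mem_range, if_pos hpn]
      rw [he, mul_assoc, inv_mul_cancel₀ hpd, mul_one, sub_self]
  · rintro ⟨⟨c, hc⟩, h0⟩
    refine ⟨c, fun j hj => ?_⟩
    rw [dot_comb hc] at h0
    have h1 : ∑ i ∈ Finset.range n, c i * get2K (step n r t) n i j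
        = ∑ i ∈ Finset.range n, c i * get2K t n i j
        - (∑ i ∈ Finset.range n, c i * d i) * (d p)⁻¹ * get2K t n p j := by
      rw [Finset.sum_mul, Finset.sum_mul, ← Finset.sum_sub_distrib]
      refine Finset.sum_congr rfl (fun i hi => ?_)
      rw [get2K_step (Finset.mem_range.1 hi) hj, ← hd, ← hp]
      ring
    rw [h1, ← hd] at *
    rw [h0]
    rw [hc j hj]
    ring

/-! ### the kernel -/

open Classical in
/-- identity table -/
noncomputable def idT (K : Type) [Field K] (n : ℕ) : List K :=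
  tab2K n n (fun i j => if i = j then 1 else 0)

/-- a table `n × n` whose rows span the kernel of the `m × n` matrix `A` -/
noncomputable def kern (n : ℕ) (A : ℕ → ℕ → K) : ℕ → List K
  | 0 => idT K n
  | m + 1 => step n (A m) (kern n A m)

omit [Finite K] [PTCode K] in
theorem inSpan_idT (n : ℕ) (x : ℕ → K) : InSpan n (idT K n) x := by
  classical
  refine ⟨x, fun j hj => ?_⟩
  have h : ∀ i ∈ Finset.range n, x i * get2K (idT K n) n i j = if i = j then x j else 0 := by
    intro i hi
    unfold idT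
    rw [get2K_tab2K _ (Finset.mem_range.1 hi) hj]
    by_cases hij : i = j
    · subst hij; simp
    · simp [hij]
  rw [Finset.sum_congr rfl h]
  simp [hj]

omit [Finite K] [PTCode K] in
theorem mem_kern_iff {n m : ℕ} {A : ℕ → ℕ → K} {x : ℕ → K} :
    InSpan n (kern n A m) x ↔ ∀ c, c < m → ∑ j ∈ Finset.range n, A c j * x j = 0 := by
  induction m with
  | zero => exact ⟨fun _ c hc => absurd hc (Nat.not_lt_zero c), fun _ => inSpan_idT n x⟩
  | succ m ih =>
    show InSpan n (step n (A m) (kern n A m)) x ↔ _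
    rw [step_span, ih]
    constructor
    · rintro ⟨h1, h2⟩ c hc
      rcases Nat.lt_succ_iff_lt_or_eq.1 hc with h | h
      · exact h1 c h
      · rw [h]; exact h2
    · intro h
      exact ⟨fun c hc => h c (by omega), h m (by omega)⟩

omit [Finite K] [PTCode K] in
theorem length_kern (n m : ℕ) (A : ℕ → ℕ → K) : (kern n A m).length = n * n := by
  cases m with
  | zero =>
    show (tab2K n n (fun i j => if i = j then (1 : K) else 0)).length = n * n
    exact length_tab2K _ _ _
  | succ m =>
    show (step n (A m) (kern n A m)).length = n * n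
    unfold step
    exact length_tab2K _ _ _

omit [Finite K] [PTCode K] in
/-- each row of the table is in the kernel -/
theorem row_kern {n m : ℕ} {A : ℕ → ℕ → K} {i : ℕ} (hi : i < n) {c : ℕ} (hc : c < m) :
    ∑ j ∈ Finset.range n, A c j * get2K (kern n A m) n i j = 0 := by
  classical
  refine (mem_kern_iff (m := m) (x := fun j => get2K (kern n A m) n i j)).1
    ⟨fun k => if k = i then 1 else 0, fun j hj => ?_⟩ c hc
  simp [hi]

theorem ptf_kern {n m : α → ℕ} {A : α → ℕ → ℕ → K} (hn : PTU n) (hm : PTU m)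
    (hA : PTF (fun p : α × ℕ × ℕ => A p.1 p.2.1 p.2.2)) :
    PTF (fun a => kern (n a) (A a) (m a)) := by
  classical
  obtain ⟨C, hC⟩ := exists_sz_le K
  refine ptf_natRec (r := fun a i => kern (n a) (A a) i) (s := fun a i t => step (n a) (A a i) t)
    (b := fun a => idT K (n a)) hm ?_ ?_ (fun a => rfl) (fun a i _ => rfl)
    (B := fun a => n a * n a * (2 * C + 1)) ?_ (fun a i _ => ?_)
  · unfold idT
    exact ptf_tab2K hn hn (PTF.ite (PTPred.natEq (by fun_prop) (by fun_prop)) (PTF.const 1)
      (PTF.const 0))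
  · refine ptf_step (n := fun p : α × ℕ × List K => n p.1) (r := fun p => A p.1 p.2.1)
      (t := fun p => p.2.2) (PTU.comp hn PTF.fst) ?_ (by fun_prop)
    exact PTF.comp (g := fun p : α × ℕ × ℕ => A p.1 p.2.1 p.2.2)
      (f := fun p : (α × ℕ × List K) × ℕ => (p.1.1, p.1.2.1, p.2)) hA (by fun_prop)
  · have h1 := hn.pb
    fun_prop
  · refine (sz_list_le (m := C) (fun x _ => hC x)).trans ?_
    rw [length_kern]

/-! ### a vector of the kernel with a prescribed non-zero coordinate -/

/-- a vector of the kernel with coordinate `l` equal to `1`, if there is one -/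
noncomputable def sol (n m : ℕ) (A : ℕ → ℕ → K) (l : ℕ) : List K :=
  let t := kern n A m
  let p := piv n (fun i => get2K t n i l)
  tabK n (fun j => get2K t n p j * (get2K t n p l)⁻¹)

omit [Finite K] [PTCode K] in
theorem length_sol (n m : ℕ) (A : ℕ → ℕ → K) (l : ℕ) : (sol n m A l).length = n :=
  length_tabK _ _

omit [Finite K] [PTCode K] in
theorem sol_spec {n m : ℕ} {A : ℕ → ℕ → K} {l : ℕ} (hl : l < n) {x : ℕ → K}
    (hx : ∀ c, c < m → ∑ j ∈ Finset.range n, A c j * x j = 0) (hxl : x l ≠ 0) :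
    (∀ c, c < m → ∑ j ∈ Finset.range n, A c j * getK (sol n m A l) j = 0) ∧
      getK (sol n m A l) l = 1 := by
  obtain ⟨c, hc⟩ := mem_kern_iff.2 hx
  set t := kern n A m with ht
  have h1 : ∃ i, i < n ∧ get2K t n i l ≠ 0 := by
    by_contra hcon
    push Not at hcon
    apply hxl
    rw [hc l hl]
    exact Finset.sum_eq_zero (fun i hi => by rw [hcon i (Finset.mem_range.1 hi), mul_zero])
  obtain ⟨i, hi, hi0⟩ := h1
  obtain ⟨hp, hp0⟩ := piv_spec (v := fun i => get2K t n i l) hi hi0
  set p := piv n (fun i => get2K t n i l) with hpdef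
  have hg : ∀ j, j < n → getK (sol n m A l) j = get2K t n p j * (get2K t n p l)⁻¹ := by
    intro j hj
    exact getK_tabK _ hj
  refine ⟨fun c hc => ?_, ?_⟩
  · have h2 : ∑ j ∈ Finset.range n, A c j * getK (sol n m A l) j
        = (∑ j ∈ Finset.range n, A c j * get2K t n p j) * (get2K t n p l)⁻¹ := by
      rw [Finset.sum_mul]
      exact Finset.sum_congr rfl (fun j hj => by rw [hg j (Finset.mem_range.1 hj)]; ring)
    rw [h2, ht, row_kern hp hc, zero_mul]
  · rw [hg l hl]
    exact mul_inv_cancel₀ hp0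

theorem ptf_sol {n m l : α → ℕ} {A : α → ℕ → ℕ → K} (hn : PTU n) (hm : PTU m)
    (hA : PTF (fun p : α × ℕ × ℕ => A p.1 p.2.1 p.2.2)) (hl : PTF l) :
    PTF (fun a => sol (n a) (m a) (A a) (l a)) := by
  have hk := ptf_kern hn hm hA
  have hp : PTF (fun a => piv (n a) (fun i => get2K (kern (n a) (A a) (m a)) (n a) i (l a))) := by
    refine ptf_piv hn (ptf_get2K ?_ ?_ PTF.snd ?_)
    · exact PTF.comp (g := fun a => kern (n a) (A a) (m a)) hk PTF.fst
    · exact PTF.comp (g := n) hn.toPTF PTF.fst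
    · exact PTF.comp (g := l) hl PTF.fst
  unfold sol
  have hk' : PTF (fun p : α × ℕ => kern (n p.1) (A p.1) (m p.1)) :=
    PTF.comp (g := fun a => kern (n a) (A a) (m a)) hk PTF.fst
  have hn' : PTF (fun p : α × ℕ => n p.1) := PTF.comp (g := n) hn.toPTF PTF.fst
  have hp' : PTF (fun p : α × ℕ => piv (n p.1)
      (fun i => get2K (kern (n p.1) (A p.1) (m p.1)) (n p.1) i (l p.1))) :=
    PTF.comp (g := fun a => piv (n a) (fun i => get2K (kern (n a) (A a) (m a)) (n a) i (l a)))
      hp PTF.fst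
  exact ptf_tabK hn (ptf_kmul (ptf_get2K hk' hn' hp' PTF.snd)
    (ptf_kinv (ptf_get2K hk' hn' hp' (PTF.comp (g := l) hl PTF.fst))))

/-! ### inhomogeneous systems -/

open Classical in
/-- a solution of `∑ j < n, A c j * x j = b c`, `c < m`, if there is one -/
noncomputable def solve (n m : ℕ) (A : ℕ → ℕ → K) (b : ℕ → K) : List K :=
  sol (n + 1) m (fun c j => if j < n then A c j else - b c) n

omit [Finite K] [PTCode K] in
theorem solve_spec {n m : ℕ} {A : ℕ → ℕ → K} {b : ℕ → K} {x : ℕ → K}
    (hx : ∀ c, c < m → ∑ j ∈ Finset.range n, A c j * x j = b c) :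
    ∀ c, c < m → ∑ j ∈ Finset.range n, A c j * getK (solve n m A b) j = b c := by
  classical
  have hsum : ∀ (c : ℕ) (y : ℕ → K), ∑ j ∈ Finset.range (n + 1),
      (if j < n then A c j else - b c) * y j
      = ∑ j ∈ Finset.range n, A c j * y j - b c * y n := by
    intro c y
    rw [Finset.sum_range_succ, if_neg (lt_irrefl n)]
    rw [Finset.sum_congr rfl (fun j hj => by rw [if_pos (Finset.mem_range.1 hj)])]
    ring
  have h := sol_spec (n := n + 1) (m := m) (A := fun c j => if j < n then A c j else - b c)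
    (l := n) (Nat.lt_succ_self n) (x := fun j => if j < n then x j else 1) (fun c hc => by
      rw [hsum, if_neg (lt_irrefl n), mul_one, sub_eq_zero, ← hx c hc]
      exact Finset.sum_congr rfl (fun j hj => by rw [if_pos (Finset.mem_range.1 hj)]))
    (by simp)
  intro c hc
  have h1 := h.1 c hc
  rw [hsum, h.2, mul_one, sub_eq_zero] at h1
  exact h1

theorem ptf_solve {n m : α → ℕ} {A : α → ℕ → ℕ → K} {b : α → ℕ → K} (hn : PTU n) (hm : PTU m)
    (hA : PTF (fun p : α × ℕ × ℕ => A p.1 p.2.1 p.2.2))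
    (hb : PTF (fun p : α × ℕ => b p.1 p.2)) :
    PTF (fun a => solve (n a) (m a) (A a) (b a)) := by
  classical
  unfold solve
  refine ptf_sol (PTU.add hn (PTU.const 1)) hm ?_ hn.toPTF
  refine PTF.ite (PTPred.natLt (by fun_prop) (PTF.comp (g := n) hn.toPTF PTF.fst)) hA
    (ptf_kneg (PTF.comp (g := fun p : α × ℕ => b p.1 p.2)
      (f := fun p : α × ℕ × ℕ => (p.1, p.2.1)) hb (by fun_prop)))

end field

end Crest.Agent.R289.Gauss115
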