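import Crest.Agent.R289.GkPTF_726

/-!
# R289, block E (E23): elements, square roots, inverses and Cayley tables over `GkPTF_726`

* `PTR.of_unique`: a family which is characterised by a polynomial-time test is `PTR`
* `sq_inj`, `PTR.sqrt`: square roots with constant term `1` (odd characteristic) are `PTR`
* `PTR.inv`: inverses are `PTR`
* `PTG`: families of elements of `P_k = U hσ k 1`; closed under product, inverse, powers;
  `PTG.eqP`, `ptf_rtab`, `ptf_ltab` (tables of the right / left Cayley graph)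
* `cayley_lt`, `cayley_sym`, `cayley_conn`: the hypotheses of `Tour594.tour_spec`, `Ham613.ham_spec`,
  `Bfs594.bfs_spec` for the left and right Cayley graph of a generating family.
-/

set_option autoImplicit false
set_option linter.dupNamespace false
set_option linter.unusedSectionVars false

namespace Crest.Agent.R289.GkPTF726

open Crest.Agent.Lib.PT Crest.Agent.Lib.PT.Arith Crest.Agent.R288.PtDp115
open Crest.Agent.R289.GkIdx594 Crest.Agent.R289.Gauss115
open Crest.Agent.R289.SkewGrp877 (R c mk conj mono SG U)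

/-! ### characterised elements -/

section unique

variable {K : Type} [Field K] [Finite K] [Inhabited K] [PTCode K]
variable {α : Type} [PTCode α] {σ : K →+* K} {k : α → ℕ}

theorem PTR.of_unique (hk : PTU k) (hQ : PTU (fun a => qK K ^ (k a + 1)))
    {g : ∀ a, R σ (k a)} {p : α → ℕ → Bool} (hp : PTF (fun q : α × ℕ => p q.1 q.2))
    (h1 : ∀ a, p a (GkPTF726.enc (g a)) = true)
    (h2 : ∀ a (f : R σ (k a)), p a (GkPTF726.enc f) = true → f = g a) :
    PTR σ k g :=
  (PTR.pick hk hQ hp).of_eq fun a => h2 a _ (pick_spec ⟨g a, h1 a⟩)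

/-- the same with a predicate on the ring: `P` is given on the pairs `(a, i)` through `den` -/
theorem PTR.of_unique' (hk : PTU k) (hQ : PTU (fun a => qK K ^ (k a + 1)))
    {g : ∀ a, R σ (k a)} {P : ∀ a, R σ (k a) → Prop}
    (hP : PTPred (fun q : α × ℕ => P q.1 (GkPTF726.den σ (k q.1) q.2)))
    (h1 : ∀ a, P a (g a)) (h2 : ∀ a (f : R σ (k a)), P a f → f = g a) : PTR σ k g := by
  classical
  refine PTR.of_unique hk hQ (p := fun a i => decide (P a (GkPTF726.den σ (k a) i))) ?_ ?_ ?_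
  · refine hP.toPTF.of_eq fun q => ?_
    congr
  · intro a
    rw [decide_eq_true_iff, den_enc]
    exact h1 a
  · intro a f hf
    rw [decide_eq_true_iff, den_enc] at hf
    exact h2 a f hf

end unique

/-! ### square roots -/

section sqrt

theorem sq_inj {K : Type} [Field K] {σ : K →+* K} {k : ℕ} (h2 : (2 : K) ≠ 0) {f g : R σ k}
    (hf : c f 0 = 1) (hg : c g 0 = 1) (h : f * f = g * g) : f = g := by
  have key : ∀ n, c f n = c g n := by
    intro n
    induction n using Nat.strong_induction_on with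
    | _ n ih =>
      rcases Nat.eq_zero_or_pos n with rfl | hn
      · rw [hf, hg]
      · by_cases hk : n ≤ k
        · have h3 : c (f * f) n = c (g * g) n := by rw [h]
          rw [SkewGrp877.c_mul _ _ hk, SkewGrp877.c_mul _ _ hk,
            Finset.Nat.sum_antidiagonal_eq_sum_range_succ
              (fun i j => c f i * (σ ^ i) (c f j)),
            Finset.Nat.sum_antidiagonal_eq_sum_range_succ
              (fun i j => c g i * (σ ^ i) (c g j))] at h3
          obtain ⟨m, rfl⟩ : ∃ m, n = m + 1 := ⟨n - 1, by omega⟩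
          have hS : ∀ F : ℕ → K, ∑ i ∈ Finset.range (m + 1).succ, F i =
              ∑ i ∈ Finset.range m, F (i + 1) + F 0 + F (m + 1) := by
            intro F
            rw [Finset.sum_range_succ, Finset.sum_range_succ']
          rw [hS, hS] at h3
          have h4 : ∀ i ∈ Finset.range m, c f (i + 1) * (σ ^ (i + 1)) (c f (m + 1 - (i + 1))) =
              c g (i + 1) * (σ ^ (i + 1)) (c g (m + 1 - (i + 1))) := by
            intro i hi
            rw [Finset.mem_range] at hi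
            rw [ih (i + 1) (by omega), ih (m + 1 - (i + 1)) (by omega)]
          rw [Finset.sum_congr rfl h4] at h3
          simp only [Nat.sub_self, hf, hg, map_one, mul_one, one_mul, pow_zero, Nat.sub_zero,
            RingHom.one_def, RingHom.id_apply] at h3
          have h5 : (2 : K) * c f (m + 1) = 2 * c g (m + 1) := by linear_combination h3
          exact mul_left_cancel₀ h2 h5
        · rw [SkewGrp877.c_gt _ (by omega), SkewGrp877.c_gt _ (by omega)]
  exact SkewGrp877.ext' fun n _ => key n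

variable {K : Type} [Field K] [Finite K] [Inhabited K] [PTCode K]
variable {α : Type} [PTCode α] {σ : K →+* K} {k : α → ℕ}

/-- a square root with constant term `1` of a `PTR` family is `PTR` -/
theorem PTR.sqrt (hσ : ∀ x, σ (σ x) = x) (h2 : (2 : K) ≠ 0) (hk : PTU k)
    (hQ : PTU (fun a => qK K ^ (k a + 1))) {s n : ∀ a, R σ (k a)} (hn : PTR σ k n)
    (hs : ∀ a, c (s a) 0 = 1) (hsn : ∀ a, s a * s a = n a) : PTR σ k s := by
  refine PTR.of_unique' hk hQ (P := fun a f => c f 0 = 1 ∧ f * f = n a) ?_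
    (fun a => ⟨hs a, hsn a⟩) ?_
  · have hkU : PTU (fun q : α × ℕ => k q.1) := PTU.comp (n := k) hk PTF.fst
    have hd : PTR σ (fun q : α × ℕ => k q.1) (fun q => GkPTF726.den σ (k q.1) q.2) :=
      PTR.den hkU PTF.snd
    exact (PTPred.eq (hd.coef (PTF.const 0)) (PTF.const 1)).and
      ((PTR.mul hσ hkU hd hd).eq hkU (hn.comp PTF.fst))
  · intro a f hf
    exact sq_inj h2 hf.1 (hs a) (hf.2.trans (hsn a).symm)

/-- inverses of `PTR` families are `PTR` -/
theorem PTR.inv (hσ : ∀ x, σ (σ x) = x) (hk : PTU k) (hQ : PTU (fun a => qK K ^ (k a + 1)))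
    {f g : ∀ a, R σ (k a)} (hf : PTR σ k f) (h : ∀ a, f a * g a = 1) : PTR σ k g := by
  refine PTR.of_unique' hk hQ (P := fun a e => f a * e = 1) ?_ h ?_
  · have hkU : PTU (fun q : α × ℕ => k q.1) := PTU.comp (n := k) hk PTF.fst
    have hd : PTR σ (fun q : α × ℕ => k q.1) (fun q => GkPTF726.den σ (k q.1) q.2) :=
      PTR.den hkU PTF.snd
    exact (PTR.mul hσ hkU (hf.comp PTF.fst) hd).eq hkU (PTR.one hkU)
  · intro a e he
    have h1 : g a * f a = 1 := mul_comm_one_of_finite (h a)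
    calc e = (g a * f a) * e := by rw [h1, one_mul]
      _ = g a * (f a * e) := mul_assoc _ _ _
      _ = g a := by rw [he, mul_one]

/-- inverse square roots: `s * s * n = 1`, `n` a unit -/
theorem PTR.invSqrt (hσ : ∀ x, σ (σ x) = x) (h2 : (2 : K) ≠ 0) (hk : PTU k)
    (hQ : PTU (fun a => qK K ^ (k a + 1))) {s n : ∀ a, R σ (k a)} (hn : PTR σ k n)
    (hs : ∀ a, c (s a) 0 = 1) (hsn : ∀ a, s a * s a * n a = 1) : PTR σ k s := by
  have h1 : PTR σ k (fun a => s a * s a) :=
    PTR.inv hσ hk hQ hn fun a => mul_comm_one_of_finite (hsn a)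
  exact PTR.sqrt hσ h2 hk hQ h1 hs fun _ => rfl

end sqrt

/-! ### families of group elements -/

section grp

variable {K : Type} [Field K] [Finite K] [Inhabited K] [PTCode K]
variable {α : Type} [PTCode α] {σ : K →+* K} {hσ : ∀ x, σ (σ x) = x} {k : α → ℕ}

variable (hσ k) in
/-- polynomial-time families of elements of `P_k` -/
def PTG (u : ∀ a, U hσ (k a) 1) : Prop := PTR σ k (fun a => (((u a : (R σ (k a))ˣ)) : R σ (k a)))

theorem inv_val {k : ℕ} (u : U hσ k 1) :
    (((u⁻¹ : U hσ k 1) : (R σ k)ˣ) : R σ k) = conj ((u : (R σ k)ˣ) : R σ k) := by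
  have h1 : ((u : (R σ k)ˣ) : R σ k) * conj ((u : (R σ k)ˣ) : R σ k) = 1 :=
    (InP.of_mem hσ u.2).1
  have h2 : ((u⁻¹ : (R σ k)ˣ) : R σ k) * ((u : (R σ k)ˣ) : R σ k) = 1 := by
    rw [← Units.val_mul, inv_mul_cancel, Units.val_one]
  calc (((u⁻¹ : U hσ k 1) : (R σ k)ˣ) : R σ k)
      = ((u⁻¹ : (R σ k)ˣ) : R σ k) * (((u : (R σ k)ˣ) : R σ k) * conj ((u : (R σ k)ˣ) : R σ k)) := by
        rw [h1, mul_one]; rfl
    _ = conj ((u : (R σ k)ˣ) : R σ k) := by rw [← mul_assoc, h2, one_mul]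

theorem PTG.mul (hk : PTU k) {u v : ∀ a, U hσ (k a) 1} (hu : PTG hσ k u) (hv : PTG hσ k v) :
    PTG hσ k (fun a => u a * v a) := PTR.mul hσ hk hu hv

theorem PTG.one (hk : PTU k) : PTG hσ k (fun _ => 1) := PTR.one hk

theorem PTG.inv (hk : PTU k) {u : ∀ a, U hσ (k a) 1} (hu : PTG hσ k u) :
    PTG hσ k (fun a => (u a)⁻¹) :=
  (PTR.conj hσ hk hu).of_eq fun a => (inv_val (u a)).symm

theorem PTG.pow (hk : PTU k) {u : ∀ a, U hσ (k a) 1} (hu : PTG hσ k u) (n : ℕ) :
    PTG hσ k (fun a => u a ^ n) := by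
  induction n with
  | zero => exact (PTG.one (hσ := hσ) hk : _)
  | succ n ih =>
    have := PTG.mul hk ih hu
    exact this

/-- products of a constant list of families -/
theorem PTG.listProd (hk : PTU k) {l : List (∀ a, U hσ (k a) 1)} (hl : ∀ u ∈ l, PTG hσ k u) :
    PTG hσ k (fun a => (l.map fun u => u a).prod) := by
  induction l with
  | nil => exact (PTG.one (hσ := hσ) hk : _)
  | cons u l ih =>
    exact PTG.mul hk (hl u (List.mem_cons_self ..))
      (ih fun v hv => hl v (List.mem_cons_of_mem _ hv))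

theorem PTG.eqP (hk : PTU k) (hQ : PTU (fun a => qK K ^ (k a + 1))) {u : ∀ a, U hσ (k a) 1}
    (hu : PTG hσ k u) : PTF (fun a => ((GkPTF726.eqP hσ (k a) (u a) : Fin _) : ℕ)) :=
  PTR.num hσ hk hQ hu

/-- the element with a given number (`1` outside the range) -/
noncomputable def eltG (hσ : ∀ x, σ (σ x) = x) (k : ℕ) (r : ℕ) : U hσ k 1 :=
  if h : r < NP σ k then (eqP hσ k).symm ⟨r, h⟩ else 1

theorem eltG_eqP {k : ℕ} (u : U hσ k 1) : eltG hσ k (eqP hσ k u) = u := by
  rw [eltG, dif_pos (eqP hσ k u).2]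
  exact (eqP hσ k).symm_apply_apply u

theorem eqP_eltG {k : ℕ} {r : ℕ} (h : r < NP σ k) : ((eqP hσ k (eltG hσ k r) : Fin _) : ℕ) = r := by
  rw [eltG, dif_pos h, Equiv.apply_symm_apply]

theorem eltG_val {k r : ℕ} (h : r < NP σ k) :
    ((eltG hσ k r : (R σ k)ˣ) : R σ k) = elt σ k r := by
  have h1 : eltG hσ k r = (eqP hσ k).symm ⟨r, h⟩ := by rw [eltG, dif_pos h]
  rw [h1, eqP_symm_val]

theorem eltG_val' {k r : ℕ} (h : ¬ r < NP σ k) :
    ((eltG hσ k r : (R σ k)ˣ) : R σ k) = 1 := by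
  have h1 : eltG hσ k r = 1 := by rw [eltG, dif_neg h]
  rw [h1]
  rfl

theorem PTG.elt (hk : PTU k) (hQ : PTU (fun a => qK K ^ (k a + 1))) {r : α → ℕ} (hr : PTF r) :
    PTG hσ k (fun a => eltG hσ (k a) (r a)) := by
  classical
  have hb : PTF (fun a => decide (r a < NP σ (k a))) :=
    (PTPred.natLt hr (PTU.toPTF (ptu_NP hσ hk hQ))).toPTF
  have h := PTR.cond hb (PTR.elt hσ hk hQ hr) (PTR.one (σ := σ) hk)
  refine PTR.of_eq h fun a => ?_
  by_cases hlt : r a < NP σ (k a)
  · rw [eltG_val hlt, decide_eq_true hlt, cond_true]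
  · rw [eltG_val' hlt, decide_eq_false hlt, cond_false]

/-! ### Cayley tables -/

/-- the right Cayley table -/
noncomputable def rtab (hσ : ∀ x, σ (σ x) = x) (k : ℕ) (s : U hσ k 1) (v : ℕ) : ℕ :=
  (eqP hσ k (eltG hσ k v * s) : Fin _)

/-- the left Cayley table -/
noncomputable def ltab (hσ : ∀ x, σ (σ x) = x) (k : ℕ) (s : U hσ k 1) (v : ℕ) : ℕ :=
  (eqP hσ k (s * eltG hσ k v) : Fin _)

theorem rtab_eqP {k : ℕ} (s u : U hσ k 1) :
    rtab hσ k s (eqP hσ k u) = ((eqP hσ k (u * s) : Fin _) : ℕ) := by rw [rtab, eltG_eqP]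

theorem ltab_eqP {k : ℕ} (s u : U hσ k 1) :
    ltab hσ k s (eqP hσ k u) = ((eqP hσ k (s * u) : Fin _) : ℕ) := by rw [ltab, eltG_eqP]

theorem rtab_lt {k : ℕ} (s : U hσ k 1) (v : ℕ) : rtab hσ k s v < NP σ k := Fin.isLt _

theorem ltab_lt {k : ℕ} (s : U hσ k 1) (v : ℕ) : ltab hσ k s v < NP σ k := Fin.isLt _

theorem rtab_inv {k : ℕ} (s : U hσ k 1) {v : ℕ} (h : v < NP σ k) :
    rtab hσ k s⁻¹ (rtab hσ k s v) = v := by
  have h1 := rtab_eqP s (eltG hσ k v)
  rw [eqP_eltG h] at h1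
  rw [h1, rtab_eqP, mul_inv_cancel_right, eqP_eltG h]

theorem ltab_inv {k : ℕ} (s : U hσ k 1) {v : ℕ} (h : v < NP σ k) :
    ltab hσ k s⁻¹ (ltab hσ k s v) = v := by
  have h1 := ltab_eqP s (eltG hσ k v)
  rw [eqP_eltG h] at h1
  rw [h1, ltab_eqP, inv_mul_cancel_left, eqP_eltG h]

theorem ptf_rtab (hk : PTU k) (hQ : PTU (fun a => qK K ^ (k a + 1))) {s : ∀ a, U hσ (k a) 1}
    (hs : PTG hσ k s) {v : α → ℕ} (hv : PTF v) : PTF (fun a => rtab hσ (k a) (s a) (v a)) :=
  PTG.eqP hk hQ ((PTG.elt hk hQ hv).mul hk hs)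

theorem ptf_ltab (hk : PTU k) (hQ : PTU (fun a => qK K ^ (k a + 1))) {s : ∀ a, U hσ (k a) 1}
    (hs : PTG hσ k s) {v : α → ℕ} (hv : PTF v) : PTF (fun a => ltab hσ (k a) (s a) (v a)) :=
  PTG.eqP hk hQ (PTG.mul hk hs (PTG.elt hk hQ hv))

end grp

/-! ### connectedness of Cayley graphs, in the form used by `Tour594`, `Ham613`, `Bfs594` -/

section conn

variable {P : Type*} [Group P] [Finite P]

/-- a set of elements which is closed under multiplication by generators is closed under the group -/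
theorem closed_of_gens {T : Set P} (hT : Subgroup.closure T = ⊤) {Z : Set P}
    (hZ : ∀ s ∈ T, ∀ u ∈ Z, s * u ∈ Z) (g : P) : ∀ u ∈ Z, g * u ∈ Z := by
  have hg : g ∈ Subgroup.closure T := by rw [hT]; trivial
  induction hg using Subgroup.closure_induction with
  | mem s hs => exact hZ s hs
  | one => intro u hu; rwa [one_mul]
  | mul a b _ _ ha hb =>
    intro u hu
    rw [mul_assoc]
    exact ha _ (hb u hu)
  | inv a _ ha =>
    have hpow : ∀ n : ℕ, ∀ u ∈ Z, a ^ n * u ∈ Z := by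
      intro n
      induction n with
      | zero => intro u hu; rwa [pow_zero, one_mul]
      | succ n ih =>
        intro u hu
        rw [pow_succ, mul_assoc]
        exact ih _ (ha u hu)
    have e : a⁻¹ = a ^ (orderOf a - 1) := by
      have h1 : a ^ (orderOf a - 1) * a = 1 := by
        rw [← pow_succ, Nat.sub_add_cancel (orderOf_pos a), pow_orderOf_eq_one]
      exact (eq_inv_of_mul_eq_one_left h1).symm
    rw [e]
    exact hpow _

/-- the same for right multiplication -/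
theorem closed_of_gens' {T : Set P} (hT : Subgroup.closure T = ⊤) {Z : Set P}
    (hZ : ∀ s ∈ T, ∀ u ∈ Z, u * s ∈ Z) (g : P) : ∀ u ∈ Z, u * g ∈ Z := by
  have hg : g ∈ Subgroup.closure T := by rw [hT]; trivial
  induction hg using Subgroup.closure_induction with
  | mem s hs => exact hZ s hs
  | one => intro u hu; rwa [mul_one]
  | mul a b _ _ ha hb =>
    intro u hu
    rw [← mul_assoc]
    exact hb _ (ha u hu)
  | inv a _ ha =>
    have hpow : ∀ n : ℕ, ∀ u ∈ Z, u * a ^ n ∈ Z := by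
      intro n
      induction n with
      | zero => intro u hu; rwa [pow_zero, mul_one]
      | succ n ih =>
        intro u hu
        rw [pow_succ, ← mul_assoc]
        exact ha _ (ih u hu)
    have e : a⁻¹ = a ^ (orderOf a - 1) := by
      have h1 : a ^ (orderOf a - 1) * a = 1 := by
        rw [← pow_succ, Nat.sub_add_cancel (orderOf_pos a), pow_orderOf_eq_one]
      exact (eq_inv_of_mul_eq_one_left h1).symm
    rw [e]
    exact hpow _

variable {N d : ℕ} (e : P ≃ Fin N) {nb : ℕ → ℕ → ℕ} {gen : ℕ → P}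

/-- left Cayley graph: connected from every root -/
theorem cayley_conn (hnb : ∀ u : P, ∀ g, g < d → nb (e u) g = (e (gen g * u) : Fin N))
    (hgen : Subgroup.closure {s | ∃ g, g < d ∧ gen g = s} = ⊤) {v0 : ℕ} (hv0 : v0 < N)
    (S : ℕ → Prop) (h0 : S v0) (hS : ∀ v, v < N → S v → ∀ g, g < d → S (nb v g)) :
    ∀ v, v < N → S v := by
  have key := closed_of_gens hgen (Z := {u : P | S (e u)}) (by
    rintro s ⟨g, hg, rfl⟩ u hu
    have h1 := hS (e u) (e u).2 hu g hg
    rw [hnb u g hg] at h1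
    exact h1)
  intro v hv
  have h1 := key (e.symm ⟨v, hv⟩ * (e.symm ⟨v0, hv0⟩)⁻¹) (e.symm ⟨v0, hv0⟩) (by
    change S _
    rw [Equiv.apply_symm_apply]
    exact h0)
  rw [inv_mul_cancel_right] at h1
  change S _ at h1
  rwa [Equiv.apply_symm_apply] at h1

/-- right Cayley graph: connected from every root -/
theorem cayley_conn' (hnb : ∀ u : P, ∀ g, g < d → nb (e u) g = (e (u * gen g) : Fin N))
    (hgen : Subgroup.closure {s | ∃ g, g < d ∧ gen g = s} = ⊤) {v0 : ℕ} (hv0 : v0 < N)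
    (S : ℕ → Prop) (h0 : S v0) (hS : ∀ v, v < N → S v → ∀ g, g < d → S (nb v g)) :
    ∀ v, v < N → S v := by
  have key := closed_of_gens' hgen (Z := {u : P | S (e u)}) (by
    rintro s ⟨g, hg, rfl⟩ u hu
    have h1 := hS (e u) (e u).2 hu g hg
    rw [hnb u g hg] at h1
    exact h1)
  intro v hv
  have h1 := key ((e.symm ⟨v0, hv0⟩)⁻¹ * e.symm ⟨v, hv⟩) (e.symm ⟨v0, hv0⟩) (by
    change S _
    rw [Equiv.apply_symm_apply]
    exact h0)
  rw [mul_inv_cancel_left] at h1
  change S _ at h1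
  rwa [Equiv.apply_symm_apply] at h1

theorem cayley_lt (hnb : ∀ u : P, ∀ g, g < d → nb (e u) g = (e (gen g * u) : Fin N)) :
    ∀ v, v < N → ∀ g, g < d → nb v g < N := by
  intro v hv g hg
  have h1 := hnb (e.symm ⟨v, hv⟩) g hg
  rw [Equiv.apply_symm_apply] at h1
  change nb v g = _ at h1
  rw [h1]
  exact Fin.isLt _

theorem cayley_sym (hnb : ∀ u : P, ∀ g, g < d → nb (e u) g = (e (gen g * u) : Fin N))
    (hinv : ∀ g, g < d → ∃ g', g' < d ∧ gen g' = (gen g)⁻¹) :
    ∀ v, v < N → ∀ g, g < d → ∃ g', g' < d ∧ nb (nb v g) g' = v := by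
  intro v hv g hg
  obtain ⟨g', hg', he⟩ := hinv g hg
  refine ⟨g', hg', ?_⟩
  have h1 := hnb (e.symm ⟨v, hv⟩) g hg
  rw [Equiv.apply_symm_apply] at h1
  change nb v g = _ at h1
  rw [h1, hnb _ g' hg', he, inv_mul_cancel_left, Equiv.apply_symm_apply]

theorem cayley_sym' (hnb : ∀ u : P, ∀ g, g < d → nb (e u) g = (e (u * gen g) : Fin N))
    (hinv : ∀ g, g < d → ∃ g', g' < d ∧ gen g' = (gen g)⁻¹) :
    ∀ v, v < N → ∀ g, g < d → ∃ g', g' < d ∧ nb (nb v g) g' = v := by
  intro v hv g hg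
  obtain ⟨g', hg', he⟩ := hinv g hg
  refine ⟨g', hg', ?_⟩
  have h1 := hnb (e.symm ⟨v, hv⟩) g hg
  rw [Equiv.apply_symm_apply] at h1
  change nb v g = _ at h1
  rw [h1, hnb _ g' hg', he, mul_inv_cancel_right, Equiv.apply_symm_apply]

end conn

end Crest.Agent.R289.GkPTF726
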