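import Crest.Agent.R288.PtDp_115

/-!
# R289, block E (E9): digit lists over a finite alphabet and their indices (helper594)

`K` any finite nonempty coded type (`[Inhabited K]`), `Q = qK K = Nat.card K`.

* `cod : K → ℕ` (`cod x < Q`), `dco : ℕ → K`, inverse to each other; PTF.
* `digs n i : List K` (length `n`, base `Q` digits of `i`, lowest first), `idx : List K → ℕ`;
  `idx (digs n i) = i` for `i < Q ^ n`, `digs l.length (idx l) = l`, `idx l < Q ^ l.length`; PTF.
* subsets: `sel N p` = increasing list of `i < N` with `p i`; `rnk p i` = number of `j < i` with `p j`;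
  `(sel N p).getD (rnk p i) d = i`, `rnk p ((sel N p).getD r d) = r`; PTF.
-/

set_option autoImplicit false
set_option linter.dupNamespace false
set_option linter.unusedSectionVars false

namespace Crest.Agent.R289.GkIdx594

open Crest.Agent.Lib.PT Crest.Agent.Lib.PT.Arith Crest.Agent.R288.PtDp115

section alpha

variable (K : Type) [Finite K]

/-- all elements of `K` in some order -/
noncomputable def allK : List K := by
  classical
  exact (letI := Fintype.ofFinite K; (Finset.univ : Finset K).toList)

/-- the number of elements -/
noncomputable def qK : ℕ := (allK K).length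

variable {K}

theorem mem_allK (x : K) : x ∈ allK K := by
  classical
  simp [allK]

theorem nodup_allK : (allK K).Nodup := by
  classical
  simp [allK, Finset.nodup_toList]

/-- the code number of an element -/
noncomputable def cod (x : K) : ℕ := by
  classical
  exact (allK K).idxOf x

theorem cod_lt (x : K) : cod x < qK K := by
  classical
  unfold cod qK
  exact List.idxOf_lt_length_of_mem (mem_allK x)

variable [Inhabited K]

/-- the element with a given code number (`default` outside the range) -/
noncomputable def dco (i : ℕ) : K := (allK K).getD i default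

theorem dco_cod (x : K) : dco (cod x) = x := by
  classical
  have h := cod_lt x
  unfold dco cod qK at *
  rw [List.getD_eq_getElem _ _ h]
  exact List.getElem_idxOf h

theorem cod_dco {i : ℕ} (h : i < qK K) : cod (dco i : K) = i := by
  classical
  unfold dco cod qK at *
  rw [List.getD_eq_getElem _ _ h]
  exact List.Nodup.idxOf_getElem nodup_allK i h

theorem cod_injective : Function.Injective (cod : K → ℕ) := by
  intro x y h
  have := congrArg (dco : ℕ → K) h
  rwa [dco_cod, dco_cod] at this

theorem qK_pos : 0 < qK K := by
  exact lt_of_le_of_lt (Nat.zero_le _) (cod_lt (default : K))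

theorem qK_eq_card : qK K = Nat.card K := by
  classical
  let _ := Fintype.ofFinite K
  have h : qK K = (Finset.univ : Finset K).card := by
    unfold qK allK
    simp
  rw [h, Nat.card_eq_fintype_card, Finset.card_univ]

end alpha

section words

variable {K : Type} [Finite K] [Inhabited K]

/-- `n` digits of `i` in base `Q`, lowest first -/
noncomputable def digs (K : Type) [Finite K] [Inhabited K] (n i : ℕ) : List K :=
  (List.range n).map (fun j => dco (i / qK K ^ j % qK K))

/-- the index of a digit list -/
noncomputable def idx (l : List K) : ℕ := l.foldr (fun a s => cod a + qK K * s) 0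

@[simp] theorem length_digs (n i : ℕ) : (digs K n i).length = n := by simp [digs]

@[simp] theorem idx_nil : idx ([] : List K) = 0 := rfl

@[simp] theorem idx_cons (a : K) (l : List K) : idx (a :: l) = cod a + qK K * idx l := rfl

theorem digs_succ (n i : ℕ) : digs K (n + 1) i = dco (i % qK K) :: digs K n (i / qK K) := by
  unfold digs
  rw [List.range_succ_eq_map, List.map_cons, List.map_map]
  congr 1
  · simp
  · apply List.map_congr_left
    intro j _
    simp only [Function.comp]
    rw [Nat.succ_eq_add_one, pow_succ', Nat.div_div_eq_div_mul]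

theorem idx_lt (l : List K) : idx l < qK K ^ l.length := by
  induction l with
  | nil => simp
  | cons a l ih =>
    rw [idx_cons, List.length_cons, pow_succ']
    have h1 := cod_lt a
    have h2 : idx l + 1 ≤ qK K ^ l.length := ih
    calc cod a + qK K * idx l < qK K + qK K * idx l := by omega
      _ = qK K * (idx l + 1) := by ring
      _ ≤ _ := Nat.mul_le_mul_left _ h2

theorem idx_digs {n i : ℕ} (h : i < qK K ^ n) : idx (digs K n i) = i := by
  induction n generalizing i with
  | zero =>
    simp at h
    simp [digs, h]
  | succ n ih =>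
    rw [digs_succ, idx_cons, cod_dco (Nat.mod_lt _ qK_pos), ih]
    · rw [Nat.mod_add_div]
    · rw [pow_succ', ] at h
      exact Nat.div_lt_of_lt_mul h

theorem digs_idx (l : List K) : digs K l.length (idx l) = l := by
  induction l with
  | nil => simp [digs]
  | cons a l ih =>
    rw [List.length_cons, digs_succ, idx_cons]
    have h1 : (cod a + qK K * idx l) % qK K = cod a := by
      rw [Nat.add_mul_mod_self_left, Nat.mod_eq_of_lt (cod_lt a)]
    have h2 : (cod a + qK K * idx l) / qK K = idx l := by
      rw [Nat.add_mul_div_left _ _ qK_pos, Nat.div_eq_of_lt (cod_lt a), Nat.zero_add]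
    rw [h1, h2, dco_cod, ih]

theorem idx_injective {l l' : List K} (hl : l.length = l'.length) (h : idx l = idx l') : l = l' := by
  rw [← digs_idx l, ← digs_idx l', h, hl]

theorem digs_getD {n i j : ℕ} (h : j < n) (d : K) :
    (digs K n i).getD j d = dco (i / qK K ^ j % qK K) := by
  unfold digs
  rw [List.getD_eq_getElem _ _ (by simpa using h)]
  simp

/-- every list of length `n` is `digs n i` for exactly one `i < Q ^ n` -/
theorem exists_digs {n : ℕ} {l : List K} (hl : l.length = n) :
    ∃ i, i < qK K ^ n ∧ digs K n i = l :=
  ⟨idx l, by rw [← hl]; exact idx_lt l, by rw [← hl]; exact digs_idx l⟩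

end words

section pt

variable {K : Type} [Finite K] [Inhabited K] [PTCode K]
variable {α : Type} [PTCode α]

theorem ptf_cod {f : α → K} (hf : PTF f) : PTF (fun a => cod (f a)) :=
  PTF.comp (g := fun x : K => cod x) (PTF.of_finite _) hf

theorem ptf_dco {i : α → ℕ} (hi : PTF i) : PTF (fun a => (dco (i a) : K)) := by
  unfold dco
  exact ptf_getB (PTF.const _) hi (PTF.const _)

theorem ptf_digs {n i : α → ℕ} (hn : PTU n) (hi : PTF i) : PTF (fun a => digs K (n a) (i a)) := by
  have h : PTF (fun a => (List.range (n a)).map
      (fun j => (dco (i a / qK K ^ (min j (n a)) % qK K) : K))) := by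
    refine PTF.map (l := fun a => List.range (n a))
      (f := fun (a : α) (j : ℕ) => (dco (i a / qK K ^ (min j (n a)) % qK K) : K)) ?_ ?_
    · exact PTF.range hn
    · refine ptf_dco ?_
      have hi' : PTF (fun p : α × ℕ => i p.1) := PTF.comp (g := i) hi PTF.fst
      have hn' : PTU (fun p : α × ℕ => n p.1) := PTU.comp (n := n) hn PTF.fst
      have hm : PTU (fun p : α × ℕ => min p.2 (n p.1)) := ptu_min PTF.snd hn'
      have hp : PTF (fun p : α × ℕ => qK K ^ (min p.2 (n p.1))) := ptf_pow (PTF.const _) hm
      exact PTF.natMod (PTF.natDiv hi' hp) (PTF.const _)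
  refine PTF.of_eq h (fun a => ?_)
  unfold digs
  apply List.map_congr_left
  intro j hj
  rw [List.mem_range] at hj
  rw [min_eq_left hj.le]

theorem ptf_idx {l : α → List K} (hl : PTF l) : PTF (fun a => idx (l a)) := by
  unfold idx
  refine PTF.foldr (f := fun (_ : α) (x : K) (s : ℕ) => cod x + qK K * s) hl ?_ (PTF.const 0)
    (B := fun a => sz (l a) * (qK K).size + 1) ?_ ?_
  · refine PTF.natAdd (ptf_cod (by fun_prop)) (PTF.natMul (PTF.const _) (by fun_prop))
  · have := hl.sz
    fun_prop
  · intro c i _
    have h := idx_lt ((l c).drop i)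
    rw [sz_nat]
    have h1 : (((l c).drop i).foldr (fun (x : K) (s : ℕ) => cod x + qK K * s) 0).size ≤
        (qK K ^ ((l c).drop i).length).size := Nat.size_le_size (le_of_lt h)
    refine h1.trans ((size_pow_le _ _).trans ?_)
    have h2 : ((l c).drop i).length ≤ sz (l c) := (length_le_sz _).trans (sz_drop_le _ _)
    have := Nat.mul_le_mul_right (qK K).size h2
    omega

end pt

section subset

/-- the increasing list of `i < N` with `p i` -/
def sel (N : ℕ) (p : ℕ → Bool) : List ℕ := (List.range N).filter p

/-- the number of `j < i` with `p j` -/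
def rnk (p : ℕ → Bool) (i : ℕ) : ℕ := ((List.range i).filter p).length

theorem mem_sel {N : ℕ} {p : ℕ → Bool} {i : ℕ} : i ∈ sel N p ↔ i < N ∧ p i = true := by
  simp [sel]

theorem nodup_sel (N : ℕ) (p : ℕ → Bool) : (sel N p).Nodup := List.Nodup.filter _ List.nodup_range

theorem sel_succ (N : ℕ) (p : ℕ → Bool) :
    sel (N + 1) p = sel N p ++ (if p N then [N] else []) := by
  unfold sel
  rw [List.range_succ, List.filter_append]
  congr 1
  by_cases h : p N <;> simp [h]

theorem length_sel (N : ℕ) (p : ℕ → Bool) : (sel N p).length = rnk p N := rfl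

theorem sel_getD_rnk {N : ℕ} {p : ℕ → Bool} {i : ℕ} (d : ℕ) (hi : i < N) (hp : p i = true) :
    (sel N p).getD (rnk p i) d = i := by
  induction N with
  | zero => omega
  | succ N ih =>
    rw [sel_succ]
    rcases Nat.lt_succ_iff_lt_or_eq.1 hi with h | h
    · have h1 : rnk p i < (sel N p).length := by
        have h2 := sel_succ i p
        rw [if_pos hp] at h2
        have h3 : (sel (i + 1) p).length ≤ (sel N p).length := by
          unfold sel
          have : List.Sublist (List.range (i + 1)) (List.range N) := List.range_sublist.2 h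
          exact (this.filter p).length_le
        rw [h2, List.length_append, length_sel] at h3
        simpa using h3
      rw [List.getD_append _ _ _ _ h1]
      exact ih h
    · subst h
      rw [List.getD_append_right _ _ _ _ (by rw [length_sel]), length_sel, Nat.sub_self, if_pos hp]
      rfl

theorem rnk_lt {N : ℕ} {p : ℕ → Bool} {i : ℕ} (hi : i < N) (hp : p i = true) :
    rnk p i < (sel N p).length := by
  by_contra h
  have h1 := sel_getD_rnk (N := N) i hi hp
  have h2 := sel_getD_rnk (N := N) (i + 1) hi hp
  rw [List.getD_eq_default _ _ (not_lt.1 h)] at h2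
  omega

theorem rnk_sel_getD {N : ℕ} {p : ℕ → Bool} {r : ℕ} (d : ℕ) (hr : r < (sel N p).length) :
    rnk p ((sel N p).getD r d) = r := by
  have hm : (sel N p).getD r d ∈ sel N p := by
    rw [List.getD_eq_getElem _ _ hr]
    exact List.getElem_mem hr
  obtain ⟨h1, h2⟩ := mem_sel.1 hm
  have h3 := sel_getD_rnk (N := N) d h1 h2
  have h4 := rnk_lt h1 h2
  generalize rnk p ((sel N p).getD r d) = r' at h3 h4 ⊢
  rw [List.getD_eq_getElem _ _ h4, List.getD_eq_getElem _ _ hr] at h3
  exact (List.Nodup.getElem_inj_iff (nodup_sel N p)).1 h3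

theorem rnk_injOn {p : ℕ → Bool} {i j : ℕ} (hi : p i = true) (hj : p j = true)
    (h : rnk p i = rnk p j) : i = j := by
  have h1 := sel_getD_rnk (N := max i j + 1) 0 (by omega) hi
  have h2 := sel_getD_rnk (N := max i j + 1) 0 (by omega) hj
  rw [h] at h1
  rw [← h1, h2]

variable {α : Type} [PTCode α]

theorem ptf_sel {N : α → ℕ} {p : α → ℕ → Bool} (hN : PTU N)
    (hp : PTF (fun q : α × ℕ => p q.1 q.2)) : PTF (fun a => sel (N a) (p a)) := by
  unfold sel
  exact PTF.filter (p := p) (PTF.range hN) hp

theorem ptu_rnk {p : α → ℕ → Bool} {i : α → ℕ} (hi : PTU i)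
    (hp : PTF (fun q : α × ℕ => p q.1 q.2)) : PTU (fun a => rnk (p a) (i a)) := by
  unfold rnk
  exact PTU.length (PTF.filter (p := p) (PTF.range hi) hp)

/-- the rank with a binary argument which is bounded by a unary one -/
theorem ptf_rnk {N : α → ℕ} {p : α → ℕ → Bool} {i : α → ℕ} (hN : PTU N) (hi : PTF i)
    (hp : PTF (fun q : α × ℕ => p q.1 q.2)) (hlt : ∀ a, i a ≤ N a) :
    PTF (fun a => rnk (p a) (i a)) := by
  have h : PTU (fun a => rnk (p a) (min (i a) (N a))) := ptu_rnk (ptu_min hi hN) hp
  refine PTF.of_eq (ptf_ofUnary h) (fun a => ?_)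
  rw [min_eq_left (hlt a)]

end subset

end Crest.Agent.R289.GkIdx594
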