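import Crest.Agent.R289.SkewGrp_877
import Crest.Agent.R289.Gauss_115
import Crest.Agent.R289.GkIdx_594

/-!
# R289, block E, E9a: polynomial-time arithmetic of the groups of `SkewGrp_877` (helper940)

Elements of `R σ k` (truncated skew power series) are written as digit lists `toL f : List K` of
length `k + 1`.

* `mulL, conjL, oneL, addL, negL` : the operations on digit lists (`toL_mul`, `toL_conj`, ...).
* `isU σ k i l : Bool` : `l` is the digit list of an element of `U hσ k i` (`isU_iff`).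
* `numU, elL, noL` : enumeration of `U hσ k i` by numbers; `eU : U hσ k i ≃ Fin (numU σ k i)`.
* `rmulN, lmulN, mulN, invN` : number of `g * c`, `c * g`, `g * h`, `g⁻¹`.
* PTF statements of all of them (`k` unary, `qK K ^ (k + 1)` unary).
-/

set_option autoImplicit false
set_option linter.dupNamespace false

namespace Crest.Agent.R289.GkMul940

open Crest.Agent.Lib.PT Crest.Agent.Lib.PT.Arith Crest.Agent.R288.PtDp115
open Crest.Agent.R289.Gauss115 Crest.Agent.R289.GkIdx594 Crest.Agent.R289.SkewGrp877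

section algebra

variable {K : Type} [Field K] {σ : K →+* K} {k : ℕ}

/-- digit list of an element -/
def toL (f : R σ k) : List K := tabK (k + 1) (c f)

/-- element of a digit list -/
def ofL (σ : K →+* K) (k : ℕ) (l : List K) : R σ k := mk (getK l)

theorem length_toL (f : R σ k) : (toL f).length = k + 1 := length_tabK _ _

theorem getK_tabK_ge {n : ℕ} (f : ℕ → K) {i : ℕ} (h : n ≤ i) : getK (tabK n f) i = 0 := by
  unfold getK
  rw [List.getD_eq_default _ _ (by rw [length_tabK]; exact h)]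

theorem getK_toL (f : R σ k) (n : ℕ) : getK (toL f) n = c f n := by
  by_cases h : n < k + 1
  · exact getK_tabK _ h
  · rw [toL, getK_tabK_ge _ (by omega), c_gt _ (by omega)]

theorem c_ofL (l : List K) {n : ℕ} (hn : n ≤ k) : c (ofL σ k l) n = getK l n := c_mk _ hn

theorem ofL_toL (f : R σ k) : ofL σ k (toL f) = f := by
  refine ext' fun n hn => ?_
  rw [c_ofL _ hn, getK_toL]

theorem list_ext {l l' : List K} (h : l.length = l'.length)
    (hg : ∀ n < l.length, getK l n = getK l' n) : l = l' := by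
  refine List.ext_getElem h fun n h1 h2 => ?_
  have := hg n h1
  unfold getK at this
  rwa [List.getD_eq_getElem _ _ h1, List.getD_eq_getElem _ _ h2] at this

omit [Field K] in
theorem tabK_congr {n : ℕ} {f g : ℕ → K} (h : ∀ i < n, f i = g i) : tabK n f = tabK n g := by
  unfold tabK
  exact List.map_congr_left fun i hi => h i (List.mem_range.1 hi)

theorem tabK_getK {l : List K} {n : ℕ} (h : l.length = n) : tabK n (getK l) = l := by
  refine list_ext (by rw [length_tabK, h]) fun i hi => ?_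
  rw [length_tabK] at hi
  exact getK_tabK _ hi

theorem toL_ofL {l : List K} (h : l.length = k + 1) : toL (ofL σ k l) = l := by
  rw [toL, ← tabK_getK h]
  refine tabK_congr fun i hi => ?_
  rw [tabK_getK h, c_ofL _ (by omega)]

theorem toL_injective : Function.Injective (toL : R σ k → List K) := fun f g h => by
  rw [← ofL_toL f, h, ofL_toL]

/-- `σ ^ i` by parity -/
def tw (σ : K →+* K) (i : ℕ) (x : K) : K := if i % 2 = 0 then x else σ x

/-- `(-1) ^ i` by parity -/
def sg (i : ℕ) (x : K) : K := if i % 2 = 0 then x else -x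

theorem tw_eq (hσ : ∀ x, σ (σ x) = x) (i : ℕ) (x : K) : tw σ i x = (σ ^ i) x := by
  unfold tw
  split_ifs with h
  · rw [spow_even hσ h]
  · rw [spow_odd hσ (by omega)]

theorem sg_eq (i : ℕ) (x : K) : sg i x = (-1) ^ i * x := by
  unfold sg
  split_ifs with h
  · rw [Even.neg_one_pow (Nat.even_iff.mpr h), one_mul]
  · rw [Odd.neg_one_pow (Nat.odd_iff.mpr (by omega)), neg_one_mul]

/-- product of digit lists -/
def mulL (σ : K →+* K) (k : ℕ) (a b : List K) : List K :=
  tabK (k + 1) fun n => ∑ i ∈ Finset.range (n + 1), getK a i * tw σ i (getK b (n - i))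

/-- conjugate of a digit list -/
def conjL (σ : K →+* K) (k : ℕ) (a : List K) : List K :=
  tabK (k + 1) fun n => sg n (tw σ (n + 1) (getK a n))

/-- digit list of `1` -/
def oneL (K : Type) [Field K] (k : ℕ) : List K := tabK (k + 1) fun n => if n = 0 then 1 else 0

/-- sum of digit lists -/
def addL (k : ℕ) (a b : List K) : List K := tabK (k + 1) fun n => getK a n + getK b n

/-- negative of a digit list -/
def negL (k : ℕ) (a : List K) : List K := tabK (k + 1) fun n => - getK a n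

/-- digit list of `x τ^i` -/
def monoL (k i : ℕ) (x : K) : List K := tabK (k + 1) fun n => if n = i then x else 0

@[simp] theorem length_mulL (a b : List K) : (mulL σ k a b).length = k + 1 := length_tabK _ _
@[simp] theorem length_conjL (a : List K) : (conjL σ k a).length = k + 1 := length_tabK _ _
@[simp] theorem length_oneL : (oneL K k).length = k + 1 := length_tabK _ _
@[simp] theorem length_addL (a b : List K) : (addL k a b).length = k + 1 := length_tabK _ _
@[simp] theorem length_negL (a : List K) : (negL k a).length = k + 1 := length_tabK _ _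
@[simp] theorem length_monoL (i : ℕ) (x : K) : (monoL k i x).length = k + 1 := length_tabK _ _

theorem toL_mul (hσ : ∀ x, σ (σ x) = x) (f g : R σ k) :
    toL (f * g) = mulL σ k (toL f) (toL g) := by
  refine tabK_congr fun n hn => ?_
  rw [c_mul _ _ (by omega : n ≤ k), Finset.Nat.sum_antidiagonal_eq_sum_range_succ_mk]
  refine Finset.sum_congr rfl fun i _ => ?_
  rw [getK_toL, getK_toL, tw_eq hσ]

theorem toL_conj (hσ : ∀ x, σ (σ x) = x) (f : R σ k) :
    toL (conj f) = conjL σ k (toL f) := by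
  refine tabK_congr fun n hn => ?_
  rw [c_conj _ (by omega : n ≤ k), getK_toL, sg_eq, tw_eq hσ]

theorem toL_one : toL (1 : R σ k) = oneL K k := by
  refine tabK_congr fun n hn => ?_
  rw [c_one (by omega : n ≤ k)]

theorem toL_add (f g : R σ k) : toL (f + g) = addL k (toL f) (toL g) := by
  refine tabK_congr fun n hn => ?_
  rw [c_add, getK_toL, getK_toL]

theorem toL_neg (f : R σ k) : toL (-f) = negL k (toL f) := by
  refine tabK_congr fun n hn => ?_
  rw [c_neg, getK_toL]

theorem toL_mono (i : ℕ) (x : K) : toL (mono i x : R σ k) = monoL k i x := by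
  refine tabK_congr fun n hn => ?_
  rw [c_mono _ _ (by omega : n ≤ k)]

theorem toL_mk (F : ℕ → K) : toL (mk F : R σ k) = tabK (k + 1) F := by
  refine tabK_congr fun n hn => ?_
  rw [c_mk _ (by omega : n ≤ k)]

theorem ofL_mulL (hσ : ∀ x, σ (σ x) = x) {a b : List K} (ha : a.length = k + 1)
    (hb : b.length = k + 1) : ofL σ k (mulL σ k a b) = ofL σ k a * ofL σ k b := by
  apply toL_injective
  rw [toL_mul hσ, toL_ofL ha, toL_ofL hb, toL_ofL (length_mulL _ _)]

theorem ofL_conjL (hσ : ∀ x, σ (σ x) = x) {a : List K} (ha : a.length = k + 1) :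
    ofL σ k (conjL σ k a) = conj (ofL σ k a) := by
  apply toL_injective
  rw [toL_conj hσ, toL_ofL ha, toL_ofL (length_conjL _)]

theorem ofL_oneL : ofL σ k (oneL K k) = 1 := by
  apply toL_injective
  rw [toL_one, toL_ofL length_oneL]

end algebra

/-! ### the group `U hσ k i` -/

section group

variable {K : Type} [Field K] {σ : K →+* K} {k i : ℕ}

open Classical in
/-- the digit lists of the elements of `U hσ k i` -/
noncomputable def isU (σ : K →+* K) (k i : ℕ) (l : List K) : Bool :=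
  decide (l.length = k + 1) && decide (mulL σ k l (conjL σ k l) = oneL K k) &&
    decide (mulL σ k (conjL σ k l) l = oneL K k) &&
    decide (tabK i (getK l) = tabK i (getK (oneL K k)))

theorem tabK_eq_iff {n : ℕ} {f g : ℕ → K} : tabK n f = tabK n g ↔ ∀ j < n, f j = g j := by
  refine ⟨fun h j hj => ?_, tabK_congr⟩
  rw [← getK_tabK f hj, h, getK_tabK g hj]

theorem isU_iff_eqs {l : List K} : isU σ k i l = true ↔ l.length = k + 1 ∧
    mulL σ k l (conjL σ k l) = oneL K k ∧ mulL σ k (conjL σ k l) l = oneL K k ∧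
    ∀ j < i, getK l j = getK (oneL K k) j := by
  unfold isU
  simp only [Bool.and_eq_true, decide_eq_true_eq, tabK_eq_iff, and_assoc]

theorem isU_length {l : List K} (h : isU σ k i l = true) : l.length = k + 1 :=
  (isU_iff_eqs.1 h).1

theorem J_sub_one_iff {x : R σ k} : J i (x - 1) ↔ ∀ j < i, getK (toL x) j = getK (oneL K k) j := by
  unfold J
  refine forall_congr' fun j => forall_congr' fun hj => ?_
  rw [c_sub, sub_eq_zero, getK_toL]
  have h1 : getK (oneL K k) j = c (1 : R σ k) j := by rw [← toL_one (σ := σ), getK_toL]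
  rw [h1]

/-- element of a digit list -/
noncomputable def mkU (hσ : ∀ x, σ (σ x) = x) (l : List K) (h : isU σ k i l = true) :
    U hσ k i :=
  ⟨⟨ofL σ k l, conj (ofL σ k l), by
      obtain ⟨h0, h1, h2, h3⟩ := isU_iff_eqs.1 h
      rw [← ofL_conjL hσ h0, ← ofL_mulL hσ h0 (length_conjL _), h1, ofL_oneL], by
      obtain ⟨h0, h1, h2, h3⟩ := isU_iff_eqs.1 h
      rw [← ofL_conjL hσ h0, ← ofL_mulL hσ (length_conjL _) h0, h2, ofL_oneL]⟩, by
      obtain ⟨h0, h1, h2, h3⟩ := isU_iff_eqs.1 h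
      refine ⟨?_, ?_⟩
      · rw [mem_SG hσ]
        change ofL σ k l * conj (ofL σ k l) = 1
        rw [← ofL_conjL hσ h0, ← ofL_mulL hσ h0 (length_conjL _), h1, ofL_oneL]
      · change J i (ofL σ k l - 1)
        rw [J_sub_one_iff, toL_ofL h0]
        exact h3⟩

/-- digit list of a unit -/
def uL (u : (R σ k)ˣ) : List K := toL (u : R σ k)

@[simp] theorem length_uL (u : (R σ k)ˣ) : (uL u).length = k + 1 := length_toL _

theorem uL_injective : Function.Injective (uL : (R σ k)ˣ → List K) := fun _ _ h =>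
  Units.ext (toL_injective h)

theorem uL_mkU (hσ : ∀ x, σ (σ x) = x) {l : List K} (h : isU σ k i l = true) :
    uL (mkU hσ l h : (R σ k)ˣ) = l := toL_ofL (isU_length h)

theorem uL_mul (hσ : ∀ x, σ (σ x) = x) (u v : (R σ k)ˣ) : uL (u * v) = mulL σ k (uL u) (uL v) := by
  unfold uL
  rw [Units.val_mul, toL_mul hσ]

theorem uL_one : uL (1 : (R σ k)ˣ) = oneL K k := by
  unfold uL
  rw [Units.val_one, toL_one]

theorem coe_inv_SG (hσ : ∀ x, σ (σ x) = x) {u : (R σ k)ˣ} (hu : u ∈ SG hσ k) :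
    ((u⁻¹ : (R σ k)ˣ) : R σ k) = conj (u : R σ k) := by
  rw [mem_SG hσ] at hu
  rw [← one_mul (conj (u : R σ k)), ← Units.inv_mul u, mul_assoc, hu, mul_one]

theorem uL_inv (hσ : ∀ x, σ (σ x) = x) {u : (R σ k)ˣ} (hu : u ∈ SG hσ k) :
    uL u⁻¹ = conjL σ k (uL u) := by
  unfold uL
  rw [coe_inv_SG hσ hu, toL_conj hσ]

theorem isU_uL (hσ : ∀ x, σ (σ x) = x) {u : (R σ k)ˣ} (hu : u ∈ U hσ k i) :
    isU σ k i (uL u) = true := by
  rw [isU_iff_eqs]
  have h1 := (mem_SG hσ).1 hu.1
  have h2 : conj (u : R σ k) * (u : R σ k) = 1 := by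
    rw [← coe_inv_SG hσ hu.1, Units.inv_mul]
  refine ⟨length_toL _, ?_, ?_, ?_⟩
  · unfold uL
    rw [← toL_conj hσ, ← toL_mul hσ, h1, toL_one]
  · unfold uL
    rw [← toL_conj hσ, ← toL_mul hσ, h2, toL_one]
  · exact J_sub_one_iff.1 hu.2

theorem isU_iff (hσ : ∀ x, σ (σ x) = x) {l : List K} :
    isU σ k i l = true ↔ ∃ u ∈ U hσ k i, uL u = l :=
  ⟨fun h => ⟨mkU hσ l h, (mkU hσ l h).2, uL_mkU hσ h⟩, fun ⟨_, hu, h⟩ => h ▸ isU_uL hσ hu⟩

theorem mkU_uL (hσ : ∀ x, σ (σ x) = x) (u : U hσ k i) (h : isU σ k i (uL (u : (R σ k)ˣ)) = true) :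
    mkU hσ (uL (u : (R σ k)ˣ)) h = u := Subtype.ext (uL_injective (uL_mkU hσ h))

theorem isU_mulL (hσ : ∀ x, σ (σ x) = x) {a b : List K} (ha : isU σ k i a = true)
    (hb : isU σ k i b = true) : isU σ k i (mulL σ k a b) = true := by
  obtain ⟨u, hu, rfl⟩ := (isU_iff hσ).1 ha
  obtain ⟨v, hv, rfl⟩ := (isU_iff hσ).1 hb
  rw [← uL_mul hσ]
  exact isU_uL hσ (mul_mem hu hv)

theorem isU_conjL (hσ : ∀ x, σ (σ x) = x) {a : List K} (ha : isU σ k i a = true) :
    isU σ k i (conjL σ k a) = true := by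
  obtain ⟨u, hu, rfl⟩ := (isU_iff hσ).1 ha
  rw [← uL_inv hσ hu.1]
  exact isU_uL hσ (inv_mem hu)

theorem isU_oneL (hσ : ∀ x, σ (σ x) = x) : isU σ k i (oneL K k) = true := by
  rw [← uL_one (σ := σ)]
  exact isU_uL hσ (one_mem _)

/-! ### enumeration -/

variable [Finite K] [Inhabited K]

/-- numbers of the digit lists of `U hσ k i` -/
noncomputable def pU (σ : K →+* K) (k i j : ℕ) : Bool := isU σ k i (digs K (k + 1) j)

/-- the order of `U hσ k i` -/
noncomputable def numU (σ : K →+* K) (k i : ℕ) : ℕ := (sel (qK K ^ (k + 1)) (pU σ k i)).length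

/-- digit list of element number `r` -/
noncomputable def elL (σ : K →+* K) (k i r : ℕ) : List K :=
  digs K (k + 1) ((sel (qK K ^ (k + 1)) (pU σ k i)).getD r 0)

/-- number of a digit list -/
noncomputable def noL (σ : K →+* K) (k i : ℕ) (l : List K) : ℕ :=
  rnk (pU σ k i) (min (idx l) (qK K ^ (k + 1)))

theorem noL_eq {l : List K} (h : l.length = k + 1) : noL σ k i l = rnk (pU σ k i) (idx l) := by
  unfold noL
  rw [min_eq_left (h ▸ (idx_lt l).le)]

theorem pU_idx {l : List K} (h : isU σ k i l = true) : pU σ k i (idx l) = true := by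
  unfold pU
  rw [← isU_length h, digs_idx]
  exact h

theorem noL_lt {l : List K} (h : isU σ k i l = true) : noL σ k i l < numU σ k i := by
  rw [noL_eq (isU_length h)]
  exact rnk_lt (isU_length h ▸ idx_lt l) (pU_idx h)

theorem elL_noL {l : List K} (h : isU σ k i l = true) : elL σ k i (noL σ k i l) = l := by
  unfold elL
  rw [noL_eq (isU_length h), sel_getD_rnk 0 (isU_length h ▸ idx_lt l) (pU_idx h), ← isU_length h,
    digs_idx]

theorem sel_getD_mem {r : ℕ} (h : r < numU σ k i) :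
    (sel (qK K ^ (k + 1)) (pU σ k i)).getD r 0 < qK K ^ (k + 1) ∧
      pU σ k i ((sel (qK K ^ (k + 1)) (pU σ k i)).getD r 0) = true := by
  refine mem_sel.1 ?_
  rw [List.getD_eq_getElem _ _ h]
  exact List.getElem_mem h

theorem isU_elL {r : ℕ} (h : r < numU σ k i) : isU σ k i (elL σ k i r) = true :=
  (sel_getD_mem h).2

theorem noL_elL {r : ℕ} (h : r < numU σ k i) : noL σ k i (elL σ k i r) = r := by
  rw [noL_eq (isU_length (isU_elL h))]
  unfold elL
  rw [idx_digs (sel_getD_mem h).1, rnk_sel_getD 0 h]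

@[simp] theorem length_elL (r : ℕ) : (elL σ k i r).length = k + 1 := length_digs _ _

/-- the numbering of `U hσ k i` -/
noncomputable def eU (hσ : ∀ x, σ (σ x) = x) (k i : ℕ) : U hσ k i ≃ Fin (numU σ k i) where
  toFun u := ⟨noL σ k i (uL (u : (R σ k)ˣ)), noL_lt (isU_uL hσ u.2)⟩
  invFun r := mkU hσ (elL σ k i r) (isU_elL r.2)
  left_inv u := by
    apply Subtype.ext
    apply uL_injective
    rw [uL_mkU]
    exact elL_noL (isU_uL hσ u.2)
  right_inv r := by
    apply Fin.ext
    change noL σ k i (uL (mkU hσ (elL σ k i r) (isU_elL r.2) : (R σ k)ˣ)) = r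
    rw [uL_mkU, noL_elL r.2]

theorem eU_val (hσ : ∀ x, σ (σ x) = x) (u : U hσ k i) :
    ((eU hσ k i u : Fin _) : ℕ) = noL σ k i (uL (u : (R σ k)ˣ)) := rfl

theorem elL_eU (hσ : ∀ x, σ (σ x) = x) (u : U hσ k i) :
    elL σ k i ((eU hσ k i u : Fin _) : ℕ) = uL (u : (R σ k)ˣ) := elL_noL (isU_uL hσ u.2)

theorem uL_eU_symm (hσ : ∀ x, σ (σ x) = x) (r : Fin (numU σ k i)) :
    uL ((eU hσ k i).symm r : (R σ k)ˣ) = elL σ k i r := uL_mkU hσ (isU_elL r.2)

theorem numU_eq_card (hσ : ∀ x, σ (σ x) = x) : numU σ k i = Nat.card (U hσ k i) := by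
  rw [Nat.card_congr (eU hσ k i), Nat.card_eq_fintype_card, Fintype.card_fin]

theorem numU_pos (hσ : ∀ x, σ (σ x) = x) : 0 < numU σ k i := by
  have h := (eU hσ k i 1).2
  omega

theorem numU_le : numU σ k i ≤ qK K ^ (k + 1) := by
  unfold numU sel
  exact (List.length_filter_le _ _).trans (by rw [List.length_range])

/-- number of the product -/
noncomputable def mulN (σ : K →+* K) (k i a b : ℕ) : ℕ :=
  noL σ k i (mulL σ k (elL σ k i a) (elL σ k i b))

/-- number of `g * c`, `g` given by its number, `c` by its digit list -/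
noncomputable def rmulN (σ : K →+* K) (k i a : ℕ) (l : List K) : ℕ :=
  noL σ k i (mulL σ k (elL σ k i a) l)

/-- number of `c * g`, `g` given by its number, `c` by its digit list -/
noncomputable def lmulN (σ : K →+* K) (k i : ℕ) (l : List K) (a : ℕ) : ℕ :=
  noL σ k i (mulL σ k l (elL σ k i a))

/-- number of the inverse -/
noncomputable def invN (σ : K →+* K) (k i a : ℕ) : ℕ :=
  noL σ k i (conjL σ k (elL σ k i a))

/-- number of `1` -/
noncomputable def oneN (σ : K →+* K) (k i : ℕ) : ℕ := noL σ k i (oneL K k)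

theorem eU_mul (hσ : ∀ x, σ (σ x) = x) (u v : U hσ k i) :
    ((eU hσ k i (u * v) : Fin _) : ℕ) = mulN σ k i (eU hσ k i u : Fin _) (eU hσ k i v : Fin _) := by
  unfold mulN
  rw [eU_val, elL_eU, elL_eU, ← uL_mul hσ]
  rfl

theorem eU_rmul (hσ : ∀ x, σ (σ x) = x) (u v : U hσ k i) :
    ((eU hσ k i (u * v) : Fin _) : ℕ) =
      rmulN σ k i (eU hσ k i u : Fin _) (uL (v : (R σ k)ˣ)) := by
  unfold rmulN
  rw [eU_val, elL_eU, ← uL_mul hσ]
  rfl

theorem eU_lmul (hσ : ∀ x, σ (σ x) = x) (u v : U hσ k i) :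
    ((eU hσ k i (u * v) : Fin _) : ℕ) =
      lmulN σ k i (uL (u : (R σ k)ˣ)) (eU hσ k i v : Fin _) := by
  unfold lmulN
  rw [eU_val, elL_eU, ← uL_mul hσ]
  rfl

theorem eU_inv (hσ : ∀ x, σ (σ x) = x) (u : U hσ k i) :
    ((eU hσ k i u⁻¹ : Fin _) : ℕ) = invN σ k i (eU hσ k i u : Fin _) := by
  unfold invN
  rw [eU_val, elL_eU, ← uL_inv hσ u.2.1]
  rfl

theorem eU_one (hσ : ∀ x, σ (σ x) = x) :
    ((eU hσ k i 1 : Fin _) : ℕ) = oneN σ k i := by
  unfold oneN
  rw [eU_val, ← uL_one (σ := σ)]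
  rfl

theorem mulN_lt (hσ : ∀ x, σ (σ x) = x) {a b : ℕ} (ha : a < numU σ k i) (hb : b < numU σ k i) :
    mulN σ k i a b < numU σ k i := noL_lt (isU_mulL hσ (isU_elL ha) (isU_elL hb))

theorem rmulN_lt (hσ : ∀ x, σ (σ x) = x) {a : ℕ} {l : List K} (ha : a < numU σ k i)
    (hl : isU σ k i l = true) : rmulN σ k i a l < numU σ k i :=
  noL_lt (isU_mulL hσ (isU_elL ha) hl)

theorem lmulN_lt (hσ : ∀ x, σ (σ x) = x) {a : ℕ} {l : List K} (ha : a < numU σ k i)
    (hl : isU σ k i l = true) : lmulN σ k i l a < numU σ k i :=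
  noL_lt (isU_mulL hσ hl (isU_elL ha))

theorem invN_lt (hσ : ∀ x, σ (σ x) = x) {a : ℕ} (ha : a < numU σ k i) :
    invN σ k i a < numU σ k i := noL_lt (isU_conjL hσ (isU_elL ha))

end group

/-! ### polynomial time -/

section pt

variable {K : Type} [Field K] {σ : K →+* K} [Finite K] [PTCode K]
variable {α : Type} [PTCode α]

theorem ptf_tw {i : α → ℕ} {f : α → K} (hi : PTF i) (hf : PTF f) :
    PTF (fun a => tw σ (i a) (f a)) := by
  unfold tw
  exact PTF.ite (PTPred.natEq (PTF.natMod hi (PTF.const 2)) (PTF.const 0)) hf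
    (PTF.comp (g := fun x : K => σ x) (PTF.of_finite _) hf)

theorem ptf_sg {i : α → ℕ} {f : α → K} (hi : PTF i) (hf : PTF f) :
    PTF (fun a => sg (i a) (f a)) := by
  unfold sg
  exact PTF.ite (PTPred.natEq (PTF.natMod hi (PTF.const 2)) (PTF.const 0)) hf (ptf_kneg hf)

theorem ptf_mulL {k : α → ℕ} {a b : α → List K} (hk : PTU k) (ha : PTF a) (hb : PTF b) :
    PTF (fun x => mulL σ (k x) (a x) (b x)) := by
  have h : PTF (fun x => tabK (k x + 1) (fun n => ∑ i ∈ Finset.range (min n (k x) + 1),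
      getK (a x) i * tw σ i (getK (b x) (n - i)))) := by
    refine ptf_tabK (n := fun x => k x + 1) (f := fun x n => ∑ i ∈ Finset.range (min n (k x) + 1),
      getK (a x) i * tw σ i (getK (b x) (n - i))) (PTU.succ hk) ?_
    refine ptf_sumK (n := fun p : α × ℕ => min p.2 (k p.1) + 1)
      (f := fun (p : α × ℕ) i => getK (a p.1) i * tw σ i (getK (b p.1) (p.2 - i)))
      (PTU.succ (ptu_min PTF.snd (PTU.comp (n := k) hk PTF.fst))) ?_
    have ha' : PTF (fun p : (α × ℕ) × ℕ => a p.1.1) :=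
      PTF.comp (g := a) ha (PTF.comp (g := Prod.fst) PTF.fst PTF.fst)
    have hb' : PTF (fun p : (α × ℕ) × ℕ => b p.1.1) :=
      PTF.comp (g := b) hb (PTF.comp (g := Prod.fst) PTF.fst PTF.fst)
    have hn' : PTF (fun p : (α × ℕ) × ℕ => p.1.2) :=
      PTF.comp (g := Prod.snd) PTF.snd PTF.fst
    exact ptf_kmul (ptf_getK ha' PTF.snd)
      (ptf_tw PTF.snd (ptf_getK hb' (PTF.natSub hn' PTF.snd)))
  refine PTF.of_eq h fun x => tabK_congr fun n hn => ?_
  rw [min_eq_left (by omega)]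

theorem ptf_conjL {k : α → ℕ} {a : α → List K} (hk : PTU k) (ha : PTF a) :
    PTF (fun x => conjL σ (k x) (a x)) := by
  have ha' : PTF (fun p : α × ℕ => a p.1) := PTF.comp (g := a) ha PTF.fst
  exact ptf_tabK (n := fun x => k x + 1) (f := fun x n => sg n (tw σ (n + 1) (getK (a x) n)))
    (PTU.succ hk) (ptf_sg PTF.snd (ptf_tw (PTF.natAdd PTF.snd (PTF.const 1))
      (ptf_getK ha' PTF.snd)))

omit [Finite K] in
theorem ptf_oneL {k : α → ℕ} (hk : PTU k) : PTF (fun x => oneL K (k x)) :=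
  ptf_tabK (n := fun x => k x + 1) (f := fun _ n => if n = 0 then (1 : K) else 0) (PTU.succ hk)
    (PTF.ite (PTPred.natEq PTF.snd (PTF.const 0)) (PTF.const 1) (PTF.const 0))

theorem ptf_addL {k : α → ℕ} {a b : α → List K} (hk : PTU k) (ha : PTF a) (hb : PTF b) :
    PTF (fun x => addL (k x) (a x) (b x)) := by
  have ha' : PTF (fun p : α × ℕ => a p.1) := PTF.comp (g := a) ha PTF.fst
  have hb' : PTF (fun p : α × ℕ => b p.1) := PTF.comp (g := b) hb PTF.fst
  exact ptf_tabK (n := fun x => k x + 1) (f := fun x n => getK (a x) n + getK (b x) n)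
    (PTU.succ hk) (ptf_kadd (ptf_getK ha' PTF.snd) (ptf_getK hb' PTF.snd))

theorem ptf_negL {k : α → ℕ} {a : α → List K} (hk : PTU k) (ha : PTF a) :
    PTF (fun x => negL (k x) (a x)) := by
  have ha' : PTF (fun p : α × ℕ => a p.1) := PTF.comp (g := a) ha PTF.fst
  exact ptf_tabK (n := fun x => k x + 1) (f := fun x n => - getK (a x) n)
    (PTU.succ hk) (ptf_kneg (ptf_getK ha' PTF.snd))

omit [Finite K] in
theorem ptf_monoL {k i : α → ℕ} {f : α → K} (hk : PTU k) (hi : PTF i) (hf : PTF f) :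
    PTF (fun x => monoL (k x) (i x) (f x)) := by
  have hi' : PTF (fun p : α × ℕ => i p.1) := PTF.comp (g := i) hi PTF.fst
  have hf' : PTF (fun p : α × ℕ => f p.1) := PTF.comp (g := f) hf PTF.fst
  exact ptf_tabK (n := fun x => k x + 1) (f := fun x n => if n = i x then f x else 0)
    (PTU.succ hk) (PTF.ite (PTPred.natEq PTF.snd hi') hf' (PTF.const 0))

theorem ptf_isU (i : ℕ) {k : α → ℕ} {l : α → List K} (hk : PTU k) (hl : PTF l) :
    PTF (fun x => isU σ (k x) i (l x)) := by
  classical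
  have hc : PTF (fun x => conjL σ (k x) (l x)) := ptf_conjL hk hl
  have h1 : PTF (fun x => oneL K (k x)) := ptf_oneL hk
  have h0 : PTPred (fun x => (l x).length = k x + 1) :=
    PTPred.natEq (PTU.toPTF (PTU.length hl)) (PTU.toPTF (PTU.succ hk))
  have h2 : PTPred (fun x => mulL σ (k x) (l x) (conjL σ (k x) (l x)) = oneL K (k x)) :=
    PTPred.eq (ptf_mulL hk hl hc) h1
  have h3 : PTPred (fun x => mulL σ (k x) (conjL σ (k x) (l x)) (l x) = oneL K (k x)) :=
    PTPred.eq (ptf_mulL hk hc hl) h1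
  have h4 : PTPred (fun x => tabK i (getK (l x)) = tabK i (getK (oneL K (k x)))) := by
    refine PTPred.eq (ptf_tabK (n := fun _ => i) (f := fun x n => getK (l x) n) (PTU.const i) ?_)
      (ptf_tabK (n := fun _ => i) (f := fun x n => getK (oneL K (k x)) n) (PTU.const i) ?_)
    · exact ptf_getK (PTF.comp (g := l) hl PTF.fst) PTF.snd
    · exact ptf_getK (PTF.comp (g := fun x => oneL K (k x)) h1 PTF.fst) PTF.snd
  exact PTF.and (PTF.and (PTF.and h0.toPTF h2.toPTF) h3.toPTF) h4.toPTF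

variable [Inhabited K]

theorem ptf_pU (i : ℕ) {k j : α → ℕ} (hk : PTU k) (hj : PTF j) :
    PTF (fun x => pU σ (k x) i (j x)) :=
  ptf_isU i hk (ptf_digs (n := fun x => k x + 1) (PTU.succ hk) hj)

theorem ptf_pU' (i : ℕ) {k : α → ℕ} (hk : PTU k) :
    PTF (fun q : α × ℕ => pU σ (k q.1) i q.2) :=
  ptf_pU i (k := fun q : α × ℕ => k q.1) (PTU.comp (n := k) hk PTF.fst) PTF.snd

theorem ptf_selU (i : ℕ) {k : α → ℕ} (hk : PTU k) (hN : PTU (fun x => qK K ^ (k x + 1))) :
    PTF (fun x => sel (qK K ^ (k x + 1)) (pU σ (k x) i)) :=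
  ptf_sel (p := fun x => pU σ (k x) i) hN (ptf_pU' i hk)

theorem ptu_numU (i : ℕ) {k : α → ℕ} (hk : PTU k) (hN : PTU (fun x => qK K ^ (k x + 1))) :
    PTU (fun x => numU σ (k x) i) := PTU.length (ptf_selU i hk hN)

theorem ptf_elL (i : ℕ) {k r : α → ℕ} (hk : PTU k) (hN : PTU (fun x => qK K ^ (k x + 1)))
    (hr : PTF r) : PTF (fun x => elL σ (k x) i (r x)) :=
  ptf_digs (n := fun x => k x + 1) (PTU.succ hk) (ptf_getB (ptf_selU i hk hN) hr (PTF.const 0))

theorem ptf_noL (i : ℕ) {k : α → ℕ} {l : α → List K} (hk : PTU k)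
    (hN : PTU (fun x => qK K ^ (k x + 1))) (hl : PTF l) :
    PTF (fun x => noL σ (k x) i (l x)) :=
  ptf_rnk (p := fun x => pU σ (k x) i) (i := fun x => min (idx (l x)) (qK K ^ (k x + 1))) hN
    (PTF.natMin (ptf_idx hl) (PTU.toPTF hN)) (ptf_pU' i hk) (fun _ => min_le_right _ _)

theorem ptf_mulN (i : ℕ) {k a b : α → ℕ} (hk : PTU k) (hN : PTU (fun x => qK K ^ (k x + 1)))
    (ha : PTF a) (hb : PTF b) : PTF (fun x => mulN σ (k x) i (a x) (b x)) :=
  ptf_noL i hk hN (ptf_mulL hk (ptf_elL i hk hN ha) (ptf_elL i hk hN hb))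

theorem ptf_rmulN (i : ℕ) {k a : α → ℕ} {l : α → List K} (hk : PTU k)
    (hN : PTU (fun x => qK K ^ (k x + 1))) (ha : PTF a) (hl : PTF l) :
    PTF (fun x => rmulN σ (k x) i (a x) (l x)) :=
  ptf_noL i hk hN (ptf_mulL hk (ptf_elL i hk hN ha) hl)

theorem ptf_lmulN (i : ℕ) {k a : α → ℕ} {l : α → List K} (hk : PTU k)
    (hN : PTU (fun x => qK K ^ (k x + 1))) (ha : PTF a) (hl : PTF l) :
    PTF (fun x => lmulN σ (k x) i (l x) (a x)) :=
  ptf_noL i hk hN (ptf_mulL hk hl (ptf_elL i hk hN ha))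

theorem ptf_invN (i : ℕ) {k a : α → ℕ} (hk : PTU k) (hN : PTU (fun x => qK K ^ (k x + 1)))
    (ha : PTF a) : PTF (fun x => invN σ (k x) i (a x)) :=
  ptf_noL i hk hN (ptf_conjL hk (ptf_elL i hk hN ha))

theorem ptf_oneN (i : ℕ) {k : α → ℕ} (hk : PTU k) (hN : PTU (fun x => qK K ^ (k x + 1))) :
    PTF (fun x => oneN σ (k x) i) := ptf_noL i hk hN (ptf_oneL hk)

end pt

end Crest.Agent.R289.GkMul940
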