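import Crest.Agent.R289.GkIdx_594
import Crest.Agent.R289.Gauss_115
import Crest.Agent.R289.SkewGrp_877

/-!
# R289, block E (E9): polynomial-time arithmetic of the truncated skew ring and of the group `P_k`

On top of `SkewGrp_877` (`R σ k = K{τ}/τ^(k+1)`, `conj`, `U hσ k 1` = norm-one elements with constant
term 1), `GkIdx_594` (digit lists and indices) and `Gauss_115` (field arithmetic).

* `enc : R σ k → ℕ`, `den σ k : ℕ → R σ k`: inverse to each other below `Q ^ (k+1)`.
* `PTR σ k f` : the family `f : ∀ a, R σ (k a)` has polynomial-time coefficients; closed under the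
  ring operations, `conj`, `mono`, `den`, `bif`; `PTR.enc`, `PTR.eq`.
* `pick σ k p` : the first element with the property `p` (search over `Q ^ (k+1)` elements).
* `elt σ k r`, `num g` : numbering of `P_k` by `r < NP σ k`; `eqP : U hσ k 1 ≃ Fin (NP σ k)`;
  `PTR.elt`, `PTR.num`; `mulN` = multiplication of numbers by a fixed family.
-/

set_option autoImplicit false
set_option linter.dupNamespace false
set_option linter.unusedSectionVars false

namespace Crest.Agent.R289.GkPTF726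

open Crest.Agent.Lib.PT Crest.Agent.Lib.PT.Arith Crest.Agent.R288.PtDp115
open Crest.Agent.R289.GkIdx594 Crest.Agent.R289.Gauss115
open Crest.Agent.R289.SkewGrp877 (R c mk conj mono SG U)

section code

variable {K : Type} [Field K] [Finite K] [Inhabited K] {σ : K →+* K} {k : ℕ}

theorem c_mk' (F : ℕ → K) (n : ℕ) : c (mk F : R σ k) n = if n ≤ k then F n else 0 := by
  split_ifs with h
  · exact SkewGrp877.c_mk F h
  · exact SkewGrp877.c_gt _ (by omega)

/-- the list of the coefficients -/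
def dg (f : R σ k) : List K := (List.range (k + 1)).map (c f)

@[simp] theorem length_dg (f : R σ k) : (dg f).length = k + 1 := by simp [dg]

theorem dg_getD (f : R σ k) {n : ℕ} (h : n ≤ k) (d : K) : (dg f).getD n d = c f n := by
  have h' : n < k + 1 := by omega
  simp [dg, List.getD_eq_getElem?_getD, h']

/-- the number of an element -/
noncomputable def enc (f : R σ k) : ℕ := idx (dg f)

theorem enc_lt (f : R σ k) : enc f < qK K ^ (k + 1) := by
  have := idx_lt (dg f)
  rwa [length_dg] at this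

variable (σ k) in
/-- the element with a given number -/
noncomputable def den (i : ℕ) : R σ k := mk fun n => (digs K (k + 1) i).getD n 0

theorem digs_enc (f : R σ k) : digs K (k + 1) (enc f) = dg f := by
  have := digs_idx (dg f)
  rwa [length_dg] at this

theorem den_enc (f : R σ k) : den σ k (enc f) = f := by
  refine SkewGrp877.ext' fun n hn => ?_
  rw [den, SkewGrp877.c_mk _ hn, digs_enc, dg_getD f hn]

theorem dg_den (i : ℕ) : dg (den σ k i) = digs K (k + 1) i := by
  apply List.ext_getElem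
  · rw [length_dg, length_digs]
  · intro n h1 h2
    rw [length_dg] at h1
    have h3 : (dg (den σ k i))[n] = (dg (den σ k i)).getD n 0 := by
      rw [List.getD_eq_getElem]
    rw [h3, dg_getD _ (by omega), den, SkewGrp877.c_mk _ (by omega), List.getD_eq_getElem _ _ h2]

theorem enc_den {i : ℕ} (h : i < qK K ^ (k + 1)) : enc (den σ k i) = i := by
  rw [enc, dg_den, idx_digs h]

theorem enc_inj {f g : R σ k} (h : enc f = enc g) : f = g := by
  rw [← den_enc f, ← den_enc g, h]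

theorem enc_eq_iff {f g : R σ k} : enc f = enc g ↔ f = g := ⟨enc_inj, fun h => by rw [h]⟩

end code

section ptr

variable {K : Type} [Field K] [Finite K] [Inhabited K] [PTCode K]
variable {α : Type} [PTCode α] {σ : K →+* K} {k : α → ℕ}

variable (σ k) in
/-- families of ring elements with polynomial-time coefficients -/
def PTR (f : ∀ a, R σ (k a)) : Prop := PTF (fun p : α × ℕ => c (f p.1) p.2)

theorem PTR.of_mk (hk : PTU k) {F : α → ℕ → K} (hF : PTF (fun p : α × ℕ => F p.1 p.2)) :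
    PTR σ k (fun a => mk (F a)) := by
  unfold PTR
  have hk' : PTF (fun p : α × ℕ => k p.1) := PTF.comp (g := k) hk.toPTF PTF.fst
  have h : PTF (fun p : α × ℕ => if p.2 ≤ k p.1 then F p.1 p.2 else 0) :=
    PTF.ite (PTPred.natLe PTF.snd hk') hF (PTF.const 0)
  exact h.of_eq fun p => (c_mk' _ _).symm

theorem PTR.of_eq {f g : ∀ a, R σ (k a)} (hf : PTR σ k f) (h : ∀ a, f a = g a) : PTR σ k g := by
  have : f = g := funext h
  rwa [← this]

theorem PTR.coef {f : ∀ a, R σ (k a)} (hf : PTR σ k f) {n : α → ℕ} (hn : PTF n) :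
    PTF (fun a => c (f a) (n a)) :=
  PTF.comp (g := fun p : α × ℕ => c (f p.1) p.2) (f := fun a => (a, n a)) hf
    (PTF.prodMk PTF.id hn)

theorem PTR.comp {β : Type} [PTCode β] {f : ∀ a, R σ (k a)} (hf : PTR σ k f) {e : β → α}
    (he : PTF e) : PTR σ (fun b => k (e b)) (fun b => f (e b)) := by
  unfold PTR at hf ⊢
  exact PTF.comp (g := fun p : α × ℕ => c (f p.1) p.2) (f := fun q : β × ℕ => (e q.1, q.2)) hf
    (PTF.prodMk (PTF.comp (g := e) he PTF.fst) PTF.snd)

theorem PTR.add {f g : ∀ a, R σ (k a)} (hf : PTR σ k f) (hg : PTR σ k g) :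
    PTR σ k (fun a => f a + g a) := by
  unfold PTR at *
  exact (ptf_kadd hf hg).of_eq fun p => (SkewGrp877.c_add _ _ _).symm

theorem PTR.neg {f : ∀ a, R σ (k a)} (hf : PTR σ k f) : PTR σ k (fun a => - f a) := by
  unfold PTR at *
  exact (ptf_kneg hf).of_eq fun p => (SkewGrp877.c_neg _ _).symm

theorem PTR.sub {f g : ∀ a, R σ (k a)} (hf : PTR σ k f) (hg : PTR σ k g) :
    PTR σ k (fun a => f a - g a) := by
  unfold PTR at *
  exact (ptf_ksub hf hg).of_eq fun p => (SkewGrp877.c_sub _ _ _).symm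

theorem PTR.zero : PTR σ k (fun _ => 0) := by
  unfold PTR
  exact (PTF.const (0 : K)).of_eq fun p => (SkewGrp877.c_zero _).symm

theorem PTR.one (hk : PTU k) : PTR σ k (fun _ => 1) := by
  have h : PTF (fun p : α × ℕ => if p.2 = 0 then (1 : K) else 0) :=
    PTF.ite (PTPred.natEq PTF.snd (PTF.const 0)) (PTF.const 1) (PTF.const 0)
  exact PTR.of_mk (F := fun _ n => if n = 0 then (1 : K) else 0) hk h

theorem PTR.mono (hk : PTU k) {i : α → ℕ} {x : α → K} (hi : PTF i) (hx : PTF x) :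
    PTR σ k (fun a => mono (i a) (x a)) := by
  have hi' : PTF (fun p : α × ℕ => i p.1) := PTF.comp (g := i) hi PTF.fst
  have hx' : PTF (fun p : α × ℕ => x p.1) := PTF.comp (g := x) hx PTF.fst
  have h : PTF (fun p : α × ℕ => if p.2 = i p.1 then x p.1 else 0) :=
    PTF.ite (PTPred.natEq PTF.snd hi') hx' (PTF.const 0)
  exact PTR.of_mk (F := fun a n => if n = i a then x a else 0) hk h

/-- powers of the involution -/
theorem ptf_spow (hσ : ∀ x, σ (σ x) = x) {n : α → ℕ} {x : α → K} (hn : PTF n) (hx : PTF x) :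
    PTF (fun a => (σ ^ n a) (x a)) := by
  have h1 : PTF (fun a => σ (x a)) := PTF.comp (g := fun y : K => σ y) (PTF.of_finite _) hx
  have h : PTF (fun a => if n a % 2 = 0 then x a else σ (x a)) :=
    PTF.ite (PTPred.natEq (PTF.natMod hn (PTF.const 2)) (PTF.const 0)) hx h1
  refine h.of_eq fun a => ?_
  split_ifs with h0
  · exact (SkewGrp877.spow_even hσ h0 _).symm
  · exact (SkewGrp877.spow_odd hσ (by omega) _).symm

theorem PTR.mul (hσ : ∀ x, σ (σ x) = x) (hk : PTU k) {f g : ∀ a, R σ (k a)} (hf : PTR σ k f)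
    (hg : PTR σ k g) : PTR σ k (fun a => f a * g a) := by
  unfold PTR at hf hg ⊢
  have hk' : PTF (fun p : α × ℕ => k p.1) := PTF.comp (g := k) hk.toPTF PTF.fst
  have hkU : PTU (fun p : α × ℕ => k p.1) := PTU.comp (n := k) hk PTF.fst
  have hm : PTU (fun p : α × ℕ => min p.2 (k p.1) + 1) := PTU.succ (ptu_min PTF.snd hkU)
  have hs : PTF (fun q : (α × ℕ) × ℕ =>
      c (f q.1.1) q.2 * (σ ^ q.2) (c (g q.1.1) (q.1.2 - q.2))) := by
    refine ptf_kmul ?_ (ptf_spow hσ PTF.snd ?_)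
    · exact PTF.comp (g := fun p : α × ℕ => c (f p.1) p.2)
        (f := fun q : (α × ℕ) × ℕ => (q.1.1, q.2)) hf (by fun_prop)
    · exact PTF.comp (g := fun p : α × ℕ => c (g p.1) p.2)
        (f := fun q : (α × ℕ) × ℕ => (q.1.1, q.1.2 - q.2)) hg
        (PTF.prodMk (by fun_prop) (PTF.natSub (by fun_prop) (by fun_prop)))
  have h := ptf_sumK (n := fun p : α × ℕ => min p.2 (k p.1) + 1)
    (f := fun (p : α × ℕ) i => c (f p.1) i * (σ ^ i) (c (g p.1) (p.2 - i))) hm hs
  have h2 : PTF (fun p : α × ℕ => if p.2 ≤ k p.1 then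
      ∑ i ∈ Finset.range (min p.2 (k p.1) + 1), c (f p.1) i * (σ ^ i) (c (g p.1) (p.2 - i))
      else 0) := PTF.ite (PTPred.natLe PTF.snd hk') h (PTF.const 0)
  refine h2.of_eq fun p => ?_
  split_ifs with hp
  · rw [min_eq_left hp, SkewGrp877.c_mul _ _ hp,
      Finset.Nat.sum_antidiagonal_eq_sum_range_succ
        (fun i j => c (f p.1) i * (σ ^ i) (c (g p.1) j))]
  · exact (SkewGrp877.c_gt _ (by omega)).symm

theorem PTR.conj (hσ : ∀ x, σ (σ x) = x) (hk : PTU k) {f : ∀ a, R σ (k a)} (hf : PTR σ k f) :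
    PTR σ k (fun a => conj (f a)) := by
  unfold PTR at hf
  have h0 : PTF (fun p : α × ℕ => ((-1 : K)) ^ p.2) := by
    have h : PTF (fun p : α × ℕ => if p.2 % 2 = 0 then (1 : K) else -1) :=
      PTF.ite (PTPred.natEq (PTF.natMod PTF.snd (PTF.const 2)) (PTF.const 0)) (PTF.const 1)
        (PTF.const (-1))
    refine h.of_eq fun p => ?_
    split_ifs with hp
    · rw [Even.neg_one_pow (Nat.even_iff.mpr hp)]
    · rw [Odd.neg_one_pow (Nat.odd_iff.mpr (by omega))]
  have h1 : PTF (fun p : α × ℕ => (σ ^ (p.2 + 1)) (c (f p.1) p.2)) :=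
    ptf_spow hσ (PTF.natAdd PTF.snd (PTF.const 1)) hf
  exact PTR.of_mk (F := fun a n => (-1 : K) ^ n * (σ ^ (n + 1)) (c (f a) n)) hk (ptf_kmul h0 h1)

theorem PTR.pow (hσ : ∀ x, σ (σ x) = x) (hk : PTU k) {f : ∀ a, R σ (k a)} (hf : PTR σ k f)
    (n : ℕ) : PTR σ k (fun a => f a ^ n) := by
  induction n with
  | zero => exact (PTR.one hk).of_eq fun a => (pow_zero _).symm
  | succ n ih => exact (PTR.mul hσ hk ih hf).of_eq fun a => (pow_succ _ _).symm

theorem PTR.cond {b : α → Bool} {f g : ∀ a, R σ (k a)} (hb : PTF b) (hf : PTR σ k f)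
    (hg : PTR σ k g) : PTR σ k (fun a => bif b a then f a else g a) := by
  unfold PTR at *
  have hb' : PTF (fun p : α × ℕ => b p.1) := PTF.comp (g := b) hb PTF.fst
  refine (PTF.cond hb' hf hg).of_eq fun p => ?_
  show _ = c (bif b p.1 then f p.1 else g p.1) p.2
  cases b p.1 <;> rfl

theorem PTR.den (hk : PTU k) {i : α → ℕ} (hi : PTF i) :
    PTR σ k (fun a => den σ (k a) (i a)) := by
  have hkU : PTU (fun p : α × ℕ => k p.1 + 1) := PTU.succ (PTU.comp (n := k) hk PTF.fst)
  have hi' : PTF (fun p : α × ℕ => i p.1) := PTF.comp (g := i) hi PTF.fst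
  have h : PTF (fun p : α × ℕ => (digs K (k p.1 + 1) (i p.1)).getD p.2 0) :=
    ptf_getB (ptf_digs hkU hi') PTF.snd (PTF.const 0)
  exact PTR.of_mk (F := fun a n => (digs K (k a + 1) (i a)).getD n 0) hk h

theorem PTR.enc (hk : PTU k) {f : ∀ a, R σ (k a)} (hf : PTR σ k f) :
    PTF (fun a => enc (f a)) := by
  refine ptf_idx (l := fun a => (List.range (k a + 1)).map (c (f a))) ?_
  exact PTF.map (l := fun a => List.range (k a + 1)) (f := fun (a : α) (n : ℕ) => c (f a) n)
    (PTF.range hk.succ) hf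

theorem PTR.eq (hk : PTU k) {f g : ∀ a, R σ (k a)} (hf : PTR σ k f) (hg : PTR σ k g) :
    PTPred (fun a => f a = g a) :=
  (PTPred.natEq (hf.enc hk) (hg.enc hk)).of_iff fun _ => enc_eq_iff

end ptr

/-! ### search -/

section pick

variable {K : Type} [Field K] [Finite K] [Inhabited K] {σ : K →+* K}

variable (σ) in
/-- the first element (in the order of the numbers) with the property `p` -/
noncomputable def pick (k : ℕ) (p : ℕ → Bool) : R σ k :=
  den σ k ((sel (qK K ^ (k + 1)) p).getD 0 0)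

theorem pick_spec {k : ℕ} {p : ℕ → Bool} (h : ∃ f : R σ k, p (enc f) = true) :
    p (enc (pick σ k p)) = true := by
  obtain ⟨f, hf⟩ := h
  have hmem : enc f ∈ sel (qK K ^ (k + 1)) p := mem_sel.mpr ⟨enc_lt f, hf⟩
  have hlen : 0 < (sel (qK K ^ (k + 1)) p).length := List.length_pos_of_mem hmem
  have h0 : (sel (qK K ^ (k + 1)) p).getD 0 0 ∈ sel (qK K ^ (k + 1)) p := by
    rw [List.getD_eq_getElem _ _ hlen]
    exact List.getElem_mem hlen
  obtain ⟨h1, h2⟩ := mem_sel.mp h0
  rw [pick, enc_den h1]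
  exact h2

/-- the only element with the property `P` -/
theorem pick_eq {k : ℕ} {P : R σ k → Prop} {p : ℕ → Bool} (hp : ∀ f : R σ k, p (enc f) = true ↔ P f)
    {g : R σ k} (hg : P g) (hu : ∀ f, P f → f = g) : pick σ k p = g :=
  hu _ ((hp _).mp (pick_spec ⟨g, (hp g).mpr hg⟩))

variable [PTCode K] {α : Type} [PTCode α] {k : α → ℕ}

theorem PTR.pick (hk : PTU k) (hQ : PTU (fun a => qK K ^ (k a + 1))) {p : α → ℕ → Bool}
    (hp : PTF (fun q : α × ℕ => p q.1 q.2)) : PTR σ k (fun a => pick σ (k a) (p a)) := by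
  unfold GkPTF726.pick
  refine PTR.den hk ?_
  exact ptf_getB (ptf_sel hQ hp) (PTF.const 0) (PTF.const 0)

end pick

/-! ### the group `P_k` -/

section group

theorem mul_comm_one_of_finite {M : Type*} [Monoid M] [Finite M] {a b : M} (h : a * b = 1) :
    b * a = 1 := by
  have hinj : Function.Injective (fun x : M => b * x) := by
    intro x y hxy
    have h1 : a * (b * x) = a * (b * y) := congrArg (a * ·) hxy
    rwa [← mul_assoc, ← mul_assoc, h, one_mul, one_mul] at h1
  obtain ⟨c, hc⟩ := Finite.surjective_of_injective hinj 1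
  have hc' : b * c = 1 := hc
  have : a = c := by
    calc a = a * (b * c) := by rw [hc', mul_one]
      _ = c := by rw [← mul_assoc, h, one_mul]
  rw [this, hc']

variable {K : Type} [Field K] [Finite K] [Inhabited K] {σ : K →+* K} {k : ℕ}

/-- norm-one elements with constant term `1` -/
def InP (f : R σ k) : Prop := f * conj f = 1 ∧ c f 0 = 1

theorem InP.of_mem (hσ : ∀ x, σ (σ x) = x) {u : (R σ k)ˣ} (hu : u ∈ U hσ k 1) :
    InP (u : R σ k) := by
  rw [SkewGrp877.mem_U] at hu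
  obtain ⟨h1, h2⟩ := hu
  refine ⟨(SkewGrp877.mem_SG hσ).mp h1, ?_⟩
  have h3 := h2 0 Nat.zero_lt_one
  rw [SkewGrp877.c_sub, SkewGrp877.c_one (Nat.zero_le k), if_pos rfl] at h3
  exact sub_eq_zero.mp h3

/-- the group element -/
def InP.unit {f : R σ k} (h : InP f) : (R σ k)ˣ where
  val := f
  inv := conj f
  val_inv := h.1
  inv_val := mul_comm_one_of_finite h.1

@[simp] theorem InP.unit_val {f : R σ k} (h : InP f) : ((h.unit : (R σ k)ˣ) : R σ k) = f := rfl

theorem InP.unit_mem (hσ : ∀ x, σ (σ x) = x) {f : R σ k} (h : InP f) : h.unit ∈ U hσ k 1 := by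
  rw [SkewGrp877.mem_U]
  refine ⟨(SkewGrp877.mem_SG hσ).mpr h.1, ?_⟩
  intro n hn
  have hn0 : n = 0 := by omega
  subst hn0
  rw [SkewGrp877.c_sub, SkewGrp877.c_one (Nat.zero_le k), if_pos rfl, InP.unit_val, h.2, sub_self]

theorem InP.mul (hσ : ∀ x, σ (σ x) = x) {f g : R σ k} (hf : InP f) (hg : InP g) : InP (f * g) :=
  InP.of_mem hσ (u := hf.unit * hg.unit) (mul_mem (hf.unit_mem hσ) (hg.unit_mem hσ))

theorem InP.conj (hσ : ∀ x, σ (σ x) = x) {f : R σ k} (hf : InP f) : InP (conj f) :=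
  InP.of_mem hσ (u := (hf.unit)⁻¹) (inv_mem (hf.unit_mem hσ))

theorem InP.one (hσ : ∀ x, σ (σ x) = x) : InP (1 : R σ k) :=
  InP.of_mem hσ (u := 1) (one_mem _)

variable (σ k) in
open Classical in
/-- the test `InP` on numbers -/
noncomputable def isP (i : ℕ) : Bool := decide (InP (den σ k i))

theorem isP_iff {i : ℕ} : isP σ k i = true ↔ InP (den σ k i) := by
  classical
  unfold isP
  exact decide_eq_true_iff

theorem isP_enc {f : R σ k} : isP σ k (enc f) = true ↔ InP f := by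
  rw [isP_iff, den_enc]

variable (σ k) in
/-- the order of `P_k` -/
noncomputable def NP : ℕ := (sel (qK K ^ (k + 1)) (isP σ k)).length

variable (σ k) in
/-- the `r`-th element of `P_k` -/
noncomputable def elt (r : ℕ) : R σ k := den σ k ((sel (qK K ^ (k + 1)) (isP σ k)).getD r 0)

/-- the rank of an element of `P_k` -/
noncomputable def num (f : R σ k) : ℕ := rnk (isP σ k) (enc f)

theorem elt_num {f : R σ k} (h : InP f) : elt σ k (num f) = f := by
  rw [elt, num, sel_getD_rnk 0 (enc_lt f) (isP_enc.mpr h), den_enc]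

theorem num_lt {f : R σ k} (h : InP f) : num f < NP σ k :=
  rnk_lt (enc_lt f) (isP_enc.mpr h)

theorem elt_mem {r : ℕ} (h : r < NP σ k) : InP (elt σ k r) := by
  have h0 : (sel (qK K ^ (k + 1)) (isP σ k)).getD r 0 ∈ sel (qK K ^ (k + 1)) (isP σ k) := by
    rw [List.getD_eq_getElem _ _ h]
    exact List.getElem_mem h
  exact isP_iff.mp (mem_sel.mp h0).2

theorem num_elt {r : ℕ} (h : r < NP σ k) : num (elt σ k r) = r := by
  have h0 : (sel (qK K ^ (k + 1)) (isP σ k)).getD r 0 ∈ sel (qK K ^ (k + 1)) (isP σ k) := by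
    rw [List.getD_eq_getElem _ _ h]
    exact List.getElem_mem h
  rw [num, elt, enc_den (mem_sel.mp h0).1]
  exact rnk_sel_getD 0 h

theorem num_inj {f g : R σ k} (hf : InP f) (hg : InP g) (h : num f = num g) : f = g := by
  rw [← elt_num hf, ← elt_num hg, h]

/-- the numbering of `P_k = U hσ k 1` -/
noncomputable def eqP (hσ : ∀ x, σ (σ x) = x) (k : ℕ) : U hσ k 1 ≃ Fin (NP σ k) where
  toFun u := ⟨num ((u : (R σ k)ˣ) : R σ k), num_lt (InP.of_mem hσ u.2)⟩
  invFun r := ⟨(elt_mem r.2).unit, (elt_mem r.2).unit_mem hσ⟩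
  left_inv u := by
    apply Subtype.ext
    apply Units.ext
    exact elt_num (InP.of_mem hσ u.2)
  right_inv r := by
    apply Fin.ext
    exact num_elt r.2

theorem eqP_val (hσ : ∀ x, σ (σ x) = x) (u : U hσ k 1) :
    ((eqP hσ k u : Fin _) : ℕ) = num ((u : (R σ k)ˣ) : R σ k) := rfl

theorem eqP_symm_val (hσ : ∀ x, σ (σ x) = x) (r : Fin (NP σ k)) :
    ((((eqP hσ k).symm r : U hσ k 1) : (R σ k)ˣ) : R σ k) = elt σ k r := rfl

theorem card_P (hσ : ∀ x, σ (σ x) = x) : Nat.card (U hσ k 1) = NP σ k := by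
  rw [Nat.card_congr (eqP hσ k), Nat.card_eq_fintype_card, Fintype.card_fin]

theorem NP_pos (hσ : ∀ x, σ (σ x) = x) : 0 < NP σ k := by
  have := num_lt (InP.one (σ := σ) (k := k) hσ)
  omega

theorem NP_le : NP σ k ≤ qK K ^ (k + 1) := by
  unfold NP sel
  exact (List.length_filter_le _ _).trans (by rw [List.length_range])

variable (σ k) in
/-- right multiplication of numbers by a ring element -/
noncomputable def rmulN (s : R σ k) (r : ℕ) : ℕ := num (elt σ k r * s)

variable (σ k) in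
/-- left multiplication of numbers by a ring element -/
noncomputable def lmulN (s : R σ k) (r : ℕ) : ℕ := num (s * elt σ k r)

theorem rmulN_lt (hσ : ∀ x, σ (σ x) = x) {s : R σ k} (hs : InP s) {r : ℕ} (hr : r < NP σ k) :
    rmulN σ k s r < NP σ k := num_lt ((elt_mem hr).mul hσ hs)

theorem lmulN_lt (hσ : ∀ x, σ (σ x) = x) {s : R σ k} (hs : InP s) {r : ℕ} (hr : r < NP σ k) :
    lmulN σ k s r < NP σ k := num_lt (hs.mul hσ (elt_mem hr))

theorem eqP_mul (hσ : ∀ x, σ (σ x) = x) (u s : U hσ k 1) :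
    ((eqP hσ k (u * s) : Fin _) : ℕ) = rmulN σ k ((s : (R σ k)ˣ) : R σ k) (eqP hσ k u) := by
  rw [rmulN, eqP_val, eqP_val, elt_num (InP.of_mem hσ u.2)]
  rfl

theorem eqP_mul' (hσ : ∀ x, σ (σ x) = x) (s u : U hσ k 1) :
    ((eqP hσ k (s * u) : Fin _) : ℕ) = lmulN σ k ((s : (R σ k)ˣ) : R σ k) (eqP hσ k u) := by
  rw [lmulN, eqP_val, eqP_val, elt_num (InP.of_mem hσ u.2)]
  rfl

end group

section groupPT

variable {K : Type} [Field K] [Finite K] [Inhabited K] [PTCode K]
variable {α : Type} [PTCode α] {σ : K →+* K} {k : α → ℕ}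

theorem ptpred_InP (hσ : ∀ x, σ (σ x) = x) (hk : PTU k) {f : ∀ a, R σ (k a)} (hf : PTR σ k f) :
    PTPred (fun a => InP (f a)) :=
  ((PTR.mul hσ hk hf (hf.conj hσ hk)).eq hk (PTR.one hk)).and
    (PTPred.eq (hf.coef (PTF.const 0)) (PTF.const 1))

theorem ptf_isP (hσ : ∀ x, σ (σ x) = x) (hk : PTU k) {i : α → ℕ} (hi : PTF i) :
    PTF (fun a => isP σ (k a) (i a)) := by
  classical
  have h := (ptpred_InP hσ hk (PTR.den (σ := σ) hk hi)).toPTF
  refine h.of_eq fun a => ?_
  unfold isP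
  congr

theorem ptf_isP' (hσ : ∀ x, σ (σ x) = x) (hk : PTU k) :
    PTF (fun q : α × ℕ => isP σ (k q.1) q.2) :=
  ptf_isP (k := fun q : α × ℕ => k q.1) hσ (PTU.comp (n := k) hk PTF.fst) PTF.snd

theorem ptu_NP (hσ : ∀ x, σ (σ x) = x) (hk : PTU k) (hQ : PTU (fun a => qK K ^ (k a + 1))) :
    PTU (fun a => NP σ (k a)) := by
  unfold NP
  exact PTU.length (ptf_sel hQ (ptf_isP' hσ hk))

theorem PTR.elt (hσ : ∀ x, σ (σ x) = x) (hk : PTU k) (hQ : PTU (fun a => qK K ^ (k a + 1)))
    {r : α → ℕ} (hr : PTF r) : PTR σ k (fun a => elt σ (k a) (r a)) := by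
  unfold GkPTF726.elt
  refine PTR.den hk ?_
  exact ptf_getB (ptf_sel hQ (ptf_isP' hσ hk)) hr (PTF.const 0)

theorem PTR.num (hσ : ∀ x, σ (σ x) = x) (hk : PTU k) (hQ : PTU (fun a => qK K ^ (k a + 1)))
    {f : ∀ a, R σ (k a)} (hf : PTR σ k f) : PTF (fun a => num (f a)) := by
  unfold GkPTF726.num
  exact ptf_rnk (p := fun a => isP σ (k a)) hQ (hf.enc hk) (ptf_isP' hσ hk)
    (fun a => (enc_lt (f a)).le)

theorem ptf_rmulN (hσ : ∀ x, σ (σ x) = x) (hk : PTU k) (hQ : PTU (fun a => qK K ^ (k a + 1)))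
    {s : ∀ a, R σ (k a)} (hs : PTR σ k s) {r : α → ℕ} (hr : PTF r) :
    PTF (fun a => rmulN σ (k a) (s a) (r a)) :=
  PTR.num hσ hk hQ (PTR.mul hσ hk (PTR.elt hσ hk hQ hr) hs)

theorem ptf_lmulN (hσ : ∀ x, σ (σ x) = x) (hk : PTU k) (hQ : PTU (fun a => qK K ^ (k a + 1)))
    {s : ∀ a, R σ (k a)} (hs : PTR σ k s) {r : α → ℕ} (hr : PTF r) :
    PTF (fun a => lmulN σ (k a) (s a) (r a)) :=
  PTR.num hσ hk hQ (PTR.mul hσ hk hs (PTR.elt hσ hk hQ hr))

end groupPT

end Crest.Agent.R289.GkPTF726
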