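import Crest.Agent.R289.Gauss_115
import Crest.Agent.R289.GkIdx_594

/-!
# R289, block E (E9): PTF arithmetic of truncated skew power series on digit lists (helper115)

`K` a finite field with a code, `σ : K → K` any map (an involution in the applications).
An element `∑ a_i τ^i` of `K{τ}/τ^(k+1)` is the list `[a_0, .., a_k]`.

* `sg σ i x` = `x` for even `i`, `σ x` for odd `i` (`= σ^[i] x` for an involution).
* `smul σ a b n = ∑ i ≤ n, a i * sg σ i (b (n - i))`, `mulL σ k a b`, `getK_mulL`.
* `conjL σ k a` : even digits `σ a_n`, odd digits `- a_n`;  `oneL k`;  `powL σ k a m`.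
* `prodL`: product of a list of factors.
* all are PTF (`k` unary). Enumeration of the norm-one group and tables: `GkTab_115`.
-/

set_option autoImplicit false
set_option linter.dupNamespace false
set_option linter.unusedSectionVars false

namespace Crest.Agent.R289.GkPT115

open Crest.Agent.Lib.PT Crest.Agent.Lib.PT.Arith Crest.Agent.R288.PtDp115
  Crest.Agent.R289.Gauss115 Crest.Agent.R289.GkIdx594

variable {K : Type} [Field K] [Finite K] [PTCode K]
variable {α β : Type} [PTCode α] [PTCode β]

/-! ### digits -/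

/-- `σ^[i]` for an involution `σ` -/
def sg (σ : K → K) (i : ℕ) (x : K) : K := if i % 2 = 0 then x else σ x

omit [Finite K] [PTCode K] in
theorem sg_eq_iterate {σ : K → K} (h : ∀ x, σ (σ x) = x) (i : ℕ) (x : K) :
    sg σ i x = σ^[i] x := by
  have key : ∀ j, σ^[2 * j] x = x := by
    intro j
    induction j with
    | zero => rfl
    | succ j ih =>
      have : 2 * (j + 1) = (2 * j + 1) + 1 := by ring
      rw [this, Function.iterate_succ_apply', Function.iterate_succ_apply', ih, h]
  unfold sg
  rcases Nat.mod_two_eq_zero_or_one i with hi | hi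
  · rw [if_pos hi]
    have h2 : i = 2 * (i / 2) := by omega
    rw [h2, key]
  · rw [if_neg (by omega)]
    have h2 : i = 2 * (i / 2) + 1 := by omega
    rw [h2, Function.iterate_succ_apply', key]

theorem ptf_sg (σ : K → K) {i : α → ℕ} {x : α → K} (hi : PTF i) (hx : PTF x) :
    PTF (fun a => sg σ (i a) (x a)) := by
  unfold sg
  exact PTF.ite (PTPred.natEq (PTF.natMod hi (PTF.const 2)) (PTF.const 0)) hx
    (PTF.comp (g := fun y : K => σ y) (f := x) (PTF.of_finite _) hx)

/-- digits of a product of skew power series -/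
def smul (σ : K → K) (a b : ℕ → K) (n : ℕ) : K :=
  ∑ i ∈ Finset.range (n + 1), a i * sg σ i (b (n - i))

/-- product modulo `τ ^ (k + 1)` on digit lists -/
def mulL (σ : K → K) (k : ℕ) (a b : List K) : List K :=
  tabK (k + 1) (fun n => ∑ i ∈ Finset.range (k + 1),
    if i ≤ n then getK a i * sg σ i (getK b (n - i)) else 0)

omit [Finite K] [PTCode K] in
theorem length_mulL (σ : K → K) (k : ℕ) (a b : List K) : (mulL σ k a b).length = k + 1 :=
  length_tabK _ _

omit [Finite K] [PTCode K] in
theorem getK_mulL (σ : K → K) {k : ℕ} (a b : List K) {n : ℕ} (hn : n ≤ k) :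
    getK (mulL σ k a b) n = smul σ (getK a) (getK b) n := by
  unfold mulL smul
  rw [getK_tabK _ (Nat.lt_succ_of_le hn), ← Finset.sum_filter]
  apply Finset.sum_congr _ (fun _ _ => rfl)
  ext i
  simp only [Finset.mem_filter, Finset.mem_range]
  omega

omit [Finite K] [PTCode K] in
theorem getK_ge {l : List K} {n : ℕ} (h : l.length ≤ n) : getK l n = 0 :=
  List.getD_eq_default _ _ h

omit [Finite K] [PTCode K] in
/-- two lists of the same length with the same digits are equal -/
theorem list_ext {l l' : List K} (hl : l.length = l'.length)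
    (h : ∀ i, i < l.length → getK l i = getK l' i) : l = l' := by
  apply List.ext_getElem hl
  intro i h1 h2
  have := h i h1
  unfold getK at this
  rwa [List.getD_eq_getElem _ _ h1, List.getD_eq_getElem _ _ h2] at this

theorem ptf_mulL (σ : K → K) {k : α → ℕ} {a b : α → List K} (hk : PTU k) (ha : PTF a)
    (hb : PTF b) : PTF (fun x => mulL σ (k x) (a x) (b x)) := by
  unfold mulL
  refine ptf_tabK (PTU.add hk (PTU.const 1)) ?_
  refine ptf_sumK (n := fun p : α × ℕ => k p.1 + 1)
    (f := fun p i => if i ≤ p.2 then getK (a p.1) i * sg σ i (getK (b p.1) (p.2 - i)) else 0)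
    (PTU.add (PTU.comp hk PTF.fst) (PTU.const 1)) ?_
  have ha' : PTF (fun p : (α × ℕ) × ℕ => a p.1.1) := PTF.comp (g := a) ha (by fun_prop)
  have hb' : PTF (fun p : (α × ℕ) × ℕ => b p.1.1) := PTF.comp (g := b) hb (by fun_prop)
  exact PTF.ite (PTPred.natLe (by fun_prop) (by fun_prop))
    (ptf_kmul (ptf_getK ha' (by fun_prop))
      (ptf_sg σ (by fun_prop) (ptf_getK hb' (PTF.natSub (by fun_prop) (by fun_prop)))))
    (PTF.const 0)

/-- the anti-involution: even digits `σ a_n`, odd digits `- a_n` -/
def conjL (σ : K → K) (k : ℕ) (a : List K) : List K :=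
  tabK (k + 1) (fun n => if n % 2 = 0 then σ (getK a n) else - getK a n)

omit [Finite K] [PTCode K] in
theorem length_conjL (σ : K → K) (k : ℕ) (a : List K) : (conjL σ k a).length = k + 1 :=
  length_tabK _ _

omit [Finite K] [PTCode K] in
theorem getK_conjL (σ : K → K) {k : ℕ} (a : List K) {n : ℕ} (hn : n ≤ k) :
    getK (conjL σ k a) n = if n % 2 = 0 then σ (getK a n) else - getK a n :=
  getK_tabK _ (Nat.lt_succ_of_le hn)

theorem ptf_conjL (σ : K → K) {k : α → ℕ} {a : α → List K} (hk : PTU k) (ha : PTF a) :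
    PTF (fun x => conjL σ (k x) (a x)) := by
  unfold conjL
  have ha' : PTF (fun p : α × ℕ => getK (a p.1) p.2) :=
    ptf_getK (PTF.comp (g := a) ha (by fun_prop)) (by fun_prop)
  exact ptf_tabK (PTU.add hk (PTU.const 1))
    (PTF.ite (PTPred.natEq (PTF.natMod (by fun_prop) (PTF.const 2)) (PTF.const 0))
      (PTF.comp (g := fun y : K => σ y) (PTF.of_finite _) ha') (ptf_kneg ha'))

/-- the unit element -/
def oneL (K : Type) [Field K] (k : ℕ) : List K := tabK (k + 1) (fun n => if n = 0 then 1 else 0)

omit [Finite K] [PTCode K] in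
theorem length_oneL (k : ℕ) : (oneL K k).length = k + 1 := length_tabK _ _

omit [Finite K] [PTCode K] in
theorem getK_oneL {k n : ℕ} (hn : n ≤ k) : getK (oneL K k) n = if n = 0 then 1 else 0 :=
  getK_tabK _ (Nat.lt_succ_of_le hn)

theorem ptf_oneL {k : α → ℕ} (hk : PTU k) : PTF (fun x => oneL K (k x)) := by
  unfold oneL
  exact ptf_tabK (PTU.add hk (PTU.const 1))
    (PTF.ite (PTPred.natEq (by fun_prop) (PTF.const 0)) (PTF.const 1) (PTF.const 0))

/-- a constant times the unit element, more generally a list padded / cut to length `k + 1` -/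
def padL (k : ℕ) (a : List K) : List K := tabK (k + 1) (getK a)

omit [Finite K] [PTCode K] in
theorem length_padL (k : ℕ) (a : List K) : (padL k a).length = k + 1 := length_tabK _ _

omit [Finite K] [PTCode K] in
theorem getK_padL {k : ℕ} (a : List K) {n : ℕ} (hn : n ≤ k) : getK (padL k a) n = getK a n :=
  getK_tabK _ (Nat.lt_succ_of_le hn)

theorem ptf_padL {k : α → ℕ} {a : α → List K} (hk : PTU k) (ha : PTF a) :
    PTF (fun x => padL (k x) (a x)) := by
  unfold padL
  exact ptf_tabK (PTU.add hk (PTU.const 1))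
    (ptf_getK (PTF.comp (g := a) ha (by fun_prop)) (by fun_prop))

/-- powers -/
def powL (σ : K → K) (k : ℕ) (a : List K) : ℕ → List K
  | 0 => oneL K k
  | m + 1 => mulL σ k (powL σ k a m) a

omit [Finite K] [PTCode K] in
theorem length_powL (σ : K → K) (k : ℕ) (a : List K) (m : ℕ) : (powL σ k a m).length = k + 1 := by
  cases m with
  | zero => exact length_oneL k
  | succ m => exact length_mulL _ _ _ _

/-- digit lists of length `k + 1` have size `O(k)` -/
theorem sz_digits_le (K : Type) [Finite K] [PTCode K] :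
    ∃ C : ℕ, ∀ l : List K, sz l ≤ l.length * C := by
  obtain ⟨C, hC⟩ := exists_sz_le K
  exact ⟨2 * C + 1, fun l => sz_list_le (fun x _ => hC x)⟩

theorem ptf_powL (σ : K → K) {k m : α → ℕ} {a : α → List K} (hk : PTU k) (hm : PTU m)
    (ha : PTF a) : PTF (fun x => powL σ (k x) (a x) (m x)) := by
  obtain ⟨C, hC⟩ := sz_digits_le K
  refine ptf_natRec (r := fun x i => powL σ (k x) (a x) i) (b := fun x => oneL K (k x))
    (s := fun x _ t => mulL σ (k x) t (a x)) hm (ptf_oneL hk) ?_ (fun x => rfl)
    (fun x i _ => rfl) (B := fun x => (k x + 1) * C) ?_ (fun x i _ => ?_)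
  · exact ptf_mulL σ (PTU.comp hk PTF.fst) (by fun_prop) (PTF.comp (g := a) ha PTF.fst)
  · have := hk.pb
    fun_prop
  · have := hC (powL σ (k x) (a x) i)
    rwa [length_powL] at this

/-- product of a list of factors -/
def prodL (σ : K → K) (k : ℕ) (l : List (List K)) : List K :=
  l.foldl (fun s a => mulL σ k s a) (oneL K k)

omit [Finite K] [PTCode K] in
theorem length_foldl_mulL (σ : K → K) (k : ℕ) (l : List (List K)) (s : List K)
    (hs : s.length = k + 1) : (l.foldl (fun s a => mulL σ k s a) s).length = k + 1 := by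
  induction l generalizing s with
  | nil => exact hs
  | cons a l ih => exact ih _ (length_mulL _ _ _ _)

theorem ptf_prodL (σ : K → K) {k : α → ℕ} {l : α → List (List K)} (hk : PTU k) (hl : PTF l) :
    PTF (fun x => prodL σ (k x) (l x)) := by
  obtain ⟨C, hC⟩ := sz_digits_le K
  unfold prodL
  refine PTF.foldl (f := fun x s a => mulL σ (k x) s a) hl ?_ (ptf_oneL hk)
    (B := fun x => (k x + 1) * C) ?_ (fun x i _ => ?_)
  · exact ptf_mulL σ (PTU.comp hk (by fun_prop)) (by fun_prop) (by fun_prop)
  · have := hk.pb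
    fun_prop
  · have := hC ((((l x).take i)).foldl (fun s a => mulL σ (k x) s a) (oneL K (k x)))
    rwa [length_foldl_mulL _ _ _ _ (length_oneL _)] at this

end Crest.Agent.R289.GkPT115
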