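import Crest.Agent.R289.SkewGrp_877
import Crest.Agent.R289.GkIdx_594
import Crest.Agent.R289.Gauss_115

/-!
# R289, block E (E9b): the concrete group in polynomial time (helper793)

`R σ k = K{τ}/τ^(k+1)` and `P k = U hσ k 1` of `SkewGrp_877`.

* `toL : R σ k → List K` (digit list, length `k + 1`), `ofL`; `mulL, conjL, oneL` with
  `toL (f * g) = mulL σ k (toL f) (toL g)` etc.; PTF.
* `isP σ k l : Prop` (membership in `P k`), `code k : P k ≃ {l // l.length = k + 1 ∧ isP σ k l}`.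
* numbering: `nP σ k = Nat.card (P k)`, `eltL σ k i` (digit list of the `i`-th element),
  `ixL σ k l` (number of the element with digit list `l`), `numP : Fin (nP σ k) ≃ P k`; PTF.
-/

set_option autoImplicit false
set_option linter.dupNamespace false
set_option linter.unusedSectionVars false

namespace Crest.Agent.R289.GkPT793

open Crest.Agent.Lib.PT Crest.Agent.Lib.PT.Arith Crest.Agent.R288.PtDp115
open Crest.Agent.R289.Gauss115 Crest.Agent.R289.GkIdx594 Crest.Agent.R289.SkewGrp877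

section alg

variable {K : Type} [Field K] (σ : K →+* K)

/-- `σ` applied `i` times, for an involution -/
def sg (i : ℕ) (x : K) : K := if i % 2 = 0 then x else σ x

variable {σ}

theorem sg_eq (hσ : ∀ x, σ (σ x) = x) (i : ℕ) (x : K) : (σ ^ i) x = sg σ i x := by
  unfold sg
  split_ifs with h
  · exact spow_even hσ h x
  · exact spow_odd hσ (by omega) x

/-- the digit list of an element -/
def toL {k : ℕ} (f : R σ k) : List K := tabK (k + 1) (c f)

variable (σ) in
/-- the element with a given digit list -/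
def ofL (k : ℕ) (l : List K) : R σ k := mk (getK l)

@[simp] theorem length_toL {k : ℕ} (f : R σ k) : (toL f).length = k + 1 := length_tabK _ _

theorem getK_toL {k : ℕ} (f : R σ k) (n : ℕ) : getK (toL f) n = c f n := by
  rcases Nat.lt_or_ge n (k + 1) with h | h
  · exact getK_tabK _ h
  · rw [c_gt f (by omega)]
    unfold getK
    exact List.getD_eq_default _ _ (by simpa using h)

theorem c_ofL {k : ℕ} (l : List K) {n : ℕ} (hn : n ≤ k) : c (ofL σ k l) n = getK l n := c_mk _ hn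

theorem ofL_toL {k : ℕ} (f : R σ k) : ofL σ k (toL f) = f :=
  ext' fun n hn => by rw [c_ofL _ hn, getK_toL]

theorem toL_injective {k : ℕ} {f g : R σ k} (h : toL f = toL g) : f = g := by
  rw [← ofL_toL f, h, ofL_toL]

theorem toL_ofL {k : ℕ} {l : List K} (hl : l.length = k + 1) : toL (ofL σ k l) = l := by
  refine List.ext_getElem (by simp [hl]) fun n h1 h2 => ?_
  have h3 : getK (toL (ofL σ k l)) n = getK l n := by
    rw [getK_toL, c_ofL _ (by omega)]
  unfold getK at h3
  rwa [List.getD_eq_getElem _ _ h1, List.getD_eq_getElem _ _ h2] at h3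

variable (σ)

/-- digit list of a product -/
def mulL (k : ℕ) (a b : List K) : List K :=
  tabK (k + 1) fun n => ∑ i ∈ Finset.range (min n k + 1), getK a i * sg σ i (getK b (n - i))

/-- digit list of the conjugate -/
def conjL (k : ℕ) (a : List K) : List K :=
  tabK (k + 1) fun n => (if n % 2 = 0 then 1 else -1) * sg σ (n + 1) (getK a n)

variable (K) in
/-- digit list of `1` -/
def oneL (k : ℕ) : List K := tabK (k + 1) fun n => if n = 0 then 1 else 0

variable {σ}

theorem toL_eq_tabK {k : ℕ} {f : R σ k} {F : ℕ → K} (h : ∀ n ≤ k, c f n = F n) :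
    toL f = tabK (k + 1) F := by
  unfold toL tabK
  exact List.map_congr_left fun n hn => h n (by rw [List.mem_range] at hn; omega)

theorem toL_mul (hσ : ∀ x, σ (σ x) = x) {k : ℕ} (f g : R σ k) :
    toL (f * g) = mulL σ k (toL f) (toL g) := by
  refine toL_eq_tabK fun n hn => ?_
  rw [c_mul f g hn, min_eq_left hn,
    Finset.Nat.sum_antidiagonal_eq_sum_range_succ_mk]
  refine Finset.sum_congr rfl fun i _ => ?_
  rw [getK_toL, getK_toL, sg_eq hσ]

theorem toL_conj (hσ : ∀ x, σ (σ x) = x) {k : ℕ} (f : R σ k) :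
    toL (conj f) = conjL σ k (toL f) := by
  refine toL_eq_tabK fun n hn => ?_
  rw [c_conj f hn, getK_toL, sg_eq hσ]
  split_ifs with h
  · rw [(Nat.even_iff.2 h).neg_one_pow]
  · rw [(Nat.odd_iff.2 (by omega)).neg_one_pow]

theorem toL_one {k : ℕ} : toL (1 : R σ k) = oneL K k := toL_eq_tabK fun _ hn => c_one hn

variable (σ) in
/-- membership in the norm-one group with constant term `1` -/
def isP (k : ℕ) (l : List K) : Prop := mulL σ k l (conjL σ k l) = oneL K k ∧ getK l 0 = 1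

theorem isP_toL (hσ : ∀ x, σ (σ x) = x) {k : ℕ} (f : R σ k) :
    isP σ k (toL f) ↔ f * conj f = 1 ∧ c f 0 = 1 := by
  unfold isP
  rw [← toL_conj hσ, ← toL_mul hσ, ← toL_one (σ := σ), getK_toL]
  exact ⟨fun h => ⟨toL_injective h.1, h.2⟩, fun h => ⟨by rw [h.1], h.2⟩⟩

theorem mem_P_iff (hσ : ∀ x, σ (σ x) = x) {k : ℕ} {u : (R σ k)ˣ} :
    u ∈ U hσ k 1 ↔ (u : R σ k) * conj (u : R σ k) = 1 ∧ c (u : R σ k) 0 = 1 := by
  rw [mem_U hσ, mem_SG hσ]
  refine and_congr_right fun _ => ?_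
  unfold J
  constructor
  · intro h
    have := h 0 (by norm_num)
    rw [c_sub, c_one (Nat.zero_le k), if_pos rfl, sub_eq_zero] at this
    exact this
  · intro h n hn
    have h0 : n = 0 := by omega
    subst h0
    rw [c_sub, c_one (Nat.zero_le k), if_pos rfl, h, sub_self]

variable [Finite K]

theorem unit_of {k : ℕ} {f g : R σ k} (h : f * g = 1) : g * f = 1 := by
  have : Finite (R σ k) := inferInstance
  exact mul_eq_one_comm.1 h

/-- the element of `P k` with a given digit list -/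
noncomputable def mkP (hσ : ∀ x, σ (σ x) = x) (k : ℕ) (l : List K) (hl : isP σ k (toL (ofL σ k l))) :
    U hσ k 1 :=
  ⟨⟨ofL σ k l, conj (ofL σ k l), ((isP_toL hσ _).1 hl).1, unit_of ((isP_toL hσ _).1 hl).1⟩,
    (mem_P_iff hσ).2 ((isP_toL hσ _).1 hl)⟩

end alg

/-- `0` as default element -/
@[reducible] def inh (K : Type) [Field K] : Inhabited K := ⟨0⟩

attribute [local instance] inh

section num

variable {K : Type} [Field K] [Finite K] (σ : K →+* K)

open Classical in
/-- is `i` the code of a digit list of an element of `P k`? -/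
noncomputable def pB (k i : ℕ) : Bool := decide (isP σ k (digs K (k + 1) i))

/-- the codes of the elements of `P k`, increasing -/
noncomputable def lstP (k : ℕ) : List ℕ := sel (qK K ^ (k + 1)) (pB σ k)

/-- number of elements of `P k` -/
noncomputable def nP (k : ℕ) : ℕ := (lstP σ k).length

/-- digit list of the `i`-th element -/
noncomputable def eltL (k i : ℕ) : List K := digs K (k + 1) ((lstP σ k).getD i 0)

/-- number of the element with digit list `l` -/
noncomputable def ixL (k : ℕ) (l : List K) : ℕ := rnk (pB σ k) (idx l)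

variable {σ}

theorem pB_idx {k : ℕ} {l : List K} (h : l.length = k + 1) (h' : isP σ k l) :
    pB σ k (idx l) = true := by
  classical
  unfold pB
  rw [decide_eq_true_iff, ← h, digs_idx l]
  exact h'

theorem idx_lt_pow {k : ℕ} {l : List K} (h : l.length = k + 1) : idx l < qK K ^ (k + 1) := by
  rw [← h]; exact GkIdx594.idx_lt l

theorem ixL_lt {k : ℕ} {l : List K} (h : l.length = k + 1) (h' : isP σ k l) :
    ixL σ k l < nP σ k := rnk_lt (idx_lt_pow h) (pB_idx h h')

theorem eltL_ixL {k : ℕ} {l : List K} (h : l.length = k + 1) (h' : isP σ k l) :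
    eltL σ k (ixL σ k l) = l := by
  unfold eltL ixL lstP
  rw [sel_getD_rnk 0 (idx_lt_pow h) (pB_idx h h'), ← h, digs_idx l]

theorem getD_lstP {k i : ℕ} (h : i < nP σ k) :
    (lstP σ k).getD i 0 < qK K ^ (k + 1) ∧ pB σ k ((lstP σ k).getD i 0) = true := by
  have h1 : (lstP σ k).getD i 0 ∈ lstP σ k := by
    rw [List.getD_eq_getElem _ _ h]
    exact List.getElem_mem h
  exact mem_sel.1 h1

@[simp] theorem length_eltL (k i : ℕ) : (eltL σ k i).length = k + 1 := by simp [eltL]

theorem isP_eltL {k i : ℕ} (h : i < nP σ k) : isP σ k (eltL σ k i) := by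
  classical
  have := (getD_lstP h).2
  unfold pB at this
  rwa [decide_eq_true_iff] at this

theorem ixL_eltL {k i : ℕ} (h : i < nP σ k) : ixL σ k (eltL σ k i) = i := by
  unfold ixL eltL
  rw [idx_digs (getD_lstP h).1]
  exact rnk_sel_getD 0 h

/-- digit list of an element of `P k` -/
def lP (hσ : ∀ x, σ (σ x) = x) {k : ℕ} (u : U hσ k 1) : List K := toL ((u : (R σ k)ˣ) : R σ k)

theorem isP_lP (hσ : ∀ x, σ (σ x) = x) {k : ℕ} (u : U hσ k 1) : isP σ k (lP hσ u) :=
  (isP_toL hσ _).2 ((mem_P_iff hσ).1 u.2)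

@[simp] theorem length_lP (hσ : ∀ x, σ (σ x) = x) {k : ℕ} (u : U hσ k 1) :
    (lP hσ u).length = k + 1 := length_toL _

theorem lP_injective (hσ : ∀ x, σ (σ x) = x) {k : ℕ} : Function.Injective (lP hσ (k := k)) :=
  fun _ _ h => Subtype.ext (Units.ext (toL_injective h))

/-- the element of `P k` with digit list `l` (`1` if there is none) -/
noncomputable def eP (hσ : ∀ x, σ (σ x) = x) (k : ℕ) (l : List K) : U hσ k 1 := by
  classical
  exact if hl : isP σ k (toL (ofL σ k l)) then mkP hσ k l hl else 1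

theorem lP_eP (hσ : ∀ x, σ (σ x) = x) {k : ℕ} {l : List K} (h : l.length = k + 1)
    (h' : isP σ k l) : lP hσ (eP hσ k l) = l := by
  have h1 : isP σ k (toL (ofL σ k l)) := by rwa [toL_ofL h]
  unfold eP
  rw [dif_pos h1]
  exact toL_ofL h

theorem eP_lP (hσ : ∀ x, σ (σ x) = x) {k : ℕ} (u : U hσ k 1) : eP hσ k (lP hσ u) = u :=
  lP_injective hσ (lP_eP hσ (length_lP hσ u) (isP_lP hσ u))

/-- **numbering of `P k`** -/
noncomputable def numP (hσ : ∀ x, σ (σ x) = x) (k : ℕ) : Fin (nP σ k) ≃ U hσ k 1 where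
  toFun i := eP hσ k (eltL σ k i)
  invFun u := ⟨ixL σ k (lP hσ u), ixL_lt (length_lP hσ u) (isP_lP hσ u)⟩
  left_inv i := Fin.ext (by
    show ixL σ k (lP hσ (eP hσ k (eltL σ k i))) = i
    rw [lP_eP hσ (length_eltL k i) (isP_eltL i.2), ixL_eltL i.2])
  right_inv u := by
    show eP hσ k (eltL σ k (ixL σ k (lP hσ u))) = u
    rw [eltL_ixL (length_lP hσ u) (isP_lP hσ u), eP_lP]

theorem nP_eq_card (hσ : ∀ x, σ (σ x) = x) (k : ℕ) : nP σ k = Nat.card (U hσ k 1) := by
  rw [← Nat.card_congr (numP hσ k), Nat.card_eq_fintype_card, Fintype.card_fin]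

theorem lP_numP (hσ : ∀ x, σ (σ x) = x) {k : ℕ} (i : Fin (nP σ k)) :
    lP hσ (numP hσ k i) = eltL σ k i := lP_eP hσ (length_eltL k i) (isP_eltL i.2)

theorem numP_symm_val (hσ : ∀ x, σ (σ x) = x) {k : ℕ} (u : U hσ k 1) :
    ((numP hσ k).symm u : ℕ) = ixL σ k (lP hσ u) := rfl

theorem lP_mul (hσ : ∀ x, σ (σ x) = x) {k : ℕ} (u v : U hσ k 1) :
    lP hσ (u * v) = mulL σ k (lP hσ u) (lP hσ v) := toL_mul hσ _ _

theorem lP_one (hσ : ∀ x, σ (σ x) = x) {k : ℕ} : lP hσ (1 : U hσ k 1) = oneL K k := toL_one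

theorem inv_val (hσ : ∀ x, σ (σ x) = x) {k : ℕ} (u : U hσ k 1) :
    (((u⁻¹ : U hσ k 1) : (R σ k)ˣ) : R σ k) = conj ((u : (R σ k)ˣ) : R σ k) := by
  have h := ((mem_P_iff hσ).1 u.2).1
  have h2 : ((u : (R σ k)ˣ) : R σ k) * (((u⁻¹ : U hσ k 1) : (R σ k)ˣ) : R σ k) = 1 := by
    rw [← Units.val_mul, ← Subgroup.coe_mul, mul_inv_cancel, Subgroup.coe_one, Units.val_one]
  have h3 := unit_of h
  calc (((u⁻¹ : U hσ k 1) : (R σ k)ˣ) : R σ k)
      = (conj ((u : (R σ k)ˣ) : R σ k) * ((u : (R σ k)ˣ) : R σ k)) *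
          (((u⁻¹ : U hσ k 1) : (R σ k)ˣ) : R σ k) := by rw [h3, one_mul]
    _ = _ := by rw [mul_assoc, h2, mul_one]

theorem lP_inv (hσ : ∀ x, σ (σ x) = x) {k : ℕ} (u : U hσ k 1) :
    lP hσ u⁻¹ = conjL σ k (lP hσ u) := by
  unfold lP
  rw [inv_val, toL_conj hσ]

/-- number of a product -/
theorem num_mul (hσ : ∀ x, σ (σ x) = x) {k : ℕ} (i : Fin (nP σ k)) (g : U hσ k 1) :
    ((numP hσ k).symm (numP hσ k i * g) : ℕ) = ixL σ k (mulL σ k (eltL σ k i) (lP hσ g)) := by
  rw [numP_symm_val, lP_mul, lP_numP]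

theorem num_mul_left (hσ : ∀ x, σ (σ x) = x) {k : ℕ} (i : Fin (nP σ k)) (g : U hσ k 1) :
    ((numP hσ k).symm (g * numP hσ k i) : ℕ) = ixL σ k (mulL σ k (lP hσ g) (eltL σ k i)) := by
  rw [numP_symm_val, lP_mul, lP_numP]

theorem isP_mulL (hσ : ∀ x, σ (σ x) = x) {k : ℕ} {a b : List K} (ha : a.length = k + 1)
    (hb : b.length = k + 1) (ha' : isP σ k a) (hb' : isP σ k b) : isP σ k (mulL σ k a b) := by
  rw [← lP_eP hσ ha ha', ← lP_eP hσ hb hb', ← lP_mul]
  exact isP_lP hσ _

theorem isP_conjL (hσ : ∀ x, σ (σ x) = x) {k : ℕ} {a : List K} (ha : a.length = k + 1)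
    (ha' : isP σ k a) : isP σ k (conjL σ k a) := by
  rw [← lP_eP hσ ha ha', ← lP_inv]
  exact isP_lP hσ _

@[simp] theorem length_mulL (k : ℕ) (a b : List K) : (mulL σ k a b).length = k + 1 :=
  length_tabK _ _

@[simp] theorem length_conjL (k : ℕ) (a : List K) : (conjL σ k a).length = k + 1 :=
  length_tabK _ _

@[simp] theorem length_oneL (k : ℕ) : (oneL K k).length = k + 1 := length_tabK _ _

variable (σ) in
/-- multiplication of numbers of elements -/
noncomputable def mulI (k i j : ℕ) : ℕ := ixL σ k (mulL σ k (eltL σ k i) (eltL σ k j))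

variable (σ) in
/-- inversion of numbers of elements -/
noncomputable def invI (k i : ℕ) : ℕ := ixL σ k (conjL σ k (eltL σ k i))

theorem numP_mul (hσ : ∀ x, σ (σ x) = x) {k : ℕ} (i j : Fin (nP σ k)) :
    ((numP hσ k).symm (numP hσ k i * numP hσ k j) : ℕ) = mulI σ k i j := by
  rw [num_mul, lP_numP]; rfl

theorem numP_inv (hσ : ∀ x, σ (σ x) = x) {k : ℕ} (i : Fin (nP σ k)) :
    ((numP hσ k).symm (numP hσ k i)⁻¹ : ℕ) = invI σ k i := by
  rw [numP_symm_val, lP_inv, lP_numP]; rfl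

theorem mulI_lt (hσ : ∀ x, σ (σ x) = x) {k i j : ℕ} (hi : i < nP σ k) (hj : j < nP σ k) :
    mulI σ k i j < nP σ k := by
  have := numP_mul hσ (⟨i, hi⟩ : Fin (nP σ k)) ⟨j, hj⟩
  rw [← this]; exact Fin.is_lt _

theorem invI_lt (hσ : ∀ x, σ (σ x) = x) {k i : ℕ} (hi : i < nP σ k) : invI σ k i < nP σ k := by
  have := numP_inv hσ (⟨i, hi⟩ : Fin (nP σ k))
  rw [← this]; exact Fin.is_lt _

theorem nP_pos (hσ : ∀ x, σ (σ x) = x) (k : ℕ) : 0 < nP σ k :=
  lt_of_le_of_lt (Nat.zero_le _) ((numP hσ k).symm 1).2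

end num

/-! ### polynomial time -/

section ptf

variable {K : Type} [Field K] [Finite K] [PTCode K] {σ : K →+* K}
variable {α : Type} [PTCode α]

theorem ptf_sg {i : α → ℕ} {x : α → K} (hi : PTF i) (hx : PTF x) :
    PTF (fun a => sg σ (i a) (x a)) := by
  unfold sg
  exact PTF.ite (PTPred.natEq (PTF.natMod hi (PTF.const 2)) (PTF.const 0)) hx
    (PTF.comp (g := fun y : K => σ y) (PTF.of_finite _) hx)

theorem ptf_mulL {k : α → ℕ} {a b : α → List K} (hk : PTU k) (ha : PTF a) (hb : PTF b) :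
    PTF (fun x => mulL σ (k x) (a x) (b x)) := by
  unfold mulL
  refine ptf_tabK (f := fun x n => ∑ i ∈ Finset.range (min n (k x) + 1),
    getK (a x) i * sg σ i (getK (b x) (n - i))) (PTU.succ hk) ?_
  refine ptf_sumK (n := fun p : α × ℕ => min p.2 (k p.1) + 1)
    (f := fun p i => getK (a p.1) i * sg σ i (getK (b p.1) (p.2 - i)))
    (PTU.succ (PTF.natMinUn PTF.snd (PTU.comp hk PTF.fst))) ?_
  have ha' : PTF (fun p : (α × ℕ) × ℕ => a p.1.1) := PTF.comp (g := a) ha (by fun_prop)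
  have hb' : PTF (fun p : (α × ℕ) × ℕ => b p.1.1) := PTF.comp (g := b) hb (by fun_prop)
  refine ptf_kmul (ptf_getK ha' PTF.snd) (ptf_sg PTF.snd (ptf_getK hb' ?_))
  exact PTF.natSub (by fun_prop) (by fun_prop)

theorem ptf_conjL {k : α → ℕ} {a : α → List K} (hk : PTU k) (ha : PTF a) :
    PTF (fun x => conjL σ (k x) (a x)) := by
  unfold conjL
  refine ptf_tabK (f := fun x n => (if n % 2 = 0 then 1 else -1) * sg σ (n + 1) (getK (a x) n))
    (PTU.succ hk) ?_
  have ha' : PTF (fun p : α × ℕ => a p.1) := PTF.comp (g := a) ha (by fun_prop)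
  refine ptf_kmul (PTF.ite (PTPred.natEq (PTF.natMod PTF.snd (PTF.const 2)) (PTF.const 0))
    (PTF.const 1) (PTF.const (-1))) (ptf_sg (PTF.natAdd PTF.snd (PTF.const 1))
      (ptf_getK ha' PTF.snd))

theorem ptf_oneL {k : α → ℕ} (hk : PTU k) : PTF (fun x => oneL K (k x)) := by
  unfold oneL
  refine ptf_tabK (f := fun _ n => if n = 0 then (1 : K) else 0) (PTU.succ hk) ?_
  exact PTF.ite (PTPred.natEq PTF.snd (PTF.const 0)) (PTF.const 1) (PTF.const 0)

theorem ptpred_isP {k : α → ℕ} {a : α → List K} (hk : PTU k) (ha : PTF a) :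
    PTPred (fun x => isP σ (k x) (a x)) := by
  unfold isP
  exact PTPred.and (PTPred.eq (ptf_mulL hk ha (ptf_conjL hk ha)) (ptf_oneL hk))
    (PTPred.eq (ptf_getK ha (PTF.const 0)) (PTF.const 1))

theorem ptf_pB {k : α → ℕ} {i : α → ℕ} (hk : PTU k) (hi : PTF i) :
    PTF (fun x => pB σ (k x) (i x)) := by
  classical
  unfold pB
  have h := ptpred_isP (σ := σ) hk (ptf_digs (K := K) (PTU.succ hk) hi)
  exact PTF.of_eq (PTPred.toPTF h) fun x => by congr

theorem ptf_lstP {k : α → ℕ} (hk : PTU k) (hN : PTU (fun a => qK K ^ (k a + 1))) :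
    PTF (fun x => lstP σ (k x)) := by
  unfold lstP
  exact ptf_sel hN (ptf_pB (PTU.comp hk PTF.fst) PTF.snd)

theorem ptu_nP {k : α → ℕ} (hk : PTU k) (hN : PTU (fun a => qK K ^ (k a + 1))) :
    PTU (fun x => nP σ (k x)) := PTU.length (ptf_lstP hk hN)

theorem ptf_eltL {k i : α → ℕ} (hk : PTU k) (hN : PTU (fun a => qK K ^ (k a + 1))) (hi : PTF i) :
    PTF (fun x => eltL σ (k x) (i x)) := by
  unfold eltL
  exact ptf_digs (PTU.succ hk) (ptf_getB (ptf_lstP hk hN) hi (PTF.const 0))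

/-- the number of the element with digit list `l` (`0` if `l` is too long) -/
theorem ptf_ixL {k : α → ℕ} {l : α → List K} (hk : PTU k)
    (hN : PTU (fun a => qK K ^ (k a + 1))) (hl : PTF l) (hlen : ∀ a, (l a).length = k a + 1) :
    PTF (fun x => ixL σ (k x) (l x)) := by
  unfold ixL
  exact ptf_rnk hN (ptf_idx hl) (ptf_pB (PTU.comp hk PTF.fst) PTF.snd)
    fun a => (idx_lt_pow (hlen a)).le

theorem ptf_mulI {k i j : α → ℕ} (hk : PTU k) (hN : PTU (fun a => qK K ^ (k a + 1)))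
    (hi : PTF i) (hj : PTF j) : PTF (fun x => mulI σ (k x) (i x) (j x)) :=
  ptf_ixL hk hN (ptf_mulL hk (ptf_eltL hk hN hi) (ptf_eltL hk hN hj)) fun _ => length_mulL _ _ _

theorem ptf_invI {k i : α → ℕ} (hk : PTU k) (hN : PTU (fun a => qK K ^ (k a + 1)))
    (hi : PTF i) : PTF (fun x => invI σ (k x) (i x)) :=
  ptf_ixL hk hN (ptf_conjL hk (ptf_eltL hk hN hi)) fun _ => length_conjL _ _

/-- right multiplication by a fixed element given by its digit list, on numbers -/
theorem ptf_rmul {k i : α → ℕ} {g : α → List K} (hk : PTU k)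
    (hN : PTU (fun a => qK K ^ (k a + 1))) (hi : PTF i) (hg : PTF g) :
    PTF (fun x => ixL σ (k x) (mulL σ (k x) (eltL σ (k x) (i x)) (g x))) :=
  ptf_ixL hk hN (ptf_mulL hk (ptf_eltL hk hN hi) hg) fun _ => length_mulL _ _ _

/-- left multiplication by a fixed element given by its digit list, on numbers -/
theorem ptf_lmul {k i : α → ℕ} {g : α → List K} (hk : PTU k)
    (hN : PTU (fun a => qK K ^ (k a + 1))) (hi : PTF i) (hg : PTF g) :
    PTF (fun x => ixL σ (k x) (mulL σ (k x) (g x) (eltL σ (k x) (i x)))) :=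
  ptf_ixL hk hN (ptf_mulL hk hg (ptf_eltL hk hN hi)) fun _ => length_mulL _ _ _

end ptf

end Crest.Agent.R289.GkPT793
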