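import Crest.Agent.R289.GkPT_115
import Crest.Agent.R289.SkewGrp_877

/-!
# R289, block E (E9): tables of the norm-one group in polynomial time (helper115)

`K` a finite field with a code, `σ : K →+* K` an involution, `R σ k = K{τ}/τ^(k+1)` and
`U hσ k 1` = the norm-one elements `≡ 1 mod τ` (`SkewGrp_877`).

* `ofR : R σ k → List K`, `toR σ k : List K → R σ k`; `toR_mulL`, `toR_conjL`, `toR_oneL`,
  `toR_powL`.
* `memP σ k l : Bool`; `mem_U_iff`, `toU`.
* `nP σ k`, `el σ k r : List K`, `rk σ k l : ℕ`;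
  `eP hσ k : U hσ k 1 ≃ Fin (nP σ k)` with `(eP u : ℕ) = rk σ k (ofR u)`, `ofR (eP⁻¹ r) = el σ k r`.
* `rm σ k γ r = rk (el r * γ)`, `lm σ k γ r = rk (γ * el r)`, `iv σ k r`; `rm_spec`, `lm_spec`,
  `iv_spec`.
* `normL`, `normR u = u * (u * conj u) ^ ((p ^ k - 1) / 2)`; `normR_mem`.
* all PTF (`k` and `(Nat.card K) ^ k` unary).
-/

set_option autoImplicit false
set_option linter.dupNamespace false
set_option linter.unusedSectionVars false

namespace Crest.Agent.R289.GkTab115

open Crest.Agent.Lib.PT Crest.Agent.Lib.PT.Arith Crest.Agent.R288.PtDp115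
  Crest.Agent.R289.Gauss115 Crest.Agent.R289.GkIdx594 Crest.Agent.R289.GkPT115
  Crest.Agent.R289.SkewGrp877

/-! ### coefficients as lists -/

section lists

variable {K : Type} [Field K] {σ : K →+* K} {k : ℕ}

/-- the list of coefficients -/
def ofR (f : R σ k) : List K := tabK (k + 1) (c f)

/-- the element with given coefficients -/
def toR (σ : K →+* K) (k : ℕ) (l : List K) : R σ k := mk (getK l)

theorem c_toR (l : List K) {n : ℕ} (hn : n ≤ k) : c (toR σ k l) n = getK l n := c_mk _ hn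

theorem length_ofR (f : R σ k) : (ofR f).length = k + 1 := length_tabK _ _

theorem getK_ofR (f : R σ k) {n : ℕ} (hn : n ≤ k) : getK (ofR f) n = c f n :=
  getK_tabK _ (Nat.lt_succ_of_le hn)

theorem toR_ofR (f : R σ k) : toR σ k (ofR f) = f :=
  ext' fun n hn => by rw [c_toR _ hn, getK_ofR _ hn]

theorem ofR_toR {l : List K} (hl : l.length = k + 1) : ofR (toR σ k l) = l := by
  refine list_ext (by rw [length_ofR, hl]) fun i hi => ?_
  rw [length_ofR] at hi
  rw [getK_ofR _ (Nat.le_of_lt_succ hi), c_toR _ (Nat.le_of_lt_succ hi)]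

theorem ofR_injective : Function.Injective (ofR : R σ k → List K) := fun f g h => by
  rw [← toR_ofR f, ← toR_ofR g, h]

theorem sg_eq (hσ : ∀ x, σ (σ x) = x) (i : ℕ) (x : K) : sg σ i x = (σ ^ i) x := by
  unfold sg
  split_ifs with h
  · rw [spow_even hσ h]
  · rw [spow_odd hσ (by omega)]

theorem toR_mulL (hσ : ∀ x, σ (σ x) = x) (a b : List K) :
    toR σ k (mulL σ k a b) = toR σ k a * toR σ k b := by
  refine ext' fun n hn => ?_
  rw [c_toR _ hn, getK_mulL _ _ _ hn, c_mul _ _ hn]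
  unfold smul
  rw [Finset.Nat.sum_antidiagonal_eq_sum_range_succ
    (fun i j => c (toR σ k a) i * (σ ^ i) (c (toR σ k b) j)) n]
  refine Finset.sum_congr rfl fun i hi => ?_
  rw [Finset.mem_range] at hi
  rw [c_toR _ (by omega), c_toR _ (by omega), sg_eq hσ]

theorem toR_conjL (hσ : ∀ x, σ (σ x) = x) (a : List K) :
    toR σ k (conjL σ k a) = conj (toR σ k a) := by
  refine ext' fun n hn => ?_
  rw [c_toR _ hn, getK_conjL _ _ hn, c_conj _ hn, c_toR _ hn]
  split_ifs with h
  · rw [Even.neg_one_pow (Nat.even_iff.mpr h), one_mul, spow_odd hσ (by omega)]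
  · rw [Odd.neg_one_pow (Nat.odd_iff.mpr (by omega)), spow_even hσ (by omega), neg_one_mul]

theorem toR_oneL : toR σ k (oneL K k) = 1 := by
  refine ext' fun n hn => ?_
  rw [c_toR _ hn, getK_oneL hn, c_one hn]

theorem toR_padL (a : List K) : toR σ k (padL k a) = toR σ k a := by
  refine ext' fun n hn => ?_
  rw [c_toR _ hn, getK_padL _ hn, c_toR _ hn]

theorem toR_powL (hσ : ∀ x, σ (σ x) = x) (a : List K) (m : ℕ) :
    toR σ k (powL σ k a m) = toR σ k a ^ m := by
  induction m with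
  | zero => rw [pow_zero]; exact toR_oneL
  | succ m ih =>
    rw [pow_succ, ← ih]
    exact toR_mulL hσ _ _

theorem ofR_mul (hσ : ∀ x, σ (σ x) = x) (f g : R σ k) :
    ofR (f * g) = mulL σ k (ofR f) (ofR g) := by
  rw [← ofR_toR (σ := σ) (length_mulL σ k (ofR f) (ofR g)), toR_mulL hσ, toR_ofR, toR_ofR]

theorem ofR_conj (hσ : ∀ x, σ (σ x) = x) (f : R σ k) : ofR (conj f) = conjL σ k (ofR f) := by
  rw [← ofR_toR (σ := σ) (length_conjL σ k (ofR f)), toR_conjL hσ, toR_ofR]

theorem ofR_one : ofR (1 : R σ k) = oneL K k := by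
  rw [← ofR_toR (σ := σ) (length_oneL (K := K) k), toR_oneL]

theorem toR_prodL (hσ : ∀ x, σ (σ x) = x) (l : List (List K)) :
    toR σ k (prodL σ k l) = (l.map (toR σ k)).prod := by
  have key : ∀ (l : List (List K)) (s : List K),
      toR σ k (l.foldl (fun s a => mulL σ k s a) s) = toR σ k s * (l.map (toR σ k)).prod := by
    intro l
    induction l with
    | nil => intro s; simp
    | cons a l ih =>
      intro s
      rw [List.foldl_cons, ih, toR_mulL hσ, List.map_cons, List.prod_cons, mul_assoc]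
  unfold prodL
  rw [key, toR_oneL, one_mul]

/-! ### membership -/

open Classical in
/-- norm one and constant term one -/
noncomputable def memP (σ : K → K) (k : ℕ) (l : List K) : Bool :=
  decide (mulL σ k l (conjL σ k l) = oneL K k) && decide (getK l 0 = 1)

theorem memP_iff {σ' : K → K} {l : List K} :
    memP σ' k l = true ↔ mulL σ' k l (conjL σ' k l) = oneL K k ∧ getK l 0 = 1 := by
  unfold memP
  simp

theorem memP_ofR (hσ : ∀ x, σ (σ x) = x) (f : R σ k) :
    memP σ k (ofR f) = true ↔ f * conj f = 1 ∧ c f 0 = 1 := by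
  rw [memP_iff, ← ofR_conj hσ, ← ofR_mul hσ, ← ofR_one (σ := σ), ofR_injective.eq_iff,
    getK_ofR _ (Nat.zero_le k)]

/-- elements with constant term one are units -/
theorem isUnit_of_c {f : R σ k} (hf : c f 0 = 1) : IsUnit f := by
  have h1 : J 1 (f - 1) := by
    intro n hn
    obtain rfl : n = 0 := by omega
    rw [c_sub, hf, c_one (Nat.zero_le k), if_pos rfl, sub_self]
  have hnil : IsNilpotent (f - 1) := by
    refine ⟨k + 1, ?_⟩
    have : ∀ n, J n ((f - 1) ^ n) := by
      intro n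
      induction n with
      | zero => exact J_zero _
      | succ n ih => rw [pow_succ]; exact ih.mul h1
    exact (this (k + 1)).eq_zero (Nat.lt_succ_self k)
  have := hnil.isUnit_one_add
  rwa [add_sub_cancel] at this

theorem mem_U_iff (hσ : ∀ x, σ (σ x) = x) {u : (R σ k)ˣ} :
    u ∈ U hσ k 1 ↔ memP σ k (ofR (u : R σ k)) = true := by
  rw [memP_ofR hσ, mem_U hσ, mem_SG hσ]
  refine and_congr Iff.rfl ⟨fun h => ?_, fun h n hn => ?_⟩
  · have := h 0 Nat.zero_lt_one
    rw [c_sub, c_one (Nat.zero_le k), if_pos rfl, sub_eq_zero] at this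
    exact this
  · obtain rfl : n = 0 := by omega
    rw [c_sub, h, c_one (Nat.zero_le k), if_pos rfl, sub_self]

/-- the group element of a list with `memP` -/
noncomputable def toU (hσ : ∀ x, σ (σ x) = x) (k : ℕ) (l : List K) (hl : l.length = k + 1)
    (h : memP σ k l = true) : U hσ k 1 :=
  ⟨(isUnit_of_c (σ := σ) (k := k) (f := toR σ k l) (by
      rw [c_toR _ (Nat.zero_le k)]; exact (memP_iff.1 h).2)).unit, by
    rw [mem_U_iff hσ, IsUnit.unit_spec, ofR_toR hl]; exact h⟩

theorem ofR_toU (hσ : ∀ x, σ (σ x) = x) (l : List K) (hl : l.length = k + 1)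
    (h : memP σ k l = true) : ofR (((toU hσ k l hl h : U hσ k 1) : (R σ k)ˣ) : R σ k) = l := by
  unfold toU
  simp only [IsUnit.unit_spec]
  exact ofR_toR hl

theorem ofU_injective (hσ : ∀ x, σ (σ x) = x) {u v : U hσ k 1}
    (h : ofR ((u : (R σ k)ˣ) : R σ k) = ofR ((v : (R σ k)ˣ) : R σ k)) : u = v :=
  Subtype.ext (Units.ext (ofR_injective h))

end lists

/-! ### enumeration -/

section enum

variable {K : Type} [Field K] [Finite K] {σ : K →+* K} {k : ℕ}

/-- element number `i < Q ^ k` with constant term one -/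
noncomputable def elt (K : Type) [Field K] [Finite K] (k i : ℕ) : List K :=
  letI : Inhabited K := ⟨0⟩
  1 :: digs K k i

/-- its number -/
noncomputable def ix (l : List K) : ℕ :=
  letI : Inhabited K := ⟨0⟩
  idx l.tail

theorem length_elt (k i : ℕ) : (elt K k i).length = k + 1 := by simp [elt]

theorem ix_lt {l : List K} (hl : l.length = k + 1) : ix l < qK K ^ k := by
  let _ : Inhabited K := ⟨0⟩
  have h : l.tail.length = k := by rw [List.length_tail, hl]; rfl
  have := idx_lt l.tail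
  rwa [h] at this

theorem ix_elt {i : ℕ} (hi : i < qK K ^ k) : ix (elt K k i) = i := by
  let _ : Inhabited K := ⟨0⟩
  exact idx_digs hi

theorem elt_ix {l : List K} (hl : l.length = k + 1) (h0 : getK l 0 = 1) : elt K k (ix l) = l := by
  let _ : Inhabited K := ⟨0⟩
  match l with
  | [] => simp at hl
  | a :: l =>
    have ha : a = 1 := by simpa [getK] using h0
    have hk : l.length = k := by simpa using hl
    change 1 :: digs K k (idx l) = a :: l
    rw [ha, ← hk, digs_idx]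

/-- the predicate of the members -/
noncomputable def pr (σ : K → K) (k i : ℕ) : Bool := memP σ k (elt K k i)

/-- number of elements of the group -/
noncomputable def nP (σ : K → K) (k : ℕ) : ℕ := (sel (qK K ^ k) (pr σ k)).length

/-- element number `r` of the group -/
noncomputable def el (σ : K → K) (k r : ℕ) : List K :=
  elt K k ((sel (qK K ^ k) (pr σ k)).getD r 0)

/-- the number of an element -/
noncomputable def rk (σ : K → K) (k : ℕ) (l : List K) : ℕ := rnk (pr σ k) (min (ix l) (qK K ^ k))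

theorem length_el (σ : K → K) (k r : ℕ) : (el σ k r).length = k + 1 := length_elt _ _

theorem memP_el {σ : K → K} {r : ℕ} (hr : r < nP σ k) : memP σ k (el σ k r) = true := by
  have h : (sel (qK K ^ k) (pr σ k)).getD r 0 ∈ sel (qK K ^ k) (pr σ k) := by
    rw [List.getD_eq_getElem _ _ hr]
    exact List.getElem_mem hr
  exact (mem_sel.1 h).2

theorem rk_eq {σ : K → K} {l : List K} (hl : l.length = k + 1) : rk σ k l = rnk (pr σ k) (ix l) := by
  unfold rk
  rw [min_eq_left (ix_lt hl).le]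

theorem rk_lt {σ : K → K} {l : List K} (hl : l.length = k + 1) (h : memP σ k l = true) :
    rk σ k l < nP σ k := by
  rw [rk_eq hl]
  refine rnk_lt (ix_lt hl) ?_
  unfold pr
  rw [elt_ix hl (memP_iff.1 h).2]
  exact h

theorem el_rk {σ : K → K} {l : List K} (hl : l.length = k + 1) (h : memP σ k l = true) :
    el σ k (rk σ k l) = l := by
  have hp : pr σ k (ix l) = true := by
    unfold pr
    rw [elt_ix hl (memP_iff.1 h).2]
    exact h
  unfold el
  rw [rk_eq hl, sel_getD_rnk 0 (ix_lt hl) hp, elt_ix hl (memP_iff.1 h).2]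

theorem rk_el {σ : K → K} {r : ℕ} (hr : r < nP σ k) : rk σ k (el σ k r) = r := by
  rw [rk_eq (length_el _ _ _)]
  unfold el
  have h : (sel (qK K ^ k) (pr σ k)).getD r 0 ∈ sel (qK K ^ k) (pr σ k) := by
    rw [List.getD_eq_getElem _ _ hr]
    exact List.getElem_mem hr
  rw [ix_elt (mem_sel.1 h).1]
  exact rnk_sel_getD 0 hr

/-- the group elements and their numbers -/
noncomputable def eP (hσ : ∀ x, σ (σ x) = x) (k : ℕ) : U hσ k 1 ≃ Fin (nP σ k) where
  toFun u := ⟨rk σ k (ofR ((u : (R σ k)ˣ) : R σ k)),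
    rk_lt (length_ofR _) ((mem_U_iff hσ).1 u.2)⟩
  invFun r := toU hσ k (el σ k r) (length_el _ _ _) (memP_el r.2)
  left_inv u := ofU_injective hσ (by
    rw [ofR_toU]
    exact el_rk (length_ofR _) ((mem_U_iff hσ).1 u.2))
  right_inv r := Fin.ext (by
    simp only [ofR_toU]
    exact rk_el r.2)

theorem eP_val (hσ : ∀ x, σ (σ x) = x) (u : U hσ k 1) :
    (eP hσ k u : ℕ) = rk σ k (ofR ((u : (R σ k)ˣ) : R σ k)) := rfl

theorem ofR_eP_symm (hσ : ∀ x, σ (σ x) = x) (r : Fin (nP σ k)) :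
    ofR ((((eP hσ k).symm r : U hσ k 1) : (R σ k)ˣ) : R σ k) = el σ k r :=
  ofR_toU hσ _ (length_el _ _ _) (memP_el r.2)

theorem el_eP (hσ : ∀ x, σ (σ x) = x) (u : U hσ k 1) :
    el σ k (eP hσ k u) = ofR ((u : (R σ k)ˣ) : R σ k) := by
  rw [← ofR_eP_symm hσ, Equiv.symm_apply_apply]

theorem card_U (hσ : ∀ x, σ (σ x) = x) (k : ℕ) : Nat.card (U hσ k 1) = nP σ k := by
  rw [Nat.card_congr (eP hσ k), Nat.card_eq_fintype_card, Fintype.card_fin]

theorem nP_le (σ : K → K) (k : ℕ) : nP σ k ≤ qK K ^ k := by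
  unfold nP sel
  exact (List.length_filter_le _ _).trans (by simp)

theorem nP_pos (hσ : ∀ x, σ (σ x) = x) (k : ℕ) : 0 < nP σ k := (eP hσ k 1).pos

/-- right translation by `γ` on numbers -/
noncomputable def rm (σ : K → K) (k : ℕ) (γ : List K) (r : ℕ) : ℕ :=
  rk σ k (mulL σ k (el σ k r) γ)

/-- left translation by `γ` on numbers -/
noncomputable def lm (σ : K → K) (k : ℕ) (γ : List K) (r : ℕ) : ℕ :=
  rk σ k (mulL σ k γ (el σ k r))

/-- inversion on numbers -/
noncomputable def iv (σ : K → K) (k : ℕ) (r : ℕ) : ℕ := rk σ k (conjL σ k (el σ k r))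

/-- multiplication on numbers -/
noncomputable def mm (σ : K → K) (k : ℕ) (r s : ℕ) : ℕ :=
  rk σ k (mulL σ k (el σ k r) (el σ k s))

theorem rm_spec (hσ : ∀ x, σ (σ x) = x) (u g : U hσ k 1) :
    rm σ k (ofR ((g : (R σ k)ˣ) : R σ k)) (eP hσ k u) = (eP hσ k (u * g) : ℕ) := by
  unfold rm
  rw [el_eP, eP_val, ← ofR_mul hσ]
  rfl

theorem lm_spec (hσ : ∀ x, σ (σ x) = x) (u g : U hσ k 1) :
    lm σ k (ofR ((g : (R σ k)ˣ) : R σ k)) (eP hσ k u) = (eP hσ k (g * u) : ℕ) := by
  unfold lm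
  rw [el_eP, eP_val, ← ofR_mul hσ]
  rfl

theorem mm_spec (hσ : ∀ x, σ (σ x) = x) (u g : U hσ k 1) :
    mm σ k (eP hσ k u) (eP hσ k g) = (eP hσ k (u * g) : ℕ) := by
  unfold mm
  rw [el_eP, el_eP, eP_val, ← ofR_mul hσ]
  rfl

theorem conj_eq_inv (hσ : ∀ x, σ (σ x) = x) {u : (R σ k)ˣ} (hu : u ∈ SG hσ k) :
    conj (u : R σ k) = ((u⁻¹ : (R σ k)ˣ) : R σ k) := by
  rw [mem_SG hσ] at hu
  rw [← one_mul (conj (u : R σ k)), ← Units.inv_mul u, mul_assoc, hu, mul_one]

theorem iv_spec (hσ : ∀ x, σ (σ x) = x) (u : U hσ k 1) :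
    iv σ k (eP hσ k u) = (eP hσ k u⁻¹ : ℕ) := by
  unfold iv
  rw [el_eP, eP_val, ← ofR_conj hσ, conj_eq_inv hσ u.2.1]
  rfl

theorem rm_lt (hσ : ∀ x, σ (σ x) = x) (g : U hσ k 1) {r : ℕ} (hr : r < nP σ k) :
    rm σ k (ofR ((g : (R σ k)ˣ) : R σ k)) r < nP σ k := by
  have := rm_spec hσ ((eP hσ k).symm ⟨r, hr⟩) g
  rw [Equiv.apply_symm_apply] at this
  rw [this]
  exact (eP hσ k _).2

theorem lm_lt (hσ : ∀ x, σ (σ x) = x) (g : U hσ k 1) {r : ℕ} (hr : r < nP σ k) :
    lm σ k (ofR ((g : (R σ k)ˣ) : R σ k)) r < nP σ k := by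
  have := lm_spec hσ ((eP hσ k).symm ⟨r, hr⟩) g
  rw [Equiv.apply_symm_apply] at this
  rw [this]
  exact (eP hσ k _).2

end enum

/-! ### normalisation -/

section norm

variable {K : Type} [Field K] {σ : K →+* K} {k : ℕ}

/-- `u` times a central square root of the inverse of its norm -/
def normR (p : ℕ) (u : R σ k) : R σ k := u * (u * conj u) ^ ((p ^ k - 1) / 2)

/-- the same on lists -/
def normL (σ : K → K) (k p : ℕ) (u : List K) : List K :=
  mulL σ k u (powL σ k (mulL σ k u (conjL σ k u)) ((p ^ k - 1) / 2))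

theorem toR_normL (hσ : ∀ x, σ (σ x) = x) (p : ℕ) (u : List K) :
    toR σ k (normL σ k p u) = normR p (toR σ k u) := by
  unfold normL normR
  rw [toR_mulL hσ, toR_powL hσ, toR_mulL hσ, toR_conjL hσ]

theorem length_normL (σ : K → K) (k p : ℕ) (u : List K) : (normL σ k p u).length = k + 1 :=
  length_mulL _ _ _ _

/-- an element fixed by `conj` is central (`2 ≠ 0`) -/
theorem comm_of_conj_fix (hσ : ∀ x, σ (σ x) = x) (h2 : (2 : K) ≠ 0) {z : R σ k}
    (hz : conj z = z) (f : R σ k) : z * f = f * z := by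
  have key : ∀ n ≤ k, (n % 2 = 1 → c z n = 0) ∧ (n % 2 = 0 → σ (c z n) = c z n) := by
    intro n hn
    have h := c_conj z hn
    rw [hz] at h
    refine ⟨fun hp => ?_, fun hp => ?_⟩
    · rw [Odd.neg_one_pow (Nat.odd_iff.mpr hp), spow_even hσ (by omega), neg_one_mul] at h
      have : (2 : K) * c z n = 0 := by linear_combination h
      exact (mul_eq_zero.1 this).resolve_left h2
    · rw [Even.neg_one_pow (Nat.even_iff.mpr hp), one_mul, spow_odd hσ (by omega)] at h
      exact h.symm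
  refine ext' fun n hn => ?_
  rw [c_mul _ _ hn, c_mul _ _ hn, ← Finset.Nat.sum_antidiagonal_swap]
  refine Finset.sum_congr rfl fun p hp => ?_
  rw [Finset.HasAntidiagonal.mem_antidiagonal] at hp
  simp only [Prod.fst_swap, Prod.snd_swap]
  obtain ⟨h1, h2'⟩ := key p.2 (by omega)
  rcases Nat.mod_two_eq_zero_or_one p.2 with h | h
  · rw [spow_even hσ h]
    rcases Nat.mod_two_eq_zero_or_one p.1 with h' | h'
    · rw [spow_even hσ h', mul_comm]
    · rw [spow_odd hσ h', h2' h, mul_comm]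
  · rw [h1 h, map_zero, zero_mul, mul_zero]

theorem c_zero_mul (f g : R σ k) : c (f * g) 0 = c f 0 * c g 0 := by
  rw [c_mul _ _ (Nat.zero_le k), Finset.Nat.antidiagonal_zero, Finset.sum_singleton, pow_zero]
  rfl

theorem c_zero_conj (f : R σ k) : c (conj f) 0 = σ (c f 0) := by
  rw [c_conj _ (Nat.zero_le k), pow_zero, one_mul, zero_add, pow_one]

theorem J_pow_one {z : R σ k} (h : J 1 z) (n : ℕ) : J n (z ^ n) := by
  induction n with
  | zero => exact J_zero _
  | succ n ih => rw [pow_succ]; exact ih.mul h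

/-- `p ^ k`-th powers of elements `≡ 1 mod τ` -/
theorem pow_eq_one {p : ℕ} [Fact p.Prime] [CharP K p] {z : R σ k} (hz : c z 0 = 1) :
    z ^ (p ^ k) = 1 := by
  have hJ : J 1 (z - 1) := by
    intro n hn
    obtain rfl : n = 0 := by omega
    rw [c_sub, hz, c_one (Nat.zero_le k), if_pos rfl, sub_self]
  have hchar : ∀ f : R σ k, (p : R σ k) * f = 0 := by
    intro f
    have h1 : ∀ m : ℕ, ∀ n, c ((m : R σ k) * f) n = (m : K) * c f n := by
      intro m
      induction m with
      | zero => intro n; simp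
      | succ m ih => intro n; rw [Nat.cast_succ, Nat.cast_succ, add_mul, add_mul, c_add, ih, one_mul,
          one_mul]
    refine ext' fun n _ => ?_
    rw [h1, CharP.cast_eq_zero K p, zero_mul, c_zero]
  have hp0 : (p : R σ k) = 0 := by simpa using hchar 1
  by_cases hR : Subsingleton (R σ k)
  · exact Subsingleton.elim _ _
  have _ := not_subsingleton_iff_nontrivial.1 hR
  have hch : CharP (R σ k) p := by
    refine CharP.mk fun m => ?_
    constructor
    · intro hm
      have h1 : ∀ m : ℕ, c (m : R σ k) 0 = (m : K) := by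
        intro m
        induction m with
        | zero => simp
        | succ m ih => rw [Nat.cast_succ, c_add, ih, c_one (Nat.zero_le k), if_pos rfl,
            Nat.cast_succ]
      have h2 := h1 m
      rw [hm, c_zero] at h2
      exact (CharP.cast_eq_zero_iff K p m).1 h2.symm
    · rintro ⟨d, rfl⟩
      rw [Nat.cast_mul, hp0, zero_mul]
  have h := add_pow_char_pow_of_commute (p := p) k (Commute.one_left (z - 1))
  rw [add_sub_cancel, one_pow] at h
  rw [h]
  have h3 : J (p ^ k) ((z - 1) ^ (p ^ k)) := J_pow_one hJ _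
  have h4 : k < p ^ k := Nat.lt_pow_self (Fact.out : p.Prime).one_lt
  rw [h3.eq_zero h4, add_zero]

theorem c_zero_pow {z : R σ k} (hz : c z 0 = 1) (m : ℕ) : c (z ^ m) 0 = 1 := by
  induction m with
  | zero => rw [pow_zero, c_one (Nat.zero_le k), if_pos rfl]
  | succ m ih => rw [pow_succ, c_zero_mul, ih, hz, one_mul]

theorem conj_pow_fix (hσ : ∀ x, σ (σ x) = x) {z : R σ k} (hz : conj z = z) (m : ℕ) :
    conj (z ^ m) = z ^ m := by
  induction m with
  | zero => rw [pow_zero, conj_one]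
  | succ m ih => rw [pow_succ, conj_mul hσ, ih, hz, ← pow_succ, pow_succ']

theorem conj_nrm (hσ : ∀ x, σ (σ x) = x) (u : R σ k) : conj (u * conj u) = u * conj u := by
  rw [conj_mul hσ, conj_conj hσ]

/-- the normalised element has norm one -/
theorem normR_norm (hσ : ∀ x, σ (σ x) = x) {p : ℕ} [Fact p.Prime] [CharP K p] (hp : p ≠ 2)
    {u : R σ k} (hu : c u 0 = 1) : normR p u * conj (normR p u) = 1 := by
  have hprime : p.Prime := Fact.out
  have h2 : (2 : K) ≠ 0 := by
    intro h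
    have h1 : ((2 : ℕ) : K) = 0 := by exact_mod_cast h
    have h3 := (CharP.cast_eq_zero_iff K p 2).1 h1
    exact hp ((Nat.prime_dvd_prime_iff_eq hprime Nat.prime_two).1 h3)
  have hodd : p ^ k % 2 = 1 := by
    have := hprime.eq_two_or_odd.resolve_left hp
    rw [Nat.pow_mod, this, one_pow]
    rfl
  set n := u * conj u with hn
  have hfix : conj n = n := conj_nrm hσ u
  set z := n ^ ((p ^ k - 1) / 2) with hz
  have hzfix : conj z = z := conj_pow_fix hσ hfix _
  have hcn : c n 0 = 1 := by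
    rw [hn, c_zero_mul, c_zero_conj, hu, map_one, one_mul]
  have hcz := comm_of_conj_fix hσ h2 hzfix
  unfold normR
  rw [← hn, ← hz, conj_mul hσ, hzfix]
  have h3 : u * z * (z * conj u) = n * (z * z) := by
    rw [hcz (conj u), ← mul_assoc (u * z), mul_assoc u z, hcz (conj u), ← mul_assoc u, ← hn,
      mul_assoc]
  rw [h3, hz, ← pow_add, ← pow_succ']
  have h4 : (p ^ k - 1) / 2 + (p ^ k - 1) / 2 + 1 = p ^ k := by omega
  rw [h4]
  exact pow_eq_one hcn

theorem normR_c (p : ℕ) {u : R σ k} (hu : c u 0 = 1) : c (normR p u) 0 = 1 := by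
  unfold normR
  rw [c_zero_mul, hu, one_mul, c_zero_pow]
  rw [c_zero_mul, c_zero_conj, hu, map_one, one_mul]

/-- the normalised element as an element of the group -/
theorem memP_normL (hσ : ∀ x, σ (σ x) = x) {p : ℕ} [Fact p.Prime] [CharP K p] (hp : p ≠ 2)
    {l : List K} (hl : getK l 0 = 1) : memP σ k (normL σ k p l) = true := by
  have h := memP_ofR hσ (toR σ k (normL σ k p l))
  rw [ofR_toR (length_normL _ _ _ _)] at h
  rw [h, toR_normL hσ]
  have hc : c (toR σ k l) 0 = 1 := by rw [c_toR _ (Nat.zero_le k), hl]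
  exact ⟨normR_norm hσ hp hc, normR_c p hc⟩

/-- the group element obtained from a list with constant term one -/
noncomputable def gen (hσ : ∀ x, σ (σ x) = x) {p : ℕ} [Fact p.Prime] [CharP K p] (hp : p ≠ 2)
    (k : ℕ) (l : List K) (hl : getK l 0 = 1) : U hσ k 1 :=
  toU hσ k (normL σ k p l) (length_normL _ _ _ _) (memP_normL hσ hp hl)

theorem ofR_gen (hσ : ∀ x, σ (σ x) = x) {p : ℕ} [Fact p.Prime] [CharP K p] (hp : p ≠ 2)
    (k : ℕ) (l : List K) (hl : getK l 0 = 1) :
    ofR (((gen hσ hp k l hl : U hσ k 1) : (R σ k)ˣ) : R σ k) = normL σ k p l :=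
  ofR_toU _ _ _ _

theorem gen_val (hσ : ∀ x, σ (σ x) = x) {p : ℕ} [Fact p.Prime] [CharP K p] (hp : p ≠ 2)
    (k : ℕ) (l : List K) (hl : getK l 0 = 1) :
    (((gen hσ hp k l hl : U hσ k 1) : (R σ k)ˣ) : R σ k) = normR p (toR σ k l) := by
  rw [← toR_normL hσ, ← ofR_gen hσ hp k l hl, toR_ofR]

end norm

/-! ### polynomial time -/

section pt

variable {K : Type} [Field K] [Finite K] [PTCode K] {α : Type} [PTCode α]

theorem ptf_memP (σ : K → K) {k : α → ℕ} {l : α → List K} (hk : PTU k) (hl : PTF l) :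
    PTF (fun a => memP σ (k a) (l a)) := by
  classical
  have h : PTF (fun a => decide (mulL σ (k a) (l a) (conjL σ (k a) (l a)) = oneL K (k a)) &&
      decide (getK (l a) 0 = 1)) :=
    PTF.and (PTPred.eq (ptf_mulL σ hk hl (ptf_conjL σ hk hl)) (ptf_oneL hk)).toPTF
      (PTPred.eq (ptf_getK hl (PTF.const 0)) (PTF.const 1)).toPTF
  refine PTF.of_eq h fun a => ?_
  unfold memP
  congr

theorem ptf_elt {k i : α → ℕ} (hk : PTU k) (hi : PTF i) : PTF (fun a => elt K (k a) (i a)) := by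
  let _ : Inhabited K := ⟨0⟩
  have h : PTF (fun a => digs K (k a) (i a)) := ptf_digs hk hi
  have h2 : PTF (fun a => (1 : K) :: digs K (k a) (i a)) := by fun_prop
  exact h2

theorem ptf_ix {l : α → List K} (hl : PTF l) : PTF (fun a => ix (l a)) := by
  let _ : Inhabited K := ⟨0⟩
  exact ptf_idx (PTF.tail hl)

theorem ptf_pr (σ : K → K) {k i : α → ℕ} (hk : PTU k) (hi : PTF i) :
    PTF (fun a => pr σ (k a) (i a)) :=
  ptf_memP σ hk (ptf_elt hk hi)

theorem ptf_selP (σ : K → K) {k : α → ℕ} (hk : PTU k) (hQ : PTU (fun a => qK K ^ k a)) :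
    PTF (fun a => sel (qK K ^ k a) (pr σ (k a))) :=
  ptf_sel hQ (ptf_pr σ (PTU.comp hk PTF.fst) PTF.snd)

theorem ptu_nP (σ : K → K) {k : α → ℕ} (hk : PTU k) (hQ : PTU (fun a => qK K ^ k a)) :
    PTU (fun a => nP σ (k a)) :=
  PTU.length (ptf_selP σ hk hQ)

theorem ptf_el (σ : K → K) {k r : α → ℕ} (hk : PTU k) (hQ : PTU (fun a => qK K ^ k a))
    (hr : PTF r) : PTF (fun a => el σ (k a) (r a)) :=
  ptf_elt hk (ptf_getB (ptf_selP σ hk hQ) hr (PTF.const 0))

theorem ptf_rk (σ : K → K) {k : α → ℕ} {l : α → List K} (hk : PTU k)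
    (hQ : PTU (fun a => qK K ^ k a)) (hl : PTF l) : PTF (fun a => rk σ (k a) (l a)) := by
  have h1 : PTF (fun a => min (ix (l a)) (qK K ^ k a)) := ptf_ofUnary (ptu_min (ptf_ix hl) hQ)
  exact ptf_rnk hQ h1 (ptf_pr σ (PTU.comp hk PTF.fst) PTF.snd) (fun a => min_le_right _ _)

theorem ptf_rm (σ : K → K) {k r : α → ℕ} {l : α → List K} (hk : PTU k)
    (hQ : PTU (fun a => qK K ^ k a)) (hl : PTF l) (hr : PTF r) :
    PTF (fun a => rm σ (k a) (l a) (r a)) :=
  ptf_rk σ hk hQ (ptf_mulL σ hk (ptf_el σ hk hQ hr) hl)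

theorem ptf_lm (σ : K → K) {k r : α → ℕ} {l : α → List K} (hk : PTU k)
    (hQ : PTU (fun a => qK K ^ k a)) (hl : PTF l) (hr : PTF r) :
    PTF (fun a => lm σ (k a) (l a) (r a)) :=
  ptf_rk σ hk hQ (ptf_mulL σ hk hl (ptf_el σ hk hQ hr))

theorem ptf_iv (σ : K → K) {k r : α → ℕ} (hk : PTU k) (hQ : PTU (fun a => qK K ^ k a))
    (hr : PTF r) : PTF (fun a => iv σ (k a) (r a)) :=
  ptf_rk σ hk hQ (ptf_conjL σ hk (ptf_el σ hk hQ hr))

theorem ptf_mm (σ : K → K) {k r s : α → ℕ} (hk : PTU k) (hQ : PTU (fun a => qK K ^ k a))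
    (hr : PTF r) (hs : PTF s) : PTF (fun a => mm σ (k a) (r a) (s a)) :=
  ptf_rk σ hk hQ (ptf_mulL σ hk (ptf_el σ hk hQ hr) (ptf_el σ hk hQ hs))

/-- the exponent of the normalisation is unary -/
theorem ptu_exp {p : ℕ} (hp : p ≤ qK K) {k : α → ℕ} (hk : PTU k)
    (hQ : PTU (fun a => qK K ^ k a)) : PTU (fun a => (p ^ k a - 1) / 2) := by
  have h : PTF (fun a => (p ^ k a - 1) / 2) :=
    PTF.natDiv (PTF.natSub (ptf_pow (PTF.const p) hk) (PTF.const 1)) (PTF.const 2)
  refine h.toPTU (hQ.pb.mono fun a => ?_)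
  exact (Nat.div_le_self _ _).trans ((Nat.sub_le _ _).trans (Nat.pow_le_pow_left hp _))

theorem ptf_normL (σ : K → K) {p : ℕ} (hp : p ≤ qK K) {k : α → ℕ} {l : α → List K} (hk : PTU k)
    (hQ : PTU (fun a => qK K ^ k a)) (hl : PTF l) : PTF (fun a => normL σ (k a) p (l a)) :=
  ptf_mulL σ hk hl (ptf_powL σ hk (ptu_exp hp hk hQ) (ptf_mulL σ hk hl (ptf_conjL σ hk hl)))

/-- the characteristic is at most the number of elements -/
theorem char_le (K : Type) [Field K] [Finite K] (p : ℕ) [CharP K p] : p ≤ qK K := by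
  let _ : Inhabited K := ⟨0⟩
  let _ := Fintype.ofFinite K
  rw [qK_eq_card, Nat.card_eq_fintype_card]
  have h : (Fintype.card K : K) = 0 := by simp
  exact Nat.le_of_dvd Fintype.card_pos ((CharP.cast_eq_zero_iff K p _).1 h)

/-- **right translation table of a generator** given by a fixed list with constant term one:
the number of `u * gen l` as a function of the number of `u` -/
theorem ptf_rm_gen (σ : K → K) {p : ℕ} (hp : p ≤ qK K) (G : List K) {k r : α → ℕ} (hk : PTU k)
    (hQ : PTU (fun a => qK K ^ k a)) (hr : PTF r) :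
    PTF (fun a => rm σ (k a) (normL σ (k a) p G) (r a)) :=
  ptf_rm σ hk hQ (ptf_normL σ hp hk hQ (PTF.const G)) hr

theorem ptf_lm_gen (σ : K → K) {p : ℕ} (hp : p ≤ qK K) (G : List K) {k r : α → ℕ} (hk : PTU k)
    (hQ : PTU (fun a => qK K ^ k a)) (hr : PTF r) :
    PTF (fun a => lm σ (k a) (normL σ (k a) p G) (r a)) :=
  ptf_lm σ hk hQ (ptf_normL σ hp hk hQ (PTF.const G)) hr

/-- the table computes the group multiplication -/
theorem rm_gen_spec {σ : K →+* K} {k : ℕ} (hσ : ∀ x, σ (σ x) = x) {p : ℕ} [Fact p.Prime]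
    [CharP K p] (hp : p ≠ 2) (G : List K) (hG : getK G 0 = 1) (u : U hσ k 1) :
    rm σ k (normL σ k p G) (eP hσ k u) = (eP hσ k (u * gen hσ hp k G hG) : ℕ) := by
  rw [← ofR_gen hσ hp k G hG]
  exact rm_spec hσ u _

theorem lm_gen_spec {σ : K →+* K} {k : ℕ} (hσ : ∀ x, σ (σ x) = x) {p : ℕ} [Fact p.Prime]
    [CharP K p] (hp : p ≠ 2) (G : List K) (hG : getK G 0 = 1) (u : U hσ k 1) :
    lm σ k (normL σ k p G) (eP hσ k u) = (eP hσ k (gen hσ hp k G hG * u) : ℕ) := by
  rw [← ofR_gen hσ hp k G hG]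
  exact lm_spec hσ u _

end pt

end Crest.Agent.R289.GkTab115
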