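import Crest.Agent.R289.D2_180
import Crest.Agent.R289.GlueD_194

/-!
# Row 289: leaf D2 in the literal form of the glue (helper180)
-/

set_option autoImplicit false

namespace Crest.Agent.R289.D2180

open Crest.Agent.R289 Crest.Agent.R289.DefD

/-- **D2Stm holds for the machine of local rules** -/
theorem d2Stm {k l r : ℕ} (R : LRules k l r) :
    GlueD194.D2Stm k l r (fun _ nb pub W w0 N M => R.data nb pub W w0 N M) := by
  intro t z e δ κ ht0 ht1 hz0 hz1 he0 he1 hd0 hd1 hk0 hk1
  exact d2 R t z e δ κ ht0 ht1 hz0 hz1 he0 he1 hd0 hd1 hk0 hk1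

end Crest.Agent.R289.D2180
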