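import Crest.Agent.R289.GlueD2_194
import Crest.Agent.R289.D2_180

/-!
# R289 / GlueD3 (helper194), block D complete: `Asm12.Fam289 → Machine289`

`D2` (helper180) has literally the form `D2Stm`.
-/

set_option autoImplicit false

namespace Crest.Agent.R289.GlueD194

open Crest.PPADPCP Crest.Agent.Lib.PT Crest.Agent.R289 Crest.Agent.R289.DefD

theorem d2Stm (k l r : ℕ) (R : LRules k l r) : D2Stm k l r (mkR R) :=
  fun t z e δ κ ht0 ht1 hz0 hz1 he0 he1 hd0 hd1 hk0 hk1 =>
    D2180.d2 R t z e δ κ ht0 ht1 hz0 hz1 he0 he1 hd0 hd1 hk0 hk1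

/-- **block D complete**: the family of block C gives `Machine289` -/
theorem machine289_of_fam (H : Asm12.Fam289) : Machine289 :=
  machine289_of_fam289 d2Stm H

/-- **blocks D + E complete**: the family of block C gives the literal statement S0434 -/
theorem S0434_of_fam (H : Asm12.Fam289) :
    ∃ ε δ : ℚ, 0 < ε ∧ ε < 1 / 10 ∧ 0 < δ ∧ δ < 1 ∧
    ∃ A b : ℕ, 0 < A ∧ ∃ p : Polynomial ℕ,
    ∃ (R : List Bool → List Bool) (D : List Bool × List Bool → List Bool),
      Crest.Complexity.PolyTime R ∧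
      Crest.Complexity.PolyTimeComputable Crest.Complexity.pairEnc
        (Computability.encodingList Bool).encode D ∧
      (∀ G : Crest.PPADPCP.GCircuit, G.WF → ∃ x : List ℚ, Crest.PPADPCP.Acceptable ε δ p G x) ∧
      ∀ I : Crest.PPADPCP.EOL, I.WF → ∃ G : Crest.PPADPCP.GCircuit, G.WF ∧ R I.encode = G.encode ∧
        G.encode.length ≤ A * I.encode.length * (Nat.clog 2 (I.encode.length + 2)) ^ b ∧
        ∀ x : List ℚ, Crest.PPADPCP.Acceptable ε δ p G x →
          ∃ v : Fin I.n → Bool, I.IsSolution v ∧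
            D (I.encode, Crest.PPADPCP.assignmentBits x) = Crest.PPADPCP.solutionBits v :=
  S0434_of_machine (machine289_of_fam H)

end Crest.Agent.R289.GlueD194
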