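import Crest.Agent.R289.IOasg_901
import Crest.Agent.R289.UnitsPT_726
import Crest.Agent.R289.Total_217
import Crest.Agent.Lib.PT.Alphabet

/-!
# R289 / GlueE (helper901), block E4: templates machine implies S0434

`TMachine`: a finite table of templates, a poly-time map to unit descriptions, a poly-time decoder
of the rounded slots. `S0434_of_TMachine : TMachine → (literal S0434)`.
-/

set_option autoImplicit false

namespace Crest.Agent.R289

open Crest.Agent.Lib.PT Crest.PPADPCP Units726

/-- what is needed at the level of templates -/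
def TMachine : Prop :=
  ∃ (S J T : ℕ) (tab : List (List GGate)) (ε γ : ℚ) (A b : ℕ) (units : EI → Units)
    (dec : EI × List Bool → List Bool),
    0 < S ∧ 0 < ε ∧ ε < 1 / 10 ∧ 0 < γ ∧
    (∀ t < T, TWF S J (tab.getD t []) ∧ tab.getD t [] ≠ []) ∧ PTF units ∧ PTF dec ∧
      ∀ I : EOL, I.WF → UWF T J (units (raw I)) ∧
        (units (raw I)).length ≤ A * I.encode.length * (Nat.clog 2 (I.encode.length + 2)) ^ b ∧
          ∀ x : ℕ → ℚ, (∀ v, 0 ≤ x v ∧ x v ≤ 1) →
            ((((Finset.range (units (raw I)).length).filter fun u =>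
              unitOK ε S (fun t => tab.getD t []) (units (raw I)) x u = false).card : ℕ) : ℚ) ≤
                γ * (units (raw I)).length →
            ∃ v : Fin I.n → Bool, I.IsSolution v ∧
              dec (raw I, (List.range ((units (raw I)).length * S)).map
                fun w => decide (1 / 2 ≤ x w)) = List.ofFn v

/-- the statement S0434 -/
def Goal : Prop :=
    ∃ ε δ : ℚ, 0 < ε ∧ ε < 1 / 10 ∧ 0 < δ ∧ δ < 1 ∧
    ∃ A b : ℕ, 0 < A ∧ ∃ p : Polynomial ℕ,
    ∃ (R : List Bool → List Bool) (D : List Bool × List Bool → List Bool),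
      Crest.Complexity.PolyTime R ∧
      Crest.Complexity.PolyTimeComputable Crest.Complexity.pairEnc
        (Computability.encodingList Bool).encode D ∧
      (∀ G : Crest.PPADPCP.GCircuit, G.WF → ∃ x : List ℚ, Crest.PPADPCP.Acceptable ε δ p G x) ∧
      ∀ I : Crest.PPADPCP.EOL, I.WF → ∃ G : Crest.PPADPCP.GCircuit, G.WF ∧ R I.encode = G.encode ∧
        G.encode.length ≤ A * I.encode.length * (Nat.clog 2 (I.encode.length + 2)) ^ b ∧
        ∀ x : List ℚ, Crest.PPADPCP.Acceptable ε δ p G x →
          ∃ v : Fin I.n → Bool, I.IsSolution v ∧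
            D (I.encode, Crest.PPADPCP.assignmentBits x) = Crest.PPADPCP.solutionBits v

theorem two_le_clog (N : ℕ) : 1 ≤ Nat.clog 2 (N + 2) := one_le_clog N

/-- the logarithm of the number of units -/
theorem clog_units {n N A b : ℕ} (h : n ≤ A * N * (Nat.clog 2 (N + 2)) ^ b) :
    Nat.clog 2 (n + 2) ≤ (A + 1 + b) * Nat.clog 2 (N + 2) := by
  set q := Nat.clog 2 (N + 2) with hq
  have hq1 : 1 ≤ q := one_le_clog N
  have hN : N + 2 ≤ 2 ^ q := Nat.le_pow_clog (by norm_num) _
  have hA : A + 1 ≤ 2 ^ A := Nat.lt_two_pow_self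
  have hqq : q ≤ 2 ^ q := Nat.lt_two_pow_self.le
  have h1 : n + 2 ≤ (A + 1) * (N + 2) * q ^ b := by
    have hqb : 1 ≤ q ^ b := Nat.one_le_pow _ _ hq1
    calc n + 2 ≤ A * N * q ^ b + 2 * 1 := by omega
      _ ≤ A * N * q ^ b + 2 * q ^ b := by omega
      _ = (A * N + 2) * q ^ b := by ring
      _ ≤ ((A + 1) * (N + 2)) * q ^ b := Nat.mul_le_mul_right _ (by nlinarith)
  have h2 : (A + 1) * (N + 2) * q ^ b ≤ 2 ^ A * 2 ^ q * (2 ^ q) ^ b :=
    Nat.mul_le_mul (Nat.mul_le_mul hA hN) (Nat.pow_le_pow_left hqq b)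
  have h3 : 2 ^ A * 2 ^ q * (2 ^ q) ^ b = 2 ^ (A + q + q * b) := by
    rw [← pow_mul, ← pow_add, ← pow_add]
  have h4 : A + q + q * b ≤ (A + 1 + b) * q := by nlinarith
  rw [Nat.clog_le_iff_le_pow (by norm_num)]
  calc n + 2 ≤ 2 ^ (A + q + q * b) := by rw [← h3]; exact h1.trans h2
    _ ≤ 2 ^ ((A + 1 + b) * q) := Nat.pow_le_pow_right (by norm_num) h4

/-- a bound of the numbers in a table of templates -/
theorem exists_items_bound (tab : List (List GGate)) :
    ∃ c : ℕ, ∀ t, ∀ g ∈ tab.getD t [], ∀ k ∈ items g, k.1 = false → k.2 ≤ c := by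
  refine ⟨((tab.flatten.flatMap items).map fun k => k.2).sum, fun t g hg k hk _ => ?_⟩
  have hg' : g ∈ tab.flatten := by
    rcases Nat.lt_or_ge t tab.length with ht | ht
    · rw [List.getD_eq_getElem _ _ ht] at hg
      exact List.mem_flatten.2 ⟨_, List.getElem_mem ht, hg⟩
    · rw [List.getD_eq_default _ _ ht] at hg
      simp at hg
  exact List.le_sum_of_mem (List.mem_map.2 ⟨k, List.mem_flatMap.2 ⟨g, hg', hk⟩, rfl⟩)

/-- a bound of the lengths of the templates -/
theorem exists_len_bound (tab : List (List GGate)) :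
    ∃ B : ℕ, ∀ t, (tab.getD t []).length ≤ B := by
  refine ⟨(tab.map List.length).sum, fun t => ?_⟩
  rcases Nat.lt_or_ge t tab.length with ht | ht
  · rw [List.getD_eq_getElem _ _ ht]
    exact List.le_sum_of_mem (List.mem_map.2 ⟨_, List.getElem_mem ht, rfl⟩)
  · rw [List.getD_eq_default _ _ ht]
    simp

/-- **block E, templates**: a machine of templates gives S0434 -/
theorem goal_of_TMachine (h : TMachine) : Goal := by
  obtain ⟨S, J, T, tab, ε, γ, A, b, units, dec, hS, hε, hε', hγ, htab, hunits, hdec, hI⟩ := h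
  obtain ⟨c, hc⟩ := exists_items_bound tab
  obtain ⟨B, hB⟩ := exists_len_bound tab
  obtain ⟨ct, hct⟩ := Total217.total hε hε'
  set δ : ℚ := min (1 / 2) (γ / (B + 1)) with hδdef
  have hB0 : (0 : ℚ) < (B : ℚ) + 1 := by positivity
  have hδ0 : 0 < δ := lt_min (by norm_num) (div_pos hγ hB0)
  have hδ1 : δ < 1 := lt_of_le_of_lt (min_le_left _ _) (by norm_num)
  have hδB : δ * B ≤ γ := by
    have h1 : δ ≤ γ / (B + 1) := min_le_right _ _
    have h2 : δ * (B + 1) ≤ γ := by
      calc δ * (B + 1) ≤ γ / (B + 1) * (B + 1) := mul_le_mul_of_nonneg_right h1 hB0.le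
        _ = γ := by field_simp
    nlinarith
  set K : ℕ := (2 + S + 5 * B) * (2 * (S + B + c).size + 4) with hK
  set p : Polynomial ℕ := Polynomial.C ct * Polynomial.X with hp
  have hpe : ∀ M : ℕ, ct * M ≤ p.eval M := by intro M; simp [hp]
  set R : List Bool → List Bool := fun w =>
    (asm S (fun t => tab.getD t []) (units (eolOf w))).encode with hR
  set D : List Bool × List Bool → List Bool := fun z => dec (eolOf z.1, halfs z.2) with hD
  have hRp : PTF R := by
    have h1 : PTF (fun w : List Bool => units (eolOf w)) := PTF.comp hunits (ptf_eolOf PTF.id)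
    exact PTF.comp (g := fun U : Units => (asm S (fun t => tab.getD t []) U).encode)
      (ptf_asm_encode S tab) h1
  have hDp : PTF D :=
    PTF.comp hdec ((ptf_eolOf PTF.fst).prodMk (ptf_halfs PTF.snd))
  refine ⟨ε, δ, hε, hε', hδ0, hδ1, (K * A * (A + 1 + b)) + 1, b + 1, Nat.succ_pos _, p, R, D,
    hRp.polyTime, hDp.polyTimeComputable_pairEnc, ?_, ?_⟩
  · intro G hG
    obtain ⟨x, h1, h2, h3, h4⟩ := hct G hG
    exact ⟨x, Total217.acceptable_of_total hδ0.le hpe h1 h2 h3 h4⟩
  · intro I hIwf
    obtain ⟨hU, hlen, hsol⟩ := hI I hIwf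
    set U := units (raw I) with hUdef
    refine ⟨asm S (fun t => tab.getD t []) U,
      asm_WF hS (fun t ht => (htab t ht).1) (fun t ht => (htab t ht).2) hU, ?_, ?_, ?_⟩
    · simp only [hR, eolOf_encode]
      rw [← hUdef]
    · have h1 := asm_encode_length_le (B := B) (c := c) hS (fun t ht => (htab t ht).1)
        (fun t _ => hB t) (fun t _ => hc t) hU
      have h2 := clog_units hlen
      set N := I.encode.length with hN
      set q := Nat.clog 2 (N + 2) with hq
      calc (asm S (fun t => tab.getD t []) U).encode.length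
          ≤ K * (U.length * Nat.clog 2 (U.length + 2)) := h1
        _ ≤ K * ((A * N * q ^ b) * ((A + 1 + b) * q)) :=
            Nat.mul_le_mul_left _ (Nat.mul_le_mul hlen h2)
        _ = (K * A * (A + 1 + b)) * N * q ^ (b + 1) := by ring
        _ ≤ ((K * A * (A + 1 + b)) + 1) * N * q ^ (b + 1) :=
            Nat.mul_le_mul_right _ (Nat.mul_le_mul_right _ (Nat.le_succ _))
    · intro x hx
      obtain ⟨hx1, hx2, _, hx4⟩ := hx
      have hv : ∀ v, 0 ≤ (fun v => x.getD v 0) v ∧ (fun v => x.getD v 0) v ≤ 1 := by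
        intro v
        rcases Nat.lt_or_ge v x.length with hv | hv
        · simp only [List.getD_eq_getElem _ _ hv]
          exact hx2 _ (List.getElem_mem hv)
        · simp only [List.getD_eq_default _ _ hv]
          norm_num
      have hbad := bad_units_frac (B := B) hδ0.le (fun v => x.getD v 0) (U := U)
        (fun d _ => hB d.1) hx4
      have hbad' : ((((Finset.range U.length).filter fun u =>
          unitOK ε S (fun t => tab.getD t []) U (fun v => x.getD v 0) u = false).card : ℕ) : ℚ) ≤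
          γ * U.length := hbad.trans (mul_le_mul_of_nonneg_right hδB (by positivity))
      obtain ⟨v, hv1, hv2⟩ := hsol (fun v => x.getD v 0) hv hbad'
      refine ⟨v, hv1, ?_⟩
      simp only [hD, eolOf_encode]
      rw [halfs_range (m := U.length * S) hx1 (fun q hq => (hx2 q hq).1)]
      exact hv2

/-- S0434 from a machine of templates, literally -/
theorem S0434_of_TMachine (h : TMachine) :
    ∃ ε δ : ℚ, 0 < ε ∧ ε < 1 / 10 ∧ 0 < δ ∧ δ < 1 ∧
    ∃ A b : ℕ, 0 < A ∧ ∃ p : Polynomial ℕ,
    ∃ (R : List Bool → List Bool) (D : List Bool × List Bool → List Bool),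
      Crest.Complexity.PolyTime R ∧
      Crest.Complexity.PolyTimeComputable Crest.Complexity.pairEnc
        (Computability.encodingList Bool).encode D ∧
      (∀ G : Crest.PPADPCP.GCircuit, G.WF → ∃ x : List ℚ, Crest.PPADPCP.Acceptable ε δ p G x) ∧
      ∀ I : Crest.PPADPCP.EOL, I.WF → ∃ G : Crest.PPADPCP.GCircuit, G.WF ∧ R I.encode = G.encode ∧
        G.encode.length ≤ A * I.encode.length * (Nat.clog 2 (I.encode.length + 2)) ^ b ∧
        ∀ x : List ℚ, Crest.PPADPCP.Acceptable ε δ p G x →
          ∃ v : Fin I.n → Bool, I.IsSolution v ∧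
            D (I.encode, Crest.PPADPCP.assignmentBits x) = Crest.PPADPCP.solutionBits v :=
  goal_of_TMachine h

end Crest.Agent.R289
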