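import Mathlib
import Crest.Agent.Lib.PT.ListFns2
import Crest.Agent.Lib.PT.Arith

/-!
Row 289, C_REAL (R2): first-fit colouring of paths.

`colour ps` = the list of the colours of the paths `ps : List (List ℕ)` (lists of vertices), first fit
from left to right.  Two different paths with a common vertex get different colours; if every path
has at most `l` vertices and every vertex is on at most `c` of the paths then every colour is
`≤ l * (c - 1)`; polynomial time.
-/

set_option autoImplicit false

namespace Crest.Agent.R289.Greedy444

open Crest.Agent.Lib.PT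

/-- the two lists have a common vertex -/
def meets (p q : List ℕ) : Bool := p.any fun v => decide (v ∈ q)

theorem meets_iff {p q : List ℕ} : meets p q = true ↔ ∃ v, v ∈ p ∧ v ∈ q := by
  simp [meets, List.any_eq_true]

/-- colour `a` is free for the path `p` -/
def free (L : List (List ℕ × ℕ)) (p : List ℕ) (a : ℕ) : Bool :=
  L.all fun e => !(decide (e.2 = a) && meets p e.1)

theorem free_iff {L : List (List ℕ × ℕ)} {p : List ℕ} {a : ℕ} :
    free L p a = true ↔ ∀ e ∈ L, meets p e.1 = true → e.2 ≠ a := by
  unfold free
  simp only [List.all_eq_true, Bool.not_eq_true', Bool.and_eq_false_iff, decide_eq_false_iff_not]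
  constructor
  · intro h e he hm
    rcases h e he with h1 | h1
    · exact h1
    · rw [h1] at hm; exact absurd hm (by simp)
  · intro h e he
    by_cases hm : meets p e.1 = true
    · exact Or.inl (h e he hm)
    · exact Or.inr (by simpa using hm)

/-- least free colour -/
def mexG (L : List (List ℕ × ℕ)) (p : List ℕ) : ℕ :=
  ((List.range (L.length + 1)).find? (free L p)).getD 0

theorem mexG_spec (L : List (List ℕ × ℕ)) (p : List ℕ) :
    (∀ e ∈ L, meets p e.1 = true → e.2 ≠ mexG L p) ∧
      mexG L p ≤ (L.filter (fun e => meets p e.1)).length := by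
  set n := (L.filter (fun e => meets p e.1)).length with hn
  have hnL : n ≤ L.length := List.length_filter_le _ _
  have hex : ∃ a ≤ n, free L p a = true := by
    by_contra hcon
    push Not at hcon
    have hsub : Finset.range (n + 1) ⊆
        ((L.filter (fun e => meets p e.1)).map (fun e => e.2)).toFinset := by
      intro a ha
      have h1 := hcon a (by simpa using Nat.lt_succ_iff.1 (Finset.mem_range.1 ha))
      have h2 : ¬ ∀ e ∈ L, meets p e.1 = true → e.2 ≠ a := fun h => h1 (free_iff.2 h)
      push Not at h2
      obtain ⟨e, he, hk, hc⟩ := h2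
      simp only [List.mem_toFinset, List.mem_map, List.mem_filter]
      exact ⟨e, ⟨he, hk⟩, hc⟩
    have h1 := Finset.card_le_card hsub
    have h2 := List.toFinset_card_le
      ((L.filter (fun e => meets p e.1)).map (fun e => e.2))
    rw [Finset.card_range] at h1
    rw [List.length_map] at h2
    omega
  obtain ⟨a0, ha0, hpa0⟩ := hex
  have hsome : ((List.range (L.length + 1)).find? (free L p)).isSome := by
    rw [List.find?_isSome]
    exact ⟨a0, List.mem_range.2 (by omega), hpa0⟩
  obtain ⟨a, ha⟩ := Option.isSome_iff_exists.1 hsome
  have hm : mexG L p = a := by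
    show ((List.range (L.length + 1)).find? (free L p)).getD 0 = a
    rw [ha]; rfl
  have h1 := List.find?_range_eq_some.1 ha
  obtain ⟨hpa, _, hmin⟩ := h1
  rw [hm]
  refine ⟨free_iff.1 hpa, ?_⟩
  by_contra hlt
  push Not at hlt
  have := hmin a0 (by omega)
  simp [hpa0] at this

theorem mexG_le (L : List (List ℕ × ℕ)) (p : List ℕ) : mexG L p ≤ L.length :=
  (mexG_spec L p).2.trans (List.length_filter_le _ _)

/-- colour one more path -/
def ins (L : List (List ℕ × ℕ)) (p : List ℕ) : List (List ℕ × ℕ) := L ++ [(p, mexG L p)]

/-- the coloured paths -/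
def clist (ps : List (List ℕ)) : List (List ℕ × ℕ) := ps.foldl ins []

/-- **first-fit colouring** -/
def colour (ps : List (List ℕ)) : List ℕ := (clist ps).map fun e => e.2

theorem clist_append (ps : List (List ℕ)) (p : List ℕ) : clist (ps ++ [p]) = ins (clist ps) p := by
  simp [clist, List.foldl_append]

theorem clist_fst (ps : List (List ℕ)) : (clist ps).map (fun e => e.1) = ps := by
  induction ps using List.reverseRecOn with
  | nil => rfl
  | append_singleton ps p ih => rw [clist_append, ins, List.map_append, ih]; rfl

theorem clist_length (ps : List (List ℕ)) : (clist ps).length = ps.length := by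
  have := congrArg List.length (clist_fst ps)
  simpa using this

@[simp] theorem length_colour (ps : List (List ℕ)) : (colour ps).length = ps.length := by
  simp [colour, clist_length]

theorem clist_pairwise (ps : List (List ℕ)) :
    (clist ps).Pairwise fun e e' => meets e'.1 e.1 = true → e.2 ≠ e'.2 := by
  induction ps using List.reverseRecOn with
  | nil => simp [clist]
  | append_singleton ps p ih =>
    rw [clist_append, ins, List.pairwise_append]
    refine ⟨ih, List.pairwise_singleton _ _, ?_⟩
    intro e he e' he'
    rw [List.mem_singleton] at he'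
    subst he'
    exact (mexG_spec (clist ps) p).1 e he

theorem clist_get (ps : List (List ℕ)) (i : ℕ) (hi : i < ps.length) :
    (clist ps)[i]'(by rw [clist_length]; exact hi) =
      (ps[i], (colour ps)[i]'(by rw [length_colour]; exact hi)) := by
  apply Prod.ext
  · have h := clist_fst ps
    have h2 : (clist ps).map (fun e => e.1) = ps := h
    have h3 : ((clist ps).map (fun e => e.1))[i]'(by
        rw [List.length_map, clist_length]; exact hi) = ps[i] := by
      simp only [h2]
    rw [List.getElem_map] at h3
    exact h3
  · show _ = (colour ps)[i]'_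
    simp [colour]

theorem colour_proper_lt (ps : List (List ℕ)) (i j : ℕ) (hij : i < j) (hj : j < ps.length) (v : ℕ)
    (h1 : v ∈ ps[i]'(hij.trans hj)) (h2 : v ∈ ps[j]) :
    (colour ps)[i]'(by rw [length_colour]; exact hij.trans hj) ≠
      (colour ps)[j]'(by rw [length_colour]; exact hj) := by
  have h := List.pairwise_iff_getElem.1 (clist_pairwise ps) i j
    (by rw [clist_length]; exact hij.trans hj) (by rw [clist_length]; exact hj) hij
  rw [clist_get ps i (hij.trans hj), clist_get ps j hj] at h
  exact h (meets_iff.2 ⟨v, h2, h1⟩)

/-- **two different paths with a common vertex get different colours** -/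
theorem colour_proper (ps : List (List ℕ)) (i j : ℕ) (hi : i < ps.length) (hj : j < ps.length)
    (hij : i ≠ j) (v : ℕ) (h1 : v ∈ ps[i]) (h2 : v ∈ ps[j]) :
    (colour ps)[i]'(by rw [length_colour]; exact hi) ≠
      (colour ps)[j]'(by rw [length_colour]; exact hj) := by
  rcases Nat.lt_or_gt_of_ne hij with h | h
  · exact colour_proper_lt ps i j h hj v h1 h2
  · exact (colour_proper_lt ps j i h hi v h2 h1).symm

/-- the same with `getD` -/
theorem colour_proper_getD (ps : List (List ℕ)) (i j : ℕ) (hi : i < ps.length) (hj : j < ps.length)
    (hij : i ≠ j) (v : ℕ) (h1 : v ∈ ps.getD i []) (h2 : v ∈ ps.getD j []) :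
    (colour ps).getD i 0 ≠ (colour ps).getD j 0 := by
  rw [List.getD_eq_getElem _ _ hi] at h1
  rw [List.getD_eq_getElem _ _ hj] at h2
  rw [List.getD_eq_getElem _ _ (by rw [length_colour]; exact hi),
    List.getD_eq_getElem _ _ (by rw [length_colour]; exact hj)]
  exact colour_proper ps i j hi hj hij v h1 h2

/-! ### the number of colours -/

theorem filter_meets_le (L : List (List ℕ × ℕ)) (c : ℕ) : ∀ p : List ℕ,
    (∀ v ∈ p, L.countP (fun e => decide (v ∈ e.1)) ≤ c) →
      (L.filter (fun e => meets p e.1)).length ≤ p.length * c
  | [], _ => by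
    have : L.filter (fun e => meets [] e.1) = [] := by
      rw [List.filter_eq_nil_iff]
      intro e _
      simp [meets]
    rw [this]; simp
  | v :: p, h => by
    have h1 := filter_meets_le L c p fun w hw => h w (List.mem_cons_of_mem _ hw)
    have h2 := h v List.mem_cons_self
    rw [← List.countP_eq_length_filter] at h1 ⊢
    have h3 : L.countP (fun e => meets (v :: p) e.1) ≤
        L.countP (fun e => decide (v ∈ e.1)) + L.countP (fun e => meets p e.1) := by
      clear h h1 h2
      induction L with
      | nil => simp
      | cons e L ih =>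
        rw [List.countP_cons, List.countP_cons, List.countP_cons]
        have h4 : meets (v :: p) e.1 = (decide (v ∈ e.1) || meets p e.1) := by
          simp [meets]
        rw [h4]
        by_cases ha : decide (v ∈ e.1) = true
        · by_cases hb : meets p e.1 = true
          · simp only [ha, hb, Bool.or_self, if_true]; omega
          · simp only [ha, hb, Bool.true_or, if_true]; simp only [Bool.false_eq_true, if_false]; omega
        · by_cases hb : meets p e.1 = true
          · simp only [ha, hb, Bool.or_true, if_true]; simp only [Bool.false_eq_true, if_false]; omega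
          · have ha' : decide (v ∈ e.1) = false := by simpa using ha
            have hb' : meets p e.1 = false := by simpa using hb
            simp only [ha', hb', Bool.or_self, Bool.false_eq_true, if_false]; omega
    rw [List.length_cons, Nat.succ_mul]
    omega

theorem clist_countP (ps : List (List ℕ)) (v : ℕ) :
    (clist ps).countP (fun e => decide (v ∈ e.1)) = ps.countP (fun p => decide (v ∈ p)) := by
  conv_rhs => rw [← clist_fst ps]
  rw [List.countP_map]
  rfl

/-- **number of colours**: paths with at most `l` vertices, at most `c` paths through a vertex -/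
theorem colour_le (ps : List (List ℕ)) (l c : ℕ) (hl : ∀ p ∈ ps, p.length ≤ l)
    (hc : ∀ v, ps.countP (fun p => decide (v ∈ p)) ≤ c) : ∀ a ∈ colour ps, a ≤ l * (c - 1) := by
  induction ps using List.reverseRecOn with
  | nil => intro a ha; simp [colour, clist] at ha
  | append_singleton ps p ih =>
    intro a ha
    have hc' : ∀ v, ps.countP (fun p => decide (v ∈ p)) ≤ c := by
      intro v
      have := hc v
      rw [List.countP_append] at this
      omega
    have ih' := ih (fun q hq => hl q (List.mem_append_left _ hq)) hc'
    rw [colour, clist_append, ins, List.map_append, List.mem_append] at ha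
    rcases ha with ha | ha
    · exact ih' a ha
    · simp only [List.map_cons, List.map_nil, List.mem_singleton] at ha
      subst ha
      refine (mexG_spec (clist ps) p).2.trans ?_
      refine (filter_meets_le (clist ps) (c - 1) p ?_).trans
        (Nat.mul_le_mul_right _ (hl p (by simp)))
      intro v hv
      rw [clist_countP]
      have h1 := hc v
      rw [List.countP_append, List.countP_singleton] at h1
      simp only [hv, decide_true, if_true] at h1
      omega

/-- every colour is `< l * c` when `0 < l` and `0 < c` -/
theorem colour_lt (ps : List (List ℕ)) (l c : ℕ) (hl0 : 0 < l) (hc0 : 0 < c)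
    (hl : ∀ p ∈ ps, p.length ≤ l) (hc : ∀ v, ps.countP (fun p => decide (v ∈ p)) ≤ c) :
    ∀ a ∈ colour ps, a < l * c := by
  intro a ha
  have h1 := colour_le ps l c hl hc a ha
  have h2 : l * (c - 1) + l = l * c := by
    rw [← Nat.mul_succ]
    congr 1
    omega
  omega

/-- the colours are below the number of paths -/
theorem colour_lt_length (ps : List (List ℕ)) : ∀ a ∈ colour ps, a < ps.length := by
  induction ps using List.reverseRecOn with
  | nil => intro a ha; simp [colour, clist] at ha
  | append_singleton ps p ih =>
    intro a ha
    rw [colour, clist_append, ins, List.map_append, List.mem_append] at ha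
    rw [List.length_append, List.length_singleton]
    rcases ha with ha | ha
    · have := ih a ha; omega
    · simp only [List.map_cons, List.map_nil, List.mem_singleton] at ha
      subst ha
      have := mexG_le (clist ps) p
      rw [clist_length] at this
      omega

/-! ### polynomial time -/

section ptf

variable {γ : Type} [PTCode γ]

theorem ptf_meets {p q : γ → List ℕ} (hp : PTF p) (hq : PTF q) :
    PTF (fun c => meets (p c) (q c)) := by
  unfold meets
  refine PTF.any (p := fun (c : γ) (v : ℕ) => decide (v ∈ q c)) hp ?_
  exact (PTPred.mem PTF.snd (PTF.comp hq PTF.fst)).toPTF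

theorem ptf_free : PTF (fun z : (List (List ℕ × ℕ) × List ℕ) × ℕ => free z.1.1 z.1.2 z.2) := by
  unfold free
  refine PTF.all (p := fun (z : (List (List ℕ × ℕ) × List ℕ) × ℕ) (e : List ℕ × ℕ) =>
    !(decide (e.2 = z.2) && meets z.1.2 e.1)) (by fun_prop) ?_
  refine PTF.not (PTF.and (PTPred.natEq (by fun_prop) (by fun_prop)).toPTF ?_)
  exact ptf_meets (by fun_prop) (by fun_prop)

theorem ptf_mexG : PTF (fun z : List (List ℕ × ℕ) × List ℕ => mexG z.1 z.2) := by
  unfold mexG
  refine PTF.optionGetD (PTF.find? (p := fun (z : List (List ℕ × ℕ) × List ℕ) (a : ℕ) =>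
    free z.1 z.2 a) (PTF.range ?_) ?_) (PTF.const 0)
  · fun_prop
  · exact ptf_free

theorem ptf_ins : PTF (fun z : List (List ℕ × ℕ) × List ℕ => ins z.1 z.2) := by
  unfold ins
  have h := ptf_mexG
  exact PTF.append (by fun_prop) (PTF.listCons (PTF.prodMk (by fun_prop) h) (PTF.const _))

theorem sz_clist_le (ps : List (List ℕ)) : sz (clist ps) ≤ sz ps * (2 * (3 * sz ps + 2) + 1) := by
  have h3 : ∀ e ∈ clist ps, sz e ≤ 3 * sz ps + 2 := by
    intro e he
    have h4 : e.1 ∈ ps := by
      have h := clist_fst ps
      have : e.1 ∈ (clist ps).map (fun e => e.1) := List.mem_map.2 ⟨e, he, rfl⟩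
      rwa [h] at this
    have h5 := sz_mem_le h4
    have h6 : e.2 < ps.length := colour_lt_length ps e.2 (List.mem_map.2 ⟨e, he, rfl⟩)
    have h7 := length_le_sz ps
    have h8 := sz_nat_le e.2
    obtain ⟨x, c⟩ := e
    simp only [sz_prod] at h5 h6 h8 ⊢
    omega
  refine (sz_list_le h3).trans (Nat.mul_le_mul_right _ ?_)
  rw [clist_length]
  exact length_le_sz ps

theorem ptf_clist : PTF clist := by
  unfold clist
  refine PTF.foldl (l := fun ps : List (List ℕ) => ps)
    (f := fun (_ : List (List ℕ)) (L : List (List ℕ × ℕ)) (p : List ℕ) => ins L p) (by fun_prop) ?_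
    (PTF.const _) (B := fun ps => sz ps * (2 * (3 * sz ps + 2) + 1)) ?_ ?_
  · exact PTF.comp ptf_ins
      (f := fun p : List (List ℕ) × List (List ℕ × ℕ) × List ℕ => p.2) (by fun_prop)
  · have h1 : PB (fun ps : List (List ℕ) => sz ps) := PB.sz
    fun_prop
  · intro ps i _
    change sz (clist (ps.take i)) ≤ _
    have h1 := sz_clist_le (ps.take i)
    have h2 := sz_take_le ps i
    refine h1.trans (Nat.mul_le_mul h2 ?_)
    omega

/-- **polynomial-time first-fit colouring** -/
theorem ptf_colour : PTF colour := by
  unfold colour
  exact PTF.map (f := fun (_ : List (List ℕ)) (e : List ℕ × ℕ) => e.2) ptf_clist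
    (PTF.comp PTF.snd PTF.snd)

end ptf

end Crest.Agent.R289.Greedy444
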