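import Crest.Agent.R289.Tour_594

/-!
# R289, block E (E16): Hamiltonian order with steps `≤ 3` of a connected graph (Sekanina), poly-time
(helper613)

Same graph format as `Tour_594`: `nb v g` (`g < d`) = neighbours of the vertex `v < N`; root `0`.
`ham N d nb : List ℕ` = depth first search, a vertex of even depth is written at its first visit, a
vertex of odd depth at its last visit.
`wd d g : List ℕ` (`g < (d+1)^3`) = word of at most `3` generator indices `< d`;
`nb3 d nb v g = (wd d g).foldl nb v`.
`ham_spec`: `ham` has length `N`, no repetition, first vertex `0`, exactly the vertices `< N`, and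
consecutive vertices are adjacent for `nb3` (`Adj ((d+1)^3) (nb3 d nb)`), so
`genOf ((d+1)^3) (nb3 d nb) u v` is the index of the word from `u` to the next vertex `v`.
`ptf_ham`, `ptf_nb3`, `ptf_wd`: poly-time.
-/

set_option autoImplicit false
set_option linter.dupNamespace false
set_option linter.unusedSectionVars false
set_option linter.unusedSimpArgs false

namespace Crest.Agent.R289.Ham613

open Crest.Agent.Lib.PT Crest.Agent.Lib.PT.Arith Crest.Agent.R288.PtDp115
open Crest.Agent.R289.Tour594

/-! ### words of length `≤ 3` -/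

/-- the word number `g` (digits in base `d + 1`, digit `d` = nothing) -/
def wd (d g : ℕ) : List ℕ :=
  [g % (d + 1), g / (d + 1) % (d + 1), g / (d + 1) / (d + 1)].filter (fun x => decide (x < d))

theorem wd_lt {d g x : ℕ} (h : x ∈ wd d g) : x < d := by
  have := (List.mem_filter.1 h).2
  simpa using this

theorem wd_length (d g : ℕ) : (wd d g).length ≤ 3 := by
  unfold wd
  exact (List.length_filter_le _ _).trans (by simp)

/-- composite neighbour -/
def nb3 (d : ℕ) (nb : ℕ → ℕ → ℕ) (v g : ℕ) : ℕ := (wd d g).foldl nb v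

/-- `v` is reached from `u` by a word of length `≤ k` -/
def Near (d : ℕ) (nb : ℕ → ℕ → ℕ) (k u v : ℕ) : Prop :=
  ∃ w : List ℕ, w.length ≤ k ∧ (∀ g ∈ w, g < d) ∧ w.foldl nb u = v

theorem Near.mono {d : ℕ} {nb : ℕ → ℕ → ℕ} {k k' u v : ℕ} (h : Near d nb k u v) (hk : k ≤ k') :
    Near d nb k' u v := by
  obtain ⟨w, h1, h2, h3⟩ := h
  exact ⟨w, h1.trans hk, h2, h3⟩

theorem Near.refl (d : ℕ) (nb : ℕ → ℕ → ℕ) (k u : ℕ) : Near d nb k u u :=
  ⟨[], by simp, by simp, rfl⟩

theorem Near.step {d : ℕ} {nb : ℕ → ℕ → ℕ} {k u v w : ℕ} (h : Near d nb k u v)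
    (ha : Adj d nb v w) : Near d nb (k + 1) u w := by
  obtain ⟨l, h1, h2, h3⟩ := h
  obtain ⟨g, hg, hgw⟩ := ha
  refine ⟨l ++ [g], by simpa using h1, ?_, ?_⟩
  · intro x hx
    rcases List.mem_append.1 hx with hx | hx
    · exact h2 x hx
    · rw [List.mem_singleton.1 hx]; exact hg
  · rw [List.foldl_append, h3]; exact hgw

theorem filter_eq_of_all {d : ℕ} {w : List ℕ} (h : ∀ g ∈ w, g < d) :
    w.filter (fun x => decide (x < d)) = w := by
  rw [List.filter_eq_self]
  intro a ha
  simpa using h a ha

/-- every word of length `≤ 3` has a number -/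
theorem exists_wd {d : ℕ} {w : List ℕ} (hl : w.length ≤ 3) (hw : ∀ g ∈ w, g < d) :
    ∃ g, g < (d + 1) ^ 3 ∧ wd d g = w := by
  have key : ∀ a b c : ℕ, a ≤ d → b ≤ d → c ≤ d →
      ((c * (d + 1) + b) * (d + 1) + a) < (d + 1) ^ 3 ∧
      wd d ((c * (d + 1) + b) * (d + 1) + a) =
        [a, b, c].filter (fun x => decide (x < d)) := by
    intro a b c ha hb hc
    have e1 : ((c * (d + 1) + b) * (d + 1) + a) % (d + 1) = a := by
      rw [Nat.mul_comm, Nat.mul_add_mod, Nat.mod_eq_of_lt (by omega)]
    have e2 : ((c * (d + 1) + b) * (d + 1) + a) / (d + 1) = c * (d + 1) + b := by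
      rw [Nat.mul_comm (c * (d + 1) + b), Nat.mul_add_div (by omega), Nat.div_eq_of_lt (by omega)]
      rfl
    have e3 : (c * (d + 1) + b) % (d + 1) = b := by
      rw [Nat.mul_comm, Nat.mul_add_mod, Nat.mod_eq_of_lt (by omega)]
    have e4 : (c * (d + 1) + b) / (d + 1) = c := by
      rw [Nat.mul_comm, Nat.mul_add_div (by omega), Nat.div_eq_of_lt (by omega)]
      rfl
    refine ⟨?_, ?_⟩
    · have h1 : c * (d + 1) + b + 1 ≤ (d + 1) ^ 2 := by nlinarith
      have h2 : (c * (d + 1) + b) * (d + 1) + a + 1 ≤ (c * (d + 1) + b + 1) * (d + 1) := by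
        nlinarith
      have h3 : (c * (d + 1) + b + 1) * (d + 1) ≤ (d + 1) ^ 2 * (d + 1) :=
        Nat.mul_le_mul_right _ h1
      have h4 : (d + 1) ^ 2 * (d + 1) = (d + 1) ^ 3 := by ring
      omega
    · unfold wd
      rw [e1, e2, e3, e4]
  match w, hl, hw with
  | [], _, _ =>
    obtain ⟨h1, h2⟩ := key d d d le_rfl le_rfl le_rfl
    refine ⟨_, h1, ?_⟩
    rw [h2]; simp
  | [a], _, hw =>
    have ha := hw a (by simp)
    obtain ⟨h1, h2⟩ := key a d d (by omega) le_rfl le_rfl
    refine ⟨_, h1, ?_⟩
    rw [h2]; simp [ha]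
  | [a, b], _, hw =>
    have ha := hw a (by simp)
    have hb := hw b (by simp)
    obtain ⟨h1, h2⟩ := key a b d (by omega) (by omega) le_rfl
    refine ⟨_, h1, ?_⟩
    rw [h2]; simp [ha, hb]
  | [a, b, c], _, hw =>
    have ha := hw a (by simp)
    have hb := hw b (by simp)
    have hc := hw c (by simp)
    obtain ⟨h1, h2⟩ := key a b c (by omega) (by omega) (by omega)
    refine ⟨_, h1, ?_⟩
    rw [h2]; simp [ha, hb, hc]
  | a :: b :: c :: e :: l, hl, _ =>
    simp only [List.length_cons] at hl
    omega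

theorem Near.adj {d : ℕ} {nb : ℕ → ℕ → ℕ} {u v : ℕ} (h : Near d nb 3 u v) :
    Adj ((d + 1) ^ 3) (nb3 d nb) u v := by
  obtain ⟨w, h1, h2, h3⟩ := h
  obtain ⟨g, hg, hgw⟩ := exists_wd h1 h2
  exact ⟨g, hg, by unfold nb3; rw [hgw, h3]⟩

theorem foldl_lt {N d : ℕ} {nb : ℕ → ℕ → ℕ} (hnb : ∀ v, v < N → ∀ g, g < d → nb v g < N)
    (w : List ℕ) (hw : ∀ g ∈ w, g < d) {v : ℕ} (hv : v < N) : w.foldl nb v < N := by
  induction w generalizing v with
  | nil => simpa using hv
  | cons a w ih =>
    rw [List.foldl_cons]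
    exact ih (fun g hg => hw g (List.mem_cons_of_mem _ hg)) (hnb v hv a (hw a (by simp)))

theorem nb3_lt {N d : ℕ} {nb : ℕ → ℕ → ℕ} (hnb : ∀ v, v < N → ∀ g, g < d → nb v g < N)
    {v : ℕ} (hv : v < N) (g : ℕ) : nb3 d nb v g < N :=
  foldl_lt hnb _ (fun _ h => wd_lt h) hv

/-! ### the search -/

/-- one step: the same search as `Tour594.step`, output only at even depth (first visit) resp. odd
depth (last visit) -/
def hstep (d : ℕ) (nb : ℕ → ℕ → ℕ) (s : St) : St :=
  match s.1.2 with
  | [] => s
  | v :: rest =>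
    match (List.range d).find? (fun g => !decide (nb v g ∈ s.1.1)) with
    | some g => ((nb v g :: s.1.1, nb v g :: v :: rest),
        if rest.length % 2 = 0 then s.2 else nb v g :: s.2)
    | none => ((s.1.1, rest), if rest.length % 2 = 0 then s.2 else v :: s.2)

/-- the Hamiltonian order -/
def ham (N d : ℕ) (nb : ℕ → ℕ → ℕ) : List ℕ :=
  ((hstep d nb)^[2 * N] (([0], [0]), [0])).2.reverse

theorem hstep_fst (d : ℕ) (nb : ℕ → ℕ → ℕ) (s s' : St) (h : s.1 = s'.1) :
    (hstep d nb s).1 = (step d nb s').1 := by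
  obtain ⟨⟨vis, stk⟩, out⟩ := s
  obtain ⟨⟨vis', stk'⟩, out'⟩ := s'
  simp only [Prod.mk.injEq] at h
  obtain ⟨rfl, rfl⟩ := h
  cases stk with
  | nil => rfl
  | cons v rest =>
    cases hf : (List.range d).find? (fun g => !decide (nb v g ∈ vis)) with
    | some g => simp [step, hstep, hf]
    | none =>
      cases rest with
      | nil => simp [step, hstep, hf]
      | cons u r => simp [step, hstep, hf]

theorem hiter_fst (d : ℕ) (nb : ℕ → ℕ → ℕ) (i : ℕ) :
    ((hstep d nb)^[i] (([0], [0]), [0])).1 = ((step d nb)^[i] (([0], [0]), [0])).1 := by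
  induction i with
  | zero => rfl
  | succ i ih =>
    rw [Function.iterate_succ_apply', Function.iterate_succ_apply']
    exact hstep_fst d nb _ _ ih

/-- the elements of odd depth on the stack -/
def odds : List ℕ → List ℕ
  | [] => []
  | v :: rest => if rest.length % 2 = 0 then odds rest else v :: odds rest

/-- the invariant of the output -/
structure HInv (d : ℕ) (nb : ℕ → ℕ → ℕ) (s : St) : Prop where
  perm : List.Perm (s.2 ++ odds s.1.2) s.1.1
  cho : s.2.IsChain (fun a b => Near d nb 3 b a)
  last : s.2.getLast? = some 0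
  near : ∀ v rest, s.1.2 = v :: rest →
    ∃ x, s.2.head? = some x ∧ Near d nb (1 + rest.length % 2) x v

theorem hinv_init (d : ℕ) (nb : ℕ → ℕ → ℕ) : HInv d nb (([0], [0]), [0]) where
  perm := by simp [odds]
  cho := by simp
  last := by simp
  near := by
    intro v rest h
    simp only [List.cons.injEq] at h
    obtain ⟨rfl, rfl⟩ := h
    exact ⟨0, rfl, Near.refl _ _ _ _⟩

theorem hinv_step {d : ℕ} {nb : ℕ → ℕ → ℕ} {s : St} (hch : s.1.2.IsChain (Adj d nb))
    (h : HInv d nb s) : HInv d nb (hstep d nb s) := by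
  obtain ⟨⟨vis, stk⟩, out⟩ := s
  cases stk with
  | nil => simpa [hstep] using h
  | cons v rest =>
    obtain ⟨x, hx, hxv⟩ := h.near v rest rfl
    have hperm := h.perm
    have hcho := h.cho
    have hlast := h.last
    simp only at hx hperm hcho hlast hch
    obtain ⟨o, rfl⟩ : ∃ o, out = x :: o := by
      cases out with
      | nil => simp at hx
      | cons a o =>
        simp only [List.head?_cons, Option.some.injEq] at hx
        exact ⟨o, by rw [hx]⟩
    cases hf : (List.range d).find? (fun g => !decide (nb v g ∈ vis)) with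
    | some g =>
      have hg : g < d := List.mem_range.1 (List.mem_of_find?_eq_some hf)
      have hadj : Adj d nb v (nb v g) := ⟨g, hg, rfl⟩
      rcases Nat.mod_two_eq_zero_or_one rest.length with h0 | h1
      · have e : hstep d nb ((vis, v :: rest), x :: o) =
            ((nb v g :: vis, nb v g :: v :: rest), x :: o) := by
          simp [hstep, hf, h0]
        rw [e]
        refine { perm := ?_, cho := hcho, last := hlast, near := ?_ }
        · have h2 : ¬ (rest.length + 1) % 2 = 0 := by omega
          simp only [odds, List.length_cons, h2, if_false]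
          refine List.perm_middle.trans ?_
          refine List.Perm.cons _ ?_
          simpa [odds] using hperm
        · intro v' rest' he
          simp only [List.cons.injEq] at he
          obtain ⟨rfl, rfl⟩ := he
          refine ⟨x, rfl, ?_⟩
          have h3 := hxv.step hadj
          refine h3.mono ?_
          simp only [List.length_cons]
          omega
      · have h1' : ¬ rest.length % 2 = 0 := by omega
        have e : hstep d nb ((vis, v :: rest), x :: o) =
            ((nb v g :: vis, nb v g :: v :: rest), nb v g :: x :: o) := by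
          simp [hstep, hf, h1']
        rw [e]
        refine { perm := ?_, cho := ?_, last := ?_, near := ?_ }
        · have h2 : (rest.length + 1) % 2 = 0 := by omega
          simp only [odds, List.length_cons, h2, if_true, List.cons_append]
          refine List.Perm.cons _ ?_
          simpa [odds] using hperm
        · refine List.isChain_cons_cons.2 ⟨?_, hcho⟩
          have h3 := hxv.step hadj
          exact h3.mono (by omega)
        · simpa [List.getLast?_cons_cons] using hlast
        · intro v' rest' he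
          simp only [List.cons.injEq] at he
          obtain ⟨rfl, rfl⟩ := he
          exact ⟨nb v g, rfl, Near.refl _ _ _ _⟩
    | none =>
      rcases Nat.mod_two_eq_zero_or_one rest.length with h0 | h1
      · have e : hstep d nb ((vis, v :: rest), x :: o) = ((vis, rest), x :: o) := by
          simp [hstep, hf, h0]
        rw [e]
        refine { perm := ?_, cho := hcho, last := hlast, near := ?_ }
        · simpa [odds, h0] using hperm
        · intro v' rest' he
          simp only at he
          subst he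
          have hadj : Adj d nb v v' := (List.isChain_cons_cons.1 hch).1
          refine ⟨x, rfl, ?_⟩
          have h3 := hxv.step hadj
          refine h3.mono ?_
          simp only [List.length_cons] at h0 ⊢
          omega
      · have h1' : ¬ rest.length % 2 = 0 := by omega
        have e : hstep d nb ((vis, v :: rest), x :: o) = ((vis, rest), v :: x :: o) := by
          simp [hstep, hf, h1']
        rw [e]
        refine { perm := ?_, cho := ?_, last := ?_, near := ?_ }
        · simp only [odds, h1', if_false] at hperm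
          refine List.Perm.trans ?_ hperm
          rw [List.cons_append]
          exact List.perm_middle.symm
        · refine List.isChain_cons_cons.2 ⟨?_, hcho⟩
          exact hxv.mono (by omega)
        · simpa [List.getLast?_cons_cons] using hlast
        · intro v' rest' he
          simp only at he
          subst he
          have hadj : Adj d nb v v' := (List.isChain_cons_cons.1 hch).1
          refine ⟨v, rfl, ?_⟩
          have h3 := (Near.refl d nb 0 v).step hadj
          exact h3.mono (by omega)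

/-- **the Hamiltonian order** -/
theorem ham_spec {N d : ℕ} {nb : ℕ → ℕ → ℕ} (hN : 0 < N)
    (hnb : ∀ v, v < N → ∀ g, g < d → nb v g < N)
    (hsym : ∀ v, v < N → ∀ g, g < d → ∃ g', g' < d ∧ nb (nb v g) g' = v)
    (hconn : ∀ S : ℕ → Prop, S 0 → (∀ v, v < N → S v → ∀ g, g < d → S (nb v g)) →
      ∀ v, v < N → S v) :
    (ham N d nb).length = N ∧ (ham N d nb).Nodup ∧ (ham N d nb).head? = some 0 ∧
      (ham N d nb).IsChain (Adj ((d + 1) ^ 3) (nb3 d nb)) ∧
      ∀ v, v ∈ ham N d nb ↔ v < N := by
  have hI : ∀ i, HInv d nb ((hstep d nb)^[i] (([0], [0]), [0])) := by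
    intro i
    induction i with
    | zero => exact hinv_init d nb
    | succ i ih =>
      rw [Function.iterate_succ_apply']
      refine hinv_step ?_ ih
      rw [hiter_fst]
      exact (inv_iter hN hnb hsym i).chs
  have hH := hI (2 * N)
  have hT := inv_iter hN hnb hsym (2 * N)
  have hE := stack_empty hN hnb hsym
  have hfst := hiter_fst d nb (2 * N)
  have hall : ∀ v, v ∈ ((step d nb)^[2 * N] (([0], [0]), [0])).1.1 ↔ v < N := by
    intro v
    refine ⟨hT.lt v, hconn (fun v => v ∈ ((step d nb)^[2 * N] (([0], [0]), [0])).1.1) hT.root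
      (fun v _ hv g hg => ?_) v⟩
    exact hT.closed v hv (by rw [hE]; simp) g hg
  have hp : List.Perm ((hstep d nb)^[2 * N] (([0], [0]), [0])).2
      ((step d nb)^[2 * N] (([0], [0]), [0])).1.1 := by
    have h1 := hH.perm
    rw [hfst, hE] at h1
    simpa [odds] using h1
  have hpr : List.Perm (ham N d nb) (List.range N) := by
    unfold ham
    refine (List.reverse_perm _).trans (hp.trans ?_)
    exact (List.perm_ext_iff_of_nodup hT.nodup List.nodup_range).2
      (fun v => by rw [hall v, List.mem_range])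
  refine ⟨by simpa using hpr.length_eq, hpr.nodup_iff.2 List.nodup_range, ?_, ?_, ?_⟩
  · unfold ham
    rw [List.head?_reverse]
    exact hH.last
  · unfold ham
    rw [List.isChain_reverse]
    exact hH.cho.imp (fun a b hab => Near.adj hab)
  · intro v
    rw [hpr.mem_iff, List.mem_range]

/-- consecutive entries of `ham`, by index -/
theorem ham_next {N d : ℕ} {nb : ℕ → ℕ → ℕ} (hN : 0 < N)
    (hnb : ∀ v, v < N → ∀ g, g < d → nb v g < N)
    (hsym : ∀ v, v < N → ∀ g, g < d → ∃ g', g' < d ∧ nb (nb v g) g' = v)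
    (hconn : ∀ S : ℕ → Prop, S 0 → (∀ v, v < N → S v → ∀ g, g < d → S (nb v g)) →
      ∀ v, v < N → S v) {i : ℕ} (hi : i + 1 < N) :
    genOf ((d + 1) ^ 3) (nb3 d nb) ((ham N d nb).getD i 0) ((ham N d nb).getD (i + 1) 0) <
        (d + 1) ^ 3 ∧
      nb3 d nb ((ham N d nb).getD i 0)
        (genOf ((d + 1) ^ 3) (nb3 d nb) ((ham N d nb).getD i 0) ((ham N d nb).getD (i + 1) 0)) =
      (ham N d nb).getD (i + 1) 0 := by
  obtain ⟨h1, _, _, h4, _⟩ := ham_spec hN hnb hsym hconn
  exact genOf_spec (getD_adj h4 (by rw [h1]; exact hi) 0)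


/-! ### poly-time -/

section pt

variable {γ : Type} [PTCode γ]

theorem ptf_wd (d : ℕ) {g : γ → ℕ} (hg : PTF g) : PTF (fun c => wd d (g c)) := by
  unfold wd
  have hm : ∀ {f : γ → ℕ}, PTF f → PTF (fun c => f c % (d + 1)) := fun hf =>
    PTF.natMod hf (PTF.const (d + 1))
  have hd : ∀ {f : γ → ℕ}, PTF f → PTF (fun c => f c / (d + 1)) := fun hf =>
    PTF.natDiv hf (PTF.const (d + 1))
  refine PTF.filter (l := fun c : γ => [g c % (d + 1), g c / (d + 1) % (d + 1),
    g c / (d + 1) / (d + 1)]) (p := fun (_ : γ) x => decide (x < d)) ?_ ?_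
  · refine PTF.listCons (hm hg) (PTF.listCons (hm (hd hg)) (PTF.listCons (hd (hd hg)) (PTF.const [])))
  · exact PTPred.toPTF (PTPred.natLt (f := fun q : γ × ℕ => q.2) (g := fun _ => d) PTF.snd
      (PTF.const d))

theorem ptf_nb3 {d : ℕ} {nb : γ → ℕ → ℕ → ℕ}
    (hnb : PTF (fun p : γ × ℕ × ℕ => nb p.1 p.2.1 p.2.2)) :
    PTF (fun p : γ × ℕ × ℕ => nb3 d (nb p.1) p.2.1 p.2.2) := by
  have h1 : PTF (fun p : (γ × ℕ) × ℕ => if p.2 < d then nb p.1.1 p.1.2 p.2 else p.1.2) := by
    refine PTF.ite (PTPred.natLt (f := fun p : (γ × ℕ) × ℕ => p.2) (g := fun _ => d) PTF.snd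
      (PTF.const d)) ?_ ?_
    · exact PTF.comp (g := fun p : γ × ℕ × ℕ => nb p.1 p.2.1 p.2.2)
        (f := fun r : (γ × ℕ) × ℕ => (r.1.1, r.1.2, r.2)) hnb (by fun_prop)
    · exact PTF.comp (g := fun p : γ × ℕ => p.2) PTF.snd PTF.fst
  have h2 : ∀ (v : γ × ℕ × ℕ → ℕ) (e : γ × ℕ × ℕ → ℕ), PTF v → PTF e →
      PTF (fun p => if e p < d then nb p.1 (v p) (e p) else v p) := by
    intro v e hv he
    exact PTF.comp (g := fun p : (γ × ℕ) × ℕ => if p.2 < d then nb p.1.1 p.1.2 p.2 else p.1.2)
      (f := fun p : γ × ℕ × ℕ => ((p.1, v p), e p)) h1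
      (PTF.prodMk (PTF.prodMk PTF.fst hv) he)
  have hg0 : PTF (fun p : γ × ℕ × ℕ => p.2.2) := by fun_prop
  have hv0 : PTF (fun p : γ × ℕ × ℕ => p.2.1) := by fun_prop
  have ha : PTF (fun p : γ × ℕ × ℕ => p.2.2 % (d + 1)) := PTF.natMod hg0 (PTF.const (d + 1))
  have hb0 : PTF (fun p : γ × ℕ × ℕ => p.2.2 / (d + 1)) := PTF.natDiv hg0 (PTF.const (d + 1))
  have hb : PTF (fun p : γ × ℕ × ℕ => p.2.2 / (d + 1) % (d + 1)) :=
    PTF.natMod hb0 (PTF.const (d + 1))
  have hc : PTF (fun p : γ × ℕ × ℕ => p.2.2 / (d + 1) / (d + 1)) :=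
    PTF.natDiv hb0 (PTF.const (d + 1))
  have r1 := h2 _ _ hv0 ha
  have r2 := h2 _ _ r1 hb
  have r3 := h2 _ _ r2 hc
  refine PTF.of_eq r3 (fun p => ?_)
  obtain ⟨c, v, g⟩ := p
  simp only [nb3, wd]
  by_cases h1 : g % (d + 1) < d <;> by_cases h2 : g / (d + 1) % (d + 1) < d <;>
    by_cases h3 : g / (d + 1) / (d + 1) < d <;> simp [List.filter_cons, h1, h2, h3]

theorem ptf_hstep {d : ℕ} {nb : γ → ℕ → ℕ → ℕ}
    (hnb : PTF (fun p : γ × ℕ × ℕ => nb p.1 p.2.1 p.2.2)) :
    PTF (fun p : γ × St => hstep d (nb p.1) p.2) := by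
  have hpar : PTPred (fun q : (γ × St) × ℕ × List ℕ => q.2.2.length % 2 = 0) := by
    refine PTPred.eq (f := fun q : (γ × St) × ℕ × List ℕ => q.2.2.length % 2) (g := fun _ => 0)
      ?_ (PTF.const 0)
    exact PTF.natMod ((PTU.length (l := fun q : (γ × St) × ℕ × List ℕ => q.2.2)
      (by fun_prop)).toPTF) (PTF.const 2)
  have h3 : PTF (fun q : (γ × St) × ℕ × List ℕ =>
      (((q.1.2.1.1, q.2.2), if q.2.2.length % 2 = 0 then q.1.2.2 else q.2.1 :: q.1.2.2) : St)) := by
    refine PTF.prodMk (by fun_prop) ?_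
    exact PTF.ite hpar (by fun_prop) (by fun_prop)
  have hw0 : PTF (fun r : ((γ × St) × ℕ × List ℕ) × ℕ => nb r.1.1.1 r.1.2.1 r.2) :=
    PTF.comp (g := fun p : γ × ℕ × ℕ => nb p.1 p.2.1 p.2.2)
      (f := fun r : ((γ × St) × ℕ × List ℕ) × ℕ => (r.1.1.1, r.1.2.1, r.2)) hnb (by fun_prop)
  have h2 : PTF (fun q : (γ × St) × ℕ × List ℕ =>
      (match (List.range d).find? (fun g => !decide (nb q.1.1 q.2.1 g ∈ q.1.2.1.1)) with
      | some g => ((nb q.1.1 q.2.1 g :: q.1.2.1.1, nb q.1.1 q.2.1 g :: q.2.1 :: q.2.2),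
          if q.2.2.length % 2 = 0 then q.1.2.2 else nb q.1.1 q.2.1 g :: q.1.2.2)
      | none => ((q.1.2.1.1, q.2.2),
          if q.2.2.length % 2 = 0 then q.1.2.2 else q.2.1 :: q.1.2.2) : St)) := by
    have hf : PTF (fun q : (γ × St) × ℕ × List ℕ =>
        (List.range d).find? (fun g => !decide (nb q.1.1 q.2.1 g ∈ q.1.2.1.1))) := by
      refine PTF.find? (l := fun _ => List.range d)
        (p := fun (q : (γ × St) × ℕ × List ℕ) g => !decide (nb q.1.1 q.2.1 g ∈ q.1.2.1.1))
        (PTF.const _) ?_
      refine PTF.not (PTPred.toPTF (PTPred.mem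
        (f := fun r : ((γ × St) × ℕ × List ℕ) × ℕ => nb r.1.1.1 r.1.2.1 r.2)
        (l := fun r : ((γ × St) × ℕ × List ℕ) × ℕ => r.1.1.2.1.1) hw0 (by fun_prop)))
    have hpar' : PTPred (fun r : ((γ × St) × ℕ × List ℕ) × ℕ => r.1.2.2.length % 2 = 0) := by
      refine PTPred.eq (f := fun r : ((γ × St) × ℕ × List ℕ) × ℕ => r.1.2.2.length % 2)
        (g := fun _ => 0) ?_ (PTF.const 0)
      exact PTF.natMod ((PTU.length (l := fun r : ((γ × St) × ℕ × List ℕ) × ℕ => r.1.2.2)
        (by fun_prop)).toPTF) (PTF.const 2)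
    have h4 := PTF.optionCasesOn (s := fun q : (γ × St) × ℕ × List ℕ =>
        (List.range d).find? (fun g => !decide (nb q.1.1 q.2.1 g ∈ q.1.2.1.1)))
      (f := fun q => (((q.1.2.1.1, q.2.2),
        if q.2.2.length % 2 = 0 then q.1.2.2 else q.2.1 :: q.1.2.2) : St))
      (g := fun q g => (((nb q.1.1 q.2.1 g :: q.1.2.1.1, nb q.1.1 q.2.1 g :: q.2.1 :: q.2.2),
          if q.2.2.length % 2 = 0 then q.1.2.2 else nb q.1.1 q.2.1 g :: q.1.2.2) : St)) hf h3 ?_
    · refine PTF.of_eq h4 (fun q => ?_)
      cases (List.range d).find? (fun g => !decide (nb q.1.1 q.2.1 g ∈ q.1.2.1.1)) <;> rfl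
    · refine PTF.prodMk (PTF.prodMk ?_ ?_) (PTF.ite hpar' ?_ ?_)
      · fun_prop
      · fun_prop
      · fun_prop
      · fun_prop
  have h1 := PTF.listCasesOn (s := fun p : γ × St => p.2.1.2)
    (f := fun p => p.2)
    (g := fun p v rest => (match (List.range d).find? (fun g => !decide (nb p.1 v g ∈ p.2.1.1)) with
      | some g => ((nb p.1 v g :: p.2.1.1, nb p.1 v g :: v :: rest),
          if rest.length % 2 = 0 then p.2.2 else nb p.1 v g :: p.2.2)
      | none => ((p.2.1.1, rest),
          if rest.length % 2 = 0 then p.2.2 else v :: p.2.2) : St)) (by fun_prop) (by fun_prop) h2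
  refine PTF.of_eq h1 (fun p => ?_)
  obtain ⟨c, ⟨⟨vis, stk⟩, out⟩⟩ := p
  cases stk with
  | nil => rfl
  | cons v rest => rfl

theorem ptf_ham {d : ℕ} {N : γ → ℕ} {nb : γ → ℕ → ℕ → ℕ} (hN : PTU N)
    (hnb : PTF (fun p : γ × ℕ × ℕ => nb p.1 p.2.1 p.2.2))
    (hlt : ∀ c v g, nb c v g ≤ N c) : PTF (fun c => ham (N c) d (nb c)) := by
  have key : ∀ c i, (∀ v ∈ ((hstep d (nb c))^[i] (([0], [0]), [0])).1.1, v ≤ N c) ∧
      (∀ v ∈ ((hstep d (nb c))^[i] (([0], [0]), [0])).1.2, v ≤ N c) ∧
      (∀ v ∈ ((hstep d (nb c))^[i] (([0], [0]), [0])).2, v ≤ N c) ∧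
      ((hstep d (nb c))^[i] (([0], [0]), [0])).1.1.length ≤ i + 1 ∧
      ((hstep d (nb c))^[i] (([0], [0]), [0])).1.2.length ≤ i + 1 ∧
      ((hstep d (nb c))^[i] (([0], [0]), [0])).2.length ≤ i + 1 := by
    intro c i
    induction i with
    | zero => simp
    | succ i ih =>
      rw [Function.iterate_succ_apply']
      generalize (hstep d (nb c))^[i] (([0], [0]), [0]) = s at ih ⊢
      obtain ⟨⟨vis, stk⟩, out⟩ := s
      obtain ⟨h1, h2, h3, h4, h5, h6⟩ := ih
      simp only at h1 h2 h3 h4 h5 h6
      cases stk with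
      | nil =>
        simp only [hstep]
        exact ⟨h1, h2, h3, by omega, by simp, by omega⟩
      | cons v rest =>
        have hv := h2 v (by simp)
        simp only [List.length_cons] at h5
        cases hf : (List.range d).find? (fun g => !decide (nb c v g ∈ vis)) with
        | some g =>
          have e : hstep d (nb c) ((vis, v :: rest), out) =
              ((nb c v g :: vis, nb c v g :: v :: rest),
                if rest.length % 2 = 0 then out else nb c v g :: out) := by
            simp [hstep, hf]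
          rw [e]
          have hg := hlt c v g
          refine ⟨?_, ?_, ?_, ?_, ?_, ?_⟩
          · intro w hw
            rcases List.mem_cons.1 hw with rfl | hw
            · exact hg
            · exact h1 w hw
          · intro w hw
            rcases List.mem_cons.1 hw with rfl | hw
            · exact hg
            · exact h2 w hw
          · intro w hw
            simp only at hw
            split_ifs at hw with hp
            · exact h3 w hw
            · rcases List.mem_cons.1 hw with rfl | hw
              · exact hg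
              · exact h3 w hw
          · simp only [List.length_cons]; omega
          · simp only [List.length_cons]; omega
          · simp only
            split_ifs with hp
            · omega
            · simp only [List.length_cons]; omega
        | none =>
          have e : hstep d (nb c) ((vis, v :: rest), out) =
              ((vis, rest), if rest.length % 2 = 0 then out else v :: out) := by
            simp [hstep, hf]
          rw [e]
          refine ⟨h1, fun w hw => h2 w (List.mem_cons_of_mem _ hw), ?_, ?_, ?_, ?_⟩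
          · intro w hw
            simp only at hw
            split_ifs at hw with hp
            · exact h3 w hw
            · rcases List.mem_cons.1 hw with rfl | hw
              · exact hv
              · exact h3 w hw
          · simp only; omega
          · simp only; omega
          · simp only
            split_ifs with hp
            · omega
            · simp only [List.length_cons]; omega
  unfold ham
  refine PTF.reverse ?_
  refine PTF.comp (g := fun s : St => s.2) PTF.snd ?_
  refine PTF.iterate' (n := fun c => 2 * N c) (f := fun (c : γ) (s : St) => hstep d (nb c) s)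
    (a := fun _ => (([0], [0]), [0]))
    (B := fun c => 7 * ((2 * N c + 1) * (2 * (N c + 1) + 1)) + 7) ?_ (ptf_hstep hnb) (PTF.const _)
    ?_ ?_
  · exact PTU.mul (PTU.const 2) hN
  · have := hN.pb
    fun_prop
  · intro c i hi
    obtain ⟨h1, h2, h3, h4, h5, h6⟩ := key c i
    have hs : ∀ l : List ℕ, (∀ v ∈ l, v ≤ N c) → l.length ≤ i + 1 →
        sz l ≤ (2 * N c + 1) * (2 * (N c + 1) + 1) := by
      intro l hl hlen
      have h7 : sz l ≤ l.length * (2 * (N c + 1) + 1) := by
        refine sz_list_le (fun a ha => ?_)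
        have h8 := hl a ha
        have h9 := sz_nat_le a
        omega
      refine h7.trans (Nat.mul_le_mul_right _ ?_)
      have : i ≤ 2 * N c := hi
      omega
    have e1 := hs _ h1 h4
    have e2 := hs _ h2 h5
    have e3 := hs _ h3 h6
    show sz ((hstep d (nb c))^[i] (([0], [0]), [0])) ≤ _
    rw [sz_prod, sz_prod]
    omega

end pt

end Crest.Agent.R289.Ham613
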