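import Crest.Agent.R289.Corner_223
import Crest.Agent.R289.ExpTr_820
import Crest.Agent.R289.TPgrpB_547

/-!
Row 289, block A, leaf A.HI, group part: the homomorphism-like map `nu` from elements of `Sk σ`
with constant term one to the norm-one group `P_k = U hσ k 1` (`nu r = tr r · N(r)^{-1/2}`),
its multiplicativity, and `nu (be x (rp i)) = alP i` (helper547's group elements).
-/

set_option autoImplicit false
set_option linter.unusedSectionVars false

namespace Crest.Agent.R289.HeckeNu622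

open Polynomial Crest.Agent.R289.Exp820 Crest.Agent.R289.SkewGrp877
open Crest.Agent.R289.TPgrp547 (Cen exists_sqrt Pk)

section norm

variable {K : Type*} [Field K] {σ : K →+* K} {k : ℕ}

/-- truncated norm -/
noncomputable def cN (k : ℕ) (r : Sk σ) : R σ k := tr k (⟨Sk.N r, 0⟩ : Sk σ)

theorem N_coeff_zero {r : Sk σ} (h : r.re.coeff 0 = 1) : (Sk.N r).coeff 0 = 1 := by
  unfold Sk.N
  rw [coeff_sub, mul_coeff_zero, sg_coeff, h, map_one, mul_assoc, mul_coeff_zero, coeff_X_zero,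
    zero_mul, sub_zero, one_mul]

theorem Cen_cN (hσ : ∀ a, σ (σ a) = a) {r : Sk σ} (h : r.re.coeff 0 = 1) : Cen (cN k r) := by
  refine ⟨?_, fun n hn => ⟨fun h1 => ?_, ?_⟩⟩
  · rw [cN, c_tr _ (Nat.zero_le _)]
    have := cf_even (⟨Sk.N r, 0⟩ : Sk σ) 0
    rw [Nat.mul_zero] at this
    rw [this]
    exact N_coeff_zero h
  · rw [cN, c_tr _ hn]
    obtain ⟨m, rfl | rfl⟩ := Nat.even_or_odd' n
    · omega
    · rw [cf_odd]
      exact coeff_zero _
  · rw [cN, c_tr _ hn]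
    obtain ⟨m, rfl | rfl⟩ := Nat.even_or_odd' n
    · rw [cf_even]
      show σ ((Sk.N r).coeff m) = (Sk.N r).coeff m
      rw [← sg_coeff, Fac281.sg_N hσ]
    · rw [cf_odd]
      show σ ((0 : K[X]).coeff m) = (0 : K[X]).coeff m
      rw [coeff_zero, map_zero]

theorem cN_mul (hσ : ∀ a, σ (σ a) = a) (r s : Sk σ) : cN k (r * s) = cN k r * cN k s := by
  unfold cN
  rw [← tr_mul hσ]
  congr 1
  apply Sk.ext
  · show Sk.N (r * s) = _
    rw [N_mul hσ, Sk.mul_re]
    simp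
  · show (0 : K[X]) = _
    rw [Sk.mul_im]
    simp

theorem tr_mul_conj (hσ : ∀ a, σ (σ a) = a) (r : Sk σ) :
    tr k r * SkewGrp877.conj (tr k r) = cN k r := by
  rw [← tr_conj hσ, ← tr_mul hσ, mul_conj_N hσ, cN]

theorem conj_tr_mul (hσ : ∀ a, σ (σ a) = a) (r : Sk σ) :
    SkewGrp877.conj (tr k r) * tr k r = cN k r := by
  have h := mul_conj_N hσ (Sk.conj r)
  rw [Corner223.conj_conj hσ, Corner223.N_conj hσ] at h
  rw [← tr_conj hσ, ← tr_mul hσ, h, cN]

end norm

section root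

variable {K : Type*} [Field K] [Finite K] {σ : K →+* K} {k : ℕ}
  (hσ : ∀ a, σ (σ a) = a) (h2 : (2 : K) ≠ 0)

open Classical in
/-- the central square root of `n⁻¹` -/
noncomputable def isq (n : R σ k) : R σ k :=
  if h : Cen n then (exists_sqrt hσ h2 h).choose else 1

theorem isq_cen {n : R σ k} (h : Cen n) : Cen (isq hσ h2 n) := by
  unfold isq
  rw [dif_pos h]
  exact (exists_sqrt hσ h2 h).choose_spec.1

theorem isq_sq {n : R σ k} (h : Cen n) : isq hσ h2 n * isq hσ h2 n * n = 1 := by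
  unfold isq
  rw [dif_pos h]
  exact (exists_sqrt hσ h2 h).choose_spec.2

theorem isq_unique {n s : R σ k} (h : Cen n) (hs : Cen s) (e : s * s * n = 1) :
    s = isq hσ h2 n := by
  set t := isq hσ h2 n with ht
  have htc : Cen t := isq_cen hσ h2 h
  have e2 : t * t * n = 1 := isq_sq hσ h2 h
  have e3 : n * (s * s - t * t) = 0 := by
    rw [h.comm hσ, sub_mul, e, e2, sub_self]
  have e4 := TPgrp547.cancel (by rw [h.1]; exact one_ne_zero) e3
  have e5 : (s + t) * (s - t) = 0 := by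
    have : (s + t) * (s - t) = s * s - t * t + (t * s - s * t) := by noncomm_ring
    rw [this, e4, hs.comm hσ t, sub_self, add_zero]
  have e6 := TPgrp547.cancel (by
    rw [c_add, hs.1, htc.1, one_add_one_eq_two]; exact h2) e5
  exact sub_eq_zero.1 e6

theorem isq_mul {n m : R σ k} (hn : Cen n) (hm : Cen m) :
    isq hσ h2 (n * m) = isq hσ h2 n * isq hσ h2 m := by
  have hin := isq_cen hσ h2 hn
  have him := isq_cen hσ h2 hm
  refine (isq_unique hσ h2 (hn.mul hσ hm) (hin.mul hσ him) ?_).symm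
  set a := isq hσ h2 n
  set b := isq hσ h2 m
  have ea : a * a * n = 1 := isq_sq hσ h2 hn
  have eb : b * b * m = 1 := isq_sq hσ h2 hm
  calc a * b * (a * b) * (n * m) = a * (b * a) * b * (n * m) := by noncomm_ring
    _ = a * (a * b) * b * (n * m) := by rw [him.comm hσ a]
    _ = a * a * (b * b * n) * m := by noncomm_ring
    _ = a * a * (n * (b * b)) * m := by rw [hn.comm hσ (b * b)]
    _ = a * a * n * (b * b * m) := by noncomm_ring
    _ = 1 := by rw [ea, eb, one_mul]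

/-- the unit `r · N(r)^{-1/2}` -/
noncomputable def nuU (r : Sk σ) (h : r.re.coeff 0 = 1) : (R σ k)ˣ where
  val := isq hσ h2 (cN k r) * tr k r
  inv := SkewGrp877.conj (isq hσ h2 (cN k r) * tr k r)
  val_inv := by
    have hc : Cen (cN k r) := Cen_cN hσ h
    have hi := isq_cen hσ h2 hc
    rw [SkewGrp877.conj_mul hσ, hi.conj hσ]
    calc isq hσ h2 (cN k r) * tr k r * (SkewGrp877.conj (tr k r) * isq hσ h2 (cN k r))
        = isq hσ h2 (cN k r) * ((tr k r * SkewGrp877.conj (tr k r)) * isq hσ h2 (cN k r)) := by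
          noncomm_ring
      _ = isq hσ h2 (cN k r) * (isq hσ h2 (cN k r) * cN k r) := by
          rw [tr_mul_conj hσ, hc.comm hσ]
      _ = 1 := by rw [← mul_assoc, isq_sq hσ h2 hc]
  inv_val := by
    have hc : Cen (cN k r) := Cen_cN hσ h
    have hi := isq_cen hσ h2 hc
    rw [SkewGrp877.conj_mul hσ, hi.conj hσ]
    calc SkewGrp877.conj (tr k r) * isq hσ h2 (cN k r) * (isq hσ h2 (cN k r) * tr k r)
        = SkewGrp877.conj (tr k r) * (isq hσ h2 (cN k r) * (isq hσ h2 (cN k r) * tr k r)) := by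
          noncomm_ring
      _ = SkewGrp877.conj (tr k r) * (tr k r * isq hσ h2 (cN k r) * isq hσ h2 (cN k r)) := by
          rw [hi.comm hσ (tr k r), hi.comm hσ (tr k r * isq hσ h2 (cN k r))]
      _ = cN k r * isq hσ h2 (cN k r) * isq hσ h2 (cN k r) := by
          rw [← conj_tr_mul hσ]; noncomm_ring
      _ = 1 := by
          rw [hc.comm hσ, mul_assoc, hc.comm hσ, ← mul_assoc, isq_sq hσ h2 hc]

theorem nuU_val (r : Sk σ) (h : r.re.coeff 0 = 1) :
    ((nuU hσ h2 r h : (R σ k)ˣ) : R σ k) = isq hσ h2 (cN k r) * tr k r := rfl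

theorem c_tr_zero {r : Sk σ} (h : r.re.coeff 0 = 1) : c (tr k r) 0 = 1 := by
  rw [c_tr _ (Nat.zero_le _)]
  have := cf_even r 0
  rw [Nat.mul_zero] at this
  rw [this, h]

theorem nuU_mem (r : Sk σ) (h : r.re.coeff 0 = 1) : (nuU hσ h2 r h : (R σ k)ˣ) ∈ U hσ k 1 := by
  rw [mem_U, mem_SG]
  refine ⟨(nuU hσ h2 r h : (R σ k)ˣ).val_inv, ?_⟩
  intro n hn
  have hn0 : n = 0 := by omega
  subst hn0
  rw [c_sub, nuU_val, (isq_cen hσ h2 (Cen_cN hσ h)).c_mul hσ _ (Nat.zero_le k),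
    c_one (Nat.zero_le k)]
  simp [(isq_cen hσ h2 (Cen_cN (k := k) hσ h)).1, c_tr_zero h]

open Classical in
/-- `nu r = r · N(r)^{-1/2}` in the group `P_k`, for elements with constant term one -/
noncomputable def nu (r : Sk σ) : Pk hσ k :=
  if h : r.re.coeff 0 = 1 then ⟨nuU hσ h2 r h, nuU_mem hσ h2 r h⟩ else 1

theorem nu_val {r : Sk σ} (h : r.re.coeff 0 = 1) :
    (((nu hσ h2 r : Pk hσ k) : (R σ k)ˣ) : R σ k) = isq hσ h2 (cN k r) * tr k r := by
  unfold nu
  rw [dif_pos h]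
  rfl

theorem nu_ext {u v : Pk hσ k} (h : ((u : (R σ k)ˣ) : R σ k) = ((v : (R σ k)ˣ) : R σ k)) :
    u = v := Subtype.ext (Units.ext h)

/-- **`nu` is multiplicative** -/
theorem nu_mul {r s : Sk σ} (hr : r.re.coeff 0 = 1) (hs : s.re.coeff 0 = 1) :
    (nu hσ h2 (r * s) : Pk hσ k) = nu hσ h2 r * nu hσ h2 s := by
  have hrs : (r * s).re.coeff 0 = 1 := by
    rw [Corner223.coeff_zero_mul, hr, hs, one_mul]
  apply nu_ext
  rw [nu_val hσ h2 hrs, Subgroup.coe_mul, Units.val_mul, nu_val hσ h2 hr, nu_val hσ h2 hs,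
    cN_mul hσ, isq_mul hσ h2 (Cen_cN hσ hr) (Cen_cN hσ hs), tr_mul hσ]
  have hi := isq_cen hσ h2 (Cen_cN (k := k) hσ hs)
  calc isq hσ h2 (cN k r) * isq hσ h2 (cN k s) * (tr k r * tr k s)
      = isq hσ h2 (cN k r) * (isq hσ h2 (cN k s) * tr k r) * tr k s := by noncomm_ring
    _ = isq hσ h2 (cN k r) * (tr k r * isq hσ h2 (cN k s)) * tr k s := by
        rw [hi.comm hσ (tr k r)]
    _ = isq hσ h2 (cN k r) * tr k r * (isq hσ h2 (cN k s) * tr k s) := by noncomm_ring

theorem nu_one : (nu hσ h2 (1 : Sk σ) : Pk hσ k) = 1 := by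
  have h1 : (1 : Sk σ).re.coeff 0 = 1 := by
    rw [Sk.one_re, coeff_one_zero]
  have h := nu_mul hσ h2 (k := k) h1 h1
  have h3 : (1 : Sk σ) * 1 = 1 := by
    apply Sk.ext
    · rw [Sk.mul_re, Sk.one_re, Sk.one_im]; simp
    · rw [Sk.mul_im, Sk.one_re, Sk.one_im]; simp
  rw [h3] at h
  exact (mul_eq_left.1 h.symm)

include hσ in
/-- `547`'s truncated element is the truncation of `be` -/
theorem tr_be (x : K) (l : K × K) :
    tr k (Fac281.be σ x l) = TPgrp547.el σ k (TPgrp547.bet σ x l) (TPgrp547.gam σ x l) := by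
  have hQ : σ (Fac281.Q σ x l) = TPgrp547.Qx σ (σ x) l := by
    rw [Fac281.Q_sigma hσ]; rfl
  have hb : Fac281.bet σ x l = TPgrp547.bet σ x l := by
    unfold Fac281.bet TPgrp547.bet
    rw [hQ]
  have hg : Fac281.gam σ x l = TPgrp547.gam σ x l := by
    unfold Fac281.gam TPgrp547.gam
    rw [hQ]
    rfl
  rw [← hb, ← hg]
  refine ext' fun n hn => ?_
  rw [c_tr _ hn, TPgrp547.el, c_mk _ hn]
  obtain ⟨m, rfl | rfl⟩ := Nat.even_or_odd' n
  · rw [cf_even]
    match m with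
    | 0 => simp [Fac281.be, TPgrp547.f4]
    | 1 => simp [Fac281.be, TPgrp547.f4, coeff_one]
    | 2 => simp [Fac281.be, TPgrp547.f4, coeff_one]
    | (m + 3) =>
      have : 2 * (m + 3) = (2 * m + 1) + 5 := by ring
      rw [this]
      simp [Fac281.be, TPgrp547.f4, coeff_one]
  · rw [cf_odd]
    match m with
    | 0 => simp [Fac281.be, TPgrp547.f4]
    | 1 => simp [Fac281.be, TPgrp547.f4]
    | (m + 2) =>
      have : 2 * (m + 2) + 1 = (2 * m) + 5 := by ring
      rw [this]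
      simp [Fac281.be, TPgrp547.f4]

/-- `nu be = alP` -/
theorem nu_be {x : K} (hx : σ x ≠ x) (i : Option K) :
    (nu hσ h2 (Fac281.be σ x (TPgrp547.rp i)) : Pk hσ k) = TPgrp547.alP hσ h2 k hx i := by
  have h1 := Fac281.be_re_coeff (σ := σ) x (TPgrp547.rp i)
  have hn : cN k (Fac281.be σ x (TPgrp547.rp i)) = TPgrp547.nX σ k x := by
    rw [← tr_mul_conj hσ, tr_be hσ]
    exact (TPgrp547.el_conj_mul hσ hx (TPgrp547.rp_ne i)).1
  apply nu_ext
  rw [nu_val hσ h2 h1, hn, tr_be hσ]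
  show _ = ((TPgrp547.al hσ h2 k hx i : (R σ k)ˣ) : R σ k)
  rw [TPgrp547.al_val, isq_unique hσ h2 (TPgrp547.Cen_nX hσ x) (TPgrp547.Cen_sX hσ h2 k x)
    (TPgrp547.sX_sq hσ h2 k x)]

end root

end Crest.Agent.R289.HeckeNu622
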