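import Mathlib

/-!
Row 289, block A: the Hecke operators `S_μ` of posts 5396 / 5602 (4) in homogeneous coordinates,
slice form (constant term one).

`K` field with an involution `σ`, `x` with `σ x ≠ x`; a line is `l = (l0,l1) ≠ 0`.
`nm a = a σ(a)`, `Q l = nm l0 - x nm l1`, `Qb l = nm l0 - σ x nm l1`, `rho = Qb / Q`.
The element of the line: `be_l = 1 + bet_l τ + gam_l τ²` (= `π_l c_l⁻¹`, `π_l` monic of norm
`(t-x)(t-σ x)`), odd coordinate `m = (l0, rho l1)`.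
For `a : K`: `l'' = (l0 + x σ(a) l1, l1 + a l0)` and
`a' = (x/σ x) rho(l) rho(l'') a`:  `(1 - σ(a) τ) be_{l''} = be_l (1 - σ(a') τ)`.
-/

set_option autoImplicit false

namespace Crest.Agent.R289.Hecke622

open Finset

section scalars

variable {K : Type*} [Field K] (σ : K →+* K) (x : K)

/-- norm of a scalar -/
def nm (a : K) : K := a * σ a
/-- `Q l = N l0 - x N l1` -/
def Q (l0 l1 : K) : K := nm σ l0 - x * nm σ l1
/-- `Qb l = N l0 - σ x N l1` -/
def Qb (l0 l1 : K) : K := nm σ l0 - σ x * nm σ l1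
/-- `rho = Qb / Q` -/
def rho (l0 l1 : K) : K := Qb σ x l0 l1 / Q σ x l0 l1
/-- coefficient of `τ` in `be_l` -/
def bet (l0 l1 : K) : K := (x - σ x) / x * (l0 * σ l1 / Qb σ x l0 l1)
/-- coefficient of `τ²` in `be_l` -/
def gam (l0 l1 : K) : K := - rho σ x l0 l1 / σ x
/-- first coordinate of the transformed line -/
def u0 (a l0 l1 : K) : K := l0 + x * σ a * l1
/-- second coordinate of the transformed line -/
def u1 (a l0 l1 : K) : K := l1 + a * l0
/-- the parameter on the odd side -/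
def ap (a l0 l1 : K) : K :=
  x / σ x * (rho σ x l0 l1 * rho σ x (u0 σ x a l0 l1) (u1 a l0 l1)) * a
/-- the scalar between `m''` and the odd substitution -/
def kap (a l0 l1 : K) : K :=
  Qb σ x (u0 σ x a l0 l1) (u1 a l0 l1) / ((1 - σ x * nm σ a) * Qb σ x l0 l1)

variable {σ x}

theorem x_ne_zero (hx : σ x ≠ x) : x ≠ 0 := by
  rintro rfl
  exact hx (map_zero σ)

theorem sx_ne_zero (hx : σ x ≠ x) : σ x ≠ 0 := by
  intro h
  exact x_ne_zero hx ((map_eq_zero σ).1 h)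

theorem sig_nm (hσ : ∀ a, σ (σ a) = a) (a : K) : σ (nm σ a) = nm σ a := by
  unfold nm
  rw [map_mul, hσ, mul_comm]

theorem nm_mul (a b : K) : nm σ (a * b) = nm σ a * nm σ b := by
  unfold nm
  rw [map_mul]
  ring

theorem nm_zero : nm σ 0 = 0 := by simp [nm]

theorem nm_one : nm σ 1 = 1 := by simp [nm]

theorem nm_eq_zero {a : K} : nm σ a = 0 ↔ a = 0 := by
  unfold nm
  rw [mul_eq_zero, map_eq_zero, or_self]

theorem sig_Q (hσ : ∀ a, σ (σ a) = a) (l0 l1 : K) : σ (Q σ x l0 l1) = Qb σ x l0 l1 := by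
  unfold Q Qb
  rw [map_sub, map_mul, sig_nm hσ, sig_nm hσ]

theorem sig_Qb (hσ : ∀ a, σ (σ a) = a) (l0 l1 : K) : σ (Qb σ x l0 l1) = Q σ x l0 l1 := by
  unfold Q Qb
  rw [map_sub, map_mul, sig_nm hσ, sig_nm hσ, hσ]

theorem Q_ne_zero (hσ : ∀ a, σ (σ a) = a) (hx : σ x ≠ x) {l0 l1 : K}
    (hl : ¬ (l0 = 0 ∧ l1 = 0)) : Q σ x l0 l1 ≠ 0 := by
  intro h
  have h' : Qb σ x l0 l1 = 0 := by rw [← sig_Q hσ, h, map_zero]
  unfold Q at h
  unfold Qb at h'
  have h1 : (σ x - x) * nm σ l1 = 0 := by linear_combination h - h'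
  rcases mul_eq_zero.1 h1 with h2 | h2
  · exact hx (sub_eq_zero.1 h2)
  · rw [h2, mul_zero, sub_zero] at h
    exact hl ⟨nm_eq_zero.1 h, nm_eq_zero.1 h2⟩

theorem Qb_ne_zero (hσ : ∀ a, σ (σ a) = a) (hx : σ x ≠ x) {l0 l1 : K}
    (hl : ¬ (l0 = 0 ∧ l1 = 0)) : Qb σ x l0 l1 ≠ 0 := by
  intro h
  apply Q_ne_zero hσ hx hl
  rw [← sig_Qb hσ, h, map_zero]

theorem rho_ne_zero (hσ : ∀ a, σ (σ a) = a) (hx : σ x ≠ x) {l0 l1 : K}
    (hl : ¬ (l0 = 0 ∧ l1 = 0)) : rho σ x l0 l1 ≠ 0 :=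
  div_ne_zero (Qb_ne_zero hσ hx hl) (Q_ne_zero hσ hx hl)

theorem sig_rho (hσ : ∀ a, σ (σ a) = a) (l0 l1 : K) :
    σ (rho σ x l0 l1) = (rho σ x l0 l1)⁻¹ := by
  unfold rho
  rw [map_div₀, sig_Q hσ, sig_Qb hσ, inv_div]

theorem nm_rho (hσ : ∀ a, σ (σ a) = a) (hx : σ x ≠ x) {l0 l1 : K}
    (hl : ¬ (l0 = 0 ∧ l1 = 0)) : nm σ (rho σ x l0 l1) = 1 := by
  unfold nm
  rw [sig_rho hσ]
  exact mul_inv_cancel₀ (rho_ne_zero hσ hx hl)

theorem one_sub_ne (hσ : ∀ a, σ (σ a) = a) (hx : σ x ≠ x) (a : K) :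
    1 - x * nm σ a ≠ 0 := by
  intro h
  have h1 : 1 - σ x * nm σ a = 0 := by
    have := congrArg σ h
    rwa [map_sub, map_one, map_mul, sig_nm hσ, map_zero] at this
  have h2 : (σ x - x) * nm σ a = 0 := by linear_combination h - h1
  rcases mul_eq_zero.1 h2 with h3 | h3
  · exact hx (sub_eq_zero.1 h3)
  · rw [h3, mul_zero, sub_zero] at h
    exact one_ne_zero h

theorem one_sub_ne' (hσ : ∀ a, σ (σ a) = a) (hx : σ x ≠ x) (a : K) :
    1 - σ x * nm σ a ≠ 0 := by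
  intro h
  apply one_sub_ne hσ hx a
  have := congrArg σ h
  rwa [map_sub, map_one, map_mul, sig_nm hσ, hσ, map_zero] at this

theorem line_ne (hσ : ∀ a, σ (σ a) = a) (hx : σ x ≠ x) (a : K) {l0 l1 : K}
    (hl : ¬ (l0 = 0 ∧ l1 = 0)) : ¬ (u0 σ x a l0 l1 = 0 ∧ u1 a l0 l1 = 0) := by
  rintro ⟨h0, h1⟩
  unfold u0 at h0
  unfold u1 at h1
  have hd := one_sub_ne hσ hx a
  unfold nm at hd
  apply hl
  constructor
  · have : (1 - x * (a * σ a)) * l0 = 0 := by linear_combination h0 - x * σ a * h1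
    rcases mul_eq_zero.1 this with h | h
    · exact absurd h hd
    · exact h
  · have : (1 - x * (a * σ a)) * l1 = 0 := by linear_combination h1 - a * h0
    rcases mul_eq_zero.1 this with h | h
    · exact absurd h hd
    · exact h

/-- the formula for `Q l''` -/
theorem Q_u (hσ : ∀ a, σ (σ a) = a) (a l0 l1 : K) :
    Q σ x (u0 σ x a l0 l1) (u1 a l0 l1)
      = (1 - x * nm σ a) * nm σ l0 - x * (1 - σ x * nm σ a) * nm σ l1
        + (σ x - x) * a * l0 * σ l1 := by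
  unfold Q u0 u1 nm
  simp only [map_add, map_mul, hσ]
  ring

/-- the formula for `Qb l''` -/
theorem Qb_u (hσ : ∀ a, σ (σ a) = a) (a l0 l1 : K) :
    Qb σ x (u0 σ x a l0 l1) (u1 a l0 l1)
      = (1 - σ x * nm σ a) * nm σ l0 - σ x * (1 - x * nm σ a) * nm σ l1
        + (x - σ x) * σ a * σ l0 * l1 := by
  unfold Qb u0 u1 nm
  simp only [map_add, map_mul, hσ]
  ring

theorem sig_ap (hσ : ∀ a, σ (σ a) = a) (a l0 l1 : K) :
    σ (ap σ x a l0 l1) = σ x / x * ((rho σ x l0 l1)⁻¹ *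
      (rho σ x (u0 σ x a l0 l1) (u1 a l0 l1))⁻¹) * σ a := by
  unfold ap
  rw [map_mul, map_mul, map_mul, map_div₀, sig_rho hσ, sig_rho hσ, hσ]

theorem nm_ap (hσ : ∀ a, σ (σ a) = a) (hx : σ x ≠ x) (a : K) {l0 l1 : K}
    (hl : ¬ (l0 = 0 ∧ l1 = 0)) : nm σ (ap σ x a l0 l1) = nm σ a := by
  have h1 := rho_ne_zero hσ hx hl
  have h2 := rho_ne_zero hσ hx (line_ne hσ hx a hl)
  have h3 := x_ne_zero hx
  have h4 := sx_ne_zero hx
  unfold nm
  rw [sig_ap hσ]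
  unfold ap
  field_simp

/-- coefficient of `τ` in `(1 - σ(a)τ) be_{l''} = be_l (1 - σ(a')τ)` -/
theorem comm1 (hσ : ∀ a, σ (σ a) = a) (hx : σ x ≠ x) (a : K) {l0 l1 : K}
    (hl : ¬ (l0 = 0 ∧ l1 = 0)) :
    bet σ x (u0 σ x a l0 l1) (u1 a l0 l1) - σ a
      = bet σ x l0 l1 - σ (ap σ x a l0 l1) := by
  have hQ := Q_ne_zero hσ hx hl
  have hQb := Qb_ne_zero hσ hx hl
  have hQ' := Q_ne_zero hσ hx (line_ne hσ hx a hl)
  have hQb' := Qb_ne_zero hσ hx (line_ne hσ hx a hl)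
  have h3 := x_ne_zero hx
  have h4 := sx_ne_zero hx
  rw [sig_ap hσ]
  unfold bet rho
  set A := Qb σ x (u0 σ x a l0 l1) (u1 a l0 l1) with hA
  set B := Q σ x (u0 σ x a l0 l1) (u1 a l0 l1) with hB
  set C := Qb σ x l0 l1 with hC
  set D := Q σ x l0 l1 with hD
  have key : (x - σ x) * (u0 σ x a l0 l1 * σ (u1 a l0 l1)) * C - x * σ a * C * A
      = (x - σ x) * (l0 * σ l1) * A - σ x * σ a * D * B := by
    rw [hA, hB, hC, hD, Q_u hσ, Qb_u hσ]
    unfold u0 u1 Q Qb nm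
    simp only [map_add, map_mul]
    ring
  field_simp
  linear_combination key

/-- coefficient of `τ²` -/
theorem comm2 (hσ : ∀ a, σ (σ a) = a) (hx : σ x ≠ x) (a : K) {l0 l1 : K}
    (hl : ¬ (l0 = 0 ∧ l1 = 0)) :
    gam σ x (u0 σ x a l0 l1) (u1 a l0 l1)
        - σ a * σ (bet σ x (u0 σ x a l0 l1) (u1 a l0 l1))
      = gam σ x l0 l1 - bet σ x l0 l1 * ap σ x a l0 l1 := by
  have hQ := Q_ne_zero hσ hx hl
  have hQb := Qb_ne_zero hσ hx hl
  have hQ' := Q_ne_zero hσ hx (line_ne hσ hx a hl)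
  have hQb' := Qb_ne_zero hσ hx (line_ne hσ hx a hl)
  have h3 := x_ne_zero hx
  have h4 := sx_ne_zero hx
  have e1 : σ (bet σ x (u0 σ x a l0 l1) (u1 a l0 l1))
      = (σ x - x) / σ x * (σ (u0 σ x a l0 l1) * u1 a l0 l1 /
        Q σ x (u0 σ x a l0 l1) (u1 a l0 l1)) := by
    unfold bet
    rw [map_mul, map_div₀, map_sub, hσ, map_div₀, map_mul, hσ, sig_Qb hσ]
  rw [e1]
  unfold gam bet ap rho
  set A := Qb σ x (u0 σ x a l0 l1) (u1 a l0 l1) with hA
  set B := Q σ x (u0 σ x a l0 l1) (u1 a l0 l1) with hB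
  set C := Qb σ x l0 l1 with hC
  set D := Q σ x l0 l1 with hD
  have key : - A * D - σ a * (σ x - x) * (σ (u0 σ x a l0 l1) * u1 a l0 l1) * D
      = - C * B - (x - σ x) * (l0 * σ l1) * A * a := by
    rw [hA, hB, hC, hD, Q_u hσ, Qb_u hσ]
    unfold u0 u1 Q Qb nm
    simp only [map_add, map_mul, hσ]
    ring
  field_simp
  linear_combination key

/-- coefficient of `τ³` -/
theorem comm3 (hσ : ∀ a, σ (σ a) = a) (hx : σ x ≠ x) (a : K) {l0 l1 : K}
    (hl : ¬ (l0 = 0 ∧ l1 = 0)) :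
    σ a * σ (gam σ x (u0 σ x a l0 l1) (u1 a l0 l1))
      = gam σ x l0 l1 * σ (ap σ x a l0 l1) := by
  have h1 := rho_ne_zero hσ hx hl
  have h2 := rho_ne_zero hσ hx (line_ne hσ hx a hl)
  have h3 := x_ne_zero hx
  have h4 := sx_ne_zero hx
  rw [sig_ap hσ]
  unfold gam
  rw [map_div₀, map_neg, sig_rho hσ, hσ]
  field_simp

/-- first coordinate of the odd vector `m''` -/
theorem odd0 (hσ : ∀ a, σ (σ a) = a) (hx : σ x ≠ x) (a : K) {l0 l1 : K}
    (hl : ¬ (l0 = 0 ∧ l1 = 0)) :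
    u0 σ x a l0 l1 = kap σ x a l0 l1 *
      (l0 + x * σ (ap σ x a l0 l1) * (rho σ x l0 l1 * l1)) := by
  have hQ := Q_ne_zero hσ hx hl
  have hQb := Qb_ne_zero hσ hx hl
  have hQ' := Q_ne_zero hσ hx (line_ne hσ hx a hl)
  have hQb' := Qb_ne_zero hσ hx (line_ne hσ hx a hl)
  have h3 := x_ne_zero hx
  have h4 := sx_ne_zero hx
  have h5 := one_sub_ne' hσ hx a
  rw [sig_ap hσ]
  unfold kap rho
  set A := Qb σ x (u0 σ x a l0 l1) (u1 a l0 l1) with hA
  set B := Q σ x (u0 σ x a l0 l1) (u1 a l0 l1) with hB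
  set C := Qb σ x l0 l1 with hC
  set D := Q σ x l0 l1 with hD
  have key : A * l0 + σ x * σ a * l1 * B = (1 - σ x * nm σ a) * C * u0 σ x a l0 l1 := by
    rw [hA, hB, hC, Q_u hσ, Qb_u hσ]
    unfold u0 Qb nm
    ring
  field_simp
  linear_combination -key

/-- second coordinate of the odd vector `m''` -/
theorem odd1 (hσ : ∀ a, σ (σ a) = a) (hx : σ x ≠ x) (a : K) {l0 l1 : K}
    (hl : ¬ (l0 = 0 ∧ l1 = 0)) :
    rho σ x (u0 σ x a l0 l1) (u1 a l0 l1) * u1 a l0 l1 = kap σ x a l0 l1 *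
      (rho σ x l0 l1 * l1 + σ x / x * ap σ x a l0 l1 * l0) := by
  have hQ := Q_ne_zero hσ hx hl
  have hQb := Qb_ne_zero hσ hx hl
  have hQ' := Q_ne_zero hσ hx (line_ne hσ hx a hl)
  have hQb' := Qb_ne_zero hσ hx (line_ne hσ hx a hl)
  have h3 := x_ne_zero hx
  have h4 := sx_ne_zero hx
  have h5 := one_sub_ne' hσ hx a
  unfold kap ap rho
  set A := Qb σ x (u0 σ x a l0 l1) (u1 a l0 l1) with hA
  set B := Q σ x (u0 σ x a l0 l1) (u1 a l0 l1) with hB
  set C := Qb σ x l0 l1 with hC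
  set D := Q σ x l0 l1 with hD
  have key : l1 * B + a * l0 * A = (1 - σ x * nm σ a) * D * u1 a l0 l1 := by
    rw [hA, hB, hD, Q_u hσ, Qb_u hσ]
    unfold u1 Q nm
    ring
  field_simp
  linear_combination -key

theorem kap_ne_zero (hσ : ∀ a, σ (σ a) = a) (hx : σ x ≠ x) (a : K) {l0 l1 : K}
    (hl : ¬ (l0 = 0 ∧ l1 = 0)) : kap σ x a l0 l1 ≠ 0 :=
  div_ne_zero (Qb_ne_zero hσ hx (line_ne hσ hx a hl))
    (mul_ne_zero (one_sub_ne' hσ hx a) (Qb_ne_zero hσ hx hl))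

/-- `rho''² (σ κ / κ)² = rho² λ²` -/
theorem kap_pow (hσ : ∀ a, σ (σ a) = a) (hx : σ x ≠ x) (a : K) {l0 l1 : K}
    (hl : ¬ (l0 = 0 ∧ l1 = 0)) :
    rho σ x (u0 σ x a l0 l1) (u1 a l0 l1) * (σ (kap σ x a l0 l1) / kap σ x a l0 l1)
      = rho σ x l0 l1 * ((1 - σ x * nm σ a) / (1 - x * nm σ a)) := by
  have hQ := Q_ne_zero hσ hx hl
  have hQb := Qb_ne_zero hσ hx hl
  have hQ' := Q_ne_zero hσ hx (line_ne hσ hx a hl)
  have hQb' := Qb_ne_zero hσ hx (line_ne hσ hx a hl)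
  have h5 := one_sub_ne' hσ hx a
  have h6 := one_sub_ne hσ hx a
  have e : σ (kap σ x a l0 l1) = Q σ x (u0 σ x a l0 l1) (u1 a l0 l1) /
      ((1 - x * nm σ a) * Q σ x l0 l1) := by
    unfold kap
    rw [map_div₀, map_mul, map_sub, map_one, map_mul, hσ, sig_nm hσ, sig_Qb hσ, sig_Qb hσ]
  rw [e]
  unfold kap rho
  field_simp

/-- `rho` of a scaled vector -/
theorem rho_smul {c : K} (hc : c ≠ 0) (l0 l1 : K) :
    rho σ x (c * l0) (c * l1) = rho σ x l0 l1 := by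
  have h : nm σ c ≠ 0 := fun h => hc (nm_eq_zero.1 h)
  unfold rho Q Qb
  rw [nm_mul, nm_mul, show nm σ c * nm σ l0 - σ x * (nm σ c * nm σ l1)
      = nm σ c * (nm σ l0 - σ x * nm σ l1) by ring,
    show nm σ c * nm σ l0 - x * (nm σ c * nm σ l1)
      = nm σ c * (nm σ l0 - x * nm σ l1) by ring]
  exact mul_div_mul_left _ _ h

/-- `rho` depends on the norms only -/
theorem rho_congr {l0 l1 m0 m1 : K} (h0 : nm σ l0 = nm σ m0) (h1 : nm σ l1 = nm σ m1) :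
    rho σ x l0 l1 = rho σ x m0 m1 := by
  unfold rho Q Qb
  rw [h0, h1]

variable (σ x) in
/-- the inverse of `a ↦ ap a l` for a fixed line -/
def apInv (b l0 l1 : K) : K :=
  σ x / x * (rho σ x l0 l1 *
    rho σ x (l0 + x * σ b * (rho σ x l0 l1 * l1))
      (rho σ x l0 l1 * l1 + σ x / x * b * l0))⁻¹ * b

theorem apInv_ap (hσ : ∀ a, σ (σ a) = a) (hx : σ x ≠ x) (a : K) {l0 l1 : K}
    (hl : ¬ (l0 = 0 ∧ l1 = 0)) : apInv σ x (ap σ x a l0 l1) l0 l1 = a := by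
  have h1 := rho_ne_zero hσ hx hl
  have h2 := rho_ne_zero hσ hx (line_ne hσ hx a hl)
  have h3 := x_ne_zero hx
  have h4 := sx_ne_zero hx
  have hk := kap_ne_zero hσ hx a hl
  have e : rho σ x (l0 + x * σ (ap σ x a l0 l1) * (rho σ x l0 l1 * l1))
      (rho σ x l0 l1 * l1 + σ x / x * ap σ x a l0 l1 * l0)
      = rho σ x (u0 σ x a l0 l1) (u1 a l0 l1) := by
    rw [← rho_smul hk, ← odd0 hσ hx a hl, ← odd1 hσ hx a hl]
    apply rho_congr rfl
    rw [nm_mul, nm_rho hσ hx (line_ne hσ hx a hl), one_mul]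
  unfold apInv
  rw [e]
  unfold ap
  field_simp

theorem ap_bijective [Finite K] (hσ : ∀ a, σ (σ a) = a) (hx : σ x ≠ x) {l0 l1 : K}
    (hl : ¬ (l0 = 0 ∧ l1 = 0)) : Function.Bijective (fun a => ap σ x a l0 l1) := by
  rw [← Finite.injective_iff_bijective]
  intro a b hab
  have := congrArg (fun c => apInv σ x c l0 l1) hab
  simpa only [apInv_ap hσ hx _ hl] using this

end scalars

section points

variable {K : Type*} [Field K]

/-- first coordinate of the representative of a point -/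
def rp0 : Option K → K
  | none => 1
  | some z => z
/-- second coordinate of the representative of a point -/
def rp1 : Option K → K
  | none => 0
  | some _ => 1

theorem rp_ne (i : Option K) : ¬ (rp0 i = 0 ∧ rp1 i = 0) := by
  cases i with
  | none => simp [rp0]
  | some z => simp [rp1]

open Classical in
/-- the point of a vector -/
noncomputable def pt (l0 l1 : K) : Option K := if l1 = 0 then none else some (l0 / l1)

open Classical in
/-- the scalar of a vector -/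
noncomputable def sc (l0 l1 : K) : K := if l1 = 0 then l0 else l1

theorem sc_ne {l0 l1 : K} (hl : ¬ (l0 = 0 ∧ l1 = 0)) : sc l0 l1 ≠ 0 := by
  unfold sc
  split_ifs with h
  · intro h0
    exact hl ⟨h0, h⟩
  · exact h

theorem sc_mul_rp0 (l0 l1 : K) : sc l0 l1 * rp0 (pt l0 l1) = l0 := by
  unfold sc pt
  split_ifs with h
  · simp [rp0]
  · simp only [rp0]
    field_simp

theorem sc_mul_rp1 (l0 l1 : K) : sc l0 l1 * rp1 (pt l0 l1) = l1 := by
  unfold sc pt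
  split_ifs with h
  · simp [rp1, h]
  · simp [rp1]

/-- homogeneous extension of degree `s` -/
noncomputable def ext (s : ℕ) (φ : Option K → K) (l0 l1 : K) : K :=
  sc l0 l1 ^ s * φ (pt l0 l1)

theorem ext_rp (s : ℕ) (φ : Option K → K) (i : Option K) : ext s φ (rp0 i) (rp1 i) = φ i := by
  unfold ext sc pt
  cases i with
  | none => simp [rp0, rp1]
  | some z => simp [rp0, rp1]

theorem ext_add (s : ℕ) (φ ψ : Option K → K) (l0 l1 : K) :
    ext s (φ + ψ) l0 l1 = ext s φ l0 l1 + ext s ψ l0 l1 := by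
  unfold ext
  rw [Pi.add_apply, mul_add]

theorem ext_smul (s : ℕ) (c : K) (φ : Option K → K) (l0 l1 : K) :
    ext s (c • φ) l0 l1 = c * ext s φ l0 l1 := by
  unfold ext
  rw [Pi.smul_apply, smul_eq_mul]
  ring

end points

end Crest.Agent.R289.Hecke622
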