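import Mathlib

/-!
Row 289, base functional gadget, part T1: homomorphism test for finite abelian groups.
If fewer than 1/6 of the pairs violate `f x + f y = f (x + y)`, then `f` is within 1.5 times the
violated fraction of a homomorphism.
-/

set_option autoImplicit false

namespace Crest.Agent.R289.BM957

open Finset

section hom

variable {G H : Type*} [AddCommGroup G] [Fintype G] [DecidableEq G] [AddCommGroup H]
  [DecidableEq H]

/-- violated pairs -/
def bad (f : G → H) : Finset (G × G) :=
  univ.filter fun p => f p.1 + f p.2 ≠ f (p.1 + p.2)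

/-- votes for the value `h` at `x` -/
def cnt (f : G → H) (x : G) (h : H) : ℕ :=
  (univ.filter fun y => f (x + y) - f y = h).card

lemma agree (f : G → H) (x : G) :
    (Fintype.card G) ^ 2 ≤
      (univ.filter fun p : G × G => f (x + p.1) - f p.1 = f (x + p.2) - f p.2).card
        + 2 * (bad f).card := by
  classical
  have h1 : (univ.filter fun p : G × G => f (x + p.1) + f p.2 ≠ f (x + p.1 + p.2)).card
      ≤ (bad f).card := by
    refine Finset.card_le_card_of_injOn (fun p => (x + p.1, p.2)) ?_ ?_
    · intro p hp
      simp only [coe_filter, mem_univ, true_and, Set.mem_ofPred_eq] at hp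
      simpa [bad] using hp
    · rintro ⟨a, b⟩ _ ⟨c, d⟩ _ h
      simpa using h
  have h2 : (univ.filter fun p : G × G => f (x + p.2) + f p.1 ≠ f (x + p.2 + p.1)).card
      ≤ (bad f).card := by
    refine Finset.card_le_card_of_injOn (fun p => (x + p.2, p.1)) ?_ ?_
    · intro p hp
      simp only [coe_filter, mem_univ, true_and, Set.mem_ofPred_eq] at hp
      simpa [bad] using hp
    · rintro ⟨a, b⟩ _ ⟨c, d⟩ _ h
      simp only [Prod.mk.injEq, add_right_inj] at h
      rw [Prod.mk.injEq]; exact ⟨h.2, h.1⟩
  have h3 : (univ : Finset (G × G)) ⊆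
      (univ.filter fun p : G × G => f (x + p.1) - f p.1 = f (x + p.2) - f p.2) ∪
      ((univ.filter fun p : G × G => f (x + p.1) + f p.2 ≠ f (x + p.1 + p.2)) ∪
       (univ.filter fun p : G × G => f (x + p.2) + f p.1 ≠ f (x + p.2 + p.1))) := by
    intro p _
    simp only [mem_union, mem_filter, mem_univ, true_and]
    by_contra hc
    push Not at hc
    obtain ⟨hc1, hc2, hc3⟩ := hc
    apply hc1
    have e : x + p.1 + p.2 = x + p.2 + p.1 := by abel
    rw [e] at hc2
    rw [sub_eq_sub_iff_add_eq_add, hc2, hc3]
  have h4 := Finset.card_le_card h3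
  have h5 := Finset.card_union_le
    (univ.filter fun p : G × G => f (x + p.1) - f p.1 = f (x + p.2) - f p.2)
      ((univ.filter fun p : G × G => f (x + p.1) + f p.2 ≠ f (x + p.1 + p.2)) ∪
       (univ.filter fun p : G × G => f (x + p.2) + f p.1 ≠ f (x + p.2 + p.1)))
  have h6 := Finset.card_union_le
      (univ.filter fun p : G × G => f (x + p.1) + f p.2 ≠ f (x + p.1 + p.2))
       (univ.filter fun p : G × G => f (x + p.2) + f p.1 ≠ f (x + p.2 + p.1))
  rw [Finset.card_univ, Fintype.card_prod, ← sq] at h4
  omega

lemma exists_vote (f : G → H) (x : G) :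
    ∃ h : H, (Fintype.card G) ^ 2 ≤ Fintype.card G * cnt f x h + 2 * (bad f).card := by
  classical
  obtain ⟨y0, _, hy0⟩ := Finset.exists_max_image (univ : Finset G)
    (fun y => cnt f x (f (x + y) - f y)) ⟨0, mem_univ _⟩
  refine ⟨f (x + y0) - f y0, ?_⟩
  refine (agree f x).trans (Nat.add_le_add_right ?_ _)
  have h1 : (univ.filter fun p : G × G => f (x + p.1) - f p.1 = f (x + p.2) - f p.2).card
      = ∑ y : G, cnt f x (f (x + y) - f y) := by
    simp only [cnt]
    rw [Finset.card_filter, ← univ_product_univ, Finset.sum_product]
    refine Finset.sum_congr rfl fun y _ => ?_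
    rw [Finset.card_filter]
    refine Finset.sum_congr rfl fun z _ => ?_
    by_cases h : f (x + y) - f y = f (x + z) - f z
    · simp [h]
    · rw [if_neg h, if_neg (fun h' => h h'.symm)]
  rw [h1]
  calc ∑ y : G, cnt f x (f (x + y) - f y) ≤ ∑ _y : G, cnt f x (f (x + y0) - f y0) :=
        Finset.sum_le_sum fun y hy => hy0 y hy
    _ = _ := by simp

/-- **homomorphism test** -/
theorem hom_test (f : G → H) (hb : 6 * (bad f).card < (Fintype.card G) ^ 2) :
    ∃ g : G →+ H, 2 * ((univ.filter fun x => f x ≠ g x).card * Fintype.card G)
      ≤ 3 * (bad f).card := by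
  classical
  have hn : 0 < Fintype.card G := Fintype.card_pos
  choose g hg using exists_vote f
  -- the votes against `g x` are few
  have hco : ∀ x, Fintype.card G * (univ.filter fun y => f (x + y) - f y ≠ g x).card
      ≤ 2 * (bad f).card := by
    intro x
    have h1 : (univ.filter fun y => f (x + y) - f y ≠ g x).card + cnt f x (g x)
        = Fintype.card G := by
      have := Finset.card_filter_add_card_filter_not (s := (univ : Finset G))
        (fun y => f (x + y) - f y = g x)
      rw [Finset.card_univ] at this
      unfold cnt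
      rw [add_comm]
      exact this
    have h2 := hg x
    have h3 : (Fintype.card G) ^ 2 = Fintype.card G *
        ((univ.filter fun y => f (x + y) - f y ≠ g x).card + cnt f x (g x)) := by
      rw [h1]; ring
    rw [h3, Nat.mul_add] at h2
    omega
  have hadd : ∀ x x', g (x + x') = g x + g x' := by
    intro x x'
    by_contra hne
    have hcov : (univ : Finset G) ⊆
        (univ.filter fun y => f (x + x' + y) - f y ≠ g (x + x')) ∪
        ((univ.filter fun y => f (x + (x' + y)) - f (x' + y) ≠ g x) ∪
         (univ.filter fun y => f (x' + y) - f y ≠ g x')) := by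
      intro y _
      simp only [mem_union, mem_filter, mem_univ, true_and]
      by_contra hc
      push Not at hc
      obtain ⟨h1, h2, h3⟩ := hc
      apply hne
      rw [← h1, ← h2, ← h3, add_assoc]
      abel
    have h1 := Finset.card_le_card hcov
    have h2 := Finset.card_union_le
        (univ.filter fun y => f (x + x' + y) - f y ≠ g (x + x'))
        ((univ.filter fun y => f (x + (x' + y)) - f (x' + y) ≠ g x) ∪
         (univ.filter fun y => f (x' + y) - f y ≠ g x'))
    have h3 := Finset.card_union_le
        (univ.filter fun y => f (x + (x' + y)) - f (x' + y) ≠ g x)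
        (univ.filter fun y => f (x' + y) - f y ≠ g x')
    have h4 : (univ.filter fun y => f (x + (x' + y)) - f (x' + y) ≠ g x).card
        ≤ (univ.filter fun y => f (x + y) - f y ≠ g x).card := by
      refine Finset.card_le_card_of_injOn (fun y => x' + y) ?_ ?_
      · intro y hy
        simpa using hy
      · intro a _ b _ h
        simpa using h
    rw [Finset.card_univ] at h1
    have e1 := hco (x + x')
    have e2 := hco x
    have e3 := hco x'
    have h5 : Fintype.card G * Fintype.card G ≤ Fintype.card G *
        ((univ.filter fun y => f (x + x' + y) - f y ≠ g (x + x')).card +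
        ((univ.filter fun y => f (x + y) - f y ≠ g x).card +
         (univ.filter fun y => f (x' + y) - f y ≠ g x').card)) :=
      Nat.mul_le_mul_left _ (by omega)
    rw [Nat.mul_add, Nat.mul_add] at h5
    rw [sq] at hb
    omega
  refine ⟨AddMonoidHom.mk' g hadd, ?_⟩
  -- distance
  set D := univ.filter fun x => f x ≠ g x with hD
  have hDe : (univ.filter fun x => f x ≠ (AddMonoidHom.mk' g hadd) x) = D := rfl
  rw [hDe]
  have h1 : ∑ x ∈ D, cnt f x (g x) ≤ (bad f).card := by
    have : (bad f).card = ∑ x : G, (univ.filter fun y => f x + f y ≠ f (x + y)).card := by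
      unfold bad
      rw [Finset.card_filter, ← univ_product_univ, Finset.sum_product]
      exact Finset.sum_congr rfl fun y _ => by rw [Finset.card_filter]
    rw [this]
    calc ∑ x ∈ D, cnt f x (g x)
        ≤ ∑ x ∈ D, (univ.filter fun y => f x + f y ≠ f (x + y)).card := by
          refine Finset.sum_le_sum fun x hx => ?_
          refine Finset.card_le_card fun y hy => ?_
          simp only [mem_filter, mem_univ, true_and] at hy ⊢
          intro h
          rw [hD, mem_filter] at hx
          apply hx.2
          rw [← hy, ← h]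
          abel
      _ ≤ _ := Finset.sum_le_univ_sum_of_nonneg fun _ => Nat.zero_le _
  -- every cnt is at least 2/3 n
  have h2 : ∀ x, 2 * (Fintype.card G * Fintype.card G) ≤ 3 * (Fintype.card G * cnt f x (g x)) := by
    intro x
    have := hg x
    rw [sq] at this hb
    omega
  have h2' : ∀ x, 2 * Fintype.card G ≤ 3 * cnt f x (g x) := by
    intro x
    have := h2 x
    have e : Fintype.card G * (2 * Fintype.card G) ≤ Fintype.card G * (3 * cnt f x (g x)) := by
      nlinarith
    exact Nat.le_of_mul_le_mul_left e hn
  calc 2 * (D.card * Fintype.card G) = ∑ _x ∈ D, 2 * Fintype.card G := by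
        rw [Finset.sum_const, smul_eq_mul]; ring
    _ ≤ ∑ x ∈ D, 3 * cnt f x (g x) := Finset.sum_le_sum fun x _ => h2' x
    _ = 3 * ∑ x ∈ D, cnt f x (g x) := by rw [Finset.mul_sum]
    _ ≤ 3 * (bad f).card := Nat.mul_le_mul_left _ h1

end hom

end Crest.Agent.R289.BM957
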