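import Crest.Agent.R316.Parse.PTFTok
import Crest.Agent.R316.Parse.Read
import Crest.Agent.R289.DefE_217

/-!
# R289 / IOparse (helper901), block E1: reading an End-of-Line instance

* `decN : List Bool → List ℕ` : decoder of `l.flatMap natBits`, poly-time (`ptf_decN`), `decN_enc`.
* `readI : List ℕ → EI`, `eolOf : List Bool → EI`, poly-time (`ptf_eolOf`);
  `eolOf_encode : eolOf I.encode = raw I`.
-/

set_option autoImplicit false

namespace Crest.Agent.R289

open Crest.Agent.Lib.PT Crest.PPADPCP

/-! ### numbers -/

/-- the numbers presented by a bit string -/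
def decN (w : List Bool) : List ℕ := Crest.Agent.R316.Parse.decTok w

theorem natBits_eq (k : ℕ) : Crest.PPADPCP.natBits k = Crest.RealEA.natBits k := rfl

theorem flatMap_natBits (l : List ℕ) :
    l.flatMap Crest.PPADPCP.natBits = Crest.Agent.R316.Parse.encTok l := rfl

theorem decN_enc (l : List ℕ) : decN (l.flatMap Crest.PPADPCP.natBits) = l := by
  rw [flatMap_natBits]; exact Crest.Agent.R316.Parse.decTok_encTok l

section
variable {α : Type} [PTCode α]

theorem ptf_decN {f : α → List Bool} (hf : PTF f) : PTF (fun a => decN (f a)) :=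
  Crest.Agent.R316.Parse.ptf_decTok' hf

theorem ptf_encN {f : α → List ℕ} (hf : PTF f) :
    PTF (fun a => (f a).flatMap Crest.PPADPCP.natBits) :=
  Crest.Agent.R316.Parse.ptf_encTok' hf

end

/-! ### the raw gate -/

/-- raw Boolean gate: tag (`0` var, `1` and, `2` or, `3` not) and two arguments -/
abbrev RG : Type := ℕ × ℕ × ℕ

/-! ### the reader -/

/-- read one gate at the position `s.1` of the list `L` -/
def rdG (L : List ℕ) (s : Un × List RG) : Un × List RG :=
  if L.getD s.1.val 0 = 1 ∨ L.getD s.1.val 0 = 2 then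
    (⟨s.1.val + 3⟩, (L.getD s.1.val 0, L.getD (s.1.val + 1) 0, L.getD (s.1.val + 2) 0) :: s.2)
  else (⟨s.1.val + 2⟩, (L.getD s.1.val 0, L.getD (s.1.val + 1) 0, 0) :: s.2)

/-- read the gates of a circuit whose presentation starts at the position `p` -/
def rdGs (L : List ℕ) (p : Un) : Un × List RG :=
  (rdG L)^[min (L.getD p.val 0) L.length] (⟨p.val + 1⟩, [])

/-- read a circuit; the first component is the position after it -/
def rdC (L : List ℕ) (p : Un) : Un × RawCirc :=
  (⟨(rdGs L p).1.val + 1 + min (L.getD (rdGs L p).1.val 0) L.length⟩,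
    ((rdGs L p).2.reverse,
      (L.drop ((rdGs L p).1.val + 1)).take (min (L.getD (rdGs L p).1.val 0) L.length)))

/-- read an instance -/
def readI (L : List ℕ) : EI :=
  (L.getD 0 0, (rdC L ⟨1⟩).2, (rdC L (rdC L ⟨1⟩).1).2)

/-- parse an instance -/
def eolOf (w : List Bool) : EI := readI (decN w)

/-! ### correctness -/

theorem rgNats_length_pos (g : BGate) : 0 < g.toNats.length := by cases g <;> simp [BGate.toNats]

theorem getD_at {pre : List ℕ} {l : List ℕ} {k : ℕ} :
    (pre ++ l).getD (pre.length + k) 0 = l.getD k 0 := by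
  rw [List.getD_append_right _ _ _ _ (by omega)]
  congr 1
  omega

theorem getD_at0 {pre : List ℕ} {l : List ℕ} :
    (pre ++ l).getD pre.length 0 = l.getD 0 0 := getD_at (k := 0)

theorem rdG_gate (pre post : List ℕ) (g : BGate) (acc : List RG) :
    rdG (pre ++ (g.toNats ++ post)) (⟨pre.length⟩, acc) =
      (⟨pre.length + g.toNats.length⟩, rawBGate g :: acc) := by
  unfold rdG
  simp only [getD_at, getD_at0]
  cases g <;> simp [BGate.toNats, rawBGate]

theorem rdG_iter (gs : List BGate) : ∀ (pre post : List ℕ) (acc : List RG),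
    (rdG (pre ++ (gs.flatMap BGate.toNats ++ post)))^[gs.length] (⟨pre.length⟩, acc) =
      (⟨pre.length + (gs.flatMap BGate.toNats).length⟩, (gs.map rawBGate).reverse ++ acc) := by
  induction gs with
  | nil => intro pre post acc; simp
  | cons g gs ih =>
    intro pre post acc
    rw [List.length_cons, Function.iterate_succ_apply]
    have e : pre ++ ((g :: gs).flatMap BGate.toNats ++ post) =
        pre ++ (g.toNats ++ (gs.flatMap BGate.toNats ++ post)) := by simp
    rw [e, rdG_gate]
    have e2 : pre ++ (g.toNats ++ (gs.flatMap BGate.toNats ++ post)) =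
        (pre ++ g.toNats) ++ (gs.flatMap BGate.toNats ++ post) := by simp
    rw [e2]
    have := ih (pre ++ g.toNats) post (rawBGate g :: acc)
    rw [List.length_append] at this
    rw [this]
    simp [Nat.add_assoc]

theorem length_flatMap_toNats (gs : List BGate) :
    gs.length ≤ (gs.flatMap BGate.toNats).length := by
  induction gs with
  | nil => simp
  | cons g gs ih =>
    have := rgNats_length_pos g
    simp only [List.flatMap_cons, List.length_append, List.length_cons]
    omega

theorem rdGs_spec {n : ℕ} (C : BCircuit n) (pre post : List ℕ) :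
    rdGs (pre ++ (C.toNats ++ post)) ⟨pre.length⟩ =
      (⟨pre.length + 1 + (C.gates.flatMap BGate.toNats).length⟩, (C.gates.map rawBGate).reverse) := by
  unfold rdGs
  simp only [getD_at0]
  have e0 : (C.toNats ++ post).getD 0 0 = C.gates.length := by
    simp [BCircuit.toNats]
  have e1 : min C.gates.length (pre ++ (C.toNats ++ post)).length = C.gates.length := by
    have := length_flatMap_toNats C.gates
    simp only [BCircuit.toNats, List.length_append, List.length_cons]
    omega
  rw [e0, e1]
  have e2 : pre ++ (C.toNats ++ post) = (pre ++ [C.gates.length]) ++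
      (C.gates.flatMap BGate.toNats ++ (C.outs.length :: C.outs ++ post)) := by
    simp [BCircuit.toNats]
  rw [e2]
  have h := rdG_iter C.gates (pre ++ [C.gates.length]) (C.outs.length :: C.outs ++ post) []
  simp only [List.length_append, List.length_cons, List.length_nil, Nat.zero_add,
    List.append_nil] at h
  exact h

theorem rdC_spec {n : ℕ} (C : BCircuit n) (pre post : List ℕ) :
    rdC (pre ++ (C.toNats ++ post)) ⟨pre.length⟩ =
      (⟨pre.length + C.toNats.length⟩, rawC C) := by
  unfold rdC
  rw [rdGs_spec]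
  simp only [List.reverse_reverse]
  have e3 : pre ++ (C.toNats ++ post) =
      (pre ++ C.gates.length :: C.gates.flatMap BGate.toNats) ++
        (C.outs.length :: C.outs ++ post) := by
    simp [BCircuit.toNats]
  have e4 : (pre ++ C.gates.length :: C.gates.flatMap BGate.toNats).length =
      pre.length + 1 + (C.gates.flatMap BGate.toNats).length := by
    simp only [List.length_append, List.length_cons]; omega
  have e5 : (pre ++ (C.toNats ++ post)).getD
      (pre.length + 1 + (C.gates.flatMap BGate.toNats).length) 0 = C.outs.length := by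
    rw [e3, ← e4, getD_at0]; simp
  have e6 : min C.outs.length (pre ++ (C.toNats ++ post)).length = C.outs.length := by
    simp only [BCircuit.toNats, List.length_append, List.length_cons]
    omega
  rw [e5, e6]
  have e7 : (pre ++ (C.toNats ++ post)).drop
      (pre.length + 1 + (C.gates.flatMap BGate.toNats).length + 1) = C.outs ++ post := by
    rw [e3, ← e4, ← List.drop_drop, List.drop_left]
    simp
  rw [e7, List.take_left]
  refine Prod.ext ?_ rfl
  simp only [BCircuit.toNats, List.length_append, List.length_cons]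
  congr 1
  omega

theorem readI_spec (I : EOL) : readI (I.n :: (I.S.toNats ++ I.P.toNats)) = raw I := by
  have h1 := rdC_spec I.S [I.n] I.P.toNats
  have h2 := rdC_spec I.P (I.n :: I.S.toNats) []
  simp only [List.append_nil, List.length_cons, List.length_nil, Nat.zero_add,
    List.cons_append, List.nil_append] at h1 h2
  unfold readI
  rw [h1]
  simp only
  rw [show (1 + I.S.toNats.length) = I.S.toNats.length + 1 from Nat.add_comm _ _, h2]
  rfl

theorem eolOf_encode (I : EOL) : eolOf I.encode = raw I := by
  unfold eolOf EOL.encode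
  rw [decN_enc, readI_spec]

/-! ### polynomial time -/

section
variable {α : Type} [PTCode α]

theorem size_add_le (a b : ℕ) : (a + b).size ≤ a.size + b := by
  induction b with
  | zero => simp
  | succ b ih =>
    have h : (a + b + 1).size ≤ (a + b).size + 1 := by
      rw [Nat.size_le]
      have h1 := Nat.lt_size_self (a + b)
      have h2 : 0 < 2 ^ (a + b).size := Nat.pos_of_ne_zero (by positivity)
      rw [pow_succ]
      omega
    rw [← Nat.add_assoc]
    omega

theorem sz_getD_le (L : List ℕ) (i : ℕ) : sz (L.getD i 0) ≤ sz L := by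
  rcases Nat.lt_or_ge i L.length with h | h
  · have h2 : L.getD i 0 = L[i] := by simp [List.getD, h]
    rw [h2]
    exact sz_mem_le (List.getElem_mem h)
  · have : L.getD i 0 = 0 := by simp [List.getD, h]
    rw [this, sz_nat]
    simp

theorem ptf_rdG : PTF (fun p : List ℕ × (Un × List RG) => rdG p.1 p.2) := by
  have g0 : PTF (fun p : List ℕ × (Un × List RG) => p.1.getD p.2.1.val 0) :=
    PTF.getD (PTU.val (by fun_prop)) (by fun_prop) (PTF.const _)
  have g1 : PTF (fun p : List ℕ × (Un × List RG) => p.1.getD (p.2.1.val + 1) 0) :=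
    PTF.getD ((PTU.val (by fun_prop)).add (PTU.const 1)) (by fun_prop) (PTF.const _)
  have g2 : PTF (fun p : List ℕ × (Un × List RG) => p.1.getD (p.2.1.val + 2) 0) :=
    PTF.getD ((PTU.val (by fun_prop)).add (PTU.const 2)) (by fun_prop) (PTF.const _)
  have u2 : PTF (fun p : List ℕ × (Un × List RG) => Un.mk (p.2.1.val + 2)) :=
    (PTU.val (by fun_prop)).add (PTU.const 2)
  have u3 : PTF (fun p : List ℕ × (Un × List RG) => Un.mk (p.2.1.val + 3)) :=
    (PTU.val (by fun_prop)).add (PTU.const 3)
  have c1 : PTPred (fun p : List ℕ × (Un × List RG) => p.1.getD p.2.1.val 0 = 1) :=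
    PTPred.eq g0 (PTF.const _)
  have c2 : PTPred (fun p : List ℕ × (Un × List RG) => p.1.getD p.2.1.val 0 = 2) :=
    PTPred.eq g0 (PTF.const _)
  unfold rdG
  fun_prop

theorem sz_rdG (L : List ℕ) (s : Un × List RG) : sz (rdG L s) ≤ sz s + (20 * sz L + 40) := by
  obtain ⟨⟨u⟩, l⟩ := s
  have h0 := sz_getD_le L u
  have h1 := sz_getD_le L (u + 1)
  have h2 := sz_getD_le L (u + 2)
  have z0 : sz (0 : ℕ) = 0 := by rw [sz_nat]; simp
  have hu : ∀ v : ℕ, sz (Un.mk v) = v := by intro v; simp [sz]
  unfold rdG
  simp only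
  split_ifs
  · simp only [sz_prod, sz_cons, hu]; omega
  · simp only [sz_prod, sz_cons, hu, z0]; omega

theorem ptf_rdGs {L : α → List ℕ} {p : α → Un} (hL : PTF L) (hp : PTF p) :
    PTF (fun a => rdGs (L a) (p a)) := by
  have hn : PTU (fun a => min ((L a).getD (p a).val 0) (L a).length) :=
    PTF.natMinUn (PTF.getD (PTU.val hp) hL (PTF.const _)) (PTU.length hL)
  have hf : PTF₂ (fun (a : α) (s : Un × List RG) => rdG (L a) s) := by
    have := ptf_rdG
    exact PTF.comp (f := fun q : α × (Un × List RG) => (L q.1, q.2)) ptf_rdG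
      ((PTF.comp hL PTF.fst).prodMk PTF.snd)
  have ha : PTF (fun a => ((⟨(p a).val + 1⟩, []) : Un × List RG)) :=
    (show PTF (fun a => Un.mk ((p a).val + 1)) from
      (PTU.val hp).add (PTU.const 1)).prodMk (PTF.const _)
  exact PTF.iterate_add (G := fun a => 20 * sz (L a) + 40) hn hf ha
    (by have := hL.sz; fun_prop) (fun a s => sz_rdG (L a) s)

theorem ptf_rdC {L : α → List ℕ} {p : α → Un} (hL : PTF L) (hp : PTF p) :
    PTF (fun a => rdC (L a) (p a)) := by
  have h := ptf_rdGs hL hp
  have h1 : PTU (fun a => (rdGs (L a) (p a)).1.val) := PTU.val (by fun_prop)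
  have hm : PTU (fun a => min ((L a).getD (rdGs (L a) (p a)).1.val 0) (L a).length) :=
    PTF.natMinUn (PTF.getD h1 hL (PTF.const _)) (PTU.length hL)
  have h2 : PTF (fun a => (rdGs (L a) (p a)).2.reverse) := by fun_prop
  have h3 : PTF (fun a => ((L a).drop ((rdGs (L a) (p a)).1.val + 1)).take
      (min ((L a).getD (rdGs (L a) (p a)).1.val 0) (L a).length)) :=
    PTF.take hm (PTF.drop (h1.add (PTU.const 1)) hL)
  have h4 : PTF (fun a => Un.mk ((rdGs (L a) (p a)).1.val + 1 +
      min ((L a).getD (rdGs (L a) (p a)).1.val 0) (L a).length)) :=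
    (h1.add (PTU.const 1)).add hm
  exact h4.prodMk (h2.prodMk h3)

theorem ptf_readI {L : α → List ℕ} (hL : PTF L) : PTF (fun a => readI (L a)) := by
  have h0 : PTF (fun a => (L a).getD 0 0) := PTF.getD (PTU.const 0) hL (PTF.const _)
  have h1 : PTF (fun a => rdC (L a) ⟨1⟩) := ptf_rdC hL (PTF.const _)
  have h2 : PTF (fun a => rdC (L a) (rdC (L a) ⟨1⟩).1) := ptf_rdC hL (PTF.comp PTF.fst h1)
  exact h0.prodMk ((PTF.comp PTF.snd h1).prodMk (PTF.comp PTF.snd h2))

theorem ptf_eolOf {f : α → List Bool} (hf : PTF f) : PTF (fun a => eolOf (f a)) :=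
  ptf_readI (ptf_decN hf)

end

end Crest.Agent.R289
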