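import Crest.Agent.R289.CornerHecke_223

/-!
Row 289, block A: the index system of the Hecke operator in the digits of 605,
`el4 a = 1 + a₀ τ + a₁ τ² + a₂ τ³ + a₃ τ⁴`, index type = tuples with norm prime to both places.
-/

set_option autoImplicit false

namespace Crest.Agent.R289.CornerHecke223

open Polynomial Crest.Agent.R289.Exp820 Crest.Agent.R289.Exp820.Sk Crest.Agent.R289.Fac281
  Crest.Agent.R289.Corner223 Crest.Agent.R289.HeckeTwo622

variable {K : Type*} [Field K] {σ : K →+* K}

/-- `1 + a₀ τ + a₁ τ² + a₂ τ³ + a₃ τ⁴` -/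
noncomputable def el4 (σ : K →+* K) (a : Fin 4 → K) : Sk σ :=
  ⟨1 + C (a 1) * X + C (a 3) * X ^ 2, C (a 0) + C (a 2) * X⟩

theorem el4_small (a : Fin 4 → K) : Small (el4 σ a) := by
  refine ⟨?_, ?_, ?_⟩
  · simp [el4]
  · simp only [el4]; compute_degree
  · simp only [el4]; compute_degree

theorem el4_inj : Function.Injective (el4 σ) := by
  intro a b h
  have h1 := congrArg Sk.re h
  have h2 := congrArg Sk.im h
  simp only [el4] at h1 h2
  have c1 := congrArg (fun p => Polynomial.coeff p 1) h1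
  have c3 := congrArg (fun p => Polynomial.coeff p 2) h1
  have c0 := congrArg (fun p => Polynomial.coeff p 0) h2
  have c2 := congrArg (fun p => Polynomial.coeff p 1) h2
  simp [coeff_one, coeff_X, coeff_C, coeff_X_pow] at c0 c1 c2 c3
  funext i
  fin_cases i
  · exact c0
  · exact c1
  · exact c2
  · exact c3

theorem el4_surj (r : Sk σ) (h : Small r) :
    ∃ a, el4 σ a = r := by
  obtain ⟨h0, h1, h2⟩ := h
  refine ⟨![r.im.coeff 0, r.re.coeff 1, r.im.coeff 1, r.re.coeff 2], ?_⟩
  ext1
  · simp only [el4]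
    conv_rhs => rw [Polynomial.as_sum_range_C_mul_X_pow' (p := r.re) (n := 3) (by omega)]
    simp [Finset.sum_range_succ, h0]
  · simp only [el4]
    conv_rhs => rw [Polynomial.as_sum_range_C_mul_X_pow' (p := r.im) (n := 2) (by omega)]
    simp [Finset.sum_range_succ]

/-- the index type -/
abbrev L4 (σ : K →+* K) (x y : K) : Type _ :=
  {a : Fin 4 → K // (N (el4 σ a)).eval x ≠ 0 ∧ (N (el4 σ a)).eval y ≠ 0}

/-- the index system -/
noncomputable def idx4 (σ : K →+* K) (x y : K) : Idx σ x y (L4 σ x y) where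
  el a := el4 σ a.1
  small a := el4_small a.1
  nx a := a.2.1
  ny a := a.2.2
  inj := fun a b h => Subtype.ext (el4_inj h)
  surj := fun r hr h1 h2 => by
    obtain ⟨a, rfl⟩ := el4_surj r hr
    exact ⟨⟨a, h1, h2⟩, rfl⟩

/-- the norm at a place, in digits -/
theorem N_el4_eval (a : Fin 4 → K) (x : K) : (N (el4 σ a)).eval x =
    (1 + a 1 * x + a 3 * x ^ 2) * (1 + σ (a 1) * x + σ (a 3) * x ^ 2) -
      x * (a 0 + a 2 * x) * (σ (a 0) + σ (a 2) * x) := by
  simp only [N, el4, map_add, map_one, map_mul, map_pow, sg_C, sg_X, eval_sub, eval_mul, eval_add,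
    eval_one, eval_C, eval_X, eval_pow]

/-- the action at a place, in digits -/
theorem act_el4 (a : Fin 4 → K) (x : K) (l : K × K) : act x l (el4 σ a) =
    ((1 + σ (a 1) * x + σ (a 3) * x ^ 2) * l.1 - x * (a 0 + a 2 * x) * l.2,
      (1 + a 1 * x + a 3 * x ^ 2) * l.2 - (σ (a 0) + σ (a 2) * x) * l.1) := by
  simp only [act, el4, map_add, map_one, map_mul, map_pow, sg_C, sg_X, eval_mul, eval_add,
    eval_one, eval_C, eval_X, eval_pow]

end Crest.Agent.R289.CornerHecke223
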