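import Mathlib
import Crest.Agent.R289.TSide_492
import Crest.Agent.R289.Ham_613

/-!
# The walk in `T` (row 289, (p1) of post 6387)

`GT`: a finite group `T` numbered by `Fin N`, symmetric generators `a : Fin d → T`, and the number
function `nb` of the left multiplication by generators.
`pathT h L hL : TSide492.Path T (Fin ((d+1)^3)) (Fin ((d+1)^3) × Fin ((d+1)^3))` for every
`L + 1 ≤ N`, on the Hamiltonian order `Ham613.ham` (steps = words of at most `3` letters), with the
numbers of its vertices (`pathT_tt`), of its steps (`pathT_d1`), and PTF tables of the contents of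
`D i`, `E1 a`, `E2 a`.
-/

set_option autoImplicit false
set_option linter.unusedVariables false
set_option linter.unusedSectionVars false

namespace Crest.Agent.R289.PathT992

open Crest.Agent.Lib.PT Crest.Agent.R289.Tour594 Crest.Agent.R289.Ham613

/-- number of the `i`-th vertex -/
def ttN (N d : ℕ) (nb : ℕ → ℕ → ℕ) (i : ℕ) : ℕ := (ham N d nb).getD i 0

/-- number of the `i`-th step -/
def d1N (N d : ℕ) (nb : ℕ → ℕ → ℕ) (i : ℕ) : ℕ :=
  genOf ((d + 1) ^ 3) (nb3 d nb) (ttN N d nb i) (ttN N d nb (i + 1))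

/-- a finite numbered group with symmetric generators -/
structure GT {T : Type} [Group T] (N d : ℕ) (e : T ≃ Fin N) (a : Fin d → T)
    (nb : ℕ → ℕ → ℕ) : Prop where
  nbe : ∀ (t : T) (g : Fin d), nb (e t) g = e (a g * t)
  sym : ∀ g, ∃ g', a g' = (a g)⁻¹
  gen : Subgroup.closure (Set.range a) = ⊤

/-- letter of a number -/
def lett {T : Type} [Group T] {d : ℕ} (a : Fin d → T) (g : ℕ) : T :=
  if h : g < d then a ⟨g, h⟩ else 1

/-- element of a word: the letters are multiplied on the left one after the other -/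
def wel {T : Type} [Group T] {d : ℕ} (a : Fin d → T) (w : List ℕ) : T :=
  w.foldl (fun t g => lett a g * t) 1

section main

variable {T : Type} [Group T] {N d : ℕ} {e : T ≃ Fin N} {a : Fin d → T} {nb : ℕ → ℕ → ℕ}

theorem wel_append (w w' : List ℕ) : wel a (w ++ w') = wel a w' * wel a w := by
  induction w' using List.reverseRecOn with
  | nil => simp [wel]
  | append_singleton w' g ih =>
    have h1 : ∀ (w : List ℕ) (g : ℕ), wel a (w ++ [g]) = lett a g * wel a w := by
      intro w g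
      simp [wel, List.foldl_append]
    rw [← List.append_assoc, h1, h1, ih, mul_assoc]

variable (h : GT N d e a nb)
include h

theorem nb_foldl (w : List ℕ) : ∀ (t : T), (∀ g ∈ w, g < d) →
    w.foldl nb (e t) = e (wel a w * t) := by
  induction w using List.reverseRecOn with
  | nil => intro t _; simp [wel]
  | append_singleton w g ih =>
    intro t hw
    rw [List.foldl_append, ih t (fun x hx => hw x (by simp [hx])), wel_append]
    have hg : g < d := hw g (by simp)
    have e1 : wel a [g] = a ⟨g, hg⟩ := by simp [wel, lett, hg]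
    rw [e1, mul_assoc]
    exact h.nbe _ ⟨g, hg⟩

theorem nb3_eq (t : T) (k : ℕ) : nb3 d nb (e t) k = e (wel a (wd d k) * t) := by
  unfold nb3
  exact nb_foldl h _ t (fun g hg => wd_lt hg)

theorem nb_lt : ∀ v, v < N → ∀ g, g < d → nb v g < N := by
  intro v hv g hg
  have := h.nbe (e.symm ⟨v, hv⟩) ⟨g, hg⟩
  rw [Equiv.apply_symm_apply] at this
  simp only at this
  rw [this]
  exact (e _).2

theorem nb_sym : ∀ v, v < N → ∀ g, g < d → ∃ g', g' < d ∧ nb (nb v g) g' = v := by
  intro v hv g hg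
  obtain ⟨g', hg'⟩ := h.sym ⟨g, hg⟩
  refine ⟨g', g'.2, ?_⟩
  have h1 := h.nbe (e.symm ⟨v, hv⟩) ⟨g, hg⟩
  rw [Equiv.apply_symm_apply] at h1
  simp only at h1
  rw [h1, h.nbe, hg', inv_mul_cancel_left, Equiv.apply_symm_apply]

theorem nb_conn (S : ℕ → Prop) (h0 : S 0)
    (hS : ∀ v, v < N → S v → ∀ g, g < d → S (nb v g)) : ∀ v, v < N → S v := by
  intro v hv
  have hN : 0 < N := by omega
  set t0 := e.symm ⟨0, hN⟩ with ht0
  have key : ∀ x : T, S (e (x * t0)) := by
    intro x
    have hx : x ∈ Subgroup.closure (Set.range a) := by rw [h.gen]; trivial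
    refine Subgroup.closure_induction_left (p := fun x _ => S (e (x * t0))) ?_ ?_ ?_ hx
    · rw [one_mul, ht0, Equiv.apply_symm_apply]; exact h0
    · rintro _ ⟨g, rfl⟩ y _ hy
      have := hS _ (e (y * t0)).2 hy g g.2
      rw [h.nbe, ← mul_assoc] at this
      exact this
    · rintro _ ⟨g, rfl⟩ y _ hy
      obtain ⟨g', hg'⟩ := h.sym g
      have := hS _ (e (y * t0)).2 hy g' g'.2
      rw [h.nbe, ← mul_assoc, hg'] at this
      exact this
  have := key (e.symm ⟨v, hv⟩ * t0⁻¹)
  rwa [inv_mul_cancel_right, Equiv.apply_symm_apply] at this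

theorem ham_all (hN : 0 < N) : (ham N d nb).length = N ∧ (ham N d nb).Nodup ∧
    (∀ v, v ∈ ham N d nb ↔ v < N) := by
  obtain ⟨h1, h2, _, _, h5⟩ := ham_spec hN (nb_lt h) (nb_sym h) (nb_conn h)
  exact ⟨h1, h2, h5⟩

theorem ttN_lt (hN : 0 < N) (i : ℕ) : ttN N d nb i < N := by
  obtain ⟨h1, _, h3⟩ := ham_all h hN
  unfold ttN
  rcases Nat.lt_or_ge i (ham N d nb).length with hi | hi
  · rw [List.getD_eq_getElem _ _ hi]
    exact (h3 _).1 (List.getElem_mem hi)
  · rw [List.getD_eq_default _ _ hi]; exact hN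

theorem ttN_inj (hN : 0 < N) {i j : ℕ} (hi : i < N) (hj : j < N)
    (hij : ttN N d nb i = ttN N d nb j) : i = j := by
  obtain ⟨h1, h2, _⟩ := ham_all h hN
  unfold ttN at hij
  rw [List.getD_eq_getElem _ _ (by omega), List.getD_eq_getElem _ _ (by omega)] at hij
  exact (List.Nodup.getElem_inj_iff h2).1 hij

theorem d1N_spec (hN : 0 < N) {i : ℕ} (hi : i + 1 < N) : d1N N d nb i < (d + 1) ^ 3 ∧
    nb3 d nb (ttN N d nb i) (d1N N d nb i) = ttN N d nb (i + 1) :=
  ham_next hN (nb_lt h) (nb_sym h) (nb_conn h) hi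

/-- the `i`-th vertex -/
noncomputable def ttT (h : GT N d e a nb) (hN : 0 < N) (i : ℕ) : T :=
  e.symm ⟨ttN N d nb i, ttN_lt h hN i⟩

omit h in
theorem e_ttT (h : GT N d e a nb) (hN : 0 < N) (i : ℕ) : (e (ttT h hN i) : ℕ) = ttN N d nb i := by
  unfold ttT
  rw [Equiv.apply_symm_apply]

/-- the `i`-th step, as an index -/
def d1T (N d : ℕ) (nb : ℕ → ℕ → ℕ) (i : ℕ) : Fin ((d + 1) ^ 3) :=
  ⟨min (d1N N d nb i) ((d + 1) ^ 3 - 1), by
    have : 0 < (d + 1) ^ 3 := Nat.pow_pos (Nat.succ_pos d)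
    omega⟩

theorem step_eq (hN : 0 < N) {i : ℕ} (hi : i + 1 < N) :
    ttT h hN (i + 1) = wel a (wd d (d1T N d nb i)) * ttT h hN i := by
  obtain ⟨h1, h2⟩ := d1N_spec h hN hi
  have e0 : ((d1T N d nb i : Fin ((d + 1) ^ 3)) : ℕ) = d1N N d nb i := by
    show min (d1N N d nb i) ((d + 1) ^ 3 - 1) = _
    omega
  apply e.injective
  apply Fin.ext
  rw [e_ttT, ← nb3_eq h, e_ttT, e0, h2]

/-- **the walk in `T`** -/
noncomputable def pathT (h : GT N d e a nb) (L : ℕ) (hL : L + 1 ≤ N) :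
    TSide492.Path T (Fin ((d + 1) ^ 3)) (Fin ((d + 1) ^ 3) × Fin ((d + 1) ^ 3)) where
  L := L
  tt := ttT h (by omega)
  inj := by
    intro i j hi hj hij
    have h0 : 0 < N := by omega
    have h1 := congrArg (fun t => ((e t : Fin N) : ℕ)) hij
    simp only [e_ttT] at h1
    exact ttN_inj h h0 (by omega) (by omega) h1
  g1 k := wel a (wd d k)
  d1 := d1T N d nb
  st1 := by
    intro i hi
    exact step_eq h _ (by omega)
  g2 k := wel a (wd d k.2) * wel a (wd d k.1)
  d2 i := (d1T N d nb i, d1T N d nb (i + 1))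
  st2 := by
    intro i hi
    rw [step_eq h _ (show i + 1 + 1 < N by omega), step_eq h _ (show i + 1 < N by omega), mul_assoc]

omit h in
theorem pathT_tt (h : GT N d e a nb) {L : ℕ} (hL : L + 1 ≤ N) (i : ℕ) :
    (e ((pathT h L hL).tt i) : ℕ) = ttN N d nb i := e_ttT h (show 0 < N by omega) i

omit h in
theorem pathT_d1 (h : GT N d e a nb) {L : ℕ} (hL : L + 1 ≤ N) {i : ℕ} (hi : i < L) :
    ((((pathT h L hL).d1 i) : Fin ((d + 1) ^ 3)) : ℕ) = d1N N d nb i := by
  have h1 := (d1N_spec h (show 0 < N by omega) (show i + 1 < N by omega)).1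
  show min (d1N N d nb i) ((d + 1) ^ 3 - 1) = _
  omega

omit h in
theorem pathT_d2 (h : GT N d e a nb) {L : ℕ} (hL : L + 1 ≤ N) (i : ℕ) :
    (pathT h L hL).d2 i = ((pathT h L hL).d1 i, (pathT h L hL).d1 (i + 1)) := rfl

/-! ### contents of the public words, as Boolean functions of the numbers -/

/-- content of `D i` at the number `v` -/
def cDN (N d : ℕ) (nb : ℕ → ℕ → ℕ) (i v : ℕ) : Bool := decide (v = ttN N d nb i)

/-- content of `E1 k` at the number `v` -/
def cE1N (N d : ℕ) (nb : ℕ → ℕ → ℕ) (L k v : ℕ) : Bool :=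
  (List.range L).any fun i => decide (v = ttN N d nb i) && decide (d1N N d nb i = k)

/-- content of `E2 (k, k')` at the number `v` -/
def cE2N (N d : ℕ) (nb : ℕ → ℕ → ℕ) (L k k' v : ℕ) : Bool :=
  (List.range (L - 1)).any fun i =>
    decide (v = ttN N d nb i) && (decide (d1N N d nb i = k) && decide (d1N N d nb (i + 1) = k'))

section contents
variable {K : Type} [Field K] [DecidableEq T]

omit h in
theorem num_eq {t : T} (h : GT N d e a nb) {L : ℕ} (hL : L + 1 ≤ N) (i : ℕ) :
    t = (pathT h L hL).tt i ↔ (e t : ℕ) = ttN N d nb i := by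
  rw [← pathT_tt h hL i]
  constructor
  · rintro rfl; rfl
  · intro h1
    exact e.injective (Fin.ext h1)

omit h in
theorem cD_eq (h : GT N d e a nb) {L : ℕ} (hL : L + 1 ≤ N) (i : ℕ) (t : T) :
    TSide492.cD (K := K) (pathT h L hL) i t = if cDN N d nb i (e t) then 1 else 0 := by
  unfold TSide492.cD cDN
  simp only [decide_eq_true_eq, ← num_eq h hL i]

omit h in
theorem cE1_eq (h : GT N d e a nb) {L : ℕ} (hL : L + 1 ≤ N) (k : Fin ((d + 1) ^ 3)) (t : T) :
    TSide492.cE1 (K := K) (pathT h L hL) k t = if cE1N N d nb L k (e t) then 1 else 0 := by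
  classical
  unfold TSide492.cE1 cE1N
  have key : (∃ i, i < (pathT h L hL).L ∧ t = (pathT h L hL).tt i ∧ (pathT h L hL).d1 i = k) ↔
      ((List.range L).any fun i => decide ((e t : ℕ) = ttN N d nb i) &&
        decide (d1N N d nb i = (k : ℕ))) = true := by
    simp only [List.any_eq_true, List.mem_range, Bool.and_eq_true, decide_eq_true_eq]
    constructor
    · rintro ⟨i, hi, h1, h2⟩
      have hi' : i < L := hi
      refine ⟨i, hi', (num_eq h hL i).1 h1, ?_⟩
      rw [← pathT_d1 h hL hi', h2]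
    · rintro ⟨i, hi, h1, h2⟩
      refine ⟨i, hi, (num_eq h hL i).2 h1, ?_⟩
      apply Fin.ext
      rw [pathT_d1 h hL hi, h2]
  by_cases hc : ∃ i, i < (pathT h L hL).L ∧ t = (pathT h L hL).tt i ∧ (pathT h L hL).d1 i = k
  · rw [if_pos hc, if_pos (key.1 hc)]
  · rw [if_neg hc, if_neg (fun h' => hc (key.2 h'))]

omit h in
theorem cE2_eq (h : GT N d e a nb) {L : ℕ} (hL : L + 1 ≤ N)
    (k : Fin ((d + 1) ^ 3) × Fin ((d + 1) ^ 3)) (t : T) :
    TSide492.cE2 (K := K) (pathT h L hL) k t = if cE2N N d nb L k.1 k.2 (e t) then 1 else 0 := by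
  classical
  unfold TSide492.cE2 cE2N
  have key : (∃ i, i + 2 ≤ (pathT h L hL).L ∧ t = (pathT h L hL).tt i ∧
      (pathT h L hL).d2 i = k) ↔
      ((List.range (L - 1)).any fun i => decide ((e t : ℕ) = ttN N d nb i) &&
        (decide (d1N N d nb i = (k.1 : ℕ)) && decide (d1N N d nb (i + 1) = (k.2 : ℕ)))) = true := by
    simp only [List.any_eq_true, List.mem_range, Bool.and_eq_true, decide_eq_true_eq]
    constructor
    · rintro ⟨i, hi, h1, h2⟩
      have hi' : i + 2 ≤ L := hi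
      rw [pathT_d2] at h2
      subst h2
      exact ⟨i, by omega, (num_eq h hL i).1 h1, (pathT_d1 h hL (show i < L by omega)).symm,
        (pathT_d1 h hL (show i + 1 < L by omega)).symm⟩
    · rintro ⟨i, hi, h1, h2, h3⟩
      refine ⟨i, by show i + 2 ≤ L; omega, (num_eq h hL i).2 h1, ?_⟩
      rw [pathT_d2]
      apply Prod.ext
      · apply Fin.ext
        rw [pathT_d1 h hL (show i < L by omega), h2]
      · apply Fin.ext
        rw [pathT_d1 h hL (show i + 1 < L by omega), h3]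
  by_cases hc : ∃ i, i + 2 ≤ (pathT h L hL).L ∧ t = (pathT h L hL).tt i ∧
      (pathT h L hL).d2 i = k
  · rw [if_pos hc, if_pos (key.1 hc)]
  · rw [if_neg hc, if_neg (fun h' => hc (key.2 h'))]

end contents

end main

/-! ### polynomial time -/

section ptf

variable {γ : Type} [PTCode γ] {d : ℕ} {N : γ → ℕ} {nb : γ → ℕ → ℕ → ℕ} (hN : PTU N)
  (hnb : PTF (fun p : γ × ℕ × ℕ => nb p.1 p.2.1 p.2.2)) (hlt : ∀ c v g, nb c v g ≤ N c)

include hN hnb hlt

theorem ptf_ttN {i : γ → ℕ} (hi : PTU i) : PTF (fun c => ttN (N c) d (nb c) (i c)) := by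
  unfold ttN
  exact PTF.getD hi (ptf_ham hN hnb hlt) (PTF.const 0)

theorem ptf_d1N {i : γ → ℕ} (hi : PTU i) : PTF (fun c => d1N (N c) d (nb c) (i c)) := by
  unfold d1N
  exact ptf_genOf (ptf_nb3 hnb) (ptf_ttN hN hnb hlt hi)
    (ptf_ttN hN hnb hlt (PTU.add hi (PTU.const 1)))

/-- content table of `D i` -/
theorem ptf_cDN {i v : γ → ℕ} (hi : PTU i) (hv : PTF v) :
    PTF (fun c => cDN (N c) d (nb c) (i c) (v c)) := by
  unfold cDN
  exact (PTPred.natEq hv (ptf_ttN hN hnb hlt hi)).toPTF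

/-- content table of `E1 k` -/
theorem ptf_cE1N {L k v : γ → ℕ} (hL : PTU L) (hk : PTF k) (hv : PTF v) :
    PTF (fun c => cE1N (N c) d (nb c) (L c) (k c) (v c)) := by
  have hLn : PTF (fun c => List.range (L c)) := PTF.range hL
  have hN' : PTU (fun p : γ × ℕ => N p.1) := PTU.comp hN PTF.fst
  have hnb' : PTF (fun p : (γ × ℕ) × ℕ × ℕ => nb p.1.1 p.2.1 p.2.2) :=
    PTF.comp (g := fun p : γ × ℕ × ℕ => nb p.1 p.2.1 p.2.2)
      (f := fun p : (γ × ℕ) × ℕ × ℕ => (p.1.1, p.2)) hnb (by fun_prop)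
  have hm : PTU (fun p : γ × ℕ => min p.2 (L p.1)) :=
    PTF.natMinUn PTF.snd (PTU.comp hL PTF.fst)
  have h0 : PTF (fun c => (List.range (L c)).any fun i =>
      decide (v c = ttN (N c) d (nb c) (min i (L c))) &&
        decide (d1N (N c) d (nb c) (min i (L c)) = k c)) := by
    refine PTF.any (p := fun (c : γ) (i : ℕ) =>
      decide (v c = ttN (N c) d (nb c) (min i (L c))) &&
        decide (d1N (N c) d (nb c) (min i (L c)) = k c)) hLn ?_
    exact PTF.and
      (PTPred.natEq (PTF.comp hv PTF.fst) (ptf_ttN (N := fun p : γ × ℕ => N p.1)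
        (nb := fun p : γ × ℕ => nb p.1) hN' hnb' (fun p => hlt p.1) hm)).toPTF
      (PTPred.natEq (ptf_d1N (N := fun p : γ × ℕ => N p.1)
        (nb := fun p : γ × ℕ => nb p.1) hN' hnb' (fun p => hlt p.1) hm)
        (PTF.comp hk PTF.fst)).toPTF
  refine h0.of_eq fun c => ?_
  unfold cE1N
  rw [Bool.eq_iff_iff, List.any_eq_true, List.any_eq_true]
  refine exists_congr fun i => and_congr_right fun hi => ?_
  rw [Nat.min_eq_left (List.mem_range.1 hi).le]

/-- content table of `E2 (k, k')` -/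
theorem ptf_cE2N {L k k' v : γ → ℕ} (hL : PTU L) (hk : PTF k) (hk' : PTF k') (hv : PTF v) :
    PTF (fun c => cE2N (N c) d (nb c) (L c) (k c) (k' c) (v c)) := by
  have hL1 : PTU (fun c => L c - 1) := by
    have h : PTU (fun c => min (L c - 1) (L c)) :=
      PTF.natMinUn (PTF.natSub hL.toPTF (PTF.const 1)) hL
    exact h.of_eq fun c => by omega
  have hLn : PTF (fun c => List.range (L c - 1)) := PTF.range hL1
  have hN' : PTU (fun p : γ × ℕ => N p.1) := PTU.comp hN PTF.fst
  have hnb' : PTF (fun p : (γ × ℕ) × ℕ × ℕ => nb p.1.1 p.2.1 p.2.2) :=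
    PTF.comp (g := fun p : γ × ℕ × ℕ => nb p.1 p.2.1 p.2.2)
      (f := fun p : (γ × ℕ) × ℕ × ℕ => (p.1.1, p.2)) hnb (by fun_prop)
  have hm : PTU (fun p : γ × ℕ => min p.2 (L p.1)) :=
    PTF.natMinUn PTF.snd (PTU.comp hL PTF.fst)
  have hm1 : PTU (fun p : γ × ℕ => min p.2 (L p.1) + 1) := PTU.add hm (PTU.const 1)
  have h0 : PTF (fun c => (List.range (L c - 1)).any fun i =>
      decide (v c = ttN (N c) d (nb c) (min i (L c))) &&
        (decide (d1N (N c) d (nb c) (min i (L c)) = k c) &&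
          decide (d1N (N c) d (nb c) (min i (L c) + 1) = k' c))) := by
    refine PTF.any (p := fun (c : γ) (i : ℕ) =>
      decide (v c = ttN (N c) d (nb c) (min i (L c))) &&
        (decide (d1N (N c) d (nb c) (min i (L c)) = k c) &&
          decide (d1N (N c) d (nb c) (min i (L c) + 1) = k' c))) hLn ?_
    exact PTF.and
      (PTPred.natEq (PTF.comp hv PTF.fst) (ptf_ttN (N := fun p : γ × ℕ => N p.1)
        (nb := fun p : γ × ℕ => nb p.1) hN' hnb' (fun p => hlt p.1) hm)).toPTF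
      (PTF.and (PTPred.natEq (ptf_d1N (N := fun p : γ × ℕ => N p.1)
        (nb := fun p : γ × ℕ => nb p.1) hN' hnb' (fun p => hlt p.1) hm)
        (PTF.comp hk PTF.fst)).toPTF
      (PTPred.natEq (ptf_d1N (N := fun p : γ × ℕ => N p.1)
        (nb := fun p : γ × ℕ => nb p.1) hN' hnb' (fun p => hlt p.1) hm1)
        (PTF.comp hk' PTF.fst)).toPTF)
  refine h0.of_eq fun c => ?_
  unfold cE2N
  rw [Bool.eq_iff_iff, List.any_eq_true, List.any_eq_true]
  refine exists_congr fun i => and_congr_right fun hi => ?_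
  have := List.mem_range.1 hi
  rw [Nat.min_eq_left (by omega)]

end ptf

end Crest.Agent.R289.PathT992
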