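import Mathlib
import Crest.Agent.R289.AsmObj_12
import Crest.Agent.R289.Diam_309
import Crest.Agent.R289.FamComb_715
import Crest.Agent.R289.PathT_992

/-!
# The walk in `T = P k` of the object (row 289, block C)

Letters `a z`, `(a z)⁻¹` of `Asm12.Obj` at level `k`, numbers `< 2 |Option K|`; `nbO D k v g` =
number of (letter `g`) * (element `v`); `gtO : PathT992.GT ..`;
`walkO h hlam k hL : TSide492.Path (D.P k) ..` with absolute step types, its content tables and
their PTF (relative to `PTU k`, `PTU (Q ^ k)`).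
-/

set_option autoImplicit false
set_option linter.unusedVariables false
set_option linter.unusedSectionVars false

namespace Crest.Agent.R289.PathObj992

open Crest.Agent.Lib.PT Crest.Agent.R289.Asm12 Crest.Agent.R289.PathT992
open Crest.Agent.R289.FamComb715

/-- mixing of the inverses from expansion -/
theorem mix_of_exp {P I : Type} [Group P] [Fintype P] [Fintype I] {s : I → P} {lam : ℝ}
    (h : TP846.Exp s lam) : Diam309.Mix s lam := by
  intro f hf
  have h1 := h (fun x => f x⁻¹) (fun v => hf _)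
  have e1 : ∑ v : P, (∑ z, f (v * s z)⁻¹) ^ 2 = ∑ g : P, (∑ i, f ((s i)⁻¹ * g)) ^ 2 :=
    Fintype.sum_equiv (Equiv.inv P) _ _ fun v => by simp
  have e2 : ∑ v : P, f v⁻¹ = ∑ g : P, f g := Fintype.sum_equiv (Equiv.inv P) _ _ fun v => by simp
  have e3 : ∑ v : P, f v⁻¹ ^ 2 = ∑ g : P, f g ^ 2 :=
    Fintype.sum_equiv (Equiv.inv P) _ _ fun v => by simp
  rw [e1, e2, e3] at h1
  exact h1

section
variable (D : Obj)

/-- number of symbols -/
abbrev nK : ℕ := Fintype.card (Option D.K)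

/-- number of letters -/
noncomputable def dT : ℕ := 2 * nK D

/-- symbol of a number -/
noncomputable def symN (g : ℕ) : Option D.K :=
  if h : g < nK D then (Fintype.equivFin (Option D.K)).symm ⟨g, h⟩ else none

/-- the letters -/
noncomputable def letT (k : ℕ) (g : Fin (dT D)) : D.P k :=
  if (g : ℕ) < nK D then (D.tp k).a (symN D g) else ((D.tp k).a (symN D (g - nK D)))⁻¹

/-- numbers of the letters -/
noncomputable def letN (k g : ℕ) : ℕ :=
  disp (fun s : Fin (dT D) => if (s : ℕ) < nK D then D.aN (symN D s) (Un.mk k)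
    else D.invN (Un.mk k, D.aN (symN D (s - nK D)) (Un.mk k))) 0 g

/-- neighbour of `v` along the letter `g` (left multiplication) -/
noncomputable def nbO (k v g : ℕ) : ℕ := min (D.mulN (Un.mk k, letN D k g, v)) (D.Q ^ k)

theorem nbO_le (k v g : ℕ) : nbO D k v g ≤ D.Q ^ k := min_le_right _ _

variable {D} {M0 : ℕ} {lam0 Kr : ℝ} (h : D.OK M0 lam0 Kr)
include h

theorem letN_eq (k : ℕ) (g : Fin (dT D)) : letN D k g = D.ix k (letT D k g) := by
  unfold letN letT
  rw [disp_fin]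
  split_ifs
  · exact h.aN_eq _ k
  · rw [h.aN_eq]; exact h.inv_eq k _

theorem nbO_eq (k : ℕ) (t : D.P k) (g : Fin (dT D)) :
    nbO D k (D.ix k t) g = D.ix k (letT D k g * t) := by
  unfold nbO
  rw [letN_eq h, h.mul_eq]
  exact Nat.min_eq_left (D.ix k _).2.le

theorem Qk_pos (k : ℕ) : 0 < D.Q ^ k := Nat.pow_pos (by have := h.two_le; omega)

theorem symN_surj (z : Option D.K) : ∃ g, g < nK D ∧ symN D g = z := by
  refine ⟨(Fintype.equivFin (Option D.K) z : ℕ), (Fintype.equivFin (Option D.K) z).2, ?_⟩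
  unfold symN
  rw [dif_pos (Fintype.equivFin (Option D.K) z).2]
  simp

/-- **the numbered group with its letters** -/
theorem gtO (hlam : lam0 ^ 2 ≤ 1 / 8) (k : ℕ) :
    GT (D.Q ^ k) (dT D) (D.ix k) (letT D k) (nbO D k) where
  nbe t g := nbO_eq h k t g
  sym g := by
    have hg : (g : ℕ) < 2 * nK D := g.2
    by_cases h1 : (g : ℕ) < nK D
    · refine ⟨⟨g + nK D, by show _ < 2 * nK D; omega⟩, ?_⟩
      unfold letT
      rw [if_neg (by show ¬ (g : ℕ) + nK D < nK D; omega), if_pos h1]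
      simp only [Nat.add_sub_cancel]
    · refine ⟨⟨g - nK D, by show _ < 2 * nK D; omega⟩, ?_⟩
      unfold letT
      rw [if_pos (by show (g : ℕ) - nK D < nK D; omega), if_neg h1, inv_inv]
  gen := by
    obtain ⟨lam, hl0, hl1, _, hE⟩ := h.exp
    have hl2 : lam ^ 2 ≤ 1 / 8 := (pow_le_pow_left₀ hl0 hl1 2).trans hlam
    have h1 := Diam309.closure_eq_top (mix_of_exp (hE k).1) Fintype.card_pos hl2
    rw [eq_top_iff, ← h1]
    apply Subgroup.closure_mono
    rintro _ ⟨z, rfl⟩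
    obtain ⟨g, hg, hz⟩ := symN_surj h z
    refine ⟨⟨g, by show _ < 2 * nK D; omega⟩, ?_⟩
    unfold letT
    rw [if_pos hg, ← hz]

/-- **the walk of length `L` in `P k`** -/
noncomputable def walkO (hlam : lam0 ^ 2 ≤ 1 / 8) (k L : ℕ) (hL : L + 1 ≤ D.Q ^ k) :
    TSide492.Path (D.P k) (Fin ((dT D + 1) ^ 3))
      (Fin ((dT D + 1) ^ 3) × Fin ((dT D + 1) ^ 3)) := pathT (gtO h hlam k) L hL

/-- numbers of the letters are poly-time -/
theorem ptf_letN {γ : Type} [PTCode γ] {k g : γ → ℕ} (hk : PTU k)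
    (hQ : PTU (fun c => D.Q ^ k c)) (hg : PTF g) : PTF (fun c => letN D (k c) (g c)) := by
  unfold letN
  refine ptf_disp (f := fun (s : Fin (dT D)) c => if (s : ℕ) < nK D then
    D.aN (symN D s) (Un.mk (k c)) else D.invN (Un.mk (k c),
      D.aN (symN D (s - nK D)) (Un.mk (k c)))) (fun s => ?_) (PTF.const 0) hg
  by_cases hs : (s : ℕ) < nK D
  · simp only [if_pos hs]
    exact h.ptf_a _ k hk hQ
  · simp only [if_neg hs]
    exact h.ptf_inv k _ hk hQ (h.ptf_a _ k hk hQ)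

/-- the neighbour function is poly-time -/
theorem ptf_nbO {γ : Type} [PTCode γ] {k : γ → ℕ} (hk : PTU k)
    (hQ : PTU (fun c => D.Q ^ k c)) :
    PTF (fun p : γ × ℕ × ℕ => nbO D (k p.1) p.2.1 p.2.2) := by
  unfold nbO
  have hk' : PTU (fun p : γ × ℕ × ℕ => k p.1) := PTU.comp hk PTF.fst
  have hQ' : PTU (fun p : γ × ℕ × ℕ => D.Q ^ k p.1) :=
    PTU.comp (n := fun c => D.Q ^ k c) hQ PTF.fst
  exact (PTF.natMinUn (h.ptf_mul (fun p : γ × ℕ × ℕ => k p.1) _ _ hk' hQ'
    (ptf_letN h hk' hQ' (by fun_prop)) (by fun_prop)) hQ').toPTF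

section tables
variable {γ : Type} [PTCode γ] {k : γ → ℕ} (hk : PTU k) (hQ : PTU (fun c => D.Q ^ k c))
include hk hQ

theorem ptf_ttO {i : γ → ℕ} (hi : PTU i) :
    PTF (fun c => ttN (D.Q ^ k c) (dT D) (nbO D (k c)) (i c)) :=
  ptf_ttN hQ (ptf_nbO h hk hQ) (fun c => nbO_le D (k c)) hi

theorem ptf_d1O {i : γ → ℕ} (hi : PTU i) :
    PTF (fun c => d1N (D.Q ^ k c) (dT D) (nbO D (k c)) (i c)) :=
  ptf_d1N hQ (ptf_nbO h hk hQ) (fun c => nbO_le D (k c)) hi

theorem ptf_cDO {i v : γ → ℕ} (hi : PTU i) (hv : PTF v) :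
    PTF (fun c => cDN (D.Q ^ k c) (dT D) (nbO D (k c)) (i c) (v c)) :=
  ptf_cDN hQ (ptf_nbO h hk hQ) (fun c => nbO_le D (k c)) hi hv

theorem ptf_cE1O {L j v : γ → ℕ} (hL : PTU L) (hj : PTF j) (hv : PTF v) :
    PTF (fun c => cE1N (D.Q ^ k c) (dT D) (nbO D (k c)) (L c) (j c) (v c)) :=
  ptf_cE1N hQ (ptf_nbO h hk hQ) (fun c => nbO_le D (k c)) hL hj hv

theorem ptf_cE2O {L j j' v : γ → ℕ} (hL : PTU L) (hj : PTF j) (hj' : PTF j') (hv : PTF v) :
    PTF (fun c => cE2N (D.Q ^ k c) (dT D) (nbO D (k c)) (L c) (j c) (j' c) (v c)) :=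
  ptf_cE2N hQ (ptf_nbO h hk hQ) (fun c => nbO_le D (k c)) hL hj hj' hv

end tables

end

end Crest.Agent.R289.PathObj992
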