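import Crest.Agent.R289.UMap_965
import Crest.Agent.R289.InsObj_576
import Crest.Agent.R289.PubBits_92
import Crest.Agent.R289.PathObj_992

/-!
# Row 289, E20_FamPTF part 4: index tables of the moves of `InsObj576.ins`
-/

set_option autoImplicit false
set_option linter.dupNamespace false

namespace Crest.Agent.R289.InsMov965

open Crest.Agent.Lib.PT Crest.Agent.Lib.PT.Arith Crest.Agent.R289
open Crest.Agent.R289.UMap965 Crest.Agent.R289.InsObj576 Crest.Agent.R289.Asm12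

variable {α ι : Type} [PTCode α] {raw : ι → α} {D : Obj} {M0 : ℕ} {lam0 Kr : ℝ}
  {k k' : α → ℕ}

/-! ### elements -/

theorem pel_lv (hD : D.OK M0 lam0 Kr) (hk : PTU k) (hQ : PTU fun a => D.Q ^ k a) (x : Ltr D) :
    PEl raw (eO D raw k) (fun i => lv D (k (raw i)) x) := by
  obtain ⟨y, b, z⟩ := x
  cases y <;> cases b
  · exact PEl.aO hD hk hQ z
  · exact PEl.invO hD hk hQ (PEl.aO hD hk hQ z)
  · exact PEl.bO hD hk hQ z
  · exact PEl.invO hD hk hQ (PEl.bO hD hk hQ z)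

theorem pel_ov (hD : D.OK M0 lam0 Kr) (hk : PTU k) (hQ : PTU fun a => D.Q ^ k a)
    (x : Option (Ltr D)) : PEl raw (eO D raw k) (fun i => ov D (k (raw i)) x) := by
  cases x with
  | none => exact PEl.oneO hD hk hQ
  | some x => exact pel_lv hD hk hQ x

theorem pel_wv3 (hD : D.OK M0 lam0 Kr) (hk : PTU k) (hQ : PTU fun a => D.Q ^ k a) (w : W3 D) :
    PEl raw (eO D raw k) (fun i => wv3 D (k (raw i)) w) :=
  PEl.mulO hD hk hQ (PEl.mulO hD hk hQ (pel_ov hD hk hQ _) (pel_ov hD hk hQ _))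
    (pel_ov hD hk hQ _)

theorem pel_gam (hD : D.OK M0 lam0 Kr) (hk : PTU k) (hQ : PTU fun a => D.Q ^ k a)
    (s : ObjApi12.Rs D) : PEl raw (eO D raw k) (fun i => ObjApi12.gam D (k (raw i)) s) := by
  rcases s with ⟨j, m⟩ | ⟨j, m⟩
  · cases j
    · exact PEl.invO hD hk hQ (PEl.oneO hD hk hQ)
    · exact PEl.invO hD hk hQ (PEl.bO hD hk hQ m)
  · cases j
    · exact PEl.invO hD hk hQ (PEl.oneO hD hk hQ)
    · exact PEl.invO hD hk hQ (PEl.aO hD hk hQ m)

/-! ### moves of the content group -/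

section gam

variable (hD : D.OK M0 lam0 Kr) (hk : PTU k) (hQ : PTU fun a => D.Q ^ k a) (hk' : PTU k')
  (hQ' : PTU fun a => D.Q ^ k' a)

/-- numbering of the content group -/
def eG (D : Obj) (raw : ι → α) (k k' : α → ℕ) :
    ∀ i, D.P (k (raw i)) × D.P (k' (raw i)) ≃
      Fin (PubBits92.pn (fun a => D.Q ^ k a) (fun a => D.Q ^ k' a) (raw i)) :=
  PubBits92.eQ (raw := raw) (n := fun a => D.Q ^ k a) (m := fun a => D.Q ^ k' a)
    (fun i => D.ix (k (raw i))) (fun i => D.ix (k' (raw i)))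

theorem ptf_pn {n m : α → ℕ} (hn : PTF n) (hm : PTF m) : PTF (PubBits92.pn n m) :=
  PTF.natMul hn hm

include hD hk hQ hk' hQ'

/-- left multiplication by a pair -/
theorem mp_left {g : ∀ i, D.P (k (raw i))} {g' : ∀ i, D.P (k' (raw i))}
    (hg : PEl raw (eO D raw k) g) (hg' : PEl raw (eO D raw k') g') :
    PubBits92.Mp raw (eG D raw k k') (eG D raw k k')
      (fun i x => (g i * x.1, g' i * x.2)) := by
  have hn : PSz raw (fun i => D.Q ^ k' (raw i)) := PSz.of (PTU.toPTF hQ')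
  exact PMap.prodMk (e := eO D raw k) (f := eO D raw k') hn
    (PMap.mulO hD hk hQ (PMap.const hg) (PMap.fst hn))
    (PMap.mulO hD hk' hQ' (PMap.const hg') (PMap.snd hn))

theorem mp_act (g : G D) : PubBits92.Mp raw (eG D raw k k') (eG D raw k k')
    (fun i x => act D (k (raw i)) (k' (raw i)) g x) :=
  mp_left hD hk hQ hk' hQ' (pel_wv3 hD hk hQ g.1) (pel_wv3 hD hk' hQ' g.2)

theorem mp_acti (g : G D) : PubBits92.Mp raw (eG D raw k k') (eG D raw k k')
    (fun i x => (act D (k (raw i)) (k' (raw i)) g).symm x) :=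
  mp_left hD hk hQ hk' hQ' (PEl.invO hD hk hQ (pel_wv3 hD hk hQ g.1))
    (PEl.invO hD hk' hQ' (pel_wv3 hD hk' hQ' g.2))

theorem mp_mv (j : Option D.K × Option D.K) :
    PubBits92.Mp raw (eG D raw k k') (eG D raw k k')
      (fun i x => Equiv.mulLeft (ga D (k (raw i)) (k' (raw i)) j)⁻¹ x) :=
  mp_left hD hk hQ hk' hQ' (PEl.invO hD hk hQ (PEl.aO hD hk hQ j.1))
    (PEl.invO hD hk' hQ' (PEl.aO hD hk' hQ' j.2))

end gam

/-! ### steps in `T` -/

section tsteps

variable (hD : D.OK M0 lam0 Kr) (hk : PTU k) (hQ : PTU fun a => D.Q ^ k a)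

/-- numbering of `T` -/
def eT (D : Obj) (raw : ι → α) (k : α → ℕ) :
    ∀ i, D.P (k (raw i)) ≃ Fin ((fun a => D.Q ^ k a) (raw i)) := fun i => D.ix (k (raw i))

include hD hk hQ

theorem mp_leftT {g : ∀ i, D.P (k (raw i))} (hg : PEl raw (eO D raw k) g) :
    PubBits92.Mp raw (n := fun a => D.Q ^ k a) (m := fun a => D.Q ^ k a) (eT D raw k)
      (eT D raw k) (fun i x => g i * x) := PMap.leftO hD hk hQ hg

theorem mp_gam (s : ObjApi12.Rs D) :
    PubBits92.Mp raw (n := fun a => D.Q ^ k a) (m := fun a => D.Q ^ k a) (eT D raw k)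
      (eT D raw k) (fun i x => (ObjApi12.gam D (k (raw i)) s)⁻¹ * x) :=
  mp_leftT hD hk hQ (PEl.invO hD hk hQ (pel_gam hD hk hQ s))

/-- letters of the walk -/
theorem pel_letT (g : Fin (PathObj992.dT D)) :
    PEl raw (eO D raw k) (fun i => PathObj992.letT D (k (raw i)) g) := by
  by_cases hg : (g : ℕ) < PathObj992.nK D
  · refine (PEl.aO hD hk hQ (PathObj992.symN D g)).congr fun i => ?_
    unfold PathObj992.letT
    rw [if_pos hg]
  · refine (PEl.invO hD hk hQ (PEl.aO hD hk hQ (PathObj992.symN D (g - PathObj992.nK D)))).congr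
      fun i => ?_
    unfold PathObj992.letT
    rw [if_neg hg]

/-- words of letters of the walk -/
theorem pel_wel (w : List ℕ) : PEl raw (eO D raw k)
    (fun i => PathT992.wel (PathObj992.letT D (k (raw i))) w) := by
  induction w using List.reverseRecOn with
  | nil => exact (PEl.oneO hD hk hQ).congr fun i => by simp [PathT992.wel]
  | append_singleton w g ih =>
    by_cases hg : g < PathObj992.dT D
    · refine (PEl.mulO hD hk hQ (pel_letT hD hk hQ ⟨g, hg⟩) ih).congr fun i => ?_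
      simp [PathT992.wel, PathT992.lett, hg]
    · refine ih.congr fun i => ?_
      simp [PathT992.wel, PathT992.lett, hg]

section walk

variable (hlam : lam0 ^ 2 ≤ 1 / 8) (L : ι → ℕ) (hL : ∀ i, L i + 1 ≤ D.Q ^ k (raw i))

theorem pel_g1 (j : Fin ((PathObj992.dT D + 1) ^ 3)) :
    PEl raw (eO D raw k) (fun i => (PathObj992.walkO hD hlam (k (raw i)) (L i) (hL i)).g1 j) :=
  pel_wel hD hk hQ (Ham613.wd (PathObj992.dT D) j)

theorem pel_g2 (j : Fin ((PathObj992.dT D + 1) ^ 3) × Fin ((PathObj992.dT D + 1) ^ 3)) :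
    PEl raw (eO D raw k) (fun i => (PathObj992.walkO hD hlam (k (raw i)) (L i) (hL i)).g2 j) :=
  PEl.mulO hD hk hQ (pel_wel hD hk hQ (Ham613.wd (PathObj992.dT D) j.2))
    (pel_wel hD hk hQ (Ham613.wd (PathObj992.dT D) j.1))

theorem mp_g1 (j : Fin ((PathObj992.dT D + 1) ^ 3)) :
    PubBits92.Mp raw (n := fun a => D.Q ^ k a) (m := fun a => D.Q ^ k a) (eT D raw k)
      (eT D raw k) (fun i x => (PathObj992.walkO hD hlam (k (raw i)) (L i) (hL i)).g1 j * x) :=
  mp_leftT hD hk hQ (pel_g1 hD hk hQ hlam L hL j)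

theorem mp_g2 (j : Fin ((PathObj992.dT D + 1) ^ 3) × Fin ((PathObj992.dT D + 1) ^ 3)) :
    PubBits92.Mp raw (n := fun a => D.Q ^ k a) (m := fun a => D.Q ^ k a) (eT D raw k)
      (eT D raw k) (fun i x => (PathObj992.walkO hD hlam (k (raw i)) (L i) (hL i)).g2 j * x) :=
  mp_leftT hD hk hQ (pel_g2 hD hk hQ hlam L hL j)

end walk

end tsteps

/-! ### the move fields of `InsTab` for `ins` -/

section fields

variable {kP kR kT : α → ℕ} (hD : D.OK M0 lam0 Kr) (hkP : PTU kP)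
  (hQP : PTU fun a => D.Q ^ kP a) (hkR : PTU kR) (hQR : PTU fun a => D.Q ^ kR a) (hkT : PTU kT)
  (hQT : PTU fun a => D.Q ^ kT a) (hlam : lam0 ^ 2 ≤ 1 / 8) (L : ι → ℕ)
  (hL : ∀ i, L i + 1 ≤ D.Q ^ kT (raw i))
  (lay : ∀ i, DefC.Layout (D.P (kP (raw i)) × D.P (kR (raw i))) (G D) (Fin 28) 128)

/-- the instances over the walks of `PathObj_992` -/
noncomputable abbrev insW (kP kR kT : α → ℕ) (hlam : lam0 ^ 2 ≤ 1 / 8) (L : ι → ℕ)
    (hL : ∀ i, L i + 1 ≤ D.Q ^ kT (raw i))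
    (lay : ∀ i, DefC.Layout (D.P (kP (raw i)) × D.P (kR (raw i))) (G D) (Fin 28) 128) (i : ι) :
    DefI.Ins (cst hD ((PathObj992.dT D + 1) ^ 3)) :=
  ins hD ((PathObj992.dT D + 1) ^ 3) (kP (raw i)) (kR (raw i)) (kT (raw i))
    (PathObj992.walkO hD hlam (kT (raw i)) (L i) (hL i)) (lay i)

include hkP hQP hkR hQR

theorem fld_act (g : G D) : PubBits92.Mp raw (eG D raw kP kR) (eG D raw kP kR)
    (fun i x => (insW hD kP kR kT hlam L hL lay i).act g x) :=
  mp_act hD hkP hQP hkR hQR g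

theorem fld_acti (g : G D) : PubBits92.Mp raw (eG D raw kP kR) (eG D raw kP kR)
    (fun i x => ((insW hD kP kR kT hlam L hL lay i).act g).symm x) :=
  mp_acti hD hkP hQP hkR hQR g

theorem fld_mv (j : Option D.K × Option D.K) :
    PubBits92.Mp raw (eG D raw kP kR) (eG D raw kP kR)
      (fun i x => (insW hD kP kR kT hlam L hL lay i).mv j x) :=
  mp_mv hD hkP hQP hkR hQR j

omit hkP hQP hkR hQR
include hkT hQT

theorem fld_h1 (j : Fin ((PathObj992.dT D + 1) ^ 3)) :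
    PubBits92.Mp raw (n := fun a => D.Q ^ kT a) (m := fun a => D.Q ^ kT a) (eT D raw kT)
      (eT D raw kT) (fun i x => (insW hD kP kR kT hlam L hL lay i).h1 j * x) :=
  mp_g1 hD hkT hQT hlam L hL j

theorem fld_h2 (j : Fin ((PathObj992.dT D + 1) ^ 3) × Fin ((PathObj992.dT D + 1) ^ 3)) :
    PubBits92.Mp raw (n := fun a => D.Q ^ kT a) (m := fun a => D.Q ^ kT a) (eT D raw kT)
      (eT D raw kT) (fun i x => (insW hD kP kR kT hlam L hL lay i).h2 j * x) :=
  mp_g2 hD hkT hQT hlam L hL j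

theorem fld_gam (s : ObjApi12.Rs D) :
    PubBits92.Mp raw (n := fun a => D.Q ^ kT a) (m := fun a => D.Q ^ kT a) (eT D raw kT)
      (eT D raw kT) (fun i x => ((insW hD kP kR kT hlam L hL lay i).gam s)⁻¹ * x) :=
  mp_gam hD hkT hQT s

end fields

end Crest.Agent.R289.InsMov965
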