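import Crest.Agent.Lib.PT.ArithMore

/-!
# Row 289, leaf E10: size arithmetic

* `cl N = clog 2 (N + 2)`: the logarithmic factor of the size bounds.
* `lev Q c e N`: the least `k` with `c * N * (cl N)^e ≤ Q^k`.  Bounds, growth `k + 1 ≤ C * cl N`,
  polynomial-time computability of `k` and of `Q^k` and polynomial bounds for both.
* `BL f g`: `f a ≤ A * g a * (cl (g a))^b` for constants `A, b` (quasi-linear growth).  Closed under
  sums, products with polylogarithmic factors and composition.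
-/

set_option autoImplicit false

namespace Crest.Agent.R289.Size954

open Crest.Agent.Lib.PT

/-! ### the logarithmic factor -/

/-- the logarithmic factor of the size bounds -/
def cl (N : ℕ) : ℕ := Nat.clog 2 (N + 2)

theorem cl_eq (N : ℕ) : cl N = Nat.clog 2 (N + 2) := rfl

theorem one_le_cl (N : ℕ) : 1 ≤ cl N := by
  have h := Nat.le_pow_clog (b := 2) (by norm_num) (N + 2)
  rcases Nat.eq_zero_or_pos (cl N) with h0 | h0
  · rw [cl] at h0
    rw [h0] at h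
    omega
  · exact h0

theorem cl_pos (N : ℕ) : 0 < cl N := one_le_cl N

theorem one_le_cl_pow (N b : ℕ) : 1 ≤ cl N ^ b := Nat.one_le_pow _ _ (cl_pos N)

theorem cl_mono {M N : ℕ} (h : M ≤ N) : cl M ≤ cl N :=
  Nat.clog_mono_right 2 (Nat.add_le_add_right h 2)

theorem cl_pow_mono {M N b b' : ℕ} (h : M ≤ N) (hb : b ≤ b') : cl M ^ b ≤ cl N ^ b' :=
  (Nat.pow_le_pow_left (cl_mono h) b).trans (Nat.pow_le_pow_right (cl_pos N) hb)

theorem lt_two_pow_cl (N : ℕ) : N + 2 ≤ 2 ^ cl N := Nat.le_pow_clog (by norm_num) _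

/-- `cl N ≤ N + 1` -/
theorem cl_le (N : ℕ) : cl N ≤ N + 1 := by
  refine (Nat.clog_le_iff_le_pow (by norm_num)).2 ?_
  have := Nat.lt_two_pow_self (n := N)
  rw [pow_succ]
  omega

theorem cl_le_of_le_pow {N k : ℕ} (h : N + 2 ≤ 2 ^ k) : cl N ≤ k :=
  (Nat.clog_le_iff_le_pow (by norm_num)).2 h

/-- submultiplicativity in the form needed: `cl (a * b) ≤ cl a + cl b` -/
theorem cl_mul_le (a b : ℕ) : cl (a * b) ≤ cl a + cl b := by
  refine cl_le_of_le_pow ?_
  rw [pow_add]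
  refine le_trans ?_ (Nat.mul_le_mul (lt_two_pow_cl a) (lt_two_pow_cl b))
  nlinarith [Nat.zero_le a, Nat.zero_le b]

theorem cl_add_le (a b : ℕ) : cl (a + b) ≤ cl a + cl b := by
  refine cl_le_of_le_pow ?_
  rw [pow_add]
  refine le_trans ?_ (Nat.mul_le_mul (lt_two_pow_cl a) (lt_two_pow_cl b))
  nlinarith [Nat.zero_le a, Nat.zero_le b]

theorem cl_pow_le (a k : ℕ) : cl (a ^ k) ≤ k * cl a + 2 := by
  induction k with
  | zero => simpa [cl] using (show Nat.clog 2 3 ≤ 2 by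
      exact (Nat.clog_le_iff_le_pow (by norm_num)).2 (by norm_num))
  | succ k ih =>
    rw [pow_succ]
    refine (cl_mul_le _ _).trans ?_
    rw [Nat.add_mul, Nat.one_mul]
    omega

/-- `cl` of a quasi-linear bound is `O(cl)` -/
theorem cl_bound (A b N : ℕ) : cl (A * N * cl N ^ b) ≤ (cl A + 2 * b + 4) * cl N := by
  have h1 := cl_mul_le (A * N) (cl N ^ b)
  have h2 := cl_mul_le A N
  have h3 := cl_pow_le (cl N) b
  have h4 : cl (cl N) ≤ 2 * cl N := by
    have := cl_le (cl N)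
    have := one_le_cl N
    omega
  have h5 := one_le_cl N
  have h6 : b * cl (cl N) ≤ b * (2 * cl N) := Nat.mul_le_mul_left _ h4
  have h7 : cl A ≤ cl A * cl N := Nat.le_mul_of_pos_right _ h5
  calc cl (A * N * cl N ^ b) ≤ cl A + cl N + (b * (2 * cl N) + 2) := by omega
    _ ≤ cl A * cl N + cl N + (b * (2 * cl N) + 2 * cl N) := by omega
    _ ≤ (cl A + 2 * b + 4) * cl N := by nlinarith

/-- composition of two quasi-linear bounds -/
theorem comp_bound {A₁ b₁ A₂ b₂ M N : ℕ} (h : M ≤ A₁ * N * cl N ^ b₁) :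
    A₂ * M * cl M ^ b₂ ≤
      (A₂ * A₁ * (cl A₁ + 2 * b₁ + 4) ^ b₂) * N * cl N ^ (b₁ + b₂) := by
  have h1 : cl M ≤ (cl A₁ + 2 * b₁ + 4) * cl N := (cl_mono h).trans (cl_bound A₁ b₁ N)
  calc A₂ * M * cl M ^ b₂
      ≤ A₂ * (A₁ * N * cl N ^ b₁) * ((cl A₁ + 2 * b₁ + 4) * cl N) ^ b₂ :=
        Nat.mul_le_mul (Nat.mul_le_mul_left _ h) (Nat.pow_le_pow_left h1 _)
    _ = (A₂ * A₁ * (cl A₁ + 2 * b₁ + 4) ^ b₂) * N * cl N ^ (b₁ + b₂) := by
        rw [mul_pow, pow_add]; ring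

/-! ### quasi-linear growth of size functions -/

/-- `f ≤ A * g * (cl g)^b` for constants `A, b` -/
def BL {α : Type} (f g : α → ℕ) : Prop := ∃ A b : ℕ, ∀ a, f a ≤ A * g a * cl (g a) ^ b

/-- `f ≤ A * (cl g)^b` for constants `A, b` (polylogarithmic growth) -/
def PL {α : Type} (f g : α → ℕ) : Prop := ∃ A b : ℕ, ∀ a, f a ≤ A * cl (g a) ^ b

section BL

variable {α β : Type} {f f' g h : α → ℕ}

theorem BL.refl (g : α → ℕ) : BL g g := ⟨1, 0, fun _ => by simp⟩

theorem BL.mono_left (hf : BL f' g) (h : ∀ a, f a ≤ f' a) : BL f g := by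
  obtain ⟨A, b, hA⟩ := hf
  exact ⟨A, b, fun a => (h a).trans (hA a)⟩

theorem BL.mono_right (hf : BL f g) (h' : ∀ a, g a ≤ h a) : BL f h := by
  obtain ⟨A, b, hA⟩ := hf
  exact ⟨A, b, fun a => (hA a).trans
    (Nat.mul_le_mul (Nat.mul_le_mul_left _ (h' a)) (cl_pow_mono (h' a) le_rfl))⟩

theorem BL.add (hf : BL f g) (hf' : BL f' g) : BL (fun a => f a + f' a) g := by
  obtain ⟨A, b, hA⟩ := hf
  obtain ⟨A', b', hA'⟩ := hf'
  refine ⟨A + A', max b b', fun a => ?_⟩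
  calc f a + f' a ≤ A * g a * cl (g a) ^ b + A' * g a * cl (g a) ^ b' :=
        Nat.add_le_add (hA a) (hA' a)
    _ ≤ A * g a * cl (g a) ^ max b b' + A' * g a * cl (g a) ^ max b b' :=
        Nat.add_le_add (Nat.mul_le_mul_left _ (cl_pow_mono le_rfl (le_max_left _ _)))
          (Nat.mul_le_mul_left _ (cl_pow_mono le_rfl (le_max_right _ _)))
    _ = (A + A') * g a * cl (g a) ^ max b b' := by ring

theorem BL.mul_const (hf : BL f g) (c : ℕ) : BL (fun a => c * f a) g := by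
  obtain ⟨A, b, hA⟩ := hf
  exact ⟨c * A, b, fun a => (Nat.mul_le_mul_left c (hA a)).trans (le_of_eq (by ring))⟩

theorem BL.mul_PL (hf : BL f g) (hf' : PL f' g) : BL (fun a => f a * f' a) g := by
  obtain ⟨A, b, hA⟩ := hf
  obtain ⟨A', b', hA'⟩ := hf'
  exact ⟨A * A', b + b', fun a => (Nat.mul_le_mul (hA a) (hA' a)).trans
    (le_of_eq (by rw [pow_add]; ring))⟩

theorem BL.PL_mul (hf' : PL f' g) (hf : BL f g) : BL (fun a => f' a * f a) g :=
  (hf.mul_PL hf').mono_left fun a => le_of_eq (mul_comm _ _)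

theorem BL.trans (hf : BL f g) (hg : BL g h) : BL f h := by
  obtain ⟨A₂, b₂, hA₂⟩ := hf
  obtain ⟨A₁, b₁, hA₁⟩ := hg
  exact ⟨_, _, fun a => (hA₂ a).trans (comp_bound (hA₁ a))⟩

/-- constants are quasi-linear when `g` is positive -/
theorem BL.const (c : ℕ) (hg : ∀ a, 1 ≤ g a) : BL (fun _ => c) g := by
  refine ⟨c, 0, fun a => ?_⟩
  rw [pow_zero, Nat.mul_one]
  exact Nat.le_mul_of_pos_right c (hg a)

/-- polylogarithmic functions are quasi-linear when `g` is positive -/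
theorem PL.toBL (hf : PL f g) (hg : ∀ a, 1 ≤ g a) : BL f g := by
  obtain ⟨A, b, hA⟩ := hf
  exact ⟨A, b, fun a => (hA a).trans
    (Nat.mul_le_mul_right _ (Nat.le_mul_of_pos_right A (hg a)))⟩

theorem PL.const (c : ℕ) (g : α → ℕ) : PL (fun _ => c) g := ⟨c, 0, fun _ => by simp⟩

theorem PL.clog (g : α → ℕ) : PL (fun a => cl (g a)) g := ⟨1, 1, fun _ => by simp⟩

theorem PL.mono_left (hf : PL f' g) (h : ∀ a, f a ≤ f' a) : PL f g := by
  obtain ⟨A, b, hA⟩ := hf
  exact ⟨A, b, fun a => (h a).trans (hA a)⟩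

theorem PL.mono_right (hf : PL f g) (h' : ∀ a, g a ≤ h a) : PL f h := by
  obtain ⟨A, b, hA⟩ := hf
  exact ⟨A, b, fun a => (hA a).trans (Nat.mul_le_mul_left _ (cl_pow_mono (h' a) le_rfl))⟩

theorem PL.add (hf : PL f g) (hf' : PL f' g) : PL (fun a => f a + f' a) g := by
  obtain ⟨A, b, hA⟩ := hf
  obtain ⟨A', b', hA'⟩ := hf'
  refine ⟨A + A', max b b', fun a => ?_⟩
  calc f a + f' a ≤ A * cl (g a) ^ b + A' * cl (g a) ^ b' :=
        Nat.add_le_add (hA a) (hA' a)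
    _ ≤ A * cl (g a) ^ max b b' + A' * cl (g a) ^ max b b' :=
        Nat.add_le_add (Nat.mul_le_mul_left _ (cl_pow_mono le_rfl (le_max_left _ _)))
          (Nat.mul_le_mul_left _ (cl_pow_mono le_rfl (le_max_right _ _)))
    _ = (A + A') * cl (g a) ^ max b b' := by ring

theorem PL.mul (hf : PL f g) (hf' : PL f' g) : PL (fun a => f a * f' a) g := by
  obtain ⟨A, b, hA⟩ := hf
  obtain ⟨A', b', hA'⟩ := hf'
  exact ⟨A * A', b + b', fun a => (Nat.mul_le_mul (hA a) (hA' a)).trans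
    (le_of_eq (by rw [pow_add]; ring))⟩

theorem PL.pow (hf : PL f g) (k : ℕ) : PL (fun a => f a ^ k) g := by
  induction k with
  | zero => simpa using PL.const 1 g
  | succ k ih => simpa [pow_succ] using ih.mul hf

/-- a polylogarithm of a quasi-linear function is polylogarithmic -/
theorem PL.trans (hf : PL f g) (hg : BL g h) : PL f h := by
  obtain ⟨A₂, b₂, hA₂⟩ := hf
  obtain ⟨A₁, b₁, hA₁⟩ := hg
  refine ⟨A₂ * (cl A₁ + 2 * b₁ + 4) ^ b₂, b₂, fun a => (hA₂ a).trans ?_⟩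
  have h1 : cl (g a) ≤ (cl A₁ + 2 * b₁ + 4) * cl (h a) :=
    (cl_mono (hA₁ a)).trans (cl_bound A₁ b₁ (h a))
  calc A₂ * cl (g a) ^ b₂
      ≤ A₂ * ((cl A₁ + 2 * b₁ + 4) * cl (h a)) ^ b₂ :=
        Nat.mul_le_mul_left _ (Nat.pow_le_pow_left h1 _)
    _ = _ := by rw [mul_pow]; ring

/-- precomposition -/
theorem BL.comp (hf : BL f g) (u : β → α) : BL (fun b => f (u b)) (fun b => g (u b)) := by
  obtain ⟨A, b, hA⟩ := hf
  exact ⟨A, b, fun x => hA (u x)⟩

theorem PL.comp (hf : PL f g) (u : β → α) : PL (fun b => f (u b)) (fun b => g (u b)) := by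
  obtain ⟨A, b, hA⟩ := hf
  exact ⟨A, b, fun x => hA (u x)⟩

/-- the form of the size clause of `Machine289` -/
theorem BL.elim (hf : BL f g) :
    ∃ A b : ℕ, ∀ a, f a ≤ A * g a * (Nat.clog 2 (g a + 2)) ^ b := hf

end BL

/-! ### levels -/

/-- the least `k` with `c * N * (cl N)^e ≤ Q^k` -/
def lev (Q c e N : ℕ) : ℕ := Nat.clog Q (c * N * cl N ^ e)

section lev

variable {Q : ℕ} (hQ : 2 ≤ Q) (c e : ℕ)

include hQ

theorem le_pow_lev (N : ℕ) : c * N * cl N ^ e ≤ Q ^ lev Q c e N :=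
  Nat.le_pow_clog (by omega) _

theorem lev_least {N k : ℕ} (h : c * N * cl N ^ e ≤ Q ^ k) : lev Q c e N ≤ k :=
  (Nat.clog_le_iff_le_pow (by omega)).2 h

theorem mul_le_pow_lev (N : ℕ) : c * N ≤ Q ^ lev Q c e N :=
  (Nat.le_mul_of_pos_right _ (one_le_cl_pow N e)).trans (le_pow_lev hQ c e N)

theorem pow_clog_le {x : ℕ} (hx : 1 ≤ x) : Q ^ Nat.clog Q x ≤ Q * x := by
  rcases Nat.eq_or_lt_of_le hx with rfl | hx1
  · simp [Nat.clog_one_right]; omega
  · have h := Nat.pow_pred_clog_lt_self (b := Q) (by omega) hx1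
    have hpos : 0 < Nat.clog Q x := Nat.clog_pos (by omega) hx1
    obtain ⟨m, hm⟩ : ∃ m, Nat.clog Q x = m + 1 := ⟨Nat.clog Q x - 1, by omega⟩
    rw [hm] at h ⊢
    simp only [Nat.pred_succ] at h
    rw [pow_succ, mul_comm]
    exact Nat.mul_le_mul_left _ h.le

theorem pow_lev_le (hc : 1 ≤ c) {N : ℕ} (hN : 1 ≤ N) :
    Q ^ lev Q c e N ≤ (Q * c) * N * cl N ^ e := by
  have h1 : 1 ≤ c * N * cl N ^ e :=
    Nat.mul_pos (Nat.mul_pos hc hN) (one_le_cl_pow N e)
  refine (pow_clog_le hQ h1).trans (le_of_eq (by ring))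

theorem lev_le (N : ℕ) : lev Q c e N ≤ (cl c + 2 * e + 4) * cl N := by
  have h1 : lev Q c e N ≤ cl (c * N * cl N ^ e) := by
    refine (Nat.clog_anti_left (b := Q) (c := 2) (by norm_num) hQ).trans ?_
    exact Nat.clog_mono_right 2 (Nat.le_add_right _ 2)
  exact h1.trans (cl_bound c e N)

theorem lev_succ_le (N : ℕ) : lev Q c e N + 1 ≤ (cl c + 2 * e + 5) * cl N := by
  have h1 := lev_le hQ c e N
  have h2 := one_le_cl N
  calc lev Q c e N + 1 ≤ (cl c + 2 * e + 4) * cl N + 1 * cl N := by omega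
    _ = (cl c + 2 * e + 5) * cl N := by ring

/-- **E10**: for fixed `Q, c, e` there are `A, b, C` such that the least `k = lev Q c e N` with
`c N (clog)^e ≤ Q^k` satisfies `Q^k ≤ A N (clog)^b` and `k + 1 ≤ C clog`. -/
theorem level_exists (hc : 1 ≤ c) : ∃ A b C : ℕ, ∀ N, 1 ≤ N →
    c * N * Nat.clog 2 (N + 2) ^ e ≤ Q ^ lev Q c e N ∧
    Q ^ lev Q c e N ≤ A * N * Nat.clog 2 (N + 2) ^ b ∧
    lev Q c e N + 1 ≤ C * Nat.clog 2 (N + 2) :=
  ⟨Q * c, e, cl c + 2 * e + 5, fun N hN =>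
    ⟨le_pow_lev hQ c e N, pow_lev_le hQ c e hc hN, lev_succ_le hQ c e N⟩⟩

end lev

/-! ### polynomial time -/

theorem clog_eq (b n : ℕ) :
    Nat.clog b n = if 2 ≤ b ∧ 2 ≤ n then Nat.log b (n - 1) + 1 else 0 := by
  split_ifs with h
  · obtain ⟨hb, hn⟩ := h
    refine le_antisymm ((Nat.clog_le_iff_le_pow (by omega)).2 ?_) ?_
    · have := Nat.lt_pow_succ_log_self (b := b) (by omega) (n - 1)
      rw [Nat.succ_eq_add_one] at this
      omega
    · have h1 := Nat.le_pow_clog (b := b) (by omega) n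
      have h2 : n - 1 < b ^ Nat.clog b n := by omega
      exact Nat.succ_le_of_lt ((Nat.log_lt_iff_lt_pow (by omega) (by omega)).2 h2)
  · rcases not_and_or.1 h with h | h
    · exact Nat.clog_of_left_le_one (by omega) _
    · exact Nat.clog_of_right_le_one (by omega) _

section PTF

variable {α : Type} [PTCode α] {f g : α → ℕ}

theorem ptf_clog (hf : PTF f) (hg : PTF g) : PTF (fun a => Nat.clog (f a) (g a)) := by
  have h : PTF (fun a => if 2 ≤ f a ∧ 2 ≤ g a then Nat.log (f a) (g a - 1) + 1 else 0) := by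
    refine PTF.ite ?_ ?_ ?_
    · exact (PTPred.natLe (PTF.const 2) hf).and (PTPred.natLe (PTF.const 2) hg)
    · fun_prop
    · fun_prop
  have e : (fun a => Nat.clog (f a) (g a)) =
      fun a => if 2 ≤ f a ∧ 2 ≤ g a then Nat.log (f a) (g a - 1) + 1 else 0 :=
    funext fun a => clog_eq _ _
  rw [e]
  exact h

theorem ptf_cl (hf : PTF f) : PTF (fun a => cl (f a)) := by
  unfold cl
  exact ptf_clog (PTF.const 2) (by fun_prop)

theorem cl_le_size (N : ℕ) : cl N ≤ N.size + 1 := by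
  refine cl_le_of_le_pow ?_
  have h1 := Nat.lt_size_self N
  have h2 : 1 ≤ 2 ^ N.size := Nat.one_le_two_pow
  rw [pow_succ]
  omega

theorem PB_size (hf : PTF f) : PB (fun a => (f a).size) := hf.sz.mono fun a => (sz_nat (f a)).ge

theorem PB_cl (hf : PTF f) : PB (fun a => cl (f a)) :=
  ((PB_size hf).add (PB.const 1)).mono fun a => cl_le_size (f a)

theorem ptu_cl (hf : PTF f) : PTU (fun a => cl (f a)) := (ptf_cl hf).toPTU (PB_cl hf)

/-- `clog 2 (f a + 2)` in unary -/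
theorem ptu_clog_two (hf : PTF f) : PTU (fun a => Nat.clog 2 (f a + 2)) := ptu_cl hf

variable {Q : ℕ} (c e : ℕ)

theorem ptf_need (hf : PTF f) : PTF (fun a => c * f a * cl (f a) ^ e) :=
  PTF.natMul (PTF.natMul (PTF.const c) hf) (PTF.natPowConst (ptf_cl hf) e)

theorem ptf_lev (hf : PTF f) : PTF (fun a => lev Q c e (f a)) := by
  unfold lev
  exact ptf_clog (PTF.const Q) (ptf_need c e hf)

theorem PB_lev (hQ : 2 ≤ Q) (hf : PTF f) : PB (fun a => lev Q c e (f a)) :=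
  ((PB.const (cl c + 2 * e + 4)).mul (PB_cl hf)).mono fun a => lev_le hQ c e (f a)

/-- the level in unary -/
theorem ptu_lev (hQ : 2 ≤ Q) (hf : PTF f) : PTU (fun a => lev Q c e (f a)) :=
  (ptf_lev c e hf).toPTU (PB_lev c e hQ hf)

/-- `Q ^ level` in binary -/
theorem ptf_pow_lev (hQ : 2 ≤ Q) (hf : PTF f) : PTF (fun a => Q ^ lev Q c e (f a)) :=
  PTF.natPow (PTF.const Q) (ptu_lev c e hQ hf)

theorem pow_lev_le' (hQ : 2 ≤ Q) (N : ℕ) :
    Q ^ lev Q c e N ≤ (Q * c) * N * cl N ^ e + 1 := by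
  rcases Nat.eq_zero_or_pos (c * N) with h | h
  · have : lev Q c e N = 0 := by
      unfold lev
      rw [h, Nat.zero_mul]
      exact Nat.clog_zero_right _
    rw [this, pow_zero]
    omega
  · have hc : 1 ≤ c := Nat.pos_of_ne_zero fun h0 => by simp [h0] at h
    have hN : 1 ≤ N := Nat.pos_of_ne_zero fun h0 => by simp [h0] at h
    exact (pow_lev_le hQ c e hc hN).trans (Nat.le_succ _)

theorem PB_pow_lev (hQ : 2 ≤ Q) (hf : PTU f) : PB (fun a => Q ^ lev Q c e (f a)) :=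
  ((((PB.const (Q * c)).mul hf.pb).mul ((PB_cl hf.toPTF).pow e)).add (PB.const 1)).mono
    fun a => pow_lev_le' c e hQ (f a)

/-- `Q ^ level` in unary, for a unary argument: index sets `List.range (Q ^ k)` can be enumerated -/
theorem ptu_pow_lev (hQ : 2 ≤ Q) (hf : PTU f) : PTU (fun a => Q ^ lev Q c e (f a)) :=
  (ptf_pow_lev c e hQ hf.toPTF).toPTU (PB_pow_lev c e hQ hf)

/-- shifted powers `Q ^ (d * level + r)` in unary, for a unary argument -/
theorem ptu_pow_lev' (hQ : 2 ≤ Q) (hf : PTU f) (d r : ℕ) :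
    PTU (fun a => Q ^ (d * lev Q c e (f a) + r)) := by
  have h : PTU (fun a => (Q ^ lev Q c e (f a)) ^ d * Q ^ r) :=
    PTU.mul (PTU.pow (ptu_pow_lev c e hQ hf) d) (PTU.const _)
  exact h.of_eq fun a => by rw [pow_add, mul_comm d, pow_mul]

end PTF

end Crest.Agent.R289.Size954
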