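import Crest.Agent.R289.GkTab_115
import Crest.Agent.R289.Size_954

/-!
# R289, block E (E24): numbering of the norm-one group, polynomial in the UNARY level (helper115)

`K` finite field with code, `σ : K →+* K` involution, `2 ≠ 0`, `P k = U hσ (2 * k) 1`.
`u = 1 + u_1 τ + .. + u_(2k) τ^(2k)` has norm one iff `u_n + σ u_n = - S_n` for all even `n > 0`,
`S_n = ∑ 0 < j < n, (-1)^j u_(n-j) σ(u_j)`.  Hence
`u ↔ ((u_(2m+1), u_(2m+2) + S_(2m+2) / 2))_(m < k)` with values in `Dg σ = K × {x // σ x = -x}`.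

* `Q0 σ = Nat.card (Dg σ)`, `ixP hσ h2 k : U hσ (2 * k) 1 ≃ Fin (Q0 σ ^ k)`;
* `elN σ k r : List K` (coefficients of element number `r`), `noN σ k l` (number of a list), PTF;
* `mulN, invN, chiN` with the literal statements of `Asm12.Obj.OK`;
* `stN σ p G : Un → ℕ` number of the step `G * (central square root)`; `stN_eq`.
-/

set_option autoImplicit false
set_option linter.dupNamespace false
set_option linter.unusedSectionVars false

namespace Crest.Agent.R289.IxP115

open Crest.Agent.Lib.PT Crest.Agent.Lib.PT.Arith Crest.Agent.R288.PtDp115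
  Crest.Agent.R289.Gauss115 Crest.Agent.R289.GkIdx594 Crest.Agent.R289.GkPT115
  Crest.Agent.R289.SkewGrp877 Crest.Agent.R289.GkTab115

/-! ### the norm equation -/

section norm

variable {K : Type} [Field K] {σ : K →+* K}

/-- sign -/
def sgn (K : Type) [Field K] (j : ℕ) : K := if j % 2 = 0 then 1 else -1

theorem sgn_eq (j : ℕ) : sgn K j = (-1) ^ j := by
  unfold sgn
  split_ifs with h
  · rw [Even.neg_one_pow (Nat.even_iff.mpr h)]
  · rw [Odd.neg_one_pow (Nat.odd_iff.mpr (by omega))]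

/-- the symmetric part `S_n` -/
def Sf (σ : K → K) (u : ℕ → K) (n : ℕ) : K :=
  ∑ j ∈ Finset.range n, if j = 0 then 0 else sgn K j * (u (n - j) * σ (u j))

theorem Sf_congr {σ : K → K} {u v : ℕ → K} {n : ℕ} (h : ∀ j, 0 < j → j < n → u j = v j) :
    Sf σ u n = Sf σ v n := by
  unfold Sf
  refine Finset.sum_congr rfl fun j hj => ?_
  rw [Finset.mem_range] at hj
  split_ifs with h0
  · rfl
  · rw [h j (by omega) hj, h (n - j) (by omega) (by omega)]

/-- reflection of a sum over `0 < j < n` -/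
theorem sum_refl (n : ℕ) (f : ℕ → K) :
    ∑ j ∈ Finset.range n, (if j = 0 then 0 else f j) =
      ∑ j ∈ Finset.range n, if j = 0 then 0 else f (n - j) := by
  have hf : ∀ g : ℕ → K, ∑ j ∈ Finset.range n, (if j = 0 then 0 else g j) =
      ∑ j ∈ (Finset.range n).filter (fun j => ¬ j = 0), g j := by
    intro g
    rw [Finset.sum_ite, Finset.sum_const_zero, zero_add]
  rw [hf f, hf (fun j => f (n - j))]
  refine Finset.sum_nbij' (fun j => n - j) (fun j => n - j) ?_ ?_ ?_ ?_ ?_
  · intro j hj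
    simp only [Finset.mem_filter, Finset.mem_range] at hj ⊢
    omega
  · intro j hj
    simp only [Finset.mem_filter, Finset.mem_range] at hj ⊢
    omega
  · intro j hj
    simp only [Finset.mem_filter, Finset.mem_range] at hj
    omega
  · intro j hj
    simp only [Finset.mem_filter, Finset.mem_range] at hj
    omega
  · intro j hj
    simp only [Finset.mem_filter, Finset.mem_range] at hj
    rw [show n - (n - j) = j by omega]

theorem sg_Sf (hσ : ∀ x, σ (σ x) = x) (u : ℕ → K) {n : ℕ} (hn : n % 2 = 0) :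
    σ (Sf σ u n) = Sf σ u n := by
  unfold Sf
  rw [map_sum, sum_refl n (fun j => sgn K j * (u (n - j) * σ (u j)))]
  refine Finset.sum_congr rfl fun j hj => ?_
  rw [Finset.mem_range] at hj
  split_ifs with h0
  · rw [map_zero]
  · rw [map_mul, map_mul, hσ, sgn_eq, sgn_eq, map_pow, map_neg, map_one,
      show n - (n - j) = j by omega]
    have : ((-1 : K)) ^ (n - j) = (-1) ^ j := by
      rw [← sgn_eq, ← sgn_eq]
      unfold sgn
      have : (n - j) % 2 = j % 2 := by omega
      rw [this]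
    rw [this]
    ring

/-- coefficients of the norm -/
theorem c_norm (hσ : ∀ x, σ (σ x) = x) {k : ℕ} (f : R σ k) {n : ℕ} (hn : n ≤ k) (hn0 : 0 < n)
    (h0 : c f 0 = 1) :
    c (f * conj f) n = if n % 2 = 0 then c f n + σ (c f n) + Sf σ (c f) n
      else (∑ j ∈ Finset.range n, if j = 0 then 0 else sgn K j * (c f (n - j) * c f j)) := by
  have key : c (f * conj f) n =
      ∑ j ∈ Finset.range (n + 1), sgn K j * (c f (n - j) * (σ ^ (n + 1)) (c f j)) := by
    rw [c_mul _ _ hn, ← Finset.Nat.sum_antidiagonal_swap]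
    rw [Finset.Nat.sum_antidiagonal_eq_sum_range_succ_mk]
    refine Finset.sum_congr rfl fun j hj => ?_
    rw [Finset.mem_range] at hj
    simp only [Prod.fst_swap, Prod.snd_swap]
    rw [c_conj _ (by omega), map_mul, map_pow, map_neg, map_one, spow_spow, sgn_eq,
      show n - j + (j + 1) = n + 1 by omega]
    ring
  rw [key, Finset.sum_range_succ]
  have e1 : ∑ j ∈ Finset.range n, sgn K j * (c f (n - j) * (σ ^ (n + 1)) (c f j)) =
      c f n + ∑ j ∈ Finset.range n,
        if j = 0 then 0 else sgn K j * (c f (n - j) * (σ ^ (n + 1)) (c f j)) := by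
    have hs : ∀ g : ℕ → K, ∑ j ∈ Finset.range n, g j =
        g 0 + ∑ j ∈ Finset.range n, if j = 0 then 0 else g j := by
      intro g
      obtain ⟨m, rfl⟩ : ∃ m, n = m + 1 := ⟨n - 1, by omega⟩
      rw [Finset.sum_range_succ', Finset.sum_range_succ', if_pos rfl, add_zero, add_comm]
      congr 1
    rw [hs]
    congr 1
    rw [h0, map_one, mul_one, Nat.sub_zero]
    simp [sgn]
  rw [e1, Nat.sub_self, h0, one_mul]
  split_ifs with hpar
  · have e2 : ∀ x, (σ ^ (n + 1)) x = σ x := fun x => spow_odd hσ (by omega) x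
    simp only [e2]
    rw [sgn_eq, Even.neg_one_pow (Nat.even_iff.mpr hpar), one_mul]
    unfold Sf
    ring
  · have e2 : ∀ x, (σ ^ (n + 1)) x = x := fun x => spow_even hσ (by omega) x
    simp only [e2]
    rw [sgn_eq, Odd.neg_one_pow (Nat.odd_iff.mpr (by omega))]
    ring

theorem odd_sum_zero (h2 : (2 : K) ≠ 0) (u : ℕ → K) {n : ℕ} (hn : n % 2 = 1) :
    (∑ j ∈ Finset.range n, if j = 0 then 0 else sgn K j * (u (n - j) * u j)) = 0 := by
  have h := sum_refl n (fun j => sgn K j * (u (n - j) * u j))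
  have h' : ∑ j ∈ Finset.range n, (if j = 0 then 0 else sgn K (n - j) * (u (n - (n - j)) * u (n - j)))
      = - ∑ j ∈ Finset.range n, if j = 0 then 0 else sgn K j * (u (n - j) * u j) := by
    rw [← Finset.sum_neg_distrib]
    refine Finset.sum_congr rfl fun j hj => ?_
    rw [Finset.mem_range] at hj
    split_ifs with h0
    · rw [neg_zero]
    · rw [show n - (n - j) = j by omega]
      have : sgn K (n - j) = - sgn K j := by
        unfold sgn
        rcases Nat.mod_two_eq_zero_or_one j with h | h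
        · rw [if_pos h, if_neg (by omega)]
        · rw [if_neg (by omega : ¬ j % 2 = 0), if_pos (by omega), neg_neg]
      rw [this]
      ring
  rw [h'] at h
  have h3 : (2 : K) * ∑ j ∈ Finset.range n,
      (if j = 0 then 0 else sgn K j * (u (n - j) * u j)) = 0 := by linear_combination h
  exact (mul_eq_zero.1 h3).resolve_left h2

/-- the norm equation -/
theorem norm_one_iff (hσ : ∀ x, σ (σ x) = x) (h2 : (2 : K) ≠ 0) {k : ℕ} (f : R σ (2 * k))
    (h0 : c f 0 = 1) : f * conj f = 1 ↔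
      ∀ m < k, c f (2 * m + 2) + σ (c f (2 * m + 2)) + Sf σ (c f) (2 * m + 2) = 0 := by
  constructor
  · intro h m hm
    have h1 := c_norm hσ f (n := 2 * m + 2) (by omega) (by omega) h0
    rw [h, c_one (by omega), if_neg (by omega), if_pos (by omega)] at h1
    exact h1.symm
  · intro h
    refine ext' fun n hn => ?_
    rw [c_one hn]
    rcases Nat.eq_zero_or_pos n with rfl | hn0
    · rw [if_pos rfl, c_zero_mul, c_zero_conj, h0, map_one, one_mul]
    · rw [if_neg (by omega), c_norm hσ f hn hn0 h0]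
      split_ifs with hpar
      · have := h (n / 2 - 1) (by omega)
        rwa [show 2 * (n / 2 - 1) + 2 = n by omega] at this
      · exact odd_sum_zero h2 _ (by omega)

end norm

/-! ### coordinates -/

section coord

variable {K : Type} [Field K]

/-- the free coordinates of two consecutive levels -/
abbrev Dg (σ : K →+* K) : Type := K × {x : K // σ x = -x}

instance (σ : K →+* K) : Inhabited (Dg σ) := ⟨(0, ⟨0, by simp⟩)⟩

open Classical in
/-- a pair as a coordinate -/
noncomputable def mkD (σ : K →+* K) (a b : K) : Dg σ := if h : σ b = -b then (a, ⟨b, h⟩) else default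

theorem mkD_fst {σ : K →+* K} {a b : K} (h : σ b = -b) : (mkD σ a b).1 = a := by
  unfold mkD; rw [dif_pos h]
theorem mkD_snd {σ : K →+* K} {a b : K} (h : σ b = -b) : ((mkD σ a b).2 : K) = b := by
  unfold mkD; rw [dif_pos h]
theorem mkD_eta {σ : K →+* K} (d : Dg σ) : mkD σ d.1 d.2 = d := by
  refine Prod.ext ?_ (Subtype.ext ?_)
  · exact mkD_fst d.2.2
  · exact mkD_snd d.2.2

variable {σ : K →+* K}

/-- two more coefficients -/
def ext1 (σ : K →+* K) (l : List K) (d : Dg σ) : List K :=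
  (l ++ [d.1]) ++ [(d.2 : K) - Sf σ (getK (l ++ [d.1])) (l.length + 1) / 2]

/-- coefficients with given coordinates -/
def bl (σ : K →+* K) (d : ℕ → Dg σ) : ℕ → List K
  | 0 => [1]
  | m + 1 => ext1 σ (bl σ d m) (d m)

theorem length_bl (d : ℕ → Dg σ) (m : ℕ) : (bl σ d m).length = 2 * m + 1 := by
  induction m with
  | zero => rfl
  | succ m ih =>
    change (ext1 σ (bl σ d m) (d m)).length = _
    unfold ext1
    simp only [List.length_append, List.length_cons, List.length_nil]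
    omega

theorem getK_append_left {l l' : List K} {i : ℕ} (h : i < l.length) :
    getK (l ++ l') i = getK l i := by
  unfold getK
  rw [List.getD_append _ _ _ _ h]

theorem getK_append_last (l : List K) (x : K) : getK (l ++ [x]) l.length = x := by
  unfold getK
  rw [List.getD_append_right _ _ _ _ le_rfl, Nat.sub_self]
  rfl

theorem bl_succ_lt (d : ℕ → Dg σ) {m j : ℕ} (h : j < 2 * m + 1) :
    getK (bl σ d (m + 1)) j = getK (bl σ d m) j := by
  change getK (ext1 σ (bl σ d m) (d m)) j = _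
  unfold ext1
  rw [getK_append_left (by rw [List.length_append, length_bl]; simp; omega),
    getK_append_left (by rw [length_bl]; exact h)]

theorem bl_stable (d : ℕ → Dg σ) {m m' j : ℕ} (hm : m ≤ m') (h : j < 2 * m + 1) :
    getK (bl σ d m') j = getK (bl σ d m) j := by
  induction m' with
  | zero =>
    obtain rfl : m = 0 := by omega
    rfl
  | succ m' ih =>
    rcases Nat.lt_or_ge m' m with h' | h'
    · obtain rfl : m = m' + 1 := by omega
      rfl
    · rw [bl_succ_lt d (by omega), ih h']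

theorem bl_zero (d : ℕ → Dg σ) (k : ℕ) : getK (bl σ d k) 0 = 1 := by
  rw [bl_stable d (Nat.zero_le k) (by omega)]
  rfl

theorem bl_odd (d : ℕ → Dg σ) {m k : ℕ} (h : m < k) : getK (bl σ d k) (2 * m + 1) = (d m).1 := by
  rw [bl_stable d (show m + 1 ≤ k from h) (by omega)]
  change getK (ext1 σ (bl σ d m) (d m)) _ = _
  unfold ext1
  rw [getK_append_left (by rw [List.length_append, length_bl]; simp)]
  have := getK_append_last (bl σ d m) (d m).1
  rwa [length_bl] at this

theorem bl_even (d : ℕ → Dg σ) {m k : ℕ} (h : m < k) : getK (bl σ d k) (2 * m + 2) =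
    ((d m).2 : K) - Sf σ (getK (bl σ d k)) (2 * m + 2) / 2 := by
  have h1 : getK (bl σ d (m + 1)) (2 * m + 2) =
      ((d m).2 : K) - Sf σ (getK (bl σ d m ++ [(d m).1])) (2 * m + 2) / 2 := by
    change getK (ext1 σ (bl σ d m) (d m)) _ = _
    unfold ext1
    have h2 := getK_append_last (bl σ d m ++ [(d m).1])
      (((d m).2 : K) - Sf σ (getK (bl σ d m ++ [(d m).1])) ((bl σ d m).length + 1) / 2)
    rw [List.length_append, length_bl, List.length_singleton] at h2
    rw [length_bl]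
    exact h2
  rw [bl_stable d (show m + 1 ≤ k from h) (by omega), h1]
  congr 2
  refine Sf_congr fun j _ hj => ?_
  rw [bl_stable d (show m + 1 ≤ k from h) (by omega)]
  change _ = getK (ext1 σ (bl σ d m) (d m)) _
  unfold ext1
  rw [getK_append_left (l' := [((d m).2 : K) -
    Sf σ (getK (bl σ d m ++ [(d m).1])) ((bl σ d m).length + 1) / 2])
    (by rw [List.length_append, length_bl]; simp; omega)]

/-- a list is determined by its coordinates -/
theorem eq_bl {d : ℕ → Dg σ} {k : ℕ} {l : List K} (hl : l.length = 2 * k + 1)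
    (h0 : getK l 0 = 1) (h1 : ∀ m < k, getK l (2 * m + 1) = (d m).1)
    (h2 : ∀ m < k, getK l (2 * m + 2) = ((d m).2 : K) - Sf σ (getK l) (2 * m + 2) / 2) :
    l = bl σ d k := by
  have key : ∀ i, i < 2 * k + 1 → getK l i = getK (bl σ d k) i := by
    intro i
    induction i using Nat.strong_induction_on with
    | _ i ih =>
      intro hi
      rcases Nat.eq_zero_or_pos i with rfl | hpos
      · rw [h0, bl_zero]
      · rcases Nat.mod_two_eq_zero_or_one i with h | h
        · obtain ⟨m, rfl⟩ : ∃ m, i = 2 * m + 2 := ⟨i / 2 - 1, by omega⟩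
          rw [h2 m (by omega), bl_even d (by omega : m < k)]
          congr 2
          exact Sf_congr fun j _ hj => ih j hj (by omega)
        · obtain ⟨m, rfl⟩ : ∃ m, i = 2 * m + 1 := ⟨i / 2, by omega⟩
          rw [h1 m (by omega), bl_odd d (by omega : m < k)]
  refine list_ext (by rw [hl, length_bl]) fun i hi => key i (by rw [← hl]; exact hi)

theorem bl_congr {d d' : ℕ → Dg σ} {k : ℕ} (h : ∀ m < k, d m = d' m) : bl σ d k = bl σ d' k := by
  refine eq_bl (length_bl d k) (bl_zero d k) (fun m hm => ?_) (fun m hm => ?_)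
  · rw [bl_odd d hm, h m hm]
  · rw [bl_even d hm, h m hm]

variable (hσ : ∀ x, σ (σ x) = x) (h2 : (2 : K) ≠ 0)
include hσ h2

theorem memP_bl (d : ℕ → Dg σ) (k : ℕ) : memP σ (2 * k) (bl σ d k) = true := by
  have hl := length_bl d k
  have h := memP_ofR hσ (toR σ (2 * k) (bl σ d k))
  rw [ofR_toR hl] at h
  have h0 : c (toR σ (2 * k) (bl σ d k)) 0 = 1 := by rw [c_toR _ (Nat.zero_le _), bl_zero]
  rw [h]
  refine ⟨(norm_one_iff hσ h2 _ h0).2 fun m hm => ?_, h0⟩
  have e : Sf σ (c (toR σ (2 * k) (bl σ d k))) (2 * m + 2) = Sf σ (getK (bl σ d k)) (2 * m + 2) :=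
    Sf_congr fun j _ hj => c_toR _ (by omega)
  rw [e, c_toR _ (by omega), bl_even d hm, map_sub, map_div₀, sg_Sf hσ _ (by omega), (d m).2.2,
    map_ofNat]
  field_simp
  ring

/-- the antisymmetric coordinate of a member -/
theorem anti_of_memP {k : ℕ} {l : List K} (hl : l.length = 2 * k + 1)
    (h : memP σ (2 * k) l = true) {m : ℕ} (hm : m < k) :
    σ (getK l (2 * m + 2) + Sf σ (getK l) (2 * m + 2) / 2) =
      -(getK l (2 * m + 2) + Sf σ (getK l) (2 * m + 2) / 2) := by
  have h' := memP_ofR hσ (toR σ (2 * k) l)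
  rw [ofR_toR hl, h] at h'
  obtain ⟨h1, h0⟩ := h'.1 rfl
  have h3 := (norm_one_iff hσ h2 _ h0).1 h1 m hm
  have e : Sf σ (c (toR σ (2 * k) l)) (2 * m + 2) = Sf σ (getK l) (2 * m + 2) :=
    Sf_congr fun j _ hj => c_toR _ (by omega)
  rw [e, c_toR _ (by omega)] at h3
  rw [map_add, map_div₀, sg_Sf hσ _ (by omega), map_ofNat]
  have h4 : Sf σ (getK l) (2 * m + 2) = -(getK l (2 * m + 2) + σ (getK l (2 * m + 2))) := by
    linear_combination h3
  rw [h4]
  field_simp
  ring

end coord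

/-! ### numbering -/

section number

variable {K : Type} [Field K] [Finite K]

/-- growth of the groups -/
noncomputable def Q0 (σ : K →+* K) : ℕ := qK (Dg σ)

/-- coordinates of a list -/
noncomputable def dgs (σ : K →+* K) (k : ℕ) (l : List K) : List (Dg σ) :=
  (List.range k).map fun m => mkD σ (getK l (2 * m + 1))
    (getK l (2 * m + 2) + Sf σ (getK l) (2 * m + 2) / 2)

/-- number of a list -/
noncomputable def noN (σ : K →+* K) (k : ℕ) (l : List K) : ℕ := idx (dgs σ k l)

/-- coordinate `m` of the number `r` -/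
noncomputable def dg (σ : K →+* K) (r m : ℕ) : Dg σ := dco (r / Q0 σ ^ m % Q0 σ)

/-- list number `r` -/
noncomputable def elN (σ : K →+* K) (k r : ℕ) : List K := bl σ (dg σ r) k

variable {σ : K →+* K}

theorem length_dgs (k : ℕ) (l : List K) : (dgs σ k l).length = k := by simp [dgs]

theorem length_elN (k r : ℕ) : (elN σ k r).length = 2 * k + 1 := length_bl _ _

theorem noN_lt (k : ℕ) (l : List K) : noN σ k l < Q0 σ ^ k := by
  have := idx_lt (dgs σ k l)
  rwa [length_dgs] at this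

theorem dg_noN (k : ℕ) (l : List K) {m : ℕ} (hm : m < k) : dg σ (noN σ k l) m =
    mkD σ (getK l (2 * m + 1)) (getK l (2 * m + 2) + Sf σ (getK l) (2 * m + 2) / 2) := by
  have h := digs_idx (dgs σ k l)
  rw [length_dgs] at h
  have h1 := digs_getD (K := Dg σ) (n := k) (i := noN σ k l) hm default
  unfold dg Q0
  rw [← h1]
  unfold noN
  rw [h]
  unfold dgs
  rw [List.getD_eq_getElem _ _ (by simpa using hm)]
  simp

theorem noN_bl (d : ℕ → Dg σ) (k : ℕ) : noN σ k (bl σ d k) = idx ((List.range k).map d) := by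
  unfold noN dgs
  congr 1
  refine List.map_congr_left fun m hm => ?_
  rw [List.mem_range] at hm
  rw [bl_odd d hm, bl_even d hm, sub_add_cancel, mkD_eta]

theorem noN_elN {k r : ℕ} (hr : r < Q0 σ ^ k) : noN σ k (elN σ k r) = r := by
  unfold elN
  rw [noN_bl]
  have : (List.range k).map (dg σ r) = digs (Dg σ) k r := rfl
  rw [this]
  exact idx_digs hr

variable (hσ : ∀ x, σ (σ x) = x) (h2 : (2 : K) ≠ 0)
include hσ h2

theorem memP_elN (k r : ℕ) : memP σ (2 * k) (elN σ k r) = true := memP_bl hσ h2 _ _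

theorem elN_noN {k : ℕ} {l : List K} (hl : l.length = 2 * k + 1)
    (h : memP σ (2 * k) l = true) : elN σ k (noN σ k l) = l := by
  symm
  refine eq_bl hl (memP_iff.1 h).2 (fun m hm => ?_) (fun m hm => ?_)
  · rw [dg_noN k l hm, mkD_fst (anti_of_memP hσ h2 hl h hm)]
  · rw [dg_noN k l hm, mkD_snd (anti_of_memP hσ h2 hl h hm)]
    ring

/-- **the numbering** -/
noncomputable def ixP (k : ℕ) : U hσ (2 * k) 1 ≃ Fin (Q0 σ ^ k) where
  toFun u := ⟨noN σ k (ofR ((u : (R σ (2 * k))ˣ) : R σ (2 * k))), noN_lt _ _⟩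
  invFun r := toU hσ (2 * k) (elN σ k r) (length_elN _ _) (memP_elN hσ h2 _ _)
  left_inv u := ofU_injective hσ (by
    rw [ofR_toU]
    exact elN_noN hσ h2 (length_ofR _) ((mem_U_iff hσ).1 u.2))
  right_inv r := Fin.ext (by
    simp only [ofR_toU]
    exact noN_elN r.2)

theorem ixP_val {k : ℕ} (u : U hσ (2 * k) 1) :
    (ixP hσ h2 k u : ℕ) = noN σ k (ofR ((u : (R σ (2 * k))ˣ) : R σ (2 * k))) := rfl

theorem elN_ixP {k : ℕ} (u : U hσ (2 * k) 1) :
    elN σ k (ixP hσ h2 k u) = ofR ((u : (R σ (2 * k))ˣ) : R σ (2 * k)) :=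
  elN_noN hσ h2 (length_ofR _) ((mem_U_iff hσ).1 u.2)

theorem card_P (k : ℕ) : Nat.card (U hσ (2 * k) 1) = Q0 σ ^ k := by
  rw [Nat.card_congr (ixP hσ h2 k), Nat.card_eq_fintype_card, Fintype.card_fin]

end number

/-! ### polynomial time -/

section pt

variable {K : Type} [Field K] [Finite K] [PTCode K] {α : Type} [PTCode α]

theorem ptf_Sf (σ : K → K) {l : α → List K} {n : α → ℕ} (hl : PTF l) (hn : PTU n) :
    PTF (fun a => Sf σ (getK (l a)) (n a)) := by
  unfold Sf
  refine ptf_sumK (n := n)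
    (f := fun a j => if j = 0 then 0 else sgn K j * (getK (l a) (n a - j) * σ (getK (l a) j))) hn ?_
  have hl' : PTF (fun p : α × ℕ => l p.1) := PTF.comp (g := l) hl (by fun_prop)
  have hn' : PTF (fun p : α × ℕ => n p.1) := PTF.comp (g := n) hn.toPTF PTF.fst
  have hs : PTF (fun p : α × ℕ => sgn K p.2) := by
    unfold sgn
    exact PTF.ite (PTPred.natEq (PTF.natMod PTF.snd (PTF.const 2)) (PTF.const 0)) (PTF.const _)
      (PTF.const _)
  exact PTF.ite (PTPred.natEq PTF.snd (PTF.const 0)) (PTF.const 0)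
    (ptf_kmul hs (ptf_kmul (ptf_getK hl' (PTF.natSub hn' PTF.snd))
      (PTF.comp (g := fun y : K => σ y) (PTF.of_finite _) (ptf_getK hl' PTF.snd))))

theorem ptf_half {x : α → K} (hx : PTF x) : PTF (fun a => x a / 2) :=
  PTF.comp (g := fun y : K => y / 2) (PTF.of_finite _) hx

theorem ptf_ext1 (σ : K →+* K) {l : α → List K} {d : α → Dg σ} (hl : PTF l) (hd : PTF d) :
    PTF (fun a => ext1 σ (l a) (d a)) := by
  unfold ext1
  have h1 : PTF (fun a => (d a).1) := PTF.comp (g := fun x : Dg σ => x.1) (PTF.of_finite _) hd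
  have h2 : PTF (fun a => ((d a).2 : K)) :=
    PTF.comp (g := fun x : Dg σ => (x.2 : K)) (PTF.of_finite _) hd
  have h3 : PTF (fun a => l a ++ [(d a).1]) := by fun_prop
  have h4 : PTF (fun a => Sf σ (getK (l a ++ [(d a).1])) ((l a).length + 1) / 2) :=
    ptf_half (ptf_Sf σ h3 (PTU.succ (PTU.length hl)))
  have h5 : PTF (fun a => ((d a).2 : K) - Sf σ (getK (l a ++ [(d a).1])) ((l a).length + 1) / 2) :=
    ptf_ksub h2 h4
  fun_prop

theorem ptf_dg (σ : K →+* K) {r m : α → ℕ} (hr : PTF r) (hm : PTU m) :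
    PTF (fun a => dg σ (r a) (m a)) := by
  unfold dg
  exact ptf_dco (PTF.natMod (PTF.natDiv hr (ptf_pow (PTF.const _) hm)) (PTF.const _))

theorem ptf_elN (σ : K →+* K) {k r : α → ℕ} (hk : PTU k) (hr : PTF r) :
    PTF (fun a => elN σ (k a) (r a)) := by
  obtain ⟨C, hC⟩ := sz_digits_le K
  refine ptf_natRec (r := fun a i => bl σ (dg σ (r a)) i) (b := fun _ => [(1 : K)])
    (s := fun a i t => ext1 σ t (dg σ (r a) (min i (k a)))) hk (PTF.const _) ?_ (fun a => rfl)
    (fun a i hi => ?_) (B := fun a => (2 * k a + 1) * C) ?_ (fun a i hi => ?_)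
  · refine ptf_ext1 σ (by fun_prop) (ptf_dg σ (PTF.comp (g := r) hr (by fun_prop)) ?_)
    exact ptu_min (by fun_prop) (PTU.comp hk (by fun_prop))
  · rw [min_eq_left (by omega)]
    rfl
  · have := hk.pb
    fun_prop
  · have h := hC (bl σ (dg σ (r a)) i)
    rw [length_bl] at h
    refine h.trans (Nat.mul_le_mul_right _ (by omega))

theorem ptf_noN (σ : K →+* K) {k : α → ℕ} {l : α → List K} (hk : PTU k) (hl : PTF l) :
    PTF (fun a => noN σ (k a) (l a)) := by
  unfold noN
  refine ptf_idx ?_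
  have h : PTF (fun a => (List.range (k a)).map fun m =>
      mkD σ (getK (l a) (2 * min m (k a) + 1)) (getK (l a) (2 * min m (k a) + 2) +
        Sf σ (getK (l a)) (2 * min m (k a) + 2) / 2)) := by
    refine PTF.map (l := fun a => List.range (k a)) (f := fun (a : α) (m : ℕ) =>
      mkD σ (getK (l a) (2 * min m (k a) + 1)) (getK (l a) (2 * min m (k a) + 2) +
        Sf σ (getK (l a)) (2 * min m (k a) + 2) / 2)) (PTF.range hk) ?_
    have hl' : PTF (fun p : α × ℕ => l p.1) := PTF.comp (g := l) hl (by fun_prop)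
    have hm : PTU (fun p : α × ℕ => min p.2 (k p.1)) := ptu_min PTF.snd (PTU.comp hk PTF.fst)
    have h1 : PTU (fun p : α × ℕ => 2 * min p.2 (k p.1) + 1) :=
      PTU.add (PTU.mul (PTU.const 2) hm) (PTU.const 1)
    have h2 : PTU (fun p : α × ℕ => 2 * min p.2 (k p.1) + 2) :=
      PTU.add (PTU.mul (PTU.const 2) hm) (PTU.const 2)
    have h3 : PTF (fun p : α × ℕ => (getK (l p.1) (2 * min p.2 (k p.1) + 1),
        getK (l p.1) (2 * min p.2 (k p.1) + 2) +
          Sf σ (getK (l p.1)) (2 * min p.2 (k p.1) + 2) / 2)) :=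
      PTF.prodMk (ptf_getK hl' h1.toPTF)
        (ptf_kadd (ptf_getK hl' h2.toPTF) (ptf_half (ptf_Sf σ hl' h2)))
    exact PTF.comp (g := fun x : K × K => mkD σ x.1 x.2) (PTF.of_finite _) h3
  refine PTF.of_eq h fun a => ?_
  unfold dgs
  refine List.map_congr_left fun m hm => ?_
  rw [List.mem_range] at hm
  rw [min_eq_left hm.le]

/-! ### tables -/

/-- product of numbers -/
noncomputable def mulN (σ : K →+* K) (p : Un × ℕ × ℕ) : ℕ :=
  noN σ p.1.val (mulL σ (2 * p.1.val) (elN σ p.1.val p.2.1) (elN σ p.1.val p.2.2))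

/-- inverse of a number -/
noncomputable def invN (σ : K →+* K) (p : Un × ℕ) : ℕ :=
  noN σ p.1.val (conjL σ (2 * p.1.val) (elN σ p.1.val p.2))

/-- coefficient `i + 1` of the element with number `u` -/
noncomputable def chiN (σ : K →+* K) (p : Un × ℕ × ℕ) : K := getK (elN σ p.1.val p.2.2) (p.2.1 + 1)

theorem ptf_mulN (σ : K →+* K) : PTF (mulN σ) := by
  unfold mulN
  have hk : PTU (fun p : Un × ℕ × ℕ => p.1.val) := PTU.val PTF.fst
  exact ptf_noN σ hk (ptf_mulL σ (PTU.mul (PTU.const 2) hk) (ptf_elN σ hk (by fun_prop))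
    (ptf_elN σ hk (by fun_prop)))

theorem ptf_invN (σ : K →+* K) : PTF (invN σ) := by
  unfold invN
  have hk : PTU (fun p : Un × ℕ => p.1.val) := PTU.val PTF.fst
  exact ptf_noN σ hk (ptf_conjL σ (PTU.mul (PTU.const 2) hk) (ptf_elN σ hk (by fun_prop)))

theorem ptf_chiN (σ : K →+* K) : PTF (chiN σ) := by
  unfold chiN
  have hk : PTU (fun p : Un × ℕ × ℕ => p.1.val) := PTU.val PTF.fst
  exact ptf_getK (ptf_elN σ hk (by fun_prop)) (by fun_prop)

end pt

section spec

variable {K : Type} [Field K] [Finite K] {σ : K →+* K} (hσ : ∀ x, σ (σ x) = x)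
  (h2 : (2 : K) ≠ 0)
include hσ h2

theorem mulN_eq (k : ℕ) (u v : U hσ (2 * k) 1) :
    mulN σ (Un.mk k, (ixP hσ h2 k u : ℕ), (ixP hσ h2 k v : ℕ)) = (ixP hσ h2 k (u * v) : ℕ) := by
  unfold mulN
  simp only [elN_ixP hσ h2]
  rw [ixP_val hσ h2, ← ofR_mul hσ]
  rfl

theorem invN_eq (k : ℕ) (u : U hσ (2 * k) 1) :
    invN σ (Un.mk k, (ixP hσ h2 k u : ℕ)) = (ixP hσ h2 k u⁻¹ : ℕ) := by
  unfold invN
  simp only [elN_ixP hσ h2]
  rw [ixP_val hσ h2, ← ofR_conj hσ, conj_eq_inv hσ u.2.1]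
  rfl

/-- coefficient `i + 1` -/
theorem chiN_eq (k i : ℕ) (u : U hσ (2 * k) 1) :
    chiN σ (Un.mk k, i, (ixP hσ h2 k u : ℕ)) = c ((u : (R σ (2 * k))ˣ) : R σ (2 * k)) (i + 1) := by
  unfold chiN
  simp only [elN_ixP hσ h2]
  by_cases h : i + 1 ≤ 2 * k
  · rw [getK_ofR _ h]
  · rw [getK_ge (by rw [length_ofR]; omega), c_gt _ (by omega)]

end spec

/-! ### the filtration -/

section chi

variable {K : Type} [Field K] {σ : K →+* K} (hσ : ∀ x, σ (σ x) = x) {k : ℕ}
include hσ

theorem c_zero_of_mem (u : U hσ k 1) : c ((u : (R σ k)ˣ) : R σ k) 0 = 1 :=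
  ((memP_ofR hσ _).1 ((mem_U_iff hσ).1 u.2)).2

theorem mem_U_of {i : ℕ} (u : U hσ k 1)
    (h : ∀ j < i, c ((u : (R σ k)ˣ) : R σ k) (j + 1) = 0) : (u : (R σ k)ˣ) ∈ U hσ k (i + 1) := by
  refine ⟨u.2.1, fun n hn => ?_⟩
  rcases Nat.eq_zero_or_pos n with rfl | hpos
  · rw [c_sub, c_zero_of_mem hσ u, c_one (Nat.zero_le k), if_pos rfl, sub_self]
  · by_cases hk : n ≤ k
    · rw [c_sub, c_one hk, if_neg (by omega), sub_zero]
      have := h (n - 1) (by omega)
      rwa [show n - 1 + 1 = n by omega] at this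
    · exact c_gt _ (by omega)

theorem c_sub_one {f : R σ k} {i : ℕ} : c (f - 1) (i + 1) = c f (i + 1) := by
  by_cases hk : i + 1 ≤ k
  · rw [c_sub, c_one hk, if_neg (by omega), sub_zero]
  · rw [c_gt _ (by omega), c_gt _ (by omega)]

theorem cchi_mul {i : ℕ} (u v : U hσ k 1)
    (hu : ∀ j < i, c ((u : (R σ k)ˣ) : R σ k) (j + 1) = 0)
    (hv : ∀ j < i, c ((v : (R σ k)ˣ) : R σ k) (j + 1) = 0) :
    c (((u * v : U hσ k 1) : (R σ k)ˣ) : R σ k) (i + 1) =
      c ((u : (R σ k)ˣ) : R σ k) (i + 1) + c ((v : (R σ k)ˣ) : R σ k) (i + 1) := by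
  have h := lead_mul hσ (by omega : 1 ≤ i + 1) (mem_U_of hσ u hu) (mem_U_of hσ v hv)
  rw [c_sub_one hσ, c_sub_one hσ, c_sub_one hσ] at h
  exact h

theorem cchi_conj {i : ℕ} (h u : U hσ k 1)
    (hu : ∀ j < i, c ((u : (R σ k)ˣ) : R σ k) (j + 1) = 0) :
    c (((h⁻¹ * u * h : U hσ k 1) : (R σ k)ˣ) : R σ k) (i + 1) =
      c ((u : (R σ k)ˣ) : R σ k) (i + 1) := by
  by_cases hk : i + 1 ≤ k
  · have e : (((h⁻¹ * u * h : U hσ k 1) : (R σ k)ˣ) : R σ k) - 1 =
        (((h⁻¹ : U hσ k 1) : (R σ k)ˣ) : R σ k) * (((u : (R σ k)ˣ) : R σ k) - 1) *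
          ((h : (R σ k)ˣ) : R σ k) := by
      have h1 : (((h⁻¹ : U hσ k 1) : (R σ k)ˣ) : R σ k) * ((h : (R σ k)ˣ) : R σ k) = 1 := by
        rw [← Units.val_mul, ← Subgroup.coe_mul, inv_mul_cancel]; rfl
      rw [mul_sub, sub_mul, mul_one, h1]
      rfl
    rw [← c_sub_one hσ, e]
    have hJ := (mem_U_of hσ u hu).2
    have h3 := c_mul_lead (hJ.mul_left (((h⁻¹ : U hσ k 1) : (R σ k)ˣ) : R σ k))
      (J_zero ((h : (R σ k)ˣ) : R σ k)) (by omega)
    rw [add_zero] at h3
    rw [h3, c_zero_of_mem hσ h, map_one, mul_one]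
    have h4 := c_mul_lead (J_zero (((h⁻¹ : U hσ k 1) : (R σ k)ˣ) : R σ k)) hJ (by omega)
    rw [zero_add] at h4
    rw [h4, c_zero_of_mem hσ h⁻¹, one_mul, c_sub_one hσ]
    rfl
  · rw [c_gt _ (by omega), c_gt _ (by omega)]

theorem cchi_sep (u : U hσ k 1) (h : ∀ i < k, c ((u : (R σ k)ˣ) : R σ k) (i + 1) = 0) : u = 1 := by
  refine Subtype.ext (Units.ext (ext' fun n hn => ?_))
  change _ = c (1 : R σ k) n
  rw [c_one hn]
  split_ifs with h0
  · rw [h0]; exact c_zero_of_mem hσ u
  · have := h (n - 1) (by omega)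
    rwa [show n - 1 + 1 = n by omega] at this

end chi

/-! ### steps -/

section step

variable {K : Type} [Field K] {σ : K →+* K} {k : ℕ}

theorem charP_R {p : ℕ} [Fact p.Prime] [CharP K p] : CharP (R σ k) p := by
  have hchar : ∀ f : R σ k, (p : R σ k) * f = 0 := by
    intro f
    have h1 : ∀ m : ℕ, ∀ n, c ((m : R σ k) * f) n = (m : K) * c f n := by
      intro m
      induction m with
      | zero => intro n; simp
      | succ m ih => intro n; rw [Nat.cast_succ, Nat.cast_succ, add_mul, add_mul, c_add, ih, one_mul,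
          one_mul]
    refine ext' fun n _ => ?_
    rw [h1, CharP.cast_eq_zero K p, zero_mul, c_zero]
  have hp0 : (p : R σ k) = 0 := by simpa using hchar 1
  refine CharP.mk fun m => ?_
  constructor
  · intro hm
    have h1 : ∀ m : ℕ, c (m : R σ k) 0 = (m : K) := by
      intro m
      induction m with
      | zero => simp
      | succ m ih => rw [Nat.cast_succ, c_add, ih, c_one (Nat.zero_le k), if_pos rfl,
          Nat.cast_succ]
    have h2 := h1 m
    rw [hm, c_zero] at h2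
    exact (CharP.cast_eq_zero_iff K p m).1 h2.symm
  · rintro ⟨d, rfl⟩
    rw [Nat.cast_mul, hp0, zero_mul]

/-- `p ^ e`-th powers of elements `≡ 1 mod τ` -/
theorem pow_eq_one' {p : ℕ} [Fact p.Prime] [CharP K p] {z : R σ k} (hz : c z 0 = 1) {e : ℕ}
    (he : k < p ^ e) : z ^ (p ^ e) = 1 := by
  have hJ : J 1 (z - 1) := by
    intro n hn
    obtain rfl : n = 0 := by omega
    rw [c_sub, hz, c_one (Nat.zero_le k), if_pos rfl, sub_self]
  have _ : CharP (R σ k) p := charP_R
  have h := add_pow_char_pow_of_commute (p := p) e (Commute.one_left (z - 1))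
  rw [add_sub_cancel, one_pow] at h
  rw [h]
  have h3 : J (p ^ e) ((z - 1) ^ (p ^ e)) := J_pow_one hJ _
  rw [h3.eq_zero he, add_zero]

/-- `u` times a power of its norm -/
def normE (E : ℕ) (u : R σ k) : R σ k := u * (u * conj u) ^ E

/-- the same on lists -/
def nrmE (σ : K → K) (k E : ℕ) (u : List K) : List K :=
  mulL σ k u (powL σ k (mulL σ k u (conjL σ k u)) E)

theorem toR_nrmE (hσ : ∀ x, σ (σ x) = x) (E : ℕ) (u : List K) :
    toR σ k (nrmE σ k E u) = normE E (toR σ k u) := by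
  unfold nrmE normE
  rw [toR_mulL hσ, toR_powL hσ, toR_mulL hσ, toR_conjL hσ]

theorem length_nrmE (σ : K → K) (k E : ℕ) (u : List K) : (nrmE σ k E u).length = k + 1 :=
  length_mulL _ _ _ _

theorem two_ne_of_char (K : Type) [Field K] {p : ℕ} [Fact p.Prime] [CharP K p] (hp : p ≠ 2) :
    (2 : K) ≠ 0 := by
  intro h
  have h1 : ((2 : ℕ) : K) = 0 := by exact_mod_cast h
  have h3 := (CharP.cast_eq_zero_iff K p 2).1 h1
  exact hp ((Nat.prime_dvd_prime_iff_eq Fact.out Nat.prime_two).1 h3)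

/-- square roots of the norm -/
theorem sqrt_norm (hσ : ∀ x, σ (σ x) = x) {p : ℕ} [Fact p.Prime] [CharP K p] (hp : p ≠ 2)
    {e : ℕ} (he : k < p ^ e) {u : R σ k} (hu : c u 0 = 1) :
    (u * conj u) * ((u * conj u) ^ ((p ^ e - 1) / 2) * (u * conj u) ^ ((p ^ e - 1) / 2)) = 1 := by
  have hprime : p.Prime := Fact.out
  have hodd : p ^ e % 2 = 1 := by
    have := hprime.eq_two_or_odd.resolve_left hp
    rw [Nat.pow_mod, this, one_pow]
    rfl
  have hcn : c (u * conj u) 0 = 1 := by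
    rw [c_zero_mul, c_zero_conj, hu, map_one, one_mul]
  rw [← pow_add, ← pow_succ']
  have h4 : (p ^ e - 1) / 2 + (p ^ e - 1) / 2 + 1 = p ^ e := by
    have : 0 < p ^ e := Nat.pow_pos hprime.pos
    omega
  rw [h4]
  exact pow_eq_one' hcn he

/-- norm of `u * z`, `z` fixed by `conj` -/
theorem norm_mul_central (hσ : ∀ x, σ (σ x) = x) (h2 : (2 : K) ≠ 0) {u z : R σ k}
    (hz : conj z = z) : (u * z) * conj (u * z) = (u * conj u) * (z * z) := by
  have hcz := comm_of_conj_fix hσ h2 hz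
  rw [conj_mul hσ, hz, hcz (conj u), ← mul_assoc (u * z), mul_assoc u z, hcz (conj u),
    ← mul_assoc u, mul_assoc]

theorem normE_norm (hσ : ∀ x, σ (σ x) = x) {p : ℕ} [Fact p.Prime] [CharP K p] (hp : p ≠ 2)
    {e : ℕ} (he : k < p ^ e) {u : R σ k} (hu : c u 0 = 1) :
    normE ((p ^ e - 1) / 2) u * conj (normE ((p ^ e - 1) / 2) u) = 1 := by
  unfold normE
  rw [norm_mul_central hσ (two_ne_of_char K hp) (conj_pow_fix hσ (conj_nrm hσ u) _)]
  exact sqrt_norm hσ hp he hu

theorem normE_c (E : ℕ) {u : R σ k} (hu : c u 0 = 1) : c (normE E u) 0 = 1 := by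
  unfold normE
  rw [c_zero_mul, hu, one_mul, c_zero_pow]
  rw [c_zero_mul, c_zero_conj, hu, map_one, one_mul]

/-- commuting square roots with constant term one are equal -/
theorem sqrt_unique (h2 : (2 : K) ≠ 0) {z w : R σ k} (hz : c z 0 = 1) (hw : c w 0 = 1)
    (hc : z * w = w * z) (h : z * z = w * w) : z = w := by
  have h1 : (z - w) * (z + w) = 0 := by
    have : (z - w) * (z + w) = z * z + z * w - w * z - w * w := by noncomm_ring
    rw [this, hc, h]; noncomm_ring
  have h3 : c (z + w) 0 = 2 := by rw [c_add, hz, hw]; norm_num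
  have hu : IsUnit (z + w) := by
    have h4 : c (mono 0 ((2 : K)⁻¹) * (z + w)) 0 = 1 := by
      rw [c_zero_mul, c_mono 0 _ (Nat.zero_le k), if_pos rfl, h3, inv_mul_cancel₀ h2]
    have h5 : c (mono 0 (2 : K) * mono 0 ((2 : K)⁻¹) : R σ k) 0 = 1 := by
      rw [c_zero_mul, c_mono 0 _ (Nat.zero_le k), if_pos rfl, c_mono 0 _ (Nat.zero_le k), if_pos rfl,
        mul_inv_cancel₀ h2]
    have h6 : (mono 0 (2 : K) * mono 0 ((2 : K)⁻¹) : R σ k) = 1 := by
      refine ext' fun n hn => ?_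
      rw [c_mul _ _ hn, c_one hn]
      split_ifs with h0
      · subst h0
        rw [← c_mul _ _ hn]; exact h5
      · refine Finset.sum_eq_zero fun q hq => ?_
        rw [Finset.HasAntidiagonal.mem_antidiagonal] at hq
        rcases Nat.eq_zero_or_pos q.1 with h7 | h7
        · rw [c_mono 0 ((2 : K)⁻¹) (by omega), if_neg (by omega), map_zero, mul_zero]
        · rw [c_mono 0 (2 : K) (by omega), if_neg (by omega), zero_mul]
    have h7 : z + w = mono 0 (2 : K) * (mono 0 ((2 : K)⁻¹) * (z + w)) := by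
      rw [← mul_assoc, h6, one_mul]
    have h8 : IsUnit (mono 0 (2 : K) : R σ k) := by
      have h9 : (mono 0 ((2 : K)⁻¹) * mono 0 (2 : K) : R σ k) = 1 := by
        refine ext' fun n hn => ?_
        rw [c_mul _ _ hn, c_one hn]
        split_ifs with h0
        · subst h0
          rw [← c_mul _ _ hn, c_zero_mul, c_mono 0 _ (Nat.zero_le k), if_pos rfl,
            c_mono 0 _ (Nat.zero_le k), if_pos rfl, inv_mul_cancel₀ h2]
        · refine Finset.sum_eq_zero fun q hq => ?_
          rw [Finset.HasAntidiagonal.mem_antidiagonal] at hq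
          rcases Nat.eq_zero_or_pos q.1 with h7 | h7
          · rw [c_mono 0 (2 : K) (by omega : q.2 ≤ k), if_neg (by omega), map_zero, mul_zero]
          · rw [c_mono 0 ((2 : K)⁻¹) (by omega : q.1 ≤ k), if_neg (by omega), zero_mul]
      exact ⟨⟨_, _, h6, h9⟩, rfl⟩
    rw [h7]
    exact h8.mul (isUnit_of_c h4)
  have h4 : z - w = 0 := by
    have := hu.mul_left_eq_zero.1 h1
    exact this
  exact sub_eq_zero.1 h4

/-- **uniqueness of the normalisation**: a central multiple of `u` of norm one is `normE u` -/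
theorem normE_unique (hσ : ∀ x, σ (σ x) = x) {p : ℕ} [Fact p.Prime] [CharP K p] (hp : p ≠ 2)
    {e : ℕ} (he : k < p ^ e) {a u z : R σ k} (hu : c u 0 = 1) (hz0 : c z 0 = 1)
    (hz : conj z = z) (ha : a = u * z) (hn : a * conj a = 1) :
    a = normE ((p ^ e - 1) / 2) u := by
  have h2 := two_ne_of_char K hp (p := p)
  set w := (u * conj u) ^ ((p ^ e - 1) / 2) with hw
  have hwfix : conj w = w := conj_pow_fix hσ (conj_nrm hσ u) _
  have hw0 : c w 0 = 1 := by
    refine c_zero_pow ?_ _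
    rw [c_zero_mul, c_zero_conj, hu, map_one, one_mul]
  have h3 : (u * conj u) * (w * w) = 1 := sqrt_norm hσ hp he hu
  have h4 : (u * conj u) * (z * z) = 1 := by
    rw [← norm_mul_central hσ h2 hz, ← ha]; exact hn
  have hcz := comm_of_conj_fix hσ h2 hz
  have hcw := comm_of_conj_fix hσ h2 hwfix
  have hcn := comm_of_conj_fix hσ h2 (conj_nrm hσ u)
  have h5 : z * z = w * w := by
    calc z * z = (z * z) * ((u * conj u) * (w * w)) := by rw [h3, mul_one]
      _ = ((u * conj u) * (z * z)) * (w * w) := by rw [← mul_assoc, ← hcn (z * z)]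
      _ = w * w := by rw [h4, one_mul]
  have h6 := sqrt_unique h2 hz0 hw0 (hcz w) h5
  unfold normE
  rw [ha, h6]

end step

section stepU

variable {K : Type} [Field K] [Finite K] {σ : K →+* K}

/-- the exponent of the normalisation at level `2 * k` -/
def exN (p k : ℕ) : ℕ := (p ^ Nat.clog p (2 * k + 1) - 1) / 2

theorem lt_pow_clog {p : ℕ} (hp : 1 < p) (k : ℕ) : 2 * k < p ^ Nat.clog p (2 * k + 1) :=
  Nat.le_pow_clog hp _

variable (hσ : ∀ x, σ (σ x) = x) {p : ℕ} [Fact p.Prime] [CharP K p] (hp : p ≠ 2)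

/-- **the step** `G * (central square root)`, `G` a fixed polynomial with constant term one -/
noncomputable def stU (k : ℕ) (G : List K) (hG : getK G 0 = 1) : U hσ (2 * k) 1 :=
  toU hσ (2 * k) (nrmE σ (2 * k) (exN p k) G) (length_nrmE _ _ _ _) (by
    have h := memP_ofR hσ (toR σ (2 * k) (nrmE σ (2 * k) (exN p k) G))
    rw [ofR_toR (length_nrmE _ _ _ _)] at h
    rw [h, toR_nrmE hσ]
    have hc : c (toR σ (2 * k) G) 0 = 1 := by rw [c_toR _ (Nat.zero_le _), hG]
    exact ⟨normE_norm hσ hp (lt_pow_clog (Fact.out : p.Prime).one_lt k) hc, normE_c _ hc⟩)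

/-- number of the step -/
noncomputable def stN (σ : K →+* K) (p : ℕ) (G : List K) (k : Un) : ℕ :=
  noN σ k.val (nrmE σ (2 * k.val) (exN p k.val) G)

theorem stU_val (k : ℕ) (G : List K) (hG : getK G 0 = 1) :
    (((stU hσ hp k G hG : U hσ (2 * k) 1) : (R σ (2 * k))ˣ) : R σ (2 * k)) =
      normE (exN p k) (toR σ (2 * k) G) := by
  rw [← toR_nrmE hσ]
  unfold stU
  rw [← toR_ofR ((((toU hσ (2 * k) (nrmE σ (2 * k) (exN p k) G) _ _ : U hσ (2 * k) 1) :
    (R σ (2 * k))ˣ) : R σ (2 * k))), ofR_toU]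

/-- the step is `G` times an element fixed by `conj` with constant term one -/
theorem stU_eq_mul (k : ℕ) (G : List K) (hG : getK G 0 = 1) :
    ∃ z : R σ (2 * k), conj z = z ∧ c z 0 = 1 ∧ (∀ f, z * f = f * z) ∧
      (((stU hσ hp k G hG : U hσ (2 * k) 1) : (R σ (2 * k))ˣ) : R σ (2 * k)) =
        toR σ (2 * k) G * z := by
  have hc : c (toR σ (2 * k) G) 0 = 1 := by rw [c_toR _ (Nat.zero_le _), hG]
  have hfix : conj ((toR σ (2 * k) G * conj (toR σ (2 * k) G)) ^ exN p k) =
      (toR σ (2 * k) G * conj (toR σ (2 * k) G)) ^ exN p k := conj_pow_fix hσ (conj_nrm hσ _) _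
  refine ⟨(toR σ (2 * k) G * conj (toR σ (2 * k) G)) ^ exN p k, hfix, c_zero_pow ?_ _,
    comm_of_conj_fix hσ (two_ne_of_char K hp (p := p)) hfix, ?_⟩
  · rw [c_zero_mul, c_zero_conj, hc, map_one, one_mul]
  · rw [stU_val hσ hp]; rfl

/-- **uniqueness**: a norm-one element which is `G` times an element fixed by `conj` with constant
term one is the step -/
theorem eq_stU (k : ℕ) (G : List K) (hG : getK G 0 = 1) (a : U hσ (2 * k) 1)
    {z : R σ (2 * k)} (hz : conj z = z) (hz0 : c z 0 = 1)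
    (ha : ((a : (R σ (2 * k))ˣ) : R σ (2 * k)) = toR σ (2 * k) G * z) :
    a = stU hσ hp k G hG := by
  refine Subtype.ext (Units.ext ?_)
  rw [stU_val hσ hp]
  refine normE_unique hσ hp (lt_pow_clog (Fact.out : p.Prime).one_lt k) ?_ hz0 hz ha a.2.1
  rw [c_toR _ (Nat.zero_le _), hG]

theorem stN_eq (h2 : (2 : K) ≠ 0) (k : ℕ) (G : List K) (hG : getK G 0 = 1) :
    stN σ p G (Un.mk k) = (ixP hσ h2 k (stU hσ hp k G hG) : ℕ) := by
  unfold stN
  rw [ixP_val hσ h2]
  unfold stU
  rw [ofR_toU]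

include hp in
/-- number of any such element -/
theorem stN_eq_of (h2 : (2 : K) ≠ 0) (k : ℕ) (G : List K) (hG : getK G 0 = 1)
    (a : U hσ (2 * k) 1) {z : R σ (2 * k)} (hz : conj z = z) (hz0 : c z 0 = 1)
    (ha : ((a : (R σ (2 * k))ˣ) : R σ (2 * k)) = toR σ (2 * k) G * z) :
    stN σ p G (Un.mk k) = (ixP hσ h2 k a : ℕ) := by
  rw [eq_stU hσ hp k G hG a hz hz0 ha]
  exact stN_eq hσ hp h2 k G hG

end stepU

section stepPT

variable {K : Type} [Field K] [Finite K] [PTCode K] {α : Type} [PTCode α]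

theorem ptu_exN {p : ℕ} (hp : 1 < p) {k : α → ℕ} (hk : PTU k) : PTU (fun a => exN p (k a)) := by
  have h1 : PTU (fun a => 2 * k a + 1) := PTU.add (PTU.mul (PTU.const 2) hk) (PTU.const 1)
  have h2 : PTF (fun a => Nat.clog p (2 * k a + 1)) := Size954.ptf_clog (PTF.const p) h1.toPTF
  have h3 : PTU (fun a => Nat.clog p (2 * k a + 1)) := by
    refine h2.toPTU (h1.pb.mono fun a => ?_)
    exact Nat.clog_le_of_le_pow (Nat.lt_pow_self hp).le
  have h4 : PTF (fun a => exN p (k a)) :=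
    PTF.natDiv (PTF.natSub (ptf_pow (PTF.const p) h3) (PTF.const 1)) (PTF.const 2)
  have h5 : PTU (fun a => p * (2 * k a + 1)) := PTU.mul (PTU.const p) h1
  refine h4.toPTU (h5.pb.mono fun a => ?_)
  unfold exN
  refine (Nat.div_le_self _ _).trans ((Nat.sub_le _ _).trans ?_)
  exact Size954.pow_clog_le hp (by omega)

theorem ptf_stN (σ : K →+* K) {p : ℕ} (hp : 1 < p) (G : List K) : PTF (stN σ p G) := by
  unfold stN
  have hk : PTU (fun u : Un => u.val) := PTU.val PTF.id
  have hk2 : PTU (fun u : Un => 2 * u.val) := PTU.mul (PTU.const 2) hk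
  refine ptf_noN σ hk (ptf_mulL σ hk2 (PTF.const G) ?_)
  exact ptf_powL σ hk2 (ptu_exN hp hk) (ptf_mulL σ hk2 (PTF.const G)
    (ptf_conjL σ hk2 (PTF.const G)))

end stepPT

end Crest.Agent.R289.IxP115
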