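import Crest.Agent.R289.PExpLib_118
import Crest.Agent.R289.DefD_721

/-!
# Row 289, block D/E: Kleene semantics of `PExp` (helper118)

`Sat κ v`: the rational value `v` realises the Kleene value `κ` (definite values are exact, nothing is
claimed for `none`).  `compl, mn, mx, mix` realise `k3not, k3and, k3or, k3mux`, a ramp of a measured
value realises `cmp`, `boolK f v` is the Kleene-complete gate of a Boolean function `f`.
-/

set_option autoImplicit false

namespace Crest.Agent.R289.Kleene118

open Crest.Agent.R289 Crest.Agent.R289.PExp Crest.Agent.R289.DefD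

variable {x : ℕ → ℕ → ℚ} {K L : ℕ}

/-- the rational value `v` realises the Kleene value `κ` -/
def Sat (κ : K3) (v : ℚ) : Prop := (κ = some true → v = 1) ∧ (κ = some false → v = 0)

theorem Sat.none (v : ℚ) : Sat none v := ⟨fun h => by simp at h, fun h => by simp at h⟩

theorem Sat.true_ : Sat (some true) 1 := ⟨fun _ => rfl, fun h => by simp at h⟩

theorem Sat.false_ : Sat (some false) 0 := ⟨fun h => by simp at h, fun _ => rfl⟩

theorem Sat.some (b : Bool) : Sat (some b) (if b then 1 else 0) := by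
  cases b
  · exact Sat.false_
  · exact Sat.true_

/-- values in the unit interval -/
def U (v : ℚ) : Prop := 0 ≤ v ∧ v ≤ 1

theorem U.one_sub {v : ℚ} (h : U v) : U (1 - v) := ⟨by linarith [h.2], by linarith [h.1]⟩

theorem U.min {v w : ℚ} (h : U v) (h' : U w) : U (min v w) :=
  ⟨le_min h.1 h'.1, (min_le_left _ _).trans h.2⟩

theorem U.max {v w : ℚ} (h : U v) (h' : U w) : U (max v w) :=
  ⟨h.1.trans (le_max_left _ _), max_le h.2 h'.2⟩

theorem Sat.not {κ : K3} {v : ℚ} (h : Sat κ v) : Sat (k3not κ) (1 - v) := by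
  rcases κ with _ | _ | _
  · exact Sat.none _
  · rw [h.2 rfl, sub_zero]; exact Sat.true_
  · rw [h.1 rfl, sub_self]; exact Sat.false_

theorem Sat.and {κ μ : K3} {v w : ℚ} (hv : U v) (hw : U w) (h : Sat κ v) (h' : Sat μ w) :
    Sat (k3and κ μ) (min v w) := by
  rcases κ with _ | _ | _ <;> rcases μ with _ | _ | _
  · exact Sat.none _
  · rw [h'.2 rfl, min_eq_right hv.1]; exact Sat.false_
  · exact Sat.none _
  · rw [h.2 rfl, min_eq_left hw.1]; exact Sat.false_
  · rw [h.2 rfl, min_eq_left hw.1]; exact Sat.false_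
  · rw [h.2 rfl, min_eq_left hw.1]; exact Sat.false_
  · exact Sat.none _
  · rw [h'.2 rfl, min_eq_right hv.1]; exact Sat.false_
  · rw [h.1 rfl, h'.1 rfl, min_self]; exact Sat.true_

theorem Sat.or {κ μ : K3} {v w : ℚ} (hv : U v) (hw : U w) (h : Sat κ v) (h' : Sat μ w) :
    Sat (k3or κ μ) (max v w) := by
  rcases κ with _ | _ | _ <;> rcases μ with _ | _ | _
  · exact Sat.none _
  · exact Sat.none _
  · rw [h'.1 rfl, max_eq_right hv.2]; exact Sat.true_
  · exact Sat.none _
  · rw [h.2 rfl, h'.2 rfl, max_self]; exact Sat.false_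
  · rw [h.2 rfl, h'.1 rfl, max_eq_right zero_le_one]; exact Sat.true_
  · rw [h.1 rfl, max_eq_left hw.2]; exact Sat.true_
  · rw [h.1 rfl, max_eq_left hw.2]; exact Sat.true_
  · rw [h.1 rfl, max_eq_left hw.2]; exact Sat.true_

/-! ### expressions -/

theorem U_compl {a : PExp} (ha : U (a.eval x)) : U ((compl a).eval x) := by
  rw [eval_compl ha.2]; exact ha.one_sub

theorem U_mn {a b : PExp} (ha : U (a.eval x)) (hb : U (b.eval x)) : U ((mn a b).eval x) := by
  rw [eval_mn ha.1 hb.1]; exact ha.min hb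

theorem U_mx {a b : PExp} (ha : U (a.eval x)) (hb : U (b.eval x)) : U ((mx a b).eval x) := by
  rw [eval_mx ha.2 hb.2]; exact ha.max hb

theorem sat_compl {κ : K3} {a : PExp} (ha : U (a.eval x)) (h : Sat κ (a.eval x)) :
    Sat (k3not κ) ((compl a).eval x) := by
  rw [eval_compl ha.2]; exact h.not

theorem sat_mn {κ μ : K3} {a b : PExp} (ha : U (a.eval x)) (hb : U (b.eval x))
    (h : Sat κ (a.eval x)) (h' : Sat μ (b.eval x)) : Sat (k3and κ μ) ((mn a b).eval x) := by
  rw [eval_mn ha.1 hb.1]; exact h.and ha hb h'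

theorem sat_mx {κ μ : K3} {a b : PExp} (ha : U (a.eval x)) (hb : U (b.eval x))
    (h : Sat κ (a.eval x)) (h' : Sat μ (b.eval x)) : Sat (k3or κ μ) ((mx a b).eval x) := by
  rw [eval_mx ha.2 hb.2]; exact h.or ha hb h'

/-- `muxK s a b`: `a` if `s` is true, `b` if `s` is false, the common value if `s` is indefinite -/
def muxK (s a b : PExp) : PExp := mix s b a

theorem muxK_WF {s a b : PExp} (hs : s.WF K L) (ha : a.WF K L) (hb : b.WF K L) :
    (muxK s a b).WF K L := mix_WF hs hb ha

theorem U_muxK {s a b : PExp} (hs : U (s.eval x)) (ha : U (a.eval x)) (hb : U (b.eval x)) :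
    U ((muxK s a b).eval x) := eval_mix_mem hs hb ha

theorem sat_muxK {σ κ μ : K3} {s a b : PExp} (hs : U (s.eval x)) (ha : U (a.eval x))
    (hb : U (b.eval x)) (h0 : Sat σ (s.eval x)) (h : Sat κ (a.eval x)) (h' : Sat μ (b.eval x)) :
    Sat (k3mux σ κ μ) ((muxK s a b).eval x) := by
  rcases σ with _ | _ | _
  · rcases κ with _ | _ | _ <;> rcases μ with _ | _ | _
    · exact Sat.none _
    · exact Sat.none _
    · exact Sat.none _
    · exact Sat.none _
    · rw [muxK, eval_mix_same hs hb (by rw [h.2 rfl, h'.2 rfl]), h'.2 rfl]; exact Sat.false_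
    · exact Sat.none _
    · exact Sat.none _
    · exact Sat.none _
    · rw [muxK, eval_mix_same hs hb (by rw [h.1 rfl, h'.1 rfl]), h'.1 rfl]; exact Sat.true_
  · rw [muxK, eval_mix_zero (h0.2 rfl) hb ha]
    rcases κ with _ | _ | _ <;> rcases μ with _ | _ | _ <;> exact h'
  · rw [muxK, eval_mix_one (h0.1 rfl) hb ha]
    rcases κ with _ | _ | _ <;> rcases μ with _ | _ | _ <;> exact h

/-- selection between candidates: if every candidate which is possible under `σ` has value `v`,
then the expression has value `v` -/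
theorem muxK_agree {σ : K3} {s a b : PExp} (hs : U (s.eval x)) (ha : U (a.eval x))
    (hb : U (b.eval x)) (h0 : Sat σ (s.eval x)) {v : ℚ}
    (h1 : σ ≠ some false → a.eval x = v) (h2 : σ ≠ some true → b.eval x = v) :
    (muxK s a b).eval x = v := by
  rcases σ with _ | _ | _
  · have h1 := h1 (by simp)
    have h2 := h2 (by simp)
    rw [muxK, eval_mix_same hs hb (by rw [h1, h2]), h2]
  · rw [muxK, eval_mix_zero (h0.2 rfl) hb ha, h2 (by simp)]
  · rw [muxK, eval_mix_one (h0.1 rfl) hb ha, h1 (by simp)]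

/-! ### comparison -/

/-- `cmpE lo n a`: `1` for values `≤ lo`, `0` for values `≥ lo + 1/n` -/
def cmpE (lo : ℚ) (n : ℕ) (a : PExp) : PExp := compl (ramp lo n a)

theorem cmpE_WF {lo : ℚ} (h0 : 0 ≤ lo) (h1 : lo ≤ 1) (n : ℕ) {a : PExp} (ha : a.WF K L) :
    (cmpE lo n a).WF K L := compl_WF (ramp_WF h0 h1 n ha)

theorem U_cmpE (lo : ℚ) (n : ℕ) (a : PExp) : U ((cmpE lo n a).eval x) :=
  U_compl (eval_ramp_mem lo n a)

theorem cmpE_one {lo : ℚ} {n : ℕ} {a : PExp} (h : a.eval x ≤ lo) : (cmpE lo n a).eval x = 1 := by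
  rw [cmpE, eval_compl (eval_ramp_mem lo n a).2, eval_ramp_zero h, sub_zero]

theorem cmpE_zero {lo : ℚ} {n : ℕ} (hn : 0 < n) {a : PExp} (h : lo + 1 / (n : ℚ) ≤ a.eval x) :
    (cmpE lo n a).eval x = 0 := by
  rw [cmpE, eval_compl (eval_ramp_mem lo n a).2, eval_ramp_one hn h, sub_self]

/-- comparison of the real number `m` with the threshold `t`, uncertainty `e`, by an expression whose
value is within `e'` of `m` -/
theorem sat_cmp {e m t e' : ℝ} {lo : ℚ} {n : ℕ} (hn : 0 < n) {a : PExp}
    (hm : |((a.eval x : ℚ) : ℝ) - m| ≤ e') (hlo1 : t - e + e' ≤ (lo : ℝ))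
    (hlo2 : (lo : ℝ) + 1 / (n : ℝ) ≤ t + e - e') : Sat (DefD.cmp e m t) ((cmpE lo n a).eval x) := by
  have hm' := abs_le.1 hm
  unfold DefD.cmp
  split
  · next h =>
    refine ⟨fun _ => cmpE_one ?_, fun h => by simp at h⟩
    have : ((a.eval x : ℚ) : ℝ) ≤ (lo : ℝ) := by linarith
    exact_mod_cast this
  · split
    · next h =>
      refine ⟨fun h => by simp at h, fun _ => cmpE_zero hn ?_⟩
      have : (lo : ℝ) + 1 / (n : ℝ) ≤ ((a.eval x : ℚ) : ℝ) := by linarith
      have h2 : (((lo + 1 / (n : ℚ) : ℚ)) : ℝ) ≤ ((a.eval x : ℚ) : ℝ) := by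
        push_cast
        exact this
      exact Rat.cast_le.1 h2
    · exact Sat.none _

/-! ### Kleene-complete Boolean gates -/

/-- literal -/
def lit (v : PExp) : Bool → PExp
  | true => v
  | false => compl v

theorem lit_WF {v : PExp} (hv : v.WF K L) (b : Bool) : (lit v b).WF K L := by
  cases b
  · exact compl_WF hv
  · exact hv

theorem U_lit {v : PExp} (hv : U (v.eval x)) (b : Bool) : U ((lit v b).eval x) := by
  cases b
  · exact U_compl hv
  · exact hv

theorem lit_one {κ : K3} {v : PExp} (hv : U (v.eval x)) (h : Sat κ (v.eval x)) {b : Bool}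
    (hb : κ = some b) : (lit v b).eval x = 1 := by
  cases b
  · rw [lit, eval_compl hv.2, h.2 hb, sub_zero]
  · rw [lit, h.1 hb]

theorem lit_zero {κ : K3} {v : PExp} (hv : U (v.eval x)) (h : Sat κ (v.eval x)) {b : Bool}
    (hb : κ = some (!b)) : (lit v b).eval x = 0 := by
  cases b
  · rw [lit, eval_compl hv.2, h.1 hb, sub_self]
  · rw [lit, h.2 hb]

section gates

variable {k : ℕ}

/-- `b` completes the partial assignment `σ` -/
def Compl (σ : Fin k → K3) (b : Fin k → Bool) : Prop := ∀ i c, σ i = some c → b i = c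

open Classical in
/-- Kleene extension of a Boolean function -/
noncomputable def k3fun (f : (Fin k → Bool) → Bool) (κ : Fin k → K3) : K3 :=
  if ∀ b, Compl κ b → f b = true then some true
  else if ∀ b, Compl κ b → f b = false then some false else none

/-- an arbitrary completion -/
def fill (σ : Fin k → K3) : Fin k → Bool := fun i => (σ i).getD false

theorem Compl_fill (σ : Fin k → K3) : Compl σ (fill σ) := by
  intro i c h
  simp [fill, h]

open Classical in
/-- implicants of `f` -/
noncomputable def implicants (f : (Fin k → Bool) → Bool) : List (Fin k → K3) :=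
  (Finset.univ.filter fun σ : Fin k → K3 => ∀ b, Compl σ b → f b = true).toList

theorem mem_implicants {f : (Fin k → Bool) → Bool} {σ : Fin k → K3} :
    σ ∈ implicants f ↔ ∀ b, Compl σ b → f b = true := by
  classical
  simp [implicants]

/-- minimum of the literals of a partial assignment -/
def cube (v : Fin k → PExp) (σ : Fin k → K3) : PExp :=
  mnL ((List.finRange k).filterMap fun i => (σ i).map (lit (v i)))

/-- Kleene-complete gate -/
noncomputable def boolK (f : (Fin k → Bool) → Bool) (v : Fin k → PExp) : PExp :=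
  mxL ((implicants f).map (cube v))

theorem mem_cube {v : Fin k → PExp} {σ : Fin k → K3} {a : PExp}
    (h : a ∈ (List.finRange k).filterMap fun i => (σ i).map (lit (v i))) :
    ∃ i c, σ i = some c ∧ a = lit (v i) c := by
  obtain ⟨i, -, hi⟩ := List.mem_filterMap.1 h
  rcases hσ : σ i with _ | c
  · rw [hσ] at hi; simp at hi
  · rw [hσ] at hi
    simp only [Option.map_some, Option.some.injEq] at hi
    exact ⟨i, c, hσ, hi.symm⟩

theorem cube_mem {v : Fin k → PExp} {σ : Fin k → K3} {i : Fin k} {c : Bool} (h : σ i = some c) :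
    lit (v i) c ∈ (List.finRange k).filterMap fun i => (σ i).map (lit (v i)) :=
  List.mem_filterMap.2 ⟨i, List.mem_finRange i, by rw [h]; rfl⟩

theorem cube_WF {v : Fin k → PExp} (hv : ∀ i, (v i).WF K L) (σ : Fin k → K3) :
    (cube v σ).WF K L := by
  refine mnL_WF fun a ha => ?_
  obtain ⟨i, c, -, rfl⟩ := mem_cube ha
  exact lit_WF (hv i) c

theorem boolK_WF (f : (Fin k → Bool) → Bool) {v : Fin k → PExp} (hv : ∀ i, (v i).WF K L) :
    (boolK f v).WF K L := by
  refine mxL_WF fun a ha => ?_
  obtain ⟨σ, -, rfl⟩ := List.mem_map.1 ha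
  exact cube_WF hv σ

theorem U_cube {v : Fin k → PExp} (hv : ∀ i, U ((v i).eval x)) (σ : Fin k → K3) :
    U ((cube v σ).eval x) := by
  refine eval_mnL_mem fun a ha => ?_
  obtain ⟨i, c, -, rfl⟩ := mem_cube ha
  exact U_lit (hv i) c

theorem U_boolK (f : (Fin k → Bool) → Bool) {v : Fin k → PExp} (hv : ∀ i, U ((v i).eval x)) :
    U ((boolK f v).eval x) := by
  refine eval_mxL_mem fun a ha => ?_
  obtain ⟨σ, -, rfl⟩ := List.mem_map.1 ha
  exact U_cube hv σ

/-- the gate has value `1` as soon as `f` is true on all completions -/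
theorem boolK_one {f : (Fin k → Bool) → Bool} {v : Fin k → PExp} {κ : Fin k → K3}
    (hv : ∀ i, U ((v i).eval x)) (h : ∀ i, Sat (κ i) ((v i).eval x))
    (hf : ∀ b, Compl κ b → f b = true) : (boolK f v).eval x = 1 := by
  refine eval_mxL_one (a := cube v κ) (fun a ha => ?_) ?_ ?_
  · obtain ⟨σ, -, rfl⟩ := List.mem_map.1 ha
    exact U_cube hv σ
  · exact List.mem_map_of_mem (mem_implicants.2 hf)
  · refine eval_mnL_one fun a ha => ?_
    obtain ⟨i, c, hc, rfl⟩ := mem_cube ha
    exact lit_one (hv i) (h i) hc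

/-- the gate has value `0` as soon as `f` is false on all completions -/
theorem boolK_zero {f : (Fin k → Bool) → Bool} {v : Fin k → PExp} {κ : Fin k → K3}
    (hv : ∀ i, U ((v i).eval x)) (h : ∀ i, Sat (κ i) ((v i).eval x))
    (hf : ∀ b, Compl κ b → f b = false) : (boolK f v).eval x = 0 := by
  refine eval_mxL_zero fun a ha => ?_
  obtain ⟨σ, hσ, rfl⟩ := List.mem_map.1 ha
  rw [mem_implicants] at hσ
  -- the cube conflicts with `κ`
  have hex : ∃ i c, σ i = some c ∧ κ i = some (!c) := by
    by_contra hno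
    push Not at hno
    let b : Fin k → Bool := fun i => (σ i).getD ((κ i).getD false)
    have hb1 : Compl σ b := by
      intro i c hc
      simp [b, hc]
    have hb2 : Compl κ b := by
      intro i c hc
      rcases hs : σ i with _ | d
      · simp [b, hs, hc]
      · have := hno i d hs
        simp only [b, hs, Option.getD_some]
        rw [hc] at this
        cases c <;> cases d <;> simp_all
    have h1 := hσ b hb1
    have h2 := hf b hb2
    rw [h1] at h2
    simp at h2
  obtain ⟨i, c, hc, hκ⟩ := hex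
  refine eval_mnL_zero (a := lit (v i) c) (fun a ha => ?_) (cube_mem hc) (lit_zero (hv i) (h i) hκ)
  obtain ⟨j, d, -, rfl⟩ := mem_cube ha
  exact U_lit (hv j) d

theorem sat_boolK (f : (Fin k → Bool) → Bool) {v : Fin k → PExp} {κ : Fin k → K3}
    (hv : ∀ i, U ((v i).eval x)) (h : ∀ i, Sat (κ i) ((v i).eval x)) :
    Sat (k3fun f κ) ((boolK f v).eval x) := by
  classical
  unfold k3fun
  split
  · next h1 => exact ⟨fun _ => boolK_one hv h h1, fun h => by simp at h⟩
  · split
    · next h2 => exact ⟨fun h => by simp at h, fun _ => boolK_zero hv h h2⟩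
    · exact Sat.none _

/-- definite inputs -/
theorem boolK_definite (f : (Fin k → Bool) → Bool) {v : Fin k → PExp} {b : Fin k → Bool}
    (h : ∀ i, (v i).eval x = if b i then 1 else 0) :
    (boolK f v).eval x = if f b then 1 else 0 := by
  have hv : ∀ i, U ((v i).eval x) := by
    intro i
    rw [h i]
    cases b i
    · exact ⟨le_rfl, zero_le_one⟩
    · exact ⟨zero_le_one, le_rfl⟩
  have hs : ∀ i, Sat (some (b i)) ((v i).eval x) := by
    intro i
    rw [h i]
    exact Sat.some (b i)
  have hc : ∀ c, Compl (fun i => some (b i)) c → c = b := by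
    intro c hc
    funext i
    exact hc i (b i) rfl
  rcases hf : f b with _ | _
  · rw [boolK_zero hv hs fun c hc' => by rw [hc c hc', hf]]
    simp
  · rw [boolK_one hv hs fun c hc' => by rw [hc c hc', hf]]
    simp

end gates

/-! ### bits -/

/-- bit ramp: `0` for values `≤ 1/4`, `1` for values `≥ 3/4` -/
def bit (v : PExp) : PExp := ramp (1 / 4) 2 v

theorem bit_WF {v : PExp} (hv : v.WF K L) : (bit v).WF K L :=
  ramp_WF (by norm_num) (by norm_num) 2 hv

theorem U_bit (v : PExp) : U ((bit v).eval x) := eval_ramp_mem _ _ _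

theorem bit_zero {v : PExp} (h : v.eval x ≤ 1 / 4) : (bit v).eval x = 0 := eval_ramp_zero h

theorem bit_one {v : PExp} (h : 3 / 4 ≤ v.eval x) : (bit v).eval x = 1 :=
  eval_ramp_one (by norm_num) (by norm_num; linarith)

/-- loose reading of a value -/
def rd (v : ℚ) : K3 := if v ≤ 1 / 4 then some false else if 3 / 4 ≤ v then some true else none

theorem sat_bit (v : PExp) : Sat (rd (v.eval x)) ((bit v).eval x) := by
  unfold rd
  split
  · next h => exact ⟨fun h => by simp at h, fun _ => bit_zero h⟩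
  · split
    · next h => exact ⟨fun _ => bit_one h, fun h => by simp at h⟩
    · exact Sat.none _

/-- indefiniteness flag: `1` for values in `[1/4, 3/4]`, `0` for values `≤ 1/8` or `≥ 7/8` -/
def unsure (v : PExp) : PExp := mn (ramp (1 / 8) 8 v) (compl (ramp (3 / 4) 8 v))

theorem unsure_WF {v : PExp} (hv : v.WF K L) : (unsure v).WF K L :=
  mn_WF (ramp_WF (by norm_num) (by norm_num) 8 hv)
    (compl_WF (ramp_WF (by norm_num) (by norm_num) 8 hv))

theorem U_unsure (v : PExp) : U ((unsure v).eval x) :=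
  U_mn (eval_ramp_mem _ _ _) (U_compl (eval_ramp_mem _ _ _))

theorem unsure_one {v : PExp} (h1 : 1 / 4 ≤ v.eval x) (h2 : v.eval x ≤ 3 / 4) :
    (unsure v).eval x = 1 := by
  have ha : (ramp (1 / 8) 8 v).eval x = 1 := eval_ramp_one (by norm_num) (by norm_num; linarith)
  have hb : (compl (ramp (3 / 4) 8 v)).eval x = 1 := by
    rw [eval_compl (eval_ramp_mem _ _ _).2, eval_ramp_zero h2, sub_zero]
  rw [unsure, eval_mn (by rw [ha]; norm_num) (by rw [hb]; norm_num), ha, hb, min_self]

theorem unsure_zero {v : PExp} (h : v.eval x ≤ 1 / 8 ∨ 7 / 8 ≤ v.eval x) :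
    (unsure v).eval x = 0 := by
  have hu1 : U ((ramp (1 / 8) 8 v).eval x) := eval_ramp_mem _ _ _
  have hu2 : U ((compl (ramp (3 / 4) 8 v)).eval x) := U_compl (eval_ramp_mem _ _ _)
  rw [unsure, eval_mn hu1.1 hu2.1]
  rcases h with h | h
  · rw [eval_ramp_zero h, min_eq_left hu2.1]
  · have hb : (compl (ramp (3 / 4) 8 v)).eval x = 0 := by
      rw [eval_compl (eval_ramp_mem _ _ _).2, eval_ramp_one (by norm_num) (by norm_num; linarith),
        sub_self]
    rw [hb, min_eq_right hu1.1]

end Crest.Agent.R289.Kleene118
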