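import Mathlib
import Crest.Agent.Lib.PT.ListFns2
import Crest.Agent.Lib.PT.Arith

/-!
Row 289, E_KOENIG: a polynomial-time edge colouring of bipartite multigraphs (Koenig) by Kempe
chains.  `ecol es` is the list of colours; if all left and right degrees are at most `D` then all
colours are `< D`, and two different edges with a common left (right) endpoint get different
colours.
-/

set_option autoImplicit false

namespace Crest.Agent.R289.Konig851

open Crest.Agent.Lib.PT

/-- coloured edges: (left end, right end, colour) -/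
abbrev CE := ℕ × ℕ × ℕ

/-- compatibility of two coloured edges -/
def Ok (e e' : CE) : Prop := (e.1 = e'.1 ∨ e.2.1 = e'.2.1) → e.2.2 ≠ e'.2.2

instance ok_symm : Std.Symm Ok where
  symm := by
    intro e e' h h'
    exact fun h2 => h (h'.imp Eq.symm Eq.symm) h2.symm

/-- proper lists -/
def Proper (L : List CE) : Prop := L.Pairwise Ok

theorem Proper.uniq {L : List CE} (h : Proper L) {e e' : CE} (he : e ∈ L) (he' : e' ∈ L)
    (h1 : e.1 = e'.1 ∨ e.2.1 = e'.2.1) (h2 : e.2.2 = e'.2.2) : e = e' := by
  by_contra hne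
  exact h.forall he he' hne h1 h2

/-! ### the least free colour -/

/-- least colour not used by an edge with key `u` -/
def mexC (key : CE → ℕ) (L : List CE) (u : ℕ) : ℕ :=
  ((List.range (L.length + 1)).find? (fun a =>
    L.all (fun e => !(decide (key e = u) && decide (e.2.2 = a))))).getD 0

theorem mexC_spec (key : CE → ℕ) (L : List CE) (u : ℕ) :
    (∀ e ∈ L, key e = u → e.2.2 ≠ mexC key L u) ∧
      mexC key L u ≤ (L.filter (fun e => decide (key e = u))).length := by
  set p : ℕ → Bool := fun a => L.all (fun e => !(decide (key e = u) && decide (e.2.2 = a)))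
    with hp
  have hp' : ∀ a, p a = true ↔ ∀ e ∈ L, key e = u → e.2.2 ≠ a := by
    intro a
    simp only [hp, List.all_eq_true, Bool.not_eq_true', Bool.and_eq_false_iff,
      decide_eq_false_iff_not]
    constructor
    · intro h e he hk
      rcases h e he with h1 | h1
      · exact absurd hk h1
      · exact h1
    · intro h e he
      by_cases hk : key e = u
      · exact Or.inr (h e he hk)
      · exact Or.inl hk
  set n := (L.filter (fun e => decide (key e = u))).length with hn
  have hnL : n ≤ L.length := List.length_filter_le _ _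
  -- some colour `≤ n` is free
  have hex : ∃ a ≤ n, p a = true := by
    by_contra hcon
    push Not at hcon
    have hsub : Finset.range (n + 1) ⊆
        ((L.filter (fun e => decide (key e = u))).map (fun e => e.2.2)).toFinset := by
      intro a ha
      have h1 := hcon a (by simpa using Nat.lt_succ_iff.1 (Finset.mem_range.1 ha))
      have h2 : ¬ ∀ e ∈ L, key e = u → e.2.2 ≠ a := fun h => h1 ((hp' a).2 h)
      push Not at h2
      obtain ⟨e, he, hk, hc⟩ := h2
      simp only [List.mem_toFinset, List.mem_map, List.mem_filter, decide_eq_true_eq]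
      exact ⟨e, ⟨he, hk⟩, hc⟩
    have h1 := Finset.card_le_card hsub
    have h2 := List.toFinset_card_le
      ((L.filter (fun e => decide (key e = u))).map (fun e => e.2.2))
    rw [Finset.card_range] at h1
    rw [List.length_map] at h2
    omega
  obtain ⟨a0, ha0, hpa0⟩ := hex
  have hsome : ((List.range (L.length + 1)).find? p).isSome := by
    rw [List.find?_isSome]
    exact ⟨a0, List.mem_range.2 (by omega), hpa0⟩
  obtain ⟨a, ha⟩ := Option.isSome_iff_exists.1 hsome
  have hm : mexC key L u = a := by
    show ((List.range (L.length + 1)).find? p).getD 0 = a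
    rw [ha]; rfl
  have h1 := List.find?_range_eq_some.1 ha
  obtain ⟨hpa, _, hmin⟩ := h1
  rw [hm]
  refine ⟨(hp' a).1 hpa, ?_⟩
  by_contra hlt
  push Not at hlt
  have := hmin a0 (by omega)
  simp [hpa0] at this

/-! ### the Kempe chain -/

/-- left partner of the right vertex `y` along colour `a` -/
def pa (L : List CE) (a y : ℕ) : Option ℕ :=
  (L.find? (fun e => decide (e.2.1 = y) && decide (e.2.2 = a))).map (fun e => e.1)

/-- right partner of the left vertex `x` along colour `b` -/
def qb (L : List CE) (b x : ℕ) : Option ℕ :=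
  (L.find? (fun e => decide (e.1 = x) && decide (e.2.2 = b))).map (fun e => e.2.1)

theorem pa_some {L : List CE} (h : Proper L) {a y x : ℕ} :
    pa L a y = some x ↔ (x, y, a) ∈ L := by
  unfold pa
  constructor
  · intro h1
    rw [Option.map_eq_some_iff] at h1
    obtain ⟨e, he, hx⟩ := h1
    have h2 := List.mem_of_find?_eq_some he
    have h3 := List.find?_some he
    simp only [Bool.and_eq_true, decide_eq_true_eq] at h3
    obtain ⟨e1, e2, e3⟩ := e
    simp only at h3 hx
    obtain ⟨rfl, rfl⟩ := h3
    subst hx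
    exact h2
  · intro h1
    have hs : (L.find? (fun e => decide (e.2.1 = y) && decide (e.2.2 = a))).isSome := by
      rw [List.find?_isSome]
      exact ⟨_, h1, by simp⟩
    obtain ⟨e, he⟩ := Option.isSome_iff_exists.1 hs
    have h2 := List.mem_of_find?_eq_some he
    have h3 := List.find?_some he
    simp only [Bool.and_eq_true, decide_eq_true_eq] at h3
    have h4 : e = (x, y, a) := h.uniq h2 h1 (Or.inr h3.1) h3.2
    rw [he, h4]; rfl

theorem qb_some {L : List CE} (h : Proper L) {b y x : ℕ} :
    qb L b x = some y ↔ (x, y, b) ∈ L := by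
  unfold qb
  constructor
  · intro h1
    rw [Option.map_eq_some_iff] at h1
    obtain ⟨e, he, hx⟩ := h1
    have h2 := List.mem_of_find?_eq_some he
    have h3 := List.find?_some he
    simp only [Bool.and_eq_true, decide_eq_true_eq] at h3
    obtain ⟨e1, e2, e3⟩ := e
    simp only at h3 hx
    obtain ⟨rfl, rfl⟩ := h3
    subst hx
    exact h2
  · intro h1
    have hs : (L.find? (fun e => decide (e.1 = x) && decide (e.2.2 = b))).isSome := by
      rw [List.find?_isSome]
      exact ⟨_, h1, by simp⟩
    obtain ⟨e, he⟩ := Option.isSome_iff_exists.1 hs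
    have h2 := List.mem_of_find?_eq_some he
    have h3 := List.find?_some he
    simp only [Bool.and_eq_true, decide_eq_true_eq] at h3
    have h4 : e = (x, y, b) := h.uniq h2 h1 (Or.inl h3.1) h3.2
    rw [he, h4]; rfl

/-- next right vertex of the chain -/
def nxt (L : List CE) (a b y : ℕ) : Option ℕ := (pa L a y).bind (qb L b)

theorem nxt_some {L : List CE} (h : Proper L) {a b y z : ℕ} :
    nxt L a b y = some z ↔ ∃ x, (x, y, a) ∈ L ∧ (x, z, b) ∈ L := by
  unfold nxt
  rw [Option.bind_eq_some_iff]
  constructor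
  · rintro ⟨x, h1, h2⟩
    exact ⟨x, (pa_some h).1 h1, (qb_some h).1 h2⟩
  · rintro ⟨x, h1, h2⟩
    exact ⟨x, (pa_some h).2 h1, (qb_some h).2 h2⟩

theorem nxt_inj {L : List CE} (h : Proper L) {a b y y' z : ℕ}
    (h1 : nxt L a b y = some z) (h2 : nxt L a b y' = some z) : y = y' := by
  obtain ⟨x, hx1, hx2⟩ := (nxt_some h).1 h1
  obtain ⟨x', hx1', hx2'⟩ := (nxt_some h).1 h2
  have e1 := h.uniq hx2 hx2' (Or.inr rfl) rfl
  simp only [Prod.mk.injEq] at e1
  obtain ⟨rfl, _⟩ := e1
  have e2 := h.uniq hx1 hx1' (Or.inl rfl) rfl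
  simp only [Prod.mk.injEq] at e2
  exact e2.2.1

/-- the `k`-th right vertex of the chain starting at `v` -/
def itk (L : List CE) (a b v : ℕ) (k : ℕ) : Option ℕ :=
  (fun o : Option ℕ => o.bind (nxt L a b))^[k] (some v)

theorem itk_zero (L : List CE) (a b v : ℕ) : itk L a b v 0 = some v := rfl

theorem itk_succ (L : List CE) (a b v k : ℕ) :
    itk L a b v (k + 1) = (itk L a b v k).bind (nxt L a b) := by
  unfold itk
  rw [Function.iterate_succ_apply']

theorem itk_back {L : List CE} (h : Proper L) {a b v : ℕ} :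
    ∀ (i d z : ℕ), itk L a b v i = some z → itk L a b v (i + d) = some z →
      itk L a b v d = some v
  | 0, d, z, h1, h2 => by
    rw [itk_zero] at h1
    rw [Nat.zero_add] at h2
    rw [h2, ← h1]
  | i + 1, d, z, h1, h2 => by
    rw [itk_succ] at h1
    rw [show i + 1 + d = (i + d) + 1 by ring, itk_succ] at h2
    rw [Option.bind_eq_some_iff] at h1 h2
    obtain ⟨y, hy1, hy2⟩ := h1
    obtain ⟨y', hy1', hy2'⟩ := h2
    have := nxt_inj h hy2 hy2'
    subst this
    exact itk_back h i d y hy1 hy1'

/-- the chain ends after at most `L.length` steps if `v` has no edge of colour `b` -/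
theorem itk_none {L : List CE} (h : Proper L) {a b v : ℕ} (hv : ∀ x, (x, v, b) ∉ L)
    {k : ℕ} (hk : L.length < k) : itk L a b v k = none := by
  by_contra hne
  -- all earlier ones are `some`
  have hsome : ∀ j ≤ k, ∃ z, itk L a b v j = some z := by
    intro j hj
    by_contra hcon
    push Not at hcon
    have hn : itk L a b v j = none := by
      cases hh : itk L a b v j with
      | none => rfl
      | some z => exact absurd hh (hcon z)
    have : ∀ i, itk L a b v (j + i) = none := by
      intro i
      induction i with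
      | zero => exact hn
      | succ i ih => rw [← Nat.add_assoc, itk_succ, ih]; rfl
    have h2 := this (k - j)
    rw [Nat.add_sub_cancel' hj] at h2
    exact hne h2
  choose! z hz using hsome
  -- injectivity
  have hinj : ∀ i j, i ≤ k → j ≤ k → i < j → z i ≠ z j := by
    intro i j hi hj hij he
    have h1 := hz i hi
    have h2 := hz j hj
    rw [← he] at h2
    obtain ⟨d, rfl⟩ := Nat.exists_eq_add_of_lt hij
    have h3 := itk_back h i (d + 1) (z i) h1 (by rw [← Nat.add_assoc]; exact h2)
    rw [itk_succ, Option.bind_eq_some_iff] at h3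
    obtain ⟨y, _, hy⟩ := h3
    obtain ⟨x, _, hx⟩ := (nxt_some h).1 hy
    exact hv x hx
  -- every `z j`, `j < k`, has an edge of colour `a`; map `j ↦` that edge's position
  have hmem : ∀ j < k, z j ∈ (L.map (fun e => e.2.1)).toFinset := by
    intro j hj
    have h1 := hz (j + 1) hj
    rw [itk_succ, hz j hj.le] at h1
    obtain ⟨x, hx, _⟩ := (nxt_some h).1 h1
    simp only [List.mem_toFinset, List.mem_map]
    exact ⟨_, hx, rfl⟩
  have hcard : (Finset.range k).card ≤ ((L.map (fun e => e.2.1)).toFinset).card := by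
    refine Finset.card_le_card_of_injOn z (fun j hj => hmem j (Finset.mem_range.1 hj)) ?_
    intro i hi j hj he
    simp only [Finset.coe_range, Set.mem_Iio] at hi hj
    rcases lt_trichotomy i j with hlt | heq | hgt
    · exact absurd he (hinj i j hi.le hj.le hlt)
    · exact heq
    · exact absurd he.symm (hinj j i hj.le hi.le hgt)
  have h2 := List.toFinset_card_le (L.map (fun e => e.2.1))
  rw [Finset.card_range] at hcard
  rw [List.length_map] at h2
  omega

/-- right vertices of the chain -/
def chain (L : List CE) (a b v : ℕ) : List ℕ :=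
  (List.range (L.length + 1)).filterMap (itk L a b v)

theorem mem_chain {L : List CE} (h : Proper L) {a b v y : ℕ} (hv : ∀ x, (x, v, b) ∉ L) :
    y ∈ chain L a b v ↔ ∃ k, itk L a b v k = some y := by
  unfold chain
  rw [List.mem_filterMap]
  constructor
  · rintro ⟨k, _, hk⟩; exact ⟨k, hk⟩
  · rintro ⟨k, hk⟩
    refine ⟨k, List.mem_range.2 ?_, hk⟩
    by_contra hlt
    push Not at hlt
    rw [itk_none h hv (by omega)] at hk
    exact absurd hk (by simp)

/-- is the edge `e` on the chain? -/
def onCh (L : List CE) (a b : ℕ) (R : List ℕ) (e : CE) : Bool :=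
  (decide (e.2.2 = a) && decide (e.2.1 ∈ R)) ||
    (decide (e.2.2 = b) && L.any (fun e' => decide (e'.1 = e.1) &&
      (decide (e'.2.2 = a) && decide (e'.2.1 ∈ R))))

/-- swap the colours on the chain -/
def swp (L : List CE) (a b : ℕ) (R : List ℕ) (e : CE) : CE :=
  if onCh L a b R e = true then (e.1, e.2.1, if e.2.2 = a then b else a) else e

theorem swp_fst (L : List CE) (a b : ℕ) (R : List ℕ) (e : CE) : (swp L a b R e).1 = e.1 := by
  unfold swp; split <;> rfl

theorem swp_snd (L : List CE) (a b : ℕ) (R : List ℕ) (e : CE) : (swp L a b R e).2.1 = e.2.1 := by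
  unfold swp; split <;> rfl

theorem onCh_iff (L : List CE) (a b : ℕ) (R : List ℕ) (e : CE) :
    onCh L a b R e = true ↔ (e.2.2 = a ∧ e.2.1 ∈ R) ∨
      (e.2.2 = b ∧ ∃ e' ∈ L, e'.1 = e.1 ∧ e'.2.2 = a ∧ e'.2.1 ∈ R) := by
  unfold onCh
  simp only [Bool.or_eq_true, Bool.and_eq_true, decide_eq_true_eq, List.any_eq_true]

/-- one Kempe change -/
def kempe (L : List CE) (a b v : ℕ) : List CE := L.map (swp L a b (chain L a b v))

section kempe

variable {L : List CE} {a b v : ℕ}

theorem chain_closed (h : Proper L) (hv : ∀ x, (x, v, b) ∉ L) {x y z : ℕ}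
    (hy : y ∈ chain L a b v) (h1 : (x, y, a) ∈ L) (h2 : (x, z, b) ∈ L) :
    z ∈ chain L a b v := by
  obtain ⟨k, hk⟩ := (mem_chain h hv).1 hy
  refine (mem_chain h hv).2 ⟨k + 1, ?_⟩
  rw [itk_succ, hk]
  exact (nxt_some h).2 ⟨x, h1, h2⟩

theorem chain_back (h : Proper L) (hv : ∀ x, (x, v, b) ∉ L) {x z : ℕ}
    (hz : z ∈ chain L a b v) (h2 : (x, z, b) ∈ L) :
    ∃ y, y ∈ chain L a b v ∧ (x, y, a) ∈ L := by
  obtain ⟨k, hk⟩ := (mem_chain h hv).1 hz
  cases k with
  | zero =>
    rw [itk_zero] at hk
    have : v = z := by simpa using hk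
    subst this
    exact absurd h2 (hv x)
  | succ k =>
    rw [itk_succ, Option.bind_eq_some_iff] at hk
    obtain ⟨y, hy, hn⟩ := hk
    obtain ⟨x', h1, h3⟩ := (nxt_some h).1 hn
    have := h.uniq h2 h3 (Or.inr rfl) rfl
    simp only [Prod.mk.injEq] at this
    obtain ⟨rfl, _⟩ := this
    exact ⟨y, (mem_chain h hv).2 ⟨k, hy⟩, h1⟩

theorem start_mem (h : Proper L) (hv : ∀ x, (x, v, b) ∉ L) : v ∈ chain L a b v :=
  (mem_chain h hv).2 ⟨0, rfl⟩

/-- the two edges `a`, `b` at a common endpoint are both on or both off the chain -/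
theorem onCh_iff_onCh (h : Proper L) (hv : ∀ x, (x, v, b) ∉ L) {e e' : CE}
    (hab : a ≠ b) (he : e ∈ L) (he' : e' ∈ L) (hc : e.2.2 = a) (hc' : e'.2.2 = b)
    (hs : e.1 = e'.1 ∨ e.2.1 = e'.2.1) :
    onCh L a b (chain L a b v) e = true ↔ onCh L a b (chain L a b v) e' = true := by
  obtain ⟨x, y, c⟩ := e
  obtain ⟨x', y', c'⟩ := e'
  simp only at hc hc' hs
  subst hc hc'
  rw [onCh_iff, onCh_iff]
  dsimp only
  constructor
  · rintro (⟨_, hy⟩ | ⟨hcb, _⟩)
    · refine Or.inr ⟨rfl, ?_⟩
      rcases hs with rfl | rfl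
      · exact ⟨_, he, rfl, rfl, hy⟩
      · obtain ⟨y2, hy2, hm⟩ := chain_back h hv hy he'
        exact ⟨_, hm, rfl, rfl, hy2⟩
    · exact absurd hcb hab
  · rintro (⟨hcb, _⟩ | ⟨_, e2, he2, h1, h2, h3⟩)
    · exact absurd hcb.symm hab
    · refine Or.inl ⟨rfl, ?_⟩
      obtain ⟨x2, y2, c2⟩ := e2
      simp only at h1 h2 h3
      subst h1 h2
      rcases hs with rfl | rfl
      · have := h.uniq he he2 (Or.inl rfl) rfl
        simp only [Prod.mk.injEq] at this
        rw [this.2.1]; exact h3
      · exact chain_closed h hv h3 he2 he'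

theorem onCh_col {R : List ℕ} {e : CE} (h : onCh L a b R e = true) : e.2.2 = a ∨ e.2.2 = b := by
  rw [onCh_iff] at h
  rcases h with h | h
  · exact Or.inl h.1
  · exact Or.inr h.1

theorem kempe_proper (h : Proper L) (hv : ∀ x, (x, v, b) ∉ L) (hab : a ≠ b) :
    Proper (kempe L a b v) := by
  unfold Proper kempe
  rw [List.pairwise_map]
  refine List.Pairwise.imp_of_mem ?_ h
  intro e e' he he' hok hs
  rw [swp_fst, swp_fst, swp_snd, swp_snd] at hs
  have hne := hok hs
  unfold swp
  by_cases h1 : onCh L a b (chain L a b v) e = true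
  · rw [if_pos h1]
    by_cases h2 : onCh L a b (chain L a b v) e' = true
    · rw [if_pos h2]
      simp only
      rcases onCh_col h1 with c1 | c1 <;> rcases onCh_col h2 with c2 | c2
      · exact absurd (c1.trans c2.symm) hne
      · rw [if_pos c1, if_neg (by rw [c2]; exact hab.symm)]; exact hab.symm
      · rw [if_pos c2, if_neg (by rw [c1]; exact hab.symm)]; exact hab
      · exact absurd (c1.trans c2.symm) hne
    · rw [if_neg h2]
      simp only
      rcases onCh_col h1 with c1 | c1
      · rw [if_pos c1]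
        intro hcb
        exact h2 ((onCh_iff_onCh h hv hab he he' c1 hcb.symm hs).1 h1)
      · rw [if_neg (by rw [c1]; exact hab.symm)]
        intro hca
        exact h2 ((onCh_iff_onCh h hv hab he' he hca.symm c1 (hs.imp Eq.symm Eq.symm)).2 h1)
  · rw [if_neg h1]
    by_cases h2 : onCh L a b (chain L a b v) e' = true
    · rw [if_pos h2]
      simp only
      rcases onCh_col h2 with c2 | c2
      · rw [if_pos c2]
        intro hcb
        exact h1 ((onCh_iff_onCh h hv hab he' he c2 hcb (hs.imp Eq.symm Eq.symm)).1 h2)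
      · rw [if_neg (by rw [c2]; exact hab.symm)]
        intro hca
        exact h1 ((onCh_iff_onCh h hv hab he he' hca c2 hs).2 h2)
    · rw [if_neg h2]
      exact hne

theorem kempe_right (h : Proper L) (hv : ∀ x, (x, v, b) ∉ L) (hab : a ≠ b) :
    ∀ e ∈ kempe L a b v, e.2.1 = v → e.2.2 ≠ a := by
  intro e he hev
  unfold kempe at he
  rw [List.mem_map] at he
  obtain ⟨e0, he0, rfl⟩ := he
  rw [swp_snd] at hev
  unfold swp
  have key : e0.2.2 = a → onCh L a b (chain L a b v) e0 = true := by
    intro hc
    rw [onCh_iff]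
    exact Or.inl ⟨hc, by rw [hev]; exact start_mem h hv⟩
  split
  · rename_i hon
    simp only
    rcases onCh_col hon with c | c
    · rw [if_pos c]; exact hab.symm
    · exfalso
      obtain ⟨x, y, c'⟩ := e0
      simp only at c hev
      subst c hev
      exact hv x he0
  · rename_i hon
    intro hc
    exact hon (key hc)

theorem kempe_left {u : ℕ} (hu : ∀ e ∈ L, e.1 = u → e.2.2 ≠ a) :
    ∀ e ∈ kempe L a b v, e.1 = u → e.2.2 ≠ a := by
  intro e he heu
  unfold kempe at he
  rw [List.mem_map] at he
  obtain ⟨e0, he0, rfl⟩ := he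
  rw [swp_fst] at heu
  unfold swp
  split
  · rename_i hon
    simp only
    rw [onCh_iff] at hon
    rcases hon with ⟨hc, _⟩ | ⟨hc, e', he', h1, h2, _⟩
    · exact absurd hc (hu e0 he0 heu)
    · exact absurd h2 (hu e' he' (h1.trans heu))
  · exact hu e0 he0 heu

theorem kempe_len : (kempe L a b v).map (fun e => (e.1, e.2.1)) = L.map (fun e => (e.1, e.2.1)) := by
  unfold kempe
  rw [List.map_map]
  refine List.map_congr_left fun e _ => ?_
  simp only [Function.comp]
  rw [swp_fst, swp_snd]

theorem kempe_lt {D : ℕ} (hL : ∀ e ∈ L, e.2.2 < D) (ha : a < D) (hb : b < D) :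
    ∀ e ∈ kempe L a b v, e.2.2 < D := by
  intro e he
  unfold kempe at he
  rw [List.mem_map] at he
  obtain ⟨e0, he0, rfl⟩ := he
  unfold swp
  split
  · simp only
    split
    · exact hb
    · exact ha
  · exact hL e0 he0

end kempe

/-! ### inserting an edge -/

/-- insert an edge -/
def ins (L : List CE) (e : ℕ × ℕ) : List CE :=
  let a := mexC (fun e => e.1) L e.1
  let b := mexC (fun e => e.2.1) L e.2
  (if a = b then L else kempe L a b e.2) ++ [(e.1, e.2, a)]

/-- the coloured list -/
def clist (es : List (ℕ × ℕ)) : List CE := es.foldl ins []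

/-- the colours -/
def ecol (es : List (ℕ × ℕ)) : List ℕ := (clist es).map (fun e => e.2.2)

theorem ins_spec {D : ℕ} {L : List CE} {e : ℕ × ℕ} (h : Proper L) (hD : ∀ e ∈ L, e.2.2 < D)
    (hl : (L.filter (fun e' => decide (e'.1 = e.1))).length < D)
    (hr : (L.filter (fun e' => decide (e'.2.1 = e.2))).length < D) :
    Proper (ins L e) ∧ (∀ e' ∈ ins L e, e'.2.2 < D) ∧
      (ins L e).map (fun e => (e.1, e.2.1)) = L.map (fun e => (e.1, e.2.1)) ++ [e] := by
  obtain ⟨ha1, ha2⟩ := mexC_spec (fun e => e.1) L e.1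
  obtain ⟨hb1, hb2⟩ := mexC_spec (fun e => e.2.1) L e.2
  set a := mexC (fun e => e.1) L e.1 with hadef
  set b := mexC (fun e => e.2.1) L e.2 with hbdef
  have hins : ins L e = (if a = b then L else kempe L a b e.2) ++ [(e.1, e.2, a)] := rfl
  have haD : a < D := lt_of_le_of_lt ha2 hl
  have hbD : b < D := lt_of_le_of_lt hb2 hr
  rw [hins]
  by_cases hab : a = b
  · rw [if_pos hab]
    refine ⟨?_, ?_, ?_⟩
    · unfold Proper
      rw [List.pairwise_append]
      refine ⟨h, List.pairwise_singleton _ _, ?_⟩
      intro e1 he1 e2 he2 hs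
      rw [List.mem_singleton] at he2
      subst he2
      simp only at hs ⊢
      rcases hs with hs | hs
      · exact ha1 e1 he1 hs
      · rw [hab]; exact hb1 e1 he1 hs
    · intro e1 he1
      rw [List.mem_append, List.mem_singleton] at he1
      rcases he1 with he1 | rfl
      · exact hD e1 he1
      · exact haD
    · rw [List.map_append]; rfl
  · rw [if_neg hab]
    have hv : ∀ x, (x, e.2, b) ∉ L := fun x hx => hb1 _ hx rfl rfl
    refine ⟨?_, ?_, ?_⟩
    · unfold Proper
      rw [List.pairwise_append]
      refine ⟨kempe_proper h hv hab, List.pairwise_singleton _ _, ?_⟩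
      intro e1 he1 e2 he2 hs
      rw [List.mem_singleton] at he2
      subst he2
      simp only at hs ⊢
      rcases hs with hs | hs
      · exact kempe_left ha1 e1 he1 hs
      · exact kempe_right h hv hab e1 he1 hs
    · intro e1 he1
      rw [List.mem_append, List.mem_singleton] at he1
      rcases he1 with he1 | rfl
      · exact kempe_lt hD haD hbD e1 he1
      · exact haD
    · rw [List.map_append, kempe_len]; rfl

theorem foldl_spec {D : ℕ} : ∀ (es : List (ℕ × ℕ)) (L : List CE), Proper L →
    (∀ e ∈ L, e.2.2 < D) →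
    (∀ u, ((L.map (fun e => (e.1, e.2.1)) ++ es).filter (fun e => decide (e.1 = u))).length ≤ D) →
    (∀ v, ((L.map (fun e => (e.1, e.2.1)) ++ es).filter (fun e => decide (e.2 = v))).length ≤ D) →
    Proper (es.foldl ins L) ∧ (∀ e' ∈ es.foldl ins L, e'.2.2 < D) ∧
      (es.foldl ins L).map (fun e => (e.1, e.2.1)) = L.map (fun e => (e.1, e.2.1)) ++ es
  | [], L, h, hD, _, _ => ⟨h, hD, by simp⟩
  | e :: es, L, h, hD, hl, hr => by
    rw [List.foldl_cons]
    have hl1 : (L.filter (fun e' => decide (e'.1 = e.1))).length < D := by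
      have h1 := hl e.1
      rw [List.filter_append, List.length_append, List.filter_cons_of_pos (by simp),
        List.length_cons, List.filter_map, List.length_map] at h1
      have h2 : (L.filter ((fun e' : ℕ × ℕ => decide (e'.1 = e.1)) ∘ fun e => (e.1, e.2.1))).length
          = (L.filter (fun e' => decide (e'.1 = e.1))).length := rfl
      omega
    have hr1 : (L.filter (fun e' => decide (e'.2.1 = e.2))).length < D := by
      have h1 := hr e.2
      rw [List.filter_append, List.length_append, List.filter_cons_of_pos (by simp),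
        List.length_cons, List.filter_map, List.length_map] at h1
      have h2 : (L.filter ((fun e' : ℕ × ℕ => decide (e'.2 = e.2)) ∘ fun e => (e.1, e.2.1))).length
          = (L.filter (fun e' => decide (e'.2.1 = e.2))).length := rfl
      omega
    obtain ⟨g1, g2, g3⟩ := ins_spec h hD hl1 hr1
    have ih := foldl_spec es (ins L e) g1 g2
      (by intro u; rw [g3, List.append_assoc]; exact hl u)
      (by intro v; rw [g3, List.append_assoc]; exact hr v)
    refine ⟨ih.1, ih.2.1, ?_⟩
    rw [ih.2.2, g3, List.append_assoc]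
    rfl

/-- **Koenig's theorem**, algorithmic form. -/
theorem ecol_spec {D : ℕ} {es : List (ℕ × ℕ)}
    (hl : ∀ u, (es.filter (fun e => decide (e.1 = u))).length ≤ D)
    (hr : ∀ v, (es.filter (fun e => decide (e.2 = v))).length ≤ D) :
    (ecol es).length = es.length ∧ (∀ c ∈ ecol es, c < D) ∧
      ∀ i j : ℕ, i < es.length → j < es.length → i ≠ j →
        ((es.getD i (0, 0)).1 = (es.getD j (0, 0)).1 ∨
          (es.getD i (0, 0)).2 = (es.getD j (0, 0)).2) →
        (ecol es).getD i 0 ≠ (ecol es).getD j 0 := by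
  obtain ⟨h1, h2, h3⟩ := foldl_spec (D := D) es [] List.Pairwise.nil (by simp)
    (by simpa using hl) (by simpa using hr)
  change Proper (clist es) at h1
  change ∀ e' ∈ clist es, e'.2.2 < D at h2
  change (clist es).map (fun e => (e.1, e.2.1)) = _ at h3
  rw [List.map_nil, List.nil_append] at h3
  have hlen : (clist es).length = es.length := by
    have := congrArg List.length h3
    rwa [List.length_map] at this
  refine ⟨by unfold ecol; rw [List.length_map, hlen], ?_, ?_⟩
  · intro c hc
    unfold ecol at hc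
    rw [List.mem_map] at hc
    obtain ⟨e, he, rfl⟩ := hc
    exact h2 e he
  · intro i j hi hj hij hs
    have hi' : i < (clist es).length := by omega
    have hj' : j < (clist es).length := by omega
    have ei : es.getD i (0, 0) = ((clist es)[i].1, (clist es)[i].2.1) := by
      rw [List.getD_eq_getElem _ _ hi]
      have : es[i] = ((clist es).map (fun e => (e.1, e.2.1)))[i]'(by simpa using hi') := by
        simp only [h3]
      rw [this, List.getElem_map]
    have ej : es.getD j (0, 0) = ((clist es)[j].1, (clist es)[j].2.1) := by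
      rw [List.getD_eq_getElem _ _ hj]
      have : es[j] = ((clist es).map (fun e => (e.1, e.2.1)))[j]'(by simpa using hj') := by
        simp only [h3]
      rw [this, List.getElem_map]
    rw [ei, ej] at hs
    simp only at hs
    unfold ecol
    rw [List.getD_eq_getElem _ _ (by simpa using hi'), List.getD_eq_getElem _ _ (by simpa using hj'),
      List.getElem_map, List.getElem_map]
    have hp := List.pairwise_iff_getElem.1 h1
    rcases lt_or_gt_of_ne hij with hlt | hgt
    · exact hp i j hi' hj' hlt hs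
    · exact (hp j i hj' hi' hgt (hs.imp Eq.symm Eq.symm)).symm

/-! ### polynomial time -/

section ptf

variable {γ : Type} [PTCode γ]

theorem mexC_le (key : CE → ℕ) (L : List CE) (u : ℕ) : mexC key L u ≤ L.length :=
  (mexC_spec key L u).2.trans (List.length_filter_le _ _)

theorem ptf_decEq {f g : γ → ℕ} (hf : PTF f) (hg : PTF g) : PTF (fun c => decide (f c = g c)) :=
  (PTPred.natEq hf hg).toPTF

theorem ptf_mexC {key : CE → ℕ} (hk : PTF key) {L : γ → List CE} (hL : PTF L) {u : γ → ℕ}
    (hu : PTF u) : PTF (fun c => mexC key (L c) (u c)) := by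
  unfold mexC
  refine PTF.optionGetD (PTF.find? (p := fun (c : γ) (a : ℕ) =>
    (L c).all (fun e => !(decide (key e = u c) && decide (e.2.2 = a)))) (PTF.range ?_) ?_)
    (PTF.const 0)
  · fun_prop
  · refine PTF.all (p := fun (q : γ × ℕ) (e : CE) =>
      !(decide (key e = u q.1) && decide (e.2.2 = q.2))) (by fun_prop) ?_
    refine PTF.not (PTF.and (ptf_decEq ?_ ?_) (ptf_decEq ?_ ?_))
    · exact PTF.comp hk (by fun_prop)
    · fun_prop
    · fun_prop
    · fun_prop

theorem ptf_pa : PTF (fun q : List CE × ℕ × ℕ => pa q.1 q.2.1 q.2.2) := by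
  unfold pa
  refine PTF.optionMap (g := fun (_ : List CE × ℕ × ℕ) (e : CE) => e.1)
    (PTF.find? (p := fun (q : List CE × ℕ × ℕ) (e : CE) =>
      decide (e.2.1 = q.2.2) && decide (e.2.2 = q.2.1)) (by fun_prop) ?_) (PTF.comp PTF.fst PTF.snd)
  exact PTF.and (ptf_decEq (by fun_prop) (by fun_prop)) (ptf_decEq (by fun_prop) (by fun_prop))

theorem ptf_qb : PTF (fun q : List CE × ℕ × ℕ => qb q.1 q.2.1 q.2.2) := by
  unfold qb
  refine PTF.optionMap (g := fun (_ : List CE × ℕ × ℕ) (e : CE) => e.2.1)
    (PTF.find? (p := fun (q : List CE × ℕ × ℕ) (e : CE) =>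
      decide (e.1 = q.2.2) && decide (e.2.2 = q.2.1)) (by fun_prop) ?_)
    (PTF.comp PTF.fst (PTF.comp PTF.snd PTF.snd))
  exact PTF.and (ptf_decEq (by fun_prop) (by fun_prop)) (ptf_decEq (by fun_prop) (by fun_prop))

/-- parameters of a chain: `(L, a, b, v)` -/
abbrev CP := List CE × ℕ × ℕ × ℕ

theorem ptf_nxt : PTF (fun q : CP => nxt q.1 q.2.1 q.2.2.1 q.2.2.2) := by
  unfold nxt
  refine PTF.optionBind (g := fun (q : CP) (x : ℕ) => qb q.1 q.2.2.1 x) ?_ ?_
  · exact PTF.comp ptf_pa (f := fun q : CP => (q.1, q.2.1, q.2.2.2)) (by fun_prop)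
  · exact PTF.comp ptf_qb (f := fun q : CP × ℕ => (q.1.1, q.1.2.2.1, q.2)) (by fun_prop)

theorem sz_qb_le {L : List CE} {b x z : ℕ} (h : qb L b x = some z) : sz z ≤ sz L := by
  unfold qb at h
  rw [Option.map_eq_some_iff] at h
  obtain ⟨e, he, rfl⟩ := h
  have h1 := sz_mem_le (List.mem_of_find?_eq_some he)
  obtain ⟨x, y, c⟩ := e
  simp only [sz_prod] at h1 ⊢
  omega

theorem sz_nxt_le {L : List CE} {a b y z : ℕ} (h : nxt L a b y = some z) : sz z ≤ sz L := by
  unfold nxt at h
  rw [Option.bind_eq_some_iff] at h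
  obtain ⟨x, _, h2⟩ := h
  exact sz_qb_le h2

theorem ptf_itk : PTF (fun q : CP × ℕ => itk q.1.1 q.1.2.1 q.1.2.2.1 q.1.2.2.2
    (min q.2 (q.1.1.length + 1))) := by
  unfold itk
  refine PTF.iterate' (n := fun q : CP × ℕ => min q.2 (q.1.1.length + 1))
    (f := fun (q : CP × ℕ) (o : Option ℕ) => o.bind (nxt q.1.1 q.1.2.1 q.1.2.2.1))
    (a := fun q : CP × ℕ => some q.1.2.2.2) ?_ ?_ (by fun_prop)
    (B := fun q => sz q.1.2.2.2 + sz q.1.1 + 1) ?_ ?_
  · exact PTF.natMinUn (by fun_prop) (by fun_prop)
  · refine PTF.optionBind (s := fun p : (CP × ℕ) × Option ℕ => p.2)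
      (g := fun p y => nxt p.1.1.1 p.1.1.2.1 p.1.1.2.2.1 y) (by fun_prop) ?_
    exact PTF.comp ptf_nxt (f := fun p : ((CP × ℕ) × Option ℕ) × ℕ =>
      (p.1.1.1.1, p.1.1.1.2.1, p.1.1.1.2.2.1, p.2)) (by fun_prop)
  · have h1 : PTF (fun q : CP × ℕ => q.1.2.2.2) := by fun_prop
    have h2 : PTF (fun q : CP × ℕ => q.1.1) := by fun_prop
    have := h1.sz
    have := h2.sz
    fun_prop
  · intro q i _
    cases i with
    | zero =>
      simp only [Function.iterate_zero, id_eq, sz_some]
      omega
    | succ i =>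
      rw [Function.iterate_succ_apply']
      cases ho : (fun o : Option ℕ => o.bind (nxt q.1.1 q.1.2.1 q.1.2.2.1))^[i]
        (some q.1.2.2.2) with
      | none => simp
      | some y =>
        simp only [Option.bind_some]
        cases hn : nxt q.1.1 q.1.2.1 q.1.2.2.1 y with
        | none => simp
        | some z =>
          have := sz_nxt_le hn
          simp only [sz_some]
          omega

theorem ptf_chain : PTF (fun q : CP => chain q.1 q.2.1 q.2.2.1 q.2.2.2) := by
  have h : PTF (fun q : CP => (List.range (q.1.length + 1)).filterMap (fun k =>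
      itk q.1 q.2.1 q.2.2.1 q.2.2.2 (min k (q.1.length + 1)))) := by
    refine PTF.filterMap (f := fun (q : CP) (k : ℕ) =>
      itk q.1 q.2.1 q.2.2.1 q.2.2.2 (min k (q.1.length + 1))) (PTF.range (by fun_prop)) ptf_itk
  refine h.of_eq (fun q => ?_)
  unfold chain
  refine List.filterMap_congr (fun k hk => ?_)
  rw [min_eq_left (List.mem_range.1 hk).le]

theorem ptf_kempe : PTF (fun q : CP => kempe q.1 q.2.1 q.2.2.1 q.2.2.2) := by
  unfold kempe
  refine PTF.comp (g := fun p : CP × List ℕ => p.1.1.map (swp p.1.1 p.1.2.1 p.1.2.2.1 p.2))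
    (f := fun q : CP => (q, chain q.1 q.2.1 q.2.2.1 q.2.2.2)) ?_ (PTF.prodMk (by fun_prop) ptf_chain)
  refine PTF.map (f := fun (p : CP × List ℕ) (e : CE) => swp p.1.1 p.1.2.1 p.1.2.2.1 p.2 e)
    (by fun_prop) ?_
  have hon : PTF (fun z : (CP × List ℕ) × CE => onCh z.1.1.1 z.1.1.2.1 z.1.1.2.2.1 z.1.2 z.2) := by
    unfold onCh
    refine PTF.or (PTF.and (ptf_decEq (by fun_prop) (by fun_prop))
      (PTPred.mem (by fun_prop) (by fun_prop)).toPTF) (PTF.and
      (ptf_decEq (by fun_prop) (by fun_prop)) ?_)
    refine PTF.any (p := fun (z : (CP × List ℕ) × CE) (e' : CE) =>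
      decide (e'.1 = z.2.1) && (decide (e'.2.2 = z.1.1.2.1) && decide (e'.2.1 ∈ z.1.2)))
      (by fun_prop) ?_
    exact PTF.and (ptf_decEq (by fun_prop) (by fun_prop)) (PTF.and
      (ptf_decEq (by fun_prop) (by fun_prop)) (PTPred.mem (by fun_prop) (by fun_prop)).toPTF)
  have h2 : PTF (fun z : (CP × List ℕ) × CE =>
      if z.2.2.2 = z.1.1.2.1 then z.1.1.2.2.1 else z.1.1.2.1) :=
    PTF.ite (PTPred.natEq (by fun_prop) (by fun_prop)) (by fun_prop) (by fun_prop)
  exact PTF.ite (PTF.toPTPred hon) (by fun_prop) (by fun_prop)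

theorem ptf_ins : PTF (fun q : List CE × ℕ × ℕ => ins q.1 q.2) := by
  unfold ins
  have ha : PTF (fun q : List CE × ℕ × ℕ => mexC (fun e => e.1) q.1 q.2.1) :=
    ptf_mexC (by fun_prop) (by fun_prop) (by fun_prop)
  have hb : PTF (fun q : List CE × ℕ × ℕ => mexC (fun e => e.2.1) q.1 q.2.2) :=
    ptf_mexC (by fun_prop) (by fun_prop) (by fun_prop)
  refine PTF.append (PTF.ite (PTPred.natEq ha hb) (by fun_prop) ?_) (by fun_prop)
  exact PTF.comp ptf_kempe (f := fun q : List CE × ℕ × ℕ =>
    (q.1, mexC (fun e => e.1) q.1 q.2.1, mexC (fun e => e.2.1) q.1 q.2.2, q.2.2)) (by fun_prop)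

theorem ins_map (L : List CE) (e : ℕ × ℕ) :
    (ins L e).map (fun e => (e.1, e.2.1)) = L.map (fun e => (e.1, e.2.1)) ++ [e] := by
  unfold ins
  simp only
  split
  · rw [List.map_append]; rfl
  · rw [List.map_append, kempe_len]; rfl

theorem ins_length (L : List CE) (e : ℕ × ℕ) : (ins L e).length = L.length + 1 := by
  have := congrArg List.length (ins_map L e)
  simpa using this

theorem ins_le {M : ℕ} {L : List CE} (hL : ∀ e ∈ L, e.2.2 ≤ M) (hM : L.length ≤ M) (e : ℕ × ℕ) :
    ∀ e' ∈ ins L e, e'.2.2 ≤ M := by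
  have ha := mexC_le (fun e => e.1) L e.1
  have hb := mexC_le (fun e => e.2.1) L e.2
  intro e' he'
  unfold ins at he'
  simp only at he'
  rw [List.mem_append] at he'
  rcases he' with he' | he'
  · split at he'
    · exact hL _ he'
    · have := kempe_lt (D := M + 1) (v := e.2) (fun e he => Nat.lt_succ_of_le (hL e he))
        (a := mexC (fun e => e.1) L e.1) (b := mexC (fun e => e.2.1) L e.2)
        (by omega) (by omega) e' he'
      omega
  · rw [List.mem_singleton] at he'
    subst he'
    simp only
    omega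

theorem foldl_bound {M : ℕ} : ∀ (es : List (ℕ × ℕ)) (L : List CE), (∀ e ∈ L, e.2.2 ≤ M) →
    L.length + es.length ≤ M → (∀ e' ∈ es.foldl ins L, e'.2.2 ≤ M) ∧
      (es.foldl ins L).map (fun e => (e.1, e.2.1)) = L.map (fun e => (e.1, e.2.1)) ++ es
  | [], L, h, _ => ⟨h, by simp⟩
  | e :: es, L, h, hM => by
    rw [List.length_cons] at hM
    rw [List.foldl_cons]
    obtain ⟨h1, h2⟩ := foldl_bound es (ins L e) (ins_le h (by omega) e)
      (by rw [ins_length]; omega)
    refine ⟨h1, ?_⟩
    rw [h2, ins_map, List.append_assoc]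
    rfl

theorem sz_clist_le (es : List (ℕ × ℕ)) :
    sz (clist es) ≤ sz es * (2 * (3 * sz es + 2) + 1) := by
  obtain ⟨h1, h2⟩ := foldl_bound (M := es.length) es [] (by simp) (by simp)
  change ∀ e' ∈ clist es, e'.2.2 ≤ es.length at h1
  change (clist es).map (fun e => (e.1, e.2.1)) = _ at h2
  rw [List.map_nil, List.nil_append] at h2
  have hlen : (clist es).length = es.length := by
    have := congrArg List.length h2
    rwa [List.length_map] at this
  have h3 : ∀ e ∈ clist es, sz e ≤ 3 * sz es + 2 := by
    intro e he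
    have h4 : (e.1, e.2.1) ∈ es := by
      rw [← h2]
      exact List.mem_map.2 ⟨e, he, rfl⟩
    have h5 := sz_mem_le h4
    have h6 := h1 e he
    have h7 := length_le_sz es
    have h8 := sz_nat_le e.2.2
    obtain ⟨x, y, c⟩ := e
    simp only [sz_prod] at h5 h6 h8 ⊢
    omega
  refine (sz_list_le h3).trans (Nat.mul_le_mul_right _ ?_)
  rw [hlen]
  exact length_le_sz es

theorem ptf_clist : PTF clist := by
  unfold clist
  refine PTF.foldl (l := fun es : List (ℕ × ℕ) => es)
    (f := fun (_ : List (ℕ × ℕ)) (L : List CE) (e : ℕ × ℕ) => ins L e) (by fun_prop) ?_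
    (PTF.const _) (B := fun es => sz es * (2 * (3 * sz es + 2) + 1)) ?_ ?_
  · exact PTF.comp ptf_ins (f := fun p : List (ℕ × ℕ) × List CE × ℕ × ℕ => p.2) (by fun_prop)
  · have h1 : PB (fun es : List (ℕ × ℕ) => sz es) := PB.sz
    fun_prop
  · intro es i _
    change sz (clist (es.take i)) ≤ _
    have h1 := sz_clist_le (es.take i)
    have h2 := sz_take_le es i
    refine h1.trans (Nat.mul_le_mul h2 ?_)
    omega

/-- **polynomial-time Koenig edge colouring**. -/
theorem ptf_ecol : PTF ecol := by
  unfold ecol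
  exact PTF.map (f := fun (_ : List (ℕ × ℕ)) (e : CE) => e.2.2) ptf_clist
    (PTF.comp PTF.snd (PTF.comp PTF.snd PTF.snd))

end ptf

/-! ### a permutation of `R × C` is (row permutation)(column permutation)(row permutation) -/

theorem filter_div_le {l : List ℕ} (hl : l.Nodup) {C : ℕ} (hC : 0 < C) (v : ℕ) :
    (l.filter (fun d => decide (d / C = v))).length ≤ C := by
  have h1 : (l.filter (fun d => decide (d / C = v))).Nodup := hl.filter _
  rw [← List.toFinset_card_of_nodup h1]
  have h2 : (l.filter (fun d => decide (d / C = v))).toFinset ⊆ Finset.Ico (v * C) (v * C + C) := by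
    intro d hd
    rw [List.mem_toFinset, List.mem_filter, decide_eq_true_eq] at hd
    rw [Finset.mem_Ico]
    have h3 := Nat.div_add_mod d C
    have h4 := Nat.mod_lt d hC
    rw [hd.2, mul_comm] at h3
    omega
  refine (Finset.card_le_card h2).trans ?_
  rw [Nat.card_Ico]
  omega

/-- the row-to-row multigraph of the permutation `i ↦ dst i` -/
def redges (C : ℕ) (dst : List ℕ) : List (ℕ × ℕ) :=
  ((List.range dst.length).zip dst).map (fun p => (p.1 / C, p.2 / C))

/-- intermediate columns -/
def mid (C : ℕ) (dst : List ℕ) : List ℕ := ecol (redges C dst)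

theorem redges_length (C : ℕ) (dst : List ℕ) : (redges C dst).length = dst.length := by
  unfold redges
  rw [List.length_map, List.length_zip, List.length_range, min_self]

theorem redges_getD (C : ℕ) (dst : List ℕ) {i : ℕ} (hi : i < dst.length) :
    (redges C dst).getD i (0, 0) = (i / C, dst.getD i 0 / C) := by
  rw [List.getD_eq_getElem _ _ (by rw [redges_length]; exact hi)]
  unfold redges
  rw [List.getElem_map, List.getElem_zip, List.getElem_range, List.getD_eq_getElem _ _ hi]

/-- **routing**: `mid` sends the item at `i` to column `mid i` of its row, then to row `dst i / C`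
in the same column, then to `dst i`; no two items collide at any time. -/
theorem mid_spec {C : ℕ} (hC : 0 < C) {dst : List ℕ} (hd : dst.Nodup) :
    (mid C dst).length = dst.length ∧ (∀ c ∈ mid C dst, c < C) ∧
      ∀ i j : ℕ, i < dst.length → j < dst.length → i ≠ j →
        (i / C = j / C → (mid C dst).getD i 0 ≠ (mid C dst).getD j 0) ∧
        (dst.getD i 0 / C = dst.getD j 0 / C → (mid C dst).getD i 0 ≠ (mid C dst).getD j 0) := by
  have hl : ∀ u, ((redges C dst).filter (fun e => decide (e.1 = u))).length ≤ C := by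
    intro u
    have h1 : (redges C dst).map Prod.fst = (List.range dst.length).map (· / C) := by
      unfold redges
      rw [List.map_map]
      have : (Prod.fst ∘ fun p : ℕ × ℕ => (p.1 / C, p.2 / C)) = (· / C) ∘ Prod.fst := rfl
      rw [this, ← List.map_map, List.map_fst_zip (by simp)]
    have h2 : ((redges C dst).filter (fun e => decide (e.1 = u))).length
        = (((redges C dst).map Prod.fst).filter (fun x => decide (x = u))).length := by
      rw [List.filter_map, List.length_map]; rfl
    rw [h2, h1, List.filter_map, List.length_map]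
    exact filter_div_le List.nodup_range hC u
  have hr : ∀ v, ((redges C dst).filter (fun e => decide (e.2 = v))).length ≤ C := by
    intro v
    have h1 : (redges C dst).map Prod.snd = dst.map (· / C) := by
      unfold redges
      rw [List.map_map]
      have : (Prod.snd ∘ fun p : ℕ × ℕ => (p.1 / C, p.2 / C)) = (· / C) ∘ Prod.snd := rfl
      rw [this, ← List.map_map, List.map_snd_zip (by simp)]
    have h2 : ((redges C dst).filter (fun e => decide (e.2 = v))).length
        = (((redges C dst).map Prod.snd).filter (fun x => decide (x = v))).length := by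
      rw [List.filter_map, List.length_map]; rfl
    rw [h2, h1, List.filter_map, List.length_map]
    exact filter_div_le hd hC v
  obtain ⟨g1, g2, g3⟩ := ecol_spec hl hr
  refine ⟨by rw [← redges_length C dst]; exact g1, g2, ?_⟩
  intro i j hi hj hij
  have key := g3 i j (by rw [redges_length]; exact hi) (by rw [redges_length]; exact hj) hij
  rw [redges_getD C dst hi, redges_getD C dst hj] at key
  exact ⟨fun h => key (Or.inl h), fun h => key (Or.inr h)⟩

theorem ptf_mid : PTF (fun q : ℕ × List ℕ => mid q.1 q.2) := by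
  unfold mid
  refine PTF.comp ptf_ecol (f := fun q : ℕ × List ℕ => redges q.1 q.2) ?_
  unfold redges
  refine PTF.map (f := fun (q : ℕ × List ℕ) (p : ℕ × ℕ) => (p.1 / q.1, p.2 / q.1))
    (PTF.zip (PTF.range (by fun_prop)) (by fun_prop)) ?_
  exact PTF.prodMk (PTF.natDiv (by fun_prop) (by fun_prop)) (PTF.natDiv (by fun_prop) (by fun_prop))

end Crest.Agent.R289.Konig851
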