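import Crest.Agent.R289.LCa_72

/-!
Row 289, base gadget (helper72), part b: the generic base machine on `U = G × (G × G)`,
`G` = positions (finite additive commutative group), `V` = values, legal words = `l ∘ fst`,
`l : G → V` additive.  All axioms `DefD.MData.Ax` with absolute constants from the pure properties
of `l`.
-/

set_option autoImplicit false
set_option linter.unusedSectionVars false

namespace Crest.Agent.R289.LCb72

open Finset
open Crest.Agent.R289.DefD (frac dist distW MData MConst)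
open Crest.Agent.R289.LCa72

/-! ### averaging operators -/

/-- the averaging operator of the maps `σ j` contracts by `L` (square norm) off the constants -/
def Mix {S J : Type} [Fintype S] [Fintype J] (σ : J → S → S) (L : ℝ) : Prop :=
  ∀ f : S → ℝ, ∑ s, ((∑ j, f (σ j s)) / (Fintype.card J : ℝ) -
    (∑ s, f s) / (Fintype.card S : ℝ)) ^ 2 ≤ L * ∑ s, (f s) ^ 2

section Fibre

variable {S J V : Type} [Fintype S] [Nonempty S] [Fintype J] [Nonempty J]

open Classical in
/-- a set of density at most one half is left from a quarter of its points -/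
lemma leave {σ : J → S → S} {L : ℝ} (hm : Mix σ L) (hL : L ≤ 1 / 16) (B : S → Prop)
    (hB : frac B ≤ 1 / 2) : frac (fun s => B s ∧ ∀ j, B (σ j s)) ≤ 3 / 4 * frac B := by
  have hS : (0 : ℝ) < (Fintype.card S : ℝ) := by exact_mod_cast Fintype.card_pos
  have hJ : (0 : ℝ) < (Fintype.card J : ℝ) := by exact_mod_cast Fintype.card_pos
  set f : S → ℝ := fun s => if B s then 1 else 0 with hf
  set g : S → ℝ := fun s => (∑ j, f (σ j s)) / (Fintype.card J : ℝ) with hg
  have hsum : ∑ s, f s = frac B * (Fintype.card S : ℝ) := by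
    rw [frac_eq_sum, div_mul_cancel₀ _ hS.ne']
  have hsq : ∑ s, (f s) ^ 2 = ∑ s, f s := Finset.sum_congr rfl fun s _ => by
    by_cases h : B s <;> simp [hf, h]
  have h1 := hm f
  rw [hsq] at h1
  have hff : (∑ s, f s) / (Fintype.card S : ℝ) = frac B := by
    rw [hsum, mul_div_cancel_right₀ _ hS.ne']
  rw [hff] at h1
  -- Cauchy-Schwarz
  have h2 : (∑ s, f s * (g s - frac B)) ^ 2 ≤ (∑ s, (f s) ^ 2) * ∑ s, (g s - frac B) ^ 2 :=
    Finset.sum_mul_sq_le_sq_mul_sq _ _ _
  rw [hsq] at h2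
  have hn : 0 ≤ ∑ s, f s := Finset.sum_nonneg fun s _ => by
    by_cases h : B s <;> simp [hf, h]
  have h3 : (∑ s, f s * (g s - frac B)) ^ 2 ≤ ((1 / 4) * ∑ s, f s) ^ 2 := by
    have : (∑ s, f s) * ∑ s, (g s - frac B) ^ 2 ≤ (∑ s, f s) * (L * ∑ s, f s) :=
      mul_le_mul_of_nonneg_left h1 hn
    nlinarith [mul_nonneg hn hn]
  have h4 : ∑ s, f s * (g s - frac B) ≤ (1 / 4) * ∑ s, f s := by
    have := abs_le_of_sq_le_sq h3 (by positivity)
    exact le_of_abs_le this
  have h5 : ∑ s, f s * (g s - frac B) = ∑ s, f s * g s - frac B * ∑ s, f s := by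
    rw [Finset.mul_sum, ← Finset.sum_sub_distrib]
    exact Finset.sum_congr rfl fun s _ => by ring
  have h6 : frac (fun s => B s ∧ ∀ j, B (σ j s)) * (Fintype.card S : ℝ) ≤ ∑ s, f s * g s := by
    rw [frac_eq_sum, div_mul_cancel₀ _ hS.ne']
    refine Finset.sum_le_sum fun s _ => ?_
    have hg0 : 0 ≤ g s := by
      refine div_nonneg (Finset.sum_nonneg fun j _ => ?_) hJ.le
      by_cases h : B (σ j s) <;> simp [hf, h]
    by_cases h : B s ∧ ∀ j, B (σ j s)
    · have : g s = 1 := by
        have hh : ∑ j, f (σ j s) = (Fintype.card J : ℝ) := by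
          rw [Finset.sum_congr rfl (g := fun _ => (1 : ℝ)) (fun j _ => by simp [hf, h.2 j])]
          simp
        simp only [hg, hh]
        exact div_self hJ.ne'
      simp [this, hf, h.1, h]
    · simp only [h, if_false]
      refine mul_nonneg ?_ hg0
      by_cases h' : B s <;> simp [hf, h']
  have h7 : frac (fun s => B s ∧ ∀ j, B (σ j s)) * (Fintype.card S : ℝ) ≤
      3 / 4 * (frac B * (Fintype.card S : ℝ)) := by
    rw [← hsum]
    nlinarith
  have : frac (fun s => B s ∧ ∀ j, B (σ j s)) * (Fintype.card S : ℝ) ≤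
      (3 / 4 * frac B) * (Fintype.card S : ℝ) := by rw [mul_assoc]; exact h7
  exact le_of_mul_le_mul_right this hS

/-- nearly constant fibres have a majority value -/
lemma fibre [Fintype V] [Nonempty V] {σ : J → S → S} {L : ℝ} (hm : Mix σ L) (hL : L ≤ 1 / 16)
    (a : S → Option V) :
    ∃ b : V, frac (fun s => a s ≠ some b) ≤
      4 * frac (fun s => ¬ ∃ v, a s = some v ∧ ∀ j, a (σ j s) = some v) := by
  classical
  set viol : S → Prop := fun s => ¬ ∃ v, a s = some v ∧ ∀ j, a (σ j s) = some v with hv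
  by_cases h : ∃ b : V, 1 / 2 ≤ frac (fun s => a s = some b)
  · obtain ⟨b, hb⟩ := h
    refine ⟨b, ?_⟩
    have h1 := frac_add_not (fun s => a s = some b)
    have h2 := leave hm hL (fun s => a s ≠ some b) (by
      have : frac (fun s => a s ≠ some b) = frac (fun s => ¬ a s = some b) := rfl
      rw [this]; linarith)
    have h3 : frac (fun s => a s ≠ some b) ≤
        frac (fun s => a s ≠ some b ∧ ∀ j, a (σ j s) ≠ some b) + frac viol := by
      refine frac_or_le fun s hs => ?_
      by_cases h4 : ∀ j, a (σ j s) ≠ some b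
      · exact Or.inl ⟨hs, h4⟩
      · right
        push Not at h4
        obtain ⟨j, hj⟩ := h4
        rintro ⟨v, hv1, hv2⟩
        rw [hv2 j] at hj
        rw [hv1] at hs
        exact hs hj
    linarith
  · push Not at h
    obtain ⟨b0⟩ := (inferInstance : Nonempty V)
    refine ⟨b0, ?_⟩
    have h1 := frac_le_one (fun s => a s ≠ some b0)
    have h2 : frac (fun s => ¬ viol s) ≤
        ∑ b : V, frac (fun s => a s = some b ∧ ∀ j, a (σ j s) = some b) := by
      refine (frac_mono (q := fun s => ∃ b, a s = some b ∧ ∀ j, a (σ j s) = some b) ?_).trans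
        (frac_exists_le _)
      intro s hs
      simp only [hv, not_not] at hs
      exact hs
    have h3 : ∑ b : V, frac (fun s => a s = some b ∧ ∀ j, a (σ j s) = some b) ≤
        ∑ b : V, 3 / 4 * frac (fun s => a s = some b) := by
      refine Finset.sum_le_sum fun b _ => ?_
      exact leave hm hL (fun s => a s = some b) (h b).le
    rw [← Finset.mul_sum] at h3
    have h4 : ∑ b : V, frac (fun s => a s = some b) ≤ 1 := by
      have hS : (0 : ℝ) < (Fintype.card S : ℝ) := by exact_mod_cast Fintype.card_pos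
      simp only [frac_eq_sum]
      rw [← Finset.sum_div, div_le_one hS, Finset.sum_comm]
      refine (Finset.sum_le_sum (g := fun _ => (1 : ℝ)) fun s _ => ?_).trans (by simp)
      rcases h0 : a s with _ | v
      · simp
      · simp only [Option.some.injEq, Finset.sum_ite_eq, mem_univ, if_true, le_refl]
    have h5 := frac_add_not viol
    linarith

end Fibre

/-! ### the generic base machine -/

/-- pure data of the base machine: legal additive functions, tests, moves -/
structure BMac (G V ι κ : Type) where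
  legal : Set (G → V)
  l0 : G → V
  pos : ι → G → G → κ → G
  ok : ι → G → G → (κ → V) → Bool
  posN : G → κ → G
  fN : G → (κ → V) → V
  posM : G → κ → G
  fM : G → (κ → V) → V

section Defs

variable {G V ι κ J : Type} [AddCommGroup G] [AddCommGroup V]

/-- successor of an additive function -/
def BMac.nx (B : BMac G V ι κ) (l : G → V) : G → V := fun x => B.fN x fun i => l (B.posN x i)

/-- predecessor of an additive function -/
def BMac.px (B : BMac G V ι κ) (l : G → V) : G → V := fun x => B.fM x fun i => l (B.posM x i)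

/-- pure properties of the base machine -/
structure BMac.Good [Fintype G] (B : BMac G V ι κ) (τ : ℝ) : Prop where
  add : ∀ l ∈ B.legal, ∀ x y, l (x + y) = l x + l y
  ok : ∀ l ∈ B.legal, ∀ e x y, B.ok e x y (fun i => l (B.pos e x y i)) = true
  sound : ∀ l : G → V, (∀ x y, l (x + y) = l x + l y) →
    (∀ e, frac (fun z : G × G => B.ok e z.1 z.2 (fun i => l (B.pos e z.1 z.2 i)) = false) < τ) →
    l ∈ B.legal
  l0 : B.l0 ∈ B.legal
  nx_mem : ∀ l ∈ B.legal, B.nx l ∈ B.legal
  px_mem : ∀ l ∈ B.legal, B.px l ∈ B.legal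
  pn : ∀ l ∈ B.legal, B.nx l ≠ l → B.px (B.nx l) = l
  np : ∀ l ∈ B.legal, B.px l ≠ l → B.nx (B.px l) = l
  px0 : B.px B.l0 = B.l0
  nx0 : B.nx B.l0 ≠ B.l0

/-- units -/
abbrev Un (G : Type) : Type := G × (G × G)

/-- the word of an additive function -/
def wd (l : G → V) : Un G → V := fun u => l u.1

/-- read of position `p` at the unit `(x, (y, z))`: difference of the labels of
`(p + z, (x, y))` and `(z, (x, y))` -/
def rd (A : Un G → Option V) (p : G) (u : Un G) : Option V :=
  match A (p + u.2.2, (u.1, u.2.1)), A (u.2.2, (u.1, u.2.1)) with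
  | some a, some b => some (a - b)
  | _, _ => none

/-- vote `(j, k)` for the label of `u` -/
def vote (σ : J → G × G → G × G) (A : Un G → Option V) (u : Un G) (p : J × J) : Option V :=
  match A (u.1 + (σ p.1 u.2).1, σ p.2 (σ p.1 u.2)),
    A ((σ p.1 u.2).1, σ p.2 (u.1, (σ p.1 u.2).2)) with
  | some a, some b => some (a - b)
  | _, _ => none

/-- all tests hold at the unit -/
def okU (B : BMac G V ι κ) (σ : J → G × G → G × G) (A : Un G → Option V) (u : Un G) : Prop :=
  (∃ v, A u = some v ∧ ∀ j, A (u.1, σ j u.2) = some v) ∧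
  (∃ a b, A u = some a ∧ A (u.2.1, (u.1, u.2.2)) = some b ∧
    A (u.1 + u.2.1, u.2) = some (a + b)) ∧
  ∀ e, ∃ v : κ → V, (∀ i, rd A (B.pos e u.1 u.2.1 i) u = some (v i)) ∧
    B.ok e u.1 u.2.1 v = true

/-- `D` implements the base machine -/
structure Impl [Fintype J] (B : BMac G V ι κ) (σ : J → G × G → G × G)
    (D : MData (Un G) V) : Prop where
  W : ∀ w, w ∈ D.W ↔ ∃ l ∈ B.legal, w = wd l
  w0 : D.w0 = wd B.l0
  N : ∀ l ∈ B.legal, D.N (wd l) = wd (B.nx l)
  M : ∀ l ∈ B.legal, D.M (wd l) = wd (B.px l)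
  corr : ∀ A u v, (1 : ℝ) / 2 < frac (fun p : J × J => vote σ A u p = some v) →
    D.corr A u = some v
  Nu : ∀ A (u : Un G) (v : κ → V), (∀ i, rd A (B.posN u.1 i) u = some (v i)) →
    D.Nu A u = some (B.fN u.1 v)
  Mu : ∀ A (u : Un G) (v : κ → V), (∀ i, rd A (B.posM u.1 i) u = some (v i)) →
    D.Mu A u = some (B.fM u.1 v)
  viol : ∀ A u, D.viol A u = false ↔ okU B σ A u

/-- the contraction property of the votes (proved from `Mix` in LCodeS_152) -/
def Vote [Fintype G] [Fintype J] (σ : J → G × G → G × G) : Prop :=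
  ∀ E : Un G → Prop, frac E ≤ 1 / 8 →
    frac (fun u : Un G => (1 : ℝ) / 4 ≤
      frac (fun p : J × J => E (u.1 + (σ p.1 u.2).1, σ p.2 (σ p.1 u.2)))) ≤ frac E / 8 ∧
    frac (fun u : Un G => (1 : ℝ) / 4 ≤
      frac (fun p : J × J => E ((σ p.1 u.2).1, σ p.2 (u.1, (σ p.1 u.2).2)))) ≤ frac E / 8

end Defs

section Main

variable {G V ι κ J : Type} [AddCommGroup G] [Fintype G] [AddCommGroup V] [Fintype V]
  [Fintype ι] [Fintype κ] [Fintype J] [Nonempty J]

/-! bijections of the unit set -/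

lemma bij_swap : Function.Bijective (fun u : Un G => ((u.2.1, (u.1, u.2.2)) : Un G)) := by
  refine Function.Involutive.bijective fun u => ?_
  rfl

lemma bij_sum : Function.Bijective (fun u : Un G => ((u.1 + u.2.1, u.2) : Un G)) := by
  constructor
  · rintro ⟨a, b, c⟩ ⟨a', b', c'⟩ h
    simp only [Prod.mk.injEq] at h
    obtain ⟨h1, h2, h3⟩ := h
    subst h2 h3
    simp only [add_left_inj] at h1
    rw [h1]
  · rintro ⟨a, b, c⟩
    exact ⟨(a - b, (b, c)), by simp⟩

lemma bij_base : Function.Bijective (fun u : Un G => ((u.2.2, (u.1, u.2.1)) : Un G)) := by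
  constructor
  · rintro ⟨a, b, c⟩ ⟨a', b', c'⟩ h
    simp only [Prod.mk.injEq] at h
    obtain ⟨h1, h2, h3⟩ := h
    rw [h1, h2, h3]
  · rintro ⟨a, b, c⟩
    exact ⟨(b, (c, a)), rfl⟩

lemma bij_read (q : G → G → G) :
    Function.Bijective (fun u : Un G => ((q u.1 u.2.1 + u.2.2, (u.1, u.2.1)) : Un G)) := by
  constructor
  · rintro ⟨a, b, c⟩ ⟨a', b', c'⟩ h
    simp only [Prod.mk.injEq] at h
    obtain ⟨h1, h2, h3⟩ := h
    subst h2 h3
    simp only [add_right_inj] at h1
    rw [h1]
  · rintro ⟨a, b, c⟩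
    refine ⟨(b, (c, a - q b c)), ?_⟩
    simp

lemma bij_sig {σ : J → G × G → G × G} (hσ : ∀ j, Function.Bijective (σ j)) (j : J) :
    Function.Bijective (fun u : Un G => ((u.1, σ j u.2) : Un G)) :=
  Function.bijective_id.prodMap (hσ j)

omit [Fintype V] [Nonempty J] [Fintype J] [Fintype κ] [Fintype ι] [Fintype G] in
lemma rd_eq {A : Un G → Option V} {l : G → V} (hl : ∀ x y, l (x + y) = l x + l y) {p : G}
    {u : Un G} (h1 : A (p + u.2.2, (u.1, u.2.1)) = some (l (p + u.2.2)))
    (h2 : A (u.2.2, (u.1, u.2.1)) = some (l u.2.2)) : rd A p u = some (l p) := by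
  unfold rd
  rw [h1, h2]
  simp only [Option.some.injEq, hl]
  abel

/-- a read by the position function `q` is wrong on at most twice the distance -/
lemma rd_le {l : G → V} (hl : ∀ x y, l (x + y) = l x + l y) (A : Un G → Option V)
    (q : G → G → G) :
    frac (fun u : Un G => rd A (q u.1 u.2.1) u ≠ some (l (q u.1 u.2.1))) ≤ 2 * dist A (wd l) := by
  have h := frac_or_le (r := fun u : Un G => rd A (q u.1 u.2.1) u ≠ some (l (q u.1 u.2.1)))
    (p := fun u : Un G => A (q u.1 u.2.1 + u.2.2, (u.1, u.2.1)) ≠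
      some (wd l (q u.1 u.2.1 + u.2.2, (u.1, u.2.1))))
    (q := fun u : Un G => A (u.2.2, (u.1, u.2.1)) ≠ some (wd l (u.2.2, (u.1, u.2.1)))) (by
      intro u hu
      by_contra hc
      push Not at hc
      exact hu (rd_eq hl hc.1 hc.2))
  have h1 := frac_bij (bij_read q) (fun u : Un G => A u ≠ some (wd l u))
  have h2 := frac_bij (bij_base (G := G)) (fun u : Un G => A u ≠ some (wd l u))
  rw [h1, h2] at h
  unfold DefD.dist
  linarith

/-- some of the reads is wrong -/
lemma rds_le {l : G → V} (hl : ∀ x y, l (x + y) = l x + l y) (A : Un G → Option V)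
    (q : G → G → κ → G) :
    frac (fun u : Un G => ∃ i, rd A (q u.1 u.2.1 i) u ≠ some (l (q u.1 u.2.1 i))) ≤
      (Fintype.card κ : ℝ) * (2 * dist A (wd l)) := by
  refine (frac_exists_le _).trans ?_
  refine (Finset.sum_le_sum fun i _ => rd_le hl A fun x y => q x y i).trans ?_
  simp

variable (B : BMac G V ι κ) (σ : J → G × G → G × G)

/-- soundness -/
theorem sound_aux {τ L : ℝ} (hB : B.Good τ) (hm : Mix σ L) (hL : L ≤ 1 / 16)
    (A : Un G → Option V) {v : ℝ} (hv : frac (fun u => ¬ okU B σ A u) ≤ v)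
    (h1 : 78 * v < 1) (h2 : (60 * (Fintype.card κ : ℝ) + 1) * v < τ) :
    ∃ l ∈ B.legal, dist A (wd l) ≤ 30 * v := by
  classical
  have hv0 : 0 ≤ v := (frac_nn _).trans hv
  -- fibres
  have hf : ∀ x : G, ∃ b : V, frac (fun s : G × G => A (x, s) ≠ some b) ≤
      4 * frac (fun s : G × G => ¬ ∃ v, A (x, s) = some v ∧ ∀ j, A (x, σ j s) = some v) :=
    fun x => fibre hm hL fun s => A (x, s)
  choose F hF using hf
  have hAF : frac (fun u : Un G => A u ≠ some (F u.1)) ≤ 4 * v := by
    have h3 := frac_prod_mono (p := fun u : Un G => A u ≠ some (F u.1))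
      (q := fun u : Un G => ¬ ∃ v, A (u.1, u.2) = some v ∧ ∀ j, A (u.1, σ j u.2) = some v)
      (c := 4) hF
    have h4 : frac (fun u : Un G => ¬ ∃ v, A (u.1, u.2) = some v ∧ ∀ j, A (u.1, σ j u.2) = some v)
        ≤ frac (fun u => ¬ okU B σ A u) := frac_mono fun u hu hc => hu hc.1
    linarith
  -- BLR
  have hblr : frac (fun z : G × G => F (z.1 + z.2) ≠ F z.1 + F z.2) ≤ 13 * v := by
    have e1 : frac (fun z : G × G => F (z.1 + z.2) ≠ F z.1 + F z.2) =
        frac (fun u : Un G => F (u.1 + u.2.1) ≠ F u.1 + F u.2.1) := by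
      rw [← frac_fst (V := G) (fun z : G × G => F (z.1 + z.2) ≠ F z.1 + F z.2)]
      exact (frac_equiv (Equiv.prodAssoc G G G)
        (fun u : Un G => F (u.1 + u.2.1) ≠ F u.1 + F u.2.1))
    rw [e1]
    have h3 := frac_bij (bij_swap (G := G)) (fun u : Un G => A u ≠ some (F u.1))
    have h4 := frac_bij (bij_sum (G := G)) (fun u : Un G => A u ≠ some (F u.1))
    have h5 : frac (fun u : Un G => F (u.1 + u.2.1) ≠ F u.1 + F u.2.1) ≤
        frac (fun u : Un G => A u ≠ some (F u.1)) +
        (frac (fun u : Un G => A (u.2.1, (u.1, u.2.2)) ≠ some (F u.2.1)) +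
        (frac (fun u : Un G => A (u.1 + u.2.1, u.2) ≠ some (F (u.1 + u.2.1))) +
        frac (fun u => ¬ okU B σ A u))) := by
      refine (frac_or_le (p := fun u : Un G => A u ≠ some (F u.1))
        (q := fun u : Un G => A (u.2.1, (u.1, u.2.2)) ≠ some (F u.2.1) ∨
          (A (u.1 + u.2.1, u.2) ≠ some (F (u.1 + u.2.1)) ∨ ¬ okU B σ A u)) ?_).trans
        (add_le_add le_rfl ((frac_or _ _).trans (add_le_add le_rfl (frac_or _ _))))
      intro u hu
      by_contra hc
      push Not at hc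
      obtain ⟨c1, c2, c3, c4⟩ := hc
      obtain ⟨-, ⟨a, b, a1, a2, a3⟩, -⟩ := c4
      rw [c1, Option.some.injEq] at a1
      rw [c2, Option.some.injEq] at a2
      rw [c3, Option.some.injEq] at a3
      rw [a1, a2] at hu
      exact hu a3
    linarith
  obtain ⟨l, hl, hd⟩ := blr F (ε := 13 * v) (by linarith) hblr
  have hdist : dist A (wd l) ≤ 30 * v := by
    have h3 : dist A (wd l) ≤ frac (fun u : Un G => A u ≠ some (F u.1)) +
        frac (fun u : Un G => F u.1 ≠ l u.1) := by
      refine frac_or_le fun u hu => ?_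
      by_contra hc
      push Not at hc
      apply hu
      rw [hc.1, hc.2]; rfl
    have h4 : frac (fun u : Un G => F u.1 ≠ l u.1) = frac (fun x => F x ≠ l x) :=
      frac_fst (V := G × G) (fun x => F x ≠ l x)
    rw [h4] at h3
    linarith
  refine ⟨l, hB.sound l hl fun e => ?_, hdist⟩
  -- extra tests
  have e1 : frac (fun z : G × G => B.ok e z.1 z.2 (fun i => l (B.pos e z.1 z.2 i)) = false) =
      frac (fun u : Un G => B.ok e u.1 u.2.1 (fun i => l (B.pos e u.1 u.2.1 i)) = false) := by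
    rw [← frac_fst (V := G)
      (fun z : G × G => B.ok e z.1 z.2 (fun i => l (B.pos e z.1 z.2 i)) = false)]
    exact (frac_equiv (Equiv.prodAssoc G G G)
      (fun u : Un G => B.ok e u.1 u.2.1 (fun i => l (B.pos e u.1 u.2.1 i)) = false))
  rw [e1]
  have h3 := rds_le hl A (B.pos e)
  have h4 := frac_or_le
    (r := fun u : Un G => B.ok e u.1 u.2.1 (fun i => l (B.pos e u.1 u.2.1 i)) = false)
    (p := fun u : Un G => ∃ i, rd A (B.pos e u.1 u.2.1 i) u ≠ some (l (B.pos e u.1 u.2.1 i)))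
    (q := fun u => ¬ okU B σ A u) (by
      intro u hu
      by_contra hc
      push Not at hc
      obtain ⟨c1, c2⟩ := hc
      obtain ⟨-, -, h⟩ := c2
      obtain ⟨w, hw, hw2⟩ := h e
      have : w = fun i => l (B.pos e u.1 u.2.1 i) := by
        funext i
        have h5 := hw i
        rw [c1 i, Option.some.injEq] at h5
        exact h5.symm
      rw [this, hu] at hw2
      exact Bool.false_ne_true hw2)
  have h5 : (Fintype.card κ : ℝ) * (2 * dist A (wd l)) ≤ (Fintype.card κ : ℝ) * (2 * (30 * v)) :=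
    mul_le_mul_of_nonneg_left (by linarith) (Nat.cast_nonneg _)
  nlinarith

/-- completeness -/
theorem compl_aux {τ : ℝ} (hB : B.Good τ) (hσ : ∀ j, Function.Bijective (σ j))
    {l : G → V} (hl : l ∈ B.legal) (A : Un G → Option V) :
    frac (fun u => ¬ okU B σ A u) ≤
      (3 + (Fintype.card J : ℝ) + 2 * (Fintype.card κ : ℝ) * (Fintype.card ι : ℝ)) *
        dist A (wd l) := by
  classical
  set bad : Un G → Prop := fun u => A u ≠ some (wd l u) with hbad
  have hd : dist A (wd l) = frac bad := rfl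
  have h1 : frac (fun u => ¬ okU B σ A u) ≤
      frac bad + (frac (fun u : Un G => ∃ j, bad (u.1, σ j u.2)) +
      (frac (fun u : Un G => bad (u.2.1, (u.1, u.2.2))) +
      (frac (fun u : Un G => bad (u.1 + u.2.1, u.2)) +
      frac (fun u : Un G => ∃ e : ι, ∃ i : κ,
        rd A (B.pos e u.1 u.2.1 i) u ≠ some (l (B.pos e u.1 u.2.1 i)))))) := by
    refine (frac_or_le (p := bad) (q := fun u : Un G => (∃ j, bad (u.1, σ j u.2)) ∨
      (bad (u.2.1, (u.1, u.2.2)) ∨ (bad (u.1 + u.2.1, u.2) ∨ ∃ e : ι, ∃ i : κ,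
        rd A (B.pos e u.1 u.2.1 i) u ≠ some (l (B.pos e u.1 u.2.1 i))))) ?_).trans
      (add_le_add le_rfl ((frac_or _ _).trans (add_le_add le_rfl ((frac_or _ _).trans
        (add_le_add le_rfl (frac_or _ _))))))
    intro u hu
    by_contra hc
    push Not at hc
    obtain ⟨c1, c2, c3, c4, c5⟩ := hc
    apply hu
    simp only [hbad, not_not, wd] at c1 c2 c3 c4
    refine ⟨⟨l u.1, c1, c2⟩, ⟨l u.1, l u.2.1, c1, c3, ?_⟩, fun e => ⟨_, c5 e, ?_⟩⟩
    · rw [c4, hB.add l hl]
    · exact hB.ok l hl e u.1 u.2.1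
  have h2 : frac (fun u : Un G => ∃ j, bad (u.1, σ j u.2)) ≤
      (Fintype.card J : ℝ) * frac bad := by
    refine (frac_exists_le _).trans ?_
    rw [Finset.sum_congr rfl (g := fun _ => frac bad) (fun j _ => frac_bij (bij_sig hσ j) bad)]
    simp
  have h3 := frac_bij (bij_swap (G := G)) bad
  have h4 := frac_bij (bij_sum (G := G)) bad
  have h5 : frac (fun u : Un G => ∃ e : ι, ∃ i : κ,
        rd A (B.pos e u.1 u.2.1 i) u ≠ some (l (B.pos e u.1 u.2.1 i))) ≤
      (Fintype.card ι : ℝ) * ((Fintype.card κ : ℝ) * (2 * frac bad)) := by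
    refine (frac_exists_le _).trans ?_
    refine (Finset.sum_le_sum fun e _ => rds_le (hB.add l hl) A (B.pos e)).trans ?_
    rw [hd]; simp
  rw [h3, h4] at h1
  rw [hd]
  nlinarith

/-- local correction -/
theorem corr_aux (hV : Vote σ) {l : G → V} (hl : ∀ x y, l (x + y) = l x + l y)
    (A : Un G → Option V) (h : dist A (wd l) ≤ 1 / 8) :
    frac (fun u : Un G => ¬ (1 : ℝ) / 2 < frac (fun p : J × J => vote σ A u p = some (wd l u))) ≤
      dist A (wd l) / 4 := by
  classical
  set bad : Un G → Prop := fun u => A u ≠ some (wd l u) with hbad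
  have hd : dist A (wd l) = frac bad := rfl
  rw [hd] at h ⊢
  obtain ⟨v1, v2⟩ := hV bad h
  have h1 := frac_or_le
    (r := fun u : Un G => ¬ (1 : ℝ) / 2 < frac (fun p : J × J => vote σ A u p = some (wd l u)))
    (p := fun u : Un G => (1 : ℝ) / 4 ≤
      frac (fun p : J × J => bad (u.1 + (σ p.1 u.2).1, σ p.2 (σ p.1 u.2))))
    (q := fun u : Un G => (1 : ℝ) / 4 ≤
      frac (fun p : J × J => bad ((σ p.1 u.2).1, σ p.2 (u.1, (σ p.1 u.2).2)))) (by
      intro u hu
      by_contra hc
      push Not at hc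
      obtain ⟨c1, c2⟩ := hc
      apply hu
      have h2 := frac_add_not (fun p : J × J => vote σ A u p = some (wd l u))
      have h3 := frac_or_le (r := fun p : J × J => ¬ vote σ A u p = some (wd l u))
        (p := fun p : J × J => bad (u.1 + (σ p.1 u.2).1, σ p.2 (σ p.1 u.2)))
        (q := fun p : J × J => bad ((σ p.1 u.2).1, σ p.2 (u.1, (σ p.1 u.2).2))) (by
          intro p hp
          by_contra hc'
          push Not at hc'
          obtain ⟨d1, d2⟩ := hc'
          simp only [hbad, not_not, wd] at d1 d2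
          apply hp
          unfold vote
          rw [d1, d2]
          simp only [wd, Option.some.injEq, hl]
          abel)
      linarith)
  linarith

/-- the constants -/
noncomputable def consts (τ : ℝ) (hτ : 0 < τ) (c m j : ℕ) : MConst where
  zs := τ / (100 * (c + 1))
  r0 := 1 / 8
  d0 := 1 / 2
  c := 30 + j + 2 * c * (m + 1)
  γ := 0
  zs_pos := by positivity
  r0_pos := by norm_num
  d0_pos := by norm_num
  c_ge := by
    have h1 : (0 : ℝ) ≤ (j : ℝ) := Nat.cast_nonneg _
    have h2 : (0 : ℝ) ≤ 2 * (c : ℝ) * ((m : ℝ) + 1) := by positivity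
    linarith
  γ_nn := le_rfl

/-- MAIN THEOREM of the base machine -/
theorem ax {τ L : ℝ} (hτ : 0 < τ) (hτ1 : τ ≤ 1) (hB : B.Good τ)
    (hσ : ∀ j, Function.Bijective (σ j)) (hm : Mix σ L) (hL : L ≤ 1 / 16) (hV : Vote σ)
    {D : MData (Un G) V} (hD : Impl B σ D) :
    D.Ax (consts τ hτ (Fintype.card κ) (Fintype.card ι) (Fintype.card J)) := by
  classical
  have wd_inj : ∀ l l' : G → V, wd l = wd l' → l = l' := fun l l' h => by
    funext x
    exact congrFun h (x, (0, 0))
  have hc0 : (0 : ℝ) ≤ (Fintype.card κ : ℝ) := Nat.cast_nonneg _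
  have hm0 : (0 : ℝ) ≤ (Fintype.card ι : ℝ) := Nat.cast_nonneg _
  have hj0 : (0 : ℝ) ≤ (Fintype.card J : ℝ) := Nat.cast_nonneg _
  have hcm : (0 : ℝ) ≤ (Fintype.card κ : ℝ) * (Fintype.card ι : ℝ) := mul_nonneg hc0 hm0
  have hviol : ∀ A, frac (fun u => D.viol A u = true) = frac (fun u => ¬ okU B σ A u) := by
    intro A
    refine frac_congr fun u => ?_
    rw [← hD.viol A u]
    simp
  refine
    { w0_mem := ?_, N_mem := ?_, M_mem := ?_, MN := ?_, NM := ?_, M_w0 := ?_, N_w0 := ?_
      sep := ?_, sound := ?_, compl := ?_, corr_le := ?_, Nu_le := ?_, Mu_le := ?_ }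
  · exact (hD.W _).2 ⟨B.l0, hB.l0, hD.w0⟩
  · intro w hw
    obtain ⟨l, hl, rfl⟩ := (hD.W w).1 hw
    exact (hD.W _).2 ⟨B.nx l, hB.nx_mem l hl, hD.N l hl⟩
  · intro w hw
    obtain ⟨l, hl, rfl⟩ := (hD.W w).1 hw
    exact (hD.W _).2 ⟨B.px l, hB.px_mem l hl, hD.M l hl⟩
  · intro w hw h
    obtain ⟨l, hl, rfl⟩ := (hD.W w).1 hw
    rw [hD.N l hl] at h ⊢
    rw [hD.M _ (hB.nx_mem l hl), hB.pn l hl fun e => h (by rw [e])]
  · intro w hw h
    obtain ⟨l, hl, rfl⟩ := (hD.W w).1 hw
    rw [hD.M l hl] at h ⊢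
    rw [hD.N _ (hB.px_mem l hl), hB.np l hl fun e => h (by rw [e])]
  · rw [hD.w0, hD.M _ hB.l0, hB.px0]
  · rw [hD.w0, hD.N _ hB.l0]
    exact fun h => hB.nx0 (wd_inj _ _ h)
  · intro v hv w hw hne
    obtain ⟨l, hl, rfl⟩ := (hD.W v).1 hv
    obtain ⟨l', hl', rfl⟩ := (hD.W w).1 hw
    have hne' : l ≠ l' := fun e => hne (by rw [e])
    obtain ⟨x0, hx0⟩ := Function.ne_iff.1 hne'
    have h1 := half (fun x => l x - l' x) (fun x y => by
      rw [hB.add l hl, hB.add l' hl']; abel) x0 (sub_ne_zero.2 hx0)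
    have h2 : distW (wd l) (wd l') = frac (fun x : G => l x ≠ l' x) :=
      frac_fst (V := G × G) (fun x => l x ≠ l' x)
    have h3 : frac (fun x : G => l x ≠ l' x) = frac (fun x => l x - l' x ≠ 0) :=
      frac_congr fun x => sub_ne_zero.symm
    show (1 : ℝ) / 2 ≤ _
    rw [h2, h3]; exact h1
  · intro X hX
    rw [hviol] at hX ⊢
    set v := frac (fun u => ¬ okU B σ X u) with hv
    have hv0 : 0 ≤ v := frac_nn _
    have hX' : v ≤ τ / (100 * ((Fintype.card κ : ℝ) + 1)) := hX
    have hX2 : v * (100 * ((Fintype.card κ : ℝ) + 1)) ≤ τ :=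
      (le_div_iff₀ (by positivity)).1 hX'
    have hcv : 0 ≤ (Fintype.card κ : ℝ) * v := mul_nonneg hc0 hv0
    have g1 : 78 * v < 1 := by nlinarith
    have g2 : (60 * (Fintype.card κ : ℝ) + 1) * v < τ := by
      rcases eq_or_lt_of_le hv0 with h0 | h0
      · rw [← h0]; simpa using hτ
      · nlinarith
    obtain ⟨l, hl, hd⟩ := sound_aux B σ hB hm hL X (v := v) le_rfl g1 g2
    refine ⟨wd l, (hD.W _).2 ⟨l, hl, rfl⟩, hd.trans ?_⟩
    show 30 * v ≤ (30 + (Fintype.card J : ℝ) + 2 * (Fintype.card κ : ℝ) *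
      ((Fintype.card ι : ℝ) + 1)) * v
    refine mul_le_mul_of_nonneg_right ?_ hv0
    nlinarith
  · intro w hw X
    obtain ⟨l, hl, rfl⟩ := (hD.W w).1 hw
    rw [hviol]
    refine (compl_aux B σ hB hσ hl X).trans ?_
    show _ ≤ (30 + (Fintype.card J : ℝ) + 2 * (Fintype.card κ : ℝ) *
      ((Fintype.card ι : ℝ) + 1)) * dist X (wd l)
    refine mul_le_mul_of_nonneg_right ?_ (frac_nn _)
    nlinarith
  · intro w hw X hX
    obtain ⟨l, hl, rfl⟩ := (hD.W w).1 hw
    refine le_trans (frac_mono fun u hu hc => hu (hD.corr X u _ hc)) (corr_aux σ hV (hB.add l hl) X hX)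
  · intro w hw X _
    obtain ⟨l, hl, rfl⟩ := (hD.W w).1 hw
    rw [hD.N l hl]
    have h1 := rds_le (hB.add l hl) X fun x _ => B.posN x
    have h2 : dist (D.Nu X) (wd (B.nx l)) ≤ frac (fun u : Un G =>
        ∃ i, rd X (B.posN u.1 i) u ≠ some (l (B.posN u.1 i))) := by
      refine frac_mono fun u hu => ?_
      by_contra hc
      push Not at hc
      exact hu (hD.Nu X u _ hc)
    refine h2.trans (h1.trans ?_)
    show _ ≤ (30 + (Fintype.card J : ℝ) + 2 * (Fintype.card κ : ℝ) *
      ((Fintype.card ι : ℝ) + 1)) * dist X (wd l) + 0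
    have h0 : 0 ≤ dist X (wd l) := frac_nn _
    rw [add_zero, show (Fintype.card κ : ℝ) * (2 * dist X (wd l)) =
      (2 * (Fintype.card κ : ℝ)) * dist X (wd l) by ring]
    refine mul_le_mul_of_nonneg_right ?_ h0
    nlinarith
  · intro w hw X _
    obtain ⟨l, hl, rfl⟩ := (hD.W w).1 hw
    rw [hD.M l hl]
    have h1 := rds_le (hB.add l hl) X fun x _ => B.posM x
    have h2 : dist (D.Mu X) (wd (B.px l)) ≤ frac (fun u : Un G =>
        ∃ i, rd X (B.posM u.1 i) u ≠ some (l (B.posM u.1 i))) := by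
      refine frac_mono fun u hu => ?_
      by_contra hc
      push Not at hc
      exact hu (hD.Mu X u _ hc)
    refine h2.trans (h1.trans ?_)
    show _ ≤ (30 + (Fintype.card J : ℝ) + 2 * (Fintype.card κ : ℝ) *
      ((Fintype.card ι : ℝ) + 1)) * dist X (wd l) + 0
    have h0 : 0 ≤ dist X (wd l) := frac_nn _
    rw [add_zero, show (Fintype.card κ : ℝ) * (2 * dist X (wd l)) =
      (2 * (Fintype.card κ : ℝ)) * dist X (wd l) by ring]
    refine mul_le_mul_of_nonneg_right ?_ h0
    nlinarith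

end Main

end Crest.Agent.R289.LCb72
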