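import Crest.Agent.R289.LCb_72
import Crest.Agent.R289.LCodeS_152

/-!
Row 289, base gadget (helper72), part c: the concrete `MData` of a base machine and its axioms;
walk = Gabber-Galil walk of length 94 on `G × G` (LCodeS_152, Sampler_56).
-/

set_option autoImplicit false
set_option linter.unusedSectionVars false

namespace Crest.Agent.R289.LCc72

open Finset
open Crest.Agent.R289.DefD (frac dist distW MData MConst)
open Crest.Agent.R289.LCa72 Crest.Agent.R289.LCb72

section Vote

variable {G J : Type} [AddCommGroup G] [Fintype G] [Fintype J] [Nonempty J]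

/-- `(x, (y, z)) ↦ (x + y, (y, z))` -/
noncomputable def Wsum : Equiv.Perm (G × (G × G)) := Equiv.ofBijective _ (bij_sum (G := G))

/-- `(x, (y, z)) ↦ (y, (x, z))` -/
noncomputable def Wswap : Equiv.Perm (G × (G × G)) := Equiv.ofBijective _ (bij_swap (G := G))

lemma mixesX_swap : LCodeS152.MixesX (Wswap (G := G)) := by
  intro f x
  have hG : (Fintype.card G : ℝ) ≠ 0 := by
    have : (0 : ℝ) < (Fintype.card G : ℝ) := by exact_mod_cast Fintype.card_pos
    exact this.ne'
  have h1 : ∀ r : G × G, ((Wswap (G := G)) (x, r)).1 = r.1 := fun r => rfl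
  simp only [h1, Fintype.sum_prod_type, Finset.sum_const, Finset.card_univ, nsmul_eq_mul,
    ← Finset.mul_sum, Fintype.card_prod]
  push_cast
  field_simp

lemma mixesX_sum : LCodeS152.MixesX (Wsum (G := G)) := by
  intro f x
  have hG : (Fintype.card G : ℝ) ≠ 0 := by
    have : (0 : ℝ) < (Fintype.card G : ℝ) := by exact_mod_cast Fintype.card_pos
    exact this.ne'
  have h1 : ∀ r : G × G, ((Wsum (G := G)) (x, r)).1 = x + r.1 := fun r => rfl
  have h2 : ∑ y : G, f (x + y) = ∑ y, f y := Equiv.sum_comp (Equiv.addLeft x) f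
  simp only [h1, Fintype.sum_prod_type, Finset.sum_const, Finset.card_univ, nsmul_eq_mul,
    ← Finset.mul_sum, Fintype.card_prod, h2]
  push_cast
  field_simp

lemma vote_one {σ : J → Equiv.Perm (G × G)} {L : ℝ} (h : LCodeS152.Mixes σ L) (h0 : 0 ≤ L)
    (hL : L ≤ 1 / 2048) {W : Equiv.Perm (G × (G × G))} (hW : LCodeS152.MixesX W)
    (E : Un G → Prop) (hE : frac E ≤ 1 / 8) :
    frac (fun u : Un G => (1 : ℝ) / 4 ≤
      frac (fun p : J × J => E (LCodeS152.step2 σ W p u))) ≤ frac E / 8 := by
  classical
  have hU : (0 : ℝ) < (Fintype.card (Un G) : ℝ) := by exact_mod_cast Fintype.card_pos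
  have hJ : (0 : ℝ) < (Fintype.card J : ℝ) := by exact_mod_cast Fintype.card_pos
  set F : Finset (G × (G × G)) := univ.filter E with hF
  have hmem : ∀ u, u ∈ F ↔ E u := fun u => by simp [hF]
  have hfr : frac E = (F.card : ℝ) / (Fintype.card (Un G) : ℝ) := by
    rw [frac_def]
  have h8 : 8 * F.card ≤ Fintype.card (G × (G × G)) := by
    rw [hfr, div_le_iff₀ hU] at hE
    have : (8 : ℝ) * F.card ≤ Fintype.card (Un G) := by linarith
    exact_mod_cast this
  have key := LCodeS152.step2_hit h h0 hW F h8
  have hset : frac (fun u : Un G => (1 : ℝ) / 4 ≤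
      frac (fun p : J × J => E (LCodeS152.step2 σ W p u))) * (Fintype.card (Un G) : ℝ) ≤
      256 * L * F.card := by
    rw [frac_def, div_mul_cancel₀ _ hU.ne']
    refine le_trans ?_ key
    have : (univ.filter fun u : Un G => (1 : ℝ) / 4 ≤
      frac (fun p : J × J => E (LCodeS152.step2 σ W p u))) ⊆
      (univ.filter fun u => Fintype.card J ^ 2 ≤
        4 * (univ.filter fun p : J × J => LCodeS152.step2 σ W p u ∈ F).card) := by
      intro u hu
      simp only [mem_filter, mem_univ, true_and] at hu ⊢
      rw [frac_congr (q := fun p : J × J => LCodeS152.step2 σ W p u ∈ F)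
        (fun p => (hmem _).symm), frac_def, Fintype.card_prod, le_div_iff₀ (by
          push_cast; positivity)] at hu
      have h2 : ((Fintype.card J ^ 2 : ℕ) : ℝ) ≤
        ((4 * (univ.filter fun p : J × J => LCodeS152.step2 σ W p u ∈ F).card : ℕ) : ℝ) := by
        push_cast at hu ⊢
        refine le_trans ?_ (le_trans (mul_le_mul_of_nonneg_left hu (by norm_num : (0:ℝ) ≤ 4)) ?_)
        · nlinarith
        · apply le_of_eq
          congr!
      exact_mod_cast h2
    have h4 := (Nat.cast_le (α := ℝ)).2 (Finset.card_le_card this)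
    exact le_of_eq_of_le (by congr!) (h4.trans (le_of_eq (by congr!)))
  have h5 : frac (fun u : Un G => (1 : ℝ) / 4 ≤
      frac (fun p : J × J => E (LCodeS152.step2 σ W p u))) * (Fintype.card (Un G) : ℝ) ≤
      (frac E / 8) * (Fintype.card (Un G) : ℝ) := by
    refine hset.trans ?_
    rw [hfr]
    have : (F.card : ℝ) / (Fintype.card (Un G) : ℝ) / 8 * (Fintype.card (Un G) : ℝ) =
      (F.card : ℝ) / 8 := by field_simp
    rw [this]
    have hc : (0 : ℝ) ≤ F.card := Nat.cast_nonneg _
    nlinarith
  exact le_of_mul_le_mul_right h5 hU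

/-- the vote property from the mixing of the walk -/
theorem vote_of_mixes {σ : J → Equiv.Perm (G × G)} {L : ℝ} (h : LCodeS152.Mixes σ L)
    (h0 : 0 ≤ L) (hL : L ≤ 1 / 2048) : Vote (fun j => (σ j : G × G → G × G)) := by
  intro E hE
  exact ⟨vote_one h h0 hL mixesX_sum E hE, vote_one h h0 hL mixesX_swap E hE⟩

end Vote

/-! ### the concrete machine -/

section Conc

variable {G V ι κ J : Type} [AddCommGroup G] [Fintype G] [AddCommGroup V] [Fintype J] [Nonempty J]

open Classical in
/-- the machine -/
noncomputable def bm (B : BMac G V ι κ) (σ : J → G × G → G × G) : MData (Un G) V where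
  W := {w | ∃ l ∈ B.legal, w = wd l}
  w0 := wd B.l0
  N := fun w u => B.fN u.1 fun i => w (B.posN u.1 i, u.2)
  M := fun w u => B.fM u.1 fun i => w (B.posM u.1 i, u.2)
  corr := fun A u => if h : ∃ v, (1 : ℝ) / 2 < frac (fun p : J × J => vote σ A u p = some v)
    then some h.choose else none
  Nu := fun A u => if h : ∃ v : κ → V, ∀ i, rd A (B.posN u.1 i) u = some (v i)
    then some (B.fN u.1 h.choose) else none
  Mu := fun A u => if h : ∃ v : κ → V, ∀ i, rd A (B.posM u.1 i) u = some (v i)
    then some (B.fM u.1 h.choose) else none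
  viol := fun A u => decide (¬ okU B σ A u)

lemma maj_unique {σ : J → G × G → G × G} {A : Un G → Option V} {u : Un G} {v v' : V}
    (h : (1 : ℝ) / 2 < frac (fun p : J × J => vote σ A u p = some v))
    (h' : (1 : ℝ) / 2 < frac (fun p : J × J => vote σ A u p = some v')) : v = v' := by
  by_contra hne
  have h1 := frac_add_not (fun p : J × J => vote σ A u p = some v)
  have h2 : frac (fun p : J × J => vote σ A u p = some v') ≤
      frac (fun p : J × J => ¬ vote σ A u p = some v) := frac_mono fun p hp hc => by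
    rw [hp, Option.some.injEq] at hc
    exact hne hc.symm
  linarith

open Classical in
theorem impl (B : BMac G V ι κ) (σ : J → G × G → G × G) : Impl B σ (bm B σ) where
  W := fun w => Iff.rfl
  w0 := rfl
  N := fun l _ => rfl
  M := fun l _ => rfl
  corr := by
    intro A u v h
    have hex : ∃ v, (1 : ℝ) / 2 < frac (fun p : J × J => vote σ A u p = some v) := ⟨v, h⟩
    show (if h : _ then _ else _) = _
    rw [dif_pos hex, Option.some.injEq]
    exact maj_unique hex.choose_spec h
  Nu := by
    intro A u v h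
    have hex : ∃ v : κ → V, ∀ i, rd A (B.posN u.1 i) u = some (v i) := ⟨v, h⟩
    show (if h : _ then _ else _) = _
    rw [dif_pos hex]
    have : hex.choose = v := by
      funext i
      have h1 := hex.choose_spec i
      rw [h i, Option.some.injEq] at h1
      exact h1.symm
    rw [this]
  Mu := by
    intro A u v h
    have hex : ∃ v : κ → V, ∀ i, rd A (B.posM u.1 i) u = some (v i) := ⟨v, h⟩
    show (if h : _ then _ else _) = _
    rw [dif_pos hex]
    have : hex.choose = v := by
      funext i
      have h1 := hex.choose_spec i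
      rw [h i, Option.some.injEq] at h1
      exact h1.symm
    rw [this]
  viol := by
    intro A u
    show decide (¬ okU B σ A u) = false ↔ _
    simp

end Conc

/-! ### the walk -/

section Walk

variable {G V ι κ : Type} [AddCommGroup G] [Fintype G] [AddCommGroup V] [Fintype V]
  [Fintype ι] [Fintype κ]

/-- length of the walk -/
@[irreducible] def tw : ℕ := 94

/-- number of the walks -/
@[irreducible] def nw : ℕ := 16 ^ tw

lemma nw_eq : nw = 16 ^ tw := by unfold nw; rfl

lemma nw_pos : 0 < nw := by rw [nw_eq]; exact pow_pos (by norm_num) _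

instance : Nonempty (Fin nw) := Fin.pos_iff_nonempty.1 nw_pos

/-- the walk on `G × G` given a numbering of `G` -/
def sg {N : ℕ} (e : G ≃ ZMod N) (j : Fin nw) : Equiv.Perm (G × G) := LCodeS152.sigX e tw j.1

lemma mixes_sg {N : ℕ} [NeZero N] (e : G ≃ ZMod N) :
    LCodeS152.Mixes (sg e) (1 / 2048 : ℝ) := by
  intro F
  have h := LCodeS152.walkX e tw F
  have hc : (Fintype.card (Fin nw) : ℝ) = (16 : ℝ) ^ tw := by
    rw [Fintype.card_fin, nw_eq]; push_cast; rfl
  rw [hc]
  have hs : ∀ x : G × G, ∑ j : Fin nw, F (sg e j x) =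
      ∑ j : Fin (16 ^ tw), F (LCodeS152.sigX e tw j x) := by
    intro x
    exact Fintype.sum_equiv (finCongr nw_eq) _ _ (fun j => rfl)
  simp only [hs]
  refine h.trans ?_
  refine mul_le_mul_of_nonneg_right ?_ (Finset.sum_nonneg fun x _ => sq_nonneg _)
  have h94 : tw = 94 := by unfold tw; rfl
  rw [h94]
  norm_num

lemma mix_sg {N : ℕ} [NeZero N] (e : G ≃ ZMod N) :
    Mix (fun j => (sg e j : G × G → G × G)) (1 / 2048 : ℝ) := mixes_sg e

/-- THE BASE MACHINE: all axioms with absolute constants -/
theorem base_ax {N : ℕ} [NeZero N] (e : G ≃ ZMod N) (B : BMac G V ι κ) {τ : ℝ} (hτ : 0 < τ)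
    (hτ1 : τ ≤ 1) (hB : B.Good τ) :
    (bm B fun j => (sg e j : G × G → G × G)).Ax
      (consts τ hτ (Fintype.card κ) (Fintype.card ι) nw) := by
  have h := ax B (fun j => (sg e j : G × G → G × G)) hτ hτ1 hB (fun j => (sg e j).bijective)
    (mix_sg e) (by norm_num) (vote_of_mixes (mixes_sg e) (by norm_num) le_rfl) (impl B _)
  rwa [Fintype.card_fin] at h

end Walk

end Crest.Agent.R289.LCc72
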