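import Crest.Agent.R289.LMI_482
import Crest.Agent.R289.TSide2_492

/-!
# Row 289, block C: memberships of the words of a legal configuration (on `DefI_306`)

* `PB d` : bundles of P-side words of degree `d`; `ZC z` : all words of a certificate are code
  words; `FC f` : all words of a configuration are code words;
* `cert_mem`, `legal_mem` : legal configurations consist of code words;
* `RelF` : the relations of a configuration without memberships; `legal_iff_rel` :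
  `lmI.Legal f ↔ FC f ∧ RelF f`;
* `labE_inj` : the label word determines the configuration.
-/

set_option autoImplicit false
set_option linter.unusedSectionVars false

namespace Crest.Agent.R289.LMI482

open Finset DefC Compile827 DefI Level492 TSide492 WordC880

variable {K : Type} [Field K] {c : Cst K}

/-- bundles of P-side words of degree `d` -/
def PB (I : Ins c) (CG : ℕ → Submodule K (I.Om → K)) (d : ℕ) : Submodule K I.AW where
  carrier := {y | ∀ a m, (fun ω => y ω a m) ∈ CG d}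
  zero_mem' _ _ := (CG d).zero_mem
  add_mem' hy hz a m := (CG d).add_mem (hy a m) (hz a m)
  smul_mem' k _ hy a m := (CG d).smul_mem k (hy a m)

/-- all words of a certificate are code words -/
structure ZC (I : Ins c) (CG : ℕ → Submodule K (I.Om → K)) (O : TO K I.T c.S') (z : I.ZW) :
    Prop where
  X : z.X ∈ TW O.C1 I.AW
  Xm : z.Xm ∈ TW O.C1 I.AW
  Z : ∀ s, z.Z s ∈ TW O.C2 I.AW
  Zm : ∀ s, z.Zm s ∈ TW O.C2 I.AW
  pX : ∀ p, z.X p ∈ PB I CG 4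
  pXm : ∀ p, z.Xm p ∈ PB I CG 4
  pZ : ∀ s p, z.Z s p ∈ PB I CG 4
  pZm : ∀ s p, z.Zm s p ∈ PB I CG 4

theorem zz_mem (I : Ins c) (CG : ℕ → Submodule K (I.Om → K)) (O : TO K I.T c.S') :
    ZC I CG O I.zz where
  X := (TW O.C1 I.AW).zero_mem
  Xm := (TW O.C1 I.AW).zero_mem
  Z _ := (TW O.C2 I.AW).zero_mem
  Zm _ := (TW O.C2 I.AW).zero_mem
  pX _ := (PB I CG 4).zero_mem
  pXm _ := (PB I CG 4).zero_mem
  pZ _ _ := (PB I CG 4).zero_mem
  pZm _ _ := (PB I CG 4).zero_mem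

/-- all words of a configuration are code words -/
structure FC (I : Ins c) (CG : ℕ → Submodule K (I.Om → K)) (O : TO K I.T c.S')
    (f : Conf I.XW I.ZW c.A.Tr) : Prop where
  x1 : ∀ i, f.x1.2 i ∈ CG 1
  x2 : ∀ i, f.x2.2 i ∈ CG 1
  z1 : ZC I CG O f.z1
  z2 : ZC I CG O f.z2

/-- the relations of a configuration, without memberships -/
def RelF (I : Ins c) (f : Conf I.XW I.ZW c.A.Tr) : Prop :=
  match f.l with
  | .boot => f.t ≤ I.L ∧ f.x1 = I.xz ∧ f.z1 = I.zz ∧ f.x2 = I.xs ∧ I.Rec f.t f.x2 f.z2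
  | .rest => f.t = 0 ∧ I.Rec I.L f.x1 f.z1 ∧ I.St f.x1 f.z1 ∧ f.x2 = I.xz ∧ f.z2 = I.zz
  | .fw ρ => f.t ≤ I.L ∧ I.Rec I.L f.x1 f.z1 ∧ I.St f.x1 f.z1 ∧ I.En ρ f.x1 f.z1 ∧
      f.x2 = I.up ρ f.x1 ∧ I.Rec f.t f.x2 f.z2
  | .bw ρ => f.t ≤ I.L ∧ I.Rec I.L f.x2 f.z2 ∧ I.St f.x2 f.z2 ∧ I.Bk ρ f.x2 f.z2 ∧
      f.x1 = I.dn ρ f.x2 ∧ I.Rec f.t f.x1 f.z1

namespace Hyp

variable {I : Ins c} {CG : ℕ → Submodule K (I.Om → K)} {O : TO K I.T c.S'}
  {P : TSide492.Path I.T c.J1 c.J2} {ι : Type} [Fintype ι] {α : ι → c.S' → c.JT → K}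
  {Pm : {s : c.S' // s ≠ c.s0'} → ι → K}

theorem wv_mem (h : Hyp I CG O P α Pm) {x : c.A.Reg → I.Om → K} (hx : ∀ i, x i ∈ CG 1) :
    I.wv x ∈ PB I CG 4 := by
  intro a m
  have h1 : I.evalW (c.A.comp m) x ∈ CG 4 :=
    evalC_mem (fun g => I.pm (I.act g)) CG h.mul h.tr h.ti I.pubP x h.pub hx _ 4 (h.wf.comp_hom m)
  by_cases ha : a = 0
  · have : (fun ω => I.wv x ω a m) = I.evalW (c.A.comp m) x := by
      funext ω; simp [Ins.wv, ha]
    rw [this]; exact h1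
  · have : (fun ω => I.wv x ω a m) = 0 := by
      funext ω; simp [Ins.wv, ha]
    rw [this]; exact (CG 4).zero_mem

theorem Lam_mem (h : Hyp I CG O P α Pm) {d : ℕ} {y : I.AW} (hy : y ∈ PB I CG d) :
    I.Lam y ∈ PB I CG d := by
  intro a m
  have : (fun ω => I.Lam y ω a m)
      = ∑ j, ∑ b, c.lam j a b • fun ω => y (I.pm (I.mv j) ω) b m := by
    funext ω
    simp only [Finset.sum_apply, Pi.smul_apply, smul_eq_mul]
    rfl
  rw [this]
  exact (CG d).sum_mem fun j _ => (CG d).sum_mem fun b _ =>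
    (CG d).smul_mem _ (h.mv j d _ (hy b m))

theorem evalW_mem (h : Hyp I CG O P α Pm) {e : PE K c.A.Reg c.A.Pub c.G} {d : ℕ} (he : e.Hom d)
    {x : c.A.Reg → I.Om → K} (hx : ∀ i, x i ∈ CG 1) : I.evalW e x ∈ CG d :=
  evalC_mem (fun g => I.pm (I.act g)) CG h.mul h.tr h.ti I.pubP x h.pub hx _ d he

theorem up_mem (h : Hyp I CG O P α Pm) (ρ : c.A.Tr) {x : I.XW} (hx : ∀ i, x.2 i ∈ CG 1)
    (i : c.A.Reg) : (I.up ρ x).2 i ∈ CG 1 := (h.cd).up_mem h.wf ρ hx i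

theorem dn_mem (h : Hyp I CG O P α Pm) (ρ : c.A.Tr) {x : I.XW} (hx : ∀ i, x.2 i ∈ CG 1)
    (i : c.A.Reg) : (I.dn ρ x).2 i ∈ CG 1 := (h.cd).dn_mem h.wf ρ hx i

/-- P-side values of the certificate -/
theorem cert_val (h : Hyp I CG O P α Pm) {x : I.XW} (hx : ∀ i, x.2 i ∈ CG 1) (t : ℕ)
    (ht : t ≤ I.L) :
    (∀ p, (h.cert x t).X p ∈ PB I CG 4) ∧ (∀ p, (h.cert x t).Xm p ∈ PB I CG 4) ∧
      (∀ s p, (h.cert x t).Z s p ∈ PB I CG 4) ∧ (∀ s p, (h.cert x t).Zm s p ∈ PB I CG 4) := by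
  have hw := h.wv_mem hx
  induction t with
  | zero =>
    rw [← h.ent_cert]
    exact ⟨fun p => (PB I CG 4).smul_mem _ hw, fun _ => (PB I CG 4).zero_mem,
      fun s p => (PB I CG 4).add_mem ((PB I CG 4).smul_mem _ (h.Lam_mem hw))
        ((PB I CG 4).smul_mem _ hw), fun _ _ => (PB I CG 4).zero_mem⟩
  | succ t ih =>
    obtain ⟨h1, h2, h3, h4⟩ := ih (by omega)
    rw [← h.push_cert t x (by omega)]
    exact ⟨fun p => (PB I CG 4).add_mem ((PB I CG 4).add_mem (h.Lam_mem (h1 p)) (h2 p))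
        ((PB I CG 4).smul_mem _ hw), h1,
      fun s p => (PB I CG 4).add_mem ((PB I CG 4).add_mem ((PB I CG 4).add_mem
        (h.Lam_mem (h3 s p)) (h4 s p)) ((PB I CG 4).smul_mem _ (h.Lam_mem hw)))
        ((PB I CG 4).smul_mem _ hw), h3⟩

theorem tw_left {M : Type} [AddCommGroup M] [Module K M] (O : TO K I.T c.S') (g : I.T)
    (q : I.n → M) (hq : q ∈ TW O.C2 M) : (fun a : I.n => q (g * a.1, a.2)) ∈ TW O.C2 M :=
  fun φ => O.lt2 _ (hq φ) g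

/-- **all words of the explicit certificate are code words** -/
theorem cert_mem (h : Hyp I CG O P α Pm) {x : I.XW} (hx : ∀ i, x.2 i ∈ CG 1) (t : ℕ)
    (ht : t ≤ I.L) : ZC I CG O (h.cert x t) := by
  obtain ⟨h1, h2, h3, h4⟩ := h.cert_val hx t ht
  have mX : recX I.Lam I.D (I.wv x.2) t ∈ TW O.C1 I.AW := by
    rw [h.recX_congr _ ht]
    exact recX_mem O P I.Lam _ t
  have mXm : recXm I.Lam I.D (I.wv x.2) t ∈ TW O.C1 I.AW := by
    rw [h.recXm_congr _ ht]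
    exact recXm_mem O P I.Lam _ t
  have mQ : I.Q (I.wv x.2) (I.D t) (recX I.Lam I.D (I.wv x.2) t) ∈ TW O.C2 I.AW := by
    have := Qt_mem O P I.Lam (I.wv x.2) t mX
    rw [Qt] at this
    rw [Ins.Q, h.mU, h.mN1, h.mN2, h.D t ht]
    exact this
  have mQm : I.Q (I.wv x.2) (I.Dm t) (recXm I.Lam I.D (I.wv x.2) t) ∈ TW O.C2 I.AW := by
    have := Qm_mem O P I.Lam (I.wv x.2) t mXm
    rw [Qm] at this
    rw [Ins.Q, h.mU, h.mN1, h.mN2, h.Dm_congr ht]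
    exact this
  exact
    { X := mX
      Xm := mXm
      Z := fun s => MirMat719.Mir_mem (s0 := c.s0') (α := α) (P := Pm) (γ := I.gam)
        (TW O.C2 I.AW) (fun g q hq => tw_left O g q hq) mQ s
      Zm := fun s => MirMat719.Mir_mem (s0 := c.s0') (α := α) (P := Pm) (γ := I.gam)
        (TW O.C2 I.AW) (fun g q hq => tw_left O g q hq) mQm s
      pX := h1
      pXm := h2
      pZ := h3
      pZm := h4 }

/-- **legal configurations consist of code words** -/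
theorem legal_mem (h : Hyp I CG O P α Pm) {f : Conf I.XW I.ZW c.A.Tr} (hf : h.lmI.Legal f) :
    FC I CG O f := by
  have hz0 := zz_mem I CG O
  have hx0 : ∀ i, (I.xz).2 i ∈ CG 1 := fun _ => (CG 1).zero_mem
  obtain ⟨a, rfl⟩ := (h.lmI.legal_iff f).1 hf
  cases a with
  | boot t ht => exact ⟨hx0, h.x0, hz0, h.cert_mem h.x0 t ht⟩
  | rest x hx => exact ⟨hx.1, hx0, h.cert_mem hx.1 _ le_rfl, hz0⟩
  | fw ρ x hx he t ht =>
    have hu := h.up_mem ρ hx.1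
    exact ⟨hx.1, hu, h.cert_mem hx.1 _ le_rfl, h.cert_mem hu t ht⟩
  | bw ρ x hx he t ht =>
    have hd := h.dn_mem ρ hx.1
    exact ⟨hd, hx.1, h.cert_mem hd t ht, h.cert_mem hx.1 _ le_rfl⟩

/-- **LEMMA U**: legality = code words and relations -/
theorem legal_iff_rel (h : Hyp I CG O P α Pm) (f : Conf I.XW I.ZW c.A.Tr) :
    h.lmI.Legal f ↔ FC I CG O f ∧ RelF I f := by
  constructor
  · intro hf
    refine ⟨h.legal_mem hf, ?_⟩
    obtain ⟨l, t, x1, z1, x2, z2⟩ := f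
    cases l with
    | boot =>
      obtain ⟨h1, h2, h3, h4, h5⟩ := hf
      exact ⟨h1, h2, h3, h4, h5.2.2⟩
    | rest =>
      obtain ⟨h1, h2, h3, h4, h5⟩ := hf
      exact ⟨h1, h2.2.2, h3.2, h4, h5⟩
    | fw ρ =>
      obtain ⟨h1, h2, h3, h4, h5, h6⟩ := hf
      exact ⟨h1, h2.2.2, h3.2, h4, h5, h6.2.2⟩
    | bw ρ =>
      obtain ⟨h1, h2, h3, h4, h5, h6⟩ := hf
      exact ⟨h1, h2.2.2, h3.2, h4, h5, h6.2.2⟩
  · rintro ⟨hc, hf⟩
    obtain ⟨l, t, x1, z1, x2, z2⟩ := f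
    cases l with
    | boot =>
      obtain ⟨h1, h2, h3, h4, h5⟩ := hf
      exact ⟨h1, h2, h3, h4, hc.z2.X, hc.z2.Xm, h5⟩
    | rest =>
      obtain ⟨h1, h2, h3, h4, h5⟩ := hf
      exact ⟨h1, ⟨hc.z1.X, hc.z1.Xm, h2⟩, ⟨hc.x1, h3⟩, h4, h5⟩
    | fw ρ =>
      obtain ⟨h1, h2, h3, h4, h5, h6⟩ := hf
      exact ⟨h1, ⟨hc.z1.X, hc.z1.Xm, h2⟩, ⟨hc.x1, h3⟩, h4, h5, hc.z2.X, hc.z2.Xm, h6⟩
    | bw ρ =>
      obtain ⟨h1, h2, h3, h4, h5, h6⟩ := hf
      exact ⟨h1, ⟨hc.z2.X, hc.z2.Xm, h2⟩, ⟨hc.x2, h3⟩, h4, h5, hc.z1.X, hc.z1.Xm, h6⟩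

end Hyp

/-! ### label words -/

theorem bankE_inj {I : Ins c} [Nonempty I.Γ] {x x' : I.XW} {z z' : I.ZW}
    (h : I.bankE x z = I.bankE x' z') : x = x' ∧ z = z' := by
  obtain ⟨g0⟩ := ‹Nonempty I.Γ›
  have h0 := congrFun h (g0, 1)
  constructor
  · refine Prod.ext (congrArg Cst.Bank.stg h0) ?_
    funext i ⟨g, s⟩
    exact congrFun (congrFun (congrArg Cst.Bank.R (congrFun h (g, 1))) i) s
  · refine Ins.ZW.ext ?_ ?_ ?_ ?_
    · funext ⟨τ, s'⟩ ⟨g, s⟩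
      exact congrFun (congrFun (congrArg Cst.Bank.X (congrFun h (g, τ))) s') s
    · funext ⟨τ, s'⟩ ⟨g, s⟩
      exact congrFun (congrFun (congrArg Cst.Bank.Xm (congrFun h (g, τ))) s') s
    · funext q ⟨τ, s'⟩ ⟨g, s⟩
      exact congrFun (congrFun (congrFun (congrArg Cst.Bank.Z (congrFun h (g, τ))) q) s') s
    · funext q ⟨τ, s'⟩ ⟨g, s⟩
      exact congrFun (congrFun (congrFun (congrArg Cst.Bank.Zm (congrFun h (g, τ))) q) s') s

/-- the label word determines the configuration up to the clock value -/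
theorem labE_inj' {I : Ins c} [Nonempty I.Γ] {Ck : Type} {cw : ℕ → I.U → Ck}
    {f f' : Conf I.XW I.ZW c.A.Tr} (h : I.labE cw f = I.labE cw f') :
    f.l = f'.l ∧ (∀ u, cw f.t u = cw f'.t u) ∧ f.x1 = f'.x1 ∧ f.z1 = f'.z1 ∧ f.x2 = f'.x2 ∧
      f.z2 = f'.z2 := by
  have h1 : I.bankE f.x1 f.z1 = I.bankE f'.x1 f'.z1 := by
    funext u; exact congrArg Cst.Lab.b1 (congrFun h u)
  have h2 : I.bankE f.x2 f.z2 = I.bankE f'.x2 f'.z2 := by
    funext u; exact congrArg Cst.Lab.b2 (congrFun h u)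
  obtain ⟨g0⟩ := ‹Nonempty I.Γ›
  have : Nonempty I.Γ := ⟨g0⟩
  obtain ⟨e1, e2⟩ := bankE_inj h1
  obtain ⟨e3, e4⟩ := bankE_inj h2
  exact ⟨congrArg Cst.Lab.l (congrFun h (g0, 1)),
    fun u => congrArg Cst.Lab.ck (congrFun h u), e1, e2, e3, e4⟩

/-- clock value of a legal configuration -/
theorem Hyp.legal_t {I : Ins c} {CG : ℕ → Submodule K (I.Om → K)} {O : TO K I.T c.S'}
    {P : TSide492.Path I.T c.J1 c.J2} {ι : Type} [Fintype ι] {α : ι → c.S' → c.JT → K}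
    {Pm : {s : c.S' // s ≠ c.s0'} → ι → K} (h : Hyp I CG O P α Pm)
    {f : Conf I.XW I.ZW c.A.Tr} (hf : h.lmI.Legal f) : f.t ≤ I.L := by
  obtain ⟨a, rfl⟩ := (h.lmI.legal_iff f).1 hf
  cases a with
  | boot t ht => exact ht
  | rest x hx => exact Nat.zero_le _
  | fw ρ x hx he t ht => exact ht
  | bw ρ x hx he t ht => exact ht

/-- **the label word determines the legal configuration** -/
theorem Hyp.labE_inj {I : Ins c} [Nonempty I.Γ] {CG : ℕ → Submodule K (I.Om → K)}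
    {O : TO K I.T c.S'} {P : TSide492.Path I.T c.J1 c.J2} {ι : Type} [Fintype ι]
    {α : ι → c.S' → c.JT → K} {Pm : {s : c.S' // s ≠ c.s0'} → ι → K} (h : Hyp I CG O P α Pm)
    {Ck : Type} {cw : ℕ → I.U → Ck}
    (hcw : ∀ t t', t ≤ I.L → t' ≤ I.L → (∀ u, cw t u = cw t' u) → t = t')
    {f f' : Conf I.XW I.ZW c.A.Tr} (hf : h.lmI.Legal f) (hf' : h.lmI.Legal f')
    (he : I.labE cw f = I.labE cw f') : f = f' := by
  obtain ⟨e0, e1, e2, e3, e4, e5⟩ := labE_inj' he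
  exact Conf.ext e0 (hcw _ _ (h.legal_t hf) (h.legal_t hf') e1) e2 e3 e4 e5

end Crest.Agent.R289.LMI482
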