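import Mathlib

set_option autoImplicit false
set_option linter.unusedSectionVars false

/-!
Abstract two-place local testability (row 289, block B3).  Own write-up of a known type of argument
(Dinur-Evra-Livne-Lubotzky-Mozes: local correction on square complexes), here in a form which needs
expansion on vertices only.
-/

namespace Crest.Agent.R289.LTC239

open Finset Classical

variable {V A B κ : Type}

/-- an abstract square complex: corners of squares are triples `(v, a, b)`. -/
structure Cpx (V A B : Type) where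
  X : V × A → V × A
  be : V → A → B → B
  Y : V × B → V × B
  al : V → B → A → A

/-- the corner at the other end of the x-edge. -/
def Cpx.sx (C : Cpx V A B) (s : V × A × B) : V × A × B :=
  ((C.X (s.1, s.2.1)).1, (C.X (s.1, s.2.1)).2, C.be s.1 s.2.1 s.2.2)

/-- the corner at the other end of the y-edge. -/
def Cpx.sy (C : Cpx V A B) (s : V × A × B) : V × A × B :=
  ((C.Y (s.1, s.2.2)).1, C.al s.1 s.2.2 s.2.1, (C.Y (s.1, s.2.2)).2)

/-- axioms of the complex. -/
structure Cpx.Ok (C : Cpx V A B) : Prop where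
  sxx : ∀ s, C.sx (C.sx s) = s
  syy : ∀ s, C.sy (C.sy s) = s
  sxy : ∀ s, C.sx (C.sy s) = C.sy (C.sx s)
  Xne : ∀ v a, (C.X (v, a)).1 ≠ v
  Yne : ∀ v b, (C.Y (v, b)).1 ≠ v

/-- the row word which the neighbour along the x-edge `(v, a)` proposes. -/
def Cpx.nbX (C : Cpx V A B) (w : V → A → B → κ) (v : V) (a : A) : B → κ :=
  fun b => w (C.X (v, a)).1 (C.X (v, a)).2 (C.be v a b)

/-- the column word which the neighbour along the y-edge `(v, b)` proposes. -/
def Cpx.nbY (C : Cpx V A B) (w : V → A → B → κ) (v : V) (b : B) : A → κ :=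
  fun a => w (C.Y (v, b)).1 (C.al v b a) (C.Y (v, b)).2

/-- the x-edge `(v, a)` is disputed. -/
def Cpx.dX (C : Cpx V A B) (w : V → A → B → κ) (s : V × A) : Prop :=
  w s.1 s.2 ≠ C.nbX w s.1 s.2

/-- the y-edge `(v, b)` is disputed. -/
def Cpx.dY (C : Cpx V A B) (w : V → A → B → κ) (s : V × B) : Prop :=
  (fun a => w s.1 a s.2) ≠ C.nbY w s.1 s.2

/-- the candidate `u` disagrees with the neighbour along `(v, a)`. -/
def Cpx.eX (C : Cpx V A B) (w : V → A → B → κ) (v : V) (u : A → B → κ) (a : A) : Prop :=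
  u a ≠ C.nbX w v a

/-- the candidate `u` disagrees with the neighbour along `(v, b)`. -/
def Cpx.eY (C : Cpx V A B) (w : V → A → B → κ) (v : V) (u : A → B → κ) (b : B) : Prop :=
  (fun a => u a b) ≠ C.nbY w v b

/-- all local words are tensor words. -/
def Good (Row : V → A → Set (B → κ)) (Col : V → B → Set (A → κ)) (w : V → A → B → κ) : Prop :=
  ∀ v, (∀ a, w v a ∈ Row v a) ∧ (∀ b, (fun a => w v a b) ∈ Col v b)

section

variable [Fintype V] [Fintype A] [Fintype B]

/-- weighted number of disputed edges (each edge is counted from both ends). -/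
noncomputable def Cpx.Phi (C : Cpx V A B) (w : V → A → B → κ) : ℕ :=
  Fintype.card B * (univ.filter fun s : V × A => C.dX w s).card +
    Fintype.card A * (univ.filter fun s : V × B => C.dY w s).card

/-- weighted number of edges at `v` where the candidate `u` disagrees with the neighbours. -/
noncomputable def Cpx.cnt (C : Cpx V A B) (w : V → A → B → κ) (v : V) (u : A → B → κ) : ℕ :=
  Fintype.card B * (univ.filter fun a : A => C.eX w v u a).card +
    Fintype.card A * (univ.filter fun b : B => C.eY w v u b).card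

end

/-! ### counting lemma for a change at one vertex -/

theorem change {T : Type} [Fintype V] [Fintype T] (X : V × T → V × T) (hX : ∀ s, X (X s) = s)
    (hne : ∀ s, (X s).1 ≠ s.1) (D D' : V × T → Prop) (hD : ∀ s, D s → D (X s))
    (hD' : ∀ s, D' s → D' (X s)) (v : V)
    (hag : ∀ s, s.1 ≠ v → (X s).1 ≠ v → (D s ↔ D' s)) :
    (univ.filter fun s => D' s).card + 2 * (univ.filter fun t : T => D (v, t)).card =
      (univ.filter fun s => D s).card + 2 * (univ.filter fun t : T => D' (v, t)).card := by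
  have key : ∀ E : V × T → Prop, (∀ s, E s → E (X s)) →
      (univ.filter fun s => E s).card = 2 * (univ.filter fun t : T => E (v, t)).card +
        (univ.filter fun s : V × T => E s ∧ s.1 ≠ v ∧ (X s).1 ≠ v).card := by
    intro E hE
    have h1 : (univ.filter fun s : V × T => E s ∧ s.1 = v).card =
        (univ.filter fun t : T => E (v, t)).card := by
      refine card_bij' (fun s _ => s.2) (fun t _ => (v, t)) ?_ ?_ ?_ ?_
      · intro s hs
        simp only [mem_filter, mem_univ, true_and] at hs ⊢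
        obtain ⟨hs, rfl⟩ := hs
        exact hs
      · intro t ht
        simp only [mem_filter, mem_univ, true_and] at ht ⊢
        exact ⟨ht, trivial⟩
      · intro s hs
        simp only [mem_filter, mem_univ, true_and] at hs
        obtain ⟨_, rfl⟩ := hs
        rfl
      · intro t _
        rfl
    have h2 : (univ.filter fun s : V × T => E s ∧ (X s).1 = v).card =
        (univ.filter fun s : V × T => E s ∧ s.1 = v).card := by
      refine card_bij' (fun s _ => X s) (fun s _ => X s) ?_ ?_ ?_ ?_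
      · intro s hs
        simp only [mem_filter, mem_univ, true_and] at hs ⊢
        exact ⟨hE s hs.1, hs.2⟩
      · intro s hs
        simp only [mem_filter, mem_univ, true_and] at hs ⊢
        exact ⟨hE s hs.1, by rw [hX]; exact hs.2⟩
      · intro s _
        exact hX s
      · intro s _
        exact hX s
    have h3 : (univ.filter fun s => E s) =
        (univ.filter fun s : V × T => E s ∧ s.1 = v) ∪
          ((univ.filter fun s : V × T => E s ∧ (X s).1 = v) ∪
            (univ.filter fun s : V × T => E s ∧ s.1 ≠ v ∧ (X s).1 ≠ v)) := by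
      ext s
      simp only [mem_filter, mem_univ, true_and, mem_union]
      tauto
    rw [h3, card_union_of_disjoint, card_union_of_disjoint, h2, h1]
    · ring
    · rw [disjoint_left]
      intro s hs hs'
      simp only [mem_filter, mem_univ, true_and] at hs hs'
      exact hs'.2.2 hs.2
    · rw [disjoint_left]
      intro s hs hs'
      simp only [mem_filter, mem_univ, true_and, mem_union] at hs hs'
      rcases hs' with hs' | hs'
      · exact hne s (by rw [hs'.2, hs.2])
      · exact hs'.2.1 hs.2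
  rw [key D hD, key D' hD']
  have h4 : (univ.filter fun s : V × T => D s ∧ s.1 ≠ v ∧ (X s).1 ≠ v) =
      (univ.filter fun s : V × T => D' s ∧ s.1 ≠ v ∧ (X s).1 ≠ v) := by
    ext s
    simp only [mem_filter, mem_univ, true_and]
    constructor
    · rintro ⟨h, h1, h2⟩
      exact ⟨(hag s h1 h2).1 h, h1, h2⟩
    · rintro ⟨h, h1, h2⟩
      exact ⟨(hag s h1 h2).2 h, h1, h2⟩
  rw [h4]
  ring

section main

variable [Fintype V] [Fintype A] [Fintype B] [Nonempty A] [Nonempty B]

theorem XX {C : Cpx V A B} (h : C.Ok) (s : V × A) : C.X (C.X s) = s := by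
  obtain ⟨b⟩ := (inferInstance : Nonempty B)
  have h1 := h.sxx (s.1, s.2, b)
  simp only [Cpx.sx, Prod.mk.injEq] at h1
  exact Prod.ext h1.1 h1.2.1

theorem YY {C : Cpx V A B} (h : C.Ok) (s : V × B) : C.Y (C.Y s) = s := by
  obtain ⟨a⟩ := (inferInstance : Nonempty A)
  have h1 := h.syy (s.1, a, s.2)
  simp only [Cpx.sy, Prod.mk.injEq] at h1
  exact Prod.ext h1.1 h1.2.2

theorem bebe {C : Cpx V A B} (h : C.Ok) (v : V) (a : A) (b : B) :
    C.be (C.X (v, a)).1 (C.X (v, a)).2 (C.be v a b) = b := by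
  have h1 := h.sxx (v, a, b)
  simp only [Cpx.sx, Prod.mk.injEq] at h1
  exact h1.2.2

theorem alal {C : Cpx V A B} (h : C.Ok) (v : V) (b : B) (a : A) :
    C.al (C.Y (v, b)).1 (C.Y (v, b)).2 (C.al v b a) = a := by
  have h1 := h.syy (v, a, b)
  simp only [Cpx.sy, Prod.mk.injEq] at h1
  exact h1.2.1

theorem dX_symm {C : Cpx V A B} (h : C.Ok) (w : V → A → B → κ) (s : V × A) (hs : C.dX w s) :
    C.dX w (C.X s) := by
  intro h1
  apply hs
  funext b
  have h2 := congrFun h1 (C.be s.1 s.2 b)
  simp only [Cpx.nbX] at h2 ⊢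
  rw [show ((C.X s).1, (C.X s).2) = C.X s from rfl, XX h s] at h2
  rw [h2]
  congr 1
  exact (bebe h s.1 s.2 b).symm

theorem dY_symm {C : Cpx V A B} (h : C.Ok) (w : V → A → B → κ) (s : V × B) (hs : C.dY w s) :
    C.dY w (C.Y s) := by
  intro h1
  apply hs
  funext a
  have h2 := congrFun h1 (C.al s.1 s.2 a)
  simp only [Cpx.nbY] at h2 ⊢
  rw [show ((C.Y s).1, (C.Y s).2) = C.Y s from rfl, YY h s] at h2
  rw [h2]
  rw [show C.al (C.Y s).1 (C.Y s).2 (C.al s.1 s.2 a) = a from alal h s.1 s.2 a]

theorem nbX_update {C : Cpx V A B} (h : C.Ok) (w : V → A → B → κ) (v : V) (u : A → B → κ)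
    (a : A) : C.nbX (Function.update w v u) v a = C.nbX w v a := by
  funext b
  simp only [Cpx.nbX]
  rw [Function.update_of_ne (h.Xne v a)]

theorem nbY_update {C : Cpx V A B} (h : C.Ok) (w : V → A → B → κ) (v : V) (u : A → B → κ)
    (b : B) : C.nbY (Function.update w v u) v b = C.nbY w v b := by
  funext a
  simp only [Cpx.nbY]
  rw [Function.update_of_ne (h.Yne v b)]

/-- effect of a change at one vertex. -/
theorem Phi_update {C : Cpx V A B} (h : C.Ok) (w : V → A → B → κ) (v : V) (u : A → B → κ) :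
    C.Phi (Function.update w v u) + 2 * C.cnt w v (w v) = C.Phi w + 2 * C.cnt w v u := by
  have e1 := change C.X (XX h) (fun s => h.Xne s.1 s.2) (C.dX w) (C.dX (Function.update w v u))
    (dX_symm h w) (dX_symm h _) v (by
      intro s h1 h2
      have e : C.nbX (Function.update w v u) s.1 s.2 = C.nbX w s.1 s.2 := by
        funext b
        simp only [Cpx.nbX]
        rw [Function.update_of_ne (show (C.X (s.1, s.2)).1 ≠ v from h2)]
      simp only [Cpx.dX, e, Function.update_of_ne h1])
  have e2 := change C.Y (YY h) (fun s => h.Yne s.1 s.2) (C.dY w) (C.dY (Function.update w v u))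
    (dY_symm h w) (dY_symm h _) v (by
      intro s h1 h2
      have e : C.nbY (Function.update w v u) s.1 s.2 = C.nbY w s.1 s.2 := by
        funext a
        simp only [Cpx.nbY]
        rw [Function.update_of_ne (show (C.Y (s.1, s.2)).1 ≠ v from h2)]
      simp only [Cpx.dY, e, Function.update_of_ne h1])
  have f1 : (univ.filter fun a : A => C.dX (Function.update w v u) (v, a)) =
      (univ.filter fun a : A => C.eX w v u a) := by
    ext a
    rw [mem_filter, mem_filter]
    unfold Cpx.dX Cpx.eX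
    simp only [nbX_update h, Function.update_self]
  have f2 : (univ.filter fun b : B => C.dY (Function.update w v u) (v, b)) =
      (univ.filter fun b : B => C.eY w v u b) := by
    ext b
    rw [mem_filter, mem_filter]
    unfold Cpx.dY Cpx.eY
    simp only [nbY_update h, Function.update_self]
  rw [f1] at e1
  rw [f2] at e2
  simp only [Cpx.Phi, Cpx.cnt]
  have g1 : (univ.filter fun a : A => C.dX w (v, a)) =
      (univ.filter fun a : A => C.eX w v (w v) a) := rfl
  have g2 : (univ.filter fun b : B => C.dY w (v, b)) =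
      (univ.filter fun b : B => C.eY w v (w v) b) := rfl
  rw [g1] at e1
  rw [g2] at e2
  linear_combination (Fintype.card B) * e1 + (Fintype.card A) * e2

/-- a family is locally minimal. -/
def LocMin (C : Cpx V A B) (Row : V → A → Set (B → κ)) (Col : V → B → Set (A → κ))
    (w : V → A → B → κ) : Prop :=
  ∀ v (u : A → B → κ), (∀ a, u a ∈ Row v a) → (∀ b, (fun a => u a b) ∈ Col v b) →
    C.cnt w v (w v) ≤ C.cnt w v u

theorem descent {C : Cpx V A B} (h : C.Ok) (Row : V → A → Set (B → κ))
    (Col : V → B → Set (A → κ)) : ∀ (n : ℕ) (w : V → A → B → κ), Good Row Col w → C.Phi w ≤ n →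
    ∃ w' : V → A → B → κ, Good Row Col w' ∧ LocMin C Row Col w' ∧
      C.Phi w' + (univ.filter fun v => w' v ≠ w v).card ≤ C.Phi w := by
  intro n
  induction n with
  | zero =>
    intro w hw h0
    refine ⟨w, hw, ?_, by simp⟩
    intro v u h1 h2
    have := Phi_update h w v u
    omega
  | succ n ih =>
    intro w hw hn
    by_cases hm : LocMin C Row Col w
    · exact ⟨w, hw, hm, by simp⟩
    · unfold LocMin at hm
      push Not at hm
      obtain ⟨v, u, h1, h2, h3⟩ := hm
      have h4 := Phi_update h w v u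
      have hg : Good Row Col (Function.update w v u) := by
        intro v'
        by_cases hv : v' = v
        · subst hv
          rw [Function.update_self]
          exact ⟨h1, h2⟩
        · rw [Function.update_of_ne hv]
          exact hw v'
      obtain ⟨w', k1, k2, k3⟩ := ih (Function.update w v u) hg (by omega)
      refine ⟨w', k1, k2, ?_⟩
      have h5 : (univ.filter fun x => w' x ≠ w x).card ≤
          (univ.filter fun x => w' x ≠ Function.update w v u x).card + 1 := by
        have : (univ.filter fun x => w' x ≠ w x) ⊆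
            insert v (univ.filter fun x => w' x ≠ Function.update w v u x) := by
          intro x hx
          simp only [mem_filter, mem_univ, true_and, mem_insert] at hx ⊢
          by_cases hxv : x = v
          · exact Or.inl hxv
          · right
            rw [Function.update_of_ne hxv]
            exact hx
        exact (card_le_card this).trans (card_insert_le _ _)
      omega

/-- hypothesis: robust testability of the tensor codes. -/
def Robust (Row : V → A → Set (B → κ)) (Col : V → B → Set (A → κ)) (C0 : ℝ) : Prop :=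
  ∀ v (r : A → B → κ) (c : B → A → κ), (∀ a, r a ∈ Row v a) → (∀ b, c b ∈ Col v b) →
    ∃ u : A → B → κ, (∀ a, u a ∈ Row v a) ∧ (∀ b, (fun a => u a b) ∈ Col v b) ∧
      ((Fintype.card B * (univ.filter fun a : A => u a ≠ r a).card +
        Fintype.card A * (univ.filter fun b : B => (fun a => u a b) ≠ c b).card : ℕ) : ℝ) ≤
      C0 * ((univ.filter fun p : A × B => r p.1 p.2 ≠ c p.2 p.1).card : ℝ)

/-- hypothesis: expansion of the vertex graph with neighbour map `X`. -/
def Expand {T : Type} [Fintype T] (X : V × T → V × T) (cp lam2 : ℝ) : Prop :=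
  ∀ φ : V → ℝ, (∀ v, 0 ≤ φ v) →
    ∑ v, ((∑ t : T, φ (X (v, t)).1) / (Fintype.card T : ℝ)) ^ 2 ≤
      cp * (∑ v, φ v) ^ 2 / (Fintype.card V : ℝ) + lam2 * ∑ v, φ v ^ 2

theorem card_prod {S T : Type} [Fintype S] [Fintype T] (P : S → T → Prop) :
    (univ.filter fun p : S × T => P p.1 p.2).card =
      ∑ a : S, (univ.filter fun b : T => P a b).card := by
  simp only [card_filter, Fintype.sum_prod_type]

theorem card_inj_le {T : Type} [Fintype T] (f : T → T) (hf : Function.Injective f)
    (P : T → Prop) : (univ.filter fun b => P (f b)).card ≤ (univ.filter fun b => P b).card := by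
  refine card_le_card_of_injOn f ?_ hf.injOn
  intro x hx
  simp only [coe_filter, mem_univ, true_and, Set.mem_ofPred_eq] at hx ⊢
  exact hx

theorem be_inj {C : Cpx V A B} (h : C.Ok) (v : V) (a : A) : Function.Injective (C.be v a) := by
  intro b b' hb
  rw [← bebe h v a b, ← bebe h v a b', hb]

theorem al_inj {C : Cpx V A B} (h : C.Ok) (v : V) (b : B) : Function.Injective (C.al v b) := by
  intro a a' ha
  rw [← alal h v b a, ← alal h v b a', ha]

/-- number of disputed x-edges at `v`. -/
noncomputable def Cpx.nX (C : Cpx V A B) (w : V → A → B → κ) (v : V) : ℕ :=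
  (univ.filter fun a : A => C.dX w (v, a)).card

/-- number of disputed y-edges at `v`. -/
noncomputable def Cpx.nY (C : Cpx V A B) (w : V → A → B → κ) (v : V) : ℕ :=
  (univ.filter fun b : B => C.dY w (v, b)).card

theorem Phi_eq (C : Cpx V A B) (w : V → A → B → κ) :
    C.Phi w = ∑ v, (Fintype.card B * C.nX w v + Fintype.card A * C.nY w v) := by
  have e1 : (univ.filter fun s : V × A => C.dX w s).card = ∑ v, C.nX w v :=
    card_prod (fun v a => C.dX w (v, a))
  have e2 : (univ.filter fun s : V × B => C.dY w s).card = ∑ v, C.nY w v :=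
    card_prod (fun v b => C.dY w (v, b))
  rw [Cpx.Phi, e1, e2, mul_sum, mul_sum, ← sum_add_distrib]

/-- disagreement of the neighbours costs disputed edges one step away. -/
theorem far {C : Cpx V A B} (h : C.Ok) (w : V → A → B → κ) (v : V) :
    (univ.filter fun p : A × B => C.nbX w v p.1 p.2 ≠ C.nbY w v p.2 p.1).card ≤
      ∑ a, C.nY w (C.X (v, a)).1 + ∑ b, C.nX w (C.Y (v, b)).1 := by
  have h1 : (univ.filter fun p : A × B => C.nbX w v p.1 p.2 ≠ C.nbY w v p.2 p.1) ⊆
      (univ.filter fun p : A × B => C.dY w ((C.X (v, p.1)).1, C.be v p.1 p.2)) ∪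
      (univ.filter fun p : A × B => C.dX w ((C.Y (v, p.2)).1, C.al v p.2 p.1)) := by
    rintro ⟨a, b⟩ hp
    simp only [mem_filter, mem_univ, true_and, mem_union] at hp ⊢
    by_contra hc
    push Not at hc
    obtain ⟨c1, c2⟩ := hc
    simp only [Cpx.dY, Cpx.dX, not_not] at c1 c2
    apply hp
    have d1 := congrFun c1 (C.X (v, a)).2
    have d2 := congrFun c2 (C.Y (v, b)).2
    simp only [Cpx.nbX, Cpx.nbY] at d1 d2 ⊢
    rw [d1, d2]
    have h2 := h.sxy (v, a, b)
    simp only [Cpx.sx, Cpx.sy, Prod.mk.injEq] at h2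
    rw [← h2.1, ← h2.2.1, ← h2.2.2]
  have h2 : (univ.filter fun p : A × B => C.dY w ((C.X (v, p.1)).1, C.be v p.1 p.2)).card ≤
      ∑ a, C.nY w (C.X (v, a)).1 := by
    rw [card_prod (fun a b => C.dY w ((C.X (v, a)).1, C.be v a b))]
    refine sum_le_sum fun a _ => ?_
    exact card_inj_le (C.be v a) (be_inj h v a)
      (fun b => C.dY w ((C.X (v, a)).1, b))
  have h3 : (univ.filter fun p : A × B => C.dX w ((C.Y (v, p.2)).1, C.al v p.2 p.1)).card ≤
      ∑ b, C.nX w (C.Y (v, b)).1 := by
    have e : (univ.filter fun p : A × B => C.dX w ((C.Y (v, p.2)).1, C.al v p.2 p.1)).card =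
        ∑ b : B, (univ.filter fun a : A => C.dX w ((C.Y (v, b)).1, C.al v b a)).card := by
      simp only [card_filter, Fintype.sum_prod_type]
      exact sum_comm
    rw [e]
    refine sum_le_sum fun b _ => ?_
    exact card_inj_le (C.al v b) (al_inj h v b)
      (fun a => C.dX w ((C.Y (v, b)).1, a))
  exact (card_le_card h1).trans ((card_union_le _ _).trans (add_le_add h2 h3))

/-- the main inequality for a locally minimal family: either no dispute at all or disputes at a
constant fraction of the vertices. -/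
theorem minimal {C : Cpx V A B} (h : C.Ok) (Row : V → A → Set (B → κ))
    (Col : V → B → Set (A → κ))
    (hRow : ∀ v a r, r ∈ Row (C.X (v, a)).1 (C.X (v, a)).2 → (fun b => r (C.be v a b)) ∈ Row v a)
    (hCol : ∀ v b c, c ∈ Col (C.Y (v, b)).1 (C.Y (v, b)).2 → (fun a => c (C.al v b a)) ∈ Col v b)
    (C0 cp lam2 : ℝ) (hC0 : 0 ≤ C0) (hcp : 0 ≤ cp) (hlam : 0 ≤ lam2) (hl : 4 * C0 ^ 2 * lam2 ≤ 1)
    (hR : Robust Row Col C0) (hEX : Expand C.X cp lam2) (hEY : Expand C.Y cp lam2)
    (w : V → A → B → κ) (hw : Good Row Col w) (hm : LocMin C Row Col w) (h0 : C.Phi w ≠ 0) :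
    (Fintype.card V : ℝ) ≤ 4 * C0 ^ 2 * cp *
      ((univ.filter fun v => 0 < C.nX w v + C.nY w v).card : ℝ) := by
  have ha : (0 : ℝ) < Fintype.card A := by exact_mod_cast Fintype.card_pos
  have hb : (0 : ℝ) < Fintype.card B := by exact_mod_cast Fintype.card_pos
  set a : ℝ := ((Fintype.card A : ℕ) : ℝ) with ha'
  set b : ℝ := ((Fintype.card B : ℕ) : ℝ) with hb'
  set rX : V → ℝ := fun v => (C.nX w v : ℝ) / a with hrX
  set rY : V → ℝ := fun v => (C.nY w v : ℝ) / b with hrY
  have rX0 : ∀ v, 0 ≤ rX v := fun v => div_nonneg (Nat.cast_nonneg _) ha.le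
  have rY0 : ∀ v, 0 ≤ rY v := fun v => div_nonneg (Nat.cast_nonneg _) hb.le
  set MX : V → ℝ := fun v => (∑ t : A, rY (C.X (v, t)).1) / a with hMX
  set MY : V → ℝ := fun v => (∑ t : B, rX (C.Y (v, t)).1) / b with hMY
  have MX0 : ∀ v, 0 ≤ MX v := fun v => div_nonneg (sum_nonneg fun t _ => rY0 _) ha.le
  have MY0 : ∀ v, 0 ≤ MY v := fun v => div_nonneg (sum_nonneg fun t _ => rX0 _) hb.le
  have pw : ∀ v, rX v + rY v ≤ C0 * (MX v + MY v) := by
    intro v
    obtain ⟨u, u1, u2, u3⟩ := hR v (fun a => C.nbX w v a) (fun b => C.nbY w v b)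
      (fun a => hRow v a _ ((hw _).1 _)) (fun b => hCol v b _ ((hw _).2 _))
    have k1 : ((C.cnt w v (w v) : ℕ) : ℝ) ≤ (C.cnt w v u : ℕ) := by
      exact_mod_cast hm v u u1 u2
    have k2 : ((C.cnt w v u : ℕ) : ℝ) ≤ C0 *
        ((univ.filter fun p : A × B => C.nbX w v p.1 p.2 ≠ C.nbY w v p.2 p.1).card : ℝ) := by
      have e1 : (univ.filter fun a : A => C.eX w v u a).card =
          (univ.filter fun a : A => u a ≠ C.nbX w v a).card := by
        unfold Cpx.eX
        congr!
      have e2 : (univ.filter fun b : B => C.eY w v u b).card =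
          (univ.filter fun b : B => (fun a => u a b) ≠ C.nbY w v b).card := by
        unfold Cpx.eY
        congr!
      refine le_trans (le_of_eq ?_) u3
      rw [Cpx.cnt, e1, e2]
    have k3 : ((univ.filter fun p : A × B => C.nbX w v p.1 p.2 ≠ C.nbY w v p.2 p.1).card : ℝ) ≤
        ∑ t, (C.nY w (C.X (v, t)).1 : ℝ) + ∑ t, (C.nX w (C.Y (v, t)).1 : ℝ) := by
      exact_mod_cast far h w v
    have k4 : ((C.cnt w v (w v) : ℕ) : ℝ) = b * C.nX w v + a * C.nY w v := by
      simp only [Cpx.cnt, Cpx.nX, Cpx.nY, Cpx.dX, Cpx.dY, Cpx.eX, Cpx.eY]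
      push_cast
      rfl
    have k5 : b * (C.nX w v : ℝ) + a * C.nY w v = a * b * (rX v + rY v) := by
      simp only [hrX, hrY]
      field_simp
      try ring
    have k6 : ∑ t, (C.nY w (C.X (v, t)).1 : ℝ) = a * b * MX v := by
      simp only [hMX, hrY]
      rw [← sum_div]
      field_simp
    have k7 : ∑ t, (C.nX w (C.Y (v, t)).1 : ℝ) = a * b * MY v := by
      simp only [hMY, hrX]
      rw [← sum_div]
      field_simp
    have k8 : a * b * (rX v + rY v) ≤ a * b * (C0 * (MX v + MY v)) := by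
      calc a * b * (rX v + rY v) = ((C.cnt w v (w v) : ℕ) : ℝ) := by rw [k4, k5]
        _ ≤ C0 * (∑ t, (C.nY w (C.X (v, t)).1 : ℝ) + ∑ t, (C.nX w (C.Y (v, t)).1 : ℝ)) :=
          k1.trans (k2.trans (mul_le_mul_of_nonneg_left k3 hC0))
        _ = a * b * (C0 * (MX v + MY v)) := by rw [k6, k7]; ring
    exact le_of_mul_le_mul_left k8 (mul_pos ha hb)
  set n : ℝ := ((Fintype.card V : ℕ) : ℝ) with hn
  obtain ⟨v0, hv0⟩ : ∃ v, 0 < C.nX w v + C.nY w v := by
    by_contra hc
    push Not at hc
    apply h0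
    rw [Phi_eq]
    refine sum_eq_zero fun v _ => ?_
    have := hc v
    have e1 : C.nX w v = 0 := by omega
    have e2 : C.nY w v = 0 := by omega
    rw [e1, e2]
    simp
  have hnpos : 0 < n := by
    rw [hn]
    exact_mod_cast Fintype.card_pos_iff.2 ⟨v0⟩
  set SX : ℝ := ∑ v, rX v with hSX
  set SY : ℝ := ∑ v, rY v with hSY
  have SX0 : 0 ≤ SX := sum_nonneg fun v _ => rX0 v
  have SY0 : 0 ≤ SY := sum_nonneg fun v _ => rY0 v
  set S2 : ℝ := ∑ v, (rX v + rY v) ^ 2 with hS2
  have q1 : S2 ≤ 2 * C0 ^ 2 * (∑ v, MX v ^ 2 + ∑ v, MY v ^ 2) := by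
    rw [hS2, ← sum_add_distrib, mul_sum]
    refine sum_le_sum fun v _ => ?_
    have t1 := pw v
    have t2 : 0 ≤ rX v + rY v := add_nonneg (rX0 v) (rY0 v)
    calc (rX v + rY v) ^ 2 ≤ (C0 * (MX v + MY v)) ^ 2 := by gcongr
      _ ≤ 2 * C0 ^ 2 * (MX v ^ 2 + MY v ^ 2) := by
        nlinarith [mul_nonneg (sq_nonneg C0) (sq_nonneg (MX v - MY v))]
  have q2 : ∑ v, MX v ^ 2 ≤ cp * SY ^ 2 / n + lam2 * ∑ v, rY v ^ 2 := hEX rY rY0
  have q3 : ∑ v, MY v ^ 2 ≤ cp * SX ^ 2 / n + lam2 * ∑ v, rX v ^ 2 := hEY rX rX0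
  have q4 : ∑ v, rX v ^ 2 + ∑ v, rY v ^ 2 ≤ S2 := by
    rw [hS2, ← sum_add_distrib]
    refine sum_le_sum fun v _ => ?_
    nlinarith [mul_nonneg (rX0 v) (rY0 v)]
  have q5 : cp * SY ^ 2 / n + cp * SX ^ 2 / n ≤ cp * (SX + SY) ^ 2 / n := by
    rw [← add_div]
    gcongr
    nlinarith [mul_nonneg SX0 SY0, mul_nonneg hcp (mul_nonneg SX0 SY0)]
  have S20 : 0 ≤ S2 := sum_nonneg fun v _ => sq_nonneg _
  have q6 : S2 ≤ 2 * C0 ^ 2 * (cp * (SX + SY) ^ 2 / n + lam2 * S2) := by
    refine q1.trans ?_
    have : ∑ v, MX v ^ 2 + ∑ v, MY v ^ 2 ≤ cp * (SX + SY) ^ 2 / n + lam2 * S2 := by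
      have := mul_le_mul_of_nonneg_left q4 hlam
      linarith
    exact mul_le_mul_of_nonneg_left this (by positivity)
  have q7 : S2 ≤ 4 * C0 ^ 2 * cp * ((SX + SY) ^ 2 / n) := by
    have t : 4 * C0 ^ 2 * lam2 * S2 ≤ 1 * S2 := mul_le_mul_of_nonneg_right hl S20
    have t2 : cp * (SX + SY) ^ 2 / n = cp * ((SX + SY) ^ 2 / n) := by ring
    rw [t2] at q6
    nlinarith
  set P : Finset V := univ.filter fun v => 0 < C.nX w v + C.nY w v with hP
  have q8 : SX + SY = ∑ v ∈ P, (rX v + rY v) := by
    rw [hSX, hSY, ← sum_add_distrib]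
    symm
    refine sum_subset (subset_univ _) ?_
    intro v _ hv
    simp only [hP, mem_filter, mem_univ, true_and, not_lt, Nat.le_zero_eq] at hv
    have e1 : C.nX w v = 0 := by omega
    have e2 : C.nY w v = 0 := by omega
    simp [hrX, hrY, e1, e2]
  have q9 : (SX + SY) ^ 2 ≤ P.card * S2 := by
    rw [q8]
    refine (sq_sum_le_card_mul_sum_sq).trans ?_
    refine mul_le_mul_of_nonneg_left ?_ (Nat.cast_nonneg _)
    exact sum_le_sum_of_subset_of_nonneg (subset_univ _) fun v _ _ => sq_nonneg _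
  have q10 : 0 < SX + SY := by
    rw [q8]
    refine sum_pos' (fun v _ => add_nonneg (rX0 v) (rY0 v)) ⟨v0, ?_, ?_⟩
    · rw [hP, mem_filter]
      exact ⟨mem_univ _, hv0⟩
    · by_cases e : C.nX w v0 = 0
      · have e2 : 0 < C.nY w v0 := by omega
        have : 0 < rY v0 := div_pos (by exact_mod_cast e2) hb
        linarith [rX0 v0]
      · have e2 : 0 < C.nX w v0 := by omega
        have : 0 < rX v0 := div_pos (by exact_mod_cast e2) ha
        linarith [rY0 v0]
  have q11 : (SX + SY) ^ 2 ≤ P.card * (4 * C0 ^ 2 * cp * ((SX + SY) ^ 2 / n)) :=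
    q9.trans (mul_le_mul_of_nonneg_left q7 (Nat.cast_nonneg _))
  have q12 : (SX + SY) ^ 2 * n ≤ (SX + SY) ^ 2 * (4 * C0 ^ 2 * cp * P.card) := by
    have := mul_le_mul_of_nonneg_right q11 hnpos.le
    calc (SX + SY) ^ 2 * n ≤ P.card * (4 * C0 ^ 2 * cp * ((SX + SY) ^ 2 / n)) * n := this
      _ = (SX + SY) ^ 2 * (4 * C0 ^ 2 * cp * P.card) := by
        field_simp
  exact le_of_mul_le_mul_left q12 (pow_pos q10 2)

/-- **abstract two-place local testability**, families of local words. -/
theorem ltc {C : Cpx V A B} (h : C.Ok) (Row : V → A → Set (B → κ))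
    (Col : V → B → Set (A → κ))
    (hRow : ∀ v a r, r ∈ Row (C.X (v, a)).1 (C.X (v, a)).2 → (fun b => r (C.be v a b)) ∈ Row v a)
    (hCol : ∀ v b c, c ∈ Col (C.Y (v, b)).1 (C.Y (v, b)).2 → (fun a => c (C.al v b a)) ∈ Col v b)
    (C0 cp lam2 : ℝ) (hC0 : 0 ≤ C0) (hcp : 0 ≤ cp) (hlam : 0 ≤ lam2) (hl : 4 * C0 ^ 2 * lam2 ≤ 1)
    (hR : Robust Row Col C0) (hEX : Expand C.X cp lam2) (hEY : Expand C.Y cp lam2)
    (w0 : V → A → B → κ) (hw0 : Good Row Col w0) (m : ℕ) (hmA : m ≤ Fintype.card A)
    (hmB : m ≤ Fintype.card B)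
    (hP : 4 * C0 ^ 2 * cp * (C.Phi w0 : ℝ) < Fintype.card V * m) :
    ∃ w, Good Row Col w ∧ C.Phi w = 0 ∧ (univ.filter fun v => w v ≠ w0 v).card ≤ C.Phi w0 := by
  obtain ⟨w, g1, g2, g3⟩ := descent h Row Col (C.Phi w0) w0 hw0 le_rfl
  refine ⟨w, g1, ?_, by omega⟩
  by_contra h0
  have k1 := minimal h Row Col hRow hCol C0 cp lam2 hC0 hcp hlam hl hR hEX hEY w g1 g2 h0
  have k2 : (univ.filter fun v => 0 < C.nX w v + C.nY w v).card * m ≤ C.Phi w := by
    rw [Phi_eq, ← smul_eq_mul, ← sum_const]
    refine (sum_le_sum ?_).trans (sum_le_sum_of_subset (subset_univ _))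
    intro v hv
    simp only [mem_filter, mem_univ, true_and] at hv
    by_cases e : C.nX w v = 0
    · have e2 : 1 ≤ C.nY w v := by omega
      calc m ≤ Fintype.card A * 1 := by omega
        _ ≤ Fintype.card A * C.nY w v := Nat.mul_le_mul_left _ e2
        _ ≤ _ := Nat.le_add_left _ _
    · have e2 : 1 ≤ C.nX w v := by omega
      calc m ≤ Fintype.card B * 1 := by omega
        _ ≤ Fintype.card B * C.nX w v := Nat.mul_le_mul_left _ e2
        _ ≤ _ := Nat.le_add_right _ _
  have k3 : (((univ.filter fun v => 0 < C.nX w v + C.nY w v).card * m : ℕ) : ℝ) ≤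
      (C.Phi w0 : ℝ) := by
    exact_mod_cast k2.trans (by omega)
  push_cast at k3
  have k4 : (0 : ℝ) ≤ 4 * C0 ^ 2 * cp := by positivity
  have k5 := mul_le_mul_of_nonneg_left k3 k4
  have k6 : (Fintype.card V : ℝ) * m ≤ 4 * C0 ^ 2 * cp *
      ((univ.filter fun v => 0 < C.nX w v + C.nY w v).card : ℝ) * m :=
    mul_le_mul_of_nonneg_right k1 (Nat.cast_nonneg _)
  nlinarith

/-- the value at a corner. -/
def val (w : V → A → B → κ) (s : V × A × B) : κ := w s.1 s.2.1 s.2.2

theorem val_of_Phi {C : Cpx V A B} (w : V → A → B → κ) (h0 : C.Phi w = 0) :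
    (∀ s, val w (C.sx s) = val w s) ∧ (∀ s, val w (C.sy s) = val w s) := by
  rw [Phi_eq] at h0
  have h1 := (sum_eq_zero_iff).1 h0
  have hA : 0 < Fintype.card A := Fintype.card_pos
  have hB : 0 < Fintype.card B := Fintype.card_pos
  constructor
  · rintro ⟨v, a, b⟩
    have h2 := h1 v (mem_univ _)
    have h3 : C.nX w v = 0 := by
      have : Fintype.card B * C.nX w v = 0 := by omega
      rcases Nat.mul_eq_zero.1 this with e | e
      · omega
      · exact e
    rw [Cpx.nX, card_eq_zero, filter_eq_empty_iff] at h3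
    have h4 : w v a = C.nbX w v a := not_not.1 (h3 (mem_univ a))
    have h5 := congrFun h4 b
    exact h5.symm
  · rintro ⟨v, a, b⟩
    have h2 := h1 v (mem_univ _)
    have h3 : C.nY w v = 0 := by
      have : Fintype.card A * C.nY w v = 0 := by omega
      rcases Nat.mul_eq_zero.1 this with e | e
      · omega
      · exact e
    rw [Cpx.nY, card_eq_zero, filter_eq_empty_iff] at h3
    have h4 : (fun a => w v a b) = C.nbY w v b := not_not.1 (h3 (mem_univ b))
    have h5 := congrFun h4 a
    exact h5.symm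

/-- the local view is a tensor word. -/
def IsT (Row : V → A → Set (B → κ)) (Col : V → B → Set (A → κ)) (v : V) (u : A → B → κ) : Prop :=
  (∀ a, u a ∈ Row v a) ∧ (∀ b, (fun a => u a b) ∈ Col v b)

/-- **abstract two-place local testability**, words on squares (= corner functions invariant
under the two flips). -/
theorem ltc_words {C : Cpx V A B} (h : C.Ok) (Row : V → A → Set (B → κ))
    (Col : V → B → Set (A → κ))
    (hRow : ∀ v a r, r ∈ Row (C.X (v, a)).1 (C.X (v, a)).2 → (fun b => r (C.be v a b)) ∈ Row v a)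
    (hCol : ∀ v b c, c ∈ Col (C.Y (v, b)).1 (C.Y (v, b)).2 → (fun a => c (C.al v b a)) ∈ Col v b)
    (C0 cp lam2 : ℝ) (hC0 : 0 ≤ C0) (hcp : 0 ≤ cp) (hlam : 0 ≤ lam2) (hl : 4 * C0 ^ 2 * lam2 ≤ 1)
    (hR : Robust Row Col C0) (hEX : Expand C.X cp lam2) (hEY : Expand C.Y cp lam2)
    (hne : ∀ v, ∃ u, IsT Row Col v u)
    (F : V → A → B → κ) (hFx : ∀ s, val F (C.sx s) = val F s) (hFy : ∀ s, val F (C.sy s) = val F s)
    (m : ℕ) (hmA : m ≤ Fintype.card A) (hmB : m ≤ Fintype.card B)
    (hP : 4 * C0 ^ 2 * cp * ((4 * (Fintype.card A * Fintype.card B) *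
      (univ.filter fun v => ¬ IsT Row Col v (F v)).card : ℕ) : ℝ) < Fintype.card V * m) :
    ∃ G, Good Row Col G ∧ (∀ s, val G (C.sx s) = val G s) ∧ (∀ s, val G (C.sy s) = val G s) ∧
      (univ.filter fun v => G v ≠ F v).card ≤
        (4 * (Fintype.card A * Fintype.card B) + 1) *
          (univ.filter fun v => ¬ IsT Row Col v (F v)).card := by
  set Bad : Finset V := univ.filter fun v => ¬ IsT Row Col v (F v) with hBad
  choose d hd using hne
  set w0 : V → A → B → κ := fun v => if IsT Row Col v (F v) then F v else d v with hw0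
  have g0 : Good Row Col w0 := by
    intro v
    by_cases e : IsT Row Col v (F v)
    · simp only [hw0, if_pos e]; exact e
    · simp only [hw0, if_neg e]; exact hd v
  have eqF : ∀ v, v ∉ Bad → w0 v = F v := by
    intro v hv
    have : IsT Row Col v (F v) := by
      by_contra hc
      exact hv (by simp [hBad, hc])
    simp only [hw0, if_pos this]
  have cnt1 : ∀ {T : Type} [Fintype T] (X : V × T → V × T) (hX : ∀ s, X (X s) = s)
      (D : V × T → Prop) (hD : ∀ s, s.1 ∉ Bad → (X s).1 ∉ Bad → ¬ D s),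
      (univ.filter fun s => D s).card ≤ 2 * (Bad.card * Fintype.card T) := by
    intro T _ X hX D hD
    have e1 : (univ.filter fun s => D s) ⊆
        (univ.filter fun s : V × T => s.1 ∈ Bad) ∪ (univ.filter fun s : V × T => (X s).1 ∈ Bad) := by
      intro s hs
      simp only [mem_filter, mem_univ, true_and, mem_union] at hs ⊢
      by_contra hc
      push Not at hc
      exact hD s hc.1 hc.2 hs
    have e2 : (univ.filter fun s : V × T => s.1 ∈ Bad).card = Bad.card * Fintype.card T := by
      have : (univ.filter fun s : V × T => s.1 ∈ Bad) = Bad ×ˢ (univ : Finset T) := by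
        ext s
        simp
      rw [this, card_product]
      rfl
    have e3 : (univ.filter fun s : V × T => (X s).1 ∈ Bad).card ≤ Bad.card * Fintype.card T := by
      rw [← e2]
      refine card_le_card_of_injOn X ?_ ?_
      · intro s hs
        simp only [coe_filter, mem_univ, true_and, Set.mem_ofPred_eq] at hs ⊢
        exact hs
      · intro s _ s' _ hss
        rw [← hX s, ← hX s', hss]
    have := (card_le_card e1).trans (card_union_le _ _)
    omega
  have b1 : (univ.filter fun s : V × A => C.dX w0 s).card ≤ 2 * (Bad.card * Fintype.card A) := by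
    refine cnt1 C.X (XX h) (C.dX w0) ?_
    intro s h1 h2 h3
    apply h3
    funext b
    simp only [Cpx.nbX]
    rw [eqF _ h1, eqF _ (show (C.X (s.1, s.2)).1 ∉ Bad from h2)]
    exact (hFx (s.1, s.2, b)).symm
  have b2 : (univ.filter fun s : V × B => C.dY w0 s).card ≤ 2 * (Bad.card * Fintype.card B) := by
    refine cnt1 C.Y (YY h) (C.dY w0) ?_
    intro s h1 h2 h3
    apply h3
    funext a
    simp only [Cpx.nbY]
    rw [eqF _ h1, eqF _ (show (C.Y (s.1, s.2)).1 ∉ Bad from h2)]
    exact (hFy (s.1, a, s.2)).symm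
  have b3 : C.Phi w0 ≤ 4 * (Fintype.card A * Fintype.card B) * Bad.card := by
    have t1 := Nat.mul_le_mul_left (Fintype.card B) b1
    have t2 := Nat.mul_le_mul_left (Fintype.card A) b2
    rw [Cpx.Phi]
    nlinarith
  have b4 : 4 * C0 ^ 2 * cp * (C.Phi w0 : ℝ) < Fintype.card V * m := by
    refine lt_of_le_of_lt ?_ hP
    refine mul_le_mul_of_nonneg_left ?_ (by positivity)
    exact_mod_cast b3
  obtain ⟨G, g1, g2, g3⟩ := ltc h Row Col hRow hCol C0 cp lam2 hC0 hcp hlam hl hR hEX hEY w0 g0 m
    hmA hmB b4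
  refine ⟨G, g1, (val_of_Phi G g2).1, (val_of_Phi G g2).2, ?_⟩
  have e4 : (univ.filter fun v => G v ≠ F v) ⊆ (univ.filter fun v => G v ≠ w0 v) ∪ Bad := by
    intro v hv
    simp only [mem_filter, mem_univ, true_and, mem_union] at hv ⊢
    by_cases hvb : v ∈ Bad
    · exact Or.inr hvb
    · left
      rw [eqF v hvb]
      exact hv
  have := (card_le_card e4).trans (card_union_le _ _)
  nlinarith

end main

end Crest.Agent.R289.LTC239
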