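import Mathlib

/-!
Row 289, block B3: abstract two-place local testability.

An abstract square complex with four vertex types `(i,j)`, `i j : Bool`; x-edges of type `j`
join types `(false,j)` and `(true,j)`, y-edges of type `i` join `(i,false)` and `(i,true)`.
(AGR) at every vertex + (EXP) for the four bipartite graphs imply: a word with `ν` bad vertices
is `n²(1+4n) ν`-close to a code word.
-/

set_option autoImplicit false
set_option linter.unusedSectionVars false

namespace Crest.Agent.R289.LTC846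

open Finset

/-- abstract square complex with `2 × 2` vertex types -/
structure SqCx (V : Bool → Bool → Type) (X Y : Bool → Type) (S : Type) where
  /-- corners -/
  cor : ∀ i j, S → V i j
  /-- the x-edge of type `j` of a square -/
  xe : ∀ j, S → X j
  /-- the y-edge of type `i` of a square -/
  ye : ∀ i, S → Y i
  xend : ∀ i j, X j → V i j
  yend : ∀ i j, Y i → V i j
  hx : ∀ i j s, xend i j (xe j s) = cor i j s
  hy : ∀ i j s, yend i j (ye i s) = cor i j s
  inj : ∀ i j s s', xe j s = xe j s' → ye i s = ye i s' → s = s'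

variable {V : Bool → Bool → Type} {X Y : Bool → Type} {S : Type} {A : Type}

/-- all vertices -/
abbrev Vt (V : Bool → Bool → Type) := Σ p : Bool × Bool, V p.1 p.2

/-- the vertex `v` of type `(i,j)` -/
abbrev mkV (i j : Bool) (v : V i j) : Vt V := ⟨(i, j), v⟩

theorem mkV_inj {i j : Bool} {v v' : V i j} (h : mkV i j v = mkV i j v') : v = v' := by
  simpa [mkV] using h

theorem mkV_ne_x {i j : Bool} {v : V i j} {v' : V (!i) j} : mkV i j v ≠ mkV (!i) j v' := by
  intro h
  have := congrArg (fun x : Vt V => x.1.1) h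
  simp at this

theorem mkV_ne_y {i j : Bool} {v : V i j} {v' : V i (!j)} : mkV i j v ≠ mkV i (!j) v' := by
  intro h
  have := congrArg (fun x : Vt V => x.1.2) h
  simp at this

namespace SqCx

variable (G : SqCx V X Y S)

/-- disputed x-edges -/
def dX (w : Vt V → S → A) (j : Bool) (e : X j) : Prop :=
  ∃ s, G.xe j s = e ∧ w (mkV false j (G.xend false j e)) s ≠ w (mkV true j (G.xend true j e)) s

/-- disputed y-edges -/
def dY (w : Vt V → S → A) (i : Bool) (f : Y i) : Prop :=
  ∃ s, G.ye i s = f ∧ w (mkV i false (G.yend i false f)) s ≠ w (mkV i true (G.yend i true f)) s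

theorem dX_iff (w : Vt V → S → A) (i j : Bool) (e : X j) : G.dX w j e ↔
    ∃ s, G.xe j s = e ∧ w (mkV i j (G.xend i j e)) s ≠ w (mkV (!i) j (G.xend (!i) j e)) s := by
  cases i
  · rfl
  · unfold dX
    constructor <;> rintro ⟨s, h1, h2⟩ <;> exact ⟨s, h1, fun h => h2 h.symm⟩

theorem dY_iff (w : Vt V → S → A) (i j : Bool) (f : Y i) : G.dY w i f ↔
    ∃ s, G.ye i s = f ∧ w (mkV i j (G.yend i j f)) s ≠ w (mkV i (!j) (G.yend i (!j) f)) s := by
  cases j
  · rfl
  · unfold dY
    constructor <;> rintro ⟨s, h1, h2⟩ <;> exact ⟨s, h1, fun h => h2 h.symm⟩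

variable [∀ i j, Fintype (V i j)] [∀ j, Fintype (X j)] [∀ i, Fintype (Y i)] [Fintype S]

open Classical in
/-- number of disputed x-edges of type `j` -/
noncomputable def nX (w : Vt V → S → A) (j : Bool) : ℕ := #{e : X j | G.dX w j e}

open Classical in
/-- number of disputed y-edges of type `i` -/
noncomputable def nY (w : Vt V → S → A) (i : Bool) : ℕ := #{f : Y i | G.dY w i f}

/-- number of disputed edges -/
noncomputable def Phi (w : Vt V → S → A) : ℕ :=
  G.nX w false + G.nX w true + (G.nY w false + G.nY w true)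

open Classical in
/-- disputed x-edges at a vertex -/
noncomputable def Dx (w : Vt V → S → A) (i j : Bool) (v : V i j) : ℕ :=
  #{e : X j | G.xend i j e = v ∧ G.dX w j e}

open Classical in
/-- disputed y-edges at a vertex -/
noncomputable def Dy (w : Vt V → S → A) (i j : Bool) (v : V i j) : ℕ :=
  #{f : Y i | G.yend i j f = v ∧ G.dY w i f}

open Classical in
/-- x-edges at `v` which would be disputed for the word `u` at `v` -/
noncomputable def Ex (w : Vt V → S → A) (i j : Bool) (v : V i j) (u : S → A) : ℕ :=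
  #{e : X j | G.xend i j e = v ∧ ∃ s, G.xe j s = e ∧ u s ≠ w (mkV (!i) j (G.xend (!i) j e)) s}

open Classical in
/-- y-edges at `v` which would be disputed for the word `u` at `v` -/
noncomputable def Ey (w : Vt V → S → A) (i j : Bool) (v : V i j) (u : S → A) : ℕ :=
  #{f : Y i | G.yend i j f = v ∧ ∃ s, G.ye i s = f ∧ u s ≠ w (mkV i (!j) (G.yend i (!j) f)) s}

open Classical in
theorem sum_Dx (w : Vt V → S → A) (i j : Bool) : ∑ v, G.Dx w i j v = G.nX w j := by
  unfold Dx nX
  rw [Finset.card_eq_sum_card_fiberwise (f := G.xend i j) (t := Finset.univ) (by simp)]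
  refine Finset.sum_congr rfl fun v _ => ?_
  congr 1
  ext e
  simp [and_comm]

open Classical in
theorem sum_Dy (w : Vt V → S → A) (i j : Bool) : ∑ v, G.Dy w i j v = G.nY w i := by
  unfold Dy nY
  rw [Finset.card_eq_sum_card_fiberwise (f := G.yend i j) (t := Finset.univ) (by simp)]
  refine Finset.sum_congr rfl fun v _ => ?_
  congr 1
  ext e
  simp [and_comm]

/-! ### changing one vertex -/

section update

open Classical

variable (w : Vt V → S → A) (i j : Bool) (v : V i j) (u : S → A)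

theorem nX_update_self :
    G.nX (Function.update w (mkV i j v) u) j + G.Dx w i j v = G.nX w j + G.Ex w i j v u := by
  classical
  set w' := Function.update w (mkV i j v) u with hw'
  have key : ∀ e : X j, G.dX w' j e ↔ if G.xend i j e = v then
      (∃ s, G.xe j s = e ∧ u s ≠ w (mkV (!i) j (G.xend (!i) j e)) s) else G.dX w j e := by
    intro e
    rw [G.dX_iff w' i j e, G.dX_iff w i j e]
    have h2 : w' (mkV (!i) j (G.xend (!i) j e)) = w (mkV (!i) j (G.xend (!i) j e)) := by
      rw [hw', Function.update_of_ne]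
      exact fun h => mkV_ne_x h.symm
    rw [h2]
    by_cases h : G.xend i j e = v
    · rw [if_pos h]
      have h1 : w' (mkV i j (G.xend i j e)) = u := by rw [h, hw', Function.update_self]
      rw [h1]
    · rw [if_neg h]
      have h1 : w' (mkV i j (G.xend i j e)) = w (mkV i j (G.xend i j e)) := by
        rw [hw', Function.update_of_ne]
        exact fun h' => h (mkV_inj h')
      rw [h1]
  have e1 : G.nX w' j = G.Ex w i j v u + #{e : X j | G.xend i j e ≠ v ∧ G.dX w j e} := by
    unfold nX Ex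
    rw [← Finset.card_union_of_disjoint]
    · congr 1
      ext e
      simp only [mem_filter, mem_univ, true_and, mem_union]
      rw [key e]
      by_cases h : G.xend i j e = v <;> simp [h]
    · rw [Finset.disjoint_left]
      intro e h1 h2
      simp only [mem_filter, mem_univ, true_and] at h1 h2
      exact h2.1 h1.1
  have e2 : G.nX w j = G.Dx w i j v + #{e : X j | G.xend i j e ≠ v ∧ G.dX w j e} := by
    unfold nX Dx
    rw [← Finset.card_union_of_disjoint]
    · congr 1
      ext e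
      simp only [mem_filter, mem_univ, true_and, mem_union]
      by_cases h : G.xend i j e = v <;> simp [h]
    · rw [Finset.disjoint_left]
      intro e h1 h2
      simp only [mem_filter, mem_univ, true_and] at h1 h2
      exact h2.1 h1.1
  omega

theorem nY_update_self :
    G.nY (Function.update w (mkV i j v) u) i + G.Dy w i j v = G.nY w i + G.Ey w i j v u := by
  classical
  set w' := Function.update w (mkV i j v) u with hw'
  have key : ∀ f : Y i, G.dY w' i f ↔ if G.yend i j f = v then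
      (∃ s, G.ye i s = f ∧ u s ≠ w (mkV i (!j) (G.yend i (!j) f)) s) else G.dY w i f := by
    intro f
    rw [G.dY_iff w' i j f, G.dY_iff w i j f]
    have h2 : w' (mkV i (!j) (G.yend i (!j) f)) = w (mkV i (!j) (G.yend i (!j) f)) := by
      rw [hw', Function.update_of_ne]
      exact fun h => mkV_ne_y h.symm
    rw [h2]
    by_cases h : G.yend i j f = v
    · rw [if_pos h]
      have h1 : w' (mkV i j (G.yend i j f)) = u := by rw [h, hw', Function.update_self]
      rw [h1]
    · rw [if_neg h]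
      have h1 : w' (mkV i j (G.yend i j f)) = w (mkV i j (G.yend i j f)) := by
        rw [hw', Function.update_of_ne]
        exact fun h' => h (mkV_inj h')
      rw [h1]
  have e1 : G.nY w' i = G.Ey w i j v u + #{f : Y i | G.yend i j f ≠ v ∧ G.dY w i f} := by
    unfold nY Ey
    rw [← Finset.card_union_of_disjoint]
    · congr 1
      ext e
      simp only [mem_filter, mem_univ, true_and, mem_union]
      rw [key e]
      by_cases h : G.yend i j e = v <;> simp [h]
    · rw [Finset.disjoint_left]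
      intro e h1 h2
      simp only [mem_filter, mem_univ, true_and] at h1 h2
      exact h2.1 h1.1
  have e2 : G.nY w i = G.Dy w i j v + #{f : Y i | G.yend i j f ≠ v ∧ G.dY w i f} := by
    unfold nY Dy
    rw [← Finset.card_union_of_disjoint]
    · congr 1
      ext e
      simp only [mem_filter, mem_univ, true_and, mem_union]
      by_cases h : G.yend i j e = v <;> simp [h]
    · rw [Finset.disjoint_left]
      intro e h1 h2
      simp only [mem_filter, mem_univ, true_and] at h1 h2
      exact h2.1 h1.1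
  omega

theorem nX_update_other : G.nX (Function.update w (mkV i j v) u) (!j) = G.nX w (!j) := by
  unfold nX
  congr 1
  ext e
  simp only [mem_filter, mem_univ, true_and]
  have h : ∀ i' : Bool, Function.update w (mkV i j v) u (mkV i' (!j) (G.xend i' (!j) e)) =
      w (mkV i' (!j) (G.xend i' (!j) e)) := by
    intro i'
    rw [Function.update_of_ne]
    intro h
    have := congrArg (fun x : Vt V => x.1.2) h
    simp at this
  unfold dX
  rw [h, h]

theorem nY_update_other : G.nY (Function.update w (mkV i j v) u) (!i) = G.nY w (!i) := by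
  unfold nY
  congr 1
  ext e
  simp only [mem_filter, mem_univ, true_and]
  have h : ∀ j' : Bool, Function.update w (mkV i j v) u (mkV (!i) j' (G.yend (!i) j' e)) =
      w (mkV (!i) j' (G.yend (!i) j' e)) := by
    intro j'
    rw [Function.update_of_ne]
    intro h
    have := congrArg (fun x : Vt V => x.1.1) h
    simp at this
  unfold dY
  rw [h, h]

theorem Phi_update : G.Phi (Function.update w (mkV i j v) u) + (G.Dx w i j v + G.Dy w i j v) =
    G.Phi w + (G.Ex w i j v u + G.Ey w i j v u) := by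
  have h1 := G.nX_update_self w i j v u
  have h2 := G.nY_update_self w i j v u
  have h3 := G.nX_update_other w i j v u
  have h4 := G.nY_update_other w i j v u
  unfold Phi
  cases i <;> cases j <;> simp only [Bool.not_true, Bool.not_false] at h3 h4 <;> omega

end update

/-! ### hypotheses -/

open Classical in
/-- agreement testability at every vertex -/
def Agr (C : Vt V → Set (S → A)) (n : ℕ) (Cc : ℝ) : Prop :=
  ∀ (i j : Bool) (v : V i j) (c : X j → S → A) (r : Y i → S → A),
    (∀ e, G.xend i j e = v → c e ∈ C (mkV (!i) j (G.xend (!i) j e))) →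
    (∀ f, G.yend i j f = v → r f ∈ C (mkV i (!j) (G.yend i (!j) f))) →
    ∃ u ∈ C (mkV i j v),
      (n : ℝ) * ((#{e : X j | G.xend i j e = v ∧ ∃ s, G.xe j s = e ∧ u s ≠ c e s} : ℝ) +
          (#{f : Y i | G.yend i j f = v ∧ ∃ s, G.ye i s = f ∧ u s ≠ r f s} : ℝ)) ≤
        Cc * (#{s : S | G.cor i j s = v ∧ c (G.xe j s) s ≠ r (G.ye i s) s} : ℝ)

open Classical in
/-- expansion of the x-graphs -/
def ExpX (n : ℕ) (N lam : ℝ) : Prop :=
  ∀ (i j : Bool) (g : V (!i) j → ℝ), (∀ v, 0 ≤ g v) →
    ∑ v : V i j, (∑ e ∈ ({e : X j | G.xend i j e = v} : Finset (X j)),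
        g (G.xend (!i) j e)) ^ 2 ≤
      (n : ℝ) ^ 2 * ((∑ v, g v) ^ 2 / N + lam ^ 2 * ∑ v, g v ^ 2)

open Classical in
/-- expansion of the y-graphs -/
def ExpY (n : ℕ) (N lam : ℝ) : Prop :=
  ∀ (i j : Bool) (g : V i (!j) → ℝ), (∀ v, 0 ≤ g v) →
    ∑ v : V i j, (∑ f ∈ ({f : Y i | G.yend i j f = v} : Finset (Y i)),
        g (G.yend i (!j) f)) ^ 2 ≤
      (n : ℝ) ^ 2 * ((∑ v, g v) ^ 2 / N + lam ^ 2 * ∑ v, g v ^ 2)

/-! ### the local inequality -/

open Classical in
theorem opp_card (w : Vt V → S → A) (i j : Bool) (v : V i j) :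
    (#{s : S | G.cor i j s = v ∧ w (mkV (!i) j (G.xend (!i) j (G.xe j s))) s ≠
        w (mkV i (!j) (G.yend i (!j) (G.ye i s))) s} : ℕ) ≤
      ∑ e ∈ ({e : X j | G.xend i j e = v} : Finset (X j)), G.Dy w (!i) j (G.xend (!i) j e) +
      ∑ f ∈ ({f : Y i | G.yend i j f = v} : Finset (Y i)), G.Dx w i (!j) (G.yend i (!j) f) := by
  have hsub : ({s : S | G.cor i j s = v ∧ w (mkV (!i) j (G.xend (!i) j (G.xe j s))) s ≠
        w (mkV i (!j) (G.yend i (!j) (G.ye i s))) s} : Finset S) ⊆
      ({s : S | G.cor i j s = v ∧ G.dY w (!i) (G.ye (!i) s)} : Finset S) ∪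
      ({s : S | G.cor i j s = v ∧ G.dX w (!j) (G.xe (!j) s)} : Finset S) := by
    intro s hs
    simp only [mem_filter, mem_univ, true_and, mem_union] at hs ⊢
    by_contra hcon
    push Not at hcon
    apply hs.2
    have h1 : ¬ G.dY w (!i) (G.ye (!i) s) := hcon.1 hs.1
    have h2 : ¬ G.dX w (!j) (G.xe (!j) s) := hcon.2 hs.1
    rw [G.dY_iff w (!i) j] at h1
    rw [G.dX_iff w i (!j)] at h2
    push Not at h1 h2
    have e1 := h1 s rfl
    have e2 := h2 s rfl
    rw [G.hy, G.hy] at e1
    rw [G.hx, G.hx] at e2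
    rw [G.hx, G.hy, e1, e2]
  refine (Finset.card_le_card hsub).trans ((Finset.card_union_le _ _).trans (Nat.add_le_add ?_ ?_))
  · have : (#{s : S | G.cor i j s = v ∧ G.dY w (!i) (G.ye (!i) s)} : ℕ) ≤
        ∑ e ∈ ({e : X j | G.xend i j e = v} : Finset (X j)),
          #{s : S | G.xe j s = e ∧ G.dY w (!i) (G.ye (!i) s)} := by
      rw [Finset.card_eq_sum_card_fiberwise (f := G.xe j)
        (t := ({e : X j | G.xend i j e = v} : Finset (X j)))]
      · refine Finset.sum_le_sum fun e _ => Finset.card_le_card fun s hs => ?_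
        simp only [mem_filter, mem_univ, true_and] at hs ⊢
        exact ⟨hs.2, hs.1.2⟩
      · intro s hs
        simp only [coe_filter, mem_univ, true_and, Set.mem_ofPred_eq] at hs ⊢
        rw [G.hx]
        exact hs.1
    refine this.trans (Finset.sum_le_sum fun e _ => ?_)
    unfold Dy
    refine Finset.card_le_card_of_injOn (G.ye (!i)) ?_ ?_
    · intro s hs
      simp only [coe_filter, mem_univ, true_and, Set.mem_ofPred_eq] at hs ⊢
      refine ⟨?_, hs.2⟩
      rw [G.hy, ← G.hx, hs.1]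
    · intro s hs s' hs' h
      simp only [coe_filter, mem_univ, true_and, Set.mem_ofPred_eq] at hs hs'
      exact G.inj (!i) j s s' (hs.1.trans hs'.1.symm) h
  · have : (#{s : S | G.cor i j s = v ∧ G.dX w (!j) (G.xe (!j) s)} : ℕ) ≤
        ∑ f ∈ ({f : Y i | G.yend i j f = v} : Finset (Y i)),
          #{s : S | G.ye i s = f ∧ G.dX w (!j) (G.xe (!j) s)} := by
      rw [Finset.card_eq_sum_card_fiberwise (f := G.ye i)
        (t := ({f : Y i | G.yend i j f = v} : Finset (Y i)))]
      · refine Finset.sum_le_sum fun e _ => Finset.card_le_card fun s hs => ?_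
        simp only [mem_filter, mem_univ, true_and] at hs ⊢
        exact ⟨hs.2, hs.1.2⟩
      · intro s hs
        simp only [coe_filter, mem_univ, true_and, Set.mem_ofPred_eq] at hs ⊢
        rw [G.hy]
        exact hs.1
    refine this.trans (Finset.sum_le_sum fun f _ => ?_)
    unfold Dx
    refine Finset.card_le_card_of_injOn (G.xe (!j)) ?_ ?_
    · intro s hs
      simp only [coe_filter, mem_univ, true_and, Set.mem_ofPred_eq] at hs ⊢
      refine ⟨?_, hs.2⟩
      rw [G.hx, ← G.hy, hs.1]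
    · intro s hs s' hs' h
      simp only [coe_filter, mem_univ, true_and, Set.mem_ofPred_eq] at hs hs'
      exact G.inj i (!j) s s' h (hs.1.trans hs'.1.symm)

/-- local optimality of a labelling -/
def LocOpt (C : Vt V → Set (S → A)) (w : Vt V → S → A) : Prop :=
  ∀ (i j : Bool) (v : V i j), ∀ u ∈ C (mkV i j v),
    G.Dx w i j v + G.Dy w i j v ≤ G.Ex w i j v u + G.Ey w i j v u

theorem local_ineq {C : Vt V → Set (S → A)} {n : ℕ} {Cc : ℝ} (hC : 0 ≤ Cc) (hA : G.Agr C n Cc)
    {w : Vt V → S → A} (hw : ∀ x, w x ∈ C x) (ho : G.LocOpt C w) (i j : Bool) (v : V i j) :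
    (n : ℝ) * (G.Dx w i j v + G.Dy w i j v) ≤ Cc *
      (open Classical in
        ∑ e ∈ ({e : X j | G.xend i j e = v} : Finset (X j)),
          (G.Dy w (!i) j (G.xend (!i) j e) : ℝ) +
        ∑ f ∈ ({f : Y i | G.yend i j f = v} : Finset (Y i)),
          (G.Dx w i (!j) (G.yend i (!j) f) : ℝ)) := by
  classical
  obtain ⟨u, hu, h⟩ := hA i j v (fun e => w (mkV (!i) j (G.xend (!i) j e)))
    (fun f => w (mkV i (!j) (G.yend i (!j) f))) (fun e _ => hw _) (fun f _ => hw _)
  have h1 := ho i j v u hu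
  have h2 : ((G.Dx w i j v + G.Dy w i j v : ℕ) : ℝ) ≤ ((G.Ex w i j v u + G.Ey w i j v u : ℕ) : ℝ) :=
    by exact_mod_cast h1
  push_cast at h2
  have h3 := G.opp_card w i j v
  have h3' : ((#{s : S | G.cor i j s = v ∧ w (mkV (!i) j (G.xend (!i) j (G.xe j s))) s ≠
        w (mkV i (!j) (G.yend i (!j) (G.ye i s))) s} : ℕ) : ℝ) ≤
      ∑ e ∈ ({e : X j | G.xend i j e = v} : Finset (X j)),
          (G.Dy w (!i) j (G.xend (!i) j e) : ℝ) +
        ∑ f ∈ ({f : Y i | G.yend i j f = v} : Finset (Y i)),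
          (G.Dx w i (!j) (G.yend i (!j) f) : ℝ) := by
    exact_mod_cast h3
  calc (n : ℝ) * (G.Dx w i j v + G.Dy w i j v)
      ≤ (n : ℝ) * (G.Ex w i j v u + G.Ey w i j v u) :=
        mul_le_mul_of_nonneg_left h2 (Nat.cast_nonneg _)
    _ ≤ _ := h
    _ ≤ _ := mul_le_mul_of_nonneg_left h3' hC

/-- final algebra -/
theorem alg {T00 T01 T10 T11 x00 x01 x10 x11 y00 y01 y10 y11 a0 a1 b0 b1 Cc lam N : ℝ}
    (hN : 0 < N) (hl : 4 * Cc ^ 2 * lam ^ 2 ≤ 1)
    (k00 : T00 ≤ 2 * Cc ^ 2 * ((b1 ^ 2 / N + lam ^ 2 * y10) + (a1 ^ 2 / N + lam ^ 2 * x01)))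
    (k01 : T01 ≤ 2 * Cc ^ 2 * ((b1 ^ 2 / N + lam ^ 2 * y11) + (a0 ^ 2 / N + lam ^ 2 * x00)))
    (k10 : T10 ≤ 2 * Cc ^ 2 * ((b0 ^ 2 / N + lam ^ 2 * y00) + (a1 ^ 2 / N + lam ^ 2 * x11)))
    (k11 : T11 ≤ 2 * Cc ^ 2 * ((b0 ^ 2 / N + lam ^ 2 * y01) + (a0 ^ 2 / N + lam ^ 2 * x10)))
    (l00 : a0 + b0 ≤ T00) (l01 : a1 + b0 ≤ T01) (l10 : a0 + b1 ≤ T10) (l11 : a1 + b1 ≤ T11)
    (m00 : x00 + y00 ≤ T00) (m01 : x01 + y01 ≤ T01) (m10 : x10 + y10 ≤ T10)
    (m11 : x11 + y11 ≤ T11)
    (ha0 : 0 ≤ a0) (ha1 : 0 ≤ a1) (hb0 : 0 ≤ b0) (hb1 : 0 ≤ b1)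
    (hpos : 0 < a0 + a1 + (b0 + b1)) : N ≤ 4 * Cc ^ 2 * (a0 + a1 + (b0 + b1)) := by
  set P := a0 + a1 + (b0 + b1) with hP
  set T := T00 + T01 + T10 + T11 with hT
  have hTsum : T ≤ 2 * Cc ^ 2 * (2 * (a0 ^ 2 + a1 ^ 2 + (b0 ^ 2 + b1 ^ 2)) / N) +
      2 * Cc ^ 2 * lam ^ 2 * T := by
    have hlam : (0 : ℝ) ≤ 2 * Cc ^ 2 * lam ^ 2 := by positivity
    have hs : (x00 + y00) + (x01 + y01) + (x10 + y10) + (x11 + y11) ≤ T := by
      rw [hT]; linarith
    have hs2 := mul_le_mul_of_nonneg_left hs hlam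
    have e : 2 * Cc ^ 2 * (2 * (a0 ^ 2 + a1 ^ 2 + (b0 ^ 2 + b1 ^ 2)) / N) +
        2 * Cc ^ 2 * lam ^ 2 * ((x00 + y00) + (x01 + y01) + (x10 + y10) + (x11 + y11)) =
      2 * Cc ^ 2 * ((b1 ^ 2 / N + lam ^ 2 * y10) + (a1 ^ 2 / N + lam ^ 2 * x01)) +
      2 * Cc ^ 2 * ((b1 ^ 2 / N + lam ^ 2 * y11) + (a0 ^ 2 / N + lam ^ 2 * x00)) +
      2 * Cc ^ 2 * ((b0 ^ 2 / N + lam ^ 2 * y00) + (a1 ^ 2 / N + lam ^ 2 * x11)) +
      2 * Cc ^ 2 * ((b0 ^ 2 / N + lam ^ 2 * y01) + (a0 ^ 2 / N + lam ^ 2 * x10)) := by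
      ring
    linarith
  have hTge : 2 * P ≤ T := by
    rw [hP, hT]
    linarith
  have hT0 : 0 ≤ T := le_trans (by positivity) hTge
  have hT8 : T ≤ 8 * Cc ^ 2 * (P ^ 2 / N) := by
    have h1 : 2 * Cc ^ 2 * lam ^ 2 * T ≤ T / 2 := by
      have : 2 * Cc ^ 2 * lam ^ 2 ≤ 1 / 2 := by linarith
      have := mul_le_mul_of_nonneg_right this hT0
      linarith
    have h2 : a0 ^ 2 + a1 ^ 2 + (b0 ^ 2 + b1 ^ 2) ≤ P ^ 2 := by
      have e : P ^ 2 = a0 ^ 2 + a1 ^ 2 + (b0 ^ 2 + b1 ^ 2) +
          2 * (a0 * a1 + a0 * b0 + a0 * b1 + a1 * b0 + a1 * b1 + b0 * b1) := by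
        rw [hP]; ring
      have : 0 ≤ a0 * a1 + a0 * b0 + a0 * b1 + a1 * b0 + a1 * b1 + b0 * b1 := by positivity
      linarith
    have h3 : 2 * Cc ^ 2 * (2 * (a0 ^ 2 + a1 ^ 2 + (b0 ^ 2 + b1 ^ 2)) / N) ≤
        2 * Cc ^ 2 * (2 * P ^ 2 / N) := by
      refine mul_le_mul_of_nonneg_left ?_ (by positivity)
      gcongr
    have h4 : 2 * Cc ^ 2 * (2 * P ^ 2 / N) = 4 * Cc ^ 2 * (P ^ 2 / N) := by ring
    linarith
  have h9 : 2 * P ≤ 8 * Cc ^ 2 * (P ^ 2 / N) := hTge.trans hT8
  have h10 : 2 * P * N ≤ 8 * Cc ^ 2 * P ^ 2 := by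
    have := mul_le_mul_of_nonneg_right h9 hN.le
    have e : 8 * Cc ^ 2 * (P ^ 2 / N) * N = 8 * Cc ^ 2 * P ^ 2 := by
      field_simp
    linarith
  have h11 : (2 * P) * N ≤ (2 * P) * (4 * Cc ^ 2 * P) := by
    have e : (2 * P) * (4 * Cc ^ 2 * P) = 8 * Cc ^ 2 * P ^ 2 := by ring
    linarith
  exact le_of_mul_le_mul_left h11 (by positivity)

/-! ### global inequality -/

theorem Phi_zero_or_large {C : Vt V → Set (S → A)} {n : ℕ} {Cc N lam : ℝ} (hn : 0 < n)
    (hN : 0 < N) (hC : 0 ≤ Cc) (hl : 4 * Cc ^ 2 * lam ^ 2 ≤ 1) (hA : G.Agr C n Cc)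
    (hX : G.ExpX n N lam) (hY : G.ExpY n N lam)
    {w : Vt V → S → A} (hw : ∀ x, w x ∈ C x) (ho : G.LocOpt C w) :
    G.Phi w = 0 ∨ N ≤ 4 * Cc ^ 2 * G.Phi w := by
  classical
  have hn' : (0 : ℝ) < n := by exact_mod_cast hn
  -- the inequality for one type
  have key : ∀ i j : Bool, ∑ v, ((G.Dx w i j v : ℝ) + G.Dy w i j v) ^ 2 ≤
      2 * Cc ^ 2 * (((G.nY w (!i) : ℝ) ^ 2 / N + lam ^ 2 * ∑ v, (G.Dy w (!i) j v : ℝ) ^ 2) +
        ((G.nX w (!j) : ℝ) ^ 2 / N + lam ^ 2 * ∑ v, (G.Dx w i (!j) v : ℝ) ^ 2)) := by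
    intro i j
    have h1 : ∀ v : V i j, (n : ℝ) ^ 2 * ((G.Dx w i j v : ℝ) + G.Dy w i j v) ^ 2 ≤
        2 * Cc ^ 2 * ((∑ e ∈ ({e : X j | G.xend i j e = v} : Finset (X j)),
          (G.Dy w (!i) j (G.xend (!i) j e) : ℝ)) ^ 2 +
        (∑ f ∈ ({f : Y i | G.yend i j f = v} : Finset (Y i)),
          (G.Dx w i (!j) (G.yend i (!j) f) : ℝ)) ^ 2) := by
      intro v
      have h := G.local_ineq hC hA hw ho i j v
      set P := ∑ e ∈ ({e : X j | G.xend i j e = v} : Finset (X j)),
          (G.Dy w (!i) j (G.xend (!i) j e) : ℝ)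
      set Q := ∑ f ∈ ({f : Y i | G.yend i j f = v} : Finset (Y i)),
          (G.Dx w i (!j) (G.yend i (!j) f) : ℝ)
      have h0 : 0 ≤ (n : ℝ) * (G.Dx w i j v + G.Dy w i j v) := by positivity
      have h2 := mul_self_le_mul_self h0 h
      nlinarith [mul_nonneg (sq_nonneg Cc) (sq_nonneg (P - Q))]
    have h2 := Finset.sum_le_sum fun v (_ : v ∈ (Finset.univ : Finset (V i j))) => h1 v
    rw [← Finset.mul_sum, ← Finset.mul_sum, Finset.sum_add_distrib] at h2
    have h3 := hX i j (fun v => (G.Dy w (!i) j v : ℝ)) (fun v => Nat.cast_nonneg _)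
    have h4 := hY i j (fun v => (G.Dx w i (!j) v : ℝ)) (fun v => Nat.cast_nonneg _)
    have e1 : ∑ v, (G.Dy w (!i) j v : ℝ) = G.nY w (!i) := by
      exact_mod_cast G.sum_Dy w (!i) j
    have e2 : ∑ v, (G.Dx w i (!j) v : ℝ) = G.nX w (!j) := by
      exact_mod_cast G.sum_Dx w i (!j)
    rw [e1] at h3
    rw [e2] at h4
    have h5 : (n : ℝ) ^ 2 * ∑ v, ((G.Dx w i j v : ℝ) + G.Dy w i j v) ^ 2 ≤
        (n : ℝ) ^ 2 * (2 * Cc ^ 2 * (((G.nY w (!i) : ℝ) ^ 2 / N +
          lam ^ 2 * ∑ v, (G.Dy w (!i) j v : ℝ) ^ 2) +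
        ((G.nX w (!j) : ℝ) ^ 2 / N + lam ^ 2 * ∑ v, (G.Dx w i (!j) v : ℝ) ^ 2))) := by
      refine h2.trans ?_
      have hc2 : (0 : ℝ) ≤ 2 * Cc ^ 2 := by positivity
      have := mul_le_mul_of_nonneg_left (add_le_add h3 h4) hc2
      refine this.trans (le_of_eq ?_)
      ring
    exact le_of_mul_le_mul_left h5 (by positivity)
  -- lower bounds
  have low : ∀ i j : Bool, ((G.nX w j : ℝ) + G.nY w i) ≤
      ∑ v, ((G.Dx w i j v : ℝ) + G.Dy w i j v) ^ 2 := by
    intro i j
    have e1 : ∑ v, (G.Dx w i j v : ℝ) = G.nX w j := by exact_mod_cast G.sum_Dx w i j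
    have e2 : ∑ v, (G.Dy w i j v : ℝ) = G.nY w i := by exact_mod_cast G.sum_Dy w i j
    rw [← e1, ← e2, ← Finset.sum_add_distrib]
    refine Finset.sum_le_sum fun v _ => ?_
    have : ∀ m : ℕ, (m : ℝ) ≤ (m : ℝ) ^ 2 := by
      intro m
      rcases Nat.eq_zero_or_pos m with h | h
      · simp [h]
      · have : (1 : ℝ) ≤ m := by exact_mod_cast h
        nlinarith
    have h := this (G.Dx w i j v + G.Dy w i j v)
    push_cast at h
    exact h
  have low2 : ∀ i j : Bool, ∑ v, (G.Dx w i j v : ℝ) ^ 2 + ∑ v, (G.Dy w i j v : ℝ) ^ 2 ≤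
      ∑ v, ((G.Dx w i j v : ℝ) + G.Dy w i j v) ^ 2 := by
    intro i j
    rw [← Finset.sum_add_distrib]
    refine Finset.sum_le_sum fun v _ => ?_
    have h1 : (0 : ℝ) ≤ (G.Dx w i j v : ℝ) * G.Dy w i j v := by positivity
    nlinarith
  have k00 : ∑ v, ((G.Dx w false false v : ℝ) + G.Dy w false false v) ^ 2 ≤
      2 * Cc ^ 2 * (((G.nY w true : ℝ) ^ 2 / N + lam ^ 2 * ∑ v, (G.Dy w true false v : ℝ) ^ 2) +
        ((G.nX w true : ℝ) ^ 2 / N + lam ^ 2 * ∑ v, (G.Dx w false true v : ℝ) ^ 2)) :=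
    key false false
  have k01 : ∑ v, ((G.Dx w false true v : ℝ) + G.Dy w false true v) ^ 2 ≤
      2 * Cc ^ 2 * (((G.nY w true : ℝ) ^ 2 / N + lam ^ 2 * ∑ v, (G.Dy w true true v : ℝ) ^ 2) +
        ((G.nX w false : ℝ) ^ 2 / N + lam ^ 2 * ∑ v, (G.Dx w false false v : ℝ) ^ 2)) :=
    key false true
  have k10 : ∑ v, ((G.Dx w true false v : ℝ) + G.Dy w true false v) ^ 2 ≤
      2 * Cc ^ 2 * (((G.nY w false : ℝ) ^ 2 / N + lam ^ 2 * ∑ v, (G.Dy w false false v : ℝ) ^ 2) +
        ((G.nX w true : ℝ) ^ 2 / N + lam ^ 2 * ∑ v, (G.Dx w true true v : ℝ) ^ 2)) :=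
    key true false
  have k11 : ∑ v, ((G.Dx w true true v : ℝ) + G.Dy w true true v) ^ 2 ≤
      2 * Cc ^ 2 * (((G.nY w false : ℝ) ^ 2 / N + lam ^ 2 * ∑ v, (G.Dy w false true v : ℝ) ^ 2) +
        ((G.nX w false : ℝ) ^ 2 / N + lam ^ 2 * ∑ v, (G.Dx w true false v : ℝ) ^ 2)) :=
    key true true
  have l00 := low false false
  have l01 := low false true
  have l10 := low true false
  have l11 := low true true
  have m00 := low2 false false
  have m01 := low2 false true
  have m10 := low2 true false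
  have m11 := low2 true true
  rcases Nat.eq_zero_or_pos (G.Phi w) with h0 | hpos
  · exact Or.inl h0
  refine Or.inr ?_
  have hpos' : (0 : ℝ) < G.Phi w := by exact_mod_cast hpos
  have hPhi : (G.Phi w : ℝ) = (G.nX w false : ℝ) + G.nX w true + (G.nY w false + G.nY w true) := by
    unfold Phi
    push_cast
    rfl
  rw [hPhi] at hpos' ⊢
  exact alg hN hl k00 k01 k10 k11 l00 l01 l10 l11 m00 m01 m10 m11 (Nat.cast_nonneg _)
    (Nat.cast_nonneg _) (Nat.cast_nonneg _) (Nat.cast_nonneg _) hpos'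

/-! ### a locally optimal labelling near a given one -/

open Classical in
/-- number of changed vertices -/
noncomputable def chg (w0 w : Vt V → S → A) : ℕ := #{x : Vt V | w x ≠ w0 x}

theorem exists_locOpt {C : Vt V → Set (S → A)} (w0 : Vt V → S → A) (h0 : ∀ x, w0 x ∈ C x) :
    ∃ w : Vt V → S → A, (∀ x, w x ∈ C x) ∧ G.LocOpt C w ∧ G.Phi w ≤ G.Phi w0 ∧
      chg w0 w ≤ 2 * G.Phi w0 := by
  classical
  set s : Set ℕ := {m | ∃ w : Vt V → S → A, (∀ x, w x ∈ C x) ∧ 2 * G.Phi w + chg w0 w = m}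
    with hs
  have hne : s.Nonempty := ⟨_, w0, h0, rfl⟩
  obtain ⟨w, hw, hm⟩ := Nat.sInf_mem hne
  have hmin : ∀ w' : Vt V → S → A, (∀ x, w' x ∈ C x) →
      2 * G.Phi w + chg w0 w ≤ 2 * G.Phi w' + chg w0 w' := by
    intro w' hw'
    rw [hm]
    exact Nat.sInf_le ⟨w', hw', rfl⟩
  have hz : chg w0 w0 = 0 := by
    unfold chg
    simp
  refine ⟨w, hw, ?_, ?_, ?_⟩
  · intro i j v u hu
    set w' := Function.update w (mkV i j v) u with hw'
    have h1 : ∀ x, w' x ∈ C x := by
      intro x
      by_cases hx : x = mkV i j v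
      · rw [hw', hx, Function.update_self]; exact hu
      · rw [hw', Function.update_of_ne hx]; exact hw x
    have h2 := hmin w' h1
    have h3 := G.Phi_update w i j v u
    rw [← hw'] at h3
    have h4 : chg w0 w' ≤ chg w0 w + 1 := by
      unfold chg
      refine (Finset.card_le_card ?_).trans (Finset.card_insert_le (mkV i j v) _)
      intro x hx
      simp only [mem_filter, mem_univ, true_and, mem_insert] at hx ⊢
      by_cases hxv : x = mkV i j v
      · exact Or.inl hxv
      · right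
        rw [hw', Function.update_of_ne hxv] at hx
        exact hx
    omega
  · have := hmin w0 h0
    rw [hz] at this
    omega
  · have := hmin w0 h0
    rw [hz] at this
    omega

/-! ### glueing -/

theorem glue {w : Vt V → S → A} (h : G.Phi w = 0) (i j : Bool) (s : S) :
    w (mkV i j (G.cor i j s)) s = w (mkV false false (G.cor false false s)) s := by
  classical
  have hX : ∀ j e, ¬ G.dX w j e := by
    intro j e he
    have : G.nX w j = 0 := by
      unfold Phi at h
      cases j <;> omega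
    unfold nX at this
    rw [Finset.card_eq_zero, Finset.filter_eq_empty_iff] at this
    exact this (mem_univ e) he
  have hY : ∀ i f, ¬ G.dY w i f := by
    intro i f hf
    have : G.nY w i = 0 := by
      unfold Phi at h
      cases i <;> omega
    unfold nY at this
    rw [Finset.card_eq_zero, Finset.filter_eq_empty_iff] at this
    exact this (mem_univ f) hf
  have hx : ∀ j, w (mkV false j (G.cor false j s)) s = w (mkV true j (G.cor true j s)) s := by
    intro j
    by_contra hne
    exact hX j (G.xe j s) ⟨s, rfl, by rwa [G.hx, G.hx]⟩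
  have hy : ∀ i, w (mkV i false (G.cor i false s)) s = w (mkV i true (G.cor i true s)) s := by
    intro i
    by_contra hne
    exact hY i (G.ye i s) ⟨s, rfl, by rwa [G.hy, G.hy]⟩
  cases i <;> cases j
  · rfl
  · exact (hy false).symm
  · exact (hx false).symm
  · exact ((hx true).symm).trans (hy false).symm

/-! ### main theorem -/

open Classical in
/-- number of bad vertices of a word -/
noncomputable def bad (C : Vt V → Set (S → A)) (F : S → A) : ℕ := #{x : Vt V | F ∉ C x}

open Classical in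
/-- number of bad vertices of one type -/
noncomputable def badT (C : Vt V → Set (S → A)) (F : S → A) (i j : Bool) : ℕ :=
  #{v : V i j | F ∉ C (mkV i j v)}

open Classical in
theorem bad_eq (C : Vt V → Set (S → A)) (F : S → A) :
    bad C F = badT C F false false + badT C F false true +
      (badT C F true false + badT C F true true) := by
  have : ({x : Vt V | F ∉ C x} : Finset (Vt V)) = (Finset.univ : Finset (Bool × Bool)).sigma
      (fun p => ({v : V p.1 p.2 | F ∉ C ⟨p, v⟩} : Finset (V p.1 p.2))) := by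
    ext ⟨p, v⟩
    simp
  unfold bad
  rw [this, Finset.card_sigma, Fintype.sum_prod_type]
  simp only [Fintype.sum_bool, badT, mkV]
  omega

open Classical in
theorem nX_le_of_bad {C : Vt V → Set (S → A)} {n : ℕ} {F : S → A} {w0 : Vt V → S → A}
    (h0 : ∀ x, F ∈ C x → w0 x = F)
    (hdx : ∀ i j (v : V i j), #{e : X j | G.xend i j e = v} ≤ n) (j : Bool) :
    G.nX w0 j ≤ n * (badT C F false j + badT C F true j) := by
  have h1 : ∀ i : Bool, #{e : X j | F ∉ C (mkV i j (G.xend i j e))} ≤ n * badT C F i j := by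
    intro i
    rw [Finset.card_eq_sum_card_fiberwise (f := G.xend i j)
      (t := ({v : V i j | F ∉ C (mkV i j v)} : Finset (V i j)))]
    · refine (Finset.sum_le_card_nsmul _ _ n fun v _ => ?_).trans ?_
      · refine (Finset.card_le_card fun e he => ?_).trans (hdx i j v)
        simp only [mem_filter, mem_univ, true_and] at he ⊢
        exact he.2
      · rw [smul_eq_mul, mul_comm]
        exact le_of_eq rfl
    · intro e he
      simpa using he
  calc G.nX w0 j ≤ #(({e : X j | F ∉ C (mkV false j (G.xend false j e))} : Finset (X j)) ∪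
        ({e : X j | F ∉ C (mkV true j (G.xend true j e))} : Finset (X j))) := by
        unfold nX
        refine Finset.card_le_card fun e he => ?_
        simp only [mem_filter, mem_univ, true_and, mem_union] at he ⊢
        by_contra hcon
        push Not at hcon
        obtain ⟨s, _, hne⟩ := he
        rw [h0 _ hcon.1, h0 _ hcon.2] at hne
        exact hne rfl
    _ ≤ _ := Finset.card_union_le _ _
    _ ≤ _ := by rw [mul_add]; exact Nat.add_le_add (h1 false) (h1 true)

open Classical in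
theorem nY_le_of_bad {C : Vt V → Set (S → A)} {n : ℕ} {F : S → A} {w0 : Vt V → S → A}
    (h0 : ∀ x, F ∈ C x → w0 x = F)
    (hdy : ∀ i j (v : V i j), #{f : Y i | G.yend i j f = v} ≤ n) (i : Bool) :
    G.nY w0 i ≤ n * (badT C F i false + badT C F i true) := by
  have h1 : ∀ j : Bool, #{f : Y i | F ∉ C (mkV i j (G.yend i j f))} ≤ n * badT C F i j := by
    intro j
    rw [Finset.card_eq_sum_card_fiberwise (f := G.yend i j)
      (t := ({v : V i j | F ∉ C (mkV i j v)} : Finset (V i j)))]
    · refine (Finset.sum_le_card_nsmul _ _ n fun v _ => ?_).trans ?_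
      · refine (Finset.card_le_card fun e he => ?_).trans (hdy i j v)
        simp only [mem_filter, mem_univ, true_and] at he ⊢
        exact he.2
      · rw [smul_eq_mul, mul_comm]
        exact le_of_eq rfl
    · intro e he
      simpa using he
  calc G.nY w0 i ≤ #(({f : Y i | F ∉ C (mkV i false (G.yend i false f))} : Finset (Y i)) ∪
        ({f : Y i | F ∉ C (mkV i true (G.yend i true f))} : Finset (Y i))) := by
        unfold nY
        refine Finset.card_le_card fun f hf => ?_
        simp only [mem_filter, mem_univ, true_and, mem_union] at hf ⊢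
        by_contra hcon
        push Not at hcon
        obtain ⟨s, _, hne⟩ := hf
        rw [h0 _ hcon.1, h0 _ hcon.2] at hne
        exact hne rfl
    _ ≤ _ := Finset.card_union_le _ _
    _ ≤ _ := by rw [mul_add]; exact Nat.add_le_add (h1 false) (h1 true)

open Classical in
/-- squares at a vertex -/
theorem card_squares_le {n : ℕ} (hdx : ∀ i j (v : V i j), #{e : X j | G.xend i j e = v} ≤ n)
    (hdy : ∀ i j (v : V i j), #{f : Y i | G.yend i j f = v} ≤ n) (i j : Bool) (v : V i j) :
    #{s : S | G.cor i j s = v} ≤ n ^ 2 := by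
  calc #{s : S | G.cor i j s = v}
      ≤ #(({e : X j | G.xend i j e = v} : Finset (X j)) ×ˢ
          ({f : Y i | G.yend i j f = v} : Finset (Y i))) := by
        refine Finset.card_le_card_of_injOn (fun s => (G.xe j s, G.ye i s)) ?_ ?_
        · intro s hs
          simp only [coe_filter, mem_univ, true_and, Set.mem_ofPred_eq] at hs
          simp only [coe_product, Set.mem_prod, coe_filter, mem_univ, true_and,
            Set.mem_ofPred_eq]
          exact ⟨by rw [G.hx]; exact hs, by rw [G.hy]; exact hs⟩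
        · intro s _ s' _ h
          simp only [Prod.mk.injEq] at h
          exact G.inj i j s s' h.1 h.2
    _ = _ := Finset.card_product _ _
    _ ≤ n * n := Nat.mul_le_mul (hdx i j v) (hdy i j v)
    _ = n ^ 2 := by ring

open Classical in
/-- **Two-place local testability.** -/
theorem ltc {C : Vt V → Set (S → A)} {n : ℕ} {Cc N lam : ℝ} (hn : 0 < n)
    (hN : 0 < N) (hC : 0 ≤ Cc) (hl : 4 * Cc ^ 2 * lam ^ 2 ≤ 1) (hA : G.Agr C n Cc)
    (hX : G.ExpX n N lam) (hY : G.ExpY n N lam)
    (hne : ∀ x, (C x).Nonempty)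
    (hdep : ∀ i j (v : V i j) (u u' : S → A), (∀ s, G.cor i j s = v → u s = u' s) →
      u ∈ C (mkV i j v) → u' ∈ C (mkV i j v))
    (hdx : ∀ i j (v : V i j), #{e : X j | G.xend i j e = v} ≤ n)
    (hdy : ∀ i j (v : V i j), #{f : Y i | G.yend i j f = v} ≤ n)
    (F : S → A) (hF : 8 * Cc ^ 2 * n * bad C F < N) :
    ∃ F' : S → A, (∀ i j (v : V i j), F' ∈ C (mkV i j v)) ∧
      #{s : S | F' s ≠ F s} ≤ n ^ 2 * ((4 * n + 1) * bad C F) := by
  choose z hz using hne
  set w0 : Vt V → S → A := fun x => if F ∈ C x then F else z x with hw0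
  have h0 : ∀ x, w0 x ∈ C x := by
    intro x
    simp only [hw0]
    split_ifs with h
    · exact h
    · exact hz x
  have h0' : ∀ x, F ∈ C x → w0 x = F := fun x hx => if_pos hx
  obtain ⟨w, hw, ho, hPw, hch⟩ := G.exists_locOpt w0 h0
  have hP0 : G.Phi w0 ≤ 2 * n * bad C F := by
    have a0 := G.nX_le_of_bad h0' hdx false
    have a1 := G.nX_le_of_bad h0' hdx true
    have b0 := G.nY_le_of_bad h0' hdy false
    have b1 := G.nY_le_of_bad h0' hdy true
    rw [bad_eq]
    unfold Phi
    nlinarith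
  have hz0 : G.Phi w = 0 := by
    rcases G.Phi_zero_or_large hn hN hC hl hA hX hY hw ho with h | h
    · exact h
    · exfalso
      have h1 : (G.Phi w : ℝ) ≤ 2 * n * bad C F := by exact_mod_cast hPw.trans hP0
      have h2 := mul_le_mul_of_nonneg_left h1 (by positivity : (0 : ℝ) ≤ 4 * Cc ^ 2)
      nlinarith
  refine ⟨fun s => w (mkV false false (G.cor false false s)) s, ?_, ?_⟩
  · intro i j v
    refine hdep i j v (w (mkV i j v)) _ ?_ (hw _)
    intro s hs
    have := G.glue hz0 i j s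
    rw [hs] at this
    exact this
  · set B : Finset (V false false) := ({v | F ∉ C (mkV false false v)} : Finset _) ∪
      ({v | w (mkV false false v) ≠ w0 (mkV false false v)} : Finset _) with hB
    have hBc : #B ≤ bad C F + chg w0 w := by
      refine (Finset.card_union_le _ _).trans (Nat.add_le_add ?_ ?_)
      · rw [bad_eq]
        unfold badT
        omega
      · unfold chg
        refine Finset.card_le_card_of_injOn (mkV false false) ?_ ?_
        · intro v hv
          simpa using hv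
        · intro v _ v' _ h
          exact mkV_inj h
    calc #{s : S | w (mkV false false (G.cor false false s)) s ≠ F s}
        ≤ ∑ v ∈ B, #{s : S | G.cor false false s = v} := by
          rw [Finset.card_eq_sum_card_fiberwise (f := G.cor false false) (t := B)]
          · refine Finset.sum_le_sum fun v _ => Finset.card_le_card fun s hs => ?_
            simp only [mem_filter, mem_univ, true_and] at hs ⊢
            exact hs.2
          · intro s hs
            simp only [coe_filter, mem_univ, true_and, Set.mem_ofPred_eq] at hs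
            simp only [hB, coe_union, coe_filter, mem_univ, true_and, Set.mem_union,
              Set.mem_ofPred_eq]
            by_contra hcon
            push Not at hcon
            rw [hcon.2, h0' _ hcon.1] at hs
            exact hs rfl
      _ ≤ #B * n ^ 2 := by
          rw [← smul_eq_mul]
          exact Finset.sum_le_card_nsmul _ _ _ fun v _ => G.card_squares_le hdx hdy _ _ v
      _ ≤ (bad C F + chg w0 w) * n ^ 2 := Nat.mul_le_mul_right _ hBc
      _ ≤ ((4 * n + 1) * bad C F) * n ^ 2 := by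
          refine Nat.mul_le_mul_right _ ?_
          nlinarith
      _ = _ := by ring

end SqCx

end Crest.Agent.R289.LTC846
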