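import Crest.Agent.R289.LU_846
import Crest.Agent.R289.TP_846
import Crest.Agent.R289.CorrTP_974

/-!
Row 289, block B/C seam: **`LU.ofTP`** -- the two-place code of `TP846.TP` (linear edge codes over a
field `K`) as a linear unit code `LU846.LU`, symbols `I × I` of a unit.

* `codeS D xc yc` : the code (`= tpC`), a submodule of `P → I × I → K`;
* `nbS D`         : slots of the test, `(i,j,l,m)` reads the unit `u * (st i j l m)⁻¹`;
* `NS L M xc yc`  : the local condition; depends on the transports and the edge codes only;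
* correction      : `tpF`, `tpNb` of `CorrTP_974`;
* `ofTP`          : all fields of `LU`, explicit constants.
-/

set_option autoImplicit false
set_option linter.unusedSectionVars false

namespace Crest.Agent.R289.LUTP846

open Finset Crest.Agent.R289.DefD Crest.Agent.R289.Word508 Crest.Agent.R289.LU846
open Crest.Agent.R289.Tan846 Crest.Agent.R289.TP846
open Crest.Agent.R289.CorrLab974 Crest.Agent.R289.CorrTP974

variable {P I K : Type} [Field K]

/-- edge codes as sets -/
def cs (c : Bool → I → Submodule K (I → K)) : Bool → I → Set (I → K) :=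
  fun j z => {v | v ∈ c j z}

/-- edge codes of a bundle `β` of registers -/
def bu (β : Type) (c : Bool → I → Submodule K (I → K)) : Bool → I → Set (I → β → K) :=
  fun j z => {v | ∀ b, (fun m => v m b) ∈ c j z}

/-- the local condition on the labels of the slots -/
def NS (L M : I → I → I) (xc yc : Bool → I → Submodule K (I → K)) :
    Submodule K (Bool × Bool × I × I → I × I → K) where
  carrier := {x | ∀ i j : Bool,
    (∀ (z : I) (la : I → I), (∀ m, (if j then L (la m) m else la m) = z) →
      (fun m => x (i, j, la m, m) (la m, m)) ∈ xc j z) ∧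
    ∀ (w : I) (mu : I → I), (∀ l, (if i then M l (mu l) else mu l) = w) →
      (fun l => x (i, j, l, mu l) (l, mu l)) ∈ yc i w}
  add_mem' := fun ha hb i j => ⟨fun z la h => (xc j z).add_mem ((ha i j).1 z la h)
    ((hb i j).1 z la h), fun w mu h => (yc i w).add_mem ((ha i j).2 w mu h) ((hb i j).2 w mu h)⟩
  zero_mem' := fun _ _ => ⟨fun _ _ _ => Submodule.zero_mem _, fun _ _ _ => Submodule.zero_mem _⟩
  smul_mem' := fun c _ ha i j => ⟨fun z la h => (xc j z).smul_mem c ((ha i j).1 z la h),
    fun w mu h => (yc i w).smul_mem c ((ha i j).2 w mu h)⟩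

variable [Group P] (D : TP P I) (xc yc : Bool → I → Submodule K (I → K))

/-- the two-place code with symbols `I × I` -/
def codeS : Submodule K (P → I × I → K) where
  carrier := {w | (fun g l m => w g (l, m)) ∈ D.Code (cs xc) (cs yc)}
  add_mem' := fun ha hb => ⟨fun j h z => (xc j z).add_mem (ha.1 j h z) (hb.1 j h z),
    fun i h w => (yc i w).add_mem (ha.2 i h w) (hb.2 i h w)⟩
  zero_mem' := ⟨fun _ _ _ => Submodule.zero_mem _, fun _ _ _ => Submodule.zero_mem _⟩
  smul_mem' := fun c _ ha => ⟨fun j h z => (xc j z).smul_mem c (ha.1 j h z),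
    fun i h w => (yc i w).smul_mem c (ha.2 i h w)⟩

theorem mem_codeS {w : P → I × I → K} :
    w ∈ codeS D xc yc ↔ (fun g l m => w g (l, m)) ∈ D.Code (cs xc) (cs yc) := Iff.rfl

theorem codeS_eq_tpC : ((codeS D xc yc : Submodule K (P → I × I → K)) : Set (P → I × I → K)) =
    tpC D (cs xc) (cs yc) := rfl

/-- slots of the test -/
def nbS (p : Bool × Bool × I × I) (u : P) : P := u * (D.st p.1 p.2.1 p.2.2.1 p.2.2.2)⁻¹

theorem nbS_inj (p : Bool × Bool × I × I) : Function.Injective (nbS D p) := by
  intro u v h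
  exact mul_right_cancel h

theorem mem_NS {x : Bool × Bool × I × I → I × I → K} : x ∈ NS D.L D.M xc yc ↔ ∀ i j,
    (∀ z, (fun m => x (i, j, D.li j m z, m) (D.li j m z, m)) ∈ xc j z) ∧
    ∀ w, (fun l => x (i, j, l, D.mi i l w) (l, D.mi i l w)) ∈ yc i w := by
  constructor
  · intro h i j
    exact ⟨fun z => (h i j).1 z (fun m => D.li j m z) fun m => D.xl_li j m z,
      fun w => (h i j).2 w (fun l => D.mi i l w) fun l => D.yl_mi i l w⟩
  · intro h i j
    refine ⟨fun z la hla => ?_, fun w mu hmu => ?_⟩
    · have e : la = fun m => D.li j m z := by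
        funext m
        have := D.li_xl j (la m) m
        have h2 : D.xl j (la m) m = z := hla m
        rw [h2] at this
        exact this.symm
      rw [e]
      exact (h i j).1 z
    · have e : mu = fun l => D.mi i l w := by
        funext l
        have := D.mi_yl i l (mu l)
        have h2 : D.yl i l (mu l) = w := hmu l
        rw [h2] at this
        exact this.symm
      rw [e]
      exact (h i j).2 w

/-- the views of a bundle: one condition per register -/
theorem viol_iff [Fintype P] [Fintype I] {β : Type} (X : P → I × I → β → K) (u : P) :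
    D.viol (bu β xc) (bu β yc) (fun g l m => X g (l, m)) u ↔
      ∃ b, (fun i s => X (nbS D i u) s b) ∉ NS D.L D.M xc yc := by
  unfold TP.viol
  constructor
  · rintro ⟨i, j, h⟩
    by_contra hc
    push Not at hc
    apply h
    refine ⟨fun z b => ?_, fun w b => ?_⟩
    · simp only [D.sqX_eq_at i j u]
      exact (((mem_NS D xc yc).1 (hc b)) i j).1 z
    · simp only [D.sqY_eq_at i j u]
      exact (((mem_NS D xc yc).1 (hc b)) i j).2 w
  · rintro ⟨b, h⟩
    by_contra hc
    push Not at hc
    apply h
    rw [mem_NS]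
    intro i j
    have h1 := hc i j
    refine ⟨fun z => ?_, fun w => ?_⟩
    · have h2 := h1.1 z b
      simp only [D.sqX_eq_at i j u] at h2
      exact h2
    · have h2 := h1.2 w b
      simp only [D.sqY_eq_at i j u] at h2
      exact h2

theorem mem_iff [Fintype P] [Fintype I] (X : P → I × I → K) :
    X ∈ codeS D xc yc ↔ ∀ u, (fun i => X (nbS D i u)) ∈ NS D.L D.M xc yc := by
  rw [mem_codeS, D.code_iff]
  constructor
  · intro h u
    rw [mem_NS]
    intro i j
    have h1 := h i j u
    refine ⟨fun z => ?_, fun w => ?_⟩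
    · have h2 := h1.1 z
      simp only [D.sqX_eq_at i j u] at h2
      exact h2
    · have h2 := h1.2 w
      simp only [D.sqY_eq_at i j u] at h2
      exact h2
  · intro h i j u
    have h1 := ((mem_NS D xc yc).1 (h u)) i j
    refine ⟨fun z => ?_, fun w => ?_⟩
    · simp only [D.sqX_eq_at i j u]
      exact h1.1 z
    · simp only [D.sqY_eq_at i j u]
      exact h1.2 w

/-- a bundle word is a code word iff all its registers are -/
theorem mem_bu {β : Type} {Y : P → I → I → β → K} (h : Y ∈ D.Code (bu β xc) (bu β yc)) (b : β) :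
    (fun u (s : I × I) => Y u s.1 s.2 b) ∈ codeS D xc yc :=
  ⟨fun j g z => h.1 j g z b, fun i g w => h.2 i g w b⟩

variable [Fintype P] [Fintype I]

/-- **the two-place code as a linear unit code** -/
theorem ofTP [Nonempty I] {κ lam zs r0 : ℝ} {d : ℕ} (hκ : 0 ≤ κ)
    (hl : 4 * κ ^ 2 * lam ^ 2 ≤ 1)
    (hR : ∀ (β : Type) [Fintype β], ∀ i j, D.Rob (bu β xc) (bu β yc) i j κ)
    (ha : Exp D.a lam) (ha' : Exp (fun z => (D.a z)⁻¹) lam)
    (hb : Exp D.b lam) (hb' : Exp (fun z => (D.b z)⁻¹) lam)
    (hd0 : 0 < d) (hd : ∀ i w, Dist (cs yc i w) d)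
    (hzs : 32 * κ ^ 2 * Fintype.card I * zs < 1)
    (hlam : 8 * (Fintype.card I : ℝ) ^ 2 * (r0 + lam ^ 2) ≤ (d : ℝ) ^ 2) :
    LU (codeS D xc yc) (nbS D) (NS D.L D.M xc yc) (tpNb D.a) (tpF D.M (cs yc) d fun _ _ => 0)
      1 1 zs r0 ((d : ℝ) ^ 2 / (Fintype.card I : ℝ) ^ 2 - lam ^ 2)
      (4 * (Fintype.card I : ℝ) ^ 2 * (4 * Fintype.card I + 1)) (1 / 4) where
  mult := nbMult_of_injective _ (nbS_inj D)
  mult' := nbMult_of_injective _ (tpNb_inj D.a)
  mem := mem_iff D xc yc
  sep := by
    intro w hw hne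
    have hP : (0 : ℝ) < Fintype.card P := by exact_mod_cast Fintype.card_pos
    have hI : (0 : ℝ) < Fintype.card I := by exact_mod_cast Fintype.card_pos
    have h0 : (fun g l m => (0 : P → I × I → K) g (l, m)) ∈ D.Code (cs xc) (cs yc) :=
      (codeS D xc yc).zero_mem
    have h1 := D.sep (xc := cs xc) ha' hd ((mem_codeS D xc yc).1 hw) h0 (by
      intro he
      apply hne
      funext u s
      exact congrFun (congrFun (congrFun he u) s.1) s.2)
    have h2n : cnt (fun u => (fun l m => w u (l, m)) ≠
        fun l m => (0 : P → I × I → K) u (l, m)) ≤ cnt (fun u => w u ≠ 0) := by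
      refine cnt_le fun u hu he => hu ?_
      rw [he]
      rfl
    have h2 : (cnt (fun u => (fun l m => w u (l, m)) ≠
        fun l m => (0 : P → I × I → K) u (l, m)) : ℝ) ≤ cnt (fun u => w u ≠ 0) := by
      exact_mod_cast h2n
    rw [frac_eq_cnt, le_div_iff₀ hP, sub_mul, div_mul_eq_mul_div, sub_le_iff_le_add,
      div_le_iff₀ (by positivity)]
    have h3 := mul_le_mul_of_nonneg_left h2 (by positivity : (0:ℝ) ≤ (Fintype.card I : ℝ) ^ 2)
    nlinarith [h1, h3]
  sound := by
    intro β _ X hX
    have hP : (0 : ℝ) < Fintype.card P := by exact_mod_cast Fintype.card_pos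
    have hv : frac (fun u => ∃ b, (fun i s => X (nbS D i u) s b) ∉ NS D.L D.M xc yc) =
        (cnt (D.viol (bu β xc) (bu β yc) fun g l m => X g (l, m)) : ℝ) / Fintype.card P := by
      rw [frac_eq_cnt]
      congr 2
      exact cnt_congr fun u => (viol_iff D xc yc X u).symm
    rw [hv] at hX ⊢
    rw [div_le_iff₀ hP] at hX
    obtain ⟨Y, hY, hYd⟩ := D.sound hκ hl (hR β) ha ha' hb hb'
      (fun i j v => ⟨fun _ _ => 0, fun z b => (xc j z).zero_mem, fun w b => (yc i w).zero_mem⟩)
      (fun g l m => X g (l, m)) (by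
        have h1 : 32 * κ ^ 2 * Fintype.card I *
            (cnt (D.viol (bu β xc) (bu β yc) fun g l m => X g (l, m)) : ℝ) ≤
            32 * κ ^ 2 * Fintype.card I * (zs * Fintype.card P) :=
          mul_le_mul_of_nonneg_left hX (by positivity)
        nlinarith)
    refine ⟨fun u s => Y u s.1 s.2, fun b => mem_bu D xc yc hY b, ?_⟩
    rw [frac_eq_cnt, ← mul_div_assoc]
    apply div_le_div_of_nonneg_right _ hP.le
    have h1 : cnt (fun u => X u ≠ fun s : I × I => Y u s.1 s.2) ≤
        cnt (fun u => (fun l m => X u (l, m)) ≠ Y u) := by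
      refine cnt_le fun u hu he => hu ?_
      funext s
      exact congrFun (congrFun he s.1) s.2
    have h2 : (cnt (fun u => X u ≠ fun s : I × I => Y u s.1 s.2) : ℝ) ≤
        ((4 * (Fintype.card I) ^ 2 * (4 * Fintype.card I + 1) *
          cnt (D.viol (bu β xc) (bu β yc) fun g l m => X g (l, m)) : ℕ) : ℝ) := by
      exact_mod_cast h1.trans hYd
    refine h2.trans (le_of_eq ?_)
    push_cast
    ring
  corr := by
    intro E hE
    obtain ⟨B, hB, hc⟩ := (scorr_tp D (xc := cs xc) ha ha' hd0 hd hlam
      (fun _ _ => (0 : K))).exists_bad E hE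
    exact ⟨B, hB, fun w hw u hu x hx => hc w hw u hu x hx⟩

end Crest.Agent.R289.LUTP846
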