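import Crest.Agent.R289.CorrTensor_974
import Crest.Agent.R289.Word_508

/-!
Row 289, seam B/C: tensor products of linear unit codes (insurance for LU_846).

* `Cor nb cr C r th` : adversarial local correction (per reader), bad set independent of the word;
  `Cor.tensor`, `Cor.comp`, `Cor.iter`, `Cor.bundle`, `Cor.pair`, `Cor.toCAx`.
-/

set_option autoImplicit false
set_option linter.unusedSectionVars false

namespace Crest.Agent.R289.LU745

open Finset Crest.Agent.R289.DefD
open Crest.Agent.R289.CorrTensor974 (frac_eq_sum frac_prod frac_prod' frac_or_le)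
open Crest.Agent.R289.Word508 (frac_nonneg frac_mono frac_or frac_le_one frac_eq_zero frac_exists
  frac_nb_le NbMult nbMult_of_injective frac_false)

/-! ### correction -/

section cor
variable {U U1 U2 ι ι' ι1 ι2 B L1 L2 K : Type} [Fintype U] [Fintype U1] [Fintype U2]

/-- adversarial local correction -/
def Cor (nb : ι → U → U) (cr : (ι → B) → B) (C : Set (U → B)) (r th : ℝ) : Prop :=
  ∀ E : U → Prop, frac E ≤ r → ∃ Bd : U → Prop, frac Bd ≤ th * frac E ∧
    ∀ w ∈ C, ∀ u, ¬ Bd u → ∀ x : ι → B, (∀ i, ¬ E (nb i u) → x i = w (nb i u)) → cr x = w u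

theorem Cor.mono {nb : ι → U → U} {cr : (ι → B) → B} {C C' : Set (U → B)} {r r' th th' : ℝ}
    (h : Cor nb cr C r th) (hC : C' ⊆ C) (hr : r' ≤ r) (ht : th ≤ th') : Cor nb cr C' r' th' := by
  intro E hE
  obtain ⟨Bd, h1, h2⟩ := h E (hE.trans hr)
  exact ⟨Bd, h1.trans (mul_le_mul_of_nonneg_right ht (frac_nonneg _)), fun w hw => h2 w (hC hw)⟩

/-- words of the tensor product -/
def tC (C1 : Set (U1 → L1 → K)) (C2 : Set (U2 → L2 → K)) : Set (U1 × U2 → L1 × L2 → K) :=
  {w | (∀ u2 s2, (fun u1 s1 => w (u1, u2) (s1, s2)) ∈ C1) ∧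
    (∀ u1 s1, (fun u2 s2 => w (u1, u2) (s1, s2)) ∈ C2)}

/-- slots of the product corrector -/
def pnb (nb1 : ι1 → U1 → U1) (nb2 : ι2 → U2 → U2) : ι1 × ι2 → U1 × U2 → U1 × U2 :=
  fun i u => (nb1 i.1 u.1, nb2 i.2 u.2)

/-- rows (second factor) first, then columns -/
def tcr (cr1 : (ι1 → L1 → K) → L1 → K) (cr2 : (ι2 → L2 → K) → L2 → K) :
    (ι1 × ι2 → L1 × L2 → K) → L1 × L2 → K :=
  fun x s => cr1 (fun i s1 => cr2 (fun j s2 => x (i, j) (s1, s2)) s.2) s.1

theorem Cor.tensor [Nonempty U1] [Nonempty U2] {nb1 : ι1 → U1 → U1} {nb2 : ι2 → U2 → U2}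
    {cr1 : (ι1 → L1 → K) → L1 → K} {cr2 : (ι2 → L2 → K) → L2 → K}
    {C1 : Set (U1 → L1 → K)} {C2 : Set (U2 → L2 → K)} {r1 th1 r2 th2 : ℝ}
    (h1 : Cor nb1 cr1 C1 r1 th1) (h2 : Cor nb2 cr2 C2 r2 th2)
    (hr1 : 0 < r1) (hr2 : 0 < r2) (ht1 : 0 ≤ th1) (ht2 : 0 ≤ th2) :
    Cor (pnb nb1 nb2) (tcr cr1 cr2) (tC C1 C2) (r1 * r2 / 2)
      (th1 / r2 + th1 * th2 + 2 * th2 / r1) := by
  classical
  intro E hE
  have hn1 : (0 : ℝ) < Fintype.card U1 := by exact_mod_cast Fintype.card_pos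
  have hn2 : (0 : ℝ) < Fintype.card U2 := by exact_mod_cast Fintype.card_pos
  set d := frac E with hd
  set e : U1 → ℝ := fun u => frac (fun v => E (u, v)) with he
  have he0 : ∀ u, 0 ≤ e u := fun u => frac_nonneg _
  have hde : d = (∑ u, e u) / (Fintype.card U1 : ℝ) := by rw [hd, frac_prod]
  -- row step
  have row : ∀ u1, ∃ R : U2 → Prop, e u1 ≤ r2 → (frac R ≤ th2 * e u1 ∧
      ∀ w ∈ C2, ∀ u, ¬ R u → ∀ x : ι2 → L2 → K, (∀ i, ¬ E (u1, nb2 i u) → x i = w (nb2 i u)) →
        cr2 x = w u) := by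
    intro u1
    by_cases h : e u1 ≤ r2
    · obtain ⟨R, hR⟩ := h2 (fun v => E (u1, v)) h
      exact ⟨R, fun _ => hR⟩
    · exact ⟨fun _ => True, fun h' => absurd h' h⟩
  choose R2 hR2 using row
  set B0 : U1 → Prop := fun u => r2 < e u with hB0
  set E' : U1 × U2 → Prop := fun u => B0 u.1 ∨ R2 u.1 u.2 with hE'
  set f : U2 → ℝ := fun v => frac (fun u => E' (u, v)) with hf
  -- column step
  have col : ∀ u2, ∃ R : U1 → Prop, f u2 ≤ r1 → (frac R ≤ th1 * f u2 ∧
      ∀ w ∈ C1, ∀ u, ¬ R u → ∀ x : ι1 → L1 → K, (∀ i, ¬ E' (nb1 i u, u2) → x i = w (nb1 i u)) →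
        cr1 x = w u) := by
    intro u2
    by_cases h : f u2 ≤ r1
    · obtain ⟨R, hR⟩ := h1 (fun u => E' (u, u2)) h
      exact ⟨R, fun _ => hR⟩
    · exact ⟨fun _ => True, fun h' => absurd h' h⟩
  choose R1 hR1 using col
  refine ⟨fun u => r1 < f u.2 ∨ R1 u.2 u.1, ?_, ?_⟩
  · -- measure
    set b := frac B0 with hb
    have hb_le : b ≤ d / r2 := by
      rw [hb, frac_eq_sum, hde, div_div, mul_comm, ← div_div]
      apply div_le_div_of_nonneg_right _ hn1.le
      rw [Finset.sum_div]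
      apply Finset.sum_le_sum
      intro u _
      split_ifs with h
      · rw [le_div_iff₀ hr2, one_mul]; exact h.le
      · exact div_nonneg (he0 u) hr2.le
    have hb0 : 0 ≤ b := frac_nonneg _
    have hbρ : b ≤ r1 / 2 := by
      refine hb_le.trans ?_
      rw [div_le_iff₀ hr2]
      calc d ≤ r1 * r2 / 2 := hE
        _ = r1 / 2 * r2 := by ring
    set g : U2 → ℝ := fun v => frac fun u => ¬ B0 u ∧ R2 u v with hg
    have hg0 : ∀ v, 0 ≤ g v := fun v => frac_nonneg _
    have hgsum : (∑ v, g v) / (Fintype.card U2 : ℝ) ≤ th2 * d := by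
      have h3 : (∑ v, g v) / (Fintype.card U2 : ℝ) =
          (∑ u, frac fun v => ¬ B0 u ∧ R2 u v) / (Fintype.card U1 : ℝ) := by
        rw [hg, ← frac_prod' (fun x : U1 × U2 => ¬ B0 x.1 ∧ R2 x.1 x.2),
          frac_prod (fun x : U1 × U2 => ¬ B0 x.1 ∧ R2 x.1 x.2)]
      rw [h3, hde, ← mul_div_assoc]
      apply div_le_div_of_nonneg_right _ hn1.le
      rw [Finset.mul_sum]
      apply Finset.sum_le_sum
      intro u _
      by_cases hu : B0 u
      · have : (frac fun v => ¬ B0 u ∧ R2 u v) = 0 := frac_eq_zero fun v hv => hv.1 hu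
        rw [this]
        exact mul_nonneg ht2 (he0 u)
      · refine le_trans (frac_mono fun v hv => hv.2) (hR2 u (not_lt.mp hu)).1
    have hfle : ∀ v, f v ≤ b + g v := by
      intro v
      refine le_trans (frac_mono ?_) (frac_or_le B0 (fun u => ¬ B0 u ∧ R2 u v))
      intro u hu
      by_cases h : B0 u
      · exact Or.inl h
      · exact Or.inr ⟨h, hu.resolve_left h⟩
    have hcol : ∀ v, frac (fun u => r1 < f v ∨ R1 v u) ≤ th1 * (b + g v) + 2 / r1 * g v := by
      intro v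
      by_cases h : f v ≤ r1
      · have h5 := (hR1 v h).1
        have h6 : th1 * f v ≤ th1 * (b + g v) := mul_le_mul_of_nonneg_left (hfle v) ht1
        have h7 : 0 ≤ 2 / r1 * g v := mul_nonneg (by positivity) (hg0 v)
        have h8 : frac (fun u => r1 < f v ∨ R1 v u) ≤ frac (R1 v) :=
          frac_mono fun u hu => hu.resolve_left (not_lt.mpr h)
        linarith
      · have h8 : r1 / 2 < g v := by
          have := hfle v
          push Not at h
          linarith
        have h9 : (1 : ℝ) ≤ 2 / r1 * g v := by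
          rw [div_mul_eq_mul_div, le_div_iff₀ hr1]
          linarith
        have h10 : 0 ≤ th1 * (b + g v) := mul_nonneg ht1 (add_nonneg hb0 (hg0 v))
        have h11 : frac (fun u => r1 < f v ∨ R1 v u) ≤ 1 := frac_le_one _
        linarith
    have hfin : frac (fun u : U1 × U2 => r1 < f u.2 ∨ R1 u.2 u.1) ≤
        th1 * b + (th1 + 2 / r1) * (th2 * d) := by
      rw [frac_prod']
      have h13 : (∑ v, frac fun u => r1 < f v ∨ R1 v u) ≤
          ∑ v, (th1 * (b + g v) + 2 / r1 * g v) := Finset.sum_le_sum fun v _ => hcol v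
      have h14 : ∑ v, (th1 * (b + g v) + 2 / r1 * g v) =
          (Fintype.card U2 : ℝ) * (th1 * b) + (th1 + 2 / r1) * ∑ v, g v := by
        rw [Finset.mul_sum, ← nsmul_eq_mul, ← Finset.card_univ, ← Finset.sum_const,
          ← Finset.sum_add_distrib]
        refine Finset.sum_congr rfl fun v _ => ?_
        ring
      have hk : 0 ≤ th1 + 2 / r1 := by positivity
      calc (∑ v, frac fun u => r1 < f v ∨ R1 v u) / (Fintype.card U2 : ℝ)
          ≤ ((Fintype.card U2 : ℝ) * (th1 * b) + (th1 + 2 / r1) * ∑ v, g v) /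
              (Fintype.card U2 : ℝ) := by
            apply div_le_div_of_nonneg_right _ hn2.le
            rw [← h14]; exact h13
        _ = th1 * b + (th1 + 2 / r1) * ((∑ v, g v) / (Fintype.card U2 : ℝ)) := by
            field_simp
        _ ≤ th1 * b + (th1 + 2 / r1) * (th2 * d) := by
            have := mul_le_mul_of_nonneg_left hgsum hk
            linarith
    have h15 : th1 * b ≤ th1 * (d / r2) := mul_le_mul_of_nonneg_left hb_le ht1
    calc frac (fun u : U1 × U2 => r1 < f u.2 ∨ R1 u.2 u.1)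
        ≤ th1 * b + (th1 + 2 / r1) * (th2 * d) := hfin
      _ ≤ th1 * (d / r2) + (th1 + 2 / r1) * (th2 * d) := by linarith
      _ = (th1 / r2 + th1 * th2 + 2 * th2 / r1) * d := by ring
  · -- correctness
    rintro w ⟨hw1, hw2⟩ ⟨u1, u2⟩ hB x hx
    rw [not_or] at hB
    have hf1 : f u2 ≤ r1 := not_lt.mp hB.1
    funext s
    obtain ⟨s1, s2⟩ := s
    have key := (hR1 u2 hf1).2 _ (hw1 u2 s2) u1 hB.2
      (fun i s1' => cr2 (fun j s2' => x (i, j) (s1', s2')) s2) (by
        intro i hi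
        rw [not_or] at hi
        funext s1'
        have k2 := (hR2 (nb1 i u1) (not_lt.mp hi.1)).2 _ (hw2 (nb1 i u1) s1') u2 hi.2
          (fun j s2' => x (i, j) (s1', s2')) (by
            intro j hj
            funext s2'
            exact congrFun (hx (i, j) hj) (s1', s2'))
        exact congrFun k2 s2)
    exact congrFun key s1

/-- composition (first `cr'`, then `cr`) -/
theorem Cor.comp {nb : ι → U → U} {cr : (ι → B) → B} {nb' : ι' → U → U} {cr' : (ι' → B) → B}
    {C : Set (U → B)} {r th r' th' : ℝ} (h : Cor nb cr C r th) (h' : Cor nb' cr' C r' th')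
    (ht : 0 ≤ th) (ht' : 0 ≤ th') (hr : th' * r' ≤ r) :
    Cor (fun (p : ι × ι') u => nb' p.2 (nb p.1 u))
      (fun x => cr fun i => cr' fun i' => x (i, i')) C r' (th * th') := by
  intro E hE
  obtain ⟨B1, h1, h2⟩ := h' E hE
  obtain ⟨B2, h3, h4⟩ := h B1 (h1.trans ((mul_le_mul_of_nonneg_left hE ht').trans hr))
  refine ⟨B2, ?_, ?_⟩
  · calc frac B2 ≤ th * frac B1 := h3
      _ ≤ th * (th' * frac E) := mul_le_mul_of_nonneg_left h1 ht
      _ = th * th' * frac E := by ring
  · intro w hw u hu x hx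
    refine h4 w hw u hu _ fun i hi => ?_
    exact h2 w hw (nb i u) hi _ fun i' hi' => hx (i, i') hi'

/-- iterated slots -/
def It (ι : Type) : ℕ → Type
  | 0 => Unit
  | n + 1 => ι × It ι n

instance instFintypeIt (ι : Type) [Fintype ι] : ∀ n, Fintype (It ι n)
  | 0 => inferInstanceAs (Fintype Unit)
  | n + 1 => by
    haveI := instFintypeIt ι n
    exact inferInstanceAs (Fintype (ι × It ι n))

/-- iterated neighbour maps -/
def itNb (nb : ι → U → U) : ∀ n, It ι n → U → U
  | 0 => fun _ u => u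
  | n + 1 => fun p u => itNb nb n p.2 (nb p.1 u)

/-- iterated correction -/
def itCr (cr : (ι → B) → B) : ∀ n, (It ι n → B) → B
  | 0 => fun x => x ()
  | n + 1 => fun x => cr fun i => itCr cr n fun i' => x (i, i')

theorem Cor.iter {nb : ι → U → U} {cr : (ι → B) → B} {C : Set (U → B)} {r th : ℝ}
    (h : Cor nb cr C r th) (ht : 0 ≤ th) (ht1 : th ≤ 1) (hr : 0 ≤ r) :
    ∀ n, Cor (itNb nb n) (itCr cr n) C r (th ^ n)
  | 0 => by
    intro E _
    refine ⟨E, by simp, fun w _ u hu x hx => hx () hu⟩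
  | n + 1 => by
    have := h.comp (Cor.iter h ht ht1 hr n) ht (pow_nonneg ht n)
      (by
        have : th ^ n ≤ 1 := pow_le_one₀ ht ht1
        nlinarith)
    rw [pow_succ, mul_comm]
    exact this

/-- bundles: a family of registers on the same code -/
theorem Cor.bundle {κ L : Type} {nb : ι → U → U} {cr : (ι → L → K) → L → K}
    {C : Set (U → L → K)} {r th : ℝ} (h : Cor nb cr C r th) :
    Cor nb (fun (x : ι → L → κ → K) s k => cr (fun i s' => x i s' k) s)
      {w | ∀ k, (fun u s => w u s k) ∈ C} r th := by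
  intro E hE
  obtain ⟨Bd, h1, h2⟩ := h E hE
  refine ⟨Bd, h1, fun w hw u hu x hx => ?_⟩
  funext s k
  have := h2 _ (hw k) u hu (fun i s' => x i s' k) fun i hi => by
    funext s'
    exact congrFun (congrFun (hx i hi) s') k
  exact congrFun this s

/-- two registers with different codes and different slots -/
theorem Cor.pair {B' : Type} {nb : ι → U → U} {cr : (ι → B) → B} {nb' : ι' → U → U}
    {cr' : (ι' → B') → B'} {C : Set (U → B)} {C' : Set (U → B')} {r th r' th' : ℝ}
    (h : Cor nb cr C r th) (h' : Cor nb' cr' C' r' th') :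
    Cor (Sum.elim nb nb')
      (fun (x : ι ⊕ ι' → B × B') => (cr fun i => (x (Sum.inl i)).1, cr' fun i => (x (Sum.inr i)).2))
      {w | (fun u => (w u).1) ∈ C ∧ (fun u => (w u).2) ∈ C'} (min r r') (th + th') := by
  intro E hE
  obtain ⟨B1, h1, h2⟩ := h E (hE.trans (min_le_left _ _))
  obtain ⟨B2, h3, h4⟩ := h' E (hE.trans (min_le_right _ _))
  refine ⟨fun u => B1 u ∨ B2 u, ?_, ?_⟩
  · refine (frac_or _ _).trans ?_
    rw [add_mul]; exact add_le_add h1 h3
  · rintro w ⟨hw, hw'⟩ u hu x hx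
    rw [not_or] at hu
    refine Prod.ext ?_ ?_
    · exact h2 _ hw u hu.1 _ fun i hi => congrArg Prod.fst (hx (Sum.inl i) hi)
    · exact h4 _ hw' u hu.2 _ fun i hi => congrArg Prod.snd (hx (Sum.inr i) hi)

/-- the form of `Word508.CAx.corr` -/
theorem Cor.toCAx {nb : ι → U → U} {cr : (ι → B) → B} {C : Set (U → B)} {r th : ℝ}
    (h : Cor nb cr C r th) : ∀ w ∈ C, ∀ E : U → Prop, frac E ≤ r →
    frac (fun u => ∃ x : ι → B, (∀ i, ¬ E (nb i u) → x i = w (nb i u)) ∧ cr x ≠ w u) ≤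
      th * frac E := by
  intro w hw E hE
  obtain ⟨Bd, h1, h2⟩ := h E hE
  refine (frac_mono ?_).trans h1
  rintro u ⟨x, hx, hne⟩
  by_contra hB
  exact hne (h2 w hw u hB x hx)

end cor

end Crest.Agent.R289.LU745
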