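import Crest.Agent.R289.LU_846

/-!
Row 289: soundness of the tensor product of linear unit codes (exact rows + residual words).
-/

set_option autoImplicit false
set_option linter.unusedSectionVars false

namespace Crest.Agent.R289.LU846

open Finset Crest.Agent.R289.DefD Crest.Agent.R289.Word508

variable {K : Type} [Field K]
variable {U₁ S₁ U₂ S₂ ι₁ ι₂ ι₁' ι₂' : Type}

/-- soundness without smallness hypothesis -/
theorem sound_all {U S ι : Type} [Fintype U] {C : Submodule K (U → S → K)} {nb : ι → U → U}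
    {N : Submodule K (ι → S → K)} {zs c : ℝ} (hz : 0 < zs)
    (h : ∀ (β : Type) [Fintype β] (X : U → S → β → K),
      frac (fun u => ∃ b, (fun i s => X (nb i u) s b) ∉ N) ≤ zs →
      ∃ Y : U → S → β → K, (∀ b, (fun u s => Y u s b) ∈ C) ∧
        frac (fun u => X u ≠ Y u) ≤ c * frac (fun u => ∃ b, (fun i s => X (nb i u) s b) ∉ N))
    (β : Type) [Fintype β] (X : U → S → β → K) :
    ∃ Y : U → S → β → K, (∀ b, (fun u s => Y u s b) ∈ C) ∧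
      frac (fun u => X u ≠ Y u) ≤
        max c (1 / zs) * frac (fun u => ∃ b, (fun i s => X (nb i u) s b) ∉ N) := by
  have h0 := frac_nonneg (fun u => ∃ b, (fun i s => X (nb i u) s b) ∉ N)
  by_cases hs : frac (fun u => ∃ b, (fun i s => X (nb i u) s b) ∉ N) ≤ zs
  · obtain ⟨Y, hY, hY'⟩ := h β X hs
    exact ⟨Y, hY, hY'.trans (mul_le_mul_of_nonneg_right (le_max_left _ _) h0)⟩
  · push Not at hs
    refine ⟨fun _ _ _ => 0, fun b => C.zero_mem, ?_⟩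
    refine (frac_le_one _).trans ?_
    have h1 : 1 ≤ 1 / zs * frac (fun u => ∃ b, (fun i s => X (nb i u) s b) ∉ N) := by
      rw [one_div, ← div_eq_inv_mul, le_div_iff₀ hz]
      linarith
    exact h1.trans (mul_le_mul_of_nonneg_right (le_max_right _ _) h0)

/-- a functional applied to the bundle of words of a code gives a word of the code -/
theorem comb_mem {U S τ σ : Type} [Fintype τ] [Fintype σ] (C : Submodule K (U → S → K))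
    (a : τ → σ → K) (W : τ → σ → U → S → K) (hW : ∀ i s, W i s ∈ C) :
    (fun u t => ∑ i, ∑ s, a i s * W i s u t) ∈ C := by
  have h : (fun u t => ∑ i, ∑ s, a i s * W i s u t) = ∑ i, ∑ s, a i s • W i s := by
    funext u t
    simp [Finset.sum_apply]
  rw [h]
  exact C.sum_mem fun i _ => C.sum_mem fun s _ => C.smul_mem _ (hW i s)

variable [Fintype U₁] [Fintype U₂] [Nonempty U₁] [Nonempty U₂] [Fintype S₁] [Fintype S₂]
  [Fintype ι₂]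

/-- residuals of exact words: a violated test of the second factor is violated at a `d₁` share
of the first factor -/
theorem residual {C₁ : Submodule K (U₁ → S₁ → K)} {d₁ : ℝ}
    (hsep : ∀ w ∈ C₁, w ≠ 0 → d₁ ≤ frac (fun u => w u ≠ 0))
    {N₂ : Submodule K (ι₂ → S₂ → K)} (Y : ι₂ → S₂ → U₁ → S₁ → K)
    (hY : ∀ i s, Y i s ∈ C₁) (u₁ : U₁) (s₁ : S₁) (hv : (fun i s₂ => Y i s₂ u₁ s₁) ∉ N₂) :
    d₁ ≤ frac (fun u₁ => ∃ s₁, (fun i s₂ => Y i s₂ u₁ s₁) ∉ N₂) := by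
  obtain ⟨a, ha, hne⟩ := dual_sep N₂ hv
  have hW := comb_mem C₁ a Y hY
  have h1 := hsep _ hW (fun h => hne (by
    have := congrFun (congrFun h u₁) s₁
    simpa using this))
  refine h1.trans (frac_mono fun u hu => ?_)
  obtain ⟨t, ht⟩ := Function.ne_iff.1 hu
  exact ⟨t, fun hm => ht (ha _ hm)⟩

theorem sound_tens {C₁ : Submodule K (U₁ → S₁ → K)} {C₂ : Submodule K (U₂ → S₂ → K)}
    {nb₁ : ι₁ → U₁ → U₁} {nb₂ : ι₂ → U₂ → U₂} {N₁ : Submodule K (ι₁ → S₁ → K)}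
    {N₂ : Submodule K (ι₂ → S₂ → K)} {m₂ zs₁ zs₂ d₁ d₂ c₁ c₂ : ℝ}
    (hm₂ : 0 ≤ m₂) (hmult : NbMult nb₂ m₂) (hz₁ : 0 < zs₁)
    (hd₁ : 0 < d₁) (hd₂ : 0 < d₂) (hc₂ : 0 < c₂)
    (hsep₁ : ∀ w ∈ C₁, w ≠ 0 → d₁ ≤ frac (fun u => w u ≠ 0))
    (hsep₂ : ∀ w ∈ C₂, w ≠ 0 → d₂ ≤ frac (fun u => w u ≠ 0))
    (h₁ : ∀ (β : Type) [Fintype β] (X : U₁ → S₁ → β → K),
      frac (fun u => ∃ b, (fun i s => X (nb₁ i u) s b) ∉ N₁) ≤ zs₁ →
      ∃ Y : U₁ → S₁ → β → K, (∀ b, (fun u s => Y u s b) ∈ C₁) ∧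
        frac (fun u => X u ≠ Y u) ≤ c₁ * frac (fun u => ∃ b, (fun i s => X (nb₁ i u) s b) ∉ N₁))
    (h₂ : ∀ (β : Type) [Fintype β] (X : U₂ → S₂ → β → K),
      frac (fun u => ∃ b, (fun i s => X (nb₂ i u) s b) ∉ N₂) ≤ zs₂ →
      ∃ Y : U₂ → S₂ → β → K, (∀ b, (fun u s => Y u s b) ∈ C₂) ∧
        frac (fun u => X u ≠ Y u) ≤ c₂ * frac (fun u => ∃ b, (fun i s => X (nb₂ i u) s b) ∉ N₂))
    (β : Type) [Fintype β] (X : U₁ × U₂ → S₁ × S₂ → β → K)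
    (hX : frac (fun u => ∃ b, (fun i s => X (nbT nb₁ nb₂ i u) s b) ∉ NT N₁ N₂) ≤
      min (zs₂ / ((1 + Fintype.card ι₂ * m₂ * max c₁ (1 / zs₁)) / d₁))
        (d₂ / (2 * c₂ * ((1 + Fintype.card ι₂ * m₂ * max c₁ (1 / zs₁)) / d₁)))) :
    ∃ Y : U₁ × U₂ → S₁ × S₂ → β → K, (∀ b, (fun u s => Y u s b) ∈ tens C₁ C₂) ∧
      frac (fun u => X u ≠ Y u) ≤
        (max c₁ (1 / zs₁) + c₂ * ((1 + Fintype.card ι₂ * m₂ * max c₁ (1 / zs₁)) / d₁)) *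
        frac (fun u => ∃ b, (fun i s => X (nbT nb₁ nb₂ i u) s b) ∉ NT N₁ N₂) := by
  obtain ⟨V, hV⟩ : ∃ V, V = frac (fun u => ∃ b, (fun i s => X (nbT nb₁ nb₂ i u) s b) ∉ NT N₁ N₂) :=
    ⟨_, rfl⟩
  obtain ⟨c, hc⟩ : ∃ c, c = max c₁ (1 / zs₁) := ⟨_, rfl⟩
  obtain ⟨κ, hκ⟩ : ∃ κ, κ = (1 + Fintype.card ι₂ * m₂ * c) / d₁ := ⟨_, rfl⟩
  rw [← hV, ← hc, ← hκ] at hX
  rw [← hV, ← hc, ← hκ]
  have hV0 : 0 ≤ V := by rw [hV]; exact frac_nonneg _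
  have hc0 : 0 < c := by
    rw [hc]
    exact lt_of_lt_of_le (by positivity) (le_max_right _ _)
  have hκ0 : 0 < κ := by rw [hκ]; positivity
  -- the two kinds of violations
  have hV1 : frac (fun u : U₁ × U₂ => ∃ b : S₂ × β,
      (fun i s₁ => X (nb₁ i u.1, u.2) (s₁, b.1) b.2) ∉ N₁) ≤ V := by
    rw [hV]
    refine frac_mono fun u ⟨⟨s₂, b⟩, hb⟩ => ⟨b, fun hm => hb (hm.1 s₂)⟩
  have hV2 : frac (fun u : U₁ × U₂ => ∃ b : S₁ × β,
      (fun i s₂ => X (u.1, nb₂ i u.2) (b.1, s₂) b.2) ∉ N₂) ≤ V := by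
    rw [hV]
    refine frac_mono fun u ⟨⟨s₁, b⟩, hb⟩ => ⟨b, fun hm => hb (hm.2 s₁)⟩
  -- step 1: exact columns
  have step1 := fun u₂ : U₂ => sound_all hz₁ h₁ (S₂ × β)
    (fun u₁ s₁ b => X (u₁, u₂) (s₁, b.1) b.2)
  choose Y1 hY1 hY1' using step1
  have hw1 : frac (fun u : U₁ × U₂ => (fun s₁ (b : S₂ × β) => X (u.1, u.2) (s₁, b.1) b.2) ≠
      Y1 u.2 u.1) ≤ c * V := by
    refine le_trans (frac_le_cols (q := fun u : U₁ × U₂ => ∃ b : S₂ × β,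
      (fun i s₁ => X (nb₁ i u.1, u.2) (s₁, b.1) b.2) ∉ N₁) (c := c) fun u₂ => ?_)
      (mul_le_mul_of_nonneg_left hV1 hc0.le)
    rw [hc]
    exact hY1' u₂
  -- step 2: residuals
  set Z : U₂ → S₂ → (U₁ × S₁ × β) → K := fun u₂ s₂ p => Y1 u₂ p.1 p.2.1 (s₂, p.2.2) with hZ
  obtain ⟨V2, hV2def⟩ : ∃ V2, V2 = frac (fun u₂ => ∃ p, (fun i s₂ => Z (nb₂ i u₂) s₂ p) ∉ N₂) :=
    ⟨_, rfl⟩
  have hres : d₁ * V2 ≤ frac (fun u : U₁ × U₂ => ∃ p : S₁ × β,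
      (fun i s₂ => Y1 (nb₂ i u.2) u.1 p.1 (s₂, p.2)) ∉ N₂) := by
    rw [hV2def]
    refine markov₂ (fun u : U₁ × U₂ => ∃ p : S₁ × β,
      (fun i s₂ => Y1 (nb₂ i u.2) u.1 p.1 (s₂, p.2)) ∉ N₂) _ fun u₂ => ?_
    rintro ⟨⟨u₁, s₁, b⟩, hp⟩
    refine le_trans (residual hsep₁ (fun i s₂ u₁ s₁ => Y1 (nb₂ i u₂) u₁ s₁ (s₂, b))
      (fun i s₂ => hY1 (nb₂ i u₂) (s₂, b)) u₁ s₁ hp) (frac_mono fun v ⟨t, ht⟩ => ⟨(t, b), ht⟩)
  have hres2 : frac (fun u : U₁ × U₂ => ∃ p : S₁ × β,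
      (fun i s₂ => Y1 (nb₂ i u.2) u.1 p.1 (s₂, p.2)) ∉ N₂) ≤
      V + Fintype.card ι₂ * m₂ * (c * V) := by
    have hle : frac (fun u : U₁ × U₂ => ∃ p : S₁ × β,
        (fun i s₂ => Y1 (nb₂ i u.2) u.1 p.1 (s₂, p.2)) ∉ N₂) ≤
        frac (fun u : U₁ × U₂ => (∃ b : S₁ × β,
          (fun i s₂ => X (u.1, nb₂ i u.2) (b.1, s₂) b.2) ∉ N₂) ∨
          ∃ i, (fun s₁ (b : S₂ × β) => X (u.1, nb₂ i u.2) (s₁, b.1) b.2) ≠
            Y1 (nb₂ i u.2) u.1) := by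
      refine frac_mono fun u ⟨⟨s₁, b⟩, hp⟩ => ?_
      by_cases hcon : ∃ i, (fun s₁ (b : S₂ × β) => X (u.1, nb₂ i u.2) (s₁, b.1) b.2) ≠
            Y1 (nb₂ i u.2) u.1
      · exact Or.inr hcon
      · push Not at hcon
        refine Or.inl ⟨(s₁, b), ?_⟩
        have e : (fun i s₂ => X (u.1, nb₂ i u.2) (s₁, s₂) b) =
            fun i s₂ => Y1 (nb₂ i u.2) u.1 s₁ (s₂, b) := by
          funext i s₂
          exact congrFun (congrFun (hcon i) s₁) (s₂, b)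
        simp only
        rw [e]
        exact hp
    refine hle.trans ((frac_or _ _).trans (add_le_add hV2 ?_))
    refine (frac_exists _).trans ?_
    calc ∑ i : ι₂, frac (fun u : U₁ × U₂ =>
          (fun s₁ (b : S₂ × β) => X (u.1, nb₂ i u.2) (s₁, b.1) b.2) ≠ Y1 (nb₂ i u.2) u.1)
        ≤ ∑ _i : ι₂, m₂ * (c * V) := by
          refine Finset.sum_le_sum fun i _ => ?_
          refine (mult_snd hmult i (fun u : U₁ × U₂ =>
            (fun s₁ (b : S₂ × β) => X (u.1, u.2) (s₁, b.1) b.2) ≠ Y1 u.2 u.1)).trans ?_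
          exact mul_le_mul_of_nonneg_left hw1 hm₂
      _ = Fintype.card ι₂ * m₂ * (c * V) := by
          rw [Finset.sum_const, card_univ, nsmul_eq_mul]
          ring
  have hV2le : V2 ≤ κ * V := by
    have h3 := hres.trans hres2
    have h4 : κ * V = (V + Fintype.card ι₂ * m₂ * (c * V)) / d₁ := by
      rw [hκ]
      ring
    rw [h4, le_div_iff₀ hd₁]
    linarith
  have hX1 : κ * V ≤ zs₂ := by
    have := hX.trans (min_le_left _ _)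
    rw [le_div_iff₀ hκ0] at this
    linarith
  have hX2 : c₂ * (κ * V) < d₂ := by
    have := hX.trans (min_le_right _ _)
    rw [le_div_iff₀ (by positivity)] at this
    nlinarith
  obtain ⟨Z', hZ', hZ''⟩ := h₂ (U₁ × S₁ × β) Z (by rw [← hV2def]; exact hV2le.trans hX1)
  rw [← hV2def] at hZ''
  have hη : frac (fun u₂ => Z u₂ ≠ Z' u₂) ≤ c₂ * (κ * V) :=
    hZ''.trans (mul_le_mul_of_nonneg_left hV2le hc₂.le)
  -- step 3: columns of `Z'` are exact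
  have hcol : ∀ u₂ s₂ b, (fun u₁ s₁ => Z' u₂ s₂ (u₁, s₁, b)) ∈ C₁ := by
    intro u₂ s₂ b
    by_contra hcon
    obtain ⟨a, ha, hne⟩ := dual_sep C₁ hcon
    have hT := comb_mem C₂ a (fun u₁ s₁ u₂ s₂ => Z' u₂ s₂ (u₁, s₁, b))
      (fun u₁ s₁ => hZ' (u₁, s₁, b))
    have h5 := hsep₂ _ hT (fun h => hne (by
      have := congrFun (congrFun h u₂) s₂
      simpa using this))
    have h6 : frac (fun v₂ => (fun t => ∑ i, ∑ s, a i s * Z' v₂ t (i, s, b)) ≠ 0) ≤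
        frac (fun u₂ => Z u₂ ≠ Z' u₂) := by
      refine frac_mono fun v₂ hv => ?_
      intro he
      apply hv
      funext t
      have : (fun u₁ s₁ => Z v₂ t (u₁, s₁, b)) ∈ C₁ := hY1 v₂ (t, b)
      rw [he] at this
      exact ha _ this
    linarith
  refine ⟨fun u s b => Z' u.2 s.2 (u.1, s.1, b), fun b => ⟨fun u₂ s₂ => hcol u₂ s₂ b,
    fun u₁ s₁ => hZ' (u₁, s₁, b)⟩, ?_⟩
  -- step 4: count
  have hfin : frac (fun u : U₁ × U₂ => X u ≠ fun s b => Z' u.2 s.2 (u.1, s.1, b)) ≤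
      frac (fun u : U₁ × U₂ => ((fun s₁ (b : S₂ × β) => X (u.1, u.2) (s₁, b.1) b.2) ≠
        Y1 u.2 u.1) ∨ Z u.2 ≠ Z' u.2) := by
    refine frac_mono fun u hu => ?_
    by_contra hcon
    push Not at hcon
    apply hu
    funext s b
    have e1 := congrFun (congrFun hcon.1 s.1) (s.2, b)
    have e2 := congrFun (congrFun hcon.2 s.2) (u.1, s.1, b)
    simp only [hZ] at e1 e2
    rw [← e2, ← e1]
  refine hfin.trans ((frac_or _ _).trans ?_)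
  have h7 : frac (fun u : U₁ × U₂ => Z u.2 ≠ Z' u.2) = frac (fun u₂ => Z u₂ ≠ Z' u₂) :=
    frac_snd (fun u₂ => Z u₂ ≠ Z' u₂)
  rw [h7]
  calc _ ≤ c * V + c₂ * (κ * V) := add_le_add hw1 hη
    _ = (c + c₂ * κ) * V := by ring

end Crest.Agent.R289.LU846
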