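import Crest.Agent.R289.Word_508

/-!
# Row 289, block B/C joint: tensor products of linear unit codes, sound half of `LU.tensor`

`C1 ≤ (U1 → L1 → K)` linear code on the units `U1` with symbols `L1`, tested by ONE linear local
condition `N1 ≤ (ι1 → L1 → K)` on the labels of the neighbours `nb1 i u`; the same for `2`.
`tens C1 C2` = arrays `U1 × U2 → L1 × L2 → K` all whose slices are code words.

* `mem_tens_iff` : the local conditions of the tensor code,
* `sep_tens`     : distance `d1 * d2`,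
* `sound_tens`   : soundness for every finite bundle (`Snd`), constants `cT`, `zsT`,
* `mult_tens`    : multiplicity of the neighbour maps.
-/

set_option autoImplicit false

namespace Crest.Agent.R289.LUsound693

open Finset Crest.Agent.R289.DefD Crest.Agent.R289.Word508

/-! ### fractions on products -/

section fr
variable {U1 U2 : Type} [Fintype U1] [Fintype U2]

theorem frac_prod1 (p : U1 × U2 → Prop) :
    frac p = (∑ a, frac fun b => p (a, b)) / (Fintype.card U1 : ℝ) := by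
  classical
  unfold frac
  have h : ((univ.filter p).card : ℝ) = ∑ a, ((univ.filter fun b => p (a, b)).card : ℝ) := by
    rw [← Nat.cast_sum]
    congr 1
    rw [Finset.card_filter, Fintype.sum_prod_type]
    refine Finset.sum_congr rfl fun a _ => ?_
    rw [Finset.card_filter]
  rw [h, Fintype.card_prod, ← Finset.sum_div, div_div, Nat.cast_mul, mul_comm (Fintype.card U2 : ℝ)]

theorem frac_prod2 (p : U1 × U2 → Prop) :
    frac p = (∑ b, frac fun a => p (a, b)) / (Fintype.card U2 : ℝ) := by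
  classical
  unfold frac
  have h : ((univ.filter p).card : ℝ) = ∑ b, ((univ.filter fun a => p (a, b)).card : ℝ) := by
    rw [← Nat.cast_sum]
    congr 1
    rw [Finset.card_filter, Fintype.sum_prod_type_right]
    refine Finset.sum_congr rfl fun b _ => ?_
    rw [Finset.card_filter]
  rw [h, Fintype.card_prod, ← Finset.sum_div, div_div, Nat.cast_mul]

/-- slicewise upper bound, slices along the first factor -/
theorem frac_le_of_slices2 {p q : U1 × U2 → Prop} {c : ℝ}
    (h : ∀ b, frac (fun a => p (a, b)) ≤ c * frac fun a => q (a, b)) :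
    frac p ≤ c * frac q := by
  rw [frac_prod2 p, frac_prod2 q, ← mul_div_assoc, Finset.mul_sum]
  exact div_le_div_of_nonneg_right (Finset.sum_le_sum fun b _ => h b) (Nat.cast_nonneg _)

theorem frac_le_of_slices1 {p q : U1 × U2 → Prop} {c : ℝ}
    (h : ∀ a, frac (fun b => p (a, b)) ≤ c * frac fun b => q (a, b)) :
    frac p ≤ c * frac q := by
  rw [frac_prod1 p, frac_prod1 q, ← mul_div_assoc, Finset.mul_sum]
  exact div_le_div_of_nonneg_right (Finset.sum_le_sum fun b _ => h b) (Nat.cast_nonneg _)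

theorem frac_snd_le (q : U2 → Prop) : frac (fun u : U1 × U2 => q u.2) ≤ frac q := by
  classical
  rw [frac_prod1]
  rcases Nat.eq_zero_or_pos (Fintype.card U1) with h | h
  · rw [h]; simp [frac_nonneg]
  · have e : (∑ _a : U1, frac fun b => q b) = (Fintype.card U1 : ℝ) * frac q := by
      rw [Finset.sum_const, nsmul_eq_mul, Finset.card_univ]
    have e' : (∑ a : U1, frac fun b => q (a, b).2) = (Fintype.card U1 : ℝ) * frac q := e
    have h0 : (0 : ℝ) < Fintype.card U1 := by exact_mod_cast h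
    rw [e', mul_comm, mul_div_assoc, div_self h0.ne', mul_one]

theorem frac_fst_le (q : U1 → Prop) : frac (fun u : U1 × U2 => q u.1) ≤ frac q := by
  classical
  rw [frac_prod2]
  rcases Nat.eq_zero_or_pos (Fintype.card U2) with h | h
  · rw [h]; simp [frac_nonneg]
  · have e : (∑ _b : U2, frac fun a => q a) = (Fintype.card U2 : ℝ) * frac q := by
      rw [Finset.sum_const, nsmul_eq_mul, Finset.card_univ]
    have e' : (∑ b : U2, frac fun a => q (a, b).1) = (Fintype.card U2 : ℝ) * frac q := e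
    have h0 : (0 : ℝ) < Fintype.card U2 := by exact_mod_cast h
    rw [e', mul_comm, mul_div_assoc, div_self h0.ne', mul_one]

/-- if every slice with `q b` has density at least `d` then `d * frac q ≤ frac p` -/
theorem mul_frac_le2 {p : U1 × U2 → Prop} {q : U2 → Prop} {d : ℝ}
    (h : ∀ b, q b → d ≤ frac fun a => p (a, b)) : d * frac q ≤ frac p := by
  classical
  rw [frac_prod2 p]
  have e : d * frac q = (∑ b, if q b then d else 0) / (Fintype.card U2 : ℝ) := by
    unfold frac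
    rw [← Finset.sum_filter, Finset.sum_const, nsmul_eq_mul]
    ring
  rw [e]
  refine div_le_div_of_nonneg_right (Finset.sum_le_sum fun b _ => ?_) (Nat.cast_nonneg _)
  split_ifs with hb
  · exact h b hb
  · exact frac_nonneg _

theorem mul_frac_le1 {p : U1 × U2 → Prop} {q : U1 → Prop} {d : ℝ}
    (h : ∀ a, q a → d ≤ frac fun b => p (a, b)) : d * frac q ≤ frac p := by
  classical
  rw [frac_prod1 p]
  have e : d * frac q = (∑ b, if q b then d else 0) / (Fintype.card U1 : ℝ) := by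
    unfold frac
    rw [← Finset.sum_filter, Finset.sum_const, nsmul_eq_mul]
    ring
  rw [e]
  refine div_le_div_of_nonneg_right (Finset.sum_le_sum fun b _ => ?_) (Nat.cast_nonneg _)
  split_ifs with hb
  · exact h b hb
  · exact frac_nonneg _

theorem frac_congr {U : Type} [Fintype U] {p q : U → Prop} (h : ∀ u, p u ↔ q u) :
    frac p = frac q := le_antisymm (frac_mono fun u => (h u).1) (frac_mono fun u => (h u).2)

end fr

/-! ### functionals -/

section func
variable {K : Type} [Field K]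

theorem phi_sum {J S : Type} [Fintype J] [Fintype S] [DecidableEq J] [DecidableEq S]
    (φ : (J → S → K) →ₗ[K] K) (x : J → S → K) :
    φ x = ∑ j, ∑ s, x j s * φ (Pi.single j (Pi.single s 1)) := by
  have h : x = ∑ j, ∑ s, x j s • (Pi.single j (Pi.single s (1 : K)) : J → S → K) := by
    funext j' s'
    simp only [Finset.sum_apply, Pi.smul_apply, smul_eq_mul]
    rw [Finset.sum_eq_single j', Finset.sum_eq_single s']
    · simp
    · intro s _ hs
      simp [Ne.symm hs]
    · simp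
    · intro j _ hj
      refine Finset.sum_eq_zero fun s _ => ?_
      rw [Pi.single_apply, if_neg (Ne.symm hj)]
      simp
    · simp
  conv_lhs => rw [h]
  rw [map_sum]
  refine Finset.sum_congr rfl fun j _ => ?_
  rw [map_sum]
  refine Finset.sum_congr rfl fun s _ => ?_
  rw [map_smul, smul_eq_mul]

/-- a functional applied to a family of code words is a code word -/
theorem func_mem {U L J S : Type} [Fintype J] [Fintype S]
    (C : Submodule K (U → L → K)) (φ : (J → S → K) →ₗ[K] K) (F : J → S → U → L → K)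
    (hF : ∀ j s, F j s ∈ C) : (fun u l => φ fun j s => F j s u l) ∈ C := by
  classical
  have e : (fun u l => φ fun j s => F j s u l) =
      ∑ j, ∑ s, (φ (Pi.single j (Pi.single s 1))) • F j s := by
    funext u l
    rw [phi_sum φ]
    simp only [Finset.sum_apply, Pi.smul_apply, smul_eq_mul]
    refine Finset.sum_congr rfl fun j _ => Finset.sum_congr rfl fun s _ => ?_
    ring
  rw [e]
  exact Submodule.sum_mem _ fun j _ => Submodule.sum_mem _ fun s _ => C.smul_mem _ (hF j s)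

theorem exists_func {V : Type} [AddCommGroup V] [Module K V] (N : Submodule K V) {x : V}
    (hx : x ∉ N) : ∃ φ : V →ₗ[K] K, φ x ≠ 0 ∧ ∀ y ∈ N, φ y = 0 := by
  obtain ⟨f, hf, hN⟩ := Submodule.exists_le_ker_of_notMem (p := N) hx
  exact ⟨f, hf, fun y hy => by simpa using hN hy⟩

end func

/-! ### the tensor code -/

section tensor
variable {K : Type} [Field K] {U1 U2 L1 L2 ι1 ι2 : Type}

/-- arrays on `U1 × U2` all whose slices are code words -/
def tens (C1 : Submodule K (U1 → L1 → K)) (C2 : Submodule K (U2 → L2 → K)) :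
    Submodule K (U1 × U2 → L1 × L2 → K) where
  carrier := {X | (∀ u2 s2, (fun u1 s1 => X (u1, u2) (s1, s2)) ∈ C1) ∧
    ∀ u1 s1, (fun u2 s2 => X (u1, u2) (s1, s2)) ∈ C2}
  zero_mem' := ⟨fun _ _ => C1.zero_mem, fun _ _ => C2.zero_mem⟩
  add_mem' := fun {_ _} hX hY =>
    ⟨fun u s => C1.add_mem (hX.1 u s) (hY.1 u s), fun u s => C2.add_mem (hX.2 u s) (hY.2 u s)⟩
  smul_mem' := fun c _ hX =>
    ⟨fun u s => C1.smul_mem c (hX.1 u s), fun u s => C2.smul_mem c (hX.2 u s)⟩

theorem mem_tens {C1 : Submodule K (U1 → L1 → K)} {C2 : Submodule K (U2 → L2 → K)}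
    {X : U1 × U2 → L1 × L2 → K} : X ∈ tens C1 C2 ↔
      (∀ u2 s2, (fun u1 s1 => X (u1, u2) (s1, s2)) ∈ C1) ∧
        ∀ u1 s1, (fun u2 s2 => X (u1, u2) (s1, s2)) ∈ C2 := Iff.rfl

/-- neighbours of the product -/
def nbT (nb1 : ι1 → U1 → U1) (nb2 : ι2 → U2 → U2) : ι1 ⊕ ι2 → U1 × U2 → U1 × U2
  | .inl i, u => (nb1 i u.1, u.2)
  | .inr j, u => (u.1, nb2 j u.2)

/-- local condition of the product -/
def locT (N1 : Submodule K (ι1 → L1 → K)) (N2 : Submodule K (ι2 → L2 → K)) :
    Submodule K (ι1 ⊕ ι2 → L1 × L2 → K) where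
  carrier := {x | (∀ s2, (fun i s1 => x (.inl i) (s1, s2)) ∈ N1) ∧
    ∀ s1, (fun j s2 => x (.inr j) (s1, s2)) ∈ N2}
  zero_mem' := ⟨fun _ => N1.zero_mem, fun _ => N2.zero_mem⟩
  add_mem' := fun {_ _} hx hy =>
    ⟨fun s => N1.add_mem (hx.1 s) (hy.1 s), fun s => N2.add_mem (hx.2 s) (hy.2 s)⟩
  smul_mem' := fun c _ hx =>
    ⟨fun s => N1.smul_mem c (hx.1 s), fun s => N2.smul_mem c (hx.2 s)⟩

theorem mem_locT {N1 : Submodule K (ι1 → L1 → K)} {N2 : Submodule K (ι2 → L2 → K)}
    {x : ι1 ⊕ ι2 → L1 × L2 → K} : x ∈ locT N1 N2 ↔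
      (∀ s2, (fun i s1 => x (.inl i) (s1, s2)) ∈ N1) ∧
        ∀ s1, (fun j s2 => x (.inr j) (s1, s2)) ∈ N2 := Iff.rfl

theorem mem_tens_iff {C1 : Submodule K (U1 → L1 → K)} {C2 : Submodule K (U2 → L2 → K)}
    {nb1 : ι1 → U1 → U1} {nb2 : ι2 → U2 → U2}
    {N1 : Submodule K (ι1 → L1 → K)} {N2 : Submodule K (ι2 → L2 → K)}
    (m1 : ∀ X : U1 → L1 → K, X ∈ C1 ↔ ∀ u, (fun i => X (nb1 i u)) ∈ N1)
    (m2 : ∀ X : U2 → L2 → K, X ∈ C2 ↔ ∀ u, (fun i => X (nb2 i u)) ∈ N2)
    (X : U1 × U2 → L1 × L2 → K) :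
    X ∈ tens C1 C2 ↔ ∀ u, (fun i => X (nbT nb1 nb2 i u)) ∈ locT N1 N2 := by
  rw [mem_tens]
  constructor
  · rintro ⟨h1, h2⟩ ⟨u1, u2⟩
    exact ⟨fun s2 => (m1 _).1 (h1 u2 s2) u1, fun s1 => (m2 _).1 (h2 u1 s1) u2⟩
  · intro h
    exact ⟨fun u2 s2 => (m1 _).2 fun u1 => (h (u1, u2)).1 s2,
      fun u1 s1 => (m2 _).2 fun u2 => (h (u1, u2)).2 s1⟩

/-- distance -/
theorem sep_tens [Fintype U1] [Fintype U2]
    {C1 : Submodule K (U1 → L1 → K)} {C2 : Submodule K (U2 → L2 → K)} {d1 d2 : ℝ} (h1 : 0 ≤ d1)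
    (s1 : ∀ w ∈ C1, w ≠ 0 → d1 ≤ frac fun u => w u ≠ 0)
    (s2 : ∀ w ∈ C2, w ≠ 0 → d2 ≤ frac fun u => w u ≠ 0) :
    ∀ w ∈ tens C1 C2, w ≠ 0 → d1 * d2 ≤ frac fun u => w u ≠ 0 := by
  intro w hw hne
  have : ∃ u1 u2 s1 s2, w (u1, u2) (s1, s2) ≠ 0 := by
    by_contra hcon
    push Not at hcon
    exact hne (funext fun u => funext fun s => hcon u.1 u.2 s.1 s.2)
  obtain ⟨a, b, s, t, hst⟩ := this
  -- the slice through `(a, s)` is non-zero at many `u2`
  have hB : d2 ≤ frac fun u2 => ∃ t', w (a, u2) (s, t') ≠ 0 := by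
    refine (s2 _ (hw.2 a s) ?_).trans (frac_mono fun u2 hu => ?_)
    · intro h0
      exact hst (congrFun (congrFun h0 b) t)
    · by_contra hcon
      push Not at hcon
      exact hu (funext fun t' => hcon t')
  refine (mul_le_mul_of_nonneg_left hB h1).trans (mul_frac_le2 (q := fun u2 =>
    ∃ t', w (a, u2) (s, t') ≠ 0) ?_)
  rintro u2 ⟨t', ht'⟩
  refine (s1 _ (hw.1 u2 t') ?_).trans (frac_mono fun u1 hu => ?_)
  · intro h0
    exact ht' (congrFun (congrFun h0 a) s)
  · intro h0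
    exact hu (funext fun s' => congrFun h0 (s', t'))

/-- multiplicity of the neighbour maps -/
theorem mult_tens [Fintype U1] [Fintype U2] {nb1 : ι1 → U1 → U1} {nb2 : ι2 → U2 → U2} {m : ℝ}
    (h1 : NbMult nb1 m) (h2 : NbMult nb2 m) : NbMult (nbT nb1 nb2) m := by
  rintro (i | j) E
  · exact frac_le_of_slices2 (q := E) fun b => h1 i fun a => E (a, b)
  · exact frac_le_of_slices1 (q := E) fun a => h2 j fun b => E (a, b)

/-- soundness for every finite bundle -/
def Snd {U L ι : Type} [Fintype U] (C : Submodule K (U → L → K)) (nb : ι → U → U)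
    (N : Submodule K (ι → L → K)) (zs c : ℝ) : Prop :=
  ∀ (β : Type) [Fintype β] (X : U → L → β → K),
    frac (fun u => ∃ b, (fun i s => X (nb i u) s b) ∉ N) ≤ zs →
      ∃ Y : U → L → β → K, (∀ b, (fun u s => Y u s b) ∈ C) ∧
        frac (fun u => X u ≠ Y u) ≤ c * frac fun u => ∃ b, (fun i s => X (nb i u) s b) ∉ N

/-- cost of making the first direction exact -/
noncomputable def aT (zs1 c1 : ℝ) : ℝ := c1 + 1 / zs1

/-- density of the bad columns per violation -/
noncomputable def bT (zs1 c1 d1 km : ℝ) : ℝ := (1 + km * aT zs1 c1) / d1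

/-- soundness constant of the product -/
noncomputable def cT (zs1 c1 d1 km c2 : ℝ) : ℝ := aT zs1 c1 + c2 * bT zs1 c1 d1 km

/-- soundness range of the product -/
noncomputable def zsT (zs1 c1 d1 km zs2 c2 d2 : ℝ) : ℝ :=
  min zs2 (d2 / (2 * (c2 + 1))) / bT zs1 c1 d1 km

theorem aT_pos {zs1 c1 : ℝ} (h1 : 0 < zs1) (h2 : 0 ≤ c1) : 0 < aT zs1 c1 := by
  unfold aT; positivity

theorem bT_pos {zs1 c1 d1 km : ℝ} (h1 : 0 < zs1) (h2 : 0 ≤ c1) (h3 : 0 < d1) (h4 : 0 ≤ km) :
    0 < bT zs1 c1 d1 km := by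
  have := aT_pos h1 h2
  unfold bT; positivity

theorem zsT_pos {zs1 c1 d1 km zs2 c2 d2 : ℝ} (h1 : 0 < zs1) (h2 : 0 ≤ c1) (h3 : 0 < d1)
    (h4 : 0 ≤ km) (h5 : 0 < zs2) (h6 : 0 ≤ c2) (h7 : 0 < d2) :
    0 < zsT zs1 c1 d1 km zs2 c2 d2 := by
  have := bT_pos h1 h2 h3 h4
  unfold zsT
  refine div_pos (lt_min h5 (by positivity)) this

theorem cT_nonneg {zs1 c1 d1 km c2 : ℝ} (h1 : 0 < zs1) (h2 : 0 ≤ c1) (h3 : 0 < d1)
    (h4 : 0 ≤ km) (h6 : 0 ≤ c2) : 0 ≤ cT zs1 c1 d1 km c2 := by
  have := bT_pos h1 h2 h3 h4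
  have := aT_pos h1 h2
  unfold cT; positivity

set_option maxHeartbeats 1600000 in
/-- **soundness of the tensor product**: exact rows, residual words, exact columns -/
theorem sound_tens [Fintype U1] [Fintype U2] [Fintype L1] [Fintype L2] [Fintype ι2]
    {C1 : Submodule K (U1 → L1 → K)} {C2 : Submodule K (U2 → L2 → K)}
    {nb1 : ι1 → U1 → U1} {nb2 : ι2 → U2 → U2}
    {N1 : Submodule K (ι1 → L1 → K)} {N2 : Submodule K (ι2 → L2 → K)}
    {zs1 c1 d1 zs2 c2 d2 m2 : ℝ} (hz1 : 0 < zs1) (hc1 : 0 ≤ c1) (hd1 : 0 < d1)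
    (_hz2 : 0 < zs2) (hc2 : 0 ≤ c2) (hd2 : 0 < d2) (hm2 : 0 ≤ m2)
    (s1 : ∀ w ∈ C1, w ≠ 0 → d1 ≤ frac fun u => w u ≠ 0)
    (s2 : ∀ w ∈ C2, w ≠ 0 → d2 ≤ frac fun u => w u ≠ 0)
    (S1 : Snd C1 nb1 N1 zs1 c1) (S2 : Snd C2 nb2 N2 zs2 c2) (hnb : NbMult nb2 m2) :
    Snd (tens C1 C2) (nbT nb1 nb2) (locT N1 N2)
      (zsT zs1 c1 d1 (Fintype.card ι2 * m2) zs2 c2 d2)
      (cT zs1 c1 d1 (Fintype.card ι2 * m2) c2) := by
  classical
  intro β _ X hX
  set km : ℝ := Fintype.card ι2 * m2 with hkm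
  have hkm0 : 0 ≤ km := by rw [hkm]; positivity
  set a : ℝ := aT zs1 c1 with ha
  have ha0 : 0 < a := aT_pos hz1 hc1
  have hb0 : 0 < bT zs1 c1 d1 km := bT_pos hz1 hc1 hd1 hkm0
  set V : U1 × U2 → Prop := fun u => ∃ b, (fun i s => X (nbT nb1 nb2 i u) s b) ∉ locT N1 N2
    with hV
  -- violations of the two directions
  let V1 : U1 × U2 → Prop := fun u => ∃ p : L2 × β,
    (fun i s => X (nb1 i u.1, u.2) (s, p.1) p.2) ∉ N1
  let V2 : U1 × U2 → Prop := fun u => ∃ b, ∃ s, (fun j t => X (u.1, nb2 j u.2) (s, t) b) ∉ N2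
  have hV1 : frac V1 ≤ frac V := by
    refine frac_mono ?_
    rintro u ⟨⟨t, b⟩, h⟩
    exact ⟨b, fun hl => h (hl.1 t)⟩
  have hV2 : frac V2 ≤ frac V := by
    refine frac_mono ?_
    rintro u ⟨b, s, h⟩
    exact ⟨b, fun hl => h (hl.2 s)⟩
  have hVnn : 0 ≤ frac V := frac_nonneg _
  -- exact words in the first direction
  have row : ∀ u2 : U2, ∃ R : U1 → L1 → L2 × β → K, (∀ p, (fun u s => R u s p) ∈ C1) ∧
      frac (fun u1 => (fun s p => X (u1, u2) (s, p.1) p.2) ≠ R u1) ≤
        a * frac fun u1 => V1 (u1, u2) := by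
    intro u2
    have hv0 : 0 ≤ frac fun u1 => V1 (u1, u2) := frac_nonneg _
    by_cases h : frac (fun u1 => V1 (u1, u2)) ≤ zs1
    · obtain ⟨Y, hY, hd⟩ := S1 (L2 × β) (fun u1 s p => X (u1, u2) (s, p.1) p.2) h
      refine ⟨Y, hY, hd.trans ?_⟩
      refine mul_le_mul_of_nonneg_right ?_ hv0
      rw [ha]; unfold aT
      have : 0 < 1 / zs1 := by positivity
      linarith
    · push Not at h
      refine ⟨0, fun p => C1.zero_mem, (frac_le_one _).trans ?_⟩
      have h1 : (1 : ℝ) ≤ 1 / zs1 * frac fun u1 => V1 (u1, u2) := by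
        rw [one_div, ← div_eq_inv_mul, one_le_div hz1]
        exact h.le
      have h2 : 0 ≤ c1 * frac fun u1 => V1 (u1, u2) := mul_nonneg hc1 hv0
      rw [ha]; unfold aT
      rw [add_mul]
      linarith
  choose R hR hRd using row
  -- distance between `X` and the array of exact rows
  let E1 : U1 × U2 → Prop := fun u => (fun s p => X u (s, p.1) p.2) ≠ R u.2 u.1
  have hXR : frac E1 ≤ a * frac V := by
    have h1 : frac E1 ≤ a * frac V1 := frac_le_of_slices2 (p := E1) (q := V1) hRd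
    exact h1.trans (mul_le_mul_of_nonneg_left hV1 ha0.le)
  -- violations of the second direction by `R`
  let W2 : U1 × U2 → Prop := fun u => ∃ b, ∃ s,
    (fun j t => R (nb2 j u.2) u.1 s (t, b)) ∉ N2
  have hW2 : frac W2 ≤ (1 + km * a) * frac V := by
    let E2 : U1 × U2 → Prop := fun u => ∃ j : ι2, E1 (u.1, nb2 j u.2)
    have h1 : ∀ u, W2 u → V2 u ∨ E2 u := by
      rintro u ⟨b, s, h⟩
      by_cases hc : E2 u
      · exact Or.inr hc
      · left
        refine ⟨b, s, ?_⟩
        intro hN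
        refine h ?_
        have e : (fun j t => R (nb2 j u.2) u.1 s (t, b)) = fun j t =>
            X (u.1, nb2 j u.2) (s, t) b := by
          funext j t
          have hj : ¬ E1 (u.1, nb2 j u.2) := fun hj => hc ⟨j, hj⟩
          have hj' := not_not.1 hj
          exact (congrFun (congrFun hj' s) (t, b)).symm
        rw [e]
        exact hN
    have h2 : frac E2 ≤ km * (a * frac V) := by
      have h3 : frac E2 ≤ km * frac E1 := by
        refine frac_le_of_slices1 (p := E2) (q := E1) (c := km) fun u1 => ?_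
        exact frac_nb_le hnb fun v => E1 (u1, v)
      exact h3.trans (mul_le_mul_of_nonneg_left hXR hkm0)
    calc frac W2 ≤ frac (fun u => V2 u ∨ E2 u) := frac_mono h1
      _ ≤ frac V2 + frac E2 := frac_or _ _
      _ ≤ frac V + km * (a * frac V) := add_le_add hV2 h2
      _ = (1 + km * a) * frac V := by ring
  -- bad columns
  let B : U2 → Prop := fun u2 => ∃ u1, W2 (u1, u2)
  have hB : frac B ≤ bT zs1 c1 d1 km * frac V := by
    have h1 : d1 * frac B ≤ frac W2 := by
      refine mul_frac_le2 (p := W2) (q := B) ?_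
      rintro u2 ⟨u1, b, s, h⟩
      obtain ⟨φ, hφ, hφN⟩ := exists_func N2 h
      have hmem : (fun (u : U1) (s : L1) => φ fun j t => R (nb2 j u2) u s (t, b)) ∈ C1 :=
        func_mem C1 φ (fun j t u s => R (nb2 j u2) u s (t, b)) fun j t => hR (nb2 j u2) (t, b)
      refine (s1 _ hmem ?_).trans (frac_mono fun u hu => ?_)
      · intro h0
        exact hφ (congrFun (congrFun h0 u1) s)
      · have : ∃ s', φ (fun j t => R (nb2 j u2) u s' (t, b)) ≠ 0 := by
          by_contra hcon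
          push Not at hcon
          exact hu (funext hcon)
        obtain ⟨s', hs'⟩ := this
        exact ⟨b, s', fun hN => hs' (hφN _ hN)⟩
    unfold bT
    rw [div_mul_eq_mul_div, le_div_iff₀ hd1, mul_comm]
    exact h1.trans hW2
  have hB' : frac B ≤ min zs2 (d2 / (2 * (c2 + 1))) := by
    refine hB.trans ?_
    have := mul_le_mul_of_nonneg_left hX hb0.le
    unfold zsT at this
    rwa [mul_div_cancel₀ _ hb0.ne'] at this
  -- exact words in the second direction
  have hviol : ∀ u2, (∃ p : U1 × L1 × β,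
      (fun j t => R (nb2 j u2) p.1 p.2.1 (t, p.2.2)) ∉ N2) ↔ B u2 := by
    intro u2
    constructor
    · rintro ⟨⟨u1, s, b⟩, h⟩; exact ⟨u1, b, s, h⟩
    · rintro ⟨u1, b, s, h⟩; exact ⟨⟨u1, s, b⟩, h⟩
  obtain ⟨Z, hZ, hZd⟩ := S2 (U1 × L1 × β)
    (fun u2 t p => R u2 p.1 p.2.1 (t, p.2.2)) (by
      rw [frac_congr hviol]; exact hB'.trans (min_le_left _ _))
  rw [frac_congr hviol] at hZd
  have hsmall : c2 * frac B < d2 := by
    have h1 : frac B ≤ d2 / (2 * (c2 + 1)) := hB'.trans (min_le_right _ _)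
    have h2 : c2 * frac B ≤ c2 * (d2 / (2 * (c2 + 1))) := mul_le_mul_of_nonneg_left h1 hc2
    have h3 : c2 * (d2 / (2 * (c2 + 1))) < d2 := by
      rw [mul_div_assoc', div_lt_iff₀ (by positivity)]
      nlinarith
    linarith
  refine ⟨fun u s b => Z u.2 s.2 (u.1, s.1, b), fun b => ⟨fun u2 s2' => ?_, fun u1 s1' => ?_⟩, ?_⟩
  · -- rows are code words
    by_contra hcon
    obtain ⟨ψ, hψ, hψC⟩ := exists_func C1 hcon
    have hmem : (fun (u : U2) (t : L2) => ψ fun (u1 : U1) (s : L1) => Z u t (u1, s, b)) ∈ C2 :=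
      func_mem C2 ψ (fun u1 s u t => Z u t (u1, s, b)) fun u1 s => hZ (u1, s, b)
    have h1 := s2 _ hmem (by
      intro h0
      exact hψ (congrFun (congrFun h0 u2) s2'))
    have h2 : frac (fun u => (fun (u : U2) (t : L2) =>
        ψ fun (u1 : U1) (s : L1) => Z u t (u1, s, b)) u ≠ 0) ≤
        frac fun u2 => (fun t p => R u2 p.1 p.2.1 (t, p.2.2)) ≠ Z u2 := by
      refine frac_mono fun u hu heq => hu ?_
      funext t
      refine hψC _ ?_
      have e : (fun (u1 : U1) (s : L1) => Z u t (u1, s, b)) = fun u1 s => R u u1 s (t, b) := by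
        funext u1 s
        exact (congrFun (congrFun heq t) (u1, s, b)).symm
      rw [e]
      exact hR u (t, b)
    linarith
  · exact hZ (u1, s1', b)
  · let E3 : U2 → Prop := fun u2 => (fun t (p : U1 × L1 × β) => R u2 p.1 p.2.1 (t, p.2.2)) ≠ Z u2
    have h1 : frac (fun u : U1 × U2 => X u ≠ fun s b => Z u.2 s.2 (u.1, s.1, b)) ≤
        frac E1 + frac (fun u : U1 × U2 => E3 u.2) := by
      refine (frac_mono ?_).trans (frac_or _ _)
      intro u hu
      by_contra hcon
      obtain ⟨e1, e2⟩ := not_or.1 hcon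
      have e1' := not_not.1 e1
      have e2' := not_not.1 e2
      refine hu ?_
      funext s b
      have g1 := congrFun (congrFun e1' s.1) (s.2, b)
      have g2 := congrFun (congrFun e2' s.2) (u.1, s.1, b)
      exact g1.trans g2
    have h2 : frac (fun u : U1 × U2 => E3 u.2) ≤ frac E3 := frac_snd_le (U1 := U1) E3
    have h3 : c2 * frac B ≤ c2 * (bT zs1 c1 d1 km * frac V) := mul_le_mul_of_nonneg_left hB hc2
    calc frac (fun u : U1 × U2 => X u ≠ fun s b => Z u.2 s.2 (u.1, s.1, b))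
        ≤ a * frac V + c2 * frac B := h1.trans (add_le_add hXR (h2.trans hZd))
      _ ≤ a * frac V + c2 * (bT zs1 c1 d1 km * frac V) := by linarith
      _ = cT zs1 c1 d1 km c2 * frac V := by unfold cT; rw [ha]; ring

end tensor

end Crest.Agent.R289.LUsound693
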