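import Crest.Agent.R289.LUcorr_745
import Crest.Agent.R289.LU_846

/-!
Row 289, seam B/C: **`LU.tensor`** for the structure `LU846.LU` (helper745): the tensor product of
two linear unit codes is a linear unit code, explicit constants.
-/

set_option autoImplicit false
set_option linter.unusedSectionVars false

namespace Crest.Agent.R289.LU745

open Finset Crest.Agent.R289.DefD
open Crest.Agent.R289.LU846 (LU tens nbT NT nbC crT mem_tens_iff sep_tens mult_nbT mult_nbC)
open Crest.Agent.R289.CorrTensor974 (frac_eq_sum frac_prod frac_prod' frac_or_le)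
open Crest.Agent.R289.Word508 (frac_nonneg frac_mono frac_or frac_le_one frac_eq_zero frac_exists
  frac_nb_le NbMult nbMult_of_injective frac_false)

/-! ### soundness -/

section snd
variable {K : Type} [Field K]

/-- linear functionals of families of words of a linear code -/
theorem comb_mem {A B U L : Type} [Fintype A] [Fintype B]
    (C : Submodule K (U → L → K)) (f : (A → B → K) →ₗ[K] K) (W : A → B → U → L → K)
    (hW : ∀ a b, W a b ∈ C) : (fun u s => f fun a b => W a b u s) ∈ C := by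
  classical
  have h : ∀ x : A → B → K, f x = ∑ a, ∑ b, x a b * f (Pi.single a (Pi.single b 1)) := by
    intro x
    have hx : x = ∑ a, ∑ b, x a b • (Pi.single a (Pi.single b 1) : A → B → K) := by
      funext a b
      simp only [Finset.sum_apply, Pi.smul_apply, smul_eq_mul]
      rw [Finset.sum_eq_single a, Finset.sum_eq_single b]
      · simp
      · intro b' _ hb'
        simp [Pi.single_eq_of_ne hb'.symm]
      · intro h; exact absurd (mem_univ _) h
      · intro a' _ ha'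
        apply Finset.sum_eq_zero
        intro b' _
        rw [Pi.single_eq_of_ne ha'.symm]
        simp
      · intro h; exact absurd (mem_univ _) h
    conv_lhs => rw [hx]
    simp only [map_sum, map_smul, smul_eq_mul]
  have h2 : (fun u s => f fun a b => W a b u s) =
      ∑ a, ∑ b, f (Pi.single a (Pi.single b 1)) • W a b := by
    funext u s
    rw [h]
    simp only [Finset.sum_apply, Pi.smul_apply, smul_eq_mul]
    exact Finset.sum_congr rfl fun a _ => Finset.sum_congr rfl fun b _ => mul_comm _ _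
  rw [h2]
  exact C.sum_mem fun a _ => C.sum_mem fun b _ => C.smul_mem _ (hW a b)

/-- a unit violates the linear local test in some component of the bundle -/
def Vio {U L ι β : Type} (nb : ι → U → U) (N : Submodule K (ι → L → K)) (X : U → L → β → K)
    (u : U) : Prop := ∃ b, (fun i s => X (nb i u) s b) ∉ N

/-- soundness of the local linear test for all finite bundles -/
def Snd {U L ι : Type} [Fintype U] (C : Submodule K (U → L → K)) (nb : ι → U → U)
    (N : Submodule K (ι → L → K)) (zs c : ℝ) : Prop :=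
  ∀ (β : Type) [Finite β] (X : U → L → β → K), frac (Vio nb N X) ≤ zs →
    ∃ Y : U → L → β → K, (∀ b, (fun u s => Y u s b) ∈ C) ∧
      frac (fun u => X u ≠ Y u) ≤ c * frac (Vio nb N X)

/-- relative distance of a linear code in units -/
def Sep {U L : Type} [Fintype U] (C : Submodule K (U → L → K)) (d : ℝ) : Prop :=
  ∀ w ∈ C, w ≠ 0 → d ≤ frac fun u => w u ≠ 0

variable {U1 U2 L1 L2 ι1 ι2 : Type}

/-- **soundness of the tensor test** -/
theorem Snd.tensor [Fintype U1] [Fintype U2] [Nonempty U1] [Nonempty U2] [Fintype ι1]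
    [Fintype L1] [Fintype L2]
    {C1 : Submodule K (U1 → L1 → K)} {C2 : Submodule K (U2 → L2 → K)}
    {nb1 : ι1 → U1 → U1} {nb2 : ι2 → U2 → U2} {N1 : Submodule K (ι1 → L1 → K)}
    {N2 : Submodule K (ι2 → L2 → K)} {zs1 c1 zs2 c2 d2 m1 : ℝ}
    (h1 : Snd C1 nb1 N1 zs1 c1) (h2 : Snd C2 nb2 N2 zs2 c2) (hd : Sep C2 d2)
    (hm : NbMult nb1 m1) (hd2 : 0 < d2) (hz2 : 0 < zs2) (hc1 : 0 ≤ c1) (hc2 : 0 ≤ c2)
    (hm1 : 0 ≤ m1) :
    Snd (tens C1 C2) (nbT nb1 nb2) (NT N1 N2)
      (d2 * zs1 / (1 + Fintype.card ι1 * m1 * (c2 + 1 / zs2)))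
      ((c2 + 1 / zs2) + c1 * (1 + Fintype.card ι1 * m1 * (c2 + 1 / zs2)) / d2) := by
  classical
  intro β _ X hX
  have hn1 : (0 : ℝ) < Fintype.card U1 := by exact_mod_cast Fintype.card_pos
  have hn2 : (0 : ℝ) < Fintype.card U2 := by exact_mod_cast Fintype.card_pos
  set a : ℝ := c2 + 1 / zs2 with ha
  have ha0 : 0 ≤ a := by positivity
  set ε := frac (Vio (nbT nb1 nb2) (NT N1 N2) X) with hε
  have hε0 : 0 ≤ ε := frac_nonneg _
  -- rows
  set Xr : U1 → U2 → L2 → L1 × β → K := fun u1 u2 s2 p => X (u1, u2) (p.1, s2) p.2 with hXr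
  set e : U1 → ℝ := fun u1 => frac (Vio nb2 N2 (Xr u1)) with he
  have he0 : ∀ u, 0 ≤ e u := fun u => frac_nonneg _
  have hesum : (∑ u, e u) / (Fintype.card U1 : ℝ) ≤ ε := by
    rw [hε, frac_prod]
    apply div_le_div_of_nonneg_right _ hn1.le
    refine Finset.sum_le_sum fun u1 _ => frac_mono fun u2 => ?_
    rintro ⟨⟨s1, b⟩, hb⟩
    exact ⟨b, fun h => hb (h.2 s1)⟩
  have row : ∀ u1, ∃ Y : U2 → L2 → L1 × β → K, (∀ p, (fun u s => Y u s p) ∈ C2) ∧
      frac (fun u2 => Xr u1 u2 ≠ Y u2) ≤ a * e u1 := by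
    intro u1
    by_cases h : e u1 ≤ zs2
    · obtain ⟨Y, hY, hY'⟩ := h2 _ (Xr u1) h
      refine ⟨Y, hY, hY'.trans (mul_le_mul_of_nonneg_right ?_ (he0 u1))⟩
      rw [ha]
      have : 0 ≤ 1 / zs2 := by positivity
      linarith
    · push Not at h
      refine ⟨0, fun _ => C2.zero_mem, (frac_le_one _).trans ?_⟩
      rw [ha, add_mul]
      have k1 : 0 ≤ c2 * e u1 := mul_nonneg hc2 (he0 u1)
      have k2 : 1 ≤ 1 / zs2 * e u1 := by
        rw [div_mul_eq_mul_div, one_mul, le_div_iff₀ hz2]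
        linarith
      linarith
  choose Yr hYr hYr' using row
  set Y : U1 × U2 → L1 × L2 → β → K := fun u s b => Yr u.1 u.2 s.2 (s.1, b) with hY
  have hYrow : ∀ u1 s1 b, (fun u2 s2 => Y (u1, u2) (s1, s2) b) ∈ C2 := fun u1 s1 b =>
    hYr u1 (s1, b)
  have hXY : frac (fun u => X u ≠ Y u) ≤ a * ε := by
    rw [frac_prod]
    calc (∑ u1, frac fun u2 => X (u1, u2) ≠ Y (u1, u2)) / (Fintype.card U1 : ℝ)
        ≤ (∑ u1, a * e u1) / (Fintype.card U1 : ℝ) := by
          apply div_le_div_of_nonneg_right _ hn1.le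
          refine Finset.sum_le_sum fun u1 _ => (frac_mono ?_).trans (hYr' u1)
          intro u2 hne heq
          apply hne
          funext s b
          have := congrFun (congrFun heq s.2) (s.1, b)
          exact this
      _ = a * ((∑ u, e u) / (Fintype.card U1 : ℝ)) := by
          rw [← Finset.mul_sum]; ring
      _ ≤ a * ε := mul_le_mul_of_nonneg_left hesum ha0
  -- column defects of `Y`
  set v1 : U1 × U2 → Prop := fun u => ∃ s2 b,
    (fun i s1 => Y (nb1 i u.1, u.2) (s1, s2) b) ∉ N1 with hv1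
  set ε' : ℝ := (1 + Fintype.card ι1 * m1 * a) * ε with hε'
  have hmult : ∀ (i : ι1) (E : U1 × U2 → Prop),
      frac (fun u : U1 × U2 => E (nb1 i u.1, u.2)) ≤ m1 * frac E := by
    intro i E
    rw [frac_prod', frac_prod' E, ← mul_div_assoc, Finset.mul_sum]
    apply div_le_div_of_nonneg_right _ hn2.le
    exact Finset.sum_le_sum fun v _ => hm i fun u => E (u, v)
  have hv1le : frac v1 ≤ ε' := by
    have k1 : frac v1 ≤ frac (fun u : U1 × U2 => Vio (nbT nb1 nb2) (NT N1 N2) X u ∨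
        ∃ i, X (nb1 i u.1, u.2) ≠ Y (nb1 i u.1, u.2)) := by
      apply frac_mono
      rintro ⟨u1, u2⟩ ⟨s2, b, hb⟩
      by_cases hE : ∃ i, X (nb1 i u1, u2) ≠ Y (nb1 i u1, u2)
      · exact Or.inr hE
      · left
        push Not at hE
        refine ⟨b, fun h => hb ?_⟩
        have k := h.1 s2
        have e2 : (fun i s1 => Y (nb1 i u1, u2) (s1, s2) b) =
            fun i s1 => X (nb1 i u1, u2) (s1, s2) b := by
          funext i s1
          rw [hE i]
        rw [e2]
        exact k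
    have k2 : frac (fun u : U1 × U2 => ∃ i, X (nb1 i u.1, u.2) ≠ Y (nb1 i u.1, u.2)) ≤
        Fintype.card ι1 * m1 * (a * ε) := by
      refine (frac_exists _).trans ?_
      refine (Finset.sum_le_sum fun i _ =>
        (hmult i fun u => X u ≠ Y u).trans (mul_le_mul_of_nonneg_left hXY hm1)).trans ?_
      rw [sum_const, nsmul_eq_mul, card_univ, mul_assoc]
    refine k1.trans ((frac_or _ _).trans ?_)
    rw [hε']
    calc _ ≤ ε + Fintype.card ι1 * m1 * (a * ε) := add_le_add le_rfl k2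
      _ = (1 + Fintype.card ι1 * m1 * a) * ε := by ring
  -- whole rows with a defect
  set Y' : U1 → L1 → U2 × L2 × β → K := fun u1 s1 p => Y (u1, p.1) (s1, p.2.1) p.2.2 with hY'
  have hdef : ∀ u1, Vio nb1 N1 Y' u1 → d2 ≤ frac fun u2 => v1 (u1, u2) := by
    rintro u1 ⟨⟨u2, s2, b⟩, hb⟩
    obtain ⟨f, hf1, hf2⟩ := Submodule.exists_dual_map_eq_bot_of_notMem hb inferInstance
    have hfN : ∀ x ∈ N1, f x = 0 := by
      intro x hx
      have : f x ∈ N1.map f := Submodule.mem_map_of_mem hx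
      rw [hf2] at this
      exact (Submodule.mem_bot K).1 this
    have hv := comb_mem C2 f (fun i s1 => fun u2 s2 => Y (nb1 i u1, u2) (s1, s2) b)
      (fun i s1 => hYrow _ _ _)
    have hvne : (fun u2 s2 => f fun i s1 => Y (nb1 i u1, u2) (s1, s2) b) ≠ 0 := by
      intro h
      exact hf1 (congrFun (congrFun h u2) s2)
    refine (hd _ hv hvne).trans (frac_mono fun v2 hv2 => ?_)
    obtain ⟨t2, ht⟩ : ∃ t2, (f fun i s1 => Y (nb1 i u1, v2) (s1, t2) b) ≠ 0 := by
      by_contra hcon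
      push Not at hcon
      exact hv2 (funext hcon)
    exact ⟨t2, b, fun hN => ht (hfN _ hN)⟩
  have hR : d2 * frac (Vio nb1 N1 Y') ≤ ε' := by
    refine le_trans ?_ hv1le
    rw [frac_prod v1, frac_eq_sum, ← mul_div_assoc, Finset.mul_sum]
    apply div_le_div_of_nonneg_right _ hn1.le
    refine Finset.sum_le_sum fun u1 _ => ?_
    split_ifs with h
    · rw [mul_one]; exact hdef u1 h
    · rw [mul_zero]; exact frac_nonneg _
  have hpos : 0 < 1 + Fintype.card ι1 * m1 * a := by positivity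
  have hR' : frac (Vio nb1 N1 Y') ≤ ε' / d2 := by
    rw [le_div_iff₀ hd2, mul_comm]; exact hR
  have hz : frac (Vio nb1 N1 Y') ≤ zs1 := by
    refine hR'.trans ?_
    rw [div_le_iff₀ hd2, hε']
    calc (1 + Fintype.card ι1 * m1 * a) * ε
        ≤ (1 + Fintype.card ι1 * m1 * a) * (d2 * zs1 / (1 + Fintype.card ι1 * m1 * a)) :=
          mul_le_mul_of_nonneg_left hX hpos.le
      _ = zs1 * d2 := by field_simp
  obtain ⟨Z', hZ', hZd⟩ := h1 _ Y' hz
  -- retraction onto `C2`
  obtain ⟨π, hπ⟩ := LinearMap.exists_leftInverse_of_injective C2.subtype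
    (LinearMap.ker_eq_bot.2 C2.injective_subtype)
  have hπ' : ∀ w (hw : w ∈ C2), ((π w : C2) : U2 → L2 → K) = w := by
    intro w hw
    have := LinearMap.congr_fun hπ ⟨w, hw⟩
    simp only [LinearMap.comp_apply, Submodule.subtype_apply, LinearMap.id_apply] at this
    rw [this]
  set Z : U1 × U2 → L1 × L2 → β → K := fun u s b =>
    ((π fun u2 s2 => Z' u.1 s.1 (u2, s2, b) : C2) : U2 → L2 → K) u.2 s.2 with hZ
  refine ⟨Z, fun b => ⟨?_, ?_⟩, ?_⟩
  · intro u2 s2
    -- columns: linear functionals of the columns of `Z'`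
    let φ : (U2 → L2 → K) →ₗ[K] K :=
      (LinearMap.proj s2 : (L2 → K) →ₗ[K] K).comp
        ((LinearMap.proj u2 : (U2 → L2 → K) →ₗ[K] (L2 → K)).comp (C2.subtype.comp π))
    have := comb_mem C1 φ (fun v2 t2 => fun u1 s1 => Z' u1 s1 (v2, t2, b))
      (fun v2 t2 => hZ' (v2, t2, b))
    exact this
  · intro u1 s1
    exact (π fun u2 s2 => Z' u1 s1 (u2, s2, b)).2
  · -- distance
    have hYZ : frac (fun u : U1 × U2 => Y u ≠ Z u) ≤ c1 * (ε' / d2) := by
      calc frac (fun u : U1 × U2 => Y u ≠ Z u)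
          ≤ frac (fun u : U1 × U2 => Y' u.1 ≠ Z' u.1) := by
            apply frac_mono
            rintro ⟨u1, u2⟩ hne heq
            apply hne
            funext ⟨s1, s2⟩ b
            show Y (u1, u2) (s1, s2) b =
              ((π fun u2 s2 => Z' u1 s1 (u2, s2, b) : C2) : U2 → L2 → K) u2 s2
            have e1 : (fun u2 s2 => Z' u1 s1 (u2, s2, b)) =
                fun u2 s2 => Y (u1, u2) (s1, s2) b := by
              funext v2 t2
              exact (congrFun (congrFun heq s1) (v2, t2, b)).symm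
            rw [e1, hπ' _ (hYrow u1 s1 b)]
        _ = frac (fun u1 : U1 => Y' u1 ≠ Z' u1) := by
            rw [frac_prod, frac_eq_sum fun u1 : U1 => Y' u1 ≠ Z' u1]
            congr 1
            refine Finset.sum_congr rfl fun u1 _ => ?_
            rw [frac_eq_sum]
            by_cases h : Y' u1 ≠ Z' u1
            · simp only [h, if_true, Finset.sum_const, nsmul_eq_mul, mul_one, card_univ, ne_eq,
                not_false_eq_true]
              exact div_self hn2.ne'
            · simp only [h, if_false, Finset.sum_const_zero, zero_div]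
        _ ≤ c1 * frac (Vio nb1 N1 Y') := hZd
        _ ≤ c1 * (ε' / d2) := mul_le_mul_of_nonneg_left hR' hc1
    calc frac (fun u => X u ≠ Z u)
        ≤ frac (fun u => X u ≠ Y u ∨ Y u ≠ Z u) := frac_mono fun u h => by
          by_cases h' : X u = Y u
          · exact Or.inr (h' ▸ h)
          · exact Or.inl h'
      _ ≤ a * ε + c1 * (ε' / d2) := (frac_or _ _).trans (add_le_add hXY hYZ)
      _ = (a + c1 * (1 + Fintype.card ι1 * m1 * a) / d2) * ε := by
          rw [hε']; ring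

/-- threshold of the tensor test -/
noncomputable def zsT (k m1 zs1 d2 zs2 c2 : ℝ) : ℝ := d2 * zs1 / (1 + k * m1 * (c2 + 1 / zs2))

/-- constant of the tensor test -/
noncomputable def cT (k m1 c1 d2 zs2 c2 : ℝ) : ℝ :=
  (c2 + 1 / zs2) + c1 * (1 + k * m1 * (c2 + 1 / zs2)) / d2

/-- **TENSOR PRODUCT of linear unit codes** -/
theorem LU_tensor [Fintype U1] [Fintype U2] [Nonempty U1] [Nonempty U2] [Fintype ι1]
    [Fintype L1] [Fintype L2] {ι1' ι2' : Type}
    {C1 : Submodule K (U1 → L1 → K)} {C2 : Submodule K (U2 → L2 → K)}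
    {nb1 : ι1 → U1 → U1} {nb2 : ι2 → U2 → U2} {N1 : Submodule K (ι1 → L1 → K)}
    {N2 : Submodule K (ι2 → L2 → K)} {nb1' : ι1' → U1 → U1} {nb2' : ι2' → U2 → U2}
    {cr1 : (ι1' → L1 → K) → L1 → K} {cr2 : (ι2' → L2 → K) → L2 → K}
    {m1 m1' zs1 r1 d1 c1 θ1 m2 m2' zs2 r2 d2 c2 θ2 : ℝ}
    (h1 : LU C1 nb1 N1 nb1' cr1 m1 m1' zs1 r1 d1 c1 θ1)
    (h2 : LU C2 nb2 N2 nb2' cr2 m2 m2' zs2 r2 d2 c2 θ2)
    (hm1 : 0 ≤ m1) (hm1' : 0 ≤ m1') (hz2 : 0 < zs2) (hd2 : 0 < d2) (hc1 : 0 ≤ c1) (hc2 : 0 ≤ c2)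
    (hr1 : 0 < r1) (hr2 : 0 < r2) (hθ1 : 0 ≤ θ1) (hθ2 : 0 ≤ θ2) :
    LU (tens C1 C2) (nbT nb1 nb2) (NT N1 N2) (nbC nb1' nb2') (crT cr1 cr2)
      (max m1 m2) (m1' * m2') (zsT (Fintype.card ι1) m1 zs1 d2 zs2 c2) (r1 * r2 / 2) (d2 * d1)
      (cT (Fintype.card ι1) m1 c1 d2 zs2 c2) (θ1 / r2 + θ1 * θ2 + 2 * θ2 / r1) where
  mult := mult_nbT h1.mult h2.mult
  mult' := mult_nbC hm1' h1.mult' h2.mult'
  mem := mem_tens_iff h1.mem h2.mem
  sep := fun w hw hne => sep_tens hd2.le h1.sep h2.sep w hw hne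
  sound := by
    have k1 : Snd C1 nb1 N1 zs1 c1 := by
      intro β _ X hX
      have := Fintype.ofFinite β
      exact h1.sound β X hX
    have k2 : Snd C2 nb2 N2 zs2 c2 := by
      intro β _ X hX
      have := Fintype.ofFinite β
      exact h2.sound β X hX
    intro β _ X hX
    exact Snd.tensor k1 k2 h2.sep h1.mult hd2 hz2 hc1 hc2 hm1 β X hX
  corr := by
    intro E hE
    obtain ⟨B, hB, hw⟩ := Cor.tensor (C1 := (C1 : Set (U1 → L1 → K)))
      (C2 := (C2 : Set (U2 → L2 → K))) (nb1 := nb1') (nb2 := nb2') (cr1 := cr1) (cr2 := cr2)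
      (fun E hE => h1.corr E hE) (fun E hE => h2.corr E hE) hr1 hr2 hθ1 hθ2 E hE
    exact ⟨B, hB, fun w hm => hw w hm⟩

end snd

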