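import Crest.Agent.R289.DefI_306
import Crest.Agent.R289.Word2_508
import Crest.Agent.R289.LUc_443

/-!
Row 289 (S0434), joint I4: the literal label alphabet `c.Lab Ck` of `DefI_306` as a
`Word508.CAx`.

* `prod2`, `prod2_CAx` : two codes on the same units;
* `relabel`, `relabel_CAx` : renaming of the alphabet;
* `labOf`, `XOK`, `ZOK`, `LabCode` : the register code in the vocabulary of `DefI_306`;
* `lab_CAx` : letter + clock + registers + certificates (both banks).
-/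

set_option autoImplicit false

namespace Crest.Agent.R289.LabCAx560

open Finset Crest.Agent.R289.DefD Crest.Agent.R289.Word508 Crest.Agent.R289.DefI
open Crest.Agent.R289.LU846 (LU tens)
open Crest.Agent.R289.LUb443 (rules bun repC)
open Crest.Agent.R289.Compile827 (Letter Conf)

/-! ### products and renaming -/

section prod2

variable {ι₁ ι₂ U A₁ A₂ P₁ P₂ : Type}

/-- two registers -/
def prod2 (R₁ : CRules ι₁ A₁ P₁) (R₂ : CRules ι₂ A₂ P₂) :
    CRules (ι₁ ⊕ ι₂) (A₁ × A₂) (P₁ × P₂) where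
  viol x p := R₁.viol (fun i => (x (Sum.inl i)).1) p.1 ∨ R₂.viol (fun i => (x (Sum.inr i)).2) p.2
  corr x p := (R₁.corr (fun i => (x (Sum.inl i)).1) p.1, R₂.corr (fun i => (x (Sum.inr i)).2) p.2)

theorem prod2_CAx [Fintype U] {R₁ : CRules ι₁ A₁ P₁} {R₂ : CRules ι₂ A₂ P₂} {nb₁ : ι₁ → U → U}
    {nb₂ : ι₂ → U → U} {pub₁ : U → P₁} {pub₂ : U → P₂} {C₁ : Set (U → A₁)} {C₂ : Set (U → A₂)}
    {m zs r0 d0 c₁ c₂ θ₁ θ₂ : ℝ} (hc₁ : 0 ≤ c₁) (hc₂ : 0 ≤ c₂)
    (h₁ : CAx R₁ nb₁ pub₁ C₁ m zs r0 d0 c₁ θ₁) (h₂ : CAx R₂ nb₂ pub₂ C₂ m zs r0 d0 c₂ θ₂) :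
    CAx (prod2 R₁ R₂) (Sum.elim nb₁ nb₂) (fun u => (pub₁ u, pub₂ u))
      {w | (fun u => (w u).1) ∈ C₁ ∧ (fun u => (w u).2) ∈ C₂} m zs r0 d0 (c₁ + c₂)
      (θ₁ + θ₂) where
  mult i E := by
    cases i with
    | inl i => exact h₁.mult i E
    | inr i => exact h₂.mult i E
  sep v hv w hw hne := by
    by_cases h : (fun u => (v u).1) = fun u => (w u).1
    · have h' : (fun u => (v u).2) ≠ fun u => (w u).2 := by
        intro h'
        apply hne
        funext u
        exact Prod.ext (congrFun h u) (congrFun h' u)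
      refine (h₂.sep _ hv.2 _ hw.2 h').trans (frac_mono ?_)
      intro u hu he
      exact hu (congrArg Prod.snd he)
    · refine (h₁.sep _ hv.1 _ hw.1 h).trans (frac_mono ?_)
      intro u hu he
      exact hu (congrArg Prod.fst he)
  sound X hX := by
    set V := frac (fun u => (prod2 R₁ R₂).viol (fun i => X (Sum.elim nb₁ nb₂ i u))
      (pub₁ u, pub₂ u)) with hV
    have e1 : frac (fun u => R₁.viol (fun i => (X (nb₁ i u)).1) (pub₁ u)) ≤ V :=
      frac_mono fun u hu => Or.inl hu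
    have e2 : frac (fun u => R₂.viol (fun i => (X (nb₂ i u)).2) (pub₂ u)) ≤ V :=
      frac_mono fun u hu => Or.inr hu
    obtain ⟨w₁, hw₁, hd₁⟩ := h₁.sound (fun u => (X u).1) (e1.trans hX)
    obtain ⟨w₂, hw₂, hd₂⟩ := h₂.sound (fun u => (X u).2) (e2.trans hX)
    refine ⟨fun u => (w₁ u, w₂ u), ⟨hw₁, hw₂⟩, ?_⟩
    have h3 : distW X (fun u => (w₁ u, w₂ u)) ≤
        distW (fun u => (X u).1) w₁ + distW (fun u => (X u).2) w₂ := by
      refine (frac_mono (q := fun u => (X u).1 ≠ w₁ u ∨ (X u).2 ≠ w₂ u) ?_).trans (frac_or _ _)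
      intro u hu
      by_contra hcon
      push Not at hcon
      exact hu (Prod.ext hcon.1 hcon.2)
    have h4 := hd₁.trans (mul_le_mul_of_nonneg_left e1 hc₁)
    have h5 := hd₂.trans (mul_le_mul_of_nonneg_left e2 hc₂)
    calc _ ≤ _ := h3
      _ ≤ c₁ * V + c₂ * V := add_le_add h4 h5
      _ = (c₁ + c₂) * V := by ring
  compl w hw u := by
    rintro (h | h)
    · exact h₁.compl _ hw.1 u h
    · exact h₂.compl _ hw.2 u h
  corr w hw E hE := by
    have e1 := h₁.corr _ hw.1 E hE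
    have e2 := h₂.corr _ hw.2 E hE
    refine (frac_mono (q := fun u => (∃ x : ι₁ → A₁,
      (∀ i, ¬ E (nb₁ i u) → x i = (w (nb₁ i u)).1) ∧ R₁.corr x (pub₁ u) ≠ (w u).1) ∨
      ∃ x : ι₂ → A₂, (∀ i, ¬ E (nb₂ i u) → x i = (w (nb₂ i u)).2) ∧
        R₂.corr x (pub₂ u) ≠ (w u).2) ?_).trans ((frac_or _ _).trans ?_)
    · rintro u ⟨x, hx, hne⟩
      by_cases h : R₁.corr (fun i => (x (Sum.inl i)).1) (pub₁ u) = (w u).1
      · right
        refine ⟨fun i => (x (Sum.inr i)).2, fun i hi => ?_, ?_⟩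
        · exact congrArg Prod.snd (hx (Sum.inr i) hi)
        · intro h'
          exact hne (Prod.ext h h')
      · left
        refine ⟨fun i => (x (Sum.inl i)).1, fun i hi => ?_, h⟩
        exact congrArg Prod.fst (hx (Sum.inl i) hi)
    · linarith

end prod2

section relabel

variable {ι U A A' P : Type}

/-- renaming of the alphabet -/
def relabel (R : CRules ι A P) (e : A' ≃ A) : CRules ι A' P where
  viol x p := R.viol (fun i => e (x i)) p
  corr x p := e.symm (R.corr (fun i => e (x i)) p)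

theorem relabel_CAx [Fintype U] {R : CRules ι A P} {nb : ι → U → U} {pub : U → P}
    {C : Set (U → A)} {m zs r0 d0 c θ : ℝ} (h : CAx R nb pub C m zs r0 d0 c θ) (e : A' ≃ A) :
    CAx (relabel R e) nb pub {w : U → A' | (fun u => e (w u)) ∈ C} m zs r0 d0 c θ where
  mult := h.mult
  sep v hv w hw hne := by
    have hne' : (fun u => e (v u)) ≠ fun u => e (w u) := by
      intro h'
      apply hne
      funext u
      exact e.injective (congrFun h' u)
    refine (h.sep _ hv _ hw hne').trans (frac_mono ?_)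
    intro u hu he
    exact hu (congrArg e he)
  sound X hX := by
    obtain ⟨w, hw, hd⟩ := h.sound (fun u => e (X u)) hX
    refine ⟨fun u => e.symm (w u), ?_, ?_⟩
    · show (fun u => e (e.symm (w u))) ∈ C
      simpa using hw
    · refine le_trans (frac_mono ?_) hd
      intro u hu he
      exact hu (((Equiv.symm_apply_apply e (X u)).symm).trans (congrArg e.symm he))
  compl w hw u := h.compl _ hw u
  corr w hw E hE := by
    refine (frac_mono ?_).trans (h.corr _ hw E hE)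
    rintro u ⟨x, hx, hne⟩
    refine ⟨fun i => e (x i), fun i hi => congrArg e (hx i hi), fun h' => hne ?_⟩
    exact (congrArg e.symm h').trans (Equiv.symm_apply_apply e (w u))

end relabel

/-! ### labels as tuples -/

section tup

variable {K : Type} [Field K] (c : Cst K)

/-- letter and stages -/
abbrev AL : Type := Letter c.A.Tr × c.A.Stg × c.A.Stg

/-- index of the content registers of both banks -/
abbrev kR : Type := Bool × c.A.Reg

/-- index of the records of both banks: (bank, previous), cascade index, component -/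
abbrev kX : Type := (Bool × Bool) × Fin (c.r + 1) × c.A.Comp

/-- index of the mirror words of both banks -/
abbrev kZ : Type := (Bool × Bool) × c.C × Fin (c.r + 1) × c.A.Comp

abbrev AR : Type := c.S × Unit → kR c → K

abbrev AX : Type := c.S × c.S' → kX c → K

abbrev AZ : Type := c.S × c.S' → kZ c → K

abbrev Tup (Ck : Type) : Type := AL c × Ck × AR c × AX c × AZ c

variable {c} {Ck : Type}

/-- bank `β` of a label -/
def bk (a : c.Lab Ck) (β : Bool) : c.Bank := cond β a.b2 a.b1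

def toTup (a : c.Lab Ck) : Tup c Ck :=
  ((a.l, a.b1.stg, a.b2.stg), a.ck,
    fun s k => (bk a k.1).R k.2 s.1,
    fun s k => (cond k.1.2 (bk a k.1.1).Xm (bk a k.1.1).X) s.2 s.1 k.2.1 k.2.2,
    fun s k => (cond k.1.2 (bk a k.1.1).Zm (bk a k.1.1).Z) k.2.1 s.2 s.1 k.2.2.1 k.2.2.2)

/-- bank `β` from the tuple -/
def ofT (t : Tup c Ck) (β : Bool) (st : c.A.Stg) : c.Bank where
  stg := st
  R := fun i s => t.2.2.1 (s, ()) (β, i)
  X := fun s' s a m => t.2.2.2.1 (s, s') ((β, false), a, m)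
  Xm := fun s' s a m => t.2.2.2.1 (s, s') ((β, true), a, m)
  Z := fun q s' s a m => t.2.2.2.2 (s, s') ((β, false), q, a, m)
  Zm := fun q s' s a m => t.2.2.2.2 (s, s') ((β, true), q, a, m)

def ofTup (t : Tup c Ck) : c.Lab Ck where
  l := t.1.1
  ck := t.2.1
  b1 := ofT t false t.1.2.1
  b2 := ofT t true t.1.2.2

/-- labels are tuples -/
def labE : c.Lab Ck ≃ Tup c Ck where
  toFun := toTup
  invFun := ofTup
  left_inv a := rfl
  right_inv t := by
    obtain ⟨⟨l, s1, s2⟩, ck, r, x, z⟩ := t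
    refine Prod.ext rfl (Prod.ext rfl (Prod.ext ?_ (Prod.ext ?_ ?_)))
    · funext s k
      obtain ⟨β, i⟩ := k
      obtain ⟨s, ⟨⟩⟩ := s
      cases β <;> rfl
    · funext s k
      obtain ⟨⟨β, q⟩, a, m⟩ := k
      cases β <;> cases q <;> rfl
    · funext s k
      obtain ⟨⟨β, q⟩, a, m⟩ := k
      cases β <;> cases q <;> rfl

end tup

/-! ### the register code -/

section code

variable {K : Type} [Field K] {c : Cst K} (I : Ins c) {Ck : Type}

/-- label word from its parts; `I.labE cw f = labOf I f.l (cw f.t) f.x1 f.z1 f.x2 f.z2` -/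
def labOf (l : Letter c.A.Tr) (t : I.U → Ck) (x1 : I.XW) (z1 : I.ZW) (x2 : I.XW) (z2 : I.ZW)
    (u : I.U) : c.Lab Ck where
  l := l
  ck := t u
  b1 := I.bankE x1 z1 u
  b2 := I.bankE x2 z2 u

lemma labE_eq (cw : ℕ → I.U → Ck) (f : Conf I.XW I.ZW c.A.Tr) :
    I.labE cw f = labOf I f.l (cw f.t) f.x1 f.z1 f.x2 f.z2 := rfl

variable (VG CG : Submodule K (I.Γ → c.S → K)) (VT CT : Submodule K (I.T → c.S' → K))

/-- the content registers are words of `VG` -/
def XOK (x : I.XW) : Prop := ∀ i, (fun g s => x.2 i (g, s)) ∈ VG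

/-- a bundle of words of `CG ⊗ CT` -/
def BOK (F : I.n → I.AW) : Prop :=
  (∀ τ s' a m, (fun g s => F (τ, s') (g, s) a m) ∈ CG) ∧
    ∀ g s a m, (fun τ s' => F (τ, s') (g, s) a m) ∈ CT

/-- the certificate words are words of the product codes -/
def ZOK (z : I.ZW) : Prop :=
  BOK I CG VT z.X ∧ BOK I CG VT z.Xm ∧ (∀ q, BOK I CG CT (z.Z q)) ∧ ∀ q, BOK I CG CT (z.Zm q)

/-- the register code; `CC` = clock code -/
def LabCode (CC : Set (I.U → Ck)) : Set (I.U → c.Lab Ck) :=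
  {w | ∃ l t x1 z1 x2 z2, t ∈ CC ∧ XOK I VG x1 ∧ ZOK I CG VT CT z1 ∧ XOK I VG x2 ∧
    ZOK I CG VT CT z2 ∧ w = labOf I l t x1 z1 x2 z2}

end code

/-! ### the main theorem -/

section main

variable {K : Type} [Field K] {c : Cst K} {Ck : Type}
  {ιL ιC PL PC a1 a1' a2 a2' a3 a3' : Type}

/-- slots of the label -/
abbrev LSlot (ιL ιC a1 a1' a2 a2' a3 a3' : Type) : Type :=
  ιL ⊕ ιC ⊕ (a1 ⊕ a1') ⊕ (a2 ⊕ a2') ⊕ (a3 ⊕ a3')

/-- public data used by the registers -/
abbrev LPub (PL PC : Type) : Type := PL × PC × Unit × Unit × Unit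

/-- the rules of the label -/
def labRules (RL : CRules ιL (AL c) PL) (RC : CRules ιC Ck PC)
    (NR : Submodule K (a1 → c.S × Unit → K)) (crR : (a1' → c.S × Unit → K) → c.S × Unit → K)
    (NX : Submodule K (a2 → c.S × c.S' → K)) (crX : (a2' → c.S × c.S' → K) → c.S × c.S' → K)
    (NZ : Submodule K (a3 → c.S × c.S' → K)) (crZ : (a3' → c.S × c.S' → K) → c.S × c.S' → K) :
    CRules (LSlot ιL ιC a1 a1' a2 a2' a3 a3') (c.Lab Ck) (LPub PL PC) :=
  relabel (prod2 RL (prod2 RC (prod2 (rules NR crR (kR c) Unit)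
    (prod2 (rules NX crX (kX c) Unit) (rules NZ crZ (kZ c) Unit))))) labE

/-- the neighbour maps of the label -/
def labNb {U : Type} (nbL : ιL → U → U) (nbC : ιC → U → U) (nbR : a1 → U → U)
    (nbR' : a1' → U → U) (nbX : a2 → U → U) (nbX' : a2' → U → U) (nbZ : a3 → U → U)
    (nbZ' : a3' → U → U) : LSlot ιL ιC a1 a1' a2 a2' a3 a3' → U → U :=
  Sum.elim nbL (Sum.elim nbC (Sum.elim (Sum.elim nbR nbR')
    (Sum.elim (Sum.elim nbX nbX') (Sum.elim nbZ nbZ'))))

/-- the public data -/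
def labPub {U : Type} (pubL : U → PL) (pubC : U → PC) (u : U) : LPub PL PC :=
  (pubL u, pubC u, (), (), ())

variable (I : Ins c) (VG CG : Submodule K (I.Γ → c.S → K)) (VT CT : Submodule K (I.T → c.S' → K))

/-- the code of the tuples is the code of the labels -/
lemma code_eq (CC : Set (I.U → Ck)) :
    {w : I.U → c.Lab Ck | (fun u => labE (w u)) ∈ {w : I.U → Tup c Ck |
      (fun u => (w u).1) ∈ {w : I.U → AL c | ∃ a, w = fun _ => a} ∧
      (fun u => (w u).2) ∈ {w : I.U → Ck × AR c × AX c × AZ c |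
        (fun u => (w u).1) ∈ CC ∧
        (fun u => (w u).2) ∈ {w : I.U → AR c × AX c × AZ c |
          (fun u => (w u).1) ∈ bun (tens VG (repC I.T Unit K)) (kR c) ∧
          (fun u => (w u).2) ∈ {w : I.U → AX c × AZ c |
            (fun u => (w u).1) ∈ bun (tens CG VT) (kX c) ∧
            (fun u => (w u).2) ∈ bun (tens CG CT) (kZ c)}}}}} =
      LabCode I VG CG VT CT CC := by
  ext w
  constructor
  · rintro ⟨⟨a, ha⟩, hC, hR, hX, hZ⟩
    have ha' : ∀ u, ((w u).l, (w u).b1.stg, (w u).b2.stg) = a := fun u => congrFun ha u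
    -- bundles of a bank
    have hRm : ∀ β i, (∀ τ, (fun g s => (bk (w (g, τ)) β).R i s) ∈ VG) ∧
        ∀ g s τ τ', (bk (w (g, τ)) β).R i s = (bk (w (g, τ')) β).R i s := by
      intro β i
      obtain ⟨h1, h2⟩ := hR (β, i)
      refine ⟨fun τ => h1 τ (), fun g s τ τ' => ?_⟩
      have := h2 g s τ τ'
      exact congrFun this ()
    have hXm : ∀ β m (k : Fin (c.r + 1) × c.A.Comp), (∀ τ s', (fun g s =>
        (cond m (bk (w (g, τ)) β).Xm (bk (w (g, τ)) β).X) s' s k.1 k.2) ∈ CG) ∧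
        ∀ g s, (fun τ s' =>
          (cond m (bk (w (g, τ)) β).Xm (bk (w (g, τ)) β).X) s' s k.1 k.2) ∈ VT := by
      intro β m k
      obtain ⟨h1, h2⟩ := hX ((β, m), k)
      exact ⟨fun τ s' => h1 τ s', fun g s => h2 g s⟩
    have hZm : ∀ β m q (k : Fin (c.r + 1) × c.A.Comp), (∀ τ s', (fun g s =>
        (cond m (bk (w (g, τ)) β).Zm (bk (w (g, τ)) β).Z) q s' s k.1 k.2) ∈ CG) ∧
        ∀ g s, (fun τ s' =>
          (cond m (bk (w (g, τ)) β).Zm (bk (w (g, τ)) β).Z) q s' s k.1 k.2) ∈ CT := by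
      intro β m q k
      obtain ⟨h1, h2⟩ := hZ ((β, m), q, k)
      exact ⟨fun τ s' => h1 τ s', fun g s => h2 g s⟩
    let xw : Bool → c.A.Stg → I.XW := fun β st =>
      (st, fun i ω => (bk (w (ω.1, 1)) β).R i ω.2)
    let zw : Bool → I.ZW := fun β =>
      { X := fun p ω a m => (bk (w (ω.1, p.1)) β).X p.2 ω.2 a m
        Xm := fun p ω a m => (bk (w (ω.1, p.1)) β).Xm p.2 ω.2 a m
        Z := fun q p ω a m => (bk (w (ω.1, p.1)) β).Z q p.2 ω.2 a m
        Zm := fun q p ω a m => (bk (w (ω.1, p.1)) β).Zm q p.2 ω.2 a m }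
    have hxok : ∀ β st, XOK I VG (xw β st) := fun β st i => (hRm β i).1 1
    have hzok : ∀ β, ZOK I CG VT CT (zw β) := by
      intro β
      refine ⟨⟨fun τ s' a m => (hXm β false (a, m)).1 τ s',
        fun g s a m => (hXm β false (a, m)).2 g s⟩,
        ⟨fun τ s' a m => (hXm β true (a, m)).1 τ s', fun g s a m => (hXm β true (a, m)).2 g s⟩,
        fun q => ⟨fun τ s' a m => (hZm β false q (a, m)).1 τ s',
          fun g s a m => (hZm β false q (a, m)).2 g s⟩,
        fun q => ⟨fun τ s' a m => (hZm β true q (a, m)).1 τ s',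
          fun g s a m => (hZm β true q (a, m)).2 g s⟩⟩
    refine ⟨a.1, fun u => (w u).ck, xw false a.2.1, zw false, xw true a.2.2, zw true, hC,
      hxok _ _, hzok _, hxok _ _, hzok _, ?_⟩
    funext u
    have h := ha' u
    refine Cst.Lab.ext ?_ rfl (Cst.Bank.ext ?_ ?_ rfl rfl rfl rfl) (Cst.Bank.ext ?_ ?_ rfl rfl rfl rfl)
    · exact congrArg Prod.fst h
    · exact congrArg (fun t : AL c => t.2.1) h
    · funext i s
      exact (hRm false i).2 u.1 s u.2 1
    · exact congrArg (fun t : AL c => t.2.2) h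
    · funext i s
      exact (hRm true i).2 u.1 s u.2 1
  · rintro ⟨l, t, x1, z1, x2, z2, ht, hx1, hz1, hx2, hz2, rfl⟩
    refine ⟨⟨(l, x1.1, x2.1), rfl⟩, ht, ?_, ?_, ?_⟩
    · rintro ⟨β, i⟩
      cases β
      · exact ⟨fun τ _ => hx1 i, fun g s τ τ' => rfl⟩
      · exact ⟨fun τ _ => hx2 i, fun g s τ τ' => rfl⟩
    · rintro ⟨⟨β, m⟩, a, k⟩
      cases β <;> cases m
      · exact ⟨fun τ s' => hz1.1.1 τ s' a k, fun g s => hz1.1.2 g s a k⟩
      · exact ⟨fun τ s' => hz1.2.1.1 τ s' a k, fun g s => hz1.2.1.2 g s a k⟩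
      · exact ⟨fun τ s' => hz2.1.1 τ s' a k, fun g s => hz2.1.2 g s a k⟩
      · exact ⟨fun τ s' => hz2.2.1.1 τ s' a k, fun g s => hz2.2.1.2 g s a k⟩
    · rintro ⟨⟨β, m⟩, q, a, k⟩
      cases β <;> cases m
      · exact ⟨fun τ s' => (hz1.2.2.1 q).1 τ s' a k, fun g s => (hz1.2.2.1 q).2 g s a k⟩
      · exact ⟨fun τ s' => (hz1.2.2.2 q).1 τ s' a k, fun g s => (hz1.2.2.2 q).2 g s a k⟩
      · exact ⟨fun τ s' => (hz2.2.2.1 q).1 τ s' a k, fun g s => (hz2.2.2.1 q).2 g s a k⟩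
      · exact ⟨fun τ s' => (hz2.2.2.2 q).1 τ s' a k, fun g s => (hz2.2.2.2 q).2 g s a k⟩

/-- **I4**: the register code of the compiled machine, on the literal labels, from the letter code,
the clock code and the three linear unit codes `VG ⊗ Rep`, `CG ⊗ VT`, `CG ⊗ CT`. -/
theorem lab_CAx {RL : CRules ιL (AL c) PL} {RC : CRules ιC Ck PC}
    {NR : Submodule K (a1 → c.S × Unit → K)} {crR : (a1' → c.S × Unit → K) → c.S × Unit → K}
    {NX : Submodule K (a2 → c.S × c.S' → K)} {crX : (a2' → c.S × c.S' → K) → c.S × c.S' → K}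
    {NZ : Submodule K (a3 → c.S × c.S' → K)} {crZ : (a3' → c.S × c.S' → K) → c.S × c.S' → K}
    {nbL : ιL → I.U → I.U} {nbC : ιC → I.U → I.U} {nbR : a1 → I.U → I.U}
    {nbR' : a1' → I.U → I.U} {nbX : a2 → I.U → I.U} {nbX' : a2' → I.U → I.U}
    {nbZ : a3 → I.U → I.U} {nbZ' : a3' → I.U → I.U} {pubL : I.U → PL} {pubC : I.U → PC}
    {CC : Set (I.U → Ck)} {m zs r0 d0 c0 θ : ℝ} (hc0 : 0 ≤ c0)
    (hL : CAx RL nbL pubL {w : I.U → AL c | ∃ a, w = fun _ => a} m zs r0 d0 c0 θ)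
    (hC : CAx RC nbC pubC CC m zs r0 d0 c0 θ)
    (hR : LU (tens VG (repC I.T Unit K)) nbR NR nbR' crR m m zs r0 d0 c0 θ)
    (hX : LU (tens CG VT) nbX NX nbX' crX m m zs r0 d0 c0 θ)
    (hZ : LU (tens CG CT) nbZ NZ nbZ' crZ m m zs r0 d0 c0 θ) :
    CAx (labRules RL RC NR crR NX crX NZ crZ) (labNb nbL nbC nbR nbR' nbX nbX' nbZ nbZ')
      (labPub pubL pubC) (LabCode I VG CG VT CT CC) m zs r0 d0 (5 * c0) (5 * θ) := by
  have h1 := LUc443.toCAx hR (kR c) Unit (fun _ => ())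
  have h2 := LUc443.toCAx hX (kX c) Unit (fun _ => ())
  have h3 := LUc443.toCAx hZ (kZ c) Unit (fun _ => ())
  rw [max_self] at h1 h2 h3
  have h4 := prod2_CAx hc0 hc0 h2 h3
  have h5 := prod2_CAx hc0 (by linarith) h1 h4
  have h6 := prod2_CAx hc0 (by linarith) hC h5
  have h7 := prod2_CAx hc0 (by linarith) hL h6
  have h8 := relabel_CAx h7 (labE (c := c) (Ck := Ck))
  rw [code_eq I VG CG VT CT CC] at h8
  have e1 : c0 + (c0 + (c0 + (c0 + c0))) = 5 * c0 := by ring
  have e2 : θ + (θ + (θ + (θ + θ))) = 5 * θ := by ring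
  rw [e1, e2] at h8
  exact h8

end main

end Crest.Agent.R289.LabCAx560
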