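import Crest.Agent.R289.LMI_827
import Crest.Agent.R289.LabCAx_560
import Crest.Agent.R289.Gap2_731

/-!
Row 289, block C, leaf hW, part 1 (helper482): 560's `LabCode` is the set of label words of the
configurations of code words of `LMI827.lmI` with clock at most `L`.

* `raw` : raw configuration of a configuration of code words;
* `Cur` : the four curried codes; `cur_of` (with `Gap731.cur`);
* `xok_iff`, `zok_iff` : `XOK`, `ZOK` of 560 = membership in `XS`, `ZS` of 827;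
* `labCode_eq`; `labE_raw_inj`.
-/

set_option autoImplicit false
set_option linter.unusedSectionVars false

namespace Crest.Agent.R289.HW482

open Finset DefC DefI Compile827 LMI827 LabCAx560

variable {K : Type} [Field K] {c : Cst K} {I : Ins c} {CG : ℕ → Submodule K (I.Om → K)}
  {CT : ℕ → Submodule K (I.n → K)} {Ck : Type}

/-- raw configuration of a configuration of code words -/
def raw (f : Conf (XS I CG) (ZS I CG CT) c.A.Tr) : Conf I.XW I.ZW c.A.Tr :=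
  ⟨f.l, f.t, f.x1.1, f.z1.1, f.x2.1, f.z2.1⟩

theorem raw_inj {f g : Conf (XS I CG) (ZS I CG CT) c.A.Tr} (h : raw f = raw g) : f = g := by
  obtain ⟨l, t, x1, z1, x2, z2⟩ := f
  obtain ⟨l', t', x1', z1', x2', z2'⟩ := g
  simp only [raw, Conf.mk.injEq] at h
  obtain ⟨h1, h2, h3, h4, h5, h6⟩ := h
  subst h1 h2
  rw [Subtype.ext h3, Subtype.ext h4, Subtype.ext h5, Subtype.ext h6]

/-- the curried codes -/
structure Cur (I : Ins c) (CG : ℕ → Submodule K (I.Om → K)) (CT : ℕ → Submodule K (I.n → K))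
    (VG CG' : Submodule K (I.Γ → c.S → K)) (VT CT' : Submodule K (I.T → c.S' → K)) : Prop where
  vg : ∀ f : I.Om → K, (fun g s => f (g, s)) ∈ VG ↔ f ∈ CG 1
  cg : ∀ f : I.Om → K, (fun g s => f (g, s)) ∈ CG' ↔ f ∈ CG 4
  vt : ∀ f : I.n → K, (fun τ s => f (τ, s)) ∈ VT ↔ f ∈ CT 1
  ct : ∀ f : I.n → K, (fun τ s => f (τ, s)) ∈ CT' ↔ f ∈ CT 2

theorem cur_of : Cur I CG CT (Gap731.cur (CG 1)) (Gap731.cur (CG 4)) (Gap731.cur (CT 1))
    (Gap731.cur (CT 2)) where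
  vg _ := Iff.rfl
  cg _ := Iff.rfl
  vt _ := Iff.rfl
  ct _ := Iff.rfl

variable {VG CG' : Submodule K (I.Γ → c.S → K)} {VT CT' : Submodule K (I.T → c.S' → K)}

theorem xok_iff (h : Cur I CG CT VG CG' VT CT') (x : I.XW) :
    XOK I VG x ↔ ∀ i, x.2 i ∈ CG 1 := forall_congr' fun i => h.vg (x.2 i)

theorem bok1_iff (h : Cur I CG CT VG CG' VT CT') (F : I.n → I.AW) :
    BOK I CG' VT F ↔ InPC I CG CT 4 1 F := by
  constructor
  · rintro ⟨h1, h2⟩
    exact ⟨fun p a m => (h.cg _).1 (h1 p.1 p.2 a m), fun ω a m => (h.vt _).1 (h2 ω.1 ω.2 a m)⟩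
  · rintro ⟨h1, h2⟩
    exact ⟨fun τ s' a m => (h.cg fun ω => F (τ, s') ω a m).2 (h1 (τ, s') a m),
      fun g s a m => (h.vt fun p => F p (g, s) a m).2 (h2 (g, s) a m)⟩

theorem bok2_iff (h : Cur I CG CT VG CG' VT CT') (F : I.n → I.AW) :
    BOK I CG' CT' F ↔ InPC I CG CT 4 2 F := by
  constructor
  · rintro ⟨h1, h2⟩
    exact ⟨fun p a m => (h.cg _).1 (h1 p.1 p.2 a m), fun ω a m => (h.ct _).1 (h2 ω.1 ω.2 a m)⟩
  · rintro ⟨h1, h2⟩
    exact ⟨fun τ s' a m => (h.cg fun ω => F (τ, s') ω a m).2 (h1 (τ, s') a m),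
      fun g s a m => (h.ct fun p => F p (g, s) a m).2 (h2 (g, s) a m)⟩

theorem zok_iff (h : Cur I CG CT VG CG' VT CT') (z : I.ZW) :
    ZOK I CG' VT CT' z ↔ InZ I CG CT z := by
  constructor
  · rintro ⟨h1, h2, h3, h4⟩
    exact ⟨⟨(bok1_iff h _).1 h1, (bok1_iff h _).1 h2⟩, fun s => (bok2_iff h _).1 (h3 s),
      fun s => (bok2_iff h _).1 (h4 s)⟩
  · rintro ⟨⟨h1, h2⟩, h3, h4⟩
    exact ⟨(bok1_iff h _).2 h1, (bok1_iff h _).2 h2, fun s => (bok2_iff h _).2 (h3 s),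
      fun s => (bok2_iff h _).2 (h4 s)⟩

/-- **the register code with clock code `{cw t | t ≤ L}`** = words of configurations of code
words with clock `≤ L` -/
theorem labCode_eq (h : Cur I CG CT VG CG' VT CT') {cw : ℕ → I.U → Ck} {L : ℕ}
    {CC : Set (I.U → Ck)} (hCC : ∀ w, w ∈ CC ↔ ∃ t, t ≤ L ∧ w = cw t) :
    LabCode I VG CG' VT CT' CC = {w | ∃ f : Conf (XS I CG) (ZS I CG CT) c.A.Tr,
      f.t ≤ L ∧ w = I.labE cw (raw f)} := by
  ext w
  constructor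
  · rintro ⟨l, ct, x1, z1, x2, z2, hc, hx1, hz1, hx2, hz2, rfl⟩
    obtain ⟨t, ht, rfl⟩ := (hCC ct).1 hc
    exact ⟨⟨l, t, ⟨x1, (xok_iff h x1).1 hx1⟩, ⟨z1, (zok_iff h z1).1 hz1⟩,
      ⟨x2, (xok_iff h x2).1 hx2⟩, ⟨z2, (zok_iff h z2).1 hz2⟩⟩, ht, rfl⟩
  · rintro ⟨⟨l, t, x1, z1, x2, z2⟩, ht, rfl⟩
    exact ⟨l, cw t, x1.1, z1.1, x2.1, z2.1, (hCC _).2 ⟨t, ht, rfl⟩, (xok_iff h _).2 x1.2,
      (zok_iff h _).2 z1.2, (xok_iff h _).2 x2.2, (zok_iff h _).2 z2.2, rfl⟩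

/-- configurations (with clock `≤ L`) are determined by their label words -/
theorem labE_raw_inj [Nonempty I.Γ] {cw : ℕ → I.U → Ck} {L : ℕ}
    (hcw : ∀ s t, s ≤ L → t ≤ L → cw s = cw t → s = t)
    {f g : Conf (XS I CG) (ZS I CG CT) c.A.Tr} (hf : f.t ≤ L) (hg : g.t ≤ L)
    (h : I.labE cw (raw f) = I.labE cw (raw g)) : f = g := by
  have hu : ∀ u, I.labE cw (raw f) u = I.labE cw (raw g) u := fun u => congrFun h u
  have hb : ∀ {x x' : I.XW} {z z' : I.ZW}, (∀ u, I.bankE x z u = I.bankE x' z' u) →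
      x = x' ∧ z = z' := by
    intro x x' z z' hb
    constructor
    · refine Prod.ext (congrArg Cst.Bank.stg (hb (Classical.arbitrary _, 1))) ?_
      funext i ω
      exact congrFun (congrFun (congrArg Cst.Bank.R (hb (ω.1, 1))) i) ω.2
    · refine Ins.ZW.ext ?_ ?_ ?_ ?_
      · funext p ω
        exact congrFun (congrFun (congrArg Cst.Bank.X (hb (ω.1, p.1))) p.2) ω.2
      · funext p ω
        exact congrFun (congrFun (congrArg Cst.Bank.Xm (hb (ω.1, p.1))) p.2) ω.2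
      · funext q p ω
        exact congrFun (congrFun (congrFun (congrArg Cst.Bank.Z (hb (ω.1, p.1))) q) p.2) ω.2
      · funext q p ω
        exact congrFun (congrFun (congrFun (congrArg Cst.Bank.Zm (hb (ω.1, p.1))) q) p.2) ω.2
  obtain ⟨e1, e2⟩ := hb fun u => congrArg Cst.Lab.b1 (hu u)
  obtain ⟨e3, e4⟩ := hb fun u => congrArg Cst.Lab.b2 (hu u)
  refine Conf.ext (congrArg Cst.Lab.l (hu (Classical.arbitrary _, 1))) ?_
    (Subtype.ext e1) (Subtype.ext e2) (Subtype.ext e3) (Subtype.ext e4)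
  exact hcw _ _ hf hg (funext fun u => congrArg Cst.Lab.ck (hu u))

end Crest.Agent.R289.HW482
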