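import Crest.Agent.R289.LabEq_560
import Crest.Agent.R289.RegsObj_335
import Crest.Agent.R289.HypObj_146
import Crest.Agent.R289.Mem_12

/-!
Row 289 (S0434), joint I4 at one member of the family `Mem12.Mem`: the label code is a
`Word508.CAx`, rules and constants do not depend on the member, and its words are the label words
of the configurations (`t ≤ L`) over the content words and certificates of `LMI_827`.
-/

set_option autoImplicit false

namespace Crest.Agent.R289.LabObj560

open Finset Crest.Agent.R289.DefD Crest.Agent.R289.Word508 Crest.Agent.R289.DefI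
  Crest.Agent.R289.Asm12 Crest.Agent.R289.Mem12 Crest.Agent.R289.LabCAx560
open Crest.Agent.R289.Compile827 (Letter Conf)
open Crest.Agent.R289.LMI827 (XS ZS)
open Crest.Agent.R289.InsObj576 (cst CG)
open Crest.Agent.R289.HypObj146 (CT)
open Crest.Agent.R289.LUofTP239 (CP VS zsP cP)
open Crest.Agent.R289.LU846 (tens)
open Crest.Agent.R289.LUb443 (repC)
open Crest.Agent.R289.RegsObj335 (labRO labNbO labCO lab_obj)
open Crest.Agent.R289.RegsFac335 (ZS_pos RS_pos DS_pos)

variable {D : Obj} {M0 : ℕ} {lam0 Kr : ℝ} (h : D.OK M0 lam0 Kr) {W c0 : ℕ}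

/-- the codes of the content group are the tensor codes -/
lemma cur_CG (kP kR d : ℕ) : cur (CG D kP kR d) = tens (CP D kP d) (CP D kR d) := by
  ext f
  rfl

lemma cur_CT (k d : ℕ) : cur (CT D k d) = CP D k d := by
  ext f
  rfl

/-- the code of the label on a member, in the vocabulary of `LMI_827` -/
theorem labCO_eq {Ck : Type} (kP kR kT : ℕ) (P : TSide492.Path (D.P kT) (Fin W) (Fin W × Fin W))
    (lay : DefC.Layout (D.P kP × D.P kR) (InsObj576.G D) (Fin 28) 128)
    (Cc : Set ((D.P kP × D.P kR) × D.P kT → Ck)) :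
    labCO h W kP kR kT Cc = LabCode (InsObj576.ins h W kP kR kT P lay)
      (cur (CG D kP kR 1)) (cur (CG D kP kR 4)) (cur (CT D kT 1)) (cur (CT D kT 2)) Cc := by
  rw [cur_CG, cur_CG, cur_CT, cur_CT, ← labC_eq]
  rfl

/-! ### one member -/

section member

open Crest.Agent.R289.ClockE698 (nbU clkU_CAx eU)
open Crest.Agent.R289.ClockU698 (SJ)
open Crest.Agent.R289.Clock425 (clkRules clkC clkW)

variable {h}

/-- the code of the label on a member: label words of configurations -/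
def code (i : Mem h W c0) : Set (i.I.U → (cst h W).Lab (ZMod 3)) :=
  {w | ∃ f : Conf (XS i.I (CG D i.kP i.kR)) (ZS i.I (CG D i.kP i.kR) (CT D i.kT))
    (cst h W).A.Tr, f.t ≤ i.I.L ∧ w = labS i.I (CG D i.kP i.kR) (CT D i.kT) i.cw f}

/-- the clock code of a member -/
theorem clk_eq (i : Mem h W c0) :
    clkC (eU i.siz (D.ix i.kP) (D.ix i.kR) (D.ix i.kT)) =
      {t : i.I.U → ZMod 3 | ∃ j, j ≤ i.I.L ∧ t = i.cw j} := by
  ext w
  constructor
  · rintro ⟨t, rfl⟩
    refine ⟨t.val, Nat.lt_succ_iff.1 t.2, funext fun u => ?_⟩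
    have e1 : ClkTD766.pos i.I.L t.val = t := Fin.ext (ClkTD766.pos_val (Nat.lt_succ_iff.1 t.2))
    show Clock311.clk t (i.e u) = Clock311.clk (ClkTD766.pos i.I.L t.val) (i.e u)
    rw [e1]
    rfl
  · rintro ⟨j, hj, rfl⟩
    exact ⟨ClkTD766.pos i.I.L j, rfl⟩

/-- the code of `RegsObj_335` on a member is `code i` -/
theorem code_eq (i : Mem h W c0) :
    labCO h W i.kP i.kR i.kT (clkC (eU i.siz (D.ix i.kP) (D.ix i.kR) (D.ix i.kT))) = code i := by
  rw [labCO_eq h i.kP i.kR i.kT i.P i.lay, clk_eq i]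
  exact LabCode_labS i.I (CG D i.kP i.kR) (CT D i.kT) i.cw i.I.L

/-- the slots of the label code -/
abbrev SlotL (D : Obj) : Type := RegsObj335.SO D (Clock425.Slot (SJ 3))

/-- the neighbour maps of the label code on a member -/
noncomputable def nbL (i : Mem h W c0) : SlotL D → i.I.U → i.I.U :=
  labNbO D (nbU i.siz (D.ix i.kP) (D.ix i.kR) (D.ix i.kT))

/-- the rules of the label code -/
noncomputable def rulesL (h : D.OK M0 lam0 Kr) (W n : ℕ) (P : Type) :
    CRules (SlotL D) ((cst h W).Lab (ZMod 3)) P :=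
  labRO h W n (P := P) (clkRules 3 (SJ 3))

/-- constants of the label code -/
noncomputable def zsL (D : Obj) (Kr : ℝ) : ℝ :=
  RegsFac335.ZS (VS (Option D.K)) (zsP D Kr) (cP D) (1 / 205)

noncomputable def cL (D : Obj) (Kr : ℝ) : ℝ :=
  5 * RegsFac335.CS (VS (Option D.K)) (zsP D Kr) (cP D) 16

/-- **I4 on one member**: rules and constants are chosen before the member -/
theorem mem_CAx (h : D.OK M0 lam0 Kr) (hK : 0 ≤ Kr) (h4 : 4 ≤ M0) (hl0 : lam0 ≤ 1 / 64) :
    ∃ n : ℕ, ∀ (W c0 : ℕ) (i : Mem h W c0) (P : Type) (pub : i.I.U → P),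
      CAx (rulesL h W n P) (nbL i) pub (code i) 1 (zsL D Kr) (1 / 32000) (1 / 8) (cL D Kr)
        (1 / 4) := by
  obtain ⟨n, hn⟩ := lab_obj h hK h4 hl0
  refine ⟨n, fun W c0 i P pub => ?_⟩
  have h1 := hn W i.kP i.kR i.kT (Clock425.Slot (SJ 3)) (ZMod 3) P (clkRules 3 (SJ 3))
    (nbU i.siz (D.ix i.kP) (D.ix i.kR) (D.ix i.kT))
    (clkC (eU i.siz (D.ix i.kP) (D.ix i.kR) (D.ix i.kT))) pub (1 / 205) (1 / 8) (1 / 2) 16
    (by norm_num) (clkU_CAx i.siz (D.ix i.kP) (D.ix i.kR) (D.ix i.kT))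
  rw [code_eq i] at h1
  refine h1.mono le_rfl le_rfl ?_ ?_ le_rfl le_rfl
  · exact le_min (by norm_num) le_rfl
  · exact le_min (by norm_num) le_rfl

theorem zsL_pos (h : D.OK M0 lam0 Kr) (hK : 0 ≤ Kr) (h4 : 4 ≤ M0) (hl0 : lam0 ≤ 1 / 64) :
    0 < zsL D Kr := by
  obtain ⟨n, F⟩ := RegsObj335.fac_obj D h hK h4 hl0
  exact ZS_pos F (by norm_num)

instance (D : Obj) : Finite (SlotL D) := by
  have h5 : ∀ j : LabCAx335.K5, Finite (LabCAx335.I5 (RegsObj335.Sl D)
      (ItI 2 (Clock425.Slot (SJ 3))) (RegsObj335.Sg D ⊕ Option (Option D.K))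
      (RegsObj335.Sg' D × LUb443.Slots (Option D.K) 9)
      (RegsObj335.Sg D ⊕ VS (Option D.K))
      (RegsObj335.Sg' D × LUb443.Slots (Option D.K × Option D.K) 9)
      (RegsObj335.Sg D ⊕ VS (Option D.K))
      (RegsObj335.Sg' D × LUb443.Slots (Option D.K × Option D.K) 9) j) := by
    intro j
    have : Fintype (ItI 2 (Clock425.Slot (SJ 3))) := fintypeItI 2
    cases j with
    | lt => exact inferInstanceAs (Finite (Option (RegsObj335.Sl D)))
    | ck => exact inferInstanceAs (Finite (ItI 2 (Clock425.Slot (SJ 3))))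
    | rg => exact inferInstanceAs (Finite ((RegsObj335.Sg D ⊕ Option (Option D.K)) ⊕
        (RegsObj335.Sg' D × LUb443.Slots (Option D.K) 9)))
    | rx => exact inferInstanceAs (Finite ((RegsObj335.Sg D ⊕ VS (Option D.K)) ⊕
        (RegsObj335.Sg' D × LUb443.Slots (Option D.K × Option D.K) 9)))
    | rz => exact inferInstanceAs (Finite ((RegsObj335.Sg D ⊕ VS (Option D.K)) ⊕
        (RegsObj335.Sg' D × LUb443.Slots (Option D.K × Option D.K) 9)))
  have : Finite LabCAx335.K5 := Finite.of_fintype _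
  exact Finite.instSigma

/-- the slot of the unit itself -/
def slot0 (D : Obj) : SlotL D := ⟨LabCAx335.K5.lt, (none : Option (RegsObj335.Sl D))⟩

theorem nbL_slot0 (i : Mem h W c0) (u : i.I.U) : nbL i (slot0 D) u = u := rfl

theorem cL_ge (D : Obj) (Kr : ℝ) : 15 ≤ cL D Kr := by
  have := RegsFac335.three_le_CS (VS (Option D.K)) (zsP D Kr) (cP D) 16
  unfold cL
  linarith

end member

end Crest.Agent.R289.LabObj560
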