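import Mathlib
import Crest.Agent.R289.DefC_143

/-!
# Layouts from walk lists (row 289, block C, generic half of C_REAL, design 5984 of 109)

* `Vs` : a visit = (address, instruction of program `false`, instruction of program `true`).
  `mkL` : the layout of a list of visits; the visit index is the number of earlier visits.
* `An` : annotated visits of one program (every instruction carries its value).  `Good x S av` :
  every instruction is justified by the facts of `S` or by earlier instructions.
* `run_mkL` : the run of the layout produces the annotated values.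
* `fw`, `wire` : a wire (two NANDs per hop), forward and back.
* `mkL_ok` : the conditions of `Layout.OK`.
-/

set_option autoImplicit false
set_option linter.unusedSectionVars false

namespace Crest.Agent.R289.LayA873

open Crest.Agent.R289.DefC

variable {Γ G Λ : Type} [DecidableEq Γ] [DecidableEq Λ]

/-! ### steps -/

/-- adjacency by a step of the list `gs` -/
def Adj (act : G → Equiv.Perm Γ) (gs : List G) (a b : Γ) : Prop := ∃ g ∈ gs, act g a = b

/-- first step from `a` to `b` -/
def stp (act : G → Equiv.Perm Γ) (gs : List G) (g0 : G) (a b : Γ) : G :=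
  (gs.find? fun g => decide (act g a = b)).getD g0

theorem stp_spec {act : G → Equiv.Perm Γ} {gs : List G} {g0 : G} {a b : Γ} (h : Adj act gs a b) :
    act (stp act gs g0 a b) a = b := by
  obtain ⟨g, hg, e⟩ := h
  unfold stp
  cases hf : gs.find? fun g => decide (act g a = b) with
  | none =>
    have := List.find?_eq_none.1 hf g hg
    simp [e] at this
  | some g' =>
    have := List.find?_some hf
    simpa using this

/-! ### visits -/

/-- a visit: address, instruction of program `false`, instruction of program `true` -/
abbrev Vs (Γ G Λ : Type) := Γ × Option (Λ × Op G Λ) × Option (Λ × Op G Λ)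

/-- instruction of program `c` -/
def Vs.ins (v : Vs Γ G Λ) (c : Bool) : Option (Λ × Op G Λ) := bif c then v.2.2 else v.2.1

/-- addresses of a walk -/
def adr (pr : List (Vs Γ G Λ)) (fin : Γ) : List Γ := pr.map Prod.fst ++ [fin]

/-- the layout of a list of visits followed by the last address `fin` -/
def mkL (act : G → Equiv.Perm Γ) (gs : List G) (g0 : G) (J : ℕ) (pr : List (Vs Γ G Λ)) (fin : Γ)
    (n : ℕ) (al : Fin n → Γ) : Layout Γ G Λ (J + 1) where
  L := pr.length
  vis s := ((adr pr fin).getD s fin,
    Fin.ofNat (J + 1) (((adr pr fin).take s).count ((adr pr fin).getD s fin)))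
  dir s := stp act gs g0 ((adr pr fin).getD s fin) ((adr pr fin).getD (s + 1) fin)
  ins c s := (pr[s]?).bind fun v => v.ins c
  n := n
  al := al

/-! ### annotated visits of one program -/

/-- an annotated visit -/
abbrev An (Γ G Λ : Type) := Γ × Option (Λ × Op G Λ × Bool)

/-- forget the annotation -/
def An.strip (w : An Γ G Λ) : Γ × Option (Λ × Op G Λ) := (w.1, w.2.map fun i => (i.1, i.2.1))

/-- the fact established by a visit -/
def fact (av : List (An Γ G Λ)) : Set (Γ × Λ × Bool) :=
  {z | ∃ k, (z.1, some (z.2.1, k, z.2.2)) ∈ av}

/-- an operation at `a` has value `v` by the facts `S` -/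
def Just (act : G → Equiv.Perm Γ) (x : Γ → Bool) (S : Set (Γ × Λ × Bool)) (a : Γ) :
    Op G Λ → Bool → Prop
  | .inp, v => v = x a
  | .cst b, v => v = b
  | .nand g l g' l', v => ∃ w w', (act g a, l, w) ∈ S ∧ (act g' a, l', w') ∈ S ∧ v = !(w && w')

/-- every instruction is justified by `S` and the earlier ones -/
def Good (act : G → Equiv.Perm Γ) (x : Γ → Bool) : Set (Γ × Λ × Bool) → List (An Γ G Λ) → Prop
  | _, [] => True
  | S, (_, none) :: r => Good act x S r
  | S, (a, some (l, k, v)) :: r => Just act x S a k v ∧ Good act x (insert (a, l, v) S) r

theorem Just.mono {act : G → Equiv.Perm Γ} {x : Γ → Bool} {S S' : Set (Γ × Λ × Bool)} {a : Γ}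
    {k : Op G Λ} {v : Bool} (h : Just act x S a k v) (hS : S ⊆ S') : Just act x S' a k v := by
  cases k with
  | inp => exact h
  | cst b => exact h
  | nand g l g' l' =>
    obtain ⟨w, w', h1, h2, h3⟩ := h
    exact ⟨w, w', hS h1, hS h2, h3⟩

theorem Good.mono {act : G → Equiv.Perm Γ} {x : Γ → Bool} {av : List (An Γ G Λ)} :
    ∀ {S S' : Set (Γ × Λ × Bool)}, Good act x S av → S ⊆ S' → Good act x S' av := by
  induction av with
  | nil => intro _ _ _ _; trivial
  | cons w r ih =>
    intro S S' h hS
    obtain ⟨a, o⟩ := w
    cases o with
    | none => exact ih (show Good act x S r from h) hS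
    | some i =>
      obtain ⟨l, k, v⟩ := i
      exact ⟨h.1.mono hS, ih h.2 (Set.insert_subset_insert hS)⟩

theorem fact_nil : fact ([] : List (An Γ G Λ)) = ∅ := by
  ext z
  simp [fact]

theorem fact_none (a : Γ) (av : List (An Γ G Λ)) : fact ((a, none) :: av) = fact av := by
  ext z
  simp [fact]

theorem fact_some (a : Γ) (l : Λ) (k : Op G Λ) (v : Bool) (av : List (An Γ G Λ)) :
    fact ((a, some (l, k, v)) :: av) = insert (a, l, v) (fact av) := by
  ext z
  obtain ⟨z1, z2, z3⟩ := z
  simp only [fact, List.mem_cons, Set.mem_ofPred_eq, Set.mem_insert_iff, Prod.mk.injEq,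
    Option.some.injEq]
  constructor
  · rintro ⟨k', h | h⟩
    · exact .inl ⟨h.1, h.2.1, h.2.2.2⟩
    · exact .inr ⟨k', h⟩
  · rintro (⟨h1, h2, h3⟩ | ⟨k', h⟩)
    · exact ⟨k, .inl ⟨h1, h2, rfl, h3⟩⟩
    · exact ⟨k', .inr h⟩

theorem fact_append (av av' : List (An Γ G Λ)) : fact (av ++ av') = fact av ∪ fact av' := by
  ext z
  simp only [fact, List.mem_append, Set.mem_ofPred_eq, Set.mem_union]
  constructor
  · rintro ⟨k, h | h⟩
    · exact .inl ⟨k, h⟩
    · exact .inr ⟨k, h⟩
  · rintro (⟨k, h⟩ | ⟨k, h⟩)
    · exact ⟨k, .inl h⟩
    · exact ⟨k, .inr h⟩

theorem fact_mono {av av' : List (An Γ G Λ)} (h : av ⊆ av') : fact av ⊆ fact av' :=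
  fun _ ⟨k, hk⟩ => ⟨k, h hk⟩

theorem Good.append {act : G → Equiv.Perm Γ} {x : Γ → Bool} {av av' : List (An Γ G Λ)} :
    ∀ {S : Set (Γ × Λ × Bool)}, Good act x S av → Good act x (S ∪ fact av) av' →
    Good act x S (av ++ av') := by
  induction av with
  | nil =>
    intro S _ h
    simpa [fact_nil] using h
  | cons w r ih =>
    intro S h h'
    obtain ⟨a, o⟩ := w
    cases o with
    | none =>
      rw [fact_none] at h'
      exact ih (show Good act x S r from h) h'
    | some i =>
      obtain ⟨l, k, v⟩ := i
      rw [fact_some] at h'
      refine ⟨h.1, ih h.2 (h'.mono ?_)⟩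
      rw [Set.insert_union, Set.union_insert]

theorem Good.flatMap {ι : Type} {act : G → Equiv.Perm Γ} {x : Γ → Bool} {f : ι → List (An Γ G Λ)}
    {l : List ι} {S : Set (Γ × Λ × Bool)}
    (h : ∀ (l1 l2 : List ι) (i : ι), l = l1 ++ i :: l2 →
      Good act x (S ∪ fact (l1.flatMap f)) (f i)) :
    Good act x S (l.flatMap f) := by
  have key : ∀ (l2 l1 : List ι), l = l1 ++ l2 →
      Good act x (S ∪ fact (l1.flatMap f)) (l2.flatMap f) := by
    intro l2
    induction l2 with
    | nil => intro _ _; trivial
    | cons i l2 ih =>
      intro l1 e
      rw [List.flatMap_cons]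
      refine (h l1 l2 i e).append ?_
      refine (ih (l1 ++ [i]) (by simp [e])).mono ?_
      rw [List.flatMap_append, fact_append, ← Set.union_assoc]
      simp
  have := key l [] rfl
  simpa [fact_nil] using this

/-- instructions at an index are justified by the facts before it -/
theorem Good.index {act : G → Equiv.Perm Γ} {x : Γ → Bool} {av : List (An Γ G Λ)} :
    ∀ {S : Set (Γ × Λ × Bool)}, Good act x S av → ∀ (s : ℕ) (a : Γ) (l : Λ) (k : Op G Λ) (v : Bool),
    av[s]? = some (a, some (l, k, v)) → Just act x (S ∪ fact (av.take s)) a k v := by
  induction av with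
  | nil => intro S _ s a l k v h; simp at h
  | cons w r ih =>
    intro S h s a l k v hs
    obtain ⟨b, o⟩ := w
    cases s with
    | zero =>
      simp only [List.getElem?_cons_zero, Option.some.injEq] at hs
      cases hs
      exact h.1.mono (by simp)
    | succ s =>
      rw [List.getElem?_cons_succ] at hs
      rw [List.take_succ_cons]
      cases o with
      | none =>
        rw [fact_none]
        exact ih (show Good act x S r from h) s a l k v hs
      | some i =>
        obtain ⟨l', k', v'⟩ := i
        rw [fact_some]
        refine (ih h.2 s a l k v hs).mono ?_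
        rw [Set.insert_union, Set.union_insert]

/-! ### the run -/

/-- the cells written by program `c` -/
def cells (c : Bool) (pr : List (Vs Γ G Λ)) : List (Γ × Λ) :=
  pr.filterMap fun v => (v.ins c).map fun i => (v.1, i.1)

/-- annotated visits which are the visits of program `c` -/
def Ann (c : Bool) (pr : List (Vs Γ G Λ)) (av : List (An Γ G Λ)) : Prop :=
  av.map An.strip = pr.map fun v => (v.1, v.ins c)

theorem Ann.length {c : Bool} {pr : List (Vs Γ G Λ)} {av : List (An Γ G Λ)} (h : Ann c pr av) :
    av.length = pr.length := by
  have := congrArg List.length h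
  simpa using this

theorem Ann.append {c : Bool} {pr pr' : List (Vs Γ G Λ)} {av av' : List (An Γ G Λ)}
    (h : Ann c pr av) (h' : Ann c pr' av') : Ann c (pr ++ pr') (av ++ av') := by
  unfold Ann at *
  rw [List.map_append, List.map_append, h, h']

theorem Ann.index {c : Bool} {pr : List (Vs Γ G Λ)} {av : List (An Γ G Λ)} (h : Ann c pr av)
    (s : ℕ) : (av[s]?).map An.strip = (pr[s]?).map fun v => (v.1, v.ins c) := by
  have := congrArg (fun l => l[s]?) h
  simpa using this

section run

variable {act : G → Equiv.Perm Γ} {gs : List G} {g0 : G} {J : ℕ} {pr : List (Vs Γ G Λ)} {fin : Γ}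
  {n : ℕ} {al : Fin n → Γ}

theorem adr_getD {s : ℕ} {v : Vs Γ G Λ} (hs : pr[s]? = some v) : (adr pr fin).getD s fin = v.1 := by
  have h := (List.getElem?_eq_some_iff.1 hs)
  obtain ⟨hl, e⟩ := h
  unfold adr
  rw [List.getD_eq_getElem?_getD, List.getElem?_append_left (by simpa using hl)]
  simp [hs]

theorem ins_eq {c : Bool} {s : ℕ} {i : Λ × Op G Λ}
    (h : (mkL act gs g0 J pr fin n al).ins c s = some i) :
    ∃ v, pr[s]? = some v ∧ v.ins c = some i := by
  simpa [mkL, Option.bind_eq_some_iff] using h

/-- the run after `t` visits gives the annotated values -/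
theorem run_mkL {c : Bool} {x : Γ → Bool} {av : List (An Γ G Λ)} (hA : Ann c pr av)
    (hG : Good act x ∅ av) (hN : (cells c pr).Nodup) (t : ℕ) :
    ∀ a l v, (a, l, v) ∈ fact (av.take t) →
      Layout.run act (mkL act gs g0 J pr fin n al) c x t a l = v := by
  have hP : pr.Pairwise fun v w => ∀ i, v.ins c = some i → ∀ j, w.ins c = some j →
      (v.1, i.1) ≠ (w.1, j.1) := by
    unfold cells List.Nodup at hN
    rw [List.pairwise_filterMap] at hN
    refine hN.imp ?_
    intro v w h i hi j hj
    exact h _ (by simp [hi]) _ (by simp [hj])
  induction t with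
  | zero => intro a l v h; simp [fact] at h
  | succ t ih =>
    intro a l v h
    have hi := hA.index t
    cases hv : pr[t]? with
    | none =>
      -- no visit: nothing new
      rw [hv] at hi
      have e1 : av[t]? = none := by
        cases hh : av[t]? with
        | none => rfl
        | some w => rw [hh] at hi; simp at hi
      have hl : av.length ≤ t := List.getElem?_eq_none_iff.1 e1
      rw [List.take_of_length_le (by omega)] at h
      have h' : (a, l, v) ∈ fact (av.take t) := by rwa [List.take_of_length_le hl]
      have e2 : (mkL act gs g0 J pr fin n al).ins c t = none := by simp [mkL, hv]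
      simp only [Layout.run, e2]
      exact ih a l v h'
    | some w =>
      rw [hv] at hi
      cases hw : av[t]? with
      | none => rw [hw] at hi; simp at hi
      | some u =>
        rw [hw] at hi
        simp only [Option.map_some, Option.some.injEq] at hi
        obtain ⟨b, o⟩ := u
        have ht : t < av.length := (List.getElem?_eq_some_iff.1 hw).1
        have hget : av[t] = (b, o) := (List.getElem?_eq_some_iff.1 hw).2
        rw [List.take_succ_eq_append_getElem ht, hget, fact_append] at h
        have hins : (mkL act gs g0 J pr fin n al).ins c t = w.ins c := by simp [mkL, hv]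
        have hw1 : ((mkL act gs g0 J pr fin n al).vis t).1 = w.1 := adr_getD hv
        cases o with
        | none =>
          have e2 : w.ins c = none := by
            have := congrArg Prod.snd hi
            simpa [An.strip] using this.symm
          simp only [Layout.run, hins, e2]
          rcases h with h | h
          · exact ih a l v h
          · simp [fact] at h
        | some i =>
          obtain ⟨l', k', v'⟩ := i
          have e1 : b = w.1 := by
            have := congrArg Prod.fst hi
            simpa [An.strip] using this
          have e2 : w.ins c = some (l', k') := by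
            have := congrArg Prod.snd hi
            simpa [An.strip] using this.symm
          simp only [Layout.run, hins, e2, hw1]
          rcases h with h | h
          · -- an old cell
            have hne : ¬ (w.1 = a ∧ l' = l) := by
              rintro ⟨ea, el⟩
              obtain ⟨k, hk⟩ := h
              obtain ⟨s, hs, es⟩ := List.getElem_of_mem hk
              rw [List.getElem_take] at es
              have hs' : s < t := by
                rw [List.length_take] at hs
                omega
              have hA' := hA.index s
              have es' : av[s]? = some (a, some (l, k, v)) := by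
                rw [List.getElem?_eq_getElem (by omega), es]
              rw [es'] at hA'
              cases hp : pr[s]? with
              | none => rw [hp] at hA'; simp at hA'
              | some w' =>
                rw [hp] at hA'
                simp only [Option.map_some, Option.some.injEq, An.strip, Prod.mk.injEq] at hA'
                have hps := List.getElem?_eq_some_iff.1 hp
                have hpt := List.getElem?_eq_some_iff.1 hv
                obtain ⟨ls, es1⟩ := hps
                obtain ⟨lt, et1⟩ := hpt
                have := List.pairwise_iff_getElem.1 hP s t ls lt hs'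
                rw [es1, et1] at this
                exact this (l, k) hA'.2.symm (l', k') e2 (by
                  rw [Prod.mk.injEq]
                  exact ⟨hA'.1.symm.trans ea.symm, el.symm⟩)
            rw [if_neg hne]
            exact ih a l v h
          · -- the new cell
            simp only [fact, List.mem_singleton, Set.mem_ofPred_eq, Prod.mk.injEq,
              Option.some.injEq] at h
            obtain ⟨k, h1, h2, h3, h4⟩ := h
            subst h1 h2 h3 h4
            rw [if_pos ⟨e1.symm, rfl⟩]
            have hJ := hG.index t a l k v hw
            rw [Set.empty_union] at hJ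
            cases k with
            | inp => exact hJ.symm
            | cst b => exact hJ.symm
            | nand g l1 g' l2 =>
              obtain ⟨w1, w2, j1, j2, j3⟩ := hJ
              show (!(Layout.run act _ c x t (act g a) l1 && Layout.run act _ c x t (act g' a) l2)) = v
              rw [ih _ _ _ j1, ih _ _ _ j2, j3]

/-- **all annotated values are produced** -/
theorem run_final {c : Bool} {x : Γ → Bool} {av : List (An Γ G Λ)} (hA : Ann c pr av)
    (hG : Good act x ∅ av) (hN : (cells c pr).Nodup) {a : Γ} {l : Λ} {v : Bool}
    (h : (a, l, v) ∈ fact av) :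
    Layout.run act (mkL act gs g0 J pr fin n al) c x (mkL act gs g0 J pr fin n al).L a l = v := by
  apply run_mkL hA hG hN
  have : (mkL act gs g0 J pr fin n al).L = av.length := hA.length.symm
  rw [this, List.take_length]
  exact h

end run

end Crest.Agent.R289.LayA873
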