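import Mathlib
import Crest.Agent.R289.LayDef_109

/-!
# Number of visits of an address in the layout of LayDef_109 (row 289, C_REAL)

`cnt a l` = visits of the address `a`, `wcnt a l` = written cells with address `a`.
`cnt a (prog ..) ≤ 2 * wcnt a (prog ..) ≤ 2 * 28` when written cells are different.
-/

set_option autoImplicit false
set_option linter.unusedSectionVars false

namespace Crest.Agent.R289.LayN873

open Crest.Agent.R289.Layout109

/-- written cells -/
def wr (l : List Stp) : List Cel := l.filterMap fun s => s.2.map fun i => (s.1, i.1)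

/-- visits of `a` -/
def cnt (a : ℕ) (l : List Stp) : ℕ := (l.map Prod.fst).count a

/-- written cells at `a` -/
def wcnt (a : ℕ) (l : List Stp) : ℕ := ((wr l).map Prod.fst).count a

theorem wr_append (l l' : List Stp) : wr (l ++ l') = wr l ++ wr l' := List.filterMap_append ..

theorem wr_flatMap {ι : Type} (l : List ι) (f : ι → List Stp) :
    wr (l.flatMap f) = l.flatMap fun i => wr (f i) := by
  induction l with
  | nil => rfl
  | cons i l ih => rw [List.flatMap_cons, wr_append, ih, List.flatMap_cons]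

theorem cnt_append (a : ℕ) (l l' : List Stp) : cnt a (l ++ l') = cnt a l + cnt a l' := by
  simp [cnt]

theorem wcnt_append (a : ℕ) (l l' : List Stp) : wcnt a (l ++ l') = wcnt a l + wcnt a l' := by
  simp [wcnt, wr_append]

theorem cnt_flatMap_le {ι : Type} (a m : ℕ) (l : List ι) (f : ι → List Stp)
    (h : ∀ i ∈ l, cnt a (f i) ≤ m * wcnt a (f i)) :
    cnt a (l.flatMap f) ≤ m * wcnt a (l.flatMap f) := by
  induction l with
  | nil => simp [cnt]
  | cons i l ih =>
    rw [List.flatMap_cons, cnt_append, wcnt_append, Nat.mul_add]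
    exact Nat.add_le_add (h i (by simp)) (ih fun j hj => h j (List.mem_cons_of_mem _ hj))

theorem fwd_cons (z0 z : Cel) (zs : List Cel) : fwd z0 (z :: zs) = cp z0 z ++ fwd z zs := by
  unfold fwd
  rw [List.zip_cons_cons, List.flatMap_cons]

theorem cnt_fwd (a : ℕ) (z0 : Cel) (zs : List Cel) :
    cnt a (fwd z0 zs) = 2 * (zs.map Prod.fst).count a ∧
    wcnt a (fwd z0 zs) = 2 * (zs.map Prod.fst).count a := by
  induction zs generalizing z0 with
  | nil => constructor <;> rfl
  | cons z zs ih =>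
    rw [fwd_cons, cnt_append, wcnt_append, (ih z).1, (ih z).2]
    have e1 : cnt a (cp z0 z) = 2 * [z.1].count a := by
      unfold cnt cp
      simp only [List.map_cons, List.map_nil, List.count_cons, List.count_nil]
      omega
    have e2 : wcnt a (cp z0 z) = 2 * [z.1].count a := by
      unfold wcnt cp wr
      simp only [List.filterMap_cons, Option.map_some, List.filterMap_nil, List.map_cons,
        List.map_nil, List.count_cons, List.count_nil]
      omega
    rw [e1, e2, List.map_cons]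
    simp only [List.count_cons, List.count_nil]
    constructor <;> omega

theorem cnt_bwd (a : ℕ) (z0 : Cel) (zs : List Cel) :
    cnt a (bwd z0 zs) = ((z0 :: zs).map Prod.fst).count a ∧ wcnt a (bwd z0 zs) = 0 := by
  constructor
  · unfold cnt bwd
    rw [List.map_reverse, List.count_reverse, List.map_map]
    rfl
  · unfold wcnt wr bwd
    rw [List.filterMap_eq_nil_iff.2]
    · rfl
    · intro s hs
      simp only [List.mem_reverse, List.mem_map] at hs
      obtain ⟨z, -, rfl⟩ := hs
      rfl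

/-- a cable whose first cell is at the address of its source -/
theorem cnt_cable (a : ℕ) (z0 : Cel) (zs : List Cel) (h : (zs.map Prod.fst).head? = some z0.1) :
    cnt a (cable z0 zs) ≤ 2 * wcnt a (cable z0 zs) := by
  unfold cable
  rw [cnt_append, wcnt_append, (cnt_fwd a z0 zs).1, (cnt_fwd a z0 zs).2, (cnt_bwd a z0 zs).1,
    (cnt_bwd a z0 zs).2, List.map_cons, List.count_cons]
  cases zs with
  | nil => simp at h
  | cons z zs =>
    simp only [List.map_cons, List.head?_cons, Option.some.injEq] at h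
    rw [List.map_cons, List.count_cons, h]
    split <;> omega

theorem cnt_block (a : ℕ) (g : Cel) (o : OpN) (cs : List (List Cel))
    (h : ∀ zs ∈ cs, (zs.map Prod.fst).head? = some g.1) :
    cnt a (block g o cs) ≤ 2 * wcnt a (block g o cs) := by
  have e : block g o cs = [(g.1, some (g.2, o))] ++ cs.flatMap (cable g) := rfl
  rw [e, cnt_append, wcnt_append, Nat.mul_add]
  refine Nat.add_le_add ?_ (cnt_flatMap_le a 2 cs _ fun zs hz => cnt_cable a g zs (h zs hz))
  simp [cnt, wcnt, wr]
  omega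

/-- the first cell of a cable is at the home of the source -/
theorem head_cells {nT : ℕ} {θ hp : List ℕ} {w : Wir} (hθ : θ ≠ [])
    (hh : w.2.2.2.headD 0 = hp.getD w.2.1.1 0) :
    ((cells nT θ w).map Prod.fst).head? = some (home nT θ hp w.2.1.1) := by
  obtain ⟨b, θ', rfl⟩ := List.exists_cons_of_ne_nil hθ
  unfold cells
  rw [hh]
  simp [home, ad]

theorem cnt_prog (a nT : ℕ) (θ hp : List ℕ) (n : ℕ) (ops : List (ℕ × ℕ × ℕ)) (W : List Wir)
    (hθ : θ ≠ []) (hh : ∀ w ∈ W, w.2.2.2.headD 0 = hp.getD w.2.1.1 0) :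
    cnt a (prog nT θ hp n ops W) ≤ 2 * wcnt a (prog nT θ hp n ops W) := by
  refine cnt_flatMap_le a 2 _ _ fun t _ => cnt_block a _ _ _ ?_
  intro zs hz
  obtain ⟨w, hw, rfl⟩ := List.mem_map.1 hz
  rw [List.mem_filter] at hw
  have ht : w.2.1.1 = t := by simpa using hw.2
  have := head_cells (nT := nT) (hp := hp) hθ (hh w hw.1)
  rw [ht] at this
  exact this

/-- few written cells at an address -/
theorem wcnt_le (a Λ : ℕ) (l : List Stp) (hN : (wr l).Nodup) (hL : ∀ z ∈ wr l, z.2 < Λ) :
    wcnt a l ≤ Λ := by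
  have h1 : wcnt a l = ((wr l).filter fun z => z.1 == a).length := by
    unfold wcnt
    rw [List.count_eq_countP, List.countP_map, List.countP_eq_length_filter]
    rfl
  rw [h1]
  have h2 : (((wr l).filter fun z => z.1 == a).map Prod.snd).Nodup := by
    refine List.Nodup.map_on ?_ (hN.filter _)
    intro z hz z' hz' he
    rw [List.mem_filter] at hz hz'
    have e1 : z.1 = a := by simpa using hz.2
    have e2 : z'.1 = a := by simpa using hz'.2
    exact Prod.ext (e1.trans e2.symm) he
  have h3 : ((wr l).filter fun z => z.1 == a).map Prod.snd ⊆ List.range Λ := by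
    intro k hk
    obtain ⟨z, hz, rfl⟩ := List.mem_map.1 hk
    rw [List.mem_filter] at hz
    exact List.mem_range.2 (hL z hz.1)
  have h4 := (h2.subperm h3).length_le
  simpa using h4

/-! ### lanes -/

theorem mem_wr_fwd {z0 : Cel} {zs : List Cel} {z : Cel} (h : z ∈ wr (fwd z0 zs)) :
    ∃ y ∈ zs, z = y ∨ z = (y.1, y.2 + 1) := by
  induction zs generalizing z0 with
  | nil => simp [fwd, wr] at h
  | cons y zs ih =>
    rw [fwd_cons, wr_append, List.mem_append] at h
    rcases h with h | h
    · refine ⟨y, by simp, ?_⟩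
      simp only [cp, wr, List.filterMap_cons, Option.map_some, List.filterMap_nil,
        List.mem_cons, List.not_mem_nil, or_false] at h
      rcases h with h | h
      · exact .inr h
      · exact .inl h
    · obtain ⟨u, hu, hz⟩ := ih h
      exact ⟨u, List.mem_cons_of_mem _ hu, hz⟩

theorem wr_bwd (z0 : Cel) (zs : List Cel) : wr (bwd z0 zs) = [] := by
  unfold wr bwd
  rw [List.filterMap_eq_nil_iff]
  intro s hs
  simp only [List.mem_reverse, List.mem_map] at hs
  obtain ⟨z, -, rfl⟩ := hs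
  rfl

theorem mem_wr_prog {nT : ℕ} {θ hp : List ℕ} {n : ℕ} {ops : List (ℕ × ℕ × ℕ)} {W : List Wir}
    {z : Cel} (h : z ∈ wr (prog nT θ hp n ops W)) :
    (∃ t < n + ops.length, z = (home nT θ hp t, 0)) ∨
    ∃ w ∈ W, w.2.1.1 < n + ops.length ∧ ∃ y ∈ cells nT θ w, z = y ∨ z = (y.1, y.2 + 1) := by
  unfold prog at h
  rw [wr_flatMap, List.mem_flatMap] at h
  obtain ⟨t, ht, h⟩ := h
  rw [List.mem_range] at ht
  unfold blockAt block at h
  have e : ∀ (s : Stp) (r : List Stp), wr (s :: r) = wr [s] ++ wr r := fun s r =>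
    wr_append [s] r
  rw [e, List.mem_append] at h
  rcases h with h | h
  · left
    refine ⟨t, ht, ?_⟩
    simpa [wr] using h
  · right
    rw [wr_flatMap, List.mem_flatMap] at h
    obtain ⟨zs, hzs, h⟩ := h
    obtain ⟨w, hw, rfl⟩ := List.mem_map.1 hzs
    rw [List.mem_filter] at hw
    have e1 : w.2.1.1 = t := by simpa using hw.2
    unfold cable at h
    rw [wr_append, wr_bwd, List.append_nil] at h
    obtain ⟨y, hy, hz⟩ := mem_wr_fwd h
    exact ⟨w, hw.1, by omega, y, hy, hz⟩

/-- lanes of the cells of a wire -/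
theorem cells_lane {nT : ℕ} {θ : List ℕ} {w : Wir} (hw : w.1 ≤ 3) {z : Cel}
    (h : z ∈ cells nT θ w) :
    z.2 < 25 ∨ (z.2 = 26 ∧ w.1 = 3 ∧ z.1 = ad nT θ (w.2.2.2.getLastD 0) 0) := by
  unfold cells at h
  simp only [List.mem_append, List.mem_map, List.mem_reverse] at h
  rcases h with ((h | h) | h) | h
  · obtain ⟨a, -, rfl⟩ := h
    left; simp only [lU]; omega
  · obtain ⟨a, -, rfl⟩ := h
    left; simp only [lX]; omega
  · obtain ⟨a, -, rfl⟩ := h
    left; simp only [lD]; omega
  · by_cases h3 : w.1 = 3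
    · rw [if_pos h3, List.mem_singleton] at h
      subst h
      exact .inr ⟨rfl, h3, rfl⟩
    · rw [if_neg h3] at h
      simp at h

theorem lane_prog {nT : ℕ} {θ hp : List ℕ} {n : ℕ} {ops : List (ℕ × ℕ × ℕ)} {W : List Wir}
    (hc : ∀ w ∈ W, w.1 ≤ 3) {z : Cel} (h : z ∈ wr (prog nT θ hp n ops W)) : z.2 < 28 := by
  rcases mem_wr_prog h with ⟨t, -, rfl⟩ | ⟨w, hw, -, y, hy, hz⟩
  · simp
  · have := cells_lane (hc w hw) hy
    rcases hz with rfl | rfl
    · omega
    · show y.2 + 1 < 28
      omega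

/-- the output lane is only used at the homes of the targets of class 3 -/
theorem out_prog {nT : ℕ} {θ hp : List ℕ} {n : ℕ} {ops : List (ℕ × ℕ × ℕ)} {W : List Wir}
    (hc : ∀ w ∈ W, w.1 ≤ 3) (hl : ∀ w ∈ W, w.2.2.2.getLastD 0 = hp.getD w.2.1.2 0)
    (h3 : ∀ w ∈ W, w.1 = 3 → w.2.1.2 < n) {z : Cel}
    (h : z ∈ wr (prog nT θ hp n ops W)) (hz : z.2 = lOut) : ∃ j < n, z.1 = home nT θ hp j := by
  rcases mem_wr_prog h with ⟨t, -, rfl⟩ | ⟨w, hw, -, y, hy, hy'⟩
  · simp [lOut] at hz
  · have := cells_lane (hc w hw) hy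
    rcases hy' with rfl | rfl
    · rcases this with h1 | ⟨-, h2, h4⟩
      · simp only [lOut] at hz; omega
      · refine ⟨w.2.1.2, h3 w hw h2, ?_⟩
        rw [h4, hl w hw]
        rfl
    · simp only [lOut] at hz
      omega

/-- **number of visits of one program** -/
theorem cnt_prog_le (a nT : ℕ) (θ hp : List ℕ) (n : ℕ) (ops : List (ℕ × ℕ × ℕ)) (W : List Wir)
    (hθ : θ ≠ []) (hh : ∀ w ∈ W, w.2.2.2.headD 0 = hp.getD w.2.1.1 0) (hc : ∀ w ∈ W, w.1 ≤ 3)
    (hN : (wr (prog nT θ hp n ops W)).Nodup) : cnt a (prog nT θ hp n ops W) ≤ 56 := by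
  have h1 := cnt_prog a nT θ hp n ops W hθ hh
  have h2 := wcnt_le a 28 _ hN fun z hz => lane_prog hc hz
  omega

/-! ### both programs -/

/-- addresses of a common walk -/
def adN (l : List Stp2) (fin : ℕ) : List ℕ := l.map Prod.fst ++ [fin]

theorem cnt_both (a : ℕ) (S r P : List Stp) (fin : ℕ) :
    (adN (both S r P) fin).count a = cnt a S + cnt a r + cnt a P + [fin].count a := by
  unfold adN both cnt
  simp only [List.map_append, List.map_map, List.count_append]
  rfl

theorem cnt_retw (a nT : ℕ) (θ hp : List ℕ) (m : ℕ)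
    (hN : ((hp.take m).map fun v => ad nT θ v 0).Nodup) : cnt a (retw nT θ hp m) ≤ 1 := by
  unfold cnt retw
  rw [List.map_reverse, List.count_reverse, List.map_map]
  exact List.nodup_iff_count_le_one.1 hN a

/-- **at most 114 visits of an address in the common walk** -/
theorem cnt_both_le (a nT : ℕ) (θ hp : List ℕ) (n : ℕ) (ops ops' : List (ℕ × ℕ × ℕ))
    (W W' : List Wir) (m fin : ℕ) (hθ : θ ≠ [])
    (hh : ∀ w ∈ W, w.2.2.2.headD 0 = hp.getD w.2.1.1 0) (hc : ∀ w ∈ W, w.1 ≤ 3)
    (hN : (wr (prog nT θ hp n ops W)).Nodup)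
    (hh' : ∀ w ∈ W', w.2.2.2.headD 0 = hp.getD w.2.1.1 0) (hc' : ∀ w ∈ W', w.1 ≤ 3)
    (hN' : (wr (prog nT θ hp n ops' W')).Nodup)
    (hm : ((hp.take m).map fun v => ad nT θ v 0).Nodup) :
    (adN (both (prog nT θ hp n ops W) (retw nT θ hp m) (prog nT θ hp n ops' W')) fin).count a
      ≤ 114 := by
  rw [cnt_both]
  have h1 := cnt_prog_le a nT θ hp n ops W hθ hh hc hN
  have h2 := cnt_prog_le a nT θ hp n ops' W' hθ hh' hc' hN'
  have h3 := cnt_retw a nT θ hp m hm
  have h4 : [fin].count a ≤ 1 := List.count_le_length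
  omega

end Crest.Agent.R289.LayN873
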