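import Mathlib
import Crest.Agent.R289.LayRun_109
import Crest.Agent.R289.LayN_873

/-!
# Row 289, block C: adjacency of consecutive addresses and of argument cells
-/

set_option autoImplicit false

namespace Crest.Agent.R289.Layout109

section
variable {nP nT : ℕ} {E : ℕ → ℕ → Prop} {θ hp : List ℕ} {W W' : List Wir} {w : Wir}
  {R : ℕ → ℕ → Prop} {n : ℕ} {ops ops' : List (ℕ × ℕ × ℕ)}

theorem wr_eq_wrs (l : List Stp) : LayN873.wr l = wrs l := rfl

/-- arguments of the writing part of a cable -/
theorem arg_fwd (hr : ∀ a, R a a) (hs : ∀ a b, R a b → R b a) (z0 : Cel) (zs : List Cel) (b : ℕ)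
    (h : Wk R z0.1 (zs.map Prod.fst) b) {a l : ℕ} {c1 c2 : Cel}
    (hm : (a, some (l, some (c1, c2))) ∈ fwd z0 zs) : R a c1.1 ∧ R a c2.1 := by
  induction zs generalizing z0 with
  | nil => simp at hm
  | cons z zs ih =>
    rw [fwd_cons, List.mem_append] at hm
    rcases hm with hm | hm
    · simp only [cp, List.mem_cons, Prod.mk.injEq, Option.some.injEq, List.not_mem_nil,
        or_false] at hm
      rcases hm with ⟨rfl, _, rfl, rfl⟩ | ⟨rfl, _, rfl, rfl⟩
      · exact ⟨hs _ _ h.1, hs _ _ h.1⟩
      · exact ⟨hr _, hr _⟩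
    · exact ih z h.2 hm

theorem no_arg_bwd (z0 : Cel) (zs : List Cel) {a l : ℕ} {o : OpN}
    (hm : (a, some (l, o)) ∈ bwd z0 zs) : False := by
  simp only [bwd, List.mem_reverse, List.mem_map] at hm
  obtain ⟨z, _, e⟩ := hm
  simp at e

/-- (c) the argument cells of an instruction are adjacent to its address -/
theorem arg_prog (hA : Adj nP nT E θ hp R) (hW : WOK nP E θ hp W) {a l : ℕ} {c1 c2 : Cel}
    (hm : (a, some (l, some (c1, c2))) ∈ prog nT θ hp n ops W) : R a c1.1 ∧ R a c2.1 := by
  unfold prog at hm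
  rw [List.mem_flatMap] at hm
  obtain ⟨t, _, hm⟩ := hm
  unfold blockAt block at hm
  rw [List.mem_cons, List.mem_flatMap] at hm
  rcases hm with hm | ⟨zs, hzs, hm⟩
  · simp only [Prod.mk.injEq, Option.some.injEq] at hm
    obtain ⟨rfl, rfl, hg⟩ := hm
    unfold gop at hg
    split_ifs at hg
    · simp only [Option.some.injEq, Prod.mk.injEq] at hg
      obtain ⟨rfl, rfl⟩ := hg
      exact ⟨hA.refl _, hA.refl _⟩
    · simp only [Option.some.injEq, Prod.mk.injEq] at hg
      obtain ⟨rfl, rfl⟩ := hg
      exact ⟨hA.refl _, hA.refl _⟩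
  · simp only [List.mem_map, List.mem_filter, beq_iff_eq] at hzs
    obtain ⟨w, ⟨hw, e⟩, rfl⟩ := hzs
    subst e
    unfold cable at hm
    rw [List.mem_append] at hm
    rcases hm with hm | hm
    · obtain ⟨b, hb⟩ := Wk_cells hA (hW.ok w hw)
      exact arg_fwd hA.refl hA.symm (home nT θ hp w.2.1.1, 0) _ b hb hm
    · exact (no_arg_bwd _ _ hm).elim

/-- (b) the common walk -/
theorem Wk_both (hA : Adj nP nT E θ hp R) (hW : WOK nP E θ hp W) (hW' : WOK nP E θ hp W')
    (h : n + ops.length ≤ hp.length) (h' : n + ops'.length ≤ hp.length) :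
    Wk R (home nT θ hp 0)
      ((both (prog nT θ hp n ops W) (retw nT θ hp (n + ops.length))
        (prog nT θ hp n ops' W')).map Prod.fst)
      (home nT θ hp (n + ops'.length - 1)) := by
  have e : (both (prog nT θ hp n ops W) (retw nT θ hp (n + ops.length))
      (prog nT θ hp n ops' W')).map Prod.fst =
      (prog nT θ hp n ops W).map Prod.fst ++ (retw nT θ hp (n + ops.length)).map Prod.fst ++
        (prog nT θ hp n ops' W').map Prod.fst := by
    unfold both
    simp only [List.map_append, List.map_map, Function.comp_def]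
  rw [e]
  exact ((Wk_prog hA hW _ h).append (Wk_ret hA _ h)).append (Wk_prog hA hW' _ h')

/-- (b) consecutive addresses of the common walk are adjacent; last address = last home -/
theorem chain_both (hA : Adj nP nT E θ hp R) (hW : WOK nP E θ hp W) (hW' : WOK nP E θ hp W')
    (h : n + ops.length ≤ hp.length) (h' : n + ops'.length ≤ hp.length) :
    (LayN873.adN (both (prog nT θ hp n ops W) (retw nT θ hp (n + ops.length))
        (prog nT θ hp n ops' W')) (home nT θ hp (n + ops'.length - 1))).IsChain R := by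
  have := Wk_both hA hW hW' h h'
  have h2 : Wk R (home nT θ hp (n + ops'.length - 1))
      [home nT θ hp (n + ops'.length - 1)] (home nT θ hp (n + ops'.length - 1)) :=
    ⟨hA.refl _, rfl⟩
  exact List.IsChain.tail (this.append h2).isChain

/-- all addresses of a program: every address is `v * nT + θ_i` -/
theorem adr_prog (hG : Geo nP nT θ hp) (hW : WOK nP E θ hp W)
    (hlen : n + ops.length ≤ hp.length) {a : ℕ}
    (ha : a ∈ (prog nT θ hp n ops W).map Prod.fst) : a < nP * nT := by
  have hgt : ∀ i < hp.length, hp.getD i 0 < nP := by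
    intro i hi
    rw [List.getD_eq_getElem _ _ hi]
    exact hG.hlt _ (List.getElem_mem hi)
  have hmul : ∀ v < nP, ∀ b < nT, v * nT + b < nP * nT := by
    intro v hv b hb
    calc v * nT + b < v * nT + nT := by omega
      _ = (v + 1) * nT := by ring
      _ ≤ nP * nT := Nat.mul_le_mul_right _ hv
  have hhome : ∀ t < n + ops.length, home nT θ hp t < nP * nT := fun t ht =>
    hmul _ (hgt t (by omega)) _ (hG.getD_lt hG.θpos)
  have hcell : ∀ w ∈ W, ∀ z ∈ cells nT θ w, z.1 < nP * nT := by
    intro w hw z hz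
    have hw' := hW.ok w hw
    have k := hw'.col
    rw [mem_cells hw'.col, hw'.headD, hw'.lastD] at hz
    rcases hz with ⟨i, hi, rfl⟩ | ⟨v, hv, rfl⟩ | ⟨i, hi, rfl⟩ | ⟨_, rfl⟩
    · exact hmul _ (hgt _ hw'.src) _ (hG.getD_lt (by omega))
    · exact hmul _ (hw'.lt v hv) _ (hG.getD_lt k)
    · exact hmul _ (hgt _ hw'.tgt) _ (hG.getD_lt (by omega))
    · exact hmul _ (hgt _ hw'.tgt) _ (hG.getD_lt hG.θpos)
  have hfwd : ∀ (z0 : Cel) (zs : List Cel), (∀ z ∈ zs, z.1 < nP * nT) →
      ∀ s ∈ fwd z0 zs, s.1 < nP * nT := by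
    intro z0 zs
    induction zs generalizing z0 with
    | nil => intro _ s hs; simp at hs
    | cons z zs ih =>
      intro h s hs
      rw [fwd_cons, List.mem_append] at hs
      rcases hs with hs | hs
      · simp only [cp, List.mem_cons, List.not_mem_nil, or_false] at hs
        rcases hs with rfl | rfl <;> exact h z List.mem_cons_self
      · exact ih z (fun y hy => h y (List.mem_cons_of_mem _ hy)) s hs
  rw [List.mem_map] at ha
  obtain ⟨s, hs, rfl⟩ := ha
  unfold prog at hs
  rw [List.mem_flatMap] at hs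
  obtain ⟨t, ht, hs⟩ := hs
  rw [List.mem_range] at ht
  unfold blockAt block at hs
  rw [List.mem_cons, List.mem_flatMap] at hs
  rcases hs with rfl | ⟨zs, hzs, hs⟩
  · exact hhome t ht
  · simp only [List.mem_map, List.mem_filter, beq_iff_eq] at hzs
    obtain ⟨w, ⟨hw, e⟩, rfl⟩ := hzs
    unfold cable at hs
    rw [List.mem_append] at hs
    rcases hs with hs | hs
    · exact hfwd _ _ (hcell w hw) s hs
    · simp only [bwd, List.mem_reverse, List.mem_map, List.mem_cons] at hs
      obtain ⟨z, hz, rfl⟩ := hs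
      rcases hz with rfl | hz
      · exact hhome t ht
      · exact hcell w hw z hz

theorem adr_both (hG : Geo nP nT θ hp) (hW : WOK nP E θ hp W) (hW' : WOK nP E θ hp W')
    (h : n + ops.length ≤ hp.length) (h' : n + ops'.length ≤ hp.length) {a : ℕ}
    (ha : a ∈ (both (prog nT θ hp n ops W) (retw nT θ hp (n + ops.length))
        (prog nT θ hp n ops' W')).map Prod.fst) : a < nP * nT := by
  unfold both at ha
  simp only [List.map_append, List.map_map, Function.comp_def, List.mem_append] at ha
  rcases ha with (ha | ha) | ha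
  · exact adr_prog hG hW h ha
  · simp only [retw, List.map_reverse, List.map_map, List.mem_reverse, List.mem_map] at ha
    obtain ⟨v, hv, rfl⟩ := ha
    have hv' := hG.hlt v (List.mem_of_mem_take hv)
    have h0 := hG.getD_lt hG.θpos
    show v * nT + θ.getD 0 0 < nP * nT
    calc v * nT + θ.getD 0 0 < v * nT + nT := by omega
      _ = (v + 1) * nT := by ring
      _ ≤ nP * nT := Nat.mul_le_mul_right _ hv'
  · exact adr_prog hG hW' h' ha

end

end Crest.Agent.R289.Layout109
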