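import Crest.Agent.R289.LayNet_896
import Crest.Agent.R289.LayRun_109

/-!
# Row 289, block C, C_REAL assembly part 2 (helper896): homes, line and adjacency hypotheses of 109

For two groups with numberings and letters satisfying `Route649.Hyp`, the Hamiltonian orders
`θ = ham n2`, `hp = ham n1` satisfy `Layout109.Geo`, and `Rel` satisfies `Layout109.Adj` with the
one-letter edges of the routes.
-/

set_option autoImplicit false
set_option linter.dupNamespace false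
set_option linter.unusedSectionVars false

namespace Crest.Agent.R289.LayNet896

open Crest.Agent.R289

/-- the routing hypotheses contain connectivity -/
theorem hyp_conn {n d l : ℕ} {nb : ℕ → ℕ → ℕ} {wd : List (List ℕ)}
    (H : Route649.Hyp n d l nb wd) (hn : 0 < n) (T : ℕ → Prop) (h0 : T 0)
    (hT : ∀ v, v < n → T v → ∀ g, g < d → T (nb v g)) : ∀ v, v < n → T v := by
  have hlt : ∀ (w : List ℕ), (∀ g ∈ w, g < d) → w.foldl nb 0 < n ∧ T (w.foldl nb 0) := by
    intro w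
    induction w using List.reverseRecOn with
    | nil => intro _; exact ⟨hn, h0⟩
    | append_singleton w g ih =>
      intro hw
      obtain ⟨h1, h2⟩ := ih fun g hg => hw g (by simp [hg])
      rw [List.foldl_append]
      simp only [List.foldl_cons, List.foldl_nil]
      exact ⟨H.lt _ h1 _ (hw g (by simp)), hT _ h1 h2 _ (hw g (by simp))⟩
  have hw : ∀ i < n, ∀ g ∈ wd.getD i [], g < d := by
    intro i hi
    rw [List.getD_eq_getElem _ _ (by rw [H.len]; exact hi)]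
    exact H.wlt _ (List.getElem_mem _)
  let f : Fin n → Fin n := fun i => ⟨(wd.getD i []).foldl nb 0, (hlt _ (hw i i.2)).1⟩
  have hf : Function.Injective f := by
    intro i j h
    have h' := congrArg Fin.val h
    exact Fin.ext (H.winj 0 hn i i.2 j j.2 h')
  have hs := Finite.injective_iff_surjective.1 hf
  intro v hv
  obtain ⟨i, hi⟩ := hs ⟨v, hv⟩
  have h' := congrArg Fin.val hi
  have h2 := (hlt _ (hw i i.2)).2
  have h3 : (wd.getD i []).foldl nb 0 = v := h'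
  rwa [h3] at h2

/-- the Hamiltonian order of a graph with the routing hypotheses -/
theorem ham_of_hyp {n d l : ℕ} {nb : ℕ → ℕ → ℕ} {wd : List (List ℕ)}
    (H : Route649.Hyp n d l nb wd) (hn : 0 < n) :
    (Ham613.ham n d nb).length = n ∧ (Ham613.ham n d nb).Nodup ∧
      (Ham613.ham n d nb).head? = some 0 ∧
      (Ham613.ham n d nb).IsChain (Tour594.Adj ((d + 1) ^ 3) (Ham613.nb3 d nb)) ∧
      ∀ v, v ∈ Ham613.ham n d nb ↔ v < n :=
  Ham613.ham_spec hn (fun v hv g hg => H.lt v hv g hg)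
    (fun v hv g hg => by obtain ⟨g', h1, h2⟩ := H.sym v hv g hg; exact ⟨g', h1, h2⟩)
    (fun T h0 hT => hyp_conn H hn T h0 hT)

/-- consecutive elements of a chain -/
theorem chain_getD {R : ℕ → ℕ → Prop} {l : List ℕ} (h : l.IsChain R) {i : ℕ}
    (hi : i + 1 < l.length) : R (l.getD i 0) (l.getD (i + 1) 0) := by
  have h1 := List.isChain_iff_getElem.1 h i hi
  rw [List.getD_eq_getElem _ _ (by omega), List.getD_eq_getElem _ _ hi]
  exact h1

/-- adjacency of address numbers, reflexive and symmetric on all numbers -/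
def Rel (d n1 n2 : ℕ) (nb1 nb2 : ℕ → ℕ → ℕ) (a b : ℕ) : Prop :=
  a = b ∨ (a < n1 * n2 ∧ b < n1 * n2 ∧ A d n2 nb1 nb2 a b)

section

variable {d n1 n2 l1 l2 : ℕ} {nb1 nb2 : ℕ → ℕ → ℕ} {w1 w2 : List (List ℕ)}
variable {P R : Type} [Group P] [Group R] {S1 : ℕ → P} {S2 : ℕ → R}
  (e1 : P ≃ Fin n1) (e2 : R ≃ Fin n2)

/-- a step of numbers is a step of addresses -/
theorem Rel.act (h1 : ∀ g < d, ∀ x : P, nb1 (e1 x) g = e1 (S1 g * x))
    (h2 : ∀ g < d, ∀ x : R, nb2 (e2 x) g = e2 (S2 g * x)) {a b : ℕ}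
    (h : Rel d n1 n2 nb1 nb2 a b) :
    ∃ g : Nm d, LayNet896.act S1 S2 d g (adr e1 e2 a) = adr e1 e2 b := by
  rcases h with rfl | ⟨ha, -, h⟩
  · exact ⟨default, act_default S1 S2 d _⟩
  · exact A.act e1 e2 h1 h2 ha h

theorem mul_add_lt {v θ : ℕ} (hv : v < n1) (hθ : θ < n2) : v * n2 + θ < n1 * n2 := by
  calc v * n2 + θ < v * n2 + n2 := by omega
    _ = (v + 1) * n2 := by ring
    _ ≤ n1 * n2 := Nat.mul_le_mul_right _ hv

/-- **the geometric hypotheses of 109** -/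
theorem geo_ham (H1 : Route649.Hyp n1 d l1 nb1 w1) (H2 : Route649.Hyp n2 d l2 nb2 w2)
    (hn1 : 0 < n1) (hn2 : 0 < n2) :
    Layout109.Geo n1 n2 (Ham613.ham n2 d nb2) (Ham613.ham n1 d nb1) := by
  obtain ⟨a1, a2, -, -, a5⟩ := ham_of_hyp H1 hn1
  obtain ⟨b1, b2, -, -, b5⟩ := ham_of_hyp H2 hn2
  exact ⟨by rw [b1]; exact hn2, fun a ha => (b5 a).1 ha, b2, a2, fun v hv => (a5 v).1 hv⟩

include e1 e2 in
/-- **the adjacency hypotheses of 109** -/
theorem adj_ham (H1 : Route649.Hyp n1 d l1 nb1 w1) (H2 : Route649.Hyp n2 d l2 nb2 w2)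
    (hn1 : 0 < n1) (hn2 : 0 < n2)
    (h1 : ∀ g < d, ∀ x : P, nb1 (e1 x) g = e1 (S1 g * x))
    (h2 : ∀ g < d, ∀ x : R, nb2 (e2 x) g = e2 (S2 g * x))
    (i1 : ∀ g < d, ∃ g' < d, S1 g' = (S1 g)⁻¹) (i2 : ∀ g < d, ∃ g' < d, S2 g' = (S2 g)⁻¹) :
    Layout109.Adj n1 n2 (Tour594.Adj d nb1) (Ham613.ham n2 d nb2) (Ham613.ham n1 d nb1)
      (Rel d n1 n2 nb1 nb2) := by
  obtain ⟨a1, a2, -, a4, a5⟩ := ham_of_hyp H1 hn1
  obtain ⟨b1, b2, -, b4, b5⟩ := ham_of_hyp H2 hn2
  have hθ : ∀ i < (Ham613.ham n2 d nb2).length, (Ham613.ham n2 d nb2).getD i 0 < n2 := by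
    intro i hi
    rw [List.getD_eq_getElem _ _ hi]
    exact (b5 _).1 (List.getElem_mem _)
  have hh : ∀ i < (Ham613.ham n1 d nb1).length, (Ham613.ham n1 d nb1).getD i 0 < n1 := by
    intro i hi
    rw [List.getD_eq_getElem _ _ hi]
    exact (a5 _).1 (List.getElem_mem _)
  refine ⟨fun a => Or.inl rfl, ?_, ?_, ?_, ?_⟩
  · rintro a b (rfl | ⟨ha, hb, h⟩)
    · exact Or.inl rfl
    · exact Or.inr ⟨hb, ha, A.symm e1 e2 h1 h2 i1 i2 ha h⟩
  · intro v hv i hi
    have t1 := hθ i (by omega)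
    have t2 := hθ (i + 1) hi
    exact Or.inr ⟨mul_add_lt hv t1, mul_add_lt hv t2,
      A.pos e1 e2 h1 h2 hv t1 (chain_getD b4 hi)⟩
  · intro u hu v hv huv k hk
    have t1 := hθ k hk
    exact Or.inr ⟨mul_add_lt hu t1, mul_add_lt hv t1,
      A.place e1 e2 h1 h2 hu t1 (adj_of_letter huv)⟩
  · intro t ht
    have t1 := hθ 0 (by rw [b1]; exact hn2)
    have s1 := hh t (by omega)
    have s2 := hh (t + 1) ht
    exact Or.inr ⟨mul_add_lt s1 t1, mul_add_lt s2 t1,
      A.place e1 e2 h1 h2 s1 t1 (chain_getD a4 ht)⟩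

end

end Crest.Agent.R289.LayNet896
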