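import Crest.Agent.R289.DefC_143

/-!
# Row 289, block C: value lemma for layouts

If every instruction of a program has an expected value (input: the name bit, constant: the constant,
NAND: computed from the expected values of two earlier instructions which write the argument cells),
then after the run every written cell holds the expected value.
-/

set_option autoImplicit false

namespace Crest.Agent.R289.LayVal436

open Crest.Agent.R289.DefC

variable {Γ G Λ : Type} {J : ℕ}

section defs
variable (act : G → Equiv.Perm Γ) (P : Layout Γ G Λ J)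

/-- instruction `s'` of program `c` writes lane `l` of address `a` -/
def Writes (c : Bool) (s' : ℕ) (a : Γ) (l : Λ) : Prop :=
  (∃ k, P.ins c s' = some (l, k)) ∧ (P.vis s').1 = a

/-- `E s` is the right value for the operation `k` executed at visit `s` -/
def Good (c : Bool) (x : Γ → Bool) (E : ℕ → Bool) (s : ℕ) : Op G Λ → Prop
  | .inp => E s = x (P.vis s).1
  | .cst b => E s = b
  | .nand g1 l1 g2 l2 => ∃ s1 s2, s1 < s ∧ s2 < s ∧ Writes P c s1 (act g1 (P.vis s).1) l1 ∧
      Writes P c s2 (act g2 (P.vis s).1) l2 ∧ E s = !(E s1 && E s2)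

/-- `E` = expected values of program `c` on name word `x` -/
def Expect (c : Bool) (x : Γ → Bool) (E : ℕ → Bool) : Prop :=
  ∀ s < P.L, ∀ l k, P.ins c s = some (l, k) → Good act P c x E s k

/-- every cell is written at most once by program `c` -/
def Once (c : Bool) : Prop :=
  ∀ s t l k k', s < P.L → t < P.L → P.ins c s = some (l, k) → P.ins c t = some (l, k') →
    (P.vis s).1 = (P.vis t).1 → s = t

/-- the `arg` clause of `Layout.OK` follows from expected values -/
theorem arg_of_expect {c : Bool} {x : Γ → Bool} {E : ℕ → Bool} (hE : Expect act P c x E)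
    {s : ℕ} {l : Λ} {g1 : G} {l1 : Λ} {g2 : G} {l2 : Λ} (hs : s < P.L)
    (h : P.ins c s = some (l, Op.nand g1 l1 g2 l2)) :
    (∃ s' < s, ∃ k, P.ins c s' = some (l1, k) ∧ (P.vis s').1 = act g1 (P.vis s).1) ∧
    (∃ s' < s, ∃ k, P.ins c s' = some (l2, k) ∧ (P.vis s').1 = act g2 (P.vis s).1) := by
  obtain ⟨s1, s2, h1, h2, ⟨⟨k1, e1⟩, f1⟩, ⟨⟨k2, e2⟩, f2⟩, -⟩ := hE s hs l _ h
  exact ⟨⟨s1, h1, k1, e1, f1⟩, ⟨s2, h2, k2, e2, f2⟩⟩

end defs

section run
variable [DecidableEq Γ] [DecidableEq Λ] {act : G → Equiv.Perm Γ} {P : Layout Γ G Λ J}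
  {c : Bool} {x : Γ → Bool} {E : ℕ → Bool}

/-- a written cell holds the expected value -/
theorem run_eq (hO : Once P c) (hE : Expect act P c x E) :
    ∀ t ≤ P.L, ∀ s < t, ∀ l k, P.ins c s = some (l, k) →
      Layout.run act P c x t (P.vis s).1 l = E s := by
  intro t
  induction t with
  | zero => intro _ s hs; omega
  | succ t ih =>
    intro ht s hs l k hk
    have ih' := ih (by omega)
    rcases Nat.lt_succ_iff_lt_or_eq.1 hs with hlt | heq
    · have hv := ih' s hlt l k hk
      rw [Layout.run]
      cases hi : P.ins c t with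
      | none => exact hv
      | some lk =>
        obtain ⟨l', k'⟩ := lk
        simp only
        rw [if_neg]
        · exact hv
        · rintro ⟨ha, hl⟩
          subst hl
          have := hO s t l' k k' (by omega) (by omega) hk hi ha.symm
          omega
    · subst heq
      rw [Layout.run]
      rw [hk]
      simp only [and_self, if_true]
      have hg := hE s (by omega) l k hk
      cases k with
      | inp => exact hg.symm
      | cst b => exact hg.symm
      | nand g1 l1 g2 l2 =>
        obtain ⟨s1, s2, h1, h2, ⟨⟨k1, e1⟩, f1⟩, ⟨⟨k2, e2⟩, f2⟩, hv⟩ := hg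
        have v1 := ih' s1 h1 l1 k1 e1
        have v2 := ih' s2 h2 l2 k2 e2
        rw [f1] at v1
        rw [f2] at v2
        simp only [Op.eval]
        rw [v1, v2, hv]

/-- a cell that no instruction writes stays `false` -/
theorem run_unwritten (t : ℕ) (a : Γ) (l : Λ) (h : ∀ s < t, ¬ Writes P c s a l) :
    Layout.run act P c x t a l = false := by
  induction t with
  | zero => rfl
  | succ t ih =>
    have ih' := ih (fun s hs => h s (by omega))
    rw [Layout.run]
    cases hi : P.ins c t with
    | none => exact ih'
    | some lk =>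
      obtain ⟨l', k'⟩ := lk
      simp only
      rw [if_neg]
      · exact ih'
      · rintro ⟨ha, hl⟩
        subst hl
        exact h t (by omega) ⟨⟨k', hi⟩, ha⟩

end run

section outp
variable [DecidableEq Γ] [DecidableEq Λ] {act : G → Equiv.Perm Γ} {out : Λ} {P : Layout Γ G Λ J}

/-- the name word at a name address -/
theorem nm_al (hP : Function.Injective P.al) (v : Fin P.n → Bool) (i : Fin P.n) :
    P.nm v (P.al i) = v i := by
  unfold Layout.nm
  by_cases h : v i = true
  · rw [h]
    exact decide_eq_true ⟨i, rfl, h⟩
  · rw [Bool.not_eq_true] at h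
    rw [h]
    refine decide_eq_false ?_
    rintro ⟨j, hj, hv⟩
    have := hP hj
    subst this
    rw [h] at hv
    exact Bool.false_ne_true hv

/-- the name word outside the name addresses -/
theorem nm_of_not (v : Fin P.n → Bool) (a : Γ) (h : ∀ i, P.al i ≠ a) : P.nm v a = false := by
  unfold Layout.nm
  refine decide_eq_false ?_
  rintro ⟨j, hj, -⟩
  exact h j hj

/-- the output of a program from the expected values of the output cells -/
theorem outp_eq {c : Bool} {v : Fin P.n → Bool} {E : ℕ → Bool} {y : Fin P.n → Bool}
    (hO : Once P c) (hE : Expect act P c (P.nm v) E)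
    (h : ∀ i, ∃ s < P.L, ∃ k, P.ins c s = some (out, k) ∧ (P.vis s).1 = P.al i ∧ E s = y i) :
    P.outp act out c v = y := by
  funext i
  obtain ⟨s, hs, k, hk, ha, hv⟩ := h i
  unfold Layout.outp
  rw [← ha, run_eq hO hE P.L le_rfl s hs out k hk, hv]

end outp

end Crest.Agent.R289.LayVal436
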