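import Mathlib
import Crest.Agent.R289.LayDef_109
import Crest.Agent.R289.LayA_873
import Crest.Agent.R289.LayVal_436

/-!
# Row 289, block C, C_REAL: from number-level programs to `DefC.Layout`

* `mkL_ok` : `Layout.OK` of the layout `mkL` (LayA_873) from: chain of steps, number of visits,
  written cells, justified values, output cells.
* number level (LayDef_109): `wr` = written cells of a program, `AnN` / `GoodN` = annotated steps
  with absolute cells, `strip`.
* `cv` : `Stp2 → Vs`; `lay` : the layout of a list of steps; `lay_ok`, `lay_run`, `lay_outp`.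
-/

set_option autoImplicit false
set_option linter.unusedSectionVars false

namespace Crest.Agent.R289.LayCv338

open Crest.Agent.R289.DefC
open Crest.Agent.R289.LayA873 (Vs An Ann Adj stp stp_spec mkL adr fact Just Good)
open Crest.Agent.R289.Layout109 (Cel OpN Stp Stp2 both lOut)

/-! ### the layout `mkL` -/

section ok

variable {Γ G Λ : Type} [DecidableEq Γ] [DecidableEq Λ]
variable {act : G → Equiv.Perm Γ} {gs : List G} {g0 : G} {J : ℕ} {pr : List (Vs Γ G Λ)} {fin : Γ}
  {n : ℕ} {al : Fin n → Γ}

theorem adr_length : (adr pr fin).length = pr.length + 1 := by simp [adr]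

theorem getD_adr {s : ℕ} (hs : s ≤ pr.length) :
    (adr pr fin)[s]? = some ((adr pr fin).getD s fin) := by
  have h : s < (adr pr fin).length := by rw [adr_length]; omega
  rw [List.getD_eq_getElem?_getD, List.getElem?_eq_getElem h]
  rfl

theorem count_take_lt {α : Type} [DecidableEq α] {l : List α} {s : ℕ} {a : α}
    (h : l[s]? = some a) {t : ℕ} (ht : s < t) : (l.take s).count a < (l.take t).count a := by
  have hs : s < l.length := (List.getElem?_eq_some_iff.1 h).1
  have e : l[s] = a := (List.getElem?_eq_some_iff.1 h).2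
  have h1 : (l.take (s + 1)).count a = (l.take s).count a + 1 := by
    rw [List.take_succ_eq_append_getElem hs, List.count_append, e]
    simp
  have h2 : (l.take (s + 1)).count a ≤ (l.take t).count a := by
    refine List.Sublist.count_le _ ?_
    exact (List.take_prefix_take_left (by omega : s + 1 ≤ t)).sublist
  omega

theorem mkL_inj (hc : ∀ a, (adr pr fin).count a ≤ J + 1) (s t : ℕ)
    (hs : s ≤ pr.length) (ht : t ≤ pr.length)
    (h : (mkL act gs g0 J pr fin n al).vis s = (mkL act gs g0 J pr fin n al).vis t) : s = t := by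
  have h1 : (adr pr fin).getD s fin = (adr pr fin).getD t fin := congrArg Prod.fst h
  have h2 := congrArg Prod.snd h
  have lt : ∀ u, u ≤ pr.length →
      ((adr pr fin).take u).count ((adr pr fin).getD u fin) < J + 1 := by
    intro u hu
    have h3 := count_take_lt (getD_adr (fin := fin) hu) (t := (adr pr fin).length)
      (by rw [adr_length]; omega)
    rw [List.take_length] at h3
    exact lt_of_lt_of_le h3 (hc _)
  have h4 : ((adr pr fin).take s).count ((adr pr fin).getD s fin) =
      ((adr pr fin).take t).count ((adr pr fin).getD t fin) := by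
    have h5 := congrArg Fin.val h2
    simp only [mkL, Fin.ofNat_eq_cast, Fin.val_natCast] at h5
    rwa [Nat.mod_eq_of_lt (lt s hs), Nat.mod_eq_of_lt (lt t ht)] at h5
  rcases lt_trichotomy s t with h6 | h6 | h6
  · have h7 := count_take_lt (getD_adr (fin := fin) hs) h6
    rw [h1] at h4 h7
    omega
  · exact h6
  · have h7 := count_take_lt (getD_adr (fin := fin) ht) h6
    rw [← h1] at h4 h7
    omega

theorem mkL_step (hch : (adr pr fin).IsChain (Adj act gs)) (s : ℕ) (hs : s < pr.length) :
    ((mkL act gs g0 J pr fin n al).vis (s + 1)).1 =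
      act ((mkL act gs g0 J pr fin n al).dir s) ((mkL act gs g0 J pr fin n al).vis s).1 := by
  have h1 := getD_adr (fin := fin) (s := s) (by omega : s ≤ pr.length)
  have h2 := getD_adr (fin := fin) (s := s + 1) (by omega : s + 1 ≤ pr.length)
  have h3 : Adj act gs ((adr pr fin).getD s fin) ((adr pr fin).getD (s + 1) fin) := by
    have h4 := List.isChain_iff_getElem.1 hch s (by rw [adr_length]; omega)
    rw [List.getElem?_eq_getElem (by rw [adr_length]; omega)] at h1 h2
    rw [← Option.some.inj h1, ← Option.some.inj h2]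
    exact h4
  exact (stp_spec h3).symm

theorem cells_pairwise {c : Bool} (hN : (LayA873.cells c pr).Nodup) :
    pr.Pairwise fun v w => ∀ i, v.ins c = some i → ∀ j, w.ins c = some j →
      (v.1, i.1) ≠ (w.1, j.1) := by
  unfold LayA873.cells List.Nodup at hN
  rw [List.pairwise_filterMap] at hN
  refine hN.imp ?_
  intro v w h i hi j hj
  exact h _ (by simp [hi]) _ (by simp [hj])

theorem mkL_once {c : Bool} (hN : (LayA873.cells c pr).Nodup) (s t : ℕ) (l : Λ)
    (k k' : Op G Λ) (h1 : (mkL act gs g0 J pr fin n al).ins c s = some (l, k))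
    (h2 : (mkL act gs g0 J pr fin n al).ins c t = some (l, k'))
    (h3 : ((mkL act gs g0 J pr fin n al).vis s).1 = ((mkL act gs g0 J pr fin n al).vis t).1) :
    s = t := by
  obtain ⟨v, hv, iv⟩ := LayA873.ins_eq h1
  obtain ⟨w, hw, iw⟩ := LayA873.ins_eq h2
  have e1 : ((mkL act gs g0 J pr fin n al).vis s).1 = v.1 := LayA873.adr_getD hv
  have e2 : ((mkL act gs g0 J pr fin n al).vis t).1 = w.1 := LayA873.adr_getD hw
  rw [e1, e2] at h3
  have hP := List.pairwise_iff_getElem.1 (cells_pairwise hN)
  obtain ⟨ls, es⟩ := List.getElem?_eq_some_iff.1 hv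
  obtain ⟨lt, et⟩ := List.getElem?_eq_some_iff.1 hw
  rcases lt_trichotomy s t with h | h | h
  · have := hP s t ls lt h
    rw [es, et] at this
    exact absurd (by rw [h3]) (this (l, k) iv (l, k') iw)
  · exact h
  · have := hP t s lt ls h
    rw [es, et] at this
    exact absurd (by rw [h3]) (this (l, k') iw (l, k) iv)

/-- facts come from earlier visits -/
theorem fact_vis {c : Bool} {av : List (An Γ G Λ)} (hA : Ann c pr av) {s : ℕ} {a : Γ} {l : Λ}
    {w : Bool} (h : (a, l, w) ∈ fact (av.take s)) :
    ∃ s' < s, ∃ k, (mkL act gs g0 J pr fin n al).ins c s' = some (l, k) ∧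
      ((mkL act gs g0 J pr fin n al).vis s').1 = a := by
  obtain ⟨k, hk⟩ := h
  obtain ⟨s', hs', es⟩ := List.getElem_of_mem hk
  rw [List.getElem_take] at es
  have h1 : s' < s := by
    rw [List.length_take] at hs'
    omega
  have hA' := hA.index s'
  have es' : av[s']? = some (a, some (l, k, w)) := by
    rw [List.getElem?_eq_getElem (by rw [List.length_take] at hs'; omega), es]
  rw [es'] at hA'
  cases hp : pr[s']? with
  | none => rw [hp] at hA'; simp at hA'
  | some v =>
    rw [hp] at hA'
    simp only [Option.map_some, Option.some.injEq, An.strip, Prod.mk.injEq] at hA'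
    refine ⟨s', h1, k, ?_, ?_⟩
    · simp only [mkL, hp, Option.bind_some]
      exact hA'.2.symm
    · exact (LayA873.adr_getD hp).trans hA'.1.symm

theorem mkL_arg {c : Bool} {x : Γ → Bool} {av : List (An Γ G Λ)} (hA : Ann c pr av)
    (hG : Good act x ∅ av) (s : ℕ) (l : Λ) (g1 : G) (l1 : Λ) (g2 : G) (l2 : Λ)
    (h : (mkL act gs g0 J pr fin n al).ins c s = some (l, Op.nand g1 l1 g2 l2)) :
    (∃ s' < s, ∃ k, (mkL act gs g0 J pr fin n al).ins c s' = some (l1, k) ∧
      ((mkL act gs g0 J pr fin n al).vis s').1 =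
        act g1 ((mkL act gs g0 J pr fin n al).vis s).1) ∧
    (∃ s' < s, ∃ k, (mkL act gs g0 J pr fin n al).ins c s' = some (l2, k) ∧
      ((mkL act gs g0 J pr fin n al).vis s').1 =
        act g2 ((mkL act gs g0 J pr fin n al).vis s).1) := by
  obtain ⟨v, hv, iv⟩ := LayA873.ins_eq h
  have e1 : ((mkL act gs g0 J pr fin n al).vis s).1 = v.1 := LayA873.adr_getD hv
  have hi := hA.index s
  rw [hv] at hi
  cases hw : av[s]? with
  | none => rw [hw] at hi; simp at hi
  | some u =>
    rw [hw] at hi
    obtain ⟨b, o⟩ := u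
    simp only [Option.map_some, Option.some.injEq, An.strip, Prod.mk.injEq] at hi
    obtain ⟨hb, ho⟩ := hi
    rw [iv] at ho
    cases o with
    | none => simp at ho
    | some i =>
      obtain ⟨l', k', v'⟩ := i
      simp only [Option.map_some, Option.some.injEq, Prod.mk.injEq] at ho
      obtain ⟨rfl, rfl⟩ := ho
      subst hb
      have hJ := hG.index s v.1 l' _ v' hw
      rw [Set.empty_union] at hJ
      obtain ⟨w1, w2, j1, j2, -⟩ := hJ
      rw [e1]
      exact ⟨fact_vis hA j1, fact_vis hA j2⟩

theorem mem_cells {c : Bool} {a : Γ} {l : Λ} :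
    (a, l) ∈ LayA873.cells c pr ↔ ∃ s < pr.length, ∃ k,
      (mkL act gs g0 J pr fin n al).ins c s = some (l, k) ∧
      ((mkL act gs g0 J pr fin n al).vis s).1 = a := by
  unfold LayA873.cells
  rw [List.mem_filterMap]
  constructor
  · rintro ⟨v, hv, h⟩
    obtain ⟨s, hs, es⟩ := List.getElem_of_mem hv
    have hp : pr[s]? = some v := by rw [List.getElem?_eq_getElem hs, es]
    cases hi : v.ins c with
    | none => rw [hi] at h; simp at h
    | some i =>
      rw [hi] at h
      simp only [Option.map_some, Option.some.injEq, Prod.mk.injEq] at h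
      obtain ⟨h1, h2⟩ := h
      refine ⟨s, hs, i.2, ?_, ?_⟩
      · simp only [mkL, hp, Option.bind_some]
        rw [hi, ← h2]
      · exact (LayA873.adr_getD hp).trans h1
  · rintro ⟨s, hs, k, h1, h2⟩
    obtain ⟨v, hv, iv⟩ := LayA873.ins_eq h1
    have e1 : ((mkL act gs g0 J pr fin n al).vis s).1 = v.1 := LayA873.adr_getD hv
    refine ⟨v, List.mem_of_getElem? hv, ?_⟩
    rw [iv]
    simp only [Option.map_some, Option.some.injEq, Prod.mk.injEq, and_true]
    rw [← e1, h2]

/-- **conditions of a layout** -/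
theorem mkL_ok {out : Λ} (hc : ∀ a, (adr pr fin).count a ≤ J + 1)
    (hch : (adr pr fin).IsChain (Adj act gs))
    (hN : ∀ c, (LayA873.cells c pr).Nodup)
    (hG : ∀ c, ∃ (x : Γ → Bool) (av : List (An Γ G Λ)), Ann c pr av ∧ Good act x ∅ av)
    (hal : Function.Injective al)
    (ho : ∀ c a, (a, out) ∈ LayA873.cells c pr ↔ ∃ i, al i = a) :
    (mkL act gs g0 J pr fin n al).OK act out where
  inj s t hs ht h := mkL_inj hc s t hs ht h
  step s hs := mkL_step hch s hs
  once c s t l k k' _ _ h1 h2 h3 := mkL_once (hN c) s t l k k' h1 h2 h3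
  arg c s l g1 l1 g2 l2 _ h := by
    obtain ⟨x, av, hA, hg⟩ := hG c
    exact mkL_arg hA hg s l g1 l1 g2 l2 h
  al_inj := hal
  out_al c s k hs h := (ho c _).1 ((mem_cells (act := act) (gs := gs) (g0 := g0) (J := J)
    (fin := fin) (n := n) (al := al)).2 ⟨s, hs, k, h, rfl⟩)
  al_out c i := (mem_cells (act := act) (gs := gs) (g0 := g0) (J := J)
    (fin := fin) (n := n) (al := al)).1 ((ho c _).2 ⟨i, rfl⟩)

end ok

/-! ### number level -/

section num

/-- written cells of a program -/
def wr (l : List Stp) : List Cel := l.filterMap fun s => s.2.map fun i => (s.1, i.1)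

/-- annotated step: address, (lane, operation, value) -/
abbrev AnN := ℕ × Option (ℕ × OpN × Bool)

/-- forget the annotation -/
def stripN (w : AnN) : Stp := (w.1, w.2.map fun i => (i.1, i.2.1))

/-- the facts (cell, value) established by annotated steps -/
def factN (av : List AnN) : Set (Cel × Bool) := {z | ∃ k, (z.1.1, some (z.1.2, k, z.2)) ∈ av}

/-- an operation at address `a` has value `v` by the facts `S`; `near` = allowed argument
addresses -/
def JustN (near : ℕ → ℕ → Prop) (x : ℕ → Bool) (S : Set (Cel × Bool)) (a : ℕ) :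
    OpN → Bool → Prop
  | none, v => v = x a
  | some z, v => ∃ w w', (z.1, w) ∈ S ∧ (z.2, w') ∈ S ∧ near a z.1.1 ∧ near a z.2.1 ∧
      v = !(w && w')

/-- every instruction is justified by `S` and the earlier ones -/
def GoodN (near : ℕ → ℕ → Prop) (x : ℕ → Bool) : Set (Cel × Bool) → List AnN → Prop
  | _, [] => True
  | S, (_, none) :: r => GoodN near x S r
  | S, (a, some (l, k, v)) :: r => JustN near x S a k v ∧ GoodN near x (insert ((a, l), v) S) r

variable {near : ℕ → ℕ → Prop} {x : ℕ → Bool}

theorem JustN.mono {S S' : Set (Cel × Bool)} {a : ℕ} {k : OpN} {v : Bool}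
    (h : JustN near x S a k v) (hS : S ⊆ S') : JustN near x S' a k v := by
  cases k with
  | none => exact h
  | some z =>
    obtain ⟨w, w', h1, h2, h3⟩ := h
    exact ⟨w, w', hS h1, hS h2, h3⟩

theorem GoodN.mono {av : List AnN} :
    ∀ {S S' : Set (Cel × Bool)}, GoodN near x S av → S ⊆ S' → GoodN near x S' av := by
  induction av with
  | nil => intro _ _ _ _; trivial
  | cons w r ih =>
    intro S S' h hS
    obtain ⟨a, o⟩ := w
    cases o with
    | none => exact ih (show GoodN near x S r from h) hS
    | some i =>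
      obtain ⟨l, k, v⟩ := i
      exact ⟨h.1.mono hS, ih h.2 (Set.insert_subset_insert hS)⟩

theorem factN_nil : factN [] = ∅ := by
  ext z
  simp [factN]

theorem factN_none (a : ℕ) (av : List AnN) : factN ((a, none) :: av) = factN av := by
  ext z
  simp [factN]

theorem factN_some (a l : ℕ) (k : OpN) (v : Bool) (av : List AnN) :
    factN ((a, some (l, k, v)) :: av) = insert ((a, l), v) (factN av) := by
  ext z
  obtain ⟨⟨z1, z2⟩, z3⟩ := z
  simp only [factN, List.mem_cons, Set.mem_ofPred_eq, Set.mem_insert_iff, Prod.mk.injEq,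
    Option.some.injEq]
  constructor
  · rintro ⟨k', h | h⟩
    · exact .inl ⟨⟨h.1, h.2.1⟩, h.2.2.2⟩
    · exact .inr ⟨k', h⟩
  · rintro (⟨⟨h1, h2⟩, h3⟩ | ⟨k', h⟩)
    · exact ⟨k, .inl ⟨h1, h2, rfl, h3⟩⟩
    · exact ⟨k', .inr h⟩

theorem factN_append (av av' : List AnN) : factN (av ++ av') = factN av ∪ factN av' := by
  ext z
  simp only [factN, List.mem_append, Set.mem_ofPred_eq, Set.mem_union]
  constructor
  · rintro ⟨k, h | h⟩
    · exact .inl ⟨k, h⟩
    · exact .inr ⟨k, h⟩
  · rintro (⟨k, h⟩ | ⟨k, h⟩)
    · exact ⟨k, .inl h⟩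
    · exact ⟨k, .inr h⟩

theorem factN_mono {av av' : List AnN} (h : av ⊆ av') : factN av ⊆ factN av' :=
  fun _ ⟨k, hk⟩ => ⟨k, h hk⟩

theorem GoodN.append {av av' : List AnN} :
    ∀ {S : Set (Cel × Bool)}, GoodN near x S av → GoodN near x (S ∪ factN av) av' →
    GoodN near x S (av ++ av') := by
  induction av with
  | nil =>
    intro S _ h
    simpa [factN_nil] using h
  | cons w r ih =>
    intro S h h'
    obtain ⟨a, o⟩ := w
    cases o with
    | none =>
      rw [factN_none] at h'
      exact ih (show GoodN near x S r from h) h'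
    | some i =>
      obtain ⟨l, k, v⟩ := i
      rw [factN_some] at h'
      refine ⟨h.1, ih h.2 (h'.mono ?_)⟩
      rw [Set.insert_union, Set.union_insert]

theorem GoodN.flatMap {ι : Type} {f : ι → List AnN} {l : List ι} {S : Set (Cel × Bool)}
    (h : ∀ (l1 l2 : List ι) (i : ι), l = l1 ++ i :: l2 →
      GoodN near x (S ∪ factN (l1.flatMap f)) (f i)) :
    GoodN near x S (l.flatMap f) := by
  have key : ∀ (l2 l1 : List ι), l = l1 ++ l2 →
      GoodN near x (S ∪ factN (l1.flatMap f)) (l2.flatMap f) := by
    intro l2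
    induction l2 with
    | nil => intro _ _; trivial
    | cons i l2 ih =>
      intro l1 e
      rw [List.flatMap_cons]
      refine (h l1 l2 i e).append ?_
      refine (ih (l1 ++ [i]) (by simp [e])).mono ?_
      rw [List.flatMap_append, factN_append, ← Set.union_assoc]
      simp
  have := key l [] rfl
  simpa [factN_nil] using this

end num

/-! ### conversion -/

section cv

variable {Γ G : Type} [DecidableEq Γ]
variable (act : G → Equiv.Perm Γ) (gs : List G) (g0 : G) (e : ℕ → Γ)

/-- operation at address `a` -/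
def cvOp (a : ℕ) : OpN → Op G (Fin 28)
  | none => .inp
  | some z => .nand (stp act gs g0 (e a) (e z.1.1)) (Fin.ofNat 28 z.1.2)
      (stp act gs g0 (e a) (e z.2.1)) (Fin.ofNat 28 z.2.2)

/-- instruction at address `a` -/
def cvI (a : ℕ) (i : Option (ℕ × OpN)) : Option (Fin 28 × Op G (Fin 28)) :=
  i.map fun i => (Fin.ofNat 28 i.1, cvOp act gs g0 e a i.2)

/-- visit of a step -/
def cv (s : Stp2) : Vs Γ G (Fin 28) :=
  (e s.1, cvI act gs g0 e s.1 s.2.1, cvI act gs g0 e s.1 s.2.2)

/-- the layout of a list of steps, last address `fin`, name addresses `al` -/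
def lay (l : List Stp2) (fin n : ℕ) (al : ℕ → ℕ) : Layout Γ G (Fin 28) 128 :=
  mkL act gs g0 127 (l.map (cv act gs g0 e)) (e fin) n fun i => e (al i)

/-- program `c` of a list of steps -/
def prj (c : Bool) (l : List Stp2) : List Stp := l.map fun s => (s.1, bif c then s.2.2 else s.2.1)

/-- annotated visit of an annotated step -/
def cvA (w : AnN) : An Γ G (Fin 28) :=
  (e w.1, w.2.map fun i => (Fin.ofNat 28 i.1, cvOp act gs g0 e w.1 i.2.1, i.2.2))

variable {act gs g0 e}

theorem cvA_strip (w : AnN) :
    (cvA act gs g0 e w).strip = (e w.1, cvI act gs g0 e w.1 (stripN w).2) := by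
  unfold An.strip cvA cvI stripN
  cases w.2 <;> rfl

theorem ann_cv {c : Bool} {l : List Stp2} {av : List AnN} (h : av.map stripN = prj c l) :
    Ann c (l.map (cv act gs g0 e)) (av.map (cvA act gs g0 e)) := by
  unfold Ann
  rw [List.map_map, List.map_map]
  have h1 : av.map ((An.strip (Γ := Γ) (G := G) (Λ := Fin 28)) ∘ cvA act gs g0 e) =
      (av.map stripN).map fun s => (e s.1, cvI act gs g0 e s.1 s.2) := by
    rw [List.map_map]
    refine List.map_congr_left fun w _ => ?_
    exact cvA_strip w
  rw [h1, h, prj, List.map_map]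
  refine List.map_congr_left fun s _ => ?_
  cases c <;> rfl

/-- image of a fact -/
def cvF (z : Cel × Bool) : Γ × Fin 28 × Bool := (e z.1.1, Fin.ofNat 28 z.1.2, z.2)

theorem just_cv {near : ℕ → ℕ → Prop} (hnear : ∀ a b, near a b → Adj act gs (e a) (e b))
    {x : Γ → Bool} {S : Set (Cel × Bool)} {S' : Set (Γ × Fin 28 × Bool)}
    (hS : ∀ z ∈ S, cvF (e := e) z ∈ S') {a : ℕ} {k : OpN} {v : Bool}
    (h : JustN near (fun b => x (e b)) S a k v) : Just act x S' (e a) (cvOp act gs g0 e a k) v := by
  cases k with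
  | none => exact h
  | some z =>
    obtain ⟨w, w', h1, h2, h3, h4, h5⟩ := h
    refine ⟨w, w', ?_, ?_, h5⟩
    · rw [stp_spec (hnear _ _ h3)]
      exact hS _ h1
    · rw [stp_spec (hnear _ _ h4)]
      exact hS _ h2

theorem good_cv {near : ℕ → ℕ → Prop} (hnear : ∀ a b, near a b → Adj act gs (e a) (e b))
    {x : Γ → Bool} {av : List AnN} : ∀ {S : Set (Cel × Bool)} {S' : Set (Γ × Fin 28 × Bool)},
    (∀ z ∈ S, cvF (e := e) z ∈ S') → GoodN near (fun b => x (e b)) S av →
    Good act x S' (av.map (cvA act gs g0 e)) := by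
  induction av with
  | nil => intro _ _ _ _; trivial
  | cons w r ih =>
    intro S S' hS h
    obtain ⟨a, o⟩ := w
    cases o with
    | none =>
      exact ih hS (show GoodN near (fun b => x (e b)) S r from h)
    | some i =>
      obtain ⟨l, k, v⟩ := i
      refine ⟨just_cv hnear hS h.1, ih ?_ h.2⟩
      rintro z (rfl | hz)
      · exact Set.mem_insert _ _
      · exact Set.mem_insert_of_mem _ (hS z hz)

theorem fact_cv {av : List AnN} {z : Cel × Bool} (h : z ∈ factN av) :
    cvF (e := e) z ∈ fact (av.map (cvA act gs g0 e)) := by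
  obtain ⟨k, hk⟩ := h
  exact ⟨cvOp act gs g0 e z.1.1 k, List.mem_map.2 ⟨_, hk, rfl⟩⟩

theorem cells_cv (c : Bool) (l : List Stp2) :
    LayA873.cells c (l.map (cv act gs g0 e)) =
      (wr (prj c l)).map fun z => (e z.1, (Fin.ofNat 28 z.2 : Fin 28)) := by
  unfold LayA873.cells wr prj
  rw [List.filterMap_map, List.filterMap_map, List.map_filterMap]
  refine List.filterMap_congr fun s _ => ?_
  obtain ⟨a, i, j⟩ := s
  cases c
  · cases i <;> rfl
  · cases j <;> rfl

theorem adr_cv (l : List Stp2) (fin : ℕ) :
    adr (l.map (cv act gs g0 e)) (e fin) = (l.map Prod.fst ++ [fin]).map e := by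
  unfold adr
  rw [List.map_map, List.map_append, List.map_map]
  rfl

end cv

/-- number-level conditions on one program: lanes, every cell once, justified values, output
cells -/
structure PrN (near : ℕ → ℕ → Prop) (n : ℕ) (al : ℕ → ℕ) (S : List Stp) : Prop where
  lane : ∀ z ∈ wr S, z.2 < 28
  once : (wr S).Nodup
  good : ∀ x : ℕ → Bool, ∃ av : List AnN, av.map stripN = S ∧ GoodN near x ∅ av
  out : ∀ a, (a, lOut) ∈ wr S ↔ ∃ i < n, al i = a

/-- number-level conditions on a list of steps -/
structure LyN (near : ℕ → ℕ → Prop) (N : ℕ) (l : List Stp2) (fin n : ℕ) (al : ℕ → ℕ) : Prop where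
  lt : ∀ a ∈ l.map Prod.fst ++ [fin], a < N
  chain : (l.map Prod.fst ++ [fin]).IsChain near
  cnt : ∀ a, (l.map Prod.fst ++ [fin]).count a ≤ 128
  pr : ∀ c, PrN near n al (prj c l)
  al_lt : ∀ i < n, al i < N
  al_inj : ∀ i < n, ∀ j < n, al i = al j → i = j

/-! ### the layout of a list of steps -/

section lay

variable {Γ G : Type} [DecidableEq Γ]
variable {act : G → Equiv.Perm Γ} {gs : List G} {g0 : G} {e : ℕ → Γ}
variable {near : ℕ → ℕ → Prop} {N : ℕ} {l : List Stp2} {fin n : ℕ} {al : ℕ → ℕ}

theorem count_map_le {N : ℕ} (he : ∀ a < N, ∀ b < N, e a = e b → a = b) {k : List ℕ}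
    (hk : ∀ a ∈ k, a < N) {m : ℕ} (h : ∀ a, k.count a ≤ m) (x : Γ) : (k.map e).count x ≤ m := by
  by_cases hx : x ∈ k.map e
  · obtain ⟨b, hb, rfl⟩ := List.mem_map.1 hx
    rw [List.count, List.countP_map]
    refine le_trans (le_of_eq ?_) (h b)
    rw [List.count]
    refine List.countP_congr fun a ha => ?_
    simp only [Function.comp_apply, beq_iff_eq]
    exact ⟨fun h1 => he a (hk a ha) b (hk b hb) h1, fun h1 => by rw [h1]⟩
  · rw [List.count_eq_zero_of_not_mem hx]
    exact Nat.zero_le _

theorem lOut_lt : lOut < 28 := by decide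

theorem ofNat_inj {a b : ℕ} (ha : a < 28) (hb : b < 28)
    (h : (Fin.ofNat 28 a : Fin 28) = Fin.ofNat 28 b) : a = b := by
  have := congrArg Fin.val h
  simpa [Fin.ofNat, Nat.mod_eq_of_lt ha, Nat.mod_eq_of_lt hb] using this

theorem wr_addr {c : Bool} {z : Cel} (h : z ∈ wr (prj c l)) : z.1 ∈ l.map Prod.fst := by
  unfold wr prj at h
  rw [List.filterMap_map, List.mem_filterMap] at h
  obtain ⟨s, hs, h1⟩ := h
  refine List.mem_map.2 ⟨s, hs, ?_⟩
  simp only [Function.comp_apply, Option.map_eq_some_iff] at h1
  obtain ⟨i, -, rfl⟩ := h1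
  rfl

/-- **`Layout.OK` from number-level conditions** -/
theorem lay_ok (hnear : ∀ a b, near a b → Adj act gs (e a) (e b))
    (he : ∀ a < N, ∀ b < N, e a = e b → a = b) (h : LyN near N l fin n al) :
    (lay act gs g0 e l fin n al).OK act (Fin.ofNat 28 lOut) := by
  have hlt : ∀ c, ∀ z ∈ wr (prj c l), z.1 < N := fun c z hz =>
    h.lt _ (List.mem_append_left _ (wr_addr hz))
  refine mkL_ok ?_ ?_ ?_ ?_ ?_ ?_
  · intro x
    rw [adr_cv]
    exact count_map_le he h.lt h.cnt x
  · rw [adr_cv, List.isChain_map]
    exact h.chain.imp fun a b hab => hnear a b hab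
  · intro c
    rw [cells_cv]
    refine List.Nodup.map_on ?_ (h.pr c).once
    intro z hz z' hz' hzz
    rw [Prod.mk.injEq] at hzz
    exact Prod.ext (he _ (hlt c z hz) _ (hlt c z' hz') hzz.1)
      (ofNat_inj ((h.pr c).lane z hz) ((h.pr c).lane z' hz') hzz.2)
  · intro c
    obtain ⟨av, h1, h2⟩ := (h.pr c).good fun _ => false
    exact ⟨fun _ => false, av.map (cvA act gs g0 e), ann_cv h1,
      good_cv hnear (S := ∅) (S' := ∅) (fun z hz => hz.elim) h2⟩
  · intro i j hij
    exact Fin.ext (h.al_inj i i.2 j j.2 (he _ (h.al_lt i i.2) _ (h.al_lt j j.2) hij))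
  · intro c a
    rw [cells_cv, List.mem_map]
    constructor
    · rintro ⟨z, hz, hza⟩
      rw [Prod.mk.injEq] at hza
      obtain ⟨h1, h2⟩ := hza
      have h3 : z = (z.1, lOut) :=
        Prod.ext rfl (ofNat_inj ((h.pr c).lane z hz) lOut_lt h2)
      rw [h3] at hz
      obtain ⟨i, hi, h4⟩ := ((h.pr c).out z.1).1 hz
      exact ⟨⟨i, hi⟩, by rw [← h1, ← h4]⟩
    · rintro ⟨i, hi⟩
      exact ⟨(al i, lOut), ((h.pr c).out _).2 ⟨i, i.2, rfl⟩, by rw [← hi]⟩

/-- every fact of an annotated program holds after the run -/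
theorem lay_run {c : Bool} {x : Γ → Bool} (hnear : ∀ a b, near a b → Adj act gs (e a) (e b))
    (he : ∀ a < N, ∀ b < N, e a = e b → a = b) (h : LyN near N l fin n al) {av : List AnN}
    (h1 : av.map stripN = prj c l) (h2 : GoodN near (fun b => x (e b)) ∅ av) {z : Cel × Bool}
    (hz : z ∈ factN av) :
    Layout.run act (lay act gs g0 e l fin n al) c x (lay act gs g0 e l fin n al).L
      (e z.1.1) (Fin.ofNat 28 z.1.2) = z.2 := by
  have hlt : ∀ z ∈ wr (prj c l), z.1 < N := fun z hz =>
    h.lt _ (List.mem_append_left _ (wr_addr hz))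
  refine LayA873.run_final (ann_cv h1)
    (good_cv hnear (S := ∅) (S' := ∅) (fun z hz => hz.elim) h2) ?_ (fact_cv hz)
  rw [cells_cv]
  refine List.Nodup.map_on ?_ (h.pr c).once
  intro z hz z' hz' hzz
  rw [Prod.mk.injEq] at hzz
  exact Prod.ext (he _ (hlt z hz) _ (hlt z' hz') hzz.1)
    (ofNat_inj ((h.pr c).lane z hz) ((h.pr c).lane z' hz') hzz.2)

/-- the name word of the layout at a name address -/
theorem lay_nm (he : ∀ a < N, ∀ b < N, e a = e b → a = b) (hl : ∀ i < n, al i < N)
    (hi : ∀ i < n, ∀ j < n, al i = al j → i = j) (v : Fin n → Bool) (i : Fin n) :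
    (lay act gs g0 e l fin n al).nm v (e (al i)) = v i := by
  have hal : Function.Injective (lay act gs g0 e l fin n al).al := fun (i j : Fin n) hij =>
    Fin.ext (hi i i.2 j j.2 (he _ (hl i i.2) _ (hl j j.2) hij))
  exact LayVal436.nm_al hal v i

/-- **the map computed by program `c`** -/
theorem lay_outp {c : Bool} (hnear : ∀ a b, near a b → Adj act gs (e a) (e b))
    (he : ∀ a < N, ∀ b < N, e a = e b → a = b) (h : LyN near N l fin n al) (v : Fin n → Bool)
    (y : ℕ → Bool)
    (hv : ∀ x : ℕ → Bool, (∀ i : Fin n, x (al i) = v i) → ∃ av : List AnN,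
      av.map stripN = prj c l ∧ GoodN near x ∅ av ∧ ∀ i < n, ((al i, lOut), y i) ∈ factN av)
    (i : Fin n) :
    Layout.outp act (Fin.ofNat 28 lOut) (lay act gs g0 e l fin n al) c v i = y i := by
  obtain ⟨av, h1, h2, h3⟩ := hv (fun b => (lay act gs g0 e l fin n al).nm v (e b))
    (lay_nm he h.al_lt h.al_inj v)
  exact lay_run hnear he h h1 h2 (h3 i i.2)

end lay

/-! ### two programs on a common walk -/

section both

variable {near : ℕ → ℕ → Prop} {n : ℕ} {al : ℕ → ℕ} {S r P : List Stp}

/-- steps without instructions -/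
def bl (l : List Stp) : List Stp := l.map fun s => (s.1, none)

theorem prj_false : prj false (both S r P) = S ++ bl r ++ bl P := by
  unfold prj both bl
  rw [List.map_append, List.map_append, List.map_map, List.map_map, List.map_map]
  congr 2
  exact (List.map_congr_left fun s _ => rfl).trans (List.map_id _)

theorem prj_true : prj true (both S r P) = bl S ++ bl r ++ P := by
  unfold prj both bl
  rw [List.map_append, List.map_append, List.map_map, List.map_map, List.map_map]
  congr 1
  exact (List.map_congr_left fun s _ => rfl).trans (List.map_id _)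

theorem wr_append (l l' : List Stp) : wr (l ++ l') = wr l ++ wr l' := List.filterMap_append

theorem wr_bl (l : List Stp) : wr (bl l) = [] := by
  unfold wr bl
  rw [List.filterMap_map, List.filterMap_eq_nil_iff]
  intro s _
  rfl

theorem wr_false : wr (prj false (both S r P)) = wr S := by
  rw [prj_false, wr_append, wr_append, wr_bl, wr_bl, List.append_nil, List.append_nil]

theorem wr_true : wr (prj true (both S r P)) = wr P := by
  rw [prj_true, wr_append, wr_append, wr_bl, wr_bl, List.nil_append, List.nil_append]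

/-- annotated steps without instructions -/
def blA (l : List Stp) : List AnN := l.map fun s => (s.1, none)

theorem blA_strip (l : List Stp) : (blA l).map stripN = bl l := by
  unfold blA bl
  rw [List.map_map]
  rfl

theorem goodN_blA {x : ℕ → Bool} {T : Set (Cel × Bool)} (l : List Stp) :
    GoodN near x T (blA l) := by
  induction l with
  | nil => trivial
  | cons s l ih => exact ih

theorem factN_blA (l : List Stp) : factN (blA l) = ∅ := by
  induction l with
  | nil => exact factN_nil
  | cons s l ih => exact (factN_none _ _).trans ih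

theorem ext_false {x : ℕ → Bool} {av : List AnN} (h1 : av.map stripN = S)
    (h2 : GoodN near x ∅ av) :
    (av ++ blA r ++ blA P).map stripN = prj false (both S r P) ∧
      GoodN near x ∅ (av ++ blA r ++ blA P) ∧ factN (av ++ blA r ++ blA P) = factN av := by
  refine ⟨?_, (h2.append (goodN_blA r)).append (goodN_blA P), ?_⟩
  · rw [List.map_append, List.map_append, blA_strip, blA_strip, h1, prj_false]
  · rw [factN_append, factN_append, factN_blA, factN_blA, Set.union_empty, Set.union_empty]

theorem ext_true {x : ℕ → Bool} {av : List AnN} (h1 : av.map stripN = P)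
    (h2 : GoodN near x ∅ av) :
    (blA S ++ blA r ++ av).map stripN = prj true (both S r P) ∧
      GoodN near x ∅ (blA S ++ blA r ++ av) ∧ factN (blA S ++ blA r ++ av) = factN av := by
  refine ⟨?_, ((goodN_blA S).append (goodN_blA r)).append (h2.mono (Set.empty_subset _)), ?_⟩
  · rw [List.map_append, List.map_append, blA_strip, blA_strip, h1, prj_true]
  · rw [factN_append, factN_append, factN_blA, factN_blA, Set.empty_union, Set.empty_union]

theorem prN_both (hS : PrN near n al S) (hP : PrN near n al P) (c : Bool) :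
    PrN near n al (prj c (both S r P)) := by
  cases c
  · exact
      { lane := by rw [wr_false]; exact hS.lane
        once := by rw [wr_false]; exact hS.once
        good := fun x => by
          obtain ⟨av, h1, h2⟩ := hS.good x
          exact ⟨_, (ext_false h1 h2).1, (ext_false h1 h2).2.1⟩
        out := by rw [wr_false]; exact hS.out }
  · exact
      { lane := by rw [wr_true]; exact hP.lane
        once := by rw [wr_true]; exact hP.once
        good := fun x => by
          obtain ⟨av, h1, h2⟩ := hP.good x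
          exact ⟨_, (ext_true h1 h2).1, (ext_true h1 h2).2.1⟩
        out := by rw [wr_true]; exact hP.out }

/-- addresses of the common walk -/
theorem both_fst : (both S r P).map Prod.fst =
    S.map Prod.fst ++ r.map Prod.fst ++ P.map Prod.fst := by
  unfold both
  rw [List.map_append, List.map_append, List.map_map, List.map_map, List.map_map]
  rfl

end both

end Crest.Agent.R289.LayCv338
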