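import Crest.Agent.R289.DefC_143
import Crest.Agent.R289.EolNFPT_328

/-!
# R289, leaf C_PUBTAB (helper328): from the output of the layout program to the content tables

`CL` = output of the layout program in numbers: records (address, lane, step number, instruction
number of program `false`, of program `true`) of the visits `s < L`, the last visit
(address, lane), the list of the name addresses.

* `CL.lay ad gt it C : Layout Γ G Λ J` : the layout of `DefC_143`; `ad : ℕ → Γ` decodes addresses,
  `gt` steps, `it` instructions (constant lists).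
* `CL.tb gt it C b a : Bool` : content tables of the public words; `pubC_eq`; `ptf_tb`, `ptf_tbK`.
-/

set_option autoImplicit false
set_option linter.unusedSectionVars false

namespace Crest.Agent.R289.PubTab328

open Crest.Agent.Lib.PT Crest.Agent.R289.DefC Crest.Agent.R289.EolNFPT328

/-- record: address, lane, step, instruction of program `false`, instruction of program `true` -/
abbrev Rec : Type := ℕ × ℕ × ℕ × ℕ × ℕ

/-- coded layout: records, last visit, name addresses -/
abbrev CL : Type := List Rec × (ℕ × ℕ) × List ℕ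

namespace CL

/-- number of steps -/
def len (C : CL) : ℕ := C.1.length

/-- visit number `s` (address, lane) -/
def pt (C : CL) (s : ℕ) : ℕ × ℕ := (C.1.map (fun r => (r.1, r.2.1))).getD s C.2.1

/-- record number `s` -/
def rc (C : CL) (s : ℕ) : Rec := C.1.getD s (0, 0, 0, 0, 0)

/-- step number at time `s` -/
def st (C : CL) (s : ℕ) : ℕ := (C.rc s).2.2.1

/-- instruction number at time `s` -/
def ix (C : CL) (c : Bool) (s : ℕ) : ℕ := if c then (C.rc s).2.2.2.2 else (C.rc s).2.2.2.1

/-- name addresses -/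
def nms (C : CL) : List ℕ := C.2.2

/-- all numbers are in range -/
structure WF (N J : ℕ) (C : CL) : Prop where
  recs : ∀ r ∈ C.1, r.1 < N ∧ r.2.1 < J
  last : C.2.1.1 < N ∧ C.2.1.2 < J
  nmL : ∀ a ∈ C.nms, a < N

theorem pt_of_lt (C : CL) {s : ℕ} (h : s < C.len) :
    C.pt s = ((C.1[s]'h).1, (C.1[s]'h).2.1) := by
  unfold pt
  rw [List.getD_eq_getElem _ _ (by simpa [len] using h), List.getElem_map]
  rfl

theorem pt_of_ge (C : CL) {s : ℕ} (h : C.len ≤ s) : C.pt s = C.2.1 := by
  unfold pt
  rw [List.getD_eq_default _ _ (by simpa [len] using h)]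

theorem WF.pt {N J : ℕ} {C : CL} (h : C.WF N J) (s : ℕ) : (C.pt s).1 < N ∧ (C.pt s).2 < J := by
  rcases lt_or_ge s C.len with hs | hs
  · rw [pt_of_lt C hs]
    exact h.recs _ (List.getElem_mem _)
  · rw [pt_of_ge C hs]
    exact h.last

section lay

variable {Γ G Λ : Type} {J : ℕ} [NeZero J] [Inhabited G]

/-- the layout of `DefC_143` -/
def lay (ad : ℕ → Γ) (gt : List G) (it : List (Option (Λ × Op G Λ))) (C : CL) :
    Layout Γ G Λ J where
  L := C.len
  vis s := (ad (C.pt s).1, Fin.ofNat J (C.pt s).2)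
  dir s := gt.getD (C.st s) default
  ins c s := it.getD (C.ix c s) none
  n := C.nms.length
  al i := ad (C.nms.get i)

variable [DecidableEq G] [DecidableEq Λ]

/-- content tables of the public words -/
def tb (gt : List G) (it : List (Option (Λ × Op G Λ))) (C : CL) : Pb G Λ J → ℕ → Bool
  | .U, _ => true
  | .IN, a => C.nms.any (fun x => decide (x = a))
  | .Vis j, a => (List.range (C.len + 1)).any (fun s => decide (C.pt s = (a, j.val)))
  | .E j g j', a => (List.range C.len).any (fun s => decide (C.pt s = (a, j.val)) &&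
      (decide (gt.getD (C.st s) default = g) && decide ((C.pt (s + 1)).2 = j'.val)))
  | .Fi j, a => decide (C.pt 0 = (a, j.val))
  | .La j, a => decide (C.pt C.len = (a, j.val))
  | .W c j l k, a => (List.range C.len).any (fun s => decide (C.pt s = (a, j.val)) &&
      decide (it.getD (C.ix c s) none = some (l, k)))
  | .Wa c j, a => (List.range C.len).any (fun s => decide (C.pt s = (a, j.val)) &&
      !decide (it.getD (C.ix c s) none = none))
  | .Wc c l, a => (List.range C.len).any (fun s => decide ((C.pt s).1 = a) &&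
      decide ((it.getD (C.ix c s) none).map Prod.fst = some l))
  | .D0 j, a => decide (C.pt 0 = (a, j.val))
  | .DL j, a => decide (C.pt C.len = (a, j.val))
  | .Full j, a => (List.range C.len).any (fun s => decide (C.pt s = (a, j.val)))

theorem any_range {n : ℕ} {p : ℕ → Bool} :
    (List.range n).any p = true ↔ ∃ s < n, p s = true := by
  simp [List.any_eq_true]

theorem ofNat_eq_iff {x : ℕ} (hx : x < J) (j : Fin J) : Fin.ofNat J x = j ↔ x = j.val := by
  rw [Fin.ext_iff, Fin.val_ofNat, Nat.mod_eq_of_lt hx]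

theorem vis_iff {N : ℕ} {ad : ℕ → Γ} {C : CL} (hC : C.WF N J)
    (hinj : ∀ a < N, ∀ a' < N, ad a = ad a' → a = a') {a : ℕ} (ha : a < N) (s : ℕ) (j : Fin J) :
    (ad (C.pt s).1, Fin.ofNat J (C.pt s).2) = (ad a, j) ↔ C.pt s = (a, j.val) := by
  obtain ⟨h1, h2⟩ := hC.pt s
  constructor
  · intro h
    rw [Prod.mk.injEq, ofNat_eq_iff h2] at h
    exact Prod.ext (hinj _ h1 _ ha h.1) h.2
  · intro h
    rw [Prod.mk.injEq, ofNat_eq_iff h2, h]
    exact ⟨rfl, rfl⟩

theorem vis1_iff {N : ℕ} {ad : ℕ → Γ} {C : CL} (hC : C.WF N J)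
    (hinj : ∀ a < N, ∀ a' < N, ad a = ad a' → a = a') {a : ℕ} (ha : a < N) (s : ℕ) :
    ad (C.pt s).1 = ad a ↔ (C.pt s).1 = a :=
  ⟨fun h => hinj _ (hC.pt s).1 _ ha h, fun h => by rw [h]⟩

theorem ite_congr_bool {K : Type} [CommRing K] {p : Prop} {inst : Decidable p} {b : Bool}
    (h : p ↔ b = true) : (if p then (1 : K) else 0) = if b then 1 else 0 :=
  if_congr h rfl rfl

/-- **the contents of the public words are the tables** -/
theorem pubC_eq {K : Type} [CommRing K] {N : ℕ} {ad : ℕ → Γ} {gt : List G}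
    {it : List (Option (Λ × Op G Λ))} {C : CL} (hC : C.WF N J)
    (hinj : ∀ a < N, ∀ a' < N, ad a = ad a' → a = a') {a : ℕ} (ha : a < N) (b : Pb G Λ J) :
    pubC (C.lay ad gt it : Layout Γ G Λ J) K b (ad a) = if C.tb gt it b a then 1 else 0 := by
  have hv := fun s j => vis_iff (J := J) hC hinj ha s j
  have hv1 := fun s => vis1_iff hC hinj ha s
  have hj := fun s (j : Fin J) => ofNat_eq_iff (hC.pt s).2 j
  cases b with
  | U => simp [pubC, tb]
  | IN =>
    simp only [pubC, tb]
    apply ite_congr_bool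
    rw [List.any_eq_true]
    constructor
    · rintro ⟨i, hi⟩
      refine ⟨C.nms.get i, List.get_mem _ _, ?_⟩
      have hlt : C.nms.get i < N := hC.nmL _ (List.get_mem _ _)
      exact decide_eq_true (hinj _ hlt _ ha hi)
    · rintro ⟨x, hx, hxa⟩
      obtain ⟨i, hi⟩ := List.get_of_mem hx
      refine ⟨i, ?_⟩
      have := of_decide_eq_true hxa
      show ad (C.nms.get i) = ad a
      rw [hi, this]
  | Vis j =>
    simp only [pubC, tb]
    apply ite_congr_bool
    rw [any_range]
    constructor
    · rintro ⟨s, hs, h⟩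
      exact ⟨s, Nat.lt_succ_of_le hs, decide_eq_true ((hv s j).1 h)⟩
    · rintro ⟨s, hs, h⟩
      exact ⟨s, Nat.le_of_lt_succ hs, (hv s j).2 (of_decide_eq_true h)⟩
  | E j g j' =>
    simp only [pubC, tb]
    apply ite_congr_bool
    rw [any_range]
    constructor
    · rintro ⟨s, hs, h, hg, h'⟩
      refine ⟨s, hs, ?_⟩
      simp only [Bool.and_eq_true, decide_eq_true_eq]
      exact ⟨(hv s j).1 h, hg, (hj (s + 1) j').1 h'⟩
    · rintro ⟨s, hs, h⟩
      simp only [Bool.and_eq_true, decide_eq_true_eq] at h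
      exact ⟨s, hs, (hv s j).2 h.1, h.2.1, (hj (s + 1) j').2 h.2.2⟩
  | Fi j =>
    simp only [pubC, tb]
    apply ite_congr_bool
    rw [decide_eq_true_eq]
    exact hv 0 j
  | La j =>
    simp only [pubC, tb]
    apply ite_congr_bool
    rw [decide_eq_true_eq]
    exact hv C.len j
  | W c j l k =>
    simp only [pubC, tb]
    apply ite_congr_bool
    rw [any_range]
    constructor
    · rintro ⟨s, hs, h, hk⟩
      refine ⟨s, hs, ?_⟩
      simp only [Bool.and_eq_true, decide_eq_true_eq]
      exact ⟨(hv s j).1 h, hk⟩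
    · rintro ⟨s, hs, h⟩
      simp only [Bool.and_eq_true, decide_eq_true_eq] at h
      exact ⟨s, hs, (hv s j).2 h.1, h.2⟩
  | Wa c j =>
    simp only [pubC, tb]
    apply ite_congr_bool
    rw [any_range]
    constructor
    · rintro ⟨s, hs, h, hk⟩
      refine ⟨s, hs, ?_⟩
      simp only [Bool.and_eq_true, decide_eq_true_eq, Bool.not_eq_true', decide_eq_false_iff_not]
      exact ⟨(hv s j).1 h, hk⟩
    · rintro ⟨s, hs, h⟩
      simp only [Bool.and_eq_true, decide_eq_true_eq, Bool.not_eq_true',
        decide_eq_false_iff_not] at h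
      exact ⟨s, hs, (hv s j).2 h.1, h.2⟩
  | Wc c l =>
    simp only [pubC, tb]
    apply ite_congr_bool
    rw [any_range]
    constructor
    · rintro ⟨s, hs, h, k, hk⟩
      refine ⟨s, hs, ?_⟩
      simp only [Bool.and_eq_true, decide_eq_true_eq]
      refine ⟨(hv1 s).1 h, ?_⟩
      change it.getD (C.ix c s) none = some (l, k) at hk
      rw [hk]
      rfl
    · rintro ⟨s, hs, h⟩
      simp only [Bool.and_eq_true, decide_eq_true_eq] at h
      refine ⟨s, hs, (hv1 s).2 h.1, ?_⟩
      obtain ⟨x, hx, hxl⟩ := Option.map_eq_some_iff.1 h.2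
      refine ⟨x.2, ?_⟩
      change it.getD (C.ix c s) none = some (l, x.2)
      rw [hx, ← hxl]
  | D0 j =>
    simp only [pubC, tb]
    apply ite_congr_bool
    rw [decide_eq_true_eq]
    exact hv 0 j
  | DL j =>
    simp only [pubC, tb]
    apply ite_congr_bool
    rw [decide_eq_true_eq]
    exact hv C.len j
  | Full j =>
    simp only [pubC, tb]
    apply ite_congr_bool
    rw [any_range]
    constructor
    · rintro ⟨s, hs, h⟩
      exact ⟨s, hs, decide_eq_true ((hv s j).1 h)⟩
    · rintro ⟨s, hs, h⟩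
      exact ⟨s, hs, (hv s j).2 (of_decide_eq_true h)⟩

end lay

/-! ### polynomial time -/

section pt

variable {γ : Type} [PTCode γ]

/-- look up in a constant list (of any type), Boolean property -/
theorem ptf_lookup {β : Type} (t : List β) (d : β) (φ : β → Bool) {x : γ → ℕ} (hx : PTF x) :
    PTF (fun c => φ (t.getD (x c) d)) := by
  refine PTF.of_eq (ptf_getD (l := fun _ : γ => t.map φ) (d := fun _ : γ => φ d) (PTF.const _) hx
    (PTF.const _)) (fun c => ?_)
  rw [List.getD_map]

theorem ptf_len {C : γ → CL} (hC : PTF C) : PTU (fun c => (C c).len) :=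
  PTU.length (PTF.comp PTF.fst hC)

theorem ptf_nms {C : γ → CL} (hC : PTF C) : PTF (fun c => (C c).nms) := by
  unfold nms
  exact PTF.comp PTF.snd (PTF.comp PTF.snd hC)

theorem ptf_pt {C : γ → CL} {s : γ → ℕ} (hC : PTF C) (hs : PTF s) :
    PTF (fun c => (C c).pt (s c)) := by
  unfold pt
  refine ptf_getD ?_ hs (PTF.comp PTF.fst (PTF.comp PTF.snd hC))
  refine PTF.map (f := fun _ r => (r.1, r.2.1)) (PTF.comp PTF.fst hC) ?_
  pt_prop

theorem ptf_rc {C : γ → CL} {s : γ → ℕ} (hC : PTF C) (hs : PTF s) :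
    PTF (fun c => (C c).rc (s c)) :=
  ptf_getD (PTF.comp PTF.fst hC) hs (PTF.const _)

theorem ptf_st {C : γ → CL} {s : γ → ℕ} (hC : PTF C) (hs : PTF s) :
    PTF (fun c => (C c).st (s c)) :=
  PTF.comp PTF.fst (PTF.comp PTF.snd (PTF.comp PTF.snd (ptf_rc hC hs)))

theorem ptf_ix {C : γ → CL} (b : Bool) {s : γ → ℕ} (hC : PTF C) (hs : PTF s) :
    PTF (fun c => (C c).ix b (s c)) := by
  cases b
  · exact PTF.comp PTF.fst (PTF.comp PTF.snd (PTF.comp PTF.snd (PTF.comp PTF.snd (ptf_rc hC hs))))
  · exact PTF.comp PTF.snd (PTF.comp PTF.snd (PTF.comp PTF.snd (PTF.comp PTF.snd (ptf_rc hC hs))))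

/-- **the content tables are polynomial time** -/
theorem ptf_tb {G Λ : Type} {J : ℕ} [NeZero J] [Inhabited G] [DecidableEq G] [DecidableEq Λ]
    (gt : List G) (it : List (Option (Λ × Op G Λ))) (b : Pb G Λ J) {C : γ → CL} {a : γ → ℕ}
    (hC : PTF C) (ha : PTF a) : PTF (fun c => (C c).tb gt it b (a c)) := by
  have hC' : PTF (fun p : γ × ℕ => C p.1) := PTF.comp hC PTF.fst
  have ha' : PTF (fun p : γ × ℕ => a p.1) := PTF.comp ha PTF.fst
  have hr : PTF (fun c => List.range (C c).len) := PTF.range (ptf_len hC)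
  have hr1 : PTF (fun c => List.range ((C c).len + 1)) := PTF.range (PTU.add (ptf_len hC) (PTU.const 1))
  have hpt : PTF (fun p : γ × ℕ => (C p.1).pt p.2) := ptf_pt hC' PTF.snd
  have hlen : PTF (fun c => (C c).len) := (ptf_len hC).toPTF
  have heq : ∀ j : Fin J, PTF (fun p : γ × ℕ => decide ((C p.1).pt p.2 = (a p.1, j.val))) :=
    fun j => PTF.beq hpt (PTF.prodMk ha' (PTF.const _))
  have hfi : ∀ j : Fin J, PTF (fun c => decide ((C c).pt 0 = (a c, j.val))) :=
    fun j => PTF.beq (ptf_pt hC (PTF.const _)) (PTF.prodMk ha (PTF.const _))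
  have hla : ∀ j : Fin J, PTF (fun c => decide ((C c).pt (C c).len = (a c, j.val))) :=
    fun j => PTF.beq (ptf_pt hC hlen) (PTF.prodMk ha (PTF.const _))
  cases b with
  | U => exact PTF.const _
  | IN =>
    refine PTF.any (p := fun c x => decide (x = a c)) (ptf_nms hC) ?_
    exact PTF.beq PTF.snd ha'
  | Vis j => exact PTF.any (p := fun c s => decide ((C c).pt s = (a c, j.val))) hr1 (heq j)
  | E j g j' =>
    refine PTF.any (p := fun c s => decide ((C c).pt s = (a c, j.val)) &&
      (decide (gt.getD ((C c).st s) default = g) && decide (((C c).pt (s + 1)).2 = j'.val))) hr ?_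
    refine PTF.and (heq j) (PTF.and ?_ ?_)
    · exact ptf_lookup gt default (fun y => decide (y = g)) (ptf_st hC' PTF.snd)
    · refine PTF.beq (PTF.comp PTF.snd (ptf_pt hC' ?_)) (PTF.const _)
      exact PTF.natAdd PTF.snd (PTF.const _)
  | Fi j => exact hfi j
  | La j => exact hla j
  | W c j l k =>
    refine PTF.any (p := fun x s => decide ((C x).pt s = (a x, j.val)) &&
      decide (it.getD ((C x).ix c s) none = some (l, k))) hr ?_
    exact PTF.and (heq j)
      (ptf_lookup it none (fun y => decide (y = some (l, k))) (ptf_ix c hC' PTF.snd))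
  | Wa c j =>
    refine PTF.any (p := fun x s => decide ((C x).pt s = (a x, j.val)) &&
      !decide (it.getD ((C x).ix c s) none = none)) hr ?_
    exact PTF.and (heq j)
      (ptf_lookup it none (fun y => !decide (y = none)) (ptf_ix c hC' PTF.snd))
  | Wc c l =>
    refine PTF.any (p := fun x s => decide (((C x).pt s).1 = a x) &&
      decide ((it.getD ((C x).ix c s) none).map Prod.fst = some l)) hr ?_
    exact PTF.and (PTF.beq (PTF.comp PTF.fst hpt) ha')
      (ptf_lookup it none (fun y => decide (y.map Prod.fst = some l)) (ptf_ix c hC' PTF.snd))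
  | D0 j => exact hfi j
  | DL j => exact hla j
  | Full j => exact PTF.any (p := fun c s => decide ((C c).pt s = (a c, j.val))) hr (heq j)

/-- content functions with values in `K`, in the form used by the encoders -/
theorem ptf_tbK {K : Type} [CommRing K] [PTCode K] {G Λ : Type} {J : ℕ} [NeZero J] [Inhabited G]
    [DecidableEq G] [DecidableEq Λ] (gt : List G) (it : List (Option (Λ × Op G Λ)))
    (b : Pb G Λ J) {C : γ → CL} (hC : PTF C) :
    PTF (fun p : γ × ℕ => if (C p.1).tb gt it b p.2 then (1 : K) else 0) := by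
  refine PTF.of_eq (PTF.cond (ptf_tb gt it b (PTF.comp hC PTF.fst) PTF.snd) (PTF.const (1 : K))
    (PTF.const (0 : K))) (fun p => ?_)
  cases (C p.1).tb gt it b p.2 <;> rfl

end pt

end CL

end Crest.Agent.R289.PubTab328
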