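import Crest.Agent.R289.LayAgree_483
import Crest.Agent.R289.LayCv_338
import Crest.Agent.R289.PubTab_328

/-!
# Row 289, block C, C_REAL: the layout of a list of steps and the coded layout

`CLOf` : the coded layout `C : CL` (PubTab_328) codes the list of steps `l : List Stp2`
(getters only).  `CLOf.agree` : `LayCv338.lay` and `CL.lay` agree on the used range.
-/

set_option autoImplicit false
set_option linter.unusedSectionVars false

namespace Crest.Agent.R289.LayAgree483

open Crest.Agent.R289.DefC Crest.Agent.R289.PubTab328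
open Crest.Agent.R289.LayA873 (Adj stp stp_spec mkL adr)
open Crest.Agent.R289.LayCv338 (cv cvI lay adr_cv LyN)
open Crest.Agent.R289.Layout109 (Stp2 lOut)

variable {Γ G : Type} [DecidableEq Γ]

/-- addresses of a list of steps followed by the last address -/
def adn (l : List Stp2) (fin : ℕ) : List ℕ := l.map Prod.fst ++ [fin]

theorem adn_length (l : List Stp2) (fin : ℕ) : (adn l fin).length = l.length + 1 := by simp [adn]

/-- instruction of program `c` in a step -/
def insN (c : Bool) (s : Stp2) := bif c then s.2.2 else s.2.1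

/-- `C` codes the list of steps `l`, last address `fin`, name addresses `al i`, `i < n` -/
structure CLOf [Inhabited G] (act : G → Equiv.Perm Γ) (gs : List G) (g0 : G) (e : ℕ → Γ)
    (gt : List G) (it : List (Option (Fin 28 × Op G (Fin 28))))
    (l : List Stp2) (fin n : ℕ) (al : ℕ → ℕ) (C : CL) : Prop where
  len : C.len = l.length
  pt : ∀ s ≤ l.length,
    C.pt s = ((adn l fin).getD s fin, ((adn l fin).take s).count ((adn l fin).getD s fin))
  st : ∀ s < l.length, e ((adn l fin).getD (s + 1) fin)
    = act (gt.getD (C.st s) default) (e ((adn l fin).getD s fin))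
  ix : ∀ c s, ∀ h : s < l.length,
    it.getD (C.ix c s) none = cvI act gs g0 e (l[s]).1 (insN c l[s])
  nm_len : C.nms.length = n
  nm : ∀ i, ∀ h : i < C.nms.length, C.nms[i] = al i

theorem count_map_eq {e : ℕ → Γ} {N : ℕ} (he : ∀ a < N, ∀ b < N, e a = e b → a = b) {k : List ℕ}
    (hk : ∀ a ∈ k, a < N) {a : ℕ} (ha : a < N) : (k.map e).count (e a) = k.count a := by
  rw [List.count, List.countP_map, List.count]
  refine List.countP_congr fun b hb => ?_
  simp only [Function.comp_apply, beq_iff_eq]
  exact ⟨fun h1 => he b (hk b hb) a ha h1, fun h1 => by rw [h1]⟩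

theorem getD_map_adn (e : ℕ → Γ) (l : List Stp2) (fin s : ℕ) :
    ((adn l fin).map e).getD s (e fin) = e ((adn l fin).getD s fin) := by
  rw [List.getD_eq_getElem?_getD, List.getD_eq_getElem?_getD, List.getElem?_map]
  cases (adn l fin)[s]? <;> rfl

theorem getD_mem_adn (l : List Stp2) (fin s : ℕ) (hs : s ≤ l.length) :
    (adn l fin).getD s fin ∈ adn l fin := by
  rw [List.getD_eq_getElem _ _ (by rw [adn_length]; omega)]
  exact List.getElem_mem _

/-- **the layout of a list of steps agrees with its coded layout** -/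
theorem CLOf.agree [Inhabited G] {act : G → Equiv.Perm Γ} {gs : List G} {g0 : G} {e : ℕ → Γ}
    {gt : List G} {it : List (Option (Fin 28 × Op G (Fin 28)))} {l : List Stp2} {fin n N : ℕ}
    {al : ℕ → ℕ} {C : CL} (h : CLOf act gs g0 e gt it l fin n al C)
    (he : ∀ a < N, ∀ b < N, e a = e b → a = b) (hlt : ∀ a ∈ l.map Prod.fst ++ [fin], a < N) :
    Agree act (lay act gs g0 e l fin n al) (C.lay e gt it : Layout Γ G (Fin 28) 128) := by
  have hL : (lay act gs g0 e l fin n al).L = l.length := by
    simp [lay, mkL]
  have hvis : ∀ s ≤ l.length, (C.lay e gt it : Layout Γ G (Fin 28) 128).vis s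
      = (lay act gs g0 e l fin n al).vis s := by
    intro s hs
    have hm := getD_mem_adn l fin s hs
    have h1 : (C.lay e gt it : Layout Γ G (Fin 28) 128).vis s
        = (e (C.pt s).1, Fin.ofNat 128 (C.pt s).2) := rfl
    have h2 : (lay act gs g0 e l fin n al).vis s
        = ((adr (l.map (cv act gs g0 e)) (e fin)).getD s (e fin),
          Fin.ofNat 128 (((adr (l.map (cv act gs g0 e)) (e fin)).take s).count
            ((adr (l.map (cv act gs g0 e)) (e fin)).getD s (e fin)))) := rfl
    rw [h1, h2, adr_cv, h.pt s hs]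
    have h3 := getD_map_adn e l fin s
    unfold adn at h3 hm ⊢
    rw [h3, ← List.map_take, count_map_eq he (fun a ha => hlt a (List.mem_of_mem_take ha))
      (hlt _ hm)]
  refine ⟨?_, ?_, ?_, ?_, ?_, ?_⟩
  · rw [hL]; exact h.len
  · intro s hs
    rw [hL] at hs
    exact hvis s hs
  · intro c s hs
    rw [hL] at hs
    have h1 : (C.lay e gt it : Layout Γ G (Fin 28) 128).ins c s = it.getD (C.ix c s) none := rfl
    rw [h1, h.ix c s hs]
    simp only [lay, mkL, List.getElem?_map, List.getElem?_eq_getElem hs, Option.map_some,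
      Option.bind_some]
    cases c <;> rfl
  · intro s hs
    rw [hL] at hs
    rw [hvis s hs.le, hvis (s + 1) hs]
    have h1 : ∀ s, ((lay act gs g0 e l fin n al).vis s).1
        = (adr (l.map (cv act gs g0 e)) (e fin)).getD s (e fin) := fun _ => rfl
    rw [h1, h1, adr_cv]
    have h2 := getD_map_adn e l fin s
    have h3 := getD_map_adn e l fin (s + 1)
    have h4 := h.st s hs
    unfold adn at h2 h3 h4
    rw [h2, h3]
    exact h4
  · exact h.nm_len
  · intro i
    have hi : (i : ℕ) < C.nms.length := i.2
    have h1 : (C.lay e gt it : Layout Γ G (Fin 28) 128).al i = e (C.nms.get i) := rfl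
    rw [h1, List.get_eq_getElem]
    exact congrArg e (h.nm i hi)

/-- **`Layout.OK` of the coded layout** -/
theorem CLOf.ok [Inhabited G] {act : G → Equiv.Perm Γ} {gs : List G} {g0 : G} {e : ℕ → Γ}
    {gt : List G} {it : List (Option (Fin 28 × Op G (Fin 28)))} {l : List Stp2} {fin n N : ℕ}
    {al : ℕ → ℕ} {C : CL} {near : ℕ → ℕ → Prop} (h : CLOf act gs g0 e gt it l fin n al C)
    (hnear : ∀ a b, near a b → Adj act gs (e a) (e b))
    (he : ∀ a < N, ∀ b < N, e a = e b → a = b) (hl : LyN near N l fin n al) :
    (C.lay e gt it : Layout Γ G (Fin 28) 128).OK act (Fin.ofNat 28 lOut) :=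
  (h.agree he hl.lt).ok (LayCv338.lay_ok hnear he hl)

end Crest.Agent.R289.LayAgree483
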