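import Crest.Agent.R289.Cand_589
import Crest.Agent.R289.LayVal_436
import Crest.Prelude.Def_EndOfLine

/-!
# Row 289, block C/E, leaf E21 (helper589): from blocked states to End-of-Line solutions

`Real I act out P`: the two programs of the layout compute the circuits of the instance.  Then
* `h0`: `S (P 0) ≠ 0` (hypothesis of the boot phase),
* `sol_fwd`, `sol_bwd`: the name of a blocked state is a solution,
* `read_X`, `read_Y`: the contents of the registers `X`, `Y` at the name addresses are the name bits,
* `cand_fwd`, `cand_bwd`: the candidate function `cReg` finds it.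
-/

set_option autoImplicit false
set_option linter.dupNamespace false

namespace Crest.Agent.R289.Sol589

open Crest.PPADPCP
open Crest.Agent.Lib.PT Crest.Agent.R289 Crest.Agent.R289.DefD
open Crest.Agent.R289.DecD950 Crest.Agent.R289.DefC Crest.Agent.R289.Cand589

variable {Γ G Λ : Type} {J : ℕ} [DecidableEq Γ] [DecidableEq Λ]

/-- a name of the layout as a name of the instance -/
def nam {m n : ℕ} (h : m = n) (v : Fin m → Bool) : Fin n → Bool := fun i => v (Fin.cast h.symm i)

theorem nam_inj {m n : ℕ} (h : m = n) {v w : Fin m → Bool} (e : nam h v = nam h w) : v = w := by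
  subst h; exact e

theorem nam_zero {m n : ℕ} (h : m = n) : nam h (fun _ => false) = fun _ => false := rfl

theorem ofFn_nam {m n : ℕ} (h : m = n) (v : Fin m → Bool) : List.ofFn (nam h v) = List.ofFn v := by
  subst h; rfl

/-- the two programs of the layout compute the two circuits -/
structure Real (I : EOL) (act : G → Equiv.Perm Γ) (out : Λ) (P : Layout Γ G Λ J) : Prop where
  hn : P.n = I.n
  hS : ∀ v, nam hn (P.outp act out false v) = I.S.apply (nam hn v)
  hP : ∀ v, nam hn (P.outp act out true v) = I.P.apply (nam hn v)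

variable {I : EOL} {act : G → Equiv.Perm Γ} {out : Λ} {P : Layout Γ G Λ J}

theorem Real.outp_false_zero_ne (hR : Real I act out P) (hI : I.WF) :
    P.outp act out false (fun _ => false) ≠ fun _ => false := by
  intro h
  apply hI.2.2.2.2.1
  rw [← nam_zero hR.hn, ← hR.hS, h]

/-- `P (S 0) = 0` -/
theorem Real.ps0 (hR : Real I act out P) (hI : I.WF) :
    P.outp act out true (P.outp act out false fun _ => false) = fun _ => false := by
  apply nam_inj hR.hn
  rw [hR.hP, hR.hS, nam_zero]
  exact hI.2.2.2.2.2

/-- `P 0 = 0` -/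
theorem Real.p0 (hR : Real I act out P) (hI : I.WF) :
    P.outp act out true (fun _ => false) = fun _ => false := by
  apply nam_inj hR.hn
  rw [hR.hP, nam_zero]
  exact hI.2.2.2.1

/-- `S (P 0) ≠ 0` -/
theorem Real.h0 (hR : Real I act out P) (hI : I.WF) :
    P.outp act out false (P.outp act out true fun _ => false) ≠ fun _ => false := by
  rw [hR.p0 hI]
  exact hR.outp_false_zero_ne hI

/-- forward blocked states carry solutions -/
theorem Real.sol_fwd (hR : Real I act out P) (hI : I.WF) {v : Fin P.n → Bool}
    (h : P.outp act out true (P.outp act out false v) ≠ v) : I.IsSolution (nam hR.hn v) := by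
  refine ⟨fun h0 => h ?_, Or.inl fun e => h (nam_inj hR.hn ?_)⟩
  · have : v = fun _ => false := nam_inj hR.hn h0
    rw [this]
    exact hR.ps0 hI
  · rw [hR.hP, hR.hS, e]

/-- backward blocked states other than the start carry solutions -/
theorem Real.sol_bwd (hR : Real I act out P) {v : Fin P.n → Bool}
    (hv : v ≠ fun _ => false) (h : P.outp act out false (P.outp act out true v) ≠ v) :
    I.IsSolution (nam hR.hn v) := by
  refine ⟨fun h0 => hv (nam_inj hR.hn h0), Or.inr fun e => h (nam_inj hR.hn ?_)⟩
  rw [hR.hS, hR.hP, e]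

section read
variable {K : Type} [CommRing K] [Nontrivial K] [DecidableEq K]

/-- the bit of a content symbol -/
def bit (x : K) : Bool := decide (x = 1)

@[simp] theorem bit_bt (b : Bool) : bit (bt K b) = b := by
  cases b <;> simp [bit, bt]

theorem read_X (hinj : Function.Injective P.al) (t : ℕ) (v : Fin P.n → Bool) (i : Fin P.n) :
    bit (encC act out P K Sg.b t v Rg.X (P.al i)) = v i := by
  show bit (bt K (P.nm (P.nX act out Sg.b v) (P.al i))) = v i
  rw [bit_bt, LayVal436.nm_al hinj]
  rfl

theorem read_Y (hinj : Function.Injective P.al) (t : ℕ) (v : Fin P.n → Bool) (i : Fin P.n) :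
    bit (encC act out P K Sg.c t v Rg.Y (P.al i)) = v i := by
  show bit (bt K (P.nm (P.nY act out Sg.c v) (P.al i))) = v i
  rw [bit_bt, LayVal436.nm_al hinj]
  rfl

end read

section cand
variable {γ : Type}

theorem mem_cReg' {l n m : ℕ} (g : (Fin l → Bool) → Bool) (ad : γ × ℕ → ℕ) (len : γ → ℕ) (c : γ)
    (w : Fin n → Fin l → Bool) (hm : m = len c) (v : Fin m → Bool)
    (h : ∀ i : Fin m, ∃ u : Fin n, (u : ℕ) = ad (c, i) ∧ g (w u) = v i) :
    List.ofFn v ∈ cReg l g ad len (c, tabW w) := by
  subst hm
  exact mem_cReg g ad len c w v h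

/-- **candidates**: if the label of the exact word at the unit of the `i`-th name address shows the
bit `i` of the name `v` of a blocked state, the candidate function returns a solution -/
theorem cand {l n : ℕ} (hR : Real I act out P) (g : (Fin l → Bool) → Bool) (ad : γ × ℕ → ℕ)
    (len : γ → ℕ) (c : γ) (hlen : len c = I.n) (w : Fin n → Fin l → Bool) (v : Fin P.n → Bool)
    (hsol : I.IsSolution (nam hR.hn v))
    (h : ∀ i : Fin P.n, ∃ u : Fin n, (u : ℕ) = ad (c, i) ∧ g (w u) = v i) :
    ∃ s, I.IsSolution s ∧ List.ofFn s ∈ cReg l g ad len (c, tabW w) := by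
  refine ⟨nam hR.hn v, hsol, ?_⟩
  rw [ofFn_nam]
  exact mem_cReg' g ad len c w (hR.hn.trans hlen.symm) v h

end cand

end Crest.Agent.R289.Sol589
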