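import Crest.Agent.R289.DefC_143
import Crest.Agent.R289.Sol_589

/-!
# Row 289, block C, C_REAL: transfer between layouts which agree on the used range

`Agree act P P'` : same length, same visits `s ≤ L`, same instructions `s < L`, same names, and the
steps of `P'` are correct.  Then `P.OK → P'.OK`, the runs agree, and `Real` transfers.
-/

set_option autoImplicit false
set_option linter.unusedSectionVars false

namespace Crest.Agent.R289.LayAgree483

open Crest.Agent.R289.DefC Crest.Agent.R289.Sol589

variable {Γ G Λ : Type} {J : ℕ}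

/-- agreement of two layouts on the used range -/
structure Agree (act : G → Equiv.Perm Γ) (P P' : Layout Γ G Λ J) : Prop where
  L : P'.L = P.L
  vis : ∀ s, s ≤ P.L → P'.vis s = P.vis s
  ins : ∀ c s, s < P.L → P'.ins c s = P.ins c s
  step : ∀ s, s < P.L → (P'.vis (s + 1)).1 = act (P'.dir s) (P'.vis s).1
  n : P'.n = P.n
  al : ∀ i : Fin P'.n, P'.al i = P.al (Fin.cast n i)

namespace Agree

variable {act : G → Equiv.Perm Γ} {P P' : Layout Γ G Λ J} (h : Agree act P P')

include h

/-- the names, the other way -/
theorem al' (i : Fin P.n) : P'.al (Fin.cast h.n.symm i) = P.al i := by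
  rw [h.al]
  congr 1

/-- **the conditions transfer** -/
theorem ok {out : Λ} (hP : P.OK act out) : P'.OK act out where
  inj s t hs ht e := by
    rw [h.L] at hs ht
    rw [h.vis s hs, h.vis t ht] at e
    exact hP.inj s t hs ht e
  step s hs := by
    rw [h.L] at hs
    exact h.step s hs
  once c s t l k k' hs ht e1 e2 e3 := by
    rw [h.L] at hs ht
    rw [h.ins c s hs] at e1
    rw [h.ins c t ht] at e2
    rw [h.vis s hs.le, h.vis t ht.le] at e3
    exact hP.once c s t l k k' hs ht e1 e2 e3
  arg c s l g1 l1 g2 l2 hs e := by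
    rw [h.L] at hs
    rw [h.ins c s hs] at e
    obtain ⟨⟨s1, h1, k1, a1, b1⟩, ⟨s2, h2, k2, a2, b2⟩⟩ := hP.arg c s l g1 l1 g2 l2 hs e
    refine ⟨⟨s1, h1, k1, ?_, ?_⟩, ⟨s2, h2, k2, ?_, ?_⟩⟩
    · rw [h.ins c s1 (h1.trans hs)]; exact a1
    · rw [h.vis s1 (h1.trans hs).le, h.vis s hs.le]; exact b1
    · rw [h.ins c s2 (h2.trans hs)]; exact a2
    · rw [h.vis s2 (h2.trans hs).le, h.vis s hs.le]; exact b2
  al_inj i j e := by
    rw [h.al, h.al] at e
    have := hP.al_inj e
    exact Fin.ext (by simpa using congrArg Fin.val this)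
  out_al c s k hs e := by
    rw [h.L] at hs
    rw [h.ins c s hs] at e
    obtain ⟨i, hi⟩ := hP.out_al c s k hs e
    exact ⟨Fin.cast h.n.symm i, by rw [h.al', h.vis s hs.le]; exact hi⟩
  al_out c i := by
    obtain ⟨s, hs, k, e1, e2⟩ := hP.al_out c (Fin.cast h.n i)
    refine ⟨s, by rw [h.L]; exact hs, k, ?_, ?_⟩
    · rw [h.ins c s hs]; exact e1
    · rw [h.vis s hs.le, h.al]; exact e2

section run

variable [DecidableEq Γ] [DecidableEq Λ]

/-- the runs agree -/
theorem run (c : Bool) (x : Γ → Bool) :
    ∀ t, t ≤ P.L → Layout.run act P' c x t = Layout.run act P c x t := by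
  intro t
  induction t with
  | zero => intro _; rfl
  | succ t ih =>
    intro ht
    have e1 := ih (by omega)
    have e2 := h.ins c t (by omega)
    have e3 := h.vis t (by omega)
    funext a l
    simp only [Layout.run]
    rw [e2, e3, e1]

/-- the final runs agree -/
theorem run_L (c : Bool) (x : Γ → Bool) :
    Layout.run act P' c x P'.L = Layout.run act P c x P.L := by
  rw [h.L, h.run c x P.L le_rfl]

/-- the name words agree -/
theorem nm (v : Fin P'.n → Bool) : P'.nm v = P.nm fun i => v (Fin.cast h.n.symm i) := by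
  funext a
  unfold Layout.nm
  congr 1
  apply propext
  constructor
  · rintro ⟨i, e1, e2⟩
    refine ⟨Fin.cast h.n i, ?_, ?_⟩
    · rw [← h.al]; exact e1
    · simpa using e2
  · rintro ⟨i, e1, e2⟩
    exact ⟨Fin.cast h.n.symm i, by rw [h.al']; exact e1, e2⟩

/-- the maps agree -/
theorem outp (out : Λ) (c : Bool) (v : Fin P'.n → Bool) (i : Fin P'.n) :
    P'.outp act out c v i
      = P.outp act out c (fun i => v (Fin.cast h.n.symm i)) (Fin.cast h.n i) := by
  unfold Layout.outp
  rw [h.nm v, h.run_L, h.al]

/-- **`Real` transfers** -/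
theorem real {I : Crest.PPADPCP.EOL} {out : Λ} (hR : Real I act out P) :
    Real I act out P' where
  hn := h.n.trans hR.hn
  hS v := by
    have e := hR.hS fun i => v (Fin.cast h.n.symm i)
    have e1 : nam (h.n.trans hR.hn) (P'.outp act out false v)
        = nam hR.hn (P.outp act out false fun i => v (Fin.cast h.n.symm i)) := by
      funext i
      simp only [nam]
      rw [h.outp]
      rfl
    rw [e1, e]
    rfl
  hP v := by
    have e := hR.hP fun i => v (Fin.cast h.n.symm i)
    have e1 : nam (h.n.trans hR.hn) (P'.outp act out true v)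
        = nam hR.hn (P.outp act out true fun i => v (Fin.cast h.n.symm i)) := by
      funext i
      simp only [nam]
      rw [h.outp]
      rfl
    rw [e1, e]
    rfl

end run

end Agree

end Crest.Agent.R289.LayAgree483
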