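import Mathlib
import Crest.Agent.R289.LayA_873
import Crest.Agent.R289.LayDef_109

/-!
# Value theorem, visit count and conversion for the layout of LayDef_109 (row 289, C_REAL)
-/

set_option autoImplicit false
set_option linter.unusedSectionVars false

namespace Crest.Agent.R289.LayV873

open Crest.Agent.R289.Layout109

/-! ### annotated steps (numbers) -/

/-- annotated step -/
abbrev AnN := ℕ × Option (ℕ × OpN × Bool)

/-- forget the values -/
def strip (w : AnN) : Stp := (w.1, w.2.map fun i => (i.1, i.2.1))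

/-- the facts established by a list -/
def factN (av : List AnN) : Set (ℕ × ℕ × Bool) :=
  {z | ∃ k, (z.1, some (z.2.1, k, z.2.2)) ∈ av}

/-- justified operation -/
def JustN (x : ℕ → Bool) (S : Set (ℕ × ℕ × Bool)) (a : ℕ) : OpN → Bool → Prop
  | none, v => v = x a
  | some (c1, c2), v => ∃ w w', (c1.1, c1.2, w) ∈ S ∧ (c2.1, c2.2, w') ∈ S ∧ v = !(w && w')

/-- every instruction is justified by `S` and the earlier ones -/
def GoodN (x : ℕ → Bool) : Set (ℕ × ℕ × Bool) → List AnN → Prop
  | _, [] => True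
  | S, (_, none) :: r => GoodN x S r
  | S, (a, some (l, k, v)) :: r => JustN x S a k v ∧ GoodN x (insert (a, l, v) S) r

theorem JustN.mono {x : ℕ → Bool} {S S' : Set (ℕ × ℕ × Bool)} {a : ℕ}
    {k : OpN} {v : Bool} (h : JustN x S a k v) (hS : S ⊆ S') : JustN x S' a k v := by
  cases k with
  | none => exact h
  | some c =>
    obtain ⟨c1, c2⟩ := c
    obtain ⟨w, w', h1, h2, h3⟩ := h
    exact ⟨w, w', hS h1, hS h2, h3⟩

theorem GoodN.mono {x : ℕ → Bool} {av : List AnN} :
    ∀ {S S' : Set (ℕ × ℕ × Bool)}, GoodN x S av → S ⊆ S' → GoodN x S' av := by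
  induction av with
  | nil => intro _ _ _ _; trivial
  | cons w r ih =>
    intro S S' h hS
    obtain ⟨a, o⟩ := w
    cases o with
    | none => exact ih (show GoodN x S r from h) hS
    | some i =>
      obtain ⟨l, k, v⟩ := i
      exact ⟨h.1.mono hS, ih h.2 (Set.insert_subset_insert hS)⟩

theorem factN_nil : factN [] = ∅ := by
  ext z
  simp [factN]

theorem factN_none (a : ℕ) (av : List AnN) : factN ((a, none) :: av) = factN av := by
  ext z
  simp [factN]

theorem factN_some (a l : ℕ) (k : OpN) (v : Bool) (av : List AnN) :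
    factN ((a, some (l, k, v)) :: av) = insert (a, l, v) (factN av) := by
  ext z
  obtain ⟨z1, z2, z3⟩ := z
  simp only [factN, List.mem_cons, Set.mem_ofPred_eq, Set.mem_insert_iff, Prod.mk.injEq,
    Option.some.injEq]
  constructor
  · rintro ⟨k', h | h⟩
    · exact .inl ⟨h.1, h.2.1, h.2.2.2⟩
    · exact .inr ⟨k', h⟩
  · rintro (⟨h1, h2, h3⟩ | ⟨k', h⟩)
    · exact ⟨k, .inl ⟨h1, h2, rfl, h3⟩⟩
    · exact ⟨k', .inr h⟩

theorem factN_append (av av' : List AnN) : factN (av ++ av') = factN av ∪ factN av' := by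
  ext z
  simp only [factN, List.mem_append, Set.mem_ofPred_eq, Set.mem_union]
  constructor
  · rintro ⟨k, h | h⟩
    · exact .inl ⟨k, h⟩
    · exact .inr ⟨k, h⟩
  · rintro (⟨k, h⟩ | ⟨k, h⟩)
    · exact ⟨k, .inl h⟩
    · exact ⟨k, .inr h⟩

theorem factN_mono {av av' : List AnN} (h : av ⊆ av') : factN av ⊆ factN av' :=
  fun _ ⟨k, hk⟩ => ⟨k, h hk⟩

theorem GoodN.append {x : ℕ → Bool} {av av' : List AnN} :
    ∀ {S : Set (ℕ × ℕ × Bool)}, GoodN x S av → GoodN x (S ∪ factN av) av' →
    GoodN x S (av ++ av') := by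
  induction av with
  | nil =>
    intro S _ h
    simpa [factN_nil] using h
  | cons w r ih =>
    intro S h h'
    obtain ⟨a, o⟩ := w
    cases o with
    | none =>
      rw [factN_none] at h'
      exact ih (show GoodN x S r from h) h'
    | some i =>
      obtain ⟨l, k, v⟩ := i
      rw [factN_some] at h'
      refine ⟨h.1, ih h.2 (h'.mono ?_)⟩
      rw [Set.insert_union, Set.union_insert]

theorem GoodN.flatMap {ι : Type} {x : ℕ → Bool} {f : ι → List AnN}
    {l : List ι} {S : Set (ℕ × ℕ × Bool)}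
    (h : ∀ (l1 l2 : List ι) (i : ι), l = l1 ++ i :: l2 →
      GoodN x (S ∪ factN (l1.flatMap f)) (f i)) :
    GoodN x S (l.flatMap f) := by
  have key : ∀ (l2 l1 : List ι), l = l1 ++ l2 →
      GoodN x (S ∪ factN (l1.flatMap f)) (l2.flatMap f) := by
    intro l2
    induction l2 with
    | nil => intro _ _; trivial
    | cons i l2 ih =>
      intro l1 e
      rw [List.flatMap_cons]
      refine (h l1 l2 i e).append ?_
      refine (ih (l1 ++ [i]) (by simp [e])).mono ?_
      rw [List.flatMap_append, factN_append, ← Set.union_assoc]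
      simp
  have := key l [] rfl
  simpa [factN_nil] using this

theorem GoodN.nones {x : ℕ → Bool} {av : List AnN} (h : ∀ w ∈ av, w.2 = none) :
    ∀ S, GoodN x S av := by
  induction av with
  | nil => intro _; trivial
  | cons w r ih =>
    intro S
    obtain ⟨a, o⟩ := w
    have : o = none := h (a, o) (by simp)
    subst this
    exact ih (fun w hw => h w (List.mem_cons_of_mem _ hw)) S

/-! ### annotated program -/

/-- copy, with values -/
def cpA (b : Bool) (z0 z : Cel) : List AnN :=
  [(z.1, some (z.2 + 1, some (z0, z0), !b)),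
   (z.1, some (z.2, some ((z.1, z.2 + 1), (z.1, z.2 + 1)), b))]

/-- forward part, with values -/
def fwdA (b : Bool) (z0 : Cel) (zs : List Cel) : List AnN :=
  ((z0 :: zs).zip zs).flatMap fun e => cpA b e.1 e.2

/-- way back, with values -/
def bwdA (z0 : Cel) (zs : List Cel) : List AnN :=
  ((z0 :: zs).map fun z => ((z.1, none) : AnN)).reverse

/-- cable, with values -/
def cableA (b : Bool) (z0 : Cel) (zs : List Cel) : List AnN := fwdA b z0 zs ++ bwdA z0 zs

/-- block, with values -/
def blockA (b : Bool) (g : Cel) (o : OpN) (cs : List (List Cel)) : List AnN :=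
  (g.1, some (g.2, o, b)) :: cs.flatMap (cableA b g)

/-- program, with values -/
def progA (val : ℕ → Bool) (nT : ℕ) (θ hp : List ℕ) (n : ℕ) (ops : List (ℕ × ℕ × ℕ))
    (W : List Wir) : List AnN :=
  (List.range (n + ops.length)).flatMap fun t =>
    blockA (val t) (home nT θ hp t, 0) (gop n ops (home nT θ hp t) t)
      ((W.filter fun w => w.2.1.1 == t).map (cells nT θ))

theorem cpA_strip (b : Bool) (z0 z : Cel) : (cpA b z0 z).map strip = cp z0 z := rfl

theorem fwdA_strip (b : Bool) (z0 : Cel) (zs : List Cel) :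
    (fwdA b z0 zs).map strip = fwd z0 zs := by
  unfold fwdA fwd
  rw [List.map_flatMap]
  rfl

theorem bwdA_strip (z0 : Cel) (zs : List Cel) : (bwdA z0 zs).map strip = bwd z0 zs := by
  unfold bwdA bwd
  rw [List.map_reverse, List.map_map]
  rfl

theorem cableA_strip (b : Bool) (z0 : Cel) (zs : List Cel) :
    (cableA b z0 zs).map strip = cable z0 zs := by
  unfold cableA cable
  rw [List.map_append, fwdA_strip, bwdA_strip]

theorem blockA_strip (b : Bool) (g : Cel) (o : OpN) (cs : List (List Cel)) :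
    (blockA b g o cs).map strip = block g o cs := by
  unfold blockA block
  rw [List.map_cons, List.map_flatMap]
  simp only [cableA_strip]
  rfl

theorem progA_strip (val : ℕ → Bool) (nT : ℕ) (θ hp : List ℕ) (n : ℕ) (ops : List (ℕ × ℕ × ℕ))
    (W : List Wir) : (progA val nT θ hp n ops W).map strip = prog nT θ hp n ops W := by
  unfold progA prog blockAt
  rw [List.map_flatMap]
  simp only [blockA_strip]

/-! ### facts and justification of cables -/

theorem fwdA_cons (b : Bool) (z0 z : Cel) (zs : List Cel) :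
    fwdA b z0 (z :: zs) = cpA b z0 z ++ fwdA b z zs := by
  unfold fwdA
  rw [List.zip_cons_cons, List.flatMap_cons]

theorem fwdA_facts (b : Bool) (z0 : Cel) (zs : List Cel) (z : Cel) (hz : z ∈ zs) :
    (z.1, z.2, b) ∈ factN (fwdA b z0 zs) ∧ (z.1, z.2 + 1, !b) ∈ factN (fwdA b z0 zs) := by
  induction zs generalizing z0 with
  | nil => simp at hz
  | cons y zs ih =>
    rw [fwdA_cons, factN_append]
    rcases List.mem_cons.1 hz with rfl | hz
    · refine ⟨.inl ?_, .inl ?_⟩
      · exact ⟨some ((z.1, z.2 + 1), (z.1, z.2 + 1)), by simp [cpA]⟩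
      · exact ⟨some (z0, z0), by simp [cpA]⟩
    · obtain ⟨h1, h2⟩ := ih y hz
      exact ⟨.inr h1, .inr h2⟩

theorem fwdA_good (x : ℕ → Bool) (b : Bool) (z0 : Cel) (zs : List Cel)
    (S : Set (ℕ × ℕ × Bool)) (h : (z0.1, z0.2, b) ∈ S) : GoodN x S (fwdA b z0 zs) := by
  induction zs generalizing z0 S with
  | nil => trivial
  | cons y zs ih =>
    rw [fwdA_cons]
    refine GoodN.append ?_ (ih y _ ?_)
    · refine ⟨⟨b, b, h, h, by simp⟩, ⟨!b, !b, ?_, ?_, by simp⟩, trivial⟩
      · exact Set.mem_insert _ _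
      · exact Set.mem_insert _ _
    · exact .inr ⟨some ((y.1, y.2 + 1), (y.1, y.2 + 1)), by simp [cpA]⟩

theorem cableA_good (x : ℕ → Bool) (b : Bool) (z0 : Cel) (zs : List Cel)
    (S : Set (ℕ × ℕ × Bool)) (h : (z0.1, z0.2, b) ∈ S) : GoodN x S (cableA b z0 zs) := by
  refine (fwdA_good x b z0 zs S h).append (GoodN.nones ?_ _)
  intro w hw
  simp only [bwdA, List.mem_reverse, List.mem_map] at hw
  obtain ⟨z, -, rfl⟩ := hw
  rfl

theorem cableA_facts (b : Bool) (z0 : Cel) (zs : List Cel) (z : Cel) (hz : z ∈ zs) :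
    (z.1, z.2, b) ∈ factN (cableA b z0 zs) ∧ (z.1, z.2 + 1, !b) ∈ factN (cableA b z0 zs) := by
  obtain ⟨h1, h2⟩ := fwdA_facts b z0 zs z hz
  unfold cableA
  rw [factN_append]
  exact ⟨.inl h1, .inl h2⟩

theorem blockA_good (x : ℕ → Bool) (b : Bool) (g : Cel) (o : OpN) (cs : List (List Cel))
    (S : Set (ℕ × ℕ × Bool)) (h : JustN x S g.1 o b) : GoodN x S (blockA b g o cs) := by
  refine ⟨h, ?_⟩
  refine GoodN.flatMap ?_
  intro l1 l2 zs _
  exact cableA_good x b g zs _ (.inl (Set.mem_insert _ _))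

theorem blockA_fact0 (b : Bool) (g : Cel) (o : OpN) (cs : List (List Cel)) :
    (g.1, g.2, b) ∈ factN (blockA b g o cs) :=
  ⟨o, by simp [blockA]⟩

theorem blockA_facts (b : Bool) (g : Cel) (o : OpN) (cs : List (List Cel)) (zs : List Cel)
    (hzs : zs ∈ cs) (z : Cel) (hz : z ∈ zs) :
    (z.1, z.2, b) ∈ factN (blockA b g o cs) ∧ (z.1, z.2 + 1, !b) ∈ factN (blockA b g o cs) := by
  have hsub : cableA b g zs ⊆ blockA b g o cs := by
    intro w hw
    unfold blockA
    exact List.mem_cons_of_mem _ (List.mem_flatMap.2 ⟨zs, hzs, hw⟩)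
  obtain ⟨h1, h2⟩ := cableA_facts b g zs z hz
  exact ⟨factN_mono hsub h1, factN_mono hsub h2⟩

/-! ### the value theorem -/

/-- the wires needed by a compiled circuit are present -/
structure WOK (nT : ℕ) (θ hp : List ℕ) (n : ℕ) (ops : List (ℕ × ℕ × ℕ)) (outs : List ℕ)
    (W : List Wir) : Prop where
  th : θ ≠ []
  head : ∀ w ∈ W, w.2.2.2.headD 0 = hp.getD w.2.1.1 0
  last : ∀ w ∈ W, w.2.2.2.getLastD 0 = hp.getD w.2.1.2 0
  mem : ∀ e ∈ wires n ops outs, ∃ w ∈ W, w.1 = e.1 ∧ w.2.1 = e.2
  lt0 : ∀ i, i < ops.length → (ops.getD i (0, 0, 0)).2.1 < n + i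
  lt1 : ∀ i, i < ops.length → (ops.getD i (0, 0, 0)).1 ≠ 0 → (ops.getD i (0, 0, 0)).2.2 < n + i
  out : ∀ j, j < outs.length → outs.getD j 0 < n + ops.length

/-- the equations of the values -/
structure VOK (nT : ℕ) (θ hp : List ℕ) (n : ℕ) (ops : List (ℕ × ℕ × ℕ)) (x : ℕ → Bool)
    (val : ℕ → Bool) : Prop where
  inp : ∀ t, t < n → val t = x (home nT θ hp t)
  cpy : ∀ i, i < ops.length → (ops.getD i (0, 0, 0)).1 = 0 →
    val (n + i) = val (ops.getD i (0, 0, 0)).2.1
  nnd : ∀ i, i < ops.length → (ops.getD i (0, 0, 0)).1 ≠ 0 →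
    val (n + i) = !(val (ops.getD i (0, 0, 0)).2.1 && val (ops.getD i (0, 0, 0)).2.2)

section value

variable {nT : ℕ} {θ hp : List ℕ} {n : ℕ} {ops : List (ℕ × ℕ × ℕ)} {outs : List ℕ} {W : List Wir}
  {x : ℕ → Bool} {val : ℕ → Bool}

theorem mem_wires0 {i : ℕ} (hi : i < ops.length) (h : (ops.getD i (0, 0, 0)).1 = 0) :
    (0, ((ops.getD i (0, 0, 0)).2.1, n + i)) ∈ wires n ops outs := by
  unfold wires
  refine List.mem_append_left _ (List.mem_flatMap.2 ⟨(ops[i], i), ?_, ?_⟩)
  · rw [List.mem_zipIdx_iff_getElem?]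
    simp [hi]
  · have e : ops.getD i (0, 0, 0) = ops[i] := by simp [hi]
    rw [e] at h ⊢
    simp [h]

theorem mem_wires1 {i : ℕ} (hi : i < ops.length) (h : (ops.getD i (0, 0, 0)).1 ≠ 0) :
    (1, ((ops.getD i (0, 0, 0)).2.1, n + i)) ∈ wires n ops outs ∧
    (2, ((ops.getD i (0, 0, 0)).2.2, n + i)) ∈ wires n ops outs := by
  have e : ops.getD i (0, 0, 0) = ops[i] := by simp [hi]
  rw [e] at h ⊢
  unfold wires
  constructor
  · refine List.mem_append_left _ (List.mem_flatMap.2 ⟨(ops[i], i), ?_, ?_⟩)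
    · rw [List.mem_zipIdx_iff_getElem?]
      simp [hi]
    · simp [h]
  · refine List.mem_append_left _ (List.mem_flatMap.2 ⟨(ops[i], i), ?_, ?_⟩)
    · rw [List.mem_zipIdx_iff_getElem?]
      simp [hi]
    · simp [h]

theorem mem_wires3 {j : ℕ} (hj : j < outs.length) :
    (3, (outs.getD j 0, j)) ∈ wires n ops outs := by
  unfold wires
  refine List.mem_append_right _ (List.mem_map.2 ⟨(outs[j], j), ?_, ?_⟩)
  · rw [List.mem_zipIdx_iff_getElem?]
    simp [hj]
  · simp [hj]

/-- the cable of a wire reaches lane `lD c` of the home of its target -/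
theorem mem_cells_down (h : WOK nT θ hp n ops outs W) {w : Wir} (hw : w ∈ W) :
    (home nT θ hp w.2.1.2, lD w.1) ∈ cells nT θ w := by
  unfold cells
  refine List.mem_append_left _ (List.mem_append_right _ ?_)
  rw [List.mem_reverse, List.mem_map]
  obtain ⟨a, θ', e⟩ := List.exists_cons_of_ne_nil h.th
  subst e
  refine ⟨a, by simp, ?_⟩
  rw [h.last w hw]
  simp [home, ad]

theorem mem_cells_out (h : WOK nT θ hp n ops outs W) {w : Wir} (hw : w ∈ W) (h3 : w.1 = 3) :
    (home nT θ hp w.2.1.2, lOut) ∈ cells nT θ w := by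
  unfold cells
  refine List.mem_append_right _ ?_
  rw [if_pos h3, h.last w hw]
  simp [home]

/-- what block `t` has established before block `t'` -/
theorem facts_of_wire {w : Wir} (hw : w ∈ W) {l1 : List ℕ}
    (hl : w.2.1.1 ∈ l1) {z : Cel} (hz : z ∈ cells nT θ w) :
    (z.1, z.2, val w.2.1.1) ∈ factN (l1.flatMap fun t =>
      blockA (val t) (home nT θ hp t, 0) (gop n ops (home nT θ hp t) t)
        ((W.filter fun w => w.2.1.1 == t).map (cells nT θ))) ∧
    (z.1, z.2 + 1, !val w.2.1.1) ∈ factN (l1.flatMap fun t =>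
      blockA (val t) (home nT θ hp t, 0) (gop n ops (home nT θ hp t) t)
        ((W.filter fun w => w.2.1.1 == t).map (cells nT θ))) := by
  have hb := blockA_facts (val w.2.1.1) (home nT θ hp w.2.1.1, 0)
    (gop n ops (home nT θ hp w.2.1.1) w.2.1.1)
    ((W.filter fun w' => w'.2.1.1 == w.2.1.1).map (cells nT θ)) (cells nT θ w)
    (List.mem_map.2 ⟨w, List.mem_filter.2 ⟨hw, by simp⟩, rfl⟩) z hz
  have hsub : blockA (val w.2.1.1) (home nT θ hp w.2.1.1, 0)
      (gop n ops (home nT θ hp w.2.1.1) w.2.1.1)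
      ((W.filter fun w' => w'.2.1.1 == w.2.1.1).map (cells nT θ)) ⊆ (l1.flatMap fun t =>
      blockA (val t) (home nT θ hp t, 0) (gop n ops (home nT θ hp t) t)
        ((W.filter fun w => w.2.1.1 == t).map (cells nT θ))) := by
    intro u hu
    exact List.mem_flatMap.2 ⟨w.2.1.1, hl, hu⟩
  exact ⟨factN_mono hsub hb.1, factN_mono hsub hb.2⟩

/-- **every instruction of the program is justified** -/
theorem progA_good (h : WOK nT θ hp n ops outs W) (hv : VOK nT θ hp n ops x val) :
    GoodN x ∅ (progA val nT θ hp n ops W) := by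
  unfold progA
  refine GoodN.flatMap ?_
  intro l1 l2 t e
  have hl1 : l1 = List.range t := by
    have h1 := congrArg (fun l => l[l1.length]?) e
    simp only [List.getElem?_append_right (le_refl _), Nat.sub_self,
      List.getElem?_cons_zero] at h1
    rw [List.getElem?_range] at h1
    · have ht : l1.length = t := by simpa using h1
      have h2 := congrArg (List.take l1.length) e
      rw [List.take_left, List.take_range, ht] at h2
      rw [← h2]
      congr 1
      have h3 := congrArg List.length e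
      rw [List.length_append, List.length_range, List.length_cons] at h3
      omega
    · have h3 := congrArg List.length e
      rw [List.length_append, List.length_range, List.length_cons] at h3
      omega
  have ht : t < n + ops.length := by
    have : t ∈ List.range (n + ops.length) := by rw [e]; simp
    simpa using this
  refine blockA_good x _ _ _ _ _ ?_
  show JustN x _ (home nT θ hp t) (gop n ops (home nT θ hp t) t) (val t)
  unfold gop
  by_cases h1 : t < n
  · rw [if_pos h1]
    exact hv.inp t h1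
  · rw [if_neg h1]
    have hi : t - n < ops.length := by omega
    have ht' : n + (t - n) = t := by omega
    by_cases h2 : (ops.getD (t - n) (0, 0, 0)).1 = 0
    · rw [if_pos h2]
      obtain ⟨w, hw, w1, w2⟩ := h.mem _ (mem_wires0 (n := n) (outs := outs) hi h2)
      have hsrc : w.2.1.1 ∈ l1 := by
        rw [hl1, List.mem_range, w2]
        have := h.lt0 (t - n) hi
        show (ops.getD (t - n) (0, 0, 0)).2.1 < t
        omega
      have hc := (facts_of_wire (val := val) (n := n) (ops := ops) (hp := hp) hw hsrc (mem_cells_down h hw)).2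
      rw [w2, w1, ht'] at hc
      refine ⟨_, _, .inr hc, .inr hc, ?_⟩
      have := hv.cpy (t - n) hi h2
      rw [ht'] at this
      rw [this]
      simp
    · rw [if_neg h2]
      obtain ⟨m1, m2⟩ := mem_wires1 (n := n) (outs := outs) hi h2
      obtain ⟨w, hw, w1, w2⟩ := h.mem _ m1
      obtain ⟨u, hu, u1, u2⟩ := h.mem _ m2
      have hsrc : w.2.1.1 ∈ l1 := by
        rw [hl1, List.mem_range, w2]
        have := h.lt0 (t - n) hi
        show (ops.getD (t - n) (0, 0, 0)).2.1 < t
        omega
      have hsrc' : u.2.1.1 ∈ l1 := by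
        rw [hl1, List.mem_range, u2]
        have := h.lt1 (t - n) hi h2
        show (ops.getD (t - n) (0, 0, 0)).2.2 < t
        omega
      have hc := (facts_of_wire (val := val) (n := n) (ops := ops) (hp := hp) hw hsrc (mem_cells_down h hw)).1
      have hd := (facts_of_wire (val := val) (n := n) (ops := ops) (hp := hp) hu hsrc' (mem_cells_down h hu)).1
      rw [w2, w1, ht'] at hc
      rw [u2, u1, ht'] at hd
      refine ⟨_, _, .inr hc, .inr hd, ?_⟩
      have := hv.nnd (t - n) hi h2
      rw [ht'] at this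
      exact this

/-- the gate facts -/
theorem progA_fact {t : ℕ} (ht : t < n + ops.length) :
    (home nT θ hp t, 0, val t) ∈ factN (progA val nT θ hp n ops W) := by
  have hsub : blockA (val t) (home nT θ hp t, 0) (gop n ops (home nT θ hp t) t)
      ((W.filter fun w => w.2.1.1 == t).map (cells nT θ)) ⊆ progA val nT θ hp n ops W := by
    intro u hu
    exact List.mem_flatMap.2 ⟨t, List.mem_range.2 ht, hu⟩
  exact factN_mono hsub (blockA_fact0 _ _ _ _)

/-- **the output facts** -/
theorem progA_out (h : WOK nT θ hp n ops outs W) {j : ℕ} (hj : j < outs.length) :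
    (home nT θ hp j, lOut, val (outs.getD j 0)) ∈ factN (progA val nT θ hp n ops W) := by
  obtain ⟨w, hw, w1, w2⟩ := h.mem _ (mem_wires3 (n := n) (ops := ops) hj)
  have hsrc : w.2.1.1 ∈ List.range (n + ops.length) := by
    rw [List.mem_range, w2]
    exact h.out j hj
  have := (facts_of_wire (val := val) (n := n) (ops := ops) (hp := hp) hw hsrc (mem_cells_out h hw w1)).1
  rw [w2] at this
  exact this

end value

end Crest.Agent.R289.LayV873
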