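import Mathlib
import Crest.Agent.R289.LayV_873
import Crest.Agent.R289.LayN_873
import Crest.Agent.R289.LayVal_436

/-!
# From the list of steps to `DefC.Layout` (row 289, C_REAL)

`Of act e ln l fin P` : the layout `P` realises the list `l` of steps (LayDef_109, numbers).
`Of.ok` : `Layout.OK`; `Of.outp` : the map computed by a program.
`lay`, `lay_of` : a layout (first step of a list, visit number = number of earlier visits).
-/

set_option autoImplicit false
set_option linter.unusedSectionVars false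

namespace Crest.Agent.R289.LayC873

open Crest.Agent.R289.DefC Crest.Agent.R289.Layout109 Crest.Agent.R289.LayV873
  Crest.Agent.R289.LayN873

variable {Γ G Λ : Type} {J : ℕ}

/-- instruction of program `c` -/
def insN (v : Stp2) (c : Bool) : Option (ℕ × OpN) := bif c then v.2.2 else v.2.1

/-- steps of program `c` -/
def pr (c : Bool) (l : List Stp2) : List Stp := l.map fun v => (v.1, insN v c)

/-- the operation `k` at the address number `a` realises `o` -/
def RealO (act : G → Equiv.Perm Γ) (e : ℕ → Γ) (ln : ℕ → Λ) (a : ℕ) : OpN → Op G Λ → Prop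
  | none, k => k = .inp
  | some (c1, c2), k => ∃ g1 g2, k = .nand g1 (ln c1.2) g2 (ln c2.2) ∧
      act g1 (e a) = e c1.1 ∧ act g2 (e a) = e c2.1

/-- the layout `P` realises the steps `l` and the last address `fin` -/
structure Of (act : G → Equiv.Perm Γ) (e : ℕ → Γ) (ln : ℕ → Λ) (l : List Stp2) (fin : ℕ)
    (P : Layout Γ G Λ J) : Prop where
  len : P.L = l.length
  vis1 : ∀ s ≤ l.length, (P.vis s).1 = e ((adN l fin).getD s fin)
  vis2 : ∀ s ≤ l.length, ((P.vis s).2 : ℕ) = ((adN l fin).take s).count ((adN l fin).getD s fin)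
  step : ∀ s < l.length, (P.vis (s + 1)).1 = act (P.dir s) (P.vis s).1
  nil : ∀ c s v, l[s]? = some v → insN v c = none → P.ins c s = none
  ins : ∀ c s v i, l[s]? = some v → insN v c = some i →
    ∃ k, P.ins c s = some (ln i.1, k) ∧ RealO act e ln v.1 i.2 k

theorem GoodN.index {x : ℕ → Bool} {av : List AnN} :
    ∀ {S : Set (ℕ × ℕ × Bool)}, GoodN x S av → ∀ (s a l : ℕ) (k : OpN) (v : Bool),
    av[s]? = some (a, some (l, k, v)) → JustN x (S ∪ factN (av.take s)) a k v := by
  induction av with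
  | nil => intro S _ s a l k v h; simp at h
  | cons w r ih =>
    intro S h s a l k v hs
    obtain ⟨b, o⟩ := w
    cases s with
    | zero =>
      simp only [List.getElem?_cons_zero, Option.some.injEq] at hs
      cases hs
      exact h.1.mono (by simp)
    | succ s =>
      rw [List.getElem?_cons_succ] at hs
      rw [List.take_succ_cons]
      cases o with
      | none =>
        rw [factN_none]
        exact ih (show GoodN x S r from h) s a l k v hs
      | some i =>
        obtain ⟨l', k', v'⟩ := i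
        rw [factN_some]
        refine (ih h.2 s a l k v hs).mono ?_
        rw [Set.insert_union, Set.union_insert]

/-- expected value of instruction `s` -/
def Ev (av : List AnN) (s : ℕ) : Bool :=
  match av[s]? with
  | some (_, some i) => i.2.2
  | _ => false

theorem adN_getD {l : List Stp2} {fin s : ℕ} {v : Stp2} (h : l[s]? = some v) :
    (adN l fin).getD s fin = v.1 := by
  obtain ⟨hs, e⟩ := List.getElem?_eq_some_iff.1 h
  unfold adN
  rw [List.getD_eq_getElem?_getD, List.getElem?_append_left (by simpa using hs)]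
  simp [h]

theorem adN_mem {l : List Stp2} {fin s : ℕ} : (adN l fin).getD s fin ∈ adN l fin := by
  rw [List.getD_eq_getElem?_getD]
  cases h : (adN l fin)[s]? with
  | none => simp [adN]
  | some a => exact List.mem_of_getElem? h

theorem mem_wr_pr {l : List Stp2} {c : Bool} {s : ℕ} {v : Stp2} {i : ℕ × OpN}
    (h : l[s]? = some v) (hi : insN v c = some i) : (v.1, i.1) ∈ wr (pr c l) := by
  unfold wr pr
  rw [List.mem_filterMap]
  exact ⟨(v.1, insN v c), List.mem_map.2 ⟨v, List.mem_of_getElem? h, rfl⟩, by simp [hi]⟩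

theorem of_mem_wr_pr {l : List Stp2} {c : Bool} {z : Cel} (h : z ∈ wr (pr c l)) :
    ∃ (s : ℕ) (v : Stp2) (i : ℕ × OpN), l[s]? = some v ∧ insN v c = some i ∧ z = (v.1, i.1) := by
  unfold wr pr at h
  rw [List.mem_filterMap] at h
  obtain ⟨w, hw, hz⟩ := h
  obtain ⟨v, hv, rfl⟩ := List.mem_map.1 hw
  obtain ⟨s, hs⟩ := List.getElem?_of_mem hv
  cases hi : insN v c with
  | none => simp [hi] at hz
  | some i =>
    simp [hi] at hz
    exact ⟨s, v, i, hs, hi, hz.symm⟩

section of

variable {act : G → Equiv.Perm Γ} {e : ℕ → Γ} {ln : ℕ → Λ} {l : List Stp2} {fin : ℕ}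
  {P : Layout Γ G Λ J}

theorem Of.ins_inv (h : Of act e ln l fin P) {c : Bool} {s : ℕ} (hs : s < P.L) {a : Λ}
    {k : Op G Λ} (hk : P.ins c s = some (a, k)) :
    ∃ v i, l[s]? = some v ∧ insN v c = some i ∧ a = ln i.1 ∧ RealO act e ln v.1 i.2 k ∧
      (P.vis s).1 = e v.1 := by
  rw [h.len] at hs
  have hv : l[s]? = some l[s] := List.getElem?_eq_getElem hs
  cases hi : insN l[s] c with
  | none =>
    rw [h.nil c s _ hv hi] at hk
    simp at hk
  | some i =>
    obtain ⟨k', e1, e2⟩ := h.ins c s _ i hv hi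
    rw [e1] at hk
    simp only [Option.some.injEq, Prod.mk.injEq] at hk
    obtain ⟨rfl, rfl⟩ := hk
    refine ⟨l[s], i, hv, hi, rfl, e2, ?_⟩
    rw [h.vis1 s hs.le, adN_getD hv]

/-- numbering conditions -/
structure Num (e : ℕ → Γ) (ln : ℕ → Λ) (N : ℕ) (l : List Stp2) (fin : ℕ) : Prop where
  e_inj : ∀ a b, a < N → b < N → e a = e b → a = b
  ln_inj : ∀ i j, i < 28 → j < 28 → ln i = ln j → i = j
  lt : ∀ a ∈ adN l fin, a < N
  lane : ∀ c, ∀ z ∈ wr (pr c l), z.2 < 28
  nodup : ∀ c, (wr (pr c l)).Nodup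

theorem Num.addr {N : ℕ} (hN : Num e ln N l fin) {s : ℕ} {v : Stp2} (h : l[s]? = some v) :
    v.1 < N := by
  rw [← adN_getD (fin := fin) h]
  exact hN.lt _ adN_mem

theorem Of.once (h : Of act e ln l fin P) {N : ℕ} (hN : Num e ln N l fin) (c : Bool) :
    LayVal436.Once P c := by
  intro s t a k k' hs ht hks hkt hv
  obtain ⟨v, i, v1, v2, v3, -, v5⟩ := h.ins_inv hs hks
  obtain ⟨w, j, w1, w2, w3, -, w5⟩ := h.ins_inv ht hkt
  have e1 : v.1 = w.1 := hN.e_inj _ _ (hN.addr v1) (hN.addr w1) (by rw [← v5, ← w5, hv])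
  have e2 : i.1 = j.1 := hN.ln_inj _ _ (hN.lane c _ (mem_wr_pr v1 v2))
    (hN.lane c _ (mem_wr_pr w1 w2)) (by rw [← v3, ← w3])
  have hP : l.Pairwise fun v w => ∀ i, insN v c = some i → ∀ j, insN w c = some j →
      (v.1, i.1) ≠ (w.1, j.1) := by
    have := hN.nodup c
    unfold wr pr List.Nodup at this
    rw [List.pairwise_filterMap, List.pairwise_map] at this
    refine this.imp ?_
    intro v w h i hi j hj
    exact h _ (by simp [hi]) _ (by simp [hj])
  obtain ⟨ls, es⟩ := List.getElem?_eq_some_iff.1 v1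
  obtain ⟨lt, et⟩ := List.getElem?_eq_some_iff.1 w1
  rcases Nat.lt_trichotomy s t with hst | hst | hst
  · exfalso
    have := List.pairwise_iff_getElem.1 hP s t ls lt hst
    rw [es, et] at this
    exact this i v2 j w2 (by rw [e1, e2])
  · exact hst
  · exfalso
    have := List.pairwise_iff_getElem.1 hP t s lt ls hst
    rw [es, et] at this
    exact this j w2 i v2 (by rw [e1, e2])

theorem Of.inj (h : Of act e ln l fin P) {N : ℕ} (hN : Num e ln N l fin) (s t : ℕ)
    (hs : s ≤ P.L) (ht : t ≤ P.L) (hv : P.vis s = P.vis t) : s = t := by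
  rw [h.len] at hs ht
  have key : ∀ s t, s ≤ l.length → t ≤ l.length → P.vis s = P.vis t → ¬ s < t := by
    intro s t hs ht hv hst
    have e1 : (adN l fin).getD s fin = (adN l fin).getD t fin :=
      hN.e_inj _ _ (hN.lt _ adN_mem) (hN.lt _ adN_mem)
        (by rw [← h.vis1 s hs, ← h.vis1 t ht, hv])
    have e2 := h.vis2 s hs
    have e3 := h.vis2 t ht
    rw [hv, e3, ← e1] at e2
    have hlen : (adN l fin).length = l.length + 1 := by simp [adN]
    have h1 : ((adN l fin).take (s + 1)).count ((adN l fin).getD s fin) ≤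
        ((adN l fin).take t).count ((adN l fin).getD s fin) :=
      List.Sublist.count_le _ (List.take_prefix_take_left (by omega)).sublist
    have h2 : ((adN l fin).take (s + 1)).count ((adN l fin).getD s fin) =
        ((adN l fin).take s).count ((adN l fin).getD s fin) + 1 := by
      rw [List.take_add_one, List.count_append]
      have : (adN l fin)[s]? = some ((adN l fin).getD s fin) := by
        rw [List.getD_eq_getElem?_getD, List.getElem?_eq_getElem (by omega)]
        simp
      rw [this]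
      simp
    omega
  rcases Nat.lt_trichotomy s t with hst | hst | hst
  · exact absurd hst (key s t hs ht hv)
  · exact hst
  · exact absurd hst (key t s ht hs hv.symm)

/-- position in the annotated list -/
theorem av_index {c : Bool} {av : List AnN} (hA : av.map strip = pr c l) {s : ℕ} {v : Stp2}
    {i : ℕ × OpN} (h1 : l[s]? = some v) (h2 : insN v c = some i) :
    ∃ b, av[s]? = some (v.1, some (i.1, i.2, b)) := by
  have h3 := congrArg (fun l => l[s]?) hA
  simp only [pr, List.getElem?_map, h1, Option.map_some, h2] at h3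
  cases h4 : av[s]? with
  | none => rw [h4] at h3; simp at h3
  | some u =>
    rw [h4] at h3
    obtain ⟨a, o⟩ := u
    simp only [Option.map_some, strip, Option.some.injEq, Prod.mk.injEq] at h3
    obtain ⟨rfl, h5⟩ := h3
    cases o with
    | none => simp at h5
    | some j =>
      obtain ⟨j1, j2, j3⟩ := j
      simp only [Option.map_some, Option.some.injEq] at h5
      subst h5
      exact ⟨j3, rfl⟩

theorem av_fact {c : Bool} {av : List AnN} (hA : av.map strip = pr c l) {s a b : ℕ} {w : Bool}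
    (h : (a, b, w) ∈ factN (av.take s)) :
    ∃ s' < s, ∃ v k, l[s']? = some v ∧ insN v c = some (b, k) ∧ v.1 = a ∧
      av[s']? = some (a, some (b, k, w)) := by
  obtain ⟨k, hk⟩ := h
  obtain ⟨s', hs', e'⟩ := List.getElem_of_mem hk
  rw [List.getElem_take] at e'
  rw [List.length_take] at hs'
  have h1 : av[s']? = some (a, some (b, k, w)) := by
    rw [List.getElem?_eq_getElem (by omega), e']
  have h3 := congrArg (fun l => l[s']?) hA
  simp only [pr, List.getElem?_map, h1, Option.map_some] at h3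
  cases h4 : l[s']? with
  | none => rw [h4] at h3; simp at h3
  | some v =>
    rw [h4] at h3
    simp only [Option.map_some, strip, Option.some.injEq, Prod.mk.injEq] at h3
    exact ⟨s', by omega, v, k, h4, h3.2.symm, h3.1.symm, h1⟩

theorem Of.writes (h : Of act e ln l fin P) {c : Bool} {av : List AnN}
    (hA : av.map strip = pr c l) {s a b : ℕ} {w : Bool} (hf : (a, b, w) ∈ factN (av.take s)) :
    ∃ s' < s, LayVal436.Writes P c s' (e a) (ln b) ∧ Ev av s' = w ∧ s' < P.L := by
  obtain ⟨s', hs', v, k, h1, h2, h3, h4⟩ := av_fact hA hf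
  obtain ⟨k', k1, k2⟩ := h.ins c s' v (b, k) h1 h2
  have hl : s' < l.length := (List.getElem?_eq_some_iff.1 h1).1
  refine ⟨s', hs', ⟨⟨k', k1⟩, ?_⟩, ?_, by rw [h.len]; exact hl⟩
  · rw [h.vis1 s' hl.le, adN_getD h1, h3]
  · simp [Ev, h4]

/-- **expected values** -/
theorem Of.expect (h : Of act e ln l fin P) {c : Bool} {av : List AnN}
    (hA : av.map strip = pr c l) {x : Γ → Bool} {x' : ℕ → Bool}
    (hx : ∀ v ∈ l, x' v.1 = x (e v.1)) (hG : GoodN x' ∅ av) :
    LayVal436.Expect act P c x (Ev av) := by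
  intro s hs a k hk
  obtain ⟨v, i, v1, v2, v3, v4, v5⟩ := h.ins_inv hs hk
  obtain ⟨b, hb⟩ := av_index hA v1 v2
  have hJ := GoodN.index hG s v.1 i.1 i.2 b hb
  rw [Set.empty_union] at hJ
  have hE : Ev av s = b := by simp [Ev, hb]
  obtain ⟨i1, i2⟩ := i
  cases i2 with
  | none =>
    have : k = .inp := v4
    subst this
    show Ev av s = x (P.vis s).1
    rw [hE, v5, ← hx v (List.mem_of_getElem? v1)]
    exact hJ
  | some cc =>
    obtain ⟨c1, c2⟩ := cc
    obtain ⟨g1, g2, hkk, hg1, hg2⟩ := v4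
    subst hkk
    obtain ⟨w, w', j1, j2, j3⟩ := hJ
    obtain ⟨s1, hs1, W1, E1, -⟩ := h.writes hA j1
    obtain ⟨s2, hs2, W2, E2, -⟩ := h.writes hA j2
    refine ⟨s1, s2, hs1, hs2, ?_, ?_, ?_⟩
    · rw [v5, hg1]; exact W1
    · rw [v5, hg2]; exact W2
    · rw [hE, E1, E2]; exact j3

/-- **the conditions of a layout** -/
theorem Of.ok (h : Of act e ln l fin P) {N : ℕ} (hN : Num e ln N l fin)
    (hgood : ∀ c, ∃ (x : ℕ → Bool) (av : List AnN), av.map strip = pr c l ∧ GoodN x ∅ av)
    {hm : ℕ → ℕ} (hal : ∀ i, P.al i = e (hm i)) (hmN : ∀ i < P.n, hm i < N)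
    (hmi : ∀ i < P.n, ∀ j < P.n, hm i = hm j → i = j)
    (hout : ∀ c, ∀ z ∈ wr (pr c l), z.2 = lOut → ∃ j < P.n, z.1 = hm j)
    (hout' : ∀ c, ∀ j < P.n, (hm j, lOut) ∈ wr (pr c l)) : P.OK act (ln lOut) where
  inj := h.inj hN
  step := by
    intro s hs
    exact h.step s (by rw [← h.len]; exact hs)
  once := fun c => h.once hN c
  arg := by
    intro c s a g1 l1 g2 l2 hs hk
    obtain ⟨x, av, hA, hG⟩ := hgood c
    obtain ⟨v, i, v1, v2, v3, v4, v5⟩ := h.ins_inv hs hk
    obtain ⟨b, hb⟩ := av_index hA v1 v2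
    have hJ := GoodN.index hG s v.1 i.1 i.2 b hb
    rw [Set.empty_union] at hJ
    obtain ⟨i1, i2⟩ := i
    cases i2 with
    | none => exact absurd v4 (by simp [RealO])
    | some cc =>
      obtain ⟨c1, c2⟩ := cc
      obtain ⟨g1', g2', hkk, hg1, hg2⟩ := v4
      simp only [Op.nand.injEq] at hkk
      obtain ⟨rfl, rfl, rfl, rfl⟩ := hkk
      obtain ⟨w, w', j1, j2, j3⟩ := hJ
      obtain ⟨s1, hs1, ⟨⟨k1, W1⟩, A1⟩, -, -⟩ := h.writes hA j1
      obtain ⟨s2, hs2, ⟨⟨k2, W2⟩, A2⟩, -, -⟩ := h.writes hA j2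
      refine ⟨⟨s1, hs1, k1, W1, ?_⟩, ⟨s2, hs2, k2, W2, ?_⟩⟩
      · rw [A1, v5, hg1]
      · rw [A2, v5, hg2]
  al_inj := by
    intro i j hij
    rw [hal, hal] at hij
    exact Fin.ext (hmi i i.2 j j.2 (hN.e_inj _ _ (hmN i i.2) (hmN j j.2) hij))
  out_al := by
    intro c s k hs hk
    obtain ⟨v, i, v1, v2, v3, v4, v5⟩ := h.ins_inv hs hk
    have hlane := hN.lane c _ (mem_wr_pr v1 v2)
    have e1 : i.1 = lOut := (hN.ln_inj _ _ (by decide) hlane v3).symm
    obtain ⟨j, hj, ej⟩ := hout c _ (mem_wr_pr v1 v2) e1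
    refine ⟨⟨j, hj⟩, ?_⟩
    rw [hal, v5]
    exact congrArg e ej.symm
  al_out := by
    intro c i
    obtain ⟨s, v, j, h1, h2, h3⟩ := of_mem_wr_pr (hout' c i i.2)
    obtain ⟨k, k1, -⟩ := h.ins c s v j h1 h2
    have hl : s < l.length := (List.getElem?_eq_some_iff.1 h1).1
    simp only [Prod.mk.injEq] at h3
    refine ⟨s, by rw [h.len]; exact hl, k, ?_, ?_⟩
    · rw [k1, ← h3.2]
    · rw [h.vis1 s hl.le, adN_getD h1, hal, h3.1]

/-- **the map computed by a program** -/
theorem Of.outp [DecidableEq Γ] [DecidableEq Λ] (h : Of act e ln l fin P) {N : ℕ}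
    (hN : Num e ln N l fin) {hm : ℕ → ℕ} (hal : ∀ i, P.al i = e (hm i)) {c : Bool}
    {v : Fin P.n → Bool} {av : List AnN} (hA : av.map strip = pr c l)
    (hG : GoodN (fun a => P.nm v (e a)) ∅ av) {y : Fin P.n → Bool}
    (hy : ∀ i : Fin P.n, (hm i, lOut, y i) ∈ factN av) : P.outp act (ln lOut) c v = y := by
  refine LayVal436.outp_eq (h.once hN c) (h.expect hA (fun _ _ => rfl) hG) ?_
  intro i
  have hf := hy i
  have hlen : av.length = l.length := by
    have := congrArg List.length hA
    simpa [pr] using this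
  rw [← List.take_length (l := av)] at hf
  obtain ⟨s', hs', ⟨⟨k, k1⟩, a1⟩, e1, hL⟩ := h.writes hA hf
  exact ⟨s', hL, k, k1, by rw [a1, hal], e1⟩

end of

/-! ### a layout -/

/-- operation with the first steps of a list -/
def opOf [DecidableEq Γ] (act : G → Equiv.Perm Γ) (gs : List G) (g0 : G) (e : ℕ → Γ)
    (ln : ℕ → Λ) (a : ℕ) : OpN → Op G Λ
  | none => .inp
  | some (c1, c2) => .nand (LayA873.stp act gs g0 (e a) (e c1.1)) (ln c1.2)
      (LayA873.stp act gs g0 (e a) (e c2.1)) (ln c2.2)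

/-- layout of a list of steps -/
def lay [DecidableEq Γ] (act : G → Equiv.Perm Γ) (gs : List G) (g0 : G) (e : ℕ → Γ)
    (ln : ℕ → Λ) (l : List Stp2) (fin : ℕ) (n : ℕ) (al : Fin n → Γ) : Layout Γ G Λ (J + 1) where
  L := l.length
  vis s := (e ((adN l fin).getD s fin),
    Fin.ofNat (J + 1) (((adN l fin).take s).count ((adN l fin).getD s fin)))
  dir s := LayA873.stp act gs g0 (e ((adN l fin).getD s fin)) (e ((adN l fin).getD (s + 1) fin))
  ins c s := (l[s]?).bind fun v => (insN v c).map fun i => (ln i.1, opOf act gs g0 e ln v.1 i.2)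
  n := n
  al := al

/-- adjacency conditions of a list of steps -/
structure AdjOK (A : ℕ → ℕ → Prop) (l : List Stp2) (fin : ℕ) : Prop where
  chain : (adN l fin).IsChain A
  arg : ∀ c, ∀ v ∈ l, ∀ i c1 c2, insN v c = some (i, some (c1, c2)) → A v.1 c1.1 ∧ A v.1 c2.1

theorem lay_of [DecidableEq Γ] {act : G → Equiv.Perm Γ} {gs : List G} {g0 : G} {e : ℕ → Γ}
    {ln : ℕ → Λ} {l : List Stp2} {fin : ℕ} {n : ℕ} {al : Fin n → Γ} {A : ℕ → ℕ → Prop}
    (hA : ∀ a b, A a b → LayA873.Adj act gs (e a) (e b)) (hl : AdjOK A l fin)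
    (hc : ∀ a, (adN l fin).count a ≤ J + 1) :
    Of act e ln l fin (lay (J := J) act gs g0 e ln l fin n al) where
  len := rfl
  vis1 := fun _ _ => rfl
  vis2 := by
    intro s hs
    show (((adN l fin).take s).count ((adN l fin).getD s fin)) % (J + 1) = _
    refine Nat.mod_eq_of_lt ?_
    have hlen : (adN l fin).length = l.length + 1 := by simp [adN]
    have h1 : ((adN l fin).take (s + 1)).count ((adN l fin).getD s fin) ≤ J + 1 :=
      (List.Sublist.count_le _ (List.take_sublist _ _)).trans (hc _)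
    have h2 : ((adN l fin).take (s + 1)).count ((adN l fin).getD s fin) =
        ((adN l fin).take s).count ((adN l fin).getD s fin) + 1 := by
      rw [List.take_add_one, List.count_append]
      have : (adN l fin)[s]? = some ((adN l fin).getD s fin) := by
        rw [List.getD_eq_getElem?_getD, List.getElem?_eq_getElem (by omega)]
        simp
      rw [this]
      simp
    omega
  step := by
    intro s hs
    refine (LayA873.stp_spec (hA _ _ ?_)).symm
    have hlen : (adN l fin).length = l.length + 1 := by simp [adN]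
    have := List.isChain_iff_getElem.1 hl.chain s (by omega)
    rw [List.getD_eq_getElem?_getD, List.getD_eq_getElem?_getD,
      List.getElem?_eq_getElem (by omega), List.getElem?_eq_getElem (by omega)]
    exact this
  nil := by
    intro c s v h1 h2
    simp [lay, h1, h2]
  ins := by
    intro c s v i h1 h2
    refine ⟨opOf act gs g0 e ln v.1 i.2, by simp [lay, h1, h2], ?_⟩
    obtain ⟨i1, i2⟩ := i
    cases i2 with
    | none => rfl
    | some cc =>
      obtain ⟨c1, c2⟩ := cc
      obtain ⟨a1, a2⟩ := hl.arg c v (List.mem_of_getElem? h1) i1 c1 c2 h2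
      exact ⟨_, _, rfl, LayA873.stp_spec (hA _ _ a1), LayA873.stp_spec (hA _ _ a2)⟩

end Crest.Agent.R289.LayC873
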