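import Mathlib
import Crest.Agent.R289.LayCv_338
import Crest.Agent.R289.LayRun_109
import Crest.Agent.R289.LayN_873

/-!
# Row 289, block C, C_REAL: the two programs on a common walk satisfy `LyN`

* `annF f pr` : the program annotated with the values `f`; `annF_good` from `AB` and the equations.
* `near_prog` : arguments are at adjacent addresses; `lt_prog` : addresses `< nP * nT`.
* `prN_prog` : conditions of one program; `lyN_both` : conditions of the common walk;
  `ok_both`, `outp_both` : `Layout.OK` and the computed maps.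
-/

set_option autoImplicit false
set_option linter.unusedSectionVars false

namespace Crest.Agent.R289.LayLy338

open Crest.Agent.R289.DefC Crest.Agent.R289.Layout109 Crest.Agent.R289.LayCv338

/-! ### annotation by values -/

section ann

variable {near : ℕ → ℕ → Prop} {x : ℕ → Bool} {f : Cel → Bool}

theorem wr_eq (pr : List Stp) : wr pr = wrs pr := rfl

/-- the program annotated with values -/
def annF (f : Cel → Bool) (pr : List Stp) : List AnN :=
  pr.map fun s => (s.1, s.2.map fun i => (i.1, i.2, f (s.1, i.1)))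

theorem annF_strip (f : Cel → Bool) (pr : List Stp) : (annF f pr).map stripN = pr := by
  unfold annF
  rw [List.map_map]
  conv_rhs => rw [← List.map_id pr]
  refine List.map_congr_left fun s _ => ?_
  obtain ⟨a, i⟩ := s
  cases i <;> rfl

theorem annF_fact {pr : List Stp} {c : Cel} (h : c ∈ wrs pr) : (c, f c) ∈ factN (annF f pr) := by
  obtain ⟨o, ho⟩ := mem_wrs.1 h
  exact ⟨o, List.mem_map.2 ⟨_, ho, rfl⟩⟩

theorem annF_good {pr : List Stp} : ∀ {S : Set Cel} {S' : Set (Cel × Bool)},
    (∀ c ∈ S, (c, f c) ∈ S') → AB S pr →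
    (∀ a l o, (a, some (l, o)) ∈ pr → f (a, l) = evO x f a o) →
    (∀ a l z, (a, some (l, some z)) ∈ pr → near a z.1.1 ∧ near a z.2.1) →
    GoodN near x S' (annF f pr) := by
  induction pr with
  | nil => intro _ _ _ _ _ _; trivial
  | cons s pr ih =>
    intro S S' hS hb hf hn
    obtain ⟨a, i⟩ := s
    have hf' : ∀ a l o, (a, some (l, o)) ∈ pr → f (a, l) = evO x f a o := fun a l o h =>
      hf a l o (List.mem_cons_of_mem _ h)
    have hn' : ∀ a l z, (a, some (l, some z)) ∈ pr → near a z.1.1 ∧ near a z.2.1 :=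
      fun a l z h => hn a l z (List.mem_cons_of_mem _ h)
    cases i with
    | none =>
      show GoodN near x S' (annF f pr)
      refine ih ?_ hb.2 hf' hn'
      intro c hc
      rcases hc with hc | hc
      · exact hS c hc
      · simp at hc
    | some i =>
      obtain ⟨l, o⟩ := i
      refine ⟨?_, ?_⟩
      · have h1 := hf a l o List.mem_cons_self
        cases o with
        | none => exact h1
        | some z =>
          obtain ⟨z1, z2⟩ := z
          have h2 := hn a l (z1, z2) List.mem_cons_self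
          refine ⟨f z1, f z2, hS _ (hb.1 _ (by simp [argsOf])), hS _ (hb.1 _ (by simp [argsOf])),
            h2.1, h2.2, h1⟩
      · show GoodN near x (insert ((a, l), f (a, l)) S') (annF f pr)
        refine ih ?_ hb.2 hf' hn'
        intro c hc
        rcases hc with hc | hc
        · exact Set.mem_insert_of_mem _ (hS c hc)
        · have : c = (a, l) := by simpa using hc
          rw [this]
          exact Set.mem_insert _ _

end ann

/-! ### arguments are near, addresses are small -/

section prog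

variable {nP nT : ℕ} {E : ℕ → ℕ → Prop} {θ hp : List ℕ} {W : List Wir} {w : Wir}
  {R : ℕ → ℕ → Prop} {n : ℕ} {ops : List (ℕ × ℕ × ℕ)}

theorem near_fwd (hr : ∀ a, R a a) (hs : ∀ a b, R a b → R b a) {z0 : Cel} {zs : List Cel} {b : ℕ}
    (h : Wk R z0.1 (zs.map Prod.fst) b) {a l : ℕ} {z : Cel × Cel}
    (hz : (a, some (l, some z)) ∈ fwd z0 zs) : R a z.1.1 ∧ R a z.2.1 := by
  induction zs generalizing z0 with
  | nil => simp at hz
  | cons y zs ih =>
    rw [fwd_cons, List.mem_append] at hz
    rcases hz with hz | hz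
    · simp only [cp, List.mem_cons, Prod.mk.injEq, Option.some.injEq, List.not_mem_nil,
        or_false] at hz
      rcases hz with ⟨rfl, -, rfl⟩ | ⟨rfl, -, rfl⟩
      · exact ⟨hs _ _ h.1, hs _ _ h.1⟩
      · exact ⟨hr _, hr _⟩
    · exact ih h.2 hz

theorem near_cable (hr : ∀ a, R a a) (hs : ∀ a b, R a b → R b a) {z0 : Cel} {zs : List Cel}
    {b : ℕ} (h : Wk R z0.1 (zs.map Prod.fst) b) {a l : ℕ} {z : Cel × Cel}
    (hz : (a, some (l, some z)) ∈ cable z0 zs) : R a z.1.1 ∧ R a z.2.1 := by
  unfold cable at hz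
  rw [List.mem_append] at hz
  rcases hz with hz | hz
  · exact near_fwd hr hs h hz
  · simp [bwd] at hz

/-- arguments of the instructions are at adjacent addresses -/
theorem near_prog (hA : Layout109.Adj nP nT E θ hp R) (hW : WOK nP E θ hp W) {a l : ℕ}
    {z : Cel × Cel} (hz : (a, some (l, some z)) ∈ prog nT θ hp n ops W) :
    R a z.1.1 ∧ R a z.2.1 := by
  unfold prog at hz
  rw [List.mem_flatMap] at hz
  obtain ⟨t, ht, hz⟩ := hz
  unfold blockAt block at hz
  rw [List.mem_cons, List.mem_flatMap] at hz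
  rcases hz with hz | ⟨zs, hzs, hz⟩
  · simp only [Prod.mk.injEq, Option.some.injEq] at hz
    obtain ⟨rfl, rfl, hz⟩ := hz
    unfold gop at hz
    split_ifs at hz
    · simp only [Option.some.injEq] at hz
      subst hz
      exact ⟨hA.refl _, hA.refl _⟩
    · simp only [Option.some.injEq] at hz
      subst hz
      exact ⟨hA.refl _, hA.refl _⟩
  · simp only [List.mem_map, List.mem_filter, beq_iff_eq] at hzs
    obtain ⟨w, ⟨hw, e⟩, rfl⟩ := hzs
    obtain ⟨b, hb⟩ := Wk_cells hA (hW.ok w hw)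
    rw [e] at hb
    exact near_cable hA.refl hA.symm (z0 := (home nT θ hp t, 0)) hb hz

theorem ad_lt (hG : Geo nP nT θ hp) {v i : ℕ} (hv : v < nP) (hi : i < θ.length) :
    ad nT θ v i < nP * nT := by
  have h1 := hG.getD_lt hi
  unfold ad
  calc v * nT + θ.getD i 0 < v * nT + nT := by omega
    _ = (v + 1) * nT := by ring
    _ ≤ nP * nT := Nat.mul_le_mul_right _ hv

theorem home_lt (hG : Geo nP nT θ hp) {t : ℕ} (ht : t < hp.length) :
    home nT θ hp t < nP * nT := by
  refine ad_lt hG ?_ hG.θpos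
  rw [List.getD_eq_getElem _ _ ht]
  exact hG.hlt _ (List.getElem_mem ht)

theorem head_lt (hw : WireOK nP E θ hp w) : w.2.2.2.headD 0 < nP := by
  rw [List.headD_eq_head?_getD]
  rcases hh : w.2.2.2.head? with _ | v
  · rw [List.head?_eq_none_iff] at hh
    exact absurd hh hw.ne
  · exact hw.lt v (List.mem_of_head? hh)

theorem last_lt (hw : WireOK nP E θ hp w) : w.2.2.2.getLastD 0 < nP := by
  rw [List.getLastD_eq_getLast?]
  rcases hh : w.2.2.2.getLast? with _ | v
  · rw [List.getLast?_eq_none_iff] at hh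
    exact absurd hh hw.ne
  · exact hw.lt v (List.mem_of_getLast? hh)

theorem cells_lt (hG : Geo nP nT θ hp) (hw : WireOK nP E θ hp w) {z : Cel}
    (hz : z ∈ cells nT θ w) : z.1 < nP * nT := by
  rw [mem_cells hw.col] at hz
  have hc := hw.col
  rcases hz with ⟨i, hi, rfl⟩ | ⟨v, hv, rfl⟩ | ⟨i, hi, rfl⟩ | ⟨-, rfl⟩
  · exact ad_lt hG (head_lt hw) (by omega)
  · exact ad_lt hG (hw.lt v hv) hc
  · exact ad_lt hG (last_lt hw) (by omega)
  · exact ad_lt hG (last_lt hw) hG.θpos

theorem fst_cable {z0 : Cel} {zs : List Cel} {s : Stp} (h : s ∈ cable z0 zs) :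
    s.1 = z0.1 ∨ ∃ z ∈ zs, s.1 = z.1 := by
  unfold cable at h
  rw [List.mem_append] at h
  rcases h with h | h
  · right
    induction zs generalizing z0 with
    | nil => simp at h
    | cons y zs ih =>
      rw [fwd_cons, List.mem_append] at h
      rcases h with h | h
      · refine ⟨y, List.mem_cons_self, ?_⟩
        simp only [cp, List.mem_cons, List.not_mem_nil, or_false] at h
        rcases h with rfl | rfl <;> rfl
      · obtain ⟨z, hz, e⟩ := ih h
        exact ⟨z, List.mem_cons_of_mem _ hz, e⟩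
  · simp only [bwd, List.mem_reverse, List.mem_map, List.mem_cons] at h
    obtain ⟨z, hz, rfl⟩ := h
    rcases hz with rfl | hz
    · exact .inl rfl
    · exact .inr ⟨z, hz, rfl⟩

/-- addresses of the program -/
theorem lt_prog (hG : Geo nP nT θ hp) (hW : WOK nP E θ hp W) (hlen : n + ops.length ≤ hp.length)
    {s : Stp} (hs : s ∈ prog nT θ hp n ops W) : s.1 < nP * nT := by
  unfold prog at hs
  rw [List.mem_flatMap] at hs
  obtain ⟨t, ht, hs⟩ := hs
  rw [List.mem_range] at ht
  unfold blockAt block at hs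
  rw [List.mem_cons, List.mem_flatMap] at hs
  rcases hs with rfl | ⟨zs, hzs, hs⟩
  · exact home_lt hG (by omega)
  · simp only [List.mem_map, List.mem_filter, beq_iff_eq] at hzs
    obtain ⟨w, ⟨hw, e⟩, rfl⟩ := hzs
    rcases fst_cable hs with h | ⟨z, hz, h⟩
    · rw [h]
      exact home_lt hG (by omega)
    · rw [h]
      exact cells_lt hG (hW.ok w hw) hz

theorem lt_retw (hG : Geo nP nT θ hp) {m : ℕ} {s : Stp} (hs : s ∈ retw nT θ hp m) :
    s.1 < nP * nT := by
  unfold retw at hs
  simp only [List.mem_reverse, List.mem_map] at hs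
  obtain ⟨v, hv, rfl⟩ := hs
  exact ad_lt hG (hG.hlt _ (List.mem_of_mem_take hv)) hG.θpos

end prog

/-! ### one program -/

/-- output wires: all targets of class 3 are names, and every name `i` has a wire from the cell
`outs i` -/
structure Out3 (n : ℕ) (ops : List (ℕ × ℕ × ℕ)) (outs : List ℕ) (W : List Wir) : Prop where
  lt : ∀ w ∈ W, w.1 = 3 → w.2.1.2 < n
  src : ∀ i < n, outs.getD i 0 < n + ops.length
  ex : ∀ i < n, ∃ w ∈ W, w.1 = 3 ∧ w.2.1 = (outs.getD i 0, i)

/-- everything about one program -/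
structure Prg (nP nT : ℕ) (E : ℕ → ℕ → Prop) (θ hp : List ℕ) (n : ℕ) (ops : List (ℕ × ℕ × ℕ))
    (outs : List ℕ) (W : List Wir) : Prop where
  wok : WOK nP E θ hp W
  cov : Cov n ops W
  out : Out3 n ops outs W
  len : n + ops.length ≤ hp.length

section one

variable {nP nT : ℕ} {E : ℕ → ℕ → Prop} {θ hp : List ℕ} {W : List Wir}
  {R : ℕ → ℕ → Prop} {n : ℕ} {ops : List (ℕ × ℕ × ℕ)} {outs : List ℕ}

theorem out_wr (h : Prg nP nT E θ hp n ops outs W) (a : ℕ) :
    (a, lOut) ∈ wr (prog nT θ hp n ops W) ↔ ∃ i < n, home nT θ hp i = a := by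
  constructor
  · intro ha
    obtain ⟨j, hj, e⟩ := LayN873.out_prog (fun w hw => by have := (h.wok.ok w hw).cl; omega)
      (fun w hw => (h.wok.ok w hw).lastD) h.out.lt ha rfl
    exact ⟨j, hj, e.symm⟩
  · rintro ⟨i, hi, rfl⟩
    obtain ⟨w, hw, w3, we⟩ := h.out.ex i hi
    rw [wr_eq]
    unfold prog
    rw [wrs_flatMap, List.mem_flatMap]
    refine ⟨w.2.1.1, ?_, ?_⟩
    · rw [List.mem_range, we]
      exact h.out.src i hi
    · rw [mem_wrs_blockAt]
      refine .inr ⟨w, hw, rfl, mem_dbl.2 ⟨_, ?_, .inr rfl⟩⟩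
      have := out_mem (nT := nT) (h.wok.ok w hw) w3
      rwa [we] at this

theorem good_prog (hG : Geo nP nT θ hp) (hA : Layout109.Adj nP nT E θ hp R)
    (h : Prg nP nT E θ hp n ops outs W) (x : ℕ → Bool) :
    GoodN R x ∅ (annF (runN x (prog nT θ hp n ops W)) (prog nT θ hp n ops W)) :=
  annF_good (S := ∅) (fun _ hc => hc.elim) (AB_prog h.wok h.cov)
    (fun _ _ _ ho => runN_eq x _ (nodup_wrs_prog hG h.wok h.len) (AB_prog h.wok h.cov) ho)
    (fun _ _ _ hz => near_prog hA h.wok hz)

/-- **conditions of one program** -/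
theorem prN_prog (hG : Geo nP nT θ hp) (hA : Layout109.Adj nP nT E θ hp R)
    (h : Prg nP nT E θ hp n ops outs W) :
    PrN R n (home nT θ hp) (prog nT θ hp n ops W) where
  lane _ hz := lane_prog h.wok hz
  once := nodup_wrs_prog hG h.wok h.len
  good x := ⟨_, annF_strip _ _, good_prog hG hA h x⟩
  out := out_wr h

/-- annotation with the output values -/
theorem ann_prog (hG : Geo nP nT θ hp) (hA : Layout109.Adj nP nT E θ hp R)
    (h : Prg nP nT E θ hp n ops outs W) {x cv : ℕ → Bool}
    (hcv : CV n ops (fun t => x (home nT θ hp t)) cv) :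
    ∃ av : List AnN, av.map stripN = prog nT θ hp n ops W ∧ GoodN R x ∅ av ∧
      ∀ i < n, ((home nT θ hp i, lOut), cv (outs.getD i 0)) ∈ factN av := by
  refine ⟨_, annF_strip _ _, good_prog hG hA h x, ?_⟩
  intro i hi
  have h1 := annF_fact (f := runN x (prog nT θ hp n ops W)) ((out_wr h _).2 ⟨i, hi, rfl⟩)
  obtain ⟨w, hw, w3, we⟩ := h.out.ex i hi
  have h2 := (run_prog hG h.wok h.cov h.len hcv).2 w hw w3 (by rw [we]; exact h.out.src i hi)
  rw [we] at h2
  rw [h2] at h1
  exact h1

end one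

/-! ### both programs -/

section both

variable {nP nT : ℕ} {E : ℕ → ℕ → Prop} {θ hp : List ℕ} {WS WP : List Wir}
  {R : ℕ → ℕ → Prop} {n : ℕ} {oS oP : List (ℕ × ℕ × ℕ)} {uS uP : List ℕ}

/-- the common walk -/
def wlk (nT : ℕ) (θ hp : List ℕ) (n : ℕ) (oS : List (ℕ × ℕ × ℕ)) (WS : List Wir)
    (oP : List (ℕ × ℕ × ℕ)) (WP : List Wir) : List Stp2 :=
  Layout109.both (prog nT θ hp n oS WS) (retw nT θ hp (n + oS.length)) (prog nT θ hp n oP WP)

/-- the last address -/
def lst (nT : ℕ) (θ hp : List ℕ) (n : ℕ) (oP : List (ℕ × ℕ × ℕ)) : ℕ :=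
  home nT θ hp (n + oP.length - 1)

theorem chain_both (hA : Layout109.Adj nP nT E θ hp R) (hS : Prg nP nT E θ hp n oS uS WS)
    (hP : Prg nP nT E θ hp n oP uP WP) :
    ((wlk nT θ hp n oS WS oP WP).map Prod.fst ++ [lst nT θ hp n oP]).IsChain R := by
  have h1 := Wk_prog (n := n) (ops := oS) hA hS.wok (n + oS.length) hS.len
  have h2 := Wk_ret hA (n + oS.length) hS.len
  have h3 := Wk_prog (n := n) (ops := oP) hA hP.wok (n + oP.length) hP.len
  have h4 : Wk R (lst nT θ hp n oP) [lst nT θ hp n oP] (lst nT θ hp n oP) := ⟨hA.refl _, rfl⟩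
  have h5 := (((h1.append h2).append h3).append h4).isChain
  rw [wlk, both_fst]
  exact h5.tail

theorem lt_both (hG : Geo nP nT θ hp) (hS : Prg nP nT E θ hp n oS uS WS)
    (hP : Prg nP nT E θ hp n oP uP WP) (hn : 0 < n) :
    ∀ a ∈ (wlk nT θ hp n oS WS oP WP).map Prod.fst ++ [lst nT θ hp n oP], a < nP * nT := by
  intro a ha
  rw [wlk, both_fst, List.mem_append, List.mem_append, List.mem_append, List.mem_map,
    List.mem_map, List.mem_map, List.mem_singleton] at ha
  rcases ha with ((⟨s, hs, rfl⟩ | ⟨s, hs, rfl⟩) | ⟨s, hs, rfl⟩) | rfl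
  · exact lt_prog hG hS.wok hS.len hs
  · exact lt_retw hG hs
  · exact lt_prog hG hP.wok hP.len hs
  · have := hP.len
    exact home_lt hG (by omega)

theorem cnt_both (hG : Geo nP nT θ hp) (hS : Prg nP nT E θ hp n oS uS WS)
    (hP : Prg nP nT E θ hp n oP uP WP) (a : ℕ) :
    ((wlk nT θ hp n oS WS oP WP).map Prod.fst ++ [lst nT θ hp n oP]).count a ≤ 128 := by
  refine le_trans (LayN873.cnt_both_le a nT θ hp n oS oP WS WP (n + oS.length) _ ?_
    (fun w hw => (hS.wok.ok w hw).headD) (fun w hw => by have := (hS.wok.ok w hw).cl; omega)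
    (nodup_wrs_prog hG hS.wok hS.len)
    (fun w hw => (hP.wok.ok w hw).headD) (fun w hw => by have := (hP.wok.ok w hw).cl; omega)
    (nodup_wrs_prog hG hP.wok hP.len) ?_) (by norm_num)
  · intro e
    have := hG.θpos
    rw [e] at this
    simp at this
  · refine List.Nodup.map_on ?_ (hG.hnd.sublist (List.take_sublist _ _))
    intro v _ v' _ e
    exact (hG.ad_inj hG.θpos hG.θpos e).1

/-- **the common walk satisfies the number-level conditions** -/
theorem lyN_both (hG : Geo nP nT θ hp) (hA : Layout109.Adj nP nT E θ hp R)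
    (hS : Prg nP nT E θ hp n oS uS WS) (hP : Prg nP nT E θ hp n oP uP WP) (hn : 0 < n) :
    LyN R (nP * nT) (wlk nT θ hp n oS WS oP WP) (lst nT θ hp n oP) n (home nT θ hp) where
  lt := lt_both hG hS hP hn
  chain := chain_both hA hS hP
  cnt := cnt_both hG hS hP
  pr := prN_both (prN_prog hG hA hS) (prN_prog hG hA hP)
  al_lt i hi := home_lt hG (by have := hS.len; omega)
  al_inj i hi j hj e := by
    have h1 := (hG.ad_inj hG.θpos hG.θpos e).1
    exact getD_inj hG.hnd (by have := hS.len; omega) (by have := hS.len; omega) h1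

variable {Γ G : Type} [DecidableEq Γ]
variable {act : G → Equiv.Perm Γ} {gs : List G} {g0 : G} {e : ℕ → Γ}

/-- **`Layout.OK` for the two circuits** -/
theorem ok_both (hnear : ∀ a b, R a b → LayA873.Adj act gs (e a) (e b))
    (he : ∀ a < nP * nT, ∀ b < nP * nT, e a = e b → a = b)
    (hG : Geo nP nT θ hp) (hA : Layout109.Adj nP nT E θ hp R)
    (hS : Prg nP nT E θ hp n oS uS WS) (hP : Prg nP nT E θ hp n oP uP WP) (hn : 0 < n) :
    (lay act gs g0 e (wlk nT θ hp n oS WS oP WP) (lst nT θ hp n oP) n (home nT θ hp)).OK act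
      (Fin.ofNat 28 lOut) :=
  lay_ok hnear he (lyN_both hG hA hS hP hn)

/-- **the map computed by the first program** -/
theorem outp_false (hnear : ∀ a b, R a b → LayA873.Adj act gs (e a) (e b))
    (he : ∀ a < nP * nT, ∀ b < nP * nT, e a = e b → a = b)
    (hG : Geo nP nT θ hp) (hA : Layout109.Adj nP nT E θ hp R)
    (hS : Prg nP nT E θ hp n oS uS WS) (hP : Prg nP nT E θ hp n oP uP WP) (hn : 0 < n)
    {v : Fin n → Bool} {x cv : ℕ → Bool} (hx : ∀ i : Fin n, x i = v i) (hcv : CV n oS x cv)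
    (i : Fin n) :
    Layout.outp act (Fin.ofNat 28 lOut)
      (lay act gs g0 e (wlk nT θ hp n oS WS oP WP) (lst nT θ hp n oP) n (home nT θ hp)) false v i =
      cv (uS.getD i 0) := by
  refine lay_outp hnear he (lyN_both hG hA hS hP hn) v (fun i => cv (uS.getD i 0)) ?_ i
  intro x' hx'
  have hcv' : CV n oS (fun t => x' (home nT θ hp t)) cv :=
    { inp := fun t ht => by
        rw [hcv.inp t ht]
        exact (hx ⟨t, ht⟩).trans (hx' ⟨t, ht⟩).symm
      cpy := hcv.cpy
      nand := hcv.nand }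
  obtain ⟨av, h1, h2, h3⟩ := ann_prog hG hA hS hcv'
  have h4 := ext_false (r := retw nT θ hp (n + oS.length)) (P := prog nT θ hp n oP WP) h1 h2
  refine ⟨_, h4.1, h4.2.1, fun i hi => ?_⟩
  rw [h4.2.2]
  exact h3 i hi

/-- **the map computed by the second program** -/
theorem outp_true (hnear : ∀ a b, R a b → LayA873.Adj act gs (e a) (e b))
    (he : ∀ a < nP * nT, ∀ b < nP * nT, e a = e b → a = b)
    (hG : Geo nP nT θ hp) (hA : Layout109.Adj nP nT E θ hp R)
    (hS : Prg nP nT E θ hp n oS uS WS) (hP : Prg nP nT E θ hp n oP uP WP) (hn : 0 < n)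
    {v : Fin n → Bool} {x cv : ℕ → Bool} (hx : ∀ i : Fin n, x i = v i) (hcv : CV n oP x cv)
    (i : Fin n) :
    Layout.outp act (Fin.ofNat 28 lOut)
      (lay act gs g0 e (wlk nT θ hp n oS WS oP WP) (lst nT θ hp n oP) n (home nT θ hp)) true v i =
      cv (uP.getD i 0) := by
  refine lay_outp hnear he (lyN_both hG hA hS hP hn) v (fun i => cv (uP.getD i 0)) ?_ i
  intro x' hx'
  have hcv' : CV n oP (fun t => x' (home nT θ hp t)) cv :=
    { inp := fun t ht => by
        rw [hcv.inp t ht]
        exact (hx ⟨t, ht⟩).trans (hx' ⟨t, ht⟩).symm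
      cpy := hcv.cpy
      nand := hcv.nand }
  obtain ⟨av, h1, h2, h3⟩ := ann_prog hG hA hP hcv'
  have h4 := ext_true (S := prog nT θ hp n oS WS) (r := retw nT θ hp (n + oS.length)) h1 h2
  refine ⟨_, h4.1, h4.2.1, fun i hi => ?_⟩
  rw [h4.2.2]
  exact h3 i hi

end both

end Crest.Agent.R289.LayLy338
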