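import Crest.Agent.R289.Route_649
import Crest.Agent.R289.Bfs_594

/-!
# R289, block C (routing): the routing hypotheses for a Cayley graph (helper649)

`P` finite group, numbering `e : P ≃ Fin n`, letters `S g` (`g < d`) closed under inverses, every
element is a product of at most `l` letters, `nb v g` = number of `S g * (element v)` (LEFT
multiplication).  Then the `n` shortest words from the vertex `0` (`Bfs594.bfs`) satisfy
`Route649.Hyp`.
-/

set_option autoImplicit false

namespace Crest.Agent.R289.Route649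

open Crest.Agent.R289

/-- table of the shortest words -/
def words (n d : ℕ) (nb : ℕ → ℕ → ℕ) : List (List ℕ) := (List.range n).map (Bfs594.bfs n d nb)

section
variable {P : Type} [Group P] {n d l : ℕ} {nb : ℕ → ℕ → ℕ} {S : ℕ → P} (e : P ≃ Fin n)

/-- action of a word (first letter first) -/
theorem foldl_eq (hnb : ∀ g < d, ∀ x : P, nb (e x) g = e (S g * x)) (w : List ℕ)
    (hw : ∀ g ∈ w, g < d) (x : P) : w.foldl nb (e x) = e ((w.reverse.map S).prod * x) := by
  induction w generalizing x with
  | nil => simp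
  | cons g w ih =>
    rw [List.foldl_cons, hnb g (hw g (by simp)) x, ih (fun g hg => hw g (by simp [hg]))]
    simp [mul_assoc]

theorem hyp_of_group (hn : 0 < n) (hnb : ∀ g < d, ∀ x : P, nb (e x) g = e (S g * x))
    (hinv : ∀ g < d, ∃ g' < d, S g' = (S g)⁻¹)
    (hl : ∀ x : P, ∃ w : List ℕ, w.length ≤ l ∧ (∀ g ∈ w, g < d) ∧ (w.map S).prod = x) :
    Hyp n d l nb (words n d nb) := by
  -- vertices are elements
  have hv : ∀ v < n, ∃ x : P, (e x : ℕ) = v := fun v hv => ⟨e.symm ⟨v, hv⟩, by simp⟩
  have hlt : ∀ v < n, ∀ g < d, nb v g < n := by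
    intro v h g hg
    obtain ⟨x, rfl⟩ := hv v h
    rw [hnb g hg]
    exact (e _).2
  have hword : ∀ v < n, ∃ w : List ℕ, w.length ≤ l ∧ (∀ g ∈ w, g < d) ∧ w.foldl nb 0 = v := by
    intro v h
    obtain ⟨x, rfl⟩ := hv v h
    obtain ⟨x0, h0⟩ := hv 0 hn
    obtain ⟨w, h1, h2, h3⟩ := hl (x * x0⁻¹)
    refine ⟨w.reverse, by simpa using h1, fun g hg => h2 g (List.mem_reverse.1 hg), ?_⟩
    have := foldl_eq e hnb w.reverse (fun g hg => h2 g (List.mem_reverse.1 hg)) x0
    rw [h0] at this
    rw [this, List.reverse_reverse, h3]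
    simp
  have hconn : ∀ T : ℕ → Prop, T 0 → (∀ v < n, T v → ∀ g < d, T (nb v g)) → ∀ v < n, T v := by
    intro T h0 hT v h
    obtain ⟨w, h1, h2, h3⟩ := hword v h
    rw [← h3]
    clear h3 h h1
    induction w using List.reverseRecOn with
    | nil => simpa using h0
    | append_singleton w g ih =>
      rw [List.foldl_append]
      simp only [List.foldl_cons, List.foldl_nil]
      have h4 : w.foldl nb 0 < n := by
        have h5 : ∀ (w : List ℕ) (a : ℕ), (∀ g ∈ w, g < d) → a < n → w.foldl nb a < n := by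
          intro w
          induction w with
          | nil => intro a _ ha; simpa using ha
          | cons g w ih =>
            intro a hw ha
            rw [List.foldl_cons]
            exact ih _ (fun g hg => hw g (by simp [hg])) (hlt a ha g (hw g (by simp)))
        exact h5 w 0 (fun g hg => h2 g (by simp [hg])) hn
      exact hT _ h4 (ih (fun g hg => h2 g (by simp [hg]))) g (h2 g (by simp))
  have hget : ∀ i < n, (words n d nb).getD i [] = Bfs594.bfs n d nb i := by
    intro i hi
    unfold words
    rw [List.getD_eq_getElem _ _ (by simpa using hi)]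
    simp
  have hspec := fun (v : ℕ) (h : v < n) => Bfs594.bfs_spec (nb := nb) (d := d) hn hlt hconn h
  refine ⟨hlt, ?_, ?_, by simp [words], ?_, ?_, ?_⟩
  · intro g hg u hu v hv' h
    obtain ⟨x, rfl⟩ := hv u hu
    obtain ⟨y, rfl⟩ := hv v hv'
    rw [hnb g hg, hnb g hg] at h
    have := e.injective (Fin.ext h)
    rw [mul_left_cancel this]
  · intro v hv' g hg
    obtain ⟨x, rfl⟩ := hv v hv'
    obtain ⟨g', hg', hS⟩ := hinv g hg
    refine ⟨g', hg', ?_⟩
    rw [hnb g hg, hnb g' hg', hS]
    simp
  · intro w hw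
    unfold words at hw
    obtain ⟨v, hv', rfl⟩ := List.mem_map.1 hw
    have hv'' := List.mem_range.1 hv'
    obtain ⟨w', h1, h2, h3⟩ := hword v hv''
    exact ((hspec v hv'').2.2 w' h2 h3).trans h1
  · intro w hw g hg
    unfold words at hw
    obtain ⟨v, hv', rfl⟩ := List.mem_map.1 hw
    exact (hspec v (List.mem_range.1 hv')).2.1 g hg
  · intro a ha i hi j hj h
    rw [hget i hi, hget j hj] at h
    obtain ⟨x, rfl⟩ := hv a ha
    obtain ⟨x0, h0⟩ := hv 0 hn
    have si := hspec i hi
    have sj := hspec j hj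
    rw [foldl_eq e hnb _ si.2.1, foldl_eq e hnb _ sj.2.1] at h
    have h1 := mul_right_cancel (e.injective (Fin.ext h))
    have ei := si.1
    have ej := sj.1
    rw [← h0, foldl_eq e hnb _ si.2.1] at ei
    rw [← h0, foldl_eq e hnb _ sj.2.1] at ej
    rw [← ei, ← ej, h1]

end

end Crest.Agent.R289.Route649
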