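import Crest.Agent.R289.Ham_613
import Crest.Agent.R289.RouteCay_649
import Crest.Agent.R289.LayDef_109

/-!
# Row 289, block C, C_REAL assembly part 1 (helper896): steps of the content group `P × R`

Two groups with numberings `e1 : P ≃ Fin n1`, `e2 : R ≃ Fin n2` and letters `S1, S2` (`g < d`)
acting by LEFT multiplication (`nb (e x) g = e (S g * x)`).

* `Nm d` = names of the steps = pairs of numbers of words of at most three letters (Ham_613.wd);
  `act` = left multiplication by the values of both words.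
* `ad nR (v, θ) = v * nR + θ` addresses; `adr : ℕ → P × R` decodes a number.
* `A` = adjacency of numbers: some name leads from `a` to `b`; symmetric, reflexive; one-letter steps,
  steps of the Hamiltonian orders.
-/

set_option autoImplicit false
set_option linter.dupNamespace false
set_option linter.unusedSectionVars false

namespace Crest.Agent.R289.LayNet896

open Crest.Agent.R289

/-- names of the steps: a word of at most three letters for each factor -/
abbrev Nm (d : ℕ) : Type := Fin ((d + 1) ^ 3) × Fin ((d + 1) ^ 3)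

/-- the empty word is the word with the number `(d + 1)^3 - 1` -/
theorem wd_last (d : ℕ) : Ham613.wd d ((d + 1) ^ 3 - 1) = [] := by
  have h0 : 0 < d + 1 := Nat.succ_pos d
  have e : (d + 1) ^ 3 - 1 = d + (d + 1) * (d + (d + 1) * d) := by
    have : (d + 1) ^ 3 = d + (d + 1) * (d + (d + 1) * d) + 1 := by ring
    omega
  have h1 : ((d + 1) ^ 3 - 1) % (d + 1) = d := by
    rw [e, Nat.add_mul_mod_self_left, Nat.mod_eq_of_lt (Nat.lt_succ_self d)]
  have h2 : ((d + 1) ^ 3 - 1) / (d + 1) = d + (d + 1) * d := by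
    rw [e, Nat.add_mul_div_left _ _ h0, Nat.div_eq_of_lt (Nat.lt_succ_self d), zero_add]
  have h3 : (d + (d + 1) * d) % (d + 1) = d := by
    rw [Nat.add_mul_mod_self_left, Nat.mod_eq_of_lt (Nat.lt_succ_self d)]
  have h4 : (d + (d + 1) * d) / (d + 1) = d := by
    rw [Nat.add_mul_div_left _ _ h0, Nat.div_eq_of_lt (Nat.lt_succ_self d), zero_add]
  unfold Ham613.wd
  rw [h2, h1, h3, h4]
  simp

/-- name of the empty word -/
def nil1 (d : ℕ) : Fin ((d + 1) ^ 3) := ⟨(d + 1) ^ 3 - 1, by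
  have : 0 < (d + 1) ^ 3 := Nat.pow_pos (Nat.succ_pos d)
  omega⟩

instance (d : ℕ) : Inhabited (Nm d) := ⟨(nil1 d, nil1 d)⟩

/-- every word of at most three letters has a number -/
theorem exists_wd {d : ℕ} (w : List ℕ) (hw : ∀ g ∈ w, g < d) (hl : w.length ≤ 3) :
    ∃ g < (d + 1) ^ 3, Ham613.wd d g = w := by
  have h0 : 0 < d + 1 := Nat.succ_pos d
  have key : ∀ a b c : ℕ, a ≤ d → b ≤ d → c ≤ d →
      a + (d + 1) * (b + (d + 1) * c) < (d + 1) ^ 3 ∧
      Ham613.wd d (a + (d + 1) * (b + (d + 1) * c)) =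
        [a, b, c].filter (fun x => decide (x < d)) := by
    intro a b c ha hb hc
    constructor
    · have e : (d + 1) ^ 3 = d + (d + 1) * (d + (d + 1) * d) + 1 := by ring
      rw [e]
      have h1 : b + (d + 1) * c ≤ d + (d + 1) * d := Nat.add_le_add hb (Nat.mul_le_mul_left _ hc)
      have h2 := Nat.mul_le_mul_left (d + 1) h1
      omega
    · have h1 : (a + (d + 1) * (b + (d + 1) * c)) % (d + 1) = a := by
        rw [Nat.add_mul_mod_self_left, Nat.mod_eq_of_lt (Nat.lt_succ_of_le ha)]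
      have h2 : (a + (d + 1) * (b + (d + 1) * c)) / (d + 1) = b + (d + 1) * c := by
        rw [Nat.add_mul_div_left _ _ h0, Nat.div_eq_of_lt (Nat.lt_succ_of_le ha), zero_add]
      have h3 : (b + (d + 1) * c) % (d + 1) = b := by
        rw [Nat.add_mul_mod_self_left, Nat.mod_eq_of_lt (Nat.lt_succ_of_le hb)]
      have h4 : (b + (d + 1) * c) / (d + 1) = c := by
        rw [Nat.add_mul_div_left _ _ h0, Nat.div_eq_of_lt (Nat.lt_succ_of_le hb), zero_add]
      unfold Ham613.wd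
      rw [h2, h1, h3, h4]
  have hd : ¬ d < d := lt_irrefl d
  match w, hw, hl with
  | [], _, _ =>
    obtain ⟨h1, h2⟩ := key d d d le_rfl le_rfl le_rfl
    exact ⟨_, h1, by rw [h2]; simp⟩
  | [a], hw, _ =>
    have ha := hw a (by simp)
    obtain ⟨h1, h2⟩ := key a d d ha.le le_rfl le_rfl
    exact ⟨_, h1, by rw [h2]; simp [ha]⟩
  | [a, b], hw, _ =>
    have ha := hw a (by simp)
    have hb := hw b (by simp)
    obtain ⟨h1, h2⟩ := key a b d ha.le hb.le le_rfl
    exact ⟨_, h1, by rw [h2]; simp [ha, hb]⟩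
  | [a, b, c], hw, _ =>
    have ha := hw a (by simp)
    have hb := hw b (by simp)
    have hc := hw c (by simp)
    obtain ⟨h1, h2⟩ := key a b c ha.le hb.le hc.le
    exact ⟨_, h1, by rw [h2]; simp [ha, hb, hc]⟩

section one

variable {P : Type} [Group P] (S : ℕ → P)

/-- value of the word number `g` -/
def val (d : ℕ) (g : ℕ) : P := ((Ham613.wd d g).reverse.map S).prod

theorem val_last (d : ℕ) : val S d ((d + 1) ^ 3 - 1) = 1 := by simp [val, wd_last]

/-- the inverse of a word of at most three letters is such a word -/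
theorem val_inv {d : ℕ} (hinv : ∀ g < d, ∃ g' < d, S g' = (S g)⁻¹) (g : ℕ) :
    ∃ g' < (d + 1) ^ 3, val S d g' = (val S d g)⁻¹ := by
  have key : ∀ w : List ℕ, (∀ x ∈ w, x < d) → ∃ w' : List ℕ, w'.length = w.length ∧
      (∀ x ∈ w', x < d) ∧ (w'.reverse.map S).prod = ((w.reverse.map S).prod)⁻¹ := by
    intro w
    induction w with
    | nil => intro _; exact ⟨[], rfl, by simp, by simp⟩
    | cons a w ih =>
      intro hw
      obtain ⟨w', h1, h2, h3⟩ := ih fun x hx => hw x (List.mem_cons_of_mem _ hx)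
      obtain ⟨a', ha', hS⟩ := hinv a (hw a (by simp))
      refine ⟨w' ++ [a'], by simp [h1], ?_, ?_⟩
      · intro x hx
        rcases List.mem_append.1 hx with hx | hx
        · exact h2 x hx
        · rw [List.mem_singleton.1 hx]; exact ha'
      · rw [List.reverse_append, List.map_append, List.prod_append, h3]
        simp [hS]
  obtain ⟨w', h1, h2, h3⟩ := key (Ham613.wd d g) fun x hx => Ham613.wd_lt hx
  obtain ⟨g', hg', e⟩ := exists_wd w' h2 (by rw [h1]; exact Ham613.wd_length d g)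
  exact ⟨g', hg', by unfold val; rw [e, h3]⟩

theorem val_letter {d : ℕ} {i : ℕ} (hi : i < d) : ∃ g < (d + 1) ^ 3, val S d g = S i := by
  obtain ⟨g, hg, e⟩ := exists_wd (d := d) [i] (by simpa using hi) (by simp)
  exact ⟨g, hg, by simp [val, e]⟩

/-- `nb3` is left multiplication by the value of the word -/
theorem nb3_eq {n d : ℕ} (e : P ≃ Fin n) {nb : ℕ → ℕ → ℕ}
    (hnb : ∀ g < d, ∀ x : P, nb (e x) g = e (S g * x)) (g : ℕ) (x : P) :
    Ham613.nb3 d nb (e x) g = e (val S d g * x) := by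
  unfold Ham613.nb3 val
  exact Route649.foldl_eq e hnb _ (fun y hy => Ham613.wd_lt hy) x

end one

section two

variable {P R : Type} [Group P] [Group R] (S1 : ℕ → P) (S2 : ℕ → R)

/-- left multiplication by the values of the two words -/
def act (d : ℕ) (g : Nm d) : Equiv.Perm (P × R) :=
  Equiv.prodCongr (Equiv.mulLeft (val S1 d g.1)) (Equiv.mulLeft (val S2 d g.2))

theorem act_apply (d : ℕ) (g : Nm d) (x : P × R) :
    act S1 S2 d g x = (val S1 d g.1 * x.1, val S2 d g.2 * x.2) := rfl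

theorem act_default (d : ℕ) (x : P × R) : act S1 S2 d default x = x := by
  rw [act_apply]
  have h1 : val S1 d (default : Nm d).1 = 1 := val_last S1 d
  have h2 : val S2 d (default : Nm d).2 = 1 := val_last S2 d
  rw [h1, h2, one_mul, one_mul]

variable {n1 n2 : ℕ} (e1 : P ≃ Fin n1) (e2 : R ≃ Fin n2)

/-- number of an address -/
def num (x : P × R) : ℕ := (e1 x.1 : ℕ) * n2 + (e2 x.2 : ℕ)

theorem num_lt (x : P × R) : num e1 e2 x < n1 * n2 := by
  have h1 := (e1 x.1).2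
  have h2 := (e2 x.2).2
  unfold num
  calc (e1 x.1 : ℕ) * n2 + (e2 x.2 : ℕ) < (e1 x.1 : ℕ) * n2 + n2 := by omega
    _ = ((e1 x.1 : ℕ) + 1) * n2 := by ring
    _ ≤ n1 * n2 := Nat.mul_le_mul_right _ h1

theorem num_div (x : P × R) : num e1 e2 x / n2 = (e1 x.1 : ℕ) := by
  have h2 := (e2 x.2).2
  unfold num
  rw [mul_comm, Nat.mul_add_div (by omega), Nat.div_eq_of_lt h2, add_zero]

theorem num_mod (x : P × R) : num e1 e2 x % n2 = (e2 x.2 : ℕ) := by
  have h2 := (e2 x.2).2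
  unfold num
  rw [mul_comm, Nat.mul_add_mod, Nat.mod_eq_of_lt h2]

theorem num_inj {x y : P × R} (h : num e1 e2 x = num e1 e2 y) : x = y := by
  have h1 : (e1 x.1 : ℕ) = (e1 y.1 : ℕ) := by rw [← num_div e1 e2 x, ← num_div e1 e2 y, h]
  have h2 : (e2 x.2 : ℕ) = (e2 y.2 : ℕ) := by rw [← num_mod e1 e2 x, ← num_mod e1 e2 y, h]
  exact Prod.ext (e1.injective (Fin.ext h1)) (e2.injective (Fin.ext h2))

/-- address of a number -/
def adr (a : ℕ) : P × R :=
  (if h : a / n2 < n1 then e1.symm ⟨a / n2, h⟩ else 1,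
    if h : a % n2 < n2 then e2.symm ⟨a % n2, h⟩ else 1)

theorem adr_num (x : P × R) : adr e1 e2 (num e1 e2 x) = x := by
  unfold adr
  have h1 : num e1 e2 x / n2 < n1 := by rw [num_div]; exact (e1 x.1).2
  have h2 : num e1 e2 x % n2 < n2 := by rw [num_mod]; exact (e2 x.2).2
  rw [dif_pos h1, dif_pos h2]
  refine Prod.ext ?_ ?_
  · show e1.symm ⟨num e1 e2 x / n2, h1⟩ = x.1
    rw [Equiv.symm_apply_eq]
    exact Fin.ext (num_div e1 e2 x)
  · show e2.symm ⟨num e1 e2 x % n2, h2⟩ = x.2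
    rw [Equiv.symm_apply_eq]
    exact Fin.ext (num_mod e1 e2 x)

theorem num_adr {a : ℕ} (h : a < n1 * n2) : num e1 e2 (adr e1 e2 a) = a := by
  have h2 : 0 < n2 := by
    rcases Nat.eq_zero_or_pos n2 with h0 | h0
    · rw [h0] at h; simp at h
    · exact h0
  have ha : a / n2 < n1 := Nat.div_lt_of_lt_mul (by rwa [mul_comm])
  have hb : a % n2 < n2 := Nat.mod_lt _ h2
  unfold num adr
  rw [dif_pos ha, dif_pos hb]
  simp only [Equiv.apply_symm_apply]
  rw [mul_comm]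
  exact Nat.div_add_mod a n2

theorem adr_inj : ∀ a < n1 * n2, ∀ b < n1 * n2, adr e1 e2 a = adr e1 e2 b → a = b := by
  intro a ha b hb h
  rw [← num_adr e1 e2 ha, ← num_adr e1 e2 hb, h]

/-- the number of the address with the place `v` and the position `θ` -/
theorem exists_num {v θ : ℕ} (hv : v < n1) (hθ : θ < n2) :
    ∃ x : P × R, num e1 e2 x = v * n2 + θ := ⟨(e1.symm ⟨v, hv⟩, e2.symm ⟨θ, hθ⟩), by simp [num]⟩

end two

/-! ### adjacency of numbers -/

section adj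

variable (d n2 : ℕ) (nb1 nb2 : ℕ → ℕ → ℕ)

/-- number reached from the address number `a` by the name `g` -/
def stp (a : ℕ) (g : ℕ × ℕ) : ℕ :=
  Ham613.nb3 d nb1 (a / n2) g.1 * n2 + Ham613.nb3 d nb2 (a % n2) g.2

/-- adjacency of address numbers -/
def A (a b : ℕ) : Prop := ∃ g : Nm d, stp d n2 nb1 nb2 a (g.1, g.2) = b

variable {d n2 nb1 nb2}
variable {P R : Type} [Group P] [Group R] {S1 : ℕ → P} {S2 : ℕ → R} {n1 : ℕ}
  (e1 : P ≃ Fin n1) (e2 : R ≃ Fin n2)
  (h1 : ∀ g < d, ∀ x : P, nb1 (e1 x) g = e1 (S1 g * x))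
  (h2 : ∀ g < d, ∀ x : R, nb2 (e2 x) g = e2 (S2 g * x))
include h1 h2

/-- steps of numbers are steps of addresses -/
theorem stp_num (g : Nm d) (x : P × R) :
    stp d n2 nb1 nb2 (num e1 e2 x) (g.1, g.2) = num e1 e2 (act S1 S2 d g x) := by
  unfold stp
  rw [num_div, num_mod, nb3_eq S1 e1 h1, nb3_eq S2 e2 h2]
  rfl

theorem A_iff (x y : P × R) :
    A d n2 nb1 nb2 (num e1 e2 x) (num e1 e2 y) ↔ ∃ g : Nm d, act S1 S2 d g x = y := by
  constructor
  · rintro ⟨g, hg⟩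
    refine ⟨g, num_inj e1 e2 ?_⟩
    rw [← stp_num e1 e2 h1 h2, hg]
  · rintro ⟨g, rfl⟩
    exact ⟨g, stp_num e1 e2 h1 h2 g x⟩

/-- adjacent numbers are joined by a step of addresses -/
theorem A.act {a b : ℕ} (ha : a < n1 * n2) (h : A d n2 nb1 nb2 a b) :
    ∃ g : Nm d, LayNet896.act S1 S2 d g (adr e1 e2 a) = adr e1 e2 b := by
  obtain ⟨g, rfl⟩ := h
  refine ⟨g, ?_⟩
  have := stp_num e1 e2 h1 h2 g (adr e1 e2 a)
  rw [num_adr e1 e2 ha] at this
  rw [this, adr_num]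

theorem A.lt {a b : ℕ} (ha : a < n1 * n2) (h : A d n2 nb1 nb2 a b) : b < n1 * n2 := by
  obtain ⟨g, rfl⟩ := h
  have := stp_num e1 e2 h1 h2 g (adr e1 e2 a)
  rw [num_adr e1 e2 ha] at this
  rw [this]
  exact num_lt e1 e2 _

theorem A.refl {a : ℕ} (ha : a < n1 * n2) : A d n2 nb1 nb2 a a := by
  obtain ⟨x, rfl⟩ : ∃ x : P × R, num e1 e2 x = a := ⟨_, num_adr e1 e2 ha⟩
  rw [A_iff e1 e2 h1 h2]
  exact ⟨default, act_default S1 S2 d x⟩

theorem A.symm (i1 : ∀ g < d, ∃ g' < d, S1 g' = (S1 g)⁻¹) (i2 : ∀ g < d, ∃ g' < d, S2 g' = (S2 g)⁻¹)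
    {a b : ℕ} (ha : a < n1 * n2) (h : A d n2 nb1 nb2 a b) : A d n2 nb1 nb2 b a := by
  have hb := A.lt e1 e2 h1 h2 ha h
  obtain ⟨x, rfl⟩ : ∃ x : P × R, num e1 e2 x = a := ⟨_, num_adr e1 e2 ha⟩
  obtain ⟨y, rfl⟩ : ∃ x : P × R, num e1 e2 x = b := ⟨_, num_adr e1 e2 hb⟩
  rw [A_iff e1 e2 h1 h2] at h ⊢
  obtain ⟨g, rfl⟩ := h
  obtain ⟨g1, hg1, e1'⟩ := val_inv S1 i1 g.1
  obtain ⟨g2, hg2, e2'⟩ := val_inv S2 i2 g.2
  refine ⟨(⟨g1, hg1⟩, ⟨g2, hg2⟩), ?_⟩
  rw [act_apply, act_apply]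
  simp [e1', e2']

/-- places joined by a word of at most three letters, same position -/
theorem A.place {v v' θ : ℕ} (hv : v < n1) (hθ : θ < n2)
    (h : Tour594.Adj ((d + 1) ^ 3) (Ham613.nb3 d nb1) v v') :
    A d n2 nb1 nb2 (v * n2 + θ) (v' * n2 + θ) := by
  obtain ⟨g, hg, hgv⟩ := h
  obtain ⟨x, rfl⟩ : ∃ x : P, (e1 x : ℕ) = v := ⟨e1.symm ⟨v, hv⟩, by simp⟩
  obtain ⟨y, rfl⟩ : ∃ y : R, (e2 y : ℕ) = θ := ⟨e2.symm ⟨θ, hθ⟩, by simp⟩
  rw [nb3_eq S1 e1 h1] at hgv
  rw [← hgv]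
  have := (A_iff e1 e2 h1 h2 (x, y) (val S1 d g * x, y)).2
    ⟨(⟨g, hg⟩, nil1 d), by
      rw [act_apply]
      have hv2 : val S2 d ((nil1 d : Fin ((d + 1) ^ 3)) : ℕ) = 1 := val_last S2 d
      show (val S1 d g * x, val S2 d ((nil1 d : Fin ((d + 1) ^ 3)) : ℕ) * y) = _
      rw [hv2, one_mul]⟩
  exact this

/-- positions joined by a word of at most three letters, same place -/
theorem A.pos {v θ θ' : ℕ} (hv : v < n1) (hθ : θ < n2)
    (h : Tour594.Adj ((d + 1) ^ 3) (Ham613.nb3 d nb2) θ θ') :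
    A d n2 nb1 nb2 (v * n2 + θ) (v * n2 + θ') := by
  obtain ⟨g, hg, hgv⟩ := h
  obtain ⟨x, rfl⟩ : ∃ x : P, (e1 x : ℕ) = v := ⟨e1.symm ⟨v, hv⟩, by simp⟩
  obtain ⟨y, rfl⟩ : ∃ y : R, (e2 y : ℕ) = θ := ⟨e2.symm ⟨θ, hθ⟩, by simp⟩
  rw [nb3_eq S2 e2 h2] at hgv
  rw [← hgv]
  have := (A_iff e1 e2 h1 h2 (x, y) (x, val S2 d g * y)).2
    ⟨(nil1 d, ⟨g, hg⟩), by
      rw [act_apply]
      have hv2 : val S1 d ((nil1 d : Fin ((d + 1) ^ 3)) : ℕ) = 1 := val_last S1 d
      show (val S1 d ((nil1 d : Fin ((d + 1) ^ 3)) : ℕ) * x, val S2 d g * y) = _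
      rw [hv2, one_mul]⟩
  exact this

omit h1 h2 in
/-- a letter is a word of at most three letters -/
theorem adj_of_letter {nb : ℕ → ℕ → ℕ} {u v : ℕ} (h : Tour594.Adj d nb u v) :
    Tour594.Adj ((d + 1) ^ 3) (Ham613.nb3 d nb) u v := by
  obtain ⟨g, hg, hgv⟩ := h
  obtain ⟨g', hg', e⟩ := exists_wd (d := d) [g] (by simpa using hg) (by simp)
  exact ⟨g', hg', by simp [Ham613.nb3, e, hgv]⟩

end adj

end Crest.Agent.R289.LayNet896
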