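import Crest.Agent.R289.RoutePT_55

/-!
# R289, block C (routing): `Route649.route` and `look` are polynomial time (helper55)
-/

set_option autoImplicit false

namespace Crest.Agent.R289.RoutePT55

open Crest.Agent.Lib.PT Crest.Agent.R289.Route649

variable {γ : Type} [PTCode γ] {N : γ → ℕ} {nb : γ → ℕ → ℕ → ℕ}

theorem ptf_stepR (H : NB N nb) {wd : γ → List (List ℕ)} (hwd : PTF wd) :
    PTF₂ (fun c (s : RSt) => stepR (nb c) (wd c) s) := by
  have H1 := H.comp (f := fun p : γ × RSt => p.1) PTF.fst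
  have hwd1 : PTF (fun p : γ × RSt => wd p.1) := PTF.comp (g := wd) hwd PTF.fst
  have hp : PTF (fun p : γ × RSt => Route649.pass (nb p.1) (wd p.1) p.2.2.2) :=
    ptf_pass H1 hwd1 (by fun_prop)
  have h1 : PTF (fun p : γ × RSt => (Route649.pass (nb p.1) (wd p.1) p.2.2.2).2.1) :=
    PTF.comp (g := fun s : PSt => s.2.1) (by fun_prop) hp
  have h2 : PTF (fun p : γ × RSt => (Route649.pass (nb p.1) (wd p.1) p.2.2.2).2.2) :=
    PTF.comp (g := fun s : PSt => s.2.2) (by fun_prop) hp
  have h3 : PTF (fun p : γ × RSt => p.2.1 + 1) := by fun_prop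
  refine PTF.prodMk h3 (PTF.prodMk (PTF.append (PTF.map
    (f := fun (p : γ × RSt) (x : (ℕ × ℕ) × List ℕ) => (p.2.1, x)) h1 ?_) (by fun_prop)) h2)
  exact PTF.prodMk (PTF.comp (g := fun p : γ × RSt => p.2.1)
    (f := fun q : (γ × RSt) × ((ℕ × ℕ) × List ℕ) => q.1) (by fun_prop) PTF.fst) PTF.snd

/-- sizes and lengths of one pass -/
theorem pass_bd (nb : ℕ → ℕ → ℕ) (B : ℕ) (hB : ∀ v g, nb v g ≤ B) (wd : List (List ℕ)) (S : ℕ)
    (L : List (ℕ × ℕ)) (hL : ∀ e ∈ L, sz e ≤ S) :
    (Route649.pass nb wd L).2.1.length + (Route649.pass nb wd L).2.2.length = L.length ∧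
      (∀ x ∈ (Route649.pass nb wd L).2.1,
        sz x ≤ 2 * S + 1 + (2 * S + 2 + 2 * (sz wd * (2 * B + 1)))) ∧
      ∀ e ∈ (Route649.pass nb wd L).2.2, sz e ≤ S := by
  induction L using List.reverseRecOn with
  | nil => simp [Route649.pass]
  | append_singleton L e ih =>
    obtain ⟨i1, i2, i3⟩ := ih (fun e he => hL e (by simp [he]))
    have he := hL e (by simp)
    have e0 : Route649.pass nb wd (L ++ [e]) = stepW nb wd (Route649.pass nb wd L) e := by
      simp [Route649.pass, List.foldl_append]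
    rw [e0]
    generalize Route649.pass nb wd L = s at i1 i2 i3
    cases ht : tryRoute nb wd s.1 e with
    | none =>
      have e1 : stepW nb wd s e = (s.1, s.2.1, e :: s.2.2) := by simp [stepW, ht]
      rw [e1]
      refine ⟨?_, i2, ?_⟩
      · simp only [List.length_cons, List.length_append, List.length_nil]; omega
      · intro e' he'
        rcases List.mem_cons.1 he' with rfl | he'
        · exact he
        · exact i3 e' he'
    | some p =>
      have e1 : stepW nb wd s e = (erase p ++ s.1, (e, erase p) :: s.2.1, s.2.2) := by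
        simp [stepW, ht]
      have hp := sz_tryRoute nb B hB ht
      have hpe := sz_erase_le p
      rw [e1]
      refine ⟨?_, ?_, i3⟩
      · simp only [List.length_cons, List.length_append, List.length_nil]; omega
      · intro x hx
        rcases List.mem_cons.1 hx with rfl | hx
        · rw [sz_prod]; simp only; omega
        · exact i2 x hx

/-- sizes and lengths after `k` rounds -/
theorem iter_bd (nb : ℕ → ℕ → ℕ) (B : ℕ) (hB : ∀ v g, nb v g ≤ B) (wd : List (List ℕ))
    (wires : List (ℕ × ℕ)) (k : ℕ) :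
    ((stepR nb wd)^[k] (0, [], wires)).1 = k ∧
    ((stepR nb wd)^[k] (0, [], wires)).2.1.length +
      ((stepR nb wd)^[k] (0, [], wires)).2.2.length = wires.length ∧
    (∀ x ∈ ((stepR nb wd)^[k] (0, [], wires)).2.1, sz x ≤ 2 * k + 1 +
      (2 * sz wires + 1 + (2 * sz wires + 2 + 2 * (sz wd * (2 * B + 1))))) ∧
    ∀ e ∈ ((stepR nb wd)^[k] (0, [], wires)).2.2, sz e ≤ sz wires := by
  induction k with
  | zero => exact ⟨rfl, by simp, by simp, fun e he => sz_mem_le he⟩
  | succ k ih =>
    rw [Function.iterate_succ_apply']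
    generalize (stepR nb wd)^[k] (0, [], wires) = s at ih
    obtain ⟨i1, i2, i3, i4⟩ := ih
    obtain ⟨p1, p2, p3⟩ := pass_bd nb B hB wd (sz wires) s.2.2 i4
    unfold stepR
    refine ⟨by simp only [i1], ?_, ?_, p3⟩
    · simp only [List.length_append, List.length_map]; omega
    · intro x hx
      simp only at hx
      rcases List.mem_append.1 hx with hx | hx
      · obtain ⟨y, hy, rfl⟩ := List.mem_map.1 hx
        have := p2 y hy
        have hk := sz_nat_le s.1
        rw [sz_prod]
        simp only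
        omega
      · have := i3 x hx
        omega

theorem ptu_size {f : γ → ℕ} (hf : PTF f) : PTU (fun c => (f c).size) := by
  have := hf.szU
  simpa only [sz_nat] using this

theorem ptu_ncol {l n : γ → ℕ} (hl : PTU l) (hn : PTU n) : PTU (fun c => ncol (l c) (n c)) := by
  have h1 : PTU (fun c => (n c + 1).size) := ptu_size (PTU.toPTF (PTU.add hn (PTU.const 1)))
  have h2 : PTU (fun c => 4 * ((l c + 1) * (l c + 1)) + 1) :=
    PTU.add (PTU.mul (PTU.const 4) (PTU.mul (PTU.add hl (PTU.const 1)) (PTU.add hl (PTU.const 1))))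
      (PTU.const 1)
  have h3 := PTU.mul h2 h1
  have : (fun c => ncol (l c) (n c)) =
      fun c => (4 * ((l c + 1) * (l c + 1)) + 1) * (n c + 1).size := by
    funext c; unfold ncol; rw [sq]
  rw [this]
  exact h3

/-- **the routing is polynomial time** -/
theorem ptf_route (H : NB N nb) {l n : γ → ℕ} (hl : PTU l) (hn : PTU n)
    {wd : γ → List (List ℕ)} {wires : γ → List (ℕ × ℕ)} (hwd : PTF wd) (hwi : PTF wires) :
    PTF (fun c => route (n c) (l c) (nb c) (wd c) (wires c)) := by
  unfold route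
  refine PTF.comp (g := fun s : RSt => s.2.1) (by fun_prop) ?_
  have hnc := ptu_ncol hl hn
  refine PTF.iterate' (n := fun c => ncol (l c) (n c))
    (f := fun (c : γ) (s : RSt) => stepR (nb c) (wd c) s) (a := fun c => ((0, [], wires c) : RSt))
    (B := fun c => 2 * ncol (l c) (n c) + 1 + (2 * (sz (wires c) * (2 * (2 * ncol (l c) (n c) + 1 +
      (2 * sz (wires c) + 1 + (2 * sz (wires c) + 2 + 2 * (sz (wd c) * (2 * N c + 1))))) + 1)) + 1 +
      sz (wires c) * (2 * sz (wires c) + 1))) hnc (ptf_stepR H hwd) (by fun_prop) ?_ ?_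
  · have h1 := H.hN.pb
    have h2 := hwd.sz
    have h3 := hwi.sz
    have h4 := hnc.pb
    fun_prop
  · intro c i hi
    obtain ⟨j1, j2, j3, j4⟩ := iter_bd (nb c) (N c) (fun v g => H.hlt c v g) (wd c) (wires c) i
    show sz ((stepR (nb c) (wd c))^[i] (0, [], wires c)) ≤ _
    generalize (stepR (nb c) (wd c))^[i] (0, [], wires c) = s at j1 j2 j3 j4
    have s1 := sz_nat_le s.1
    have s2 := sz_list_le j3
    have s3 := sz_list_le j4
    have hlen := length_le_sz (wires c)
    have l1 : s.2.1.length ≤ sz (wires c) := by omega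
    have l2 : s.2.2.length ≤ sz (wires c) := by omega
    have m1 : s.2.1.length * (2 * (2 * i + 1 + (2 * sz (wires c) + 1 + (2 * sz (wires c) + 2 +
        2 * (sz (wd c) * (2 * N c + 1))))) + 1) ≤ sz (wires c) *
        (2 * (2 * ncol (l c) (n c) + 1 + (2 * sz (wires c) + 1 + (2 * sz (wires c) + 2 +
        2 * (sz (wd c) * (2 * N c + 1))))) + 1) := by
      apply Nat.mul_le_mul l1
      omega
    have m2 := Nat.mul_le_mul_right (2 * sz (wires c) + 1) l2
    rw [sz_prod, sz_prod]
    omega

theorem ptf_look {r : γ → List (ℕ × (ℕ × ℕ) × List ℕ)} {a : γ → ℕ} (hr : PTF r) (ha : PTF a) :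
    PTF (fun c => look (r c) (a c)) := by
  have h1 : PTF (fun c => (r c).find? fun x => decide (x.2.1.1 = a c)) := by
    refine PTF.find? (l := r) (p := fun c x => decide (x.2.1.1 = a c)) hr ?_
    refine PTF.beq (f := fun q : γ × ℕ × (ℕ × ℕ) × List ℕ => q.2.2.1.1)
      (g := fun q : γ × ℕ × (ℕ × ℕ) × List ℕ => a q.1) (by fun_prop) ?_
    exact PTF.comp (g := a) ha PTF.fst
  have h := PTF.optionCasesOn (s := fun c => (r c).find? fun x => decide (x.2.1.1 = a c))
    (f := fun _ => ((0, []) : ℕ × List ℕ)) (g := fun _ x => (x.1, x.2.2)) h1 (PTF.const _)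
    (PTF.comp (g := fun x : ℕ × (ℕ × ℕ) × List ℕ => (x.1, x.2.2))
      (f := fun q : γ × (ℕ × (ℕ × ℕ) × List ℕ) => q.2)
      (PTF.prodMk PTF.fst (PTF.comp PTF.snd PTF.snd)) PTF.snd)
  refine PTF.of_eq h fun c => ?_
  unfold look
  cases (r c).find? fun x => decide (x.2.1.1 = a c) <;> rfl

/-! ### capping a neighbour function -/

/-- values capped by `n` -/
def cap (n : ℕ) (nb : ℕ → ℕ → ℕ) (v g : ℕ) : ℕ := min (nb v g) n

theorem cap_eq {n d l : ℕ} {nb : ℕ → ℕ → ℕ} {wd : List (List ℕ)} (H : Hyp n d l nb wd) {v g : ℕ}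
    (hv : v < n) (hg : g < d) : cap n nb v g = nb v g := min_eq_left (H.lt v hv g hg).le

theorem cap_foldl {n d l : ℕ} {nb : ℕ → ℕ → ℕ} {wd : List (List ℕ)} (H : Hyp n d l nb wd)
    {w : List ℕ} (hw : ∀ g ∈ w, g < d) : ∀ {a : ℕ}, a < n →
      w.foldl (cap n nb) a = w.foldl nb a := by
  induction w with
  | nil => intro a _; rfl
  | cons g w ih =>
    intro a ha
    have hg := hw g (by simp)
    rw [List.foldl_cons, List.foldl_cons, cap_eq H ha hg,
      ih (fun g hg => hw g (by simp [hg])) (H.lt a ha g hg)]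

/-- the hypotheses of the routing are not changed by capping -/
theorem Hyp_cap {n d l : ℕ} {nb : ℕ → ℕ → ℕ} {wd : List (List ℕ)} (H : Hyp n d l nb wd) :
    Hyp n d l (cap n nb) wd where
  lt v hv g hg := by rw [cap_eq H hv hg]; exact H.lt v hv g hg
  inj g hg u hu v hv h := by
    rw [cap_eq H hu hg, cap_eq H hv hg] at h
    exact H.inj g hg u hu v hv h
  sym v hv g hg := by
    obtain ⟨g', hg', h⟩ := H.sym v hv g hg
    exact ⟨g', hg', by rw [cap_eq H hv hg, cap_eq H (H.lt v hv g hg) hg']; exact h⟩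
  len := H.len
  wlen := H.wlen
  wlt := H.wlt
  winj a ha i hi j hj h := by
    have hm : ∀ i < n, ∀ g ∈ wd.getD i [], g < d := by
      intro i hi
      have h1 : i < wd.length := by rw [H.len]; exact hi
      rw [List.getD_eq_getElem _ _ h1]
      exact H.wlt _ (List.getElem_mem _)
    rw [cap_foldl H (hm i hi) ha, cap_foldl H (hm j hj) ha] at h
    exact H.winj a ha i hi j hj h

/-- a capped neighbour function has bounded values -/
theorem NB_cap (hN : PTU N) (hnb : PTF (fun p : γ × ℕ × ℕ => nb p.1 p.2.1 p.2.2)) :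
    NB N (fun c => cap (N c) (nb c)) where
  hN := hN
  hnb := PTF.natMin hnb (PTF.comp (g := N) hN.toPTF PTF.fst)
  hlt _ _ _ := min_le_right _ _

end Crest.Agent.R289.RoutePT55
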