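import Crest.Agent.R289.ToCL_328
import Crest.Agent.R289.RoutePU_55
import Crest.Agent.R289.LayAsm_109
import Crest.Agent.R289.LayNet_896
import Crest.Agent.R289.LayLy_338

/-!
# R289, C_REAL, PTF half of the final layout (helper328)

* `ptf_mkW`, `ptf_progC` : routed wires and program of a compiled circuit (LayAsm_109).
* `ptf_wlk`, `ptf_lst` : the common walk of LayLy_338 and its last address.
* `stpN` : the steps of `LayNet896` numbered by a list of names; `ptf_stpN`.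
* `layPT_net` : `PubC965.LayPT` of the family of layouts on `P × R`.
-/

set_option autoImplicit false
set_option linter.unusedSectionVars false

namespace Crest.Agent.R289.LayFamPT328

open Crest.Agent.Lib.PT Crest.Agent.R289.Layout109 Crest.Agent.R289.EolNFPT328
open Crest.Agent.R289.LayPTF328 Crest.Agent.R289.ToCL328 Crest.Agent.R289.RoutePT55
open Crest.Agent.R289.DefC Crest.Agent.R289.Route649

variable {γ : Type} [PTCode γ]

/-! ### routed wires -/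

theorem ptf_wiresOf {c : γ → ℕ} {ws : γ → List (ℕ × (ℕ × ℕ))} (hc : PTF c) (hws : PTF ws) :
    PTF (fun x => wiresOf (c x) (ws x)) := by
  unfold wiresOf
  refine PTF.map (f := fun (_ : γ) (e : ℕ × (ℕ × ℕ)) => e.2)
    (PTF.filter (p := fun x (e : ℕ × (ℕ × ℕ)) => e.1 == c x) hws ?_) ?_
  · refine PTF.of_eq (PTF.beq (f := fun p : γ × (ℕ × (ℕ × ℕ)) => p.2.1) (g := fun p => c p.1)
      (PTF.comp PTF.fst PTF.snd) (PTF.comp hc PTF.fst)) (fun p => ?_)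
    simp [Bool.beq_eq_decide_eq]
  · exact PTF.comp PTF.snd PTF.snd

theorem ptf_places {hp : γ → List ℕ} {ws : γ → List (ℕ × ℕ)} (hhp : PTF hp) (hws : PTF ws) :
    PTF (fun x => places (hp x) (ws x)) := by
  unfold places
  refine PTF.map (f := fun x (e : ℕ × ℕ) => ((hp x).getD e.1 0, (hp x).getD e.2 0)) hws ?_
  have h1 : PTF (fun p : γ × (ℕ × ℕ) => hp p.1) := PTF.comp hhp PTF.fst
  exact PTF.prodMk (ptf_getD h1 (PTF.comp PTF.fst PTF.snd) (PTF.const 0))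
    (ptf_getD h1 (PTF.comp PTF.snd PTF.snd) (PTF.const 0))

theorem ptf_rtOf {N : γ → ℕ} {nb : γ → ℕ → ℕ → ℕ} (H : NB N nb) {nP l c : γ → ℕ} (hn : PTU nP)
    (hl : PTU l) {wd : γ → List (List ℕ)} (hwd : PTF wd) {hp : γ → List ℕ} (hhp : PTF hp)
    {ws : γ → List (ℕ × (ℕ × ℕ))} (hws : PTF ws) (hc : PTF c) :
    PTF (fun x => rtOf (nP x) (l x) (nb x) (wd x) (hp x) (ws x) (c x)) :=
  ptf_route H hl hn hwd (ptf_places hhp (ptf_wiresOf hc hws))

theorem ptf_mkW {N : γ → ℕ} {nb : γ → ℕ → ℕ → ℕ} (H : NB N nb) {nP l : γ → ℕ} (hn : PTU nP)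
    (hl : PTU l) {wd : γ → List (List ℕ)} (hwd : PTF wd) {hp : γ → List ℕ} (hhp : PTF hp)
    {ws : γ → List (ℕ × (ℕ × ℕ))} (hws : PTF ws) :
    PTF (fun x => mkW (nP x) (l x) (nb x) (wd x) (hp x) (ws x)) := by
  unfold mkW
  have H1 : NB (fun p : γ × ℕ => N p.1) (fun p => nb p.1) := H.comp PTF.fst
  have hws1 : PTF (fun p : γ × ℕ => ws p.1) := PTF.comp hws PTF.fst
  have hhp1 : PTF (fun p : γ × ℕ => hp p.1) := PTF.comp hhp PTF.fst
  have hrt : PTF (fun p : γ × ℕ => rtOf (nP p.1) (l p.1) (nb p.1) (wd p.1) (hp p.1) (ws p.1) p.2) :=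
    ptf_rtOf H1 (PTU.comp hn PTF.fst) (PTU.comp hl PTF.fst) (PTF.comp hwd PTF.fst) hhp1 hws1
      PTF.snd
  refine PTF.flatMap (f := fun x c => (wiresOf c (ws x)).map fun e =>
    ((c, e, look (rtOf (nP x) (l x) (nb x) (wd x) (hp x) (ws x) c) ((hp x).getD e.1 0)) : Wir))
    (PTF.const (List.range 4)) ?_
  refine PTF.map (f := fun (p : γ × ℕ) (e : ℕ × ℕ) => ((p.2, e,
    look (rtOf (nP p.1) (l p.1) (nb p.1) (wd p.1) (hp p.1) (ws p.1) p.2)
      ((hp p.1).getD e.1 0)) : Wir)) (ptf_wiresOf PTF.snd hws1) ?_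
  refine PTF.prodMk (PTF.comp PTF.snd PTF.fst) (PTF.prodMk PTF.snd (ptf_look ?_ ?_))
  · exact PTF.comp (g := fun p : γ × ℕ => rtOf (nP p.1) (l p.1) (nb p.1) (wd p.1) (hp p.1)
      (ws p.1) p.2) hrt PTF.fst
  · exact ptf_getD (PTF.comp (g := fun p : γ × ℕ => hp p.1) hhp1 PTF.fst)
      (PTF.comp PTF.fst PTF.snd) (PTF.const 0)

/-- program of a compiled circuit -/
theorem ptf_progC {N : γ → ℕ} {nb : γ → ℕ → ℕ → ℕ} (H : NB N nb) {nP nT l n : γ → ℕ}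
    (hP : PTU nP) (hT : PTF nT) (hl : PTU l) (hn : PTU n) {wd : γ → List (List ℕ)} (hwd : PTF wd)
    {θ hp : γ → List ℕ} (hθ : PTF θ) (hhp : PTF hp)
    {P : γ → List (ℕ × ℕ × ℕ) × List ℕ} (hPr : PTF P) :
    PTF (fun x => progC (nP x) (nT x) (l x) (nb x) (wd x) (θ x) (hp x) (n x) (P x)) := by
  unfold progC
  have h1 : PTF (fun x => (P x).1) := PTF.comp PTF.fst hPr
  have h2 : PTF (fun x => (P x).2) := PTF.comp PTF.snd hPr
  exact ptf_prog hT hθ hhp hn h1 (ptf_mkW H hP hl hwd hhp (ptf_wires hn.toPTF h1 h2))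

/-- the common walk -/
theorem ptf_wlk {nT n : γ → ℕ} {θ hp : γ → List ℕ} {oS oP : γ → List (ℕ × ℕ × ℕ)}
    {WS WP : γ → List Wir} (hT : PTF nT) (hθ : PTF θ) (hhp : PTF hp) (hn : PTU n) (hoS : PTF oS)
    (hWS : PTF WS) (hoP : PTF oP) (hWP : PTF WP) :
    PTF (fun c => LayLy338.wlk (nT c) (θ c) (hp c) (n c) (oS c) (WS c) (oP c) (WP c)) := by
  unfold LayLy338.wlk
  exact ptf_both (ptf_prog hT hθ hhp hn hoS hWS)
    (ptf_retw hT hθ hhp (PTU.toPTF (PTU.add hn (PTU.length hoS))))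
    (ptf_prog hT hθ hhp hn hoP hWP)

/-- the last address -/
theorem ptf_lst {nT n : γ → ℕ} {θ hp : γ → List ℕ} {oP : γ → List (ℕ × ℕ × ℕ)} (hT : PTF nT)
    (hθ : PTF θ) (hhp : PTF hp) (hn : PTF n) (hoP : PTF oP) :
    PTF (fun c => LayLy338.lst (nT c) (θ c) (hp c) (n c) (oP c)) := by
  unfold LayLy338.lst
  exact ptf_home hT hθ hhp (PTF.natSub (PTF.natAdd hn (PTU.toPTF (PTU.length hoP))) (PTF.const 1))

/-! ### steps of the content group -/

/-- the list of all names -/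
noncomputable def nms (d : ℕ) : List (LayNet896.Nm d) := Finset.univ.toList

theorem mem_nms {d : ℕ} (g : LayNet896.Nm d) : g ∈ nms d := Finset.mem_toList.2 (Finset.mem_univ g)

/-- step number `i` (name number `i` of the list `nms d`) of the address number `a` -/
noncomputable def stpN (d n2 : ℕ) (nb1 nb2 : ℕ → ℕ → ℕ) (i a : ℕ) : ℕ :=
  LayNet896.stp d n2 nb1 nb2 a (((nms d).getD i default).1, ((nms d).getD i default).2)

theorem ptf_stpN (d : ℕ) {n2 : γ → ℕ} {nb1 nb2 : γ → ℕ → ℕ → ℕ} (h2 : PTF n2)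
    (hnb1 : PTF (fun p : γ × ℕ × ℕ => nb1 p.1 p.2.1 p.2.2))
    (hnb2 : PTF (fun p : γ × ℕ × ℕ => nb2 p.1 p.2.1 p.2.2)) :
    PTF (fun p : γ × ℕ × ℕ => stpN d (n2 p.1) (nb1 p.1) (nb2 p.1) p.2.1 p.2.2) := by
  have hn2 : PTF (fun p : γ × ℕ × ℕ => n2 p.1) := PTF.comp h2 PTF.fst
  have hi : PTF (fun p : γ × ℕ × ℕ => p.2.1) := PTF.comp PTF.fst PTF.snd
  have ha : PTF (fun p : γ × ℕ × ℕ => p.2.2) := PTF.comp PTF.snd PTF.snd
  have g1 : PTF (fun p : γ × ℕ × ℕ => (((nms d).getD p.2.1 default).1 : ℕ)) := by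
    refine PTF.of_eq (ptf_getD (l := fun _ : γ × ℕ × ℕ => (nms d).map fun g => (g.1 : ℕ))
      (d := fun _ => ((default : LayNet896.Nm d).1 : ℕ)) (PTF.const _) hi (PTF.const _))
      (fun p => ?_)
    rw [List.getD_map]
  have g2 : PTF (fun p : γ × ℕ × ℕ => (((nms d).getD p.2.1 default).2 : ℕ)) := by
    refine PTF.of_eq (ptf_getD (l := fun _ : γ × ℕ × ℕ => (nms d).map fun g => (g.2 : ℕ))
      (d := fun _ => ((default : LayNet896.Nm d).2 : ℕ)) (PTF.const _) hi (PTF.const _))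
      (fun p => ?_)
    rw [List.getD_map]
  unfold stpN LayNet896.stp
  refine PTF.natAdd (PTF.natMul ?_ hn2) ?_
  · exact PTF.comp (g := fun q : γ × ℕ × ℕ => Ham613.nb3 d (nb1 q.1) q.2.1 q.2.2)
      (f := fun p : γ × ℕ × ℕ => (p.1, p.2.2 / n2 p.1, (((nms d).getD p.2.1 default).1 : ℕ)))
      (Ham613.ptf_nb3 hnb1) (PTF.prodMk PTF.fst (PTF.prodMk (PTF.natDiv ha hn2) g1))
  · exact PTF.comp (g := fun q : γ × ℕ × ℕ => Ham613.nb3 d (nb2 q.1) q.2.1 q.2.2)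
      (f := fun p : γ × ℕ × ℕ => (p.1, p.2.2 % n2 p.1, (((nms d).getD p.2.1 default).2 : ℕ)))
      (Ham613.ptf_nb3 hnb2) (PTF.prodMk PTF.fst (PTF.prodMk (PTF.natMod ha hn2) g2))

theorem stpN_num {P R : Type} [Group P] [Group R] {S1 : ℕ → P} {S2 : ℕ → R} {d n1 n2 : ℕ}
    {nb1 nb2 : ℕ → ℕ → ℕ} (e1 : P ≃ Fin n1) (e2 : R ≃ Fin n2)
    (h1 : ∀ g < d, ∀ x : P, nb1 (e1 x) g = e1 (S1 g * x))
    (h2 : ∀ g < d, ∀ x : R, nb2 (e2 x) g = e2 (S2 g * x)) (i : ℕ) (hi : i < (nms d).length)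
    (x : P × R) : stpN d n2 nb1 nb2 i (LayNet896.num e1 e2 x) =
      LayNet896.num e1 e2 (LayNet896.act S1 S2 d (nms d)[i] x) := by
  unfold stpN
  rw [List.getD_eq_getElem _ _ hi]
  exact LayNet896.stp_num e1 e2 h1 h2 _ x

/-- the numbering of `P × R` as an equivalence -/
def numE {P R : Type} [Group P] [Group R] {n1 n2 : ℕ} (e1 : P ≃ Fin n1) (e2 : R ≃ Fin n2) :
    P × R ≃ Fin (n1 * n2) where
  toFun x := ⟨LayNet896.num e1 e2 x, LayNet896.num_lt e1 e2 x⟩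
  invFun a := LayNet896.adr e1 e2 a
  left_inv x := LayNet896.adr_num e1 e2 x
  right_inv a := Fin.ext (LayNet896.num_adr e1 e2 a.2)

/-! ### the family of layouts on `P × R` -/

section fam

variable {α : Type} [PTCode α] {P R : α → Type} [∀ a, Group (P a)] [∀ a, Group (R a)]
  [∀ a, DecidableEq (P a)] [∀ a, DecidableEq (R a)]
  {n1 n2 : α → ℕ} (e1 : ∀ a, P a ≃ Fin (n1 a)) (e2 : ∀ a, R a ≃ Fin (n2 a))
  {S1 : ∀ a, ℕ → P a} {S2 : ∀ a, ℕ → R a} {nb1 nb2 : α → ℕ → ℕ → ℕ} {d : ℕ}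

/-- **`LayPT` of the layouts of `LayCv338.lay` on `P × R` with the steps of `LayNet896`** -/
theorem layPT_net (h1 : ∀ a, ∀ g < d, ∀ x : P a, nb1 a (e1 a x) g = e1 a (S1 a g * x))
    (h2 : ∀ a, ∀ g < d, ∀ x : R a, nb2 a (e2 a x) g = e2 a (S2 a g * x))
    (hn2 : PTF n2) (hnb1 : PTF (fun p : α × ℕ × ℕ => nb1 p.1 p.2.1 p.2.2))
    (hnb2 : PTF (fun p : α × ℕ × ℕ => nb2 p.1 p.2.1 p.2.2))
    {L2 : α → List Stp2} (hL2 : PTF L2) {fin n : α → ℕ} (hfin : PTF fin) (hn : PTU n)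
    {al : α → ℕ → ℕ} (hal : PTF (fun p : α × ℕ => al p.1 p.2)) {near : α → ℕ → ℕ → Prop}
    (h : ∀ a, LayCv338.LyN (near a) (n1 a * n2 a) (L2 a) (fin a) (n a) (al a)) :
    Nonempty (PubC965.LayPT (fun a => P a × R a) (fun a => n1 a * n2 a)
      (fun a => numE (e1 a) (e2 a))
      (fun a => LayCv338.lay (LayNet896.act (S1 a) (S2 a) d) (nms d) default
        (LayNet896.adr (e1 a) (e2 a)) (L2 a) (fin a) (n a) (al a))) := by
  refine layPT_of_lyN (e := fun a => numE (e1 a) (e2 a)) (fun a A hA => ?_)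
    (nb := fun a => stpN d (n2 a) (nb1 a) (nb2 a)) (ptf_stpN d hn2 hnb1 hnb2)
    (fun a i hi x => ?_) hL2 hfin hn hal h
  · exact LayNet896.num_adr (e1 a) (e2 a) hA
  · exact stpN_num (e1 a) (e2 a) (h1 a) (h2 a) i hi x

end fam

end Crest.Agent.R289.LayFamPT328
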