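import Crest.Agent.R289.LayObjD_896
import Crest.Agent.R289.MemF_12

/-!
# Row 289, block C: the family `MemF12.Fd` with the layouts `LayObj896.layE` (helper896)

* `tab_layE` : content tables of all public words (hypothesis `hc` of `Fd`);
* `fd h hlam hQe lv ..` : `Fd h`; `fd_real` : the layouts compute the circuits;
* `adE` : polynomial-time numbers of the name addresses (for the decoders).
-/

set_option autoImplicit false
set_option linter.dupNamespace false

namespace Crest.Agent.R289.LayFd896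

open Crest.PPADPCP Crest.Agent.Lib.PT Crest.Agent.R289 Crest.Agent.R289.Asm12
  Crest.Agent.R289.DefC Crest.Agent.R289.InsObj576
  Crest.Agent.R289.PubBits92 Crest.Agent.R289.YIdx901
  Crest.Agent.R289.InsTab117 Crest.Agent.R289.LevObj782
  Crest.Agent.R289.MemF12 Crest.Agent.R289.LayObj896

section
variable {D : Obj} {M0 : ℕ} {lam0 Kr : ℝ} (h : D.OK M0 lam0 Kr)

section tab
variable {kP kR : EI → ℕ} (hP : PTU kP) (hQP : PTU fun a => D.Q ^ kP a) (hR : PTU kR)
  (hQR : PTU fun a => D.Q ^ kR a)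
include h hP hQP hR hQR

/-- **content tables of the public words** -/
theorem tab_layE (b : Pb (G D) (Fin 28) 128) : Tab rI (n := nGa D kP kR) (eGi D rI kP kR)
    (fun i x => pubC (layE D (kP (rI i)) (kR (rI i)) (rI i)) D.K b x) := by
  obtain ⟨H⟩ := layE_PT h hP hQP hR hQR
  obtain ⟨T, hT, e⟩ := H.pub (K := D.K) b
  exact ⟨T, hT, fun i x => e (rI i) x⟩

/-- **numbers of the name addresses** -/
theorem exists_adE : ∃ ad : EI × ℕ → ℕ, PTF ad ∧ ∀ (a : EI)
    (j : Fin (layE D (kP a) (kR a) a).n),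
    ad (a, j) = (eΓ D (kP a) (kR a) ((layE D (kP a) (kR a) a).al j) : Fin _) := by
  obtain ⟨H⟩ := layE_PT h hP hQP hR hQR
  exact ⟨fun p => H.al p.1 p.2, H.hal, fun a j => H.al_eq a j⟩

end tab

variable (hlam : lam0 ^ 2 ≤ 1 / 8) {e : ℕ} (hQe : D.Q = 3 ^ e) {c n0 x C : ℕ}
    {kP kR kT L : EI → ℕ} (lv : Lv D.Q c 0 n0 x C kP kR kT L) (hc : 4 ≤ c) (hx : 1 ≤ x)
    (hC : 3 ^ (3 * 5) * ((3 ^ 5) ^ (0 + 1)) ^ 3 ≤ C) (hn0 : 4096 ≤ n0)

include h hlam lv hc in
/-- the layouts compute the circuits -/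
theorem real_layE (i : WI) : Sol589.Real i.1 (InsObj576.act D (kP (rI i)) (kR (rI i)))
    (26 : Fin 28) (layE D (kP (rI i)) (kR (rI i)) (rI i)) :=
  layE_real_lv h lv hlam hc i.2

/-- **the family of members** -/
noncomputable def fd : Fd h :=
  Fd.ofLv hlam hQe lv hx hC hn0 (fun i => layE D (kP (rI i)) (kR (rI i)) (rI i))
    (fun i => layE_ok_lv h lv hlam hc i.2)
    (fun i => (real_layE h hlam lv hc i).h0 i.2)
    (fun b => tab_layE h lv.uP lv.uQP lv.uR lv.uQR b)

theorem fd_lay (i : WI) : (fd h hlam hQe lv hc hx hC hn0).lay i =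
    layE D (kP (rI i)) (kR (rI i)) (rI i) := rfl

theorem fd_kP : (fd h hlam hQe lv hc hx hC hn0).kP = kP := rfl
theorem fd_kR : (fd h hlam hQe lv hc hx hC hn0).kR = kR := rfl
theorem fd_kT : (fd h hlam hQe lv hc hx hC hn0).kT = kT := rfl

/-- **the layouts of the family compute the circuits** -/
theorem fd_real (i : WI) : Sol589.Real i.1
    (InsObj576.act D ((fd h hlam hQe lv hc hx hC hn0).kP (rI i))
      ((fd h hlam hQe lv hc hx hC hn0).kR (rI i)))
    (26 : Fin 28) ((fd h hlam hQe lv hc hx hC hn0).lay i) :=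
  real_layE h hlam lv hc i

end

end Crest.Agent.R289.LayFd896
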