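import Crest.Agent.R289.RouteCay_649
import Crest.Agent.R289.AsmObj_12
import Crest.Agent.R289.Diam_309

/-!
# R289, block C (routing): the left Cayley graph of the object at level `k` (helper649)

Letters: all `a z` and `(a z)⁻¹`; neighbours by LEFT multiplication, `nbN D u v g`;
`hyp_obj`: the routing hypotheses with words of length `≤ lenG D k = 2 (clog (Q^k) + 1)`.
`ptf_nbN`, `ptf_words`.
-/

set_option autoImplicit false

namespace Crest.Agent.R289.RouteObj649

open Crest.Agent.R289 Crest.Agent.Lib.PT Crest.Agent.R289.Asm12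

/-! ### mixing -/

theorem mix_of_exp {P I : Type} [Group P] [Fintype P] [Fintype I] {s : I → P} {lam : ℝ}
    (h : TP846.Exp s lam) : Diam309.Mix s lam := by
  intro f hf
  have h1 := h (fun x => f x⁻¹) (fun v => hf _)
  have e1 : ∑ v : P, (∑ z, (fun x => f x⁻¹) (v * s z)) ^ 2 = ∑ g : P, (∑ i, f ((s i)⁻¹ * g)) ^ 2 := by
    refine Fintype.sum_equiv (Equiv.inv P) _ _ fun v => ?_
    simp [mul_inv_rev]
  have e2 : ∑ v : P, (fun x => f x⁻¹) v = ∑ g : P, f g :=
    Fintype.sum_equiv (Equiv.inv P) _ _ fun v => by simp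
  have e3 : ∑ v : P, (fun x => f x⁻¹) v ^ 2 = ∑ g : P, f g ^ 2 :=
    Fintype.sum_equiv (Equiv.inv P) _ _ fun v => by simp
  rw [e1, e2, e3] at h1
  exact h1

/-! ### letters -/

section
variable (D : Obj)

/-- the labels -/
noncomputable def labs : List (Option D.K) := (Finset.univ : Finset (Option D.K)).toList

/-- letters as group elements -/
noncomputable def letP (k : ℕ) : List (D.P k) :=
  (labs D).map (fun z => (D.tp k).a z) ++ (labs D).map (fun z => ((D.tp k).a z)⁻¹)

/-- letters as numbers -/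
noncomputable def letN (u : Un) : List ℕ :=
  (labs D).map (fun z => D.aN z u) ++ (labs D).map (fun z => D.invN (u, D.aN z u))

/-- number of letters -/
noncomputable def dG : ℕ := 2 * (labs D).length

/-- length of the words -/
def lenG (k : ℕ) : ℕ := 2 * (Nat.clog 2 (D.Q ^ k) + 1)

/-- neighbour of `v` along the letter `g`: number of (letter `g`) * (element `v`) -/
noncomputable def nbN (u : Un) (v g : ℕ) : ℕ := D.mulN (u, (letN D u).getD g 0, v)

theorem letP_length (k : ℕ) : (letP D k).length = dG D := by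
  simp [letP, dG, two_mul]

variable {D}

theorem letN_eq {M0 : ℕ} {lam0 Kr : ℝ} (h : D.OK M0 lam0 Kr) (k : ℕ) :
    letN D (Un.mk k) = (letP D k).map fun x => (D.ix k x : ℕ) := by
  unfold letN letP
  rw [List.map_append, List.map_map, List.map_map]
  congr 1
  · apply List.map_congr_left
    intro z _
    exact h.aN_eq z k
  · apply List.map_congr_left
    intro z _
    simp only [Function.comp_apply]
    rw [h.aN_eq z k]
    exact h.inv_eq k _

theorem nbN_eq {M0 : ℕ} {lam0 Kr : ℝ} (h : D.OK M0 lam0 Kr) (k : ℕ) (g : ℕ) (hg : g < dG D)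
    (x : D.P k) : nbN D (Un.mk k) (D.ix k x) g = D.ix k ((letP D k).getD g 1 * x) := by
  unfold nbN
  rw [letN_eq h k]
  have hg' : g < (letP D k).length := by rw [letP_length]; exact hg
  rw [List.getD_eq_getElem _ _ (by simpa using hg'), List.getD_eq_getElem _ _ hg', List.getElem_map]
  exact h.mul_eq k _ _

theorem mem_letP {k : ℕ} {x : D.P k} : x ∈ letP D k ↔
    (∃ z, (D.tp k).a z = x) ∨ ∃ z, ((D.tp k).a z)⁻¹ = x := by
  simp [letP, labs]

/-- **the routing hypotheses for the object** -/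
theorem hyp_obj {M0 : ℕ} {lam0 Kr : ℝ} (h : D.OK M0 lam0 Kr) (hlam : lam0 ^ 2 ≤ 1 / 8) (k : ℕ) :
    Route649.Hyp (D.Q ^ k) (dG D) (lenG D k) (nbN D (Un.mk k))
      (Route649.words (D.Q ^ k) (dG D) (nbN D (Un.mk k))) := by
  have hcard : Fintype.card (D.P k) = D.Q ^ k := by
    rw [Fintype.card_congr (D.ix k), Fintype.card_fin]
  have hQ : 0 < D.Q ^ k := Nat.pow_pos (by have := h.two_le; omega)
  refine Route649.hyp_of_group (S := fun g => (letP D k).getD g 1) (D.ix k) hQ (nbN_eq h k) ?_ ?_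
  · intro g hg
    have hg' : g < (letP D k).length := by rw [letP_length]; exact hg
    have h1 : (letP D k).getD g 1 ∈ letP D k := by
      rw [List.getD_eq_getElem _ _ hg']
      exact List.getElem_mem _
    have h2 : ((letP D k).getD g 1)⁻¹ ∈ letP D k := by
      rw [mem_letP] at h1 ⊢
      rcases h1 with ⟨z, hz⟩ | ⟨z, hz⟩
      · exact Or.inr ⟨z, by rw [hz]⟩
      · exact Or.inl ⟨z, by rw [← hz, inv_inv]⟩
    obtain ⟨g', hg'', he⟩ := List.getElem_of_mem h2
    refine ⟨g', by rw [← letP_length D k]; exact hg'', ?_⟩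
    rw [List.getD_eq_getElem _ _ hg'', he]
  · intro x
    obtain ⟨lam, hl0, hl1, _, hE⟩ := h.exp
    have hmix := mix_of_exp (hE k).1
    have hl2 : lam ^ 2 ≤ 1 / 8 := (pow_le_pow_left₀ hl0 hl1 2).trans hlam
    obtain ⟨w, hw1, hw2, hw3⟩ := Diam309.diam_sym hmix Fintype.card_pos hl2
      (R := Nat.clog 2 (Fintype.card (D.P k)) + 1) le_rfl {y | y ∈ letP D k}
      (fun i => mem_letP.2 (Or.inl ⟨i, rfl⟩)) (fun i => mem_letP.2 (Or.inr ⟨i, rfl⟩)) x
    have key : ∀ w : List (D.P k), (∀ s ∈ w, s ∈ letP D k) →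
        ∃ w' : List ℕ, w'.length = w.length ∧ (∀ g ∈ w', g < dG D) ∧
          (w'.map fun g => (letP D k).getD g 1) = w := by
      intro w
      induction w with
      | nil => intro _; exact ⟨[], rfl, by simp, rfl⟩
      | cons y w ih =>
        intro hw
        obtain ⟨w', e1, e2, e3⟩ := ih (fun s hs => hw s (by simp [hs]))
        obtain ⟨g, hg, he⟩ := List.getElem_of_mem (hw y (by simp))
        refine ⟨g :: w', by simp [e1], ?_, ?_⟩
        · intro g' hg'
          rcases List.mem_cons.1 hg' with rfl | hg'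
          · rw [← letP_length D k]; exact hg
          · exact e2 g' hg'
        · rw [List.map_cons, e3, List.getD_eq_getElem _ _ hg, he]
    obtain ⟨w', e1, e2, e3⟩ := key w hw2
    refine ⟨w', ?_, e2, ?_⟩
    · rw [e1, hw1, hcard]
      exact le_rfl
    · rw [e3, hw3]

/-! ### polynomial time -/

theorem ptf_letN {M0 : ℕ} {lam0 Kr : ℝ} (h : D.OK M0 lam0 Kr) {α : Type} [PTCode α] (k : α → ℕ)
    (hk : PTU k) (hQ : PTU fun x => D.Q ^ k x) : PTF (fun x => letN D (Un.mk (k x))) := by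
  have key : ∀ (l : List (Option D.K)) (f : Option D.K → α → ℕ), (∀ z, PTF (f z)) →
      PTF (fun u => l.map fun z => f z u) := by
    intro l f hf
    induction l with
    | nil => exact PTF.const []
    | cons z l ih => exact PTF.listCons (hf z) ih
  refine PTF.append (key _ (fun z x => D.aN z (Un.mk (k x))) fun z => h.ptf_a z k hk hQ)
    (key _ (fun z x => D.invN (Un.mk (k x), D.aN z (Un.mk (k x)))) fun z => ?_)
  exact h.ptf_inv k _ hk hQ (h.ptf_a z k hk hQ)

theorem ptf_nbN {M0 : ℕ} {lam0 Kr : ℝ} (h : D.OK M0 lam0 Kr) {α : Type} [PTCode α] (k v g : α → ℕ)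
    (hk : PTU k) (hQ : PTU fun x => D.Q ^ k x) (hv : PTF v) (hg : PTF g) :
    PTF (fun x => nbN D (Un.mk (k x)) (v x) (g x)) := by
  unfold nbN
  exact h.ptf_mul k _ _ hk hQ
    (Crest.Agent.R288.PtDp115.ptf_getB (ptf_letN h k hk hQ) hg (PTF.const 0)) hv

theorem ptf_nbN' {M0 : ℕ} {lam0 Kr : ℝ} (h : D.OK M0 lam0 Kr) {α : Type} [PTCode α] (k : α → ℕ)
    (hk : PTU k) (hQ : PTU fun x => D.Q ^ k x) :
    PTF (fun p : α × ℕ × ℕ => nbN D (Un.mk (k p.1)) p.2.1 p.2.2) :=
  ptf_nbN h (fun p : α × ℕ × ℕ => k p.1) (fun p => p.2.1) (fun p => p.2.2)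
    (PTU.comp hk PTF.fst) (PTU.comp (n := fun x => D.Q ^ k x) hQ PTF.fst)
    (PTF.comp (g := fun q : ℕ × ℕ => q.1) PTF.fst PTF.snd)
    (PTF.comp (g := fun q : ℕ × ℕ => q.2) PTF.snd PTF.snd)

end

end Crest.Agent.R289.RouteObj649

namespace Crest.Agent.R289.Route649

open Crest.Agent.Lib.PT

theorem ptf_words {γ : Type} [PTCode γ] {d : ℕ} {N : γ → ℕ} {nb : γ → ℕ → ℕ → ℕ} (hN : PTU N)
    (hnb : PTF (fun p : γ × ℕ × ℕ => nb p.1 p.2.1 p.2.2)) :
    PTF (fun c => words (N c) d (nb c)) := by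
  unfold words
  refine PTF.map (f := fun c v => Bfs594.bfs (N c) d (nb c) v) (PTF.range hN) ?_
  refine Bfs594.ptf_bfs (N := fun q : γ × ℕ => N q.1) (nb := fun q : γ × ℕ => nb q.1)
    (v := fun q : γ × ℕ => q.2) ?_ ?_ PTF.snd
  · exact PTU.comp hN PTF.fst
  · exact PTF.comp (g := fun p : γ × ℕ × ℕ => nb p.1 p.2.1 p.2.2) hnb
      (PTF.prodMk (PTF.comp (g := fun q : γ × ℕ => q.1) PTF.fst PTF.fst)
        (PTF.prodMk (PTF.comp (g := fun q : ℕ × ℕ => q.1) PTF.fst PTF.snd)
          (PTF.comp (g := fun q : ℕ × ℕ => q.2) PTF.snd PTF.snd)))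

end Crest.Agent.R289.Route649

namespace Crest.Agent.R289.RouteObj649

open Crest.Agent.Lib.PT Crest.Agent.R289.Asm12

/-- the table of words of level `k x` is polynomial time -/
theorem ptf_wordsObj {D : Obj} {M0 : ℕ} {lam0 Kr : ℝ} (h : D.OK M0 lam0 Kr) {α : Type} [PTCode α]
    (k : α → ℕ) (hk : PTU k) (hQ : PTU fun x => D.Q ^ k x) :
    PTF (fun x => Route649.words (D.Q ^ k x) (dG D) (nbN D (Un.mk (k x)))) :=
  Route649.ptf_words (N := fun x => D.Q ^ k x) (nb := fun x => nbN D (Un.mk (k x))) hQ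
    (ptf_nbN' h k hk hQ)

end Crest.Agent.R289.RouteObj649
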