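import Crest.Agent.R289.Route_649

/-!
# R289, block C (routing): one pass of `Route649.route` is polynomial time (helper55)

`NB N nb` : `N` unary, `nb : γ → ℕ → ℕ → ℕ` polynomial time, all values `≤ N`.  Then `erase`, `walk`,
`raw`, `cand`, `tryRoute`, `stepW`, `pass` are polynomial time.
-/

set_option autoImplicit false

namespace Crest.Agent.R289.RoutePT55

open Crest.Agent.Lib.PT Crest.Agent.R289.Route649

variable {γ δ : Type} [PTCode γ] [PTCode δ]

/-! ### loop erasure -/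

theorem ptf_push : PTF (fun p : List ℕ × ℕ => push p.1 p.2) := by
  unfold push
  refine PTF.ite (PTPred.mem (f := fun p : List ℕ × ℕ => p.2) (l := fun p : List ℕ × ℕ => p.1)
    PTF.snd PTF.fst) ?_ ?_
  · refine PTF.dropWhile (l := fun p : List ℕ × ℕ => p.1) (p := fun p u => !decide (u = p.2))
      PTF.fst ?_
    exact PTF.not (PTF.beq (f := fun q : (List ℕ × ℕ) × ℕ => q.2)
      (g := fun q : (List ℕ × ℕ) × ℕ => q.1.2) PTF.snd (PTF.comp PTF.snd PTF.fst))
  · exact PTF.listCons PTF.snd PTF.fst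

theorem sz_push_le (st : List ℕ) (v : ℕ) : sz (push st v) ≤ sz st + (2 * sz v + 1) := by
  unfold push
  split_ifs with h
  · obtain ⟨t, ht⟩ := List.dropWhile_suffix (l := st) (fun u => !decide (u = v))
    have h1 := sz_append t (st.dropWhile fun u => !decide (u = v))
    rw [ht] at h1
    omega
  · rw [sz_cons]; omega

theorem sz_foldl_push (l : List ℕ) : ∀ st : List ℕ, sz (l.foldl push st) ≤ sz st + sz l := by
  induction l with
  | nil => intro st; simp
  | cons v l ih =>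
    intro st
    rw [List.foldl_cons, sz_cons]
    have h1 := ih (push st v)
    have h2 := sz_push_le st v
    omega

theorem sz_erase_le (l : List ℕ) : sz (erase l) ≤ sz l := by
  unfold erase
  rw [sz_reverse]
  have := sz_foldl_push l []
  simpa using this

theorem ptf_erase {l : γ → List ℕ} (hl : PTF l) : PTF (fun c => erase (l c)) := by
  unfold erase
  refine PTF.reverse (PTF.foldl_add (f := fun (_ : γ) st v => push st v) hl ?_ (PTF.const [])
    (G := fun c => 2 * sz (l c) + 1) ?_ ?_)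
  · exact PTF.comp (g := fun p : List ℕ × ℕ => push p.1 p.2)
      (f := fun p : γ × List ℕ × ℕ => p.2) ptf_push PTF.snd
  · have := hl.sz
    fun_prop
  · intro c st v hv
    have h1 := sz_push_le st v
    have h2 := sz_mem_le hv
    omega

/-! ### neighbour tables -/

/-- a polynomial-time neighbour function with bounded values -/
structure NB (N : γ → ℕ) (nb : γ → ℕ → ℕ → ℕ) : Prop where
  hN : PTU N
  hnb : PTF (fun p : γ × ℕ × ℕ => nb p.1 p.2.1 p.2.2)
  hlt : ∀ c v g, nb c v g ≤ N c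

variable {N : γ → ℕ} {nb : γ → ℕ → ℕ → ℕ}

theorem NB.comp (H : NB N nb) {f : δ → γ} (hf : PTF f) :
    NB (fun x => N (f x)) (fun x => nb (f x)) where
  hN := PTU.comp H.hN hf
  hnb := PTF.comp (g := fun p : γ × ℕ × ℕ => nb p.1 p.2.1 p.2.2)
    (f := fun p : δ × ℕ × ℕ => (f p.1, p.2)) H.hnb
    (PTF.prodMk (PTF.comp (g := f) hf PTF.fst) PTF.snd)
  hlt c v g := H.hlt (f c) v g

theorem walk_eq (nb : ℕ → ℕ → ℕ) (w : List ℕ) : ∀ (a : ℕ) (acc : List ℕ),
    (w.foldl (fun (s : ℕ × List ℕ) g => (nb s.1 g, nb s.1 g :: s.2)) (a, a :: acc)).2.reverse =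
      acc.reverse ++ walk nb a w := by
  induction w with
  | nil => intro a acc; simp [walk]
  | cons g w ih =>
    intro a acc
    rw [List.foldl_cons, ih (nb a g) (a :: acc)]
    simp [walk]

theorem ptf_walk (H : NB N nb) {a : γ → ℕ} {w : γ → List ℕ} (ha : PTF a) (hw : PTF w) :
    PTF (fun c => walk (nb c) (a c) (w c)) := by
  have h1 : PTF (fun c => (w c).foldl
      (fun (s : ℕ × List ℕ) g => (nb c s.1 g, nb c s.1 g :: s.2)) (a c, [a c])) := by
    refine PTF.foldl_add (f := fun (c : γ) (s : ℕ × List ℕ) g => (nb c s.1 g, nb c s.1 g :: s.2))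
      hw ?_ (PTF.prodMk ha (PTF.listCons ha (PTF.const []))) (G := fun c => 4 * N c + 1) ?_ ?_
    · have h2 : PTF (fun p : γ × (ℕ × List ℕ) × ℕ => nb p.1 p.2.1.1 p.2.2) :=
        PTF.comp (g := fun p : γ × ℕ × ℕ => nb p.1 p.2.1 p.2.2)
          (f := fun p : γ × (ℕ × List ℕ) × ℕ => (p.1, p.2.1.1, p.2.2)) H.hnb (by fun_prop)
      exact PTF.prodMk h2 (PTF.listCons h2 (by fun_prop))
    · have := H.hN.pb
      fun_prop
    · intro c s g _
      have h3 := (sz_nat_le (nb c s.1 g)).trans (H.hlt c s.1 g)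
      rw [sz_prod, sz_prod, sz_cons]
      simp only
      omega
  refine PTF.of_eq (PTF.reverse (PTF.comp (g := fun s : ℕ × List ℕ => s.2) PTF.snd h1)) fun c => ?_
  have := walk_eq (nb c) (w c) (a c) []
  simpa using this

theorem ptf_end (H : NB N nb) {a : γ → ℕ} {w : γ → List ℕ} (ha : PTF a) (hw : PTF w) :
    PTF (fun c => (w c).foldl (nb c) (a c)) := by
  refine PTF.foldl_add (f := fun c => nb c) hw H.hnb ha (G := fun c => N c) H.hN.pb ?_
  intro c v g _
  have h3 := (sz_nat_le (nb c v g)).trans (H.hlt c v g)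
  omega

theorem ptf_raw (H : NB N nb) {a b : γ → ℕ} {w w' : γ → List ℕ} (ha : PTF a) (hb : PTF b)
    (hw : PTF w) (hw' : PTF w') : PTF (fun c => raw (nb c) (a c) (b c) (w c) (w' c)) :=
  PTF.append (ptf_walk H ha hw) (PTF.reverse (ptf_walk H hb hw'))

/-! ### candidates -/

theorem ptf_cand (H : NB N nb) {wd : γ → List (List ℕ)} {a b : γ → ℕ} (hwd : PTF wd) (ha : PTF a)
    (hb : PTF b) : PTF (fun c => cand (nb c) (wd c) (a c) (b c)) := by
  unfold cand
  refine PTF.flatMap (l := wd) (f := fun c w => ((wd c).filter fun w' =>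
    decide (w.foldl (nb c) (a c) = w'.foldl (nb c) (b c))).map fun w' =>
      raw (nb c) (a c) (b c) w w') hwd ?_
  have h1 : PTF (fun q : γ × List ℕ => q.1) := PTF.fst
  have hwd1 : PTF (fun q : γ × List ℕ => wd q.1) := PTF.comp (g := wd) hwd PTF.fst
  have h2 : PTF (fun q : (γ × List ℕ) × List ℕ => q.1.1) := PTF.comp PTF.fst PTF.fst
  have H2 := H.comp (f := fun q : (γ × List ℕ) × List ℕ => q.1.1) h2
  have ha2 : PTF (fun q : (γ × List ℕ) × List ℕ => a q.1.1) := PTF.comp (g := a) ha h2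
  have hb2 : PTF (fun q : (γ × List ℕ) × List ℕ => b q.1.1) := PTF.comp (g := b) hb h2
  have hw2 : PTF (fun q : (γ × List ℕ) × List ℕ => q.1.2) := PTF.comp PTF.snd PTF.fst
  have hw2' : PTF (fun q : (γ × List ℕ) × List ℕ => q.2) := PTF.snd
  refine PTF.map (l := fun q : γ × List ℕ => (wd q.1).filter fun w' =>
    decide (q.2.foldl (nb q.1) (a q.1) = w'.foldl (nb q.1) (b q.1)))
    (f := fun q w' => raw (nb q.1) (a q.1) (b q.1) q.2 w') ?_ (ptf_raw H2 ha2 hb2 hw2 hw2')
  refine PTF.filter (l := fun q : γ × List ℕ => wd q.1)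
    (p := fun q w' => decide (q.2.foldl (nb q.1) (a q.1) = w'.foldl (nb q.1) (b q.1))) hwd1 ?_
  exact PTF.beq (ptf_end H2 ha2 hw2) (ptf_end H2 hb2 hw2')

theorem ptf_tryRoute (H : NB N nb) {wd : γ → List (List ℕ)} {U : γ → List ℕ} {e : γ → ℕ × ℕ}
    (hwd : PTF wd) (hU : PTF U) (he : PTF e) :
    PTF (fun c => tryRoute (nb c) (wd c) (U c) (e c)) := by
  unfold tryRoute
  refine PTF.find? (l := fun c => cand (nb c) (wd c) (e c).1 (e c).2)
    (p := fun c p => p.all fun v => !decide (v ∈ U c))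
    (ptf_cand H hwd (PTF.comp (g := fun x : ℕ × ℕ => x.1) PTF.fst he)
      (PTF.comp (g := fun x : ℕ × ℕ => x.2) PTF.snd he)) ?_
  refine PTF.all (l := fun q : γ × List ℕ => q.2) (p := fun q v => !decide (v ∈ U q.1)) PTF.snd ?_
  refine PTF.not (PTPred.toPTF (PTPred.mem (f := fun q : (γ × List ℕ) × ℕ => q.2)
    (l := fun q : (γ × List ℕ) × ℕ => U q.1.1) PTF.snd ?_))
  exact PTF.comp (g := U) hU (PTF.comp PTF.fst PTF.fst)

/-! ### sizes -/

theorem sz_walk_le (nb : ℕ → ℕ → ℕ) (B : ℕ) (hB : ∀ v g, nb v g ≤ B) (w : List ℕ) : ∀ a : ℕ,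
    sz (walk nb a w) ≤ (2 * sz a + 1) + w.length * (2 * B + 1) := by
  induction w with
  | nil => intro a; simp [walk]
  | cons g w ih =>
    intro a
    rw [walk, sz_cons, List.length_cons]
    have h1 := ih (nb a g)
    have h2 := (sz_nat_le (nb a g)).trans (hB a g)
    have e : (w.length + 1) * (2 * B + 1) = w.length * (2 * B + 1) + (2 * B + 1) := by ring
    omega

theorem sz_tryRoute (nb : ℕ → ℕ → ℕ) (B : ℕ) (hB : ∀ v g, nb v g ≤ B) {wd : List (List ℕ)}
    {U : List ℕ} {e : ℕ × ℕ} {p : List ℕ} (h : tryRoute nb wd U e = some p) :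
    sz p ≤ 2 * sz e + 2 + 2 * (sz wd * (2 * B + 1)) := by
  have h1 : p ∈ cand nb wd e.1 e.2 := List.mem_of_find?_eq_some h
  obtain ⟨w, hw, w', hw', _, rfl⟩ := mem_cand.1 h1
  unfold raw
  rw [sz_append, sz_reverse]
  have a1 := sz_walk_le nb B hB w e.1
  have a2 := sz_walk_le nb B hB w' e.2
  have l1 : w.length ≤ sz wd := (length_le_sz w).trans (sz_mem_le hw)
  have l2 : w'.length ≤ sz wd := (length_le_sz w').trans (sz_mem_le hw')
  have m1 := Nat.mul_le_mul_right (2 * B + 1) l1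
  have m2 := Nat.mul_le_mul_right (2 * B + 1) l2
  have se : sz e = 2 * sz e.1 + 1 + sz e.2 := sz_prod e
  omega

/-! ### one pass -/

theorem ptf_stepW (H : NB N nb) {wd : γ → List (List ℕ)} (hwd : PTF wd) :
    PTF (fun p : γ × PSt × (ℕ × ℕ) => stepW (nb p.1) (wd p.1) p.2.1 p.2.2) := by
  have H1 := H.comp (f := fun p : γ × PSt × (ℕ × ℕ) => p.1) PTF.fst
  have hwd1 : PTF (fun p : γ × PSt × (ℕ × ℕ) => wd p.1) := PTF.comp (g := wd) hwd PTF.fst
  have ht : PTF (fun p : γ × PSt × (ℕ × ℕ) => tryRoute (nb p.1) (wd p.1) p.2.1.1 p.2.2) :=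
    ptf_tryRoute H1 hwd1 (by fun_prop) (by fun_prop)
  have he : PTF (fun q : (γ × PSt × (ℕ × ℕ)) × List ℕ => erase q.2) := ptf_erase PTF.snd
  have h := PTF.optionCasesOn (s := fun p : γ × PSt × (ℕ × ℕ) =>
      tryRoute (nb p.1) (wd p.1) p.2.1.1 p.2.2)
    (f := fun p => ((p.2.1.1, p.2.1.2.1, p.2.2 :: p.2.1.2.2) : PSt))
    (g := fun p q => ((erase q ++ p.2.1.1, (p.2.2, erase q) :: p.2.1.2.1, p.2.1.2.2) : PSt))
    ht ?_ ?_
  · refine PTF.of_eq h fun p => ?_
    unfold stepW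
    cases tryRoute (nb p.1) (wd p.1) p.2.1.1 p.2.2 <;> rfl
  · refine PTF.prodMk (by fun_prop) (PTF.prodMk (by fun_prop) (PTF.listCons ?_ ?_))
    · fun_prop
    · fun_prop
  · refine PTF.prodMk (PTF.append he (by fun_prop)) (PTF.prodMk (PTF.listCons
      (PTF.prodMk (by fun_prop) he) (by fun_prop)) (by fun_prop))

theorem ptf_pass (H : NB N nb) {wd : γ → List (List ℕ)} {wires : γ → List (ℕ × ℕ)}
    (hwd : PTF wd) (hwi : PTF wires) : PTF (fun c => Route649.pass (nb c) (wd c) (wires c)) := by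
  unfold Route649.pass
  refine PTF.foldl_add (f := fun c => stepW (nb c) (wd c)) hwi (ptf_stepW H hwd) (PTF.const _)
    (G := fun c => 12 * (2 * sz (wires c) + 2 + 2 * (sz (wd c) * (2 * N c + 1))) + 12) ?_ ?_
  · have h1 := H.hN.pb
    have h2 := hwd.sz
    have h3 := hwi.sz
    fun_prop
  · intro c s e he
    have hs := sz_mem_le he
    cases ht : tryRoute (nb c) (wd c) s.1 e with
    | none =>
      have e1 : stepW (nb c) (wd c) s e = (s.1, s.2.1, e :: s.2.2) := by simp [stepW, ht]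
      rw [e1, sz_prod, sz_prod, sz_cons, sz_prod s, sz_prod s.2]
      simp only
      omega
    | some p =>
      have e1 : stepW (nb c) (wd c) s e =
          (erase p ++ s.1, (e, erase p) :: s.2.1, s.2.2) := by simp [stepW, ht]
      have hp := sz_tryRoute (nb c) (N c) (fun v g => H.hlt c v g) ht
      have hpe := sz_erase_le p
      rw [e1, sz_prod, sz_prod, sz_cons, sz_prod s, sz_prod s.2, sz_append, sz_prod]
      simp only
      omega

end Crest.Agent.R289.RoutePT55
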