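import Crest.Agent.R289.LayAdj_896
import Crest.Agent.R289.InsObj_576
import Crest.Agent.R289.RouteObj_649
import Crest.Agent.R289.RoutePT_55
import Crest.Agent.R289.LayA_873
import Crest.Agent.R289.YIdx_901

/-!
# Row 289, block C, C_REAL assembly part 3 (helper896): the geometry over `Asm12.Obj`

* `ltrs`, `exists_name`, `exists_G` : words of at most three letters of the routing graph are names
  `G D` of `InsObj_576` (uniformly in the levels);
* `nbC` : neighbour function capped below `Q^k` for all arguments; `hyp_nbC`;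
* `hm D k` : the Hamiltonian order of level `k`; `geo`, `adj` (hypotheses of `Layout109`),
  `near` : `Rel` → adjacency by moves of `InsObj_576.act`;
* polynomial time of `nbC`, `wdC`, `hm`.
-/

set_option autoImplicit false
set_option linter.dupNamespace false

namespace Crest.Agent.R289.LayObj896

open Crest.Agent.R289 Crest.Agent.Lib.PT Crest.Agent.R289.Asm12 Crest.Agent.R289.RouteObj649
open Crest.Agent.R289.InsObj576 (G W3 Ltr lv ov wv3)
open Crest.Agent.R289.LayNet896 (Nm val num adr num_lt num_inj adr_num num_adr num_div num_mod Rel)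

/-! ### names -/

section names
variable (D : Obj)

/-- letter number `g` of the routing graph at level `k` -/
noncomputable def S (k g : ℕ) : D.P k := (letP D k).getD g 1

/-- the letters of the routing graph as letters of `InsObj_576` -/
noncomputable def ltrs : List (Ltr D) :=
  (labs D).map (fun z => (false, false, z)) ++ (labs D).map (fun z => (false, true, z))

theorem letP_eq (k : ℕ) : letP D k = (ltrs D).map (lv D k) := by
  unfold letP ltrs
  rw [List.map_append, List.map_map, List.map_map]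
  rfl

theorem ltrs_length : (ltrs D).length = dG D := by
  simp [ltrs, dG, two_mul]

theorem S_eq (k : ℕ) {g : ℕ} (hg : g < dG D) :
    S D k g = lv D k ((ltrs D)[g]'(by rw [ltrs_length]; exact hg)) := by
  have h : g < (letP D k).length := by rw [letP_length]; exact hg
  unfold S
  rw [List.getD_eq_getElem _ _ h]
  simp only [letP_eq, List.getElem_map]

/-- name of a letter number -/
noncomputable def nml (g : ℕ) : Option (Ltr D) := (ltrs D)[g]?

theorem ov_nml (k : ℕ) {g : ℕ} (hg : g < dG D) : ov D k (nml D g) = S D k g := by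
  have h : g < (ltrs D).length := by rw [ltrs_length]; exact hg
  unfold nml
  rw [List.getElem?_eq_getElem h, S_eq D k hg]
  rfl

theorem ov_none (k : ℕ) : ov D k none = 1 := rfl

/-- every word of at most three letters has a name -/
theorem exists_w3 (w : List ℕ) (hw : ∀ g ∈ w, g < dG D) (hl : w.length ≤ 3) :
    ∃ v : W3 D, ∀ k, wv3 D k v = (w.reverse.map (S D k)).prod := by
  match w, hw, hl with
  | [], _, _ => exact ⟨fun _ => none, fun k => by simp [wv3, ov_none]⟩
  | [a], hw, _ =>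
    have ha := hw a (by simp)
    exact ⟨![nml D a, none, none], fun k => by simp [wv3, ov_nml D k ha, ov_none]⟩
  | [a, b], hw, _ =>
    have ha := hw a (by simp)
    have hb := hw b (by simp)
    exact ⟨![nml D a, nml D b, none], fun k => by
      simp [wv3, ov_nml D k ha, ov_nml D k hb, ov_none]⟩
  | [a, b, c], hw, _ =>
    have ha := hw a (by simp)
    have hb := hw b (by simp)
    have hc := hw c (by simp)
    exact ⟨![nml D a, nml D b, nml D c], fun k => by
      simp [wv3, ov_nml D k ha, ov_nml D k hb, ov_nml D k hc, mul_assoc]⟩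

theorem exists_name (g : ℕ) : ∃ w : W3 D, ∀ k, wv3 D k w = val (S D k) (dG D) g :=
  exists_w3 D (Ham613.wd (dG D) g) (fun _ hx => Ham613.wd_lt hx) (Ham613.wd_length _ g)

/-- **a step of the routing graph is a move of `InsObj_576`** -/
theorem exists_G (g : Nm (dG D)) : ∃ g' : G D, ∀ kP kR,
    InsObj576.act D kP kR g' = LayNet896.act (S D kP) (S D kR) (dG D) g := by
  obtain ⟨w1, h1⟩ := exists_name D g.1
  obtain ⟨w2, h2⟩ := exists_name D g.2
  refine ⟨(w1, w2), fun kP kR => Equiv.ext fun x => ?_⟩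
  rw [InsObj576.act_apply, LayNet896.act_apply, h1, h2]

/-- all names -/
noncomputable def gs : List (G D) := (Finset.univ : Finset (G D)).toList

theorem mem_gs (g : G D) : g ∈ gs D := Finset.mem_toList.2 (Finset.mem_univ g)

end names

/-! ### the capped neighbour function -/

section nbC
variable (D : Obj)

/-- neighbour number, `0` if out of range -/
noncomputable def nbC (k v g : ℕ) : ℕ :=
  if nbN D (Un.mk k) v g < D.Q ^ k then nbN D (Un.mk k) v g else 0

variable {D} {M0 : ℕ} {lam0 Kr : ℝ} (h : D.OK M0 lam0 Kr)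
include h

theorem Q_pos (k : ℕ) : 0 < D.Q ^ k := Nat.pow_pos (by have := h.two_le; omega)

omit h in
theorem nbC_le (k v g : ℕ) : nbC D k v g ≤ D.Q ^ k := by
  unfold nbC
  split_ifs with h1
  · exact h1.le
  · exact Nat.zero_le _

theorem nbC_eq (k : ℕ) (g : ℕ) (hg : g < dG D) (x : D.P k) :
    nbC D k (D.ix k x) g = D.ix k (S D k g * x) := by
  unfold nbC
  rw [nbN_eq h k g hg x]
  exact if_pos (D.ix k _).2

omit h in
theorem S_inv (k : ℕ) (g : ℕ) (hg : g < dG D) : ∃ g' < dG D, S D k g' = (S D k g)⁻¹ := by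
  have hg' : g < (letP D k).length := by rw [letP_length]; exact hg
  have h1 : S D k g ∈ letP D k := by
    unfold S
    rw [List.getD_eq_getElem _ _ hg']
    exact List.getElem_mem _
  have h2 : (S D k g)⁻¹ ∈ letP D k := by
    rw [mem_letP] at h1 ⊢
    rcases h1 with ⟨z, hz⟩ | ⟨z, hz⟩
    · exact Or.inr ⟨z, by rw [hz]⟩
    · exact Or.inl ⟨z, by rw [← hz, inv_inv]⟩
  obtain ⟨g', hg'', he⟩ := List.getElem_of_mem h2
  refine ⟨g', by rw [← letP_length D k]; exact hg'', ?_⟩
  unfold S at he ⊢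
  rw [List.getD_eq_getElem _ _ hg'', he]

/-- routing words of level `k` -/
noncomputable def _root_.Crest.Agent.R289.LayObj896.wdC (D : Obj) (k : ℕ) : List (List ℕ) :=
  Route649.words (D.Q ^ k) (dG D) (nbC D k)

/-- **routing hypotheses of the capped neighbour function** -/
theorem hyp_nbC (hlam : lam0 ^ 2 ≤ 1 / 8) (k : ℕ) :
    Route649.Hyp (D.Q ^ k) (dG D) (lenG D k) (nbC D k) (wdC D k) := by
  have hcard : Fintype.card (D.P k) = D.Q ^ k := by
    rw [Fintype.card_congr (D.ix k), Fintype.card_fin]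
  refine Route649.hyp_of_group (S := S D k) (D.ix k) (Q_pos h k) (nbC_eq h k) (S_inv k) ?_
  intro x
  obtain ⟨lam, hl0, hl1, _, hE⟩ := h.exp
  have hmix := mix_of_exp (hE k).1
  have hl2 : lam ^ 2 ≤ 1 / 8 := (pow_le_pow_left₀ hl0 hl1 2).trans hlam
  obtain ⟨w, hw1, hw2, hw3⟩ := Diam309.diam_sym hmix Fintype.card_pos hl2
    (R := Nat.clog 2 (Fintype.card (D.P k)) + 1) le_rfl {y | y ∈ letP D k}
    (fun i => mem_letP.2 (Or.inl ⟨i, rfl⟩)) (fun i => mem_letP.2 (Or.inr ⟨i, rfl⟩)) x
  have key : ∀ w : List (D.P k), (∀ s ∈ w, s ∈ letP D k) →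
      ∃ w' : List ℕ, w'.length = w.length ∧ (∀ g ∈ w', g < dG D) ∧
        (w'.map (S D k)) = w := by
    intro w
    induction w with
    | nil => intro _; exact ⟨[], rfl, by simp, rfl⟩
    | cons y w ih =>
      intro hw
      obtain ⟨w', e1, e2, e3⟩ := ih (fun s hs => hw s (by simp [hs]))
      obtain ⟨g, hg, he⟩ := List.getElem_of_mem (hw y (by simp))
      refine ⟨g :: w', by simp [e1], ?_, ?_⟩
      · intro g' hg'
        rcases List.mem_cons.1 hg' with rfl | hg'
        · rw [← letP_length D k]; exact hg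
        · exact e2 g' hg'
      · rw [List.map_cons, e3]
        unfold S
        rw [List.getD_eq_getElem _ _ hg, he]
  obtain ⟨w', e1, e2, e3⟩ := key w hw2
  refine ⟨w', ?_, e2, ?_⟩
  · rw [e1, hw1, hcard]
    exact le_rfl
  · rw [e3, hw3]

/-- the Hamiltonian order of level `k` -/
noncomputable def _root_.Crest.Agent.R289.LayObj896.hm (D : Obj) (k : ℕ) : List ℕ :=
  Ham613.ham (D.Q ^ k) (dG D) (nbC D k)

theorem hm_length (hlam : lam0 ^ 2 ≤ 1 / 8) (k : ℕ) : (hm D k).length = D.Q ^ k :=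
  (LayNet896.ham_of_hyp (hyp_nbC h hlam k) (Q_pos h k)).1

theorem geo (hlam : lam0 ^ 2 ≤ 1 / 8) (kP kR : ℕ) :
    Layout109.Geo (D.Q ^ kP) (D.Q ^ kR) (hm D kR) (hm D kP) :=
  LayNet896.geo_ham (hyp_nbC h hlam kP) (hyp_nbC h hlam kR) (Q_pos h kP) (Q_pos h kR)

theorem adj (hlam : lam0 ^ 2 ≤ 1 / 8) (kP kR : ℕ) :
    Layout109.Adj (D.Q ^ kP) (D.Q ^ kR) (Tour594.Adj (dG D) (nbC D kP)) (hm D kR) (hm D kP)
      (Rel (dG D) (D.Q ^ kP) (D.Q ^ kR) (nbC D kP) (nbC D kR)) :=
  LayNet896.adj_ham (D.ix kP) (D.ix kR) (hyp_nbC h hlam kP) (hyp_nbC h hlam kR) (Q_pos h kP)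
    (Q_pos h kR) (nbC_eq h kP) (nbC_eq h kR) (S_inv kP) (S_inv kR)

/-- adjacent numbers are joined by a move -/
theorem near (kP kR : ℕ) (a b : ℕ)
    (hab : Rel (dG D) (D.Q ^ kP) (D.Q ^ kR) (nbC D kP) (nbC D kR) a b) :
    LayA873.Adj (InsObj576.act D kP kR) (gs D) (adr (D.ix kP) (D.ix kR) a)
      (adr (D.ix kP) (D.ix kR) b) := by
  obtain ⟨g, hg⟩ := Rel.act (D.ix kP) (D.ix kR) (nbC_eq h kP) (nbC_eq h kR) hab
  obtain ⟨g', hg'⟩ := exists_G D g
  exact ⟨g', mem_gs D g', by rw [hg', hg]⟩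

end nbC

/-! ### polynomial time -/

section ptf
variable {D : Obj} {M0 : ℕ} {lam0 Kr : ℝ} (h : D.OK M0 lam0 Kr)
variable {α : Type} [PTCode α] {k : α → ℕ}
include h

theorem ptf_nbC (hk : PTU k) (hQ : PTU fun x => D.Q ^ k x) :
    PTF (fun p : α × ℕ × ℕ => nbC D (k p.1) p.2.1 p.2.2) := by
  unfold nbC
  have h1 : PTF (fun p : α × ℕ × ℕ => nbN D (Un.mk (k p.1)) p.2.1 p.2.2) := ptf_nbN' h k hk hQ
  have h2 : PTF (fun p : α × ℕ × ℕ => D.Q ^ k p.1) := PTF.comp (g := fun x => D.Q ^ k x) hQ.toPTF PTF.fst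
  exact PTF.ite (PTPred.natLt h1 h2) h1 (PTF.const 0)

theorem nb_nbC (hk : PTU k) (hQ : PTU fun x => D.Q ^ k x) :
    RoutePT55.NB (fun x => D.Q ^ k x) (fun x => nbC D (k x)) where
  hN := hQ
  hnb := ptf_nbC h hk hQ
  hlt c v g := nbC_le (k c) v g

theorem ptf_wdC (hk : PTU k) (hQ : PTU fun x => D.Q ^ k x) : PTF (fun x => wdC D (k x)) :=
  Route649.ptf_words (N := fun x => D.Q ^ k x) (nb := fun x => nbC D (k x)) hQ (ptf_nbC h hk hQ)

theorem ptf_hm (hk : PTU k) (hQ : PTU fun x => D.Q ^ k x) : PTF (fun x => hm D (k x)) :=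
  Ham613.ptf_ham (N := fun x => D.Q ^ k x) (nb := fun x => nbC D (k x)) hQ (ptf_nbC h hk hQ)
    (fun c v g => nbC_le (k c) v g)

end ptf

end Crest.Agent.R289.LayObj896
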