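import Crest.Agent.R289.LayA_873
import Crest.Agent.R289.LayCv_338
import Crest.Agent.R289.LayPTF_328
import Crest.Agent.R289.PubC_965

/-!
# R289, layout: number level of `LayA873.mkL` on a list of `LayDef_109`, with PTF (helper328)
-/

set_option autoImplicit false
set_option linter.unusedSectionVars false

namespace Crest.Agent.R289.ToCL328

open Crest.Agent.Lib.PT Crest.Agent.R289.Layout109 Crest.Agent.R289.EolNFPT328
open Crest.Agent.R289.LayPTF328 Crest.Agent.R289.DefC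
open Crest.Agent.R289.LayA873 (Vs Adj stp mkL adr)
open Crest.Agent.R289.LayCv338 (cvOp cvI cv lay)
open Crest.Agent.R289.PubC965 (LayPT)

/-! ### steps -/

/-- number of the first step from `A` to `B`; `d` if there is none -/
def sidx (nb : ℕ → ℕ → ℕ) (d A B : ℕ) : ℕ :=
  ((List.range d).find? fun g => decide (nb g A = B)).getD d

theorem sidx_le (nb : ℕ → ℕ → ℕ) (d A B : ℕ) : sidx nb d A B ≤ d := by
  unfold sidx
  cases h : (List.range d).find? fun g => decide (nb g A = B) with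
  | none => simp
  | some g =>
    have := List.mem_of_find?_eq_some h
    simpa using (List.mem_range.1 this).le

theorem sidx_lt {nb : ℕ → ℕ → ℕ} {d A B : ℕ} (h : ∃ g < d, nb g A = B) :
    sidx nb d A B < d ∧ nb (sidx nb d A B) A = B := by
  unfold sidx
  cases hf : (List.range d).find? fun g => decide (nb g A = B) with
  | none =>
    obtain ⟨g, hg, e⟩ := h
    have := List.find?_eq_none.1 hf g (List.mem_range.2 hg)
    simp [e] at this
  | some g =>
    have h1 := List.mem_of_find?_eq_some hf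
    have h2 := List.find?_some hf
    exact ⟨by simpa using h1, by simpa using h2⟩

/-- the letter search of `LayA873` on numbers -/
theorem stp_eq {Γ G : Type} [DecidableEq Γ] {act : G → Equiv.Perm Γ} {gs : List G} {g0 : G}
    {en : Γ → ℕ} (hen : Function.Injective en) {nb : ℕ → ℕ → ℕ}
    (hnb : ∀ (i : ℕ) (hi : i < gs.length) (a : Γ), nb i (en a) = en (act gs[i] a)) (a b : Γ) :
    stp act gs g0 a b = gs.getD (sidx nb gs.length (en a) (en b)) g0 := by
  have key : sidx nb gs.length (en a) (en b) = gs.findIdx fun g => decide (act g a = b) := by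
    unfold sidx
    cases hf : (List.range gs.length).find? fun g => decide (nb g (en a) = en b) with
    | none =>
      rw [Option.getD_none]
      symm
      rw [List.findIdx_eq_length]
      intro g hg
      obtain ⟨i, hi, rfl⟩ := List.getElem_of_mem hg
      have := List.find?_eq_none.1 hf i (List.mem_range.2 hi)
      rw [decide_eq_true_eq, hnb i hi] at this
      rw [decide_eq_false_iff_not]
      exact fun h => this (by rw [h])
    | some i =>
      rw [Option.getD_some]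
      rw [List.find?_range_eq_some] at hf
      obtain ⟨h1, h2, h3⟩ := hf
      have hi : i < gs.length := by simpa using h2
      symm
      rw [List.findIdx_eq hi]
      refine ⟨?_, fun j hj => ?_⟩
      · rw [decide_eq_true_eq] at h1 ⊢
        rw [hnb i hi] at h1
        exact hen h1
      · have := h3 j hj
        rw [Bool.not_eq_true', decide_eq_false_iff_not, hnb j (hj.trans hi)] at this
        rw [decide_eq_false_iff_not]
        exact fun h => this (by rw [h])
  unfold stp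
  rw [key, List.find?_eq_getElem?_findIdx, List.getD_eq_getElem?_getD]

section pt

variable {γ : Type} [PTCode γ]

theorem ptf_sidx {nb : γ → ℕ → ℕ → ℕ} (d : ℕ) {A B : γ → ℕ}
    (hnb : PTF (fun p : γ × ℕ × ℕ => nb p.1 p.2.1 p.2.2)) (hA : PTF A) (hB : PTF B) :
    PTF (fun c => sidx (nb c) d (A c) (B c)) := by
  unfold sidx
  refine PTF.optionGetD (PTF.find? (p := fun c g => decide (nb c g (A c) = B c))
    (PTF.const (List.range d)) ?_) (PTF.const d)
  refine PTF.beq (f := fun p : γ × ℕ => nb p.1 p.2 (A p.1)) (g := fun p : γ × ℕ => B p.1) ?_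
    (PTF.comp hB PTF.fst)
  exact PTF.comp (g := fun p : γ × ℕ × ℕ => nb p.1 p.2.1 p.2.2)
    (f := fun p : γ × ℕ => (p.1, p.2, A p.1)) hnb
    (PTF.prodMk PTF.fst (PTF.prodMk PTF.snd (PTF.comp hA PTF.fst)))

/-- a function with values in `Fin n` -/
theorem ptf_fin {n : ℕ} {f : γ → Fin n} (h : PTF (fun c => (f c : ℕ))) : PTF f := by
  obtain ⟨g, hg, e⟩ := h
  exact ⟨g, hg, fun c => by rw [e c, enc_fin, enc_nat]⟩

theorem ptf_ofNat {n : ℕ} [NeZero n] {f : γ → ℕ} (h : PTF f) :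
    PTF (fun c => Fin.ofNat n (f c)) := by
  refine ptf_fin ?_
  simp only [Fin.val_ofNat]
  exact PTF.natMod h (PTF.const n)

theorem ptf_count {l : γ → List ℕ} {x : γ → ℕ} (hl : PTF l) (hx : PTF x) :
    PTF (fun c => (l c).count (x c)) := by
  have h := (PTU.length (PTF.filter (p := fun c y => decide (y = x c)) hl
    (PTF.beq PTF.snd (PTF.comp hx PTF.fst)))).toPTF
  refine PTF.of_eq h (fun c => ?_)
  rw [List.count_eq_length_filter]
  congr 1

end pt

/-! ### number level -/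

section cv

variable {Γ G : Type} [DecidableEq Γ]

/-- addresses of the walk -/
def adrN (L2 : List Stp2) (fin : ℕ) : List ℕ := L2.map (fun s => s.1) ++ [fin]

/-- address number of visit `s` -/
def vaN (L2 : List Stp2) (fin s : ℕ) : ℕ := (adrN L2 fin).getD s fin

/-- lane number of visit `s` -/
def vlN (J : ℕ) (L2 : List Stp2) (fin s : ℕ) : ℕ :=
  ((adrN L2 fin).take s).count (vaN L2 fin s) % (J + 1)

/-- letter number at time `s` -/
def dgN (nb : ℕ → ℕ → ℕ) (gs : List G) (g0 : G) (eG : G → ℕ) (L2 : List Stp2) (fin s : ℕ) : ℕ :=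
  eG (gs.getD (sidx nb gs.length (vaN L2 fin s) (vaN L2 fin (s + 1))) g0)

/-- code of an instruction -/
def cdI (nb : ℕ → ℕ → ℕ) (gs : List G) (g0 : G) (eI : Option (Fin 28 × Op G (Fin 28)) → ℕ)
    (A : ℕ) : Option (ℕ × OpN) → ℕ
  | none => eI none
  | some (l, none) => eI (some (Fin.ofNat 28 l, .inp))
  | some (l, some (c1, c2)) => eI (some (Fin.ofNat 28 l,
      .nand (gs.getD (sidx nb gs.length A c1.1) g0) (Fin.ofNat 28 c1.2)
        (gs.getD (sidx nb gs.length A c2.1) g0) (Fin.ofNat 28 c2.2)))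

/-- instruction number of program `c` at time `s` -/
def icN (nb : ℕ → ℕ → ℕ) (gs : List G) (g0 : G) (eI : Option (Fin 28 × Op G (Fin 28)) → ℕ)
    (c : Bool) (L2 : List Stp2) (s : ℕ) : ℕ :=
  cdI nb gs g0 eI ((L2.getD s (0, none, none)).1)
    (if c then (L2.getD s (0, none, none)).2.2 else (L2.getD s (0, none, none)).2.1)

/-- all addresses of arguments are `< N` -/
def InI (N : ℕ) (i : Option (ℕ × OpN)) : Prop :=
  ∀ l c1 c2, i = some (l, some (c1, c2)) → c1.1 < N ∧ c2.1 < N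

/-- all addresses of a visit are `< N` -/
def InS (N : ℕ) (s : Stp2) : Prop := s.1 < N ∧ InI N s.2.1 ∧ InI N s.2.2

variable {act : G → Equiv.Perm Γ} {gs : List G} {g0 : G} {ev : ℕ → Γ} {N : ℕ}
  {f : Γ → ℕ} {nb : ℕ → ℕ → ℕ} {L2 : List Stp2} {fin n : ℕ} {al : ℕ → ℕ}

theorem adr_eq : adr (L2.map (cv act gs g0 ev)) (ev fin) = (adrN L2 fin).map ev := by
  unfold adr adrN
  rw [List.map_map, List.map_append, List.map_map]
  rfl

theorem adr_f (hf : ∀ A < N, f (ev A) = A) (h : ∀ s ∈ L2, s.1 < N) (hfin : fin < N) :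
    (adr (L2.map (cv act gs g0 ev)) (ev fin)).map f = adrN L2 fin := by
  rw [adr_eq, List.map_map]
  have : ∀ A ∈ adrN L2 fin, (f ∘ ev) A = id A := by
    intro A hA
    unfold adrN at hA
    rw [List.mem_append, List.mem_singleton, List.mem_map] at hA
    rcases hA with ⟨s, hs, rfl⟩ | rfl
    · exact hf _ (h s hs)
    · exact hf _ hfin
  rw [List.map_congr_left this, List.map_id]

theorem adr_getD_f (hf : ∀ A < N, f (ev A) = A) (h : ∀ s ∈ L2, s.1 < N) (hfin : fin < N) (s : ℕ) :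
    f ((adr (L2.map (cv act gs g0 ev)) (ev fin)).getD s (ev fin)) = vaN L2 fin s := by
  have e := adr_f (act := act) (gs := gs) (g0 := g0) hf h hfin
  unfold vaN
  rw [← e]
  conv_rhs => rw [← hf fin hfin]
  rw [List.getD_map, hf fin hfin]

/-- address -/
theorem va_eq (hf : ∀ A < N, f (ev A) = A) (h : ∀ s ∈ L2, s.1 < N) (hfin : fin < N) (s : ℕ) :
    vaN L2 fin s = f ((lay act gs g0 ev L2 fin n al).vis s).1 :=
  (adr_getD_f hf h hfin s).symm

/-- lane -/
theorem vl_eq (hf : ∀ A < N, f (ev A) = A) (hfi : Function.Injective f)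
    (h : ∀ s ∈ L2, s.1 < N) (hfin : fin < N) (s : ℕ) :
    vlN 127 L2 fin s = (((lay act gs g0 ev L2 fin n al).vis s).2 : ℕ) := by
  unfold vlN
  rw [← adr_getD_f (act := act) (gs := gs) (g0 := g0) hf h hfin,
    ← adr_f (act := act) (gs := gs) (g0 := g0) hf h hfin, ← List.map_take,
    List.count_map_of_injective _ _ hfi]
  rfl

/-- letter -/
theorem dg_eq (hf : ∀ A < N, f (ev A) = A) (hfi : Function.Injective f)
    (hnb : ∀ (i : ℕ) (hi : i < gs.length) (a : Γ), nb i (f a) = f (act gs[i] a))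
    (h : ∀ s ∈ L2, s.1 < N) (hfin : fin < N) (eG : G → ℕ) (s : ℕ) :
    dgN nb gs g0 eG L2 fin s = eG ((lay act gs g0 ev L2 fin n al).dir s) := by
  unfold dgN
  show _ = eG (stp act gs g0 _ _)
  rw [stp_eq hfi hnb, adr_getD_f hf h hfin, adr_getD_f hf h hfin]

theorem cdI_eq (hf : ∀ A < N, f (ev A) = A) (hfi : Function.Injective f)
    (hnb : ∀ (i : ℕ) (hi : i < gs.length) (a : Γ), nb i (f a) = f (act gs[i] a))
    (eI : Option (Fin 28 × Op G (Fin 28)) → ℕ) {A : ℕ} (hA : A < N) {i : Option (ℕ × OpN)}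
    (hi : InI N i) : cdI nb gs g0 eI A i = eI (cvI act gs g0 ev A i) := by
  match i, hi with
  | none, _ => rfl
  | some (l, none), _ => rfl
  | some (l, some (c1, c2)), hi =>
    obtain ⟨h1, h2⟩ := hi l c1 c2 rfl
    unfold cdI cvI cvOp
    simp only [Option.map_some]
    rw [stp_eq hfi hnb, stp_eq hfi hnb, hf _ hA, hf _ h1, hf _ h2]

/-- instruction -/
theorem ic_eq (hf : ∀ A < N, f (ev A) = A) (hfi : Function.Injective f)
    (hnb : ∀ (i : ℕ) (hi : i < gs.length) (a : Γ), nb i (f a) = f (act gs[i] a))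
    (h : ∀ s ∈ L2, InS N s) (eI : Option (Fin 28 × Op G (Fin 28)) → ℕ) (c : Bool) {s : ℕ}
    (hs : s < L2.length) :
    icN nb gs g0 eI c L2 s = eI ((lay act gs g0 ev L2 fin n al).ins c s) := by
  have h1 : InS N L2[s] := h _ (List.getElem_mem hs)
  unfold icN
  rw [List.getD_eq_getElem _ _ hs]
  show _ = eI (((L2.map (cv act gs g0 ev))[s]?).bind fun v => v.ins c)
  rw [List.getElem?_map, List.getElem?_eq_getElem hs, Option.map_some, Option.bind_some]
  cases c
  · exact cdI_eq hf hfi hnb eI h1.1 h1.2.1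
  · exact cdI_eq hf hfi hnb eI h1.1 h1.2.2

end cv

/-! ### polynomial time -/

section ptcv

variable {γ : Type} [PTCode γ]

theorem ptf_adrN {L2 : γ → List Stp2} {fin : γ → ℕ} (hL : PTF L2) (hf : PTF fin) :
    PTF (fun c => adrN (L2 c) (fin c)) := by
  unfold adrN
  refine PTF.append (PTF.map (f := fun (_ : γ) (s : Stp2) => s.1) hL ?_)
    (PTF.listCons hf (PTF.const []))
  exact PTF.comp PTF.fst PTF.snd

theorem ptf_vaN {L2 : γ → List Stp2} {fin s : γ → ℕ} (hL : PTF L2) (hf : PTF fin) (hs : PTF s) :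
    PTF (fun c => vaN (L2 c) (fin c) (s c)) :=
  ptf_getD (ptf_adrN hL hf) hs hf

theorem ptf_vlN (J : ℕ) {L2 : γ → List Stp2} {fin s : γ → ℕ} (hL : PTF L2) (hf : PTF fin)
    (hs : PTF s) : PTF (fun c => vlN J (L2 c) (fin c) (s c)) :=
  PTF.natMod (ptf_count (ptf_take (ptf_adrN hL hf) hs) (ptf_vaN hL hf hs)) (PTF.const (J + 1))

theorem ptf_dgN {G : Type} (gs : List G) (g0 : G) (eG : G → ℕ) {nb : γ → ℕ → ℕ → ℕ}
    {L2 : γ → List Stp2} {fin s : γ → ℕ}
    (hnb : PTF (fun p : γ × ℕ × ℕ => nb p.1 p.2.1 p.2.2)) (hL : PTF L2) (hf : PTF fin)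
    (hs : PTF s) : PTF (fun c => dgN (nb c) gs g0 eG (L2 c) (fin c) (s c)) := by
  unfold dgN
  have h := ptf_sidx gs.length hnb (ptf_vaN hL hf hs)
    (ptf_vaN hL hf (PTF.natAdd hs (PTF.const 1)))
  refine PTF.of_eq (ptf_getD (l := fun _ : γ => gs.map eG) (d := fun _ : γ => eG g0)
    (PTF.const _) h (PTF.const _)) (fun c => ?_)
  rw [List.getD_map]

/-- codes of instructions -/
theorem ptf_cdI {G : Type} [Finite G] (gs : List G) (g0 : G)
    (eI : Option (Fin 28 × Op G (Fin 28)) → ℕ) {nb : γ → ℕ → ℕ → ℕ} {A : γ → ℕ}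
    {i : γ → Option (ℕ × OpN)}
    (hnb : PTF (fun p : γ × ℕ × ℕ => nb p.1 p.2.1 p.2.2)) (hA : PTF A) (hi : PTF i) :
    PTF (fun c => cdI (nb c) gs g0 eI (A c) (i c)) := by
  -- finite tables
  have T1 : PTF (fun x : Fin 28 => eI (some (x, .inp))) := PTF.of_finite _
  have T2 : PTF (fun x : Fin 28 × Fin (gs.length + 1) × Fin 28 × Fin (gs.length + 1) × Fin 28 =>
      eI (some (x.1, .nand (gs.getD x.2.1 g0) x.2.2.1 (gs.getD x.2.2.2.1 g0)
        x.2.2.2.2))) := PTF.of_finite _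
  have hsx : ∀ {δ : Type} [PTCode δ] {nb' : δ → ℕ → ℕ → ℕ} {A' B' : δ → ℕ},
      PTF (fun p : δ × ℕ × ℕ => nb' p.1 p.2.1 p.2.2) → PTF A' → PTF B' →
      PTF (fun c => (Fin.ofNat (gs.length + 1) (sidx (nb' c) gs.length (A' c) (B' c)))) :=
    fun h1 h2 h3 => ptf_ofNat (ptf_sidx gs.length h1 h2 h3)
  have hval : ∀ (nb' : ℕ → ℕ → ℕ) (a b : ℕ),
      ((Fin.ofNat (gs.length + 1) (sidx nb' gs.length a b) : Fin (gs.length + 1)) : ℕ) =
        sidx nb' gs.length a b := by
    intro nb' a b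
    rw [Fin.val_ofNat]
    exact Nat.mod_eq_of_lt (Nat.lt_succ_of_le (sidx_le _ _ _ _))
  have hnb2 : PTF (fun p : ((γ × (ℕ × OpN)) × (Cel × Cel)) × ℕ × ℕ => nb p.1.1.1 p.2.1 p.2.2) :=
    PTF.comp (g := fun p : γ × ℕ × ℕ => nb p.1 p.2.1 p.2.2)
      (f := fun p : ((γ × (ℕ × OpN)) × (Cel × Cel)) × ℕ × ℕ => (p.1.1.1, p.2)) hnb (by fun_prop)
  have hA2 : PTF (fun p : (γ × (ℕ × OpN)) × (Cel × Cel) => A p.1.1) :=
    PTF.comp hA (PTF.comp PTF.fst PTF.fst)
  have hin : PTF₂ (fun (c : γ) (x : ℕ × OpN) => (Option.casesOn (motive := fun _ => ℕ) x.2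
      (eI (some (Fin.ofNat 28 x.1, .inp)))
      (fun (y : Cel × Cel) => eI (some (Fin.ofNat 28 x.1,
            .nand (gs.getD (Fin.ofNat (gs.length + 1) (sidx (nb c) gs.length (A c) y.1.1) :
              Fin (gs.length + 1)) g0) (Fin.ofNat 28 y.1.2)
              (gs.getD (Fin.ofNat (gs.length + 1) (sidx (nb c) gs.length (A c) y.2.1) :
              Fin (gs.length + 1)) g0) (Fin.ofNat 28 y.2.2)))) : ℕ)) := by
    refine PTF.of_eq (PTF.optionCasesOn (s := fun p : γ × (ℕ × OpN) => p.2.2)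
      (f := fun p => eI (some (Fin.ofNat 28 p.2.1, .inp)))
      (g := fun (p : γ × (ℕ × OpN)) (y : Cel × Cel) => eI (some (Fin.ofNat 28 p.2.1,
            .nand (gs.getD (Fin.ofNat (gs.length + 1) (sidx (nb p.1) gs.length (A p.1) y.1.1) :
              Fin (gs.length + 1)) g0) (Fin.ofNat 28 y.1.2)
              (gs.getD (Fin.ofNat (gs.length + 1) (sidx (nb p.1) gs.length (A p.1) y.2.1) :
              Fin (gs.length + 1)) g0) (Fin.ofNat 28 y.2.2)))) ?_ ?_ ?_) ?_
    · exact PTF.comp PTF.snd PTF.snd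
    · exact PTF.comp (g := fun x : Fin 28 => eI (some (x, .inp))) T1
        (ptf_ofNat (PTF.comp PTF.fst PTF.snd))
    · refine PTF.comp (g := fun x : Fin 28 × Fin (gs.length + 1) × Fin 28 ×
        Fin (gs.length + 1) × Fin 28 => eI (some (x.1, .nand (gs.getD x.2.1 g0) x.2.2.1
        (gs.getD x.2.2.2.1 g0) x.2.2.2.2))) T2 (f := fun p : (γ × (ℕ × OpN)) × (Cel × Cel) =>
        (Fin.ofNat 28 p.1.2.1, Fin.ofNat (gs.length + 1) (sidx (nb p.1.1) gs.length (A p.1.1)
          p.2.1.1), Fin.ofNat 28 p.2.1.2, Fin.ofNat (gs.length + 1)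
          (sidx (nb p.1.1) gs.length (A p.1.1) p.2.2.1), Fin.ofNat 28 p.2.2.2)) ?_
      refine PTF.prodMk (ptf_ofNat (by fun_prop)) (PTF.prodMk (hsx hnb2 hA2 (by fun_prop))
        (PTF.prodMk (ptf_ofNat (by fun_prop)) (PTF.prodMk (hsx hnb2 hA2 (by fun_prop))
          (ptf_ofNat (by fun_prop)))))
    · rintro ⟨c, l, y⟩
      cases y <;> rfl
  have hcase := PTF.optionCasesOn (f := fun _ : γ => eI none) hi (PTF.const _) hin
  refine PTF.of_eq hcase (fun c => ?_)
  rcases i c with _ | ⟨l, _ | ⟨c1, c2⟩⟩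
  · rfl
  · rfl
  · simp only [cdI, hval]

theorem ptf_icN {G : Type} [Finite G] (gs : List G) (g0 : G)
    (eI : Option (Fin 28 × Op G (Fin 28)) → ℕ) (b : Bool) {nb : γ → ℕ → ℕ → ℕ}
    {L2 : γ → List Stp2} {s : γ → ℕ}
    (hnb : PTF (fun p : γ × ℕ × ℕ => nb p.1 p.2.1 p.2.2)) (hL : PTF L2) (hs : PTF s) :
    PTF (fun c => icN (nb c) gs g0 eI b (L2 c) (s c)) := by
  have hr : PTF (fun c => (L2 c).getD (s c) (0, none, none)) := ptf_getD hL hs (PTF.const _)
  unfold icN
  cases b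
  · exact ptf_cdI gs g0 eI hnb (PTF.comp PTF.fst hr) (PTF.comp PTF.fst (PTF.comp PTF.snd hr))
  · exact ptf_cdI gs g0 eI hnb (PTF.comp PTF.fst hr) (PTF.comp PTF.snd (PTF.comp PTF.snd hr))

end ptcv

/-! ### argument addresses -/

theorem args_lt {near : ℕ → ℕ → Prop} {x : ℕ → Bool} {N : ℕ} {av : List LayCv338.AnN} :
    ∀ {S : Set (Cel × Bool)}, (∀ z ∈ S, z.1.1 < N) → (∀ w ∈ av, w.1 < N) →
      LayCv338.GoodN near x S av → ∀ (a l : ℕ) (c1 c2 : Cel) (v : Bool),
      (a, some (l, some (c1, c2), v)) ∈ av → c1.1 < N ∧ c2.1 < N := by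
  induction av with
  | nil => intro S _ _ _ a l c1 c2 v h; simp at h
  | cons w r ih =>
    intro S hS hav hG a l c1 c2 v h
    obtain ⟨b, o⟩ := w
    have hb : b < N := hav (b, o) List.mem_cons_self
    have hr : ∀ w ∈ r, w.1 < N := fun w hw => hav w (List.mem_cons_of_mem _ hw)
    cases o with
    | none =>
      rcases List.mem_cons.1 h with h | h
      · simp at h
      · exact ih hS hr (show LayCv338.GoodN near x S r from hG) a l c1 c2 v h
    | some i =>
      obtain ⟨l', k, v'⟩ := i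
      rcases List.mem_cons.1 h with h | h
      · simp only [Prod.mk.injEq, Option.some.injEq] at h
        obtain ⟨-, -, h2, -⟩ := h
        have hJ : LayCv338.JustN near x S b k v' := hG.1
        rw [← h2] at hJ
        obtain ⟨w, w', h3, h4, -⟩ := hJ
        exact ⟨hS _ h3, hS _ h4⟩
      · refine ih (S := insert ((b, l'), v') S) ?_ hr hG.2 a l c1 c2 v h
        intro z hz
        rcases hz with rfl | hz
        · exact hb
        · exact hS z hz

/-- the conditions of `LayCv338` bound all addresses -/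
theorem inS_of_lyN {near : ℕ → ℕ → Prop} {N : ℕ} {l : List Stp2} {fin n : ℕ} {al : ℕ → ℕ}
    (h : LayCv338.LyN near N l fin n al) : ∀ s ∈ l, InS N s := by
  have hlt : ∀ s ∈ l, s.1 < N := fun s hs =>
    h.lt _ (List.mem_append_left _ (List.mem_map.2 ⟨s, hs, rfl⟩))
  have key : ∀ c : Bool, ∀ s ∈ l, InI N (bif c then s.2.2 else s.2.1) := by
    intro c s hs lane c1 c2 hi
    obtain ⟨av, h1, h2⟩ := (h.pr c).good fun _ => false
    have hm : (s.1, bif c then s.2.2 else s.2.1) ∈ LayCv338.prj c l :=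
      List.mem_map.2 ⟨s, hs, rfl⟩
    have hav : ∀ w ∈ av, w.1 < N := by
      intro w hw
      have : LayCv338.stripN w ∈ LayCv338.prj c l := by
        rw [← h1]
        exact List.mem_map.2 ⟨w, hw, rfl⟩
      obtain ⟨t, ht, e⟩ := List.mem_map.1 this
      have := hlt t ht
      have e1 : t.1 = w.1 := congrArg Prod.fst e
      rwa [e1] at this
    rw [← h1, List.mem_map] at hm
    obtain ⟨w, hw, e⟩ := hm
    obtain ⟨a, o⟩ := w
    rw [hi] at e
    cases o with
    | none => simp [LayCv338.stripN] at e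
    | some i =>
      obtain ⟨l', k, v⟩ := i
      simp only [LayCv338.stripN, Option.map_some, Prod.mk.injEq, Option.some.injEq] at e
      obtain ⟨-, -, e3⟩ := e
      subst e3
      exact args_lt (S := ∅) (fun z hz => hz.elim) hav h2 a l' c1 c2 v hw
  exact fun s hs => ⟨hlt s hs, key false s hs, key true s hs⟩

/-! ### the family of layouts -/

section fam

variable {α : Type} [PTCode α] {G : Type} [Finite G] {Γ : α → Type} [∀ a, DecidableEq (Γ a)]
  {N : α → ℕ} {e : ∀ a, Γ a ≃ Fin (N a)}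

/-- **PTF data (`PubC965.LayPT`) of the layouts `LayCv338.lay`** -/
theorem layPT {act : ∀ a, G → Equiv.Perm (Γ a)} {gs : List G} {g0 : G} {ev : ∀ a, ℕ → Γ a}
    (hev : ∀ a, ∀ A < N a, (e a (ev a A) : ℕ) = A) {nb : α → ℕ → ℕ → ℕ}
    (hnb : PTF (fun p : α × ℕ × ℕ => nb p.1 p.2.1 p.2.2))
    (hnbe : ∀ a (i : ℕ) (hi : i < gs.length) (x : Γ a), nb a i (e a x) = e a (act a gs[i] x))
    {L2 : α → List Stp2} (hL2 : PTF L2) {fin n : α → ℕ} (hfin : PTF fin) (hn : PTU n)
    {al : α → ℕ → ℕ} (hal : PTF (fun p : α × ℕ => al p.1 p.2))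
    (hIn : ∀ a, ∀ s ∈ L2 a, InS (N a) s) (hfN : ∀ a, fin a < N a)
    (halN : ∀ a, ∀ i < n a, al a i < N a) :
    Nonempty (LayPT Γ N e (fun a => lay (act a) gs g0 (ev a) (L2 a) (fin a) (n a) (al a))) := by
  obtain ⟨eG, hG⟩ := exists_injective_nat G
  obtain ⟨eI, hI⟩ := exists_injective_nat (Option (Fin 28 × Op G (Fin 28)))
  have hf : ∀ a, ∀ A < N a, (fun x : Γ a => ((e a x : Fin (N a)) : ℕ)) (ev a A) = A := hev
  have hfi : ∀ a, Function.Injective (fun x : Γ a => ((e a x : Fin (N a)) : ℕ)) :=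
    fun a x y h => (e a).injective (Fin.ext h)
  have hlt : ∀ a, ∀ s ∈ L2 a, s.1 < N a := fun a s hs => (hIn a s hs).1
  have hL2' : PTF (fun p : α × ℕ => L2 p.1) := PTF.comp hL2 PTF.fst
  have hfin' : PTF (fun p : α × ℕ => fin p.1) := PTF.comp hfin PTF.fst
  have hnb' : PTF (fun p : (α × ℕ) × ℕ × ℕ => nb p.1.1 p.2.1 p.2.2) :=
    PTF.comp (g := fun p : α × ℕ × ℕ => nb p.1 p.2.1 p.2.2)
      (f := fun p : (α × ℕ) × ℕ × ℕ => (p.1.1, p.2)) hnb (by fun_prop)
  refine PubC965.exists_layPT_of_num (G := G) (Λ := Fin 28) eG hG eI hI ?_ hn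
    (fun a s => vaN (L2 a) (fin a) s) (fun a s => vlN 127 (L2 a) (fin a) s)
    (fun a s => dgN (nb a) gs g0 eG (L2 a) (fin a) s)
    (fun c a s => icN (nb a) gs g0 eI c (L2 a) s) al
    (ptf_vaN hL2' hfin' PTF.snd) (ptf_vlN 127 hL2' hfin' PTF.snd)
    (ptf_dgN gs g0 eG hnb' hL2' hfin' PTF.snd) (fun c => ptf_icN gs g0 eI c hnb' hL2' PTF.snd)
    hal ?_ ?_ ?_ ?_ ?_
  · refine PTU.of_eq (PTU.length hL2) (fun a => ?_)
    exact (List.length_map _).symm
  · exact fun a s _ => va_eq (f := fun x : Γ a => ((e a x : Fin (N a)) : ℕ)) (hf a) (hlt a)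
      (hfN a) s
  · exact fun a s _ => vl_eq (f := fun x : Γ a => ((e a x : Fin (N a)) : ℕ)) (hf a) (hfi a)
      (hlt a) (hfN a) s
  · exact fun a s _ => dg_eq (f := fun x : Γ a => ((e a x : Fin (N a)) : ℕ)) (hf a) (hfi a)
      (hnbe a) (hlt a) (hfN a) eG s
  · intro c a s hs
    refine ic_eq (f := fun x : Γ a => ((e a x : Fin (N a)) : ℕ)) (hf a) (hfi a) (hnbe a)
      (hIn a) eI c ?_
    have : (lay (act a) gs g0 (ev a) (L2 a) (fin a) (n a) (al a)).L = (L2 a).length :=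
      List.length_map _
    exact this ▸ hs
  · intro a i
    exact (hev a _ (halN a i i.2)).symm

/-- the same with the hypotheses of `LayCv338.lay_ok` -/
theorem layPT_of_lyN {act : ∀ a, G → Equiv.Perm (Γ a)} {gs : List G} {g0 : G}
    {ev : ∀ a, ℕ → Γ a} (hev : ∀ a, ∀ A < N a, (e a (ev a A) : ℕ) = A) {nb : α → ℕ → ℕ → ℕ}
    (hnb : PTF (fun p : α × ℕ × ℕ => nb p.1 p.2.1 p.2.2))
    (hnbe : ∀ a (i : ℕ) (hi : i < gs.length) (x : Γ a), nb a i (e a x) = e a (act a gs[i] x))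
    {L2 : α → List Stp2} (hL2 : PTF L2) {fin n : α → ℕ} (hfin : PTF fin) (hn : PTU n)
    {al : α → ℕ → ℕ} (hal : PTF (fun p : α × ℕ => al p.1 p.2)) {near : α → ℕ → ℕ → Prop}
    (h : ∀ a, LayCv338.LyN (near a) (N a) (L2 a) (fin a) (n a) (al a)) :
    Nonempty (LayPT Γ N e (fun a => lay (act a) gs g0 (ev a) (L2 a) (fin a) (n a) (al a))) :=
  layPT hev hnb hnbe hL2 hfin hn hal (fun a => inS_of_lyN (h a))
    (fun a => (h a).lt _ (List.mem_append_right _ List.mem_cons_self)) (fun a => (h a).al_lt)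

end fam

end Crest.Agent.R289.ToCL328
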