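import Crest.Agent.R289.LayObjA_896
import Crest.Agent.R289.LayLy_338
import Crest.Agent.R289.LayAsm_109
import Crest.Agent.R289.Sol_589
import Crest.Agent.R289.ToCL_328

/-!
# Row 289, block C, C_REAL assembly part 4 (helper896): the layout over `Asm12.Obj`

`layL D kP kR n CS CP` : the layout on `D.P kP × D.P kR` of the two coded circuits `CS, CP` with `n`
inputs, all addresses forced into range (`san`, `sanN`), so that it is a layout for EVERY input.
For well-formed circuits which fit (`9 #gates + 2 n ≤ Q^kP`, `ncol ≤ Q^kR`): `LyN`, `Layout.OK`,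
`outp` = the maps of the circuits.
-/

set_option autoImplicit false
set_option linter.dupNamespace false

namespace Crest.Agent.R289.LayObj896

open Crest.PPADPCP
open Crest.Agent.R289 Crest.Agent.Lib.PT Crest.Agent.R289.Asm12 Crest.Agent.R289.RouteObj649
open Crest.Agent.R289.DefC Crest.Agent.R289.Layout109
open Crest.Agent.R289.EolNF436 (compile compile_spec Spec CellWF slp cellEv)
open Crest.Agent.R289.InsObj576 (G id3)
open Crest.Agent.R289.LayNet896 (adr adr_inj Rel)
open Crest.Agent.R289.LayLy338 (wlk lst Prg Out3 lyN_both ok_both outp_false outp_true)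
open Crest.Agent.R289.LayCv338 (lay LyN)
open Crest.Agent.R289.ToCL328 (InS InI inS_of_lyN)

/-! ### forcing addresses into range -/

/-- arguments in range -/
def okI (N : ℕ) : Option (ℕ × OpN) → Bool
  | none => true
  | some (_, none) => true
  | some (_, some c) => decide (c.1.1 < N) && decide (c.2.1 < N)

/-- step in range -/
def okS (N : ℕ) (s : Stp2) : Bool := decide (s.1 < N) && (okI N s.2.1 && okI N s.2.2)

theorem okI_iff {N : ℕ} {i : Option (ℕ × OpN)} : okI N i = true ↔ InI N i := by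
  match i with
  | none => simp [okI, InI]
  | some (l, none) => simp [okI, InI]
  | some (l, some (c1, c2)) =>
    simp only [okI, InI, Bool.and_eq_true, decide_eq_true_eq, Option.some.injEq, Prod.mk.injEq]
    constructor
    · rintro h l' d1 d2 ⟨_, rfl, rfl⟩
      exact h
    · intro h
      exact h l c1 c2 ⟨rfl, rfl, rfl⟩

theorem okS_iff {N : ℕ} {s : Stp2} : okS N s = true ↔ InS N s := by
  unfold okS InS
  rw [Bool.and_eq_true, Bool.and_eq_true, okI_iff, okI_iff, decide_eq_true_eq]

/-- the list, or `[]` if an address is out of range -/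
def san (N : ℕ) (l : List Stp2) : List Stp2 := if l.all (okS N) = true then l else []

/-- the number, or `0` if out of range -/
def sanN (N a : ℕ) : ℕ := if a < N then a else 0

theorem san_in (N : ℕ) (l : List Stp2) : ∀ s ∈ san N l, InS N s := by
  intro s hs
  unfold san at hs
  split_ifs at hs with h
  · exact okS_iff.1 (List.all_eq_true.1 h s hs)
  · simp at hs

theorem san_eq {N : ℕ} {l : List Stp2} (h : ∀ s ∈ l, InS N s) : san N l = l :=
  if_pos (List.all_eq_true.2 fun s hs => okS_iff.2 (h s hs))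

theorem sanN_lt {N : ℕ} (hN : 0 < N) (a : ℕ) : sanN N a < N := by
  unfold sanN
  split_ifs with h
  · exact h
  · exact hN

theorem sanN_eq {N a : ℕ} (h : a < N) : sanN N a = a := if_pos h

/-! ### the walk of two circuits -/

/-- the compiled circuit -/
def cmp (C : RawCirc) : List (ℕ × ℕ × ℕ) × List ℕ := compile C.1 C.2

section lvl
variable (D : Obj) (kP kR n : ℕ)

/-- the routed wires of a compiled circuit -/
noncomputable def Wc (P : List (ℕ × ℕ × ℕ) × List ℕ) : List Wir :=
  mkW (D.Q ^ kP) (lenG D kP) (nbC D kP) (wdC D kP) (hm D kP) (wires n P.1 P.2)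

/-- the list of steps -/
noncomputable def wl (CS CP : RawCirc) : List Stp2 :=
  wlk (D.Q ^ kR) (hm D kR) (hm D kP) n (cmp CS).1 (Wc D kP n (cmp CS)) (cmp CP).1
    (Wc D kP n (cmp CP))

/-- the last address -/
noncomputable def la (CP : RawCirc) : ℕ := lst (D.Q ^ kR) (hm D kR) (hm D kP) n (cmp CP).1

/-- home of the cell `i` -/
noncomputable def ho (i : ℕ) : ℕ := home (D.Q ^ kR) (hm D kR) (hm D kP) i

/-- number of addresses -/
def NΓ (D : Obj) (kP kR : ℕ) : ℕ := D.Q ^ kP * D.Q ^ kR

/-- **the layout** (for every input) -/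
noncomputable def layL (CS CP : RawCirc) : Layout (D.P kP × D.P kR) (G D) (Fin 28) 128 :=
  lay (InsObj576.act D kP kR) (gs D) (id3 D, id3 D) (adr (D.ix kP) (D.ix kR))
    (san (NΓ D kP kR) (wl D kP kR n CS CP)) (sanN (NΓ D kP kR) (la D kP kR n CP)) n
    (fun i => sanN (NΓ D kP kR) (ho D kP kR i))

end lvl

/-! ### well-formed circuits -/

theorem rawBGate_eq : rawBGate = EolNF436.raw := by
  funext g
  cases g <;> rfl

theorem cmp_rawC {n : ℕ} (C : BCircuit n) :
    cmp (rawC C) = compile (C.gates.map EolNF436.raw) C.outs := by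
  unfold cmp rawC
  rw [rawBGate_eq]

section congr
variable {Γ G' : Type} [DecidableEq Γ] {act : G' → Equiv.Perm Γ} {gs' : List G'} {g0 : G'}
  {e : ℕ → Γ} {l l' : List Stp2} {fin fin' n : ℕ} {al al' : ℕ → ℕ}

theorem lay_congr (h1 : l = l') (h2 : fin = fin') (h3 : ∀ i < n, al i = al' i) :
    lay act gs' g0 e l fin n al = lay act gs' g0 e l' fin' n al' := by
  subst h1
  subst h2
  have h4 : (fun i : Fin n => e (al i)) = fun i : Fin n => e (al' i) := by
    funext i
    rw [h3 i i.2]
  exact congrArg (fun A : Fin n → Γ =>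
    LayA873.mkL act gs' g0 127 (l.map (LayCv338.cv act gs' g0 e)) (e fin) n A) h4

theorem outp_congr (h1 : l = l') (h2 : fin = fin') (h3 : ∀ i < n, al i = al' i) (c : Bool)
    (v : Fin n → Bool) (i : Fin n) :
    Layout.outp act (26 : Fin 28) (lay act gs' g0 e l fin n al) c v i =
      Layout.outp act (26 : Fin 28) (lay act gs' g0 e l' fin' n al') c v i := by
  subst h1
  subst h2
  have h4 : (fun i : Fin n => e (al i)) = fun i : Fin n => e (al' i) := by
    funext i
    rw [h3 i i.2]
  exact congrArg (fun A : Fin n → Γ => Layout.outp act (26 : Fin 28)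
    (LayA873.mkL act gs' g0 127 (l.map (LayCv338.cv act gs' g0 e)) (e fin) n A) c v i) h4

end congr

section wf
variable {D : Obj} {M0 : ℕ} {lam0 Kr : ℝ} (h : D.OK M0 lam0 Kr) (hlam : lam0 ^ 2 ≤ 1 / 8)
variable {kP kR n : ℕ}
include h hlam

/-- the program of a well-formed circuit -/
theorem prg (C : BCircuit n) (hC : C.WF) (hlen : 9 * C.gates.length + 2 * n ≤ D.Q ^ kP)
    (hcol : Route649.ncol (lenG D kP) (D.Q ^ kP) ≤ D.Q ^ kR) :
    Prg (D.Q ^ kP) (D.Q ^ kR) (Tour594.Adj (dG D) (nbC D kP)) (hm D kR) (hm D kP) n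
      (cmp (rawC C)).1 (cmp (rawC C)).2 (Wc D kP n (cmp (rawC C))) := by
  obtain ⟨h1, h2, -⟩ := compile_spec C hC
  rw [← cmp_rawC] at h1 h2
  have hlP := hm_length h hlam kP
  have hlR := hm_length h hlam kR
  have hlen' : n + (cmp (rawC C)).1.length ≤ (hm D kP).length := by rw [h2, hlP]; omega
  have hol := h1.outLen
  refine ⟨?_, mkW_cov h1, ⟨?_, ?_, ?_⟩, hlen'⟩
  · exact mkW_ok (hyp_nbC h hlam kP) (geo h hlam kP kR) h1 hlen' (by rw [hlR]; exact hcol)
  · intro w hw h3
    unfold Wc at hw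
    rw [mem_mkW] at hw
    obtain ⟨c, -, e, he, rfl⟩ := hw
    simp only at h3
    subst h3
    rw [wiresOf_3] at he
    obtain ⟨a, b⟩ := e
    rw [List.mk_mem_zipIdx_iff_getElem?, List.getElem?_eq_some_iff] at he
    obtain ⟨hb, -⟩ := he
    show b < n
    omega
  · intro i hi
    refine h1.outLt _ ?_
    rw [List.getD_eq_getElem _ _ (by omega)]
    exact List.getElem_mem _
  · intro i hi
    exact mkW_out h1 i hi

variable (CS CP : BCircuit n) (hS : CS.WF) (hP : CP.WF) (hn : 0 < n)
  (lS : 9 * CS.gates.length + 2 * n ≤ D.Q ^ kP) (lP : 9 * CP.gates.length + 2 * n ≤ D.Q ^ kP)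
  (hcol : Route649.ncol (lenG D kP) (D.Q ^ kP) ≤ D.Q ^ kR)
include hS hP hn lS lP hcol

theorem lyN : LyN (Rel (dG D) (D.Q ^ kP) (D.Q ^ kR) (nbC D kP) (nbC D kR)) (NΓ D kP kR)
    (wl D kP kR n (rawC CS) (rawC CP)) (la D kP kR n (rawC CP)) n (ho D kP kR) :=
  lyN_both (geo h hlam kP kR) (adj h hlam kP kR) (prg h hlam CS hS lS hcol)
    (prg h hlam CP hP lP hcol) hn

/-- the layout is the layout of the walk -/
theorem layL_eq : layL D kP kR n (rawC CS) (rawC CP) =
    lay (InsObj576.act D kP kR) (gs D) (id3 D, id3 D) (adr (D.ix kP) (D.ix kR))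
      (wl D kP kR n (rawC CS) (rawC CP)) (la D kP kR n (rawC CP)) n (ho D kP kR) := by
  have hL := lyN h hlam CS CP hS hP hn lS lP hcol
  exact lay_congr (san_eq (inS_of_lyN hL))
    (sanN_eq (hL.lt _ (List.mem_append_right _ List.mem_cons_self)))
    fun i hi => sanN_eq (hL.al_lt i hi)

theorem layL_outp (c : Bool) (v : Fin n → Bool) (i : Fin n) :
    Layout.outp (InsObj576.act D kP kR) (26 : Fin 28) (layL D kP kR n (rawC CS) (rawC CP))
      c v i =
    Layout.outp (InsObj576.act D kP kR) (26 : Fin 28)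
      (lay (InsObj576.act D kP kR) (gs D) (id3 D, id3 D) (adr (D.ix kP) (D.ix kR))
      (wl D kP kR n (rawC CS) (rawC CP)) (la D kP kR n (rawC CP)) n (ho D kP kR)) c v i := by
  have hL := lyN h hlam CS CP hS hP hn lS lP hcol
  exact outp_congr (san_eq (inS_of_lyN hL))
    (sanN_eq (hL.lt _ (List.mem_append_right _ List.mem_cons_self)))
    (fun i hi => sanN_eq (hL.al_lt i hi)) c v i

/-- **the layout is valid** -/
theorem layL_ok : (layL D kP kR n (rawC CS) (rawC CP)).OK (InsObj576.act D kP kR)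
    (26 : Fin 28) := by
  rw [layL_eq h hlam CS CP hS hP hn lS lP hcol]
  exact ok_both (near h kP kR) (adr_inj (D.ix kP) (D.ix kR)) (geo h hlam kP kR)
    (adj h hlam kP kR) (prg h hlam CS hS lS hcol) (prg h hlam CP hP lP hcol) hn

omit h hlam hS hP hn lS lP hcol in
theorem cv_cmp {C : BCircuit n} (hC : C.WF) (v : Fin n → Bool) (i : Fin n) :
    ∃ (x cv : ℕ → Bool), (∀ i : Fin n, x i = v i) ∧ CV n (cmp (rawC C)).1 x cv ∧
      cv ((cmp (rawC C)).2.getD i 0) = C.apply v i := by
  obtain ⟨h1, -, h3⟩ := compile_spec C hC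
  rw [← cmp_rawC] at h1 h3
  refine ⟨fun t => if ht : t < n then v ⟨t, ht⟩ else false, _, fun i => ?_,
    cv_slp h1.wf v _ (fun i => ?_), h3 v i⟩
  · simp
  · simp

/-- **the first program computes `CS`** -/
theorem outp_S (v : Fin n → Bool) (i : Fin n) :
    Layout.outp (InsObj576.act D kP kR) (26 : Fin 28) (layL D kP kR n (rawC CS) (rawC CP))
      false v i = CS.apply v i := by
  refine (layL_outp h hlam CS CP hS hP hn lS lP hcol false v i).trans ?_
  obtain ⟨x, cv, hx, hcv, e⟩ := cv_cmp hS v i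
  rw [← e]
  exact outp_false (near h kP kR) (adr_inj (D.ix kP) (D.ix kR)) (geo h hlam kP kR)
    (adj h hlam kP kR) (prg h hlam CS hS lS hcol) (prg h hlam CP hP lP hcol) hn hx hcv i

/-- **the second program computes `CP`** -/
theorem outp_P (v : Fin n → Bool) (i : Fin n) :
    Layout.outp (InsObj576.act D kP kR) (26 : Fin 28) (layL D kP kR n (rawC CS) (rawC CP))
      true v i = CP.apply v i := by
  refine (layL_outp h hlam CS CP hS hP hn lS lP hcol true v i).trans ?_
  obtain ⟨x, cv, hx, hcv, e⟩ := cv_cmp hP v i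
  rw [← e]
  exact outp_true (near h kP kR) (adr_inj (D.ix kP) (D.ix kR)) (geo h hlam kP kR)
    (adj h hlam kP kR) (prg h hlam CS hS lS hcol) (prg h hlam CP hP lP hcol) hn hx hcv i

end wf

end Crest.Agent.R289.LayObj896
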