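import Crest.Agent.R289.LayObjC_896
import Crest.Agent.R289.LevObj_782

/-!
# Row 289, block C, C_REAL assembly part 6 (helper896): the layouts at the levels of `LevObj_782`
-/

set_option autoImplicit false
set_option linter.dupNamespace false

namespace Crest.Agent.R289.LayObj896

open Crest.PPADPCP
open Crest.Agent.R289 Crest.Agent.Lib.PT Crest.Agent.R289.Asm12 Crest.Agent.R289.RouteObj649
open Crest.Agent.R289.DefC

section lv
variable {D : Obj} {M0 : ℕ} {lam0 Kr : ℝ} (h : D.OK M0 lam0 Kr)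
variable {c c0 n0 x C : ℕ} {kP kR kT L : EI → ℕ} (hL : LevObj782.Lv D.Q c c0 n0 x C kP kR kT L)

theorem cell_of_lv (hL : LevObj782.Lv D.Q c c0 n0 x C kP kR kT L) (hc : 4 ≤ c) (I : EOL) :
    4 * I.encode.length ≤ D.Q ^ kP (raw I) := by
  have h1 := hL.cells (raw I)
  rw [GlueD194.eN_raw] at h1
  exact le_trans (Nat.mul_le_mul hc (Nat.le_succ _)) h1

theorem col_of_lv (hL : LevObj782.Lv D.Q c c0 n0 x C kP kR kT L) (a : EI) :
    Route649.ncol (lenG D (kP a)) (D.Q ^ kP a) ≤ D.Q ^ kR a := by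
  have h1 := hL.col a
  have h2 : LevObj782.colQ D.Q (kP a) = Route649.ncol (lenG D (kP a)) (D.Q ^ kP a) := rfl
  omega

include h hL

/-- **tables** -/
theorem layE_PT_lv : Nonempty (PubC965.LayPT (fun a : EI => D.P (kP a) × D.P (kR a))
    (fun a => D.Q ^ kP a * D.Q ^ kR a) (fun a => eΓ D (kP a) (kR a))
    (fun a => layE D (kP a) (kR a) a)) :=
  layE_PT h hL.uP hL.uQP hL.uR hL.uQR

variable (hlam : lam0 ^ 2 ≤ 1 / 8) (hc : 4 ≤ c) {I : EOL} (hI : I.WF)
include hlam hc hI

/-- **valid** -/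
theorem layE_ok_lv : (layE D (kP (raw I)) (kR (raw I)) (raw I)).OK
    (InsObj576.act D (kP (raw I)) (kR (raw I))) (26 : Fin 28) :=
  layE_ok h hlam hI (cell_of_lv hL hc I) (col_of_lv hL (raw I))

/-- **computes the two circuits** -/
theorem layE_real_lv : Sol589.Real I (InsObj576.act D (kP (raw I)) (kR (raw I))) (26 : Fin 28)
    (layE D (kP (raw I)) (kR (raw I)) (raw I)) :=
  layE_real h hlam hI (cell_of_lv hL hc I) (col_of_lv hL (raw I))

end lv

end Crest.Agent.R289.LayObj896
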