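import Mathlib
import Crest.Agent.R289.LayLy_338
import Crest.Agent.R289.LayAsm_109
import Crest.Agent.R289.Sol_589

/-!
# Row 289, block C, C_REAL: the layout of an End-of-Line instance

`cc C` = compiled circuit, `wC` = its routed wires, `wlC` = common walk of two compiled circuits.
From the route hypotheses (`Route649.Hyp`), the geometry (`Geo`, `Adj`) and enough cells and colours:
`LyN` (`lyN_C`), `Layout.OK` (`ok_C`) and `Sol589.Real` (`real_C`).
-/

set_option autoImplicit false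
set_option linter.unusedSectionVars false

namespace Crest.Agent.R289.LayReal338

open Crest.PPADPCP Crest.Agent.R289.EolNF436 Crest.Agent.R289.Route649
open Crest.Agent.R289.DefC Crest.Agent.R289.Layout109 Crest.Agent.R289.LayCv338
open Crest.Agent.R289.LayLy338

/-- the compiled circuit -/
def cc {n : ℕ} (C : BCircuit n) : List (ℕ × ℕ × ℕ) × List ℕ :=
  compile (C.gates.map EolNF436.raw) C.outs

/-- the routed wires of a compiled circuit -/
def wC (nP l : ℕ) (nb : ℕ → ℕ → ℕ) (wd : List (List ℕ)) (hp : List ℕ) (n : ℕ)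
    (P : List (ℕ × ℕ × ℕ) × List ℕ) : List Wir := mkW nP l nb wd hp (wires n P.1 P.2)

/-- the common walk of two compiled circuits -/
def wlC (nP nT l : ℕ) (nb : ℕ → ℕ → ℕ) (wd : List (List ℕ)) (θ hp : List ℕ) (n : ℕ)
    (S P : List (ℕ × ℕ × ℕ) × List ℕ) : List Stp2 :=
  wlk nT θ hp n S.1 (wC nP l nb wd hp n S) P.1 (wC nP l nb wd hp n P)

section prg

variable {nP nT d l : ℕ} {nb : ℕ → ℕ → ℕ} {wd : List (List ℕ)} {θ hp : List ℕ} {n : ℕ}

theorem prg_C {C : BCircuit n} (hC : C.WF) (H : Hyp nP d l nb wd) (hG : Geo nP nT θ hp)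
    (hlen : 9 * C.gates.length + 2 * n ≤ hp.length) (hcol : ncol l nP ≤ θ.length) :
    Prg nP nT (Tour594.Adj d nb) θ hp n (cc C).1 (cc C).2 (wC nP l nb wd hp n (cc C)) := by
  obtain ⟨h1, h2, -⟩ := compile_spec C hC
  unfold wC cc
  generalize compile (C.gates.map EolNF436.raw) C.outs = P at h1 h2
  obtain ⟨ops, outs⟩ := P
  simp only at h1 h2 ⊢
  have hlen' : n + ops.length ≤ hp.length := by omega
  have hol : outs.length = n := h1.outLen
  refine ⟨mkW_ok H hG h1 hlen' hcol, mkW_cov h1, ⟨?_, ?_, ?_⟩, hlen'⟩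
  · intro w hw w3
    rw [mem_mkW] at hw
    obtain ⟨c, -, e, he, rfl⟩ := hw
    simp only at w3
    subst w3
    rw [wiresOf_3, List.mem_zipIdx_iff_getElem?, List.getElem?_eq_some_iff] at he
    obtain ⟨hi, -⟩ := he
    simp only
    omega
  · intro i hi
    have := h1.outLt (outs.getD i 0) (by
      rw [List.getD_eq_getElem _ _ (by omega)]
      exact List.getElem_mem _)
    exact this
  · intro i hi
    exact mkW_out h1 i hi

theorem cv_C {C : BCircuit n} (hC : C.WF) (v : Fin n → Bool) :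
    ∃ x cv : ℕ → Bool, (∀ i : Fin n, x i = v i) ∧ CV n (cc C).1 x cv ∧
      ∀ j : Fin n, cv ((cc C).2.getD j 0) = C.apply v j := by
  obtain ⟨h1, -, h3⟩ := compile_spec C hC
  refine ⟨fun t => if h : t < n then v ⟨t, h⟩ else false, _, fun i => ?_,
    Layout109.cv_slp h1.wf v _ fun i => ?_, fun j => h3 v j⟩
  · simp
  · simp

end prg

section both

variable {nP nT d l : ℕ} {nb : ℕ → ℕ → ℕ} {wd : List (List ℕ)} {θ hp : List ℕ}
  {R : ℕ → ℕ → Prop} {I : EOL}
variable {Γ G : Type} [DecidableEq Γ]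
variable {act : G → Equiv.Perm Γ} {gs : List G} {g0 : G} {e : ℕ → Γ}

/-- hypotheses on the route, the geometry and the sizes -/
structure HC (nP nT d l : ℕ) (nb : ℕ → ℕ → ℕ) (wd : List (List ℕ)) (θ hp : List ℕ)
    (R : ℕ → ℕ → Prop) (I : EOL) : Prop where
  wf : I.WF
  hyp : Hyp nP d l nb wd
  geo : Geo nP nT θ hp
  adj : Layout109.Adj nP nT (Tour594.Adj d nb) θ hp R
  lenS : 9 * I.S.gates.length + 2 * I.n ≤ hp.length
  lenP : 9 * I.P.gates.length + 2 * I.n ≤ hp.length
  col : ncol l nP ≤ θ.length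

theorem HC.prgS (h : HC nP nT d l nb wd θ hp R I) :
    Prg nP nT (Tour594.Adj d nb) θ hp I.n (cc I.S).1 (cc I.S).2 (wC nP l nb wd hp I.n (cc I.S)) :=
  prg_C h.wf.2.1 h.hyp h.geo h.lenS h.col

theorem HC.prgP (h : HC nP nT d l nb wd θ hp R I) :
    Prg nP nT (Tour594.Adj d nb) θ hp I.n (cc I.P).1 (cc I.P).2 (wC nP l nb wd hp I.n (cc I.P)) :=
  prg_C h.wf.2.2.1 h.hyp h.geo h.lenP h.col

/-- **number-level conditions of the walk of an instance** -/
theorem lyN_C (h : HC nP nT d l nb wd θ hp R I) :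
    LyN R (nP * nT) (wlC nP nT l nb wd θ hp I.n (cc I.S) (cc I.P))
      (lst nT θ hp I.n (cc I.P).1) I.n (home nT θ hp) :=
  lyN_both h.geo h.adj h.prgS h.prgP h.wf.1

/-- **`Layout.OK` of the layout of an instance** -/
theorem ok_C (hnear : ∀ a b, R a b → LayA873.Adj act gs (e a) (e b))
    (he : ∀ a < nP * nT, ∀ b < nP * nT, e a = e b → a = b) (h : HC nP nT d l nb wd θ hp R I) :
    (lay act gs g0 e (wlC nP nT l nb wd θ hp I.n (cc I.S) (cc I.P))
      (lst nT θ hp I.n (cc I.P).1) I.n (home nT θ hp)).OK act (Fin.ofNat 28 lOut) :=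
  lay_ok hnear he (lyN_C h)

/-- **the layout computes the two circuits of the instance** -/
theorem real_C (hnear : ∀ a b, R a b → LayA873.Adj act gs (e a) (e b))
    (he : ∀ a < nP * nT, ∀ b < nP * nT, e a = e b → a = b) (h : HC nP nT d l nb wd θ hp R I) :
    Sol589.Real I act (Fin.ofNat 28 lOut)
      (lay act gs g0 e (wlC nP nT l nb wd θ hp I.n (cc I.S) (cc I.P))
        (lst nT θ hp I.n (cc I.P).1) I.n (home nT θ hp)) where
  hn := rfl
  hS v := by
    funext j
    obtain ⟨x, cv, hx, hcv, hj⟩ := cv_C (C := I.S) h.wf.2.1 v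
    exact (outp_false hnear he h.geo h.adj h.prgS h.prgP h.wf.1 hx hcv j).trans (hj j)
  hP v := by
    funext j
    obtain ⟨x, cv, hx, hcv, hj⟩ := cv_C (C := I.P) h.wf.2.2.1 v
    exact (outp_true hnear he h.geo h.adj h.prgS h.prgP h.wf.1 hx hcv j).trans (hj j)

end both

end Crest.Agent.R289.LayReal338
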