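import Crest.Agent.R289.LayRun_109
import Crest.Agent.R289.EolNF_436

/-!
# Row 289, block C: wires and values of a compiled circuit (joint `EolNF_436` - `LayRun_109`)

* `mem_wires`, `wires_facts`, `wires_sep`: the wires of a circuit in normal form (`EolNF436.Spec`);
* `cov_of_wires`: coverage of all arguments;
* `cv_slp`: the values `slp cellEv` satisfy the equations `CV`;
* `compile_facts`: everything for the compiled circuit.
-/

set_option autoImplicit false

namespace Crest.Agent.R289.LaySpec436

open Crest.PPADPCP Crest.Agent.R289.EolNF436 Crest.Agent.R289.Layout109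

variable {n : ℕ} {ops : List (ℕ × ℕ × ℕ)} {outs : List ℕ}

theorem mem_wires {w : ℕ × (ℕ × ℕ)} : w ∈ wires n ops outs ↔
    (∃ i, ∃ _ : i < ops.length, ((ops[i]).1 = 0 ∧ w = (0, ((ops[i]).2.1, n + i))) ∨
      ((ops[i]).1 ≠ 0 ∧ (w = (1, ((ops[i]).2.1, n + i)) ∨ w = (2, ((ops[i]).2.2, n + i))))) ∨
    ∃ j, ∃ _ : j < outs.length, w = (3, (outs[j], j)) := by
  unfold wires
  rw [List.mem_append, List.mem_flatMap, List.mem_map]
  refine or_congr ?_ ?_
  · constructor
    · rintro ⟨e, he, hw⟩
      obtain ⟨g, i⟩ := e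
      rw [List.mem_zipIdx_iff_getElem?] at he
      obtain ⟨hi, hg⟩ := List.getElem?_eq_some_iff.1 he
      simp only at hi hg hw
      refine ⟨i, hi, ?_⟩
      rw [hg]
      split_ifs at hw with h0
      · rw [List.mem_singleton] at hw
        exact Or.inl ⟨h0, hw⟩
      · rw [List.mem_cons, List.mem_singleton] at hw
        exact Or.inr ⟨h0, hw⟩
    · rintro ⟨i, hi, h⟩
      refine ⟨(ops[i], i), ?_, ?_⟩
      · rw [List.mem_zipIdx_iff_getElem?]
        simp [hi]
      · rcases h with ⟨h0, h⟩ | ⟨h0, h⟩
        · rw [if_pos h0]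
          exact List.mem_singleton.2 h
        · rw [if_neg h0]
          rw [List.mem_cons, List.mem_singleton]
          exact h
  · constructor
    · rintro ⟨e, he, hw⟩
      obtain ⟨o, j⟩ := e
      rw [List.mem_zipIdx_iff_getElem?] at he
      obtain ⟨hj, hg⟩ := List.getElem?_eq_some_iff.1 he
      simp only at hj hg hw
      refine ⟨j, hj, ?_⟩
      rw [hg, hw]
    · rintro ⟨j, hj, h⟩
      refine ⟨(outs[j], j), ?_, h.symm⟩
      rw [List.mem_zipIdx_iff_getElem?]
      simp [hj]

/-- two wires of one class have different sources and different targets -/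
def SepW (w w' : ℕ × (ℕ × ℕ)) : Prop := w.1 = w'.1 → w.2.1 ≠ w'.2.1 ∧ w.2.2 ≠ w'.2.2

theorem wires_sep (hS : Spec n (ops, outs)) : (wires n ops outs).Pairwise SepW := by
  have hc : (srcCopy ops).Nodup := hS.copyNodup
  have hu : (srcNand ops ++ outs).Nodup := hS.useNodup
  obtain ⟨hn, ho, -⟩ := List.nodup_append.1 hu
  have hc' := (List.nodup_flatMap.1 hc).2
  have hn' := (List.nodup_flatMap.1 hn).2
  rw [List.pairwise_iff_getElem] at hc' hn'
  unfold wires
  rw [List.pairwise_append]
  refine ⟨?_, ?_, ?_⟩
  · rw [List.pairwise_flatMap]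
    constructor
    · rintro ⟨g, i⟩ -
      simp only
      split_ifs
      · exact List.pairwise_singleton _ _
      · refine List.Pairwise.cons ?_ (List.pairwise_singleton _ _)
        intro a ha
        rw [List.mem_singleton] at ha
        subst ha
        intro h
        exact absurd h (by simp)
    · rw [List.pairwise_iff_getElem]
      intro i j hi hj hij x hx y hy hxy
      rw [List.getElem_zipIdx] at hx hy
      simp only [Nat.zero_add] at hx hy
      have hi' : i < ops.length := by simpa using hi
      have hj' : j < ops.length := by simpa using hj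
      have dc := hc' i j hi' hj' hij
      have dn := hn' i j hi' hj' hij
      simp only [Function.onFun] at dc dn
      by_cases h0 : (ops[i]).1 = 0 <;> by_cases h0' : (ops[j]).1 = 0
      · rw [if_pos h0, List.mem_singleton] at hx
        rw [if_pos h0', List.mem_singleton] at hy
        rw [if_pos h0, if_pos h0'] at dc
        subst hx hy
        refine ⟨fun h => ?_, fun h => ?_⟩
        · simp only at h
          exact dc (List.mem_singleton.2 rfl) (List.mem_singleton.2 h)
        · simp only at h; omega
      · rw [if_pos h0, List.mem_singleton] at hx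
        rw [if_neg h0', List.mem_cons, List.mem_singleton] at hy
        subst hx
        rcases hy with hy | hy <;> (subst hy; exact absurd hxy (by simp))
      · rw [if_neg h0, List.mem_cons, List.mem_singleton] at hx
        rw [if_pos h0', List.mem_singleton] at hy
        subst hy
        rcases hx with hx | hx <;> (subst hx; exact absurd hxy (by simp))
      · rw [if_neg h0, List.mem_cons, List.mem_singleton] at hx
        rw [if_neg h0', List.mem_cons, List.mem_singleton] at hy
        rw [if_neg h0, if_neg h0'] at dn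
        rcases hx with hx | hx <;> rcases hy with hy | hy <;> subst hx hy
        · refine ⟨fun h => ?_, fun h => ?_⟩
          · simp only at h
            exact dn (a := (ops[i]).2.1) (by simp) (by simp [h])
          · simp only at h; omega
        · exact absurd hxy (by simp)
        · exact absurd hxy (by simp)
        · refine ⟨fun h => ?_, fun h => ?_⟩
          · simp only at h
            exact dn (a := (ops[i]).2.2) (by simp) (by simp [h])
          · simp only at h; omega
  · rw [List.pairwise_map, List.pairwise_iff_getElem]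
    intro i j hi hj hij _
    rw [List.getElem_zipIdx, List.getElem_zipIdx]
    simp only [Nat.zero_add]
    have hi' : i < outs.length := by simpa using hi
    have hj' : j < outs.length := by simpa using hj
    refine ⟨?_, by omega⟩
    intro h
    have := (List.nodup_iff_getElem?_ne_getElem?.1 ho) i j hij hj'
    rw [List.getElem?_eq_getElem hi', List.getElem?_eq_getElem hj'] at this
    exact this (by rw [h])
  · intro x hx y hy hxy
    rw [List.mem_map] at hy
    obtain ⟨e, -, rfl⟩ := hy
    rw [List.mem_flatMap] at hx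
    obtain ⟨g, -, hx⟩ := hx
    split_ifs at hx
    · rw [List.mem_singleton] at hx
      subst hx
      exact absurd hxy (by simp)
    · rw [List.mem_cons, List.mem_singleton] at hx
      rcases hx with hx | hx <;> (subst hx; exact absurd hxy (by simp))

/-- classes, sources, targets of the wires -/
theorem wires_facts (hS : Spec n (ops, outs)) {w : ℕ × (ℕ × ℕ)} (hw : w ∈ wires n ops outs) :
    w.1 < 4 ∧ w.2.1 < n + ops.length ∧ w.2.2 < n + ops.length ∧
      (w.1 < 3 → n ≤ w.2.2 ∧ w.2.1 < w.2.2) ∧ (w.1 = 3 → w.2.2 < n) := by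
  have hwf : CellWF n ops := hS.wf
  have hol : outs.length = n := hS.outLen
  rcases mem_wires.1 hw with ⟨i, hi, h⟩ | ⟨j, hj, h⟩
  · have h1 := (hwf i hi).2.1
    have h2 := (hwf i hi).2.2
    rcases h with ⟨-, h⟩ | ⟨-, h | h⟩ <;> subst h <;> simp only <;> omega
  · have h1 : outs[j] < n + ops.length := hS.outLt _ (List.getElem_mem hj)
    subst h
    simp only
    omega

/-- coverage of all arguments -/
theorem cov_of_wires (hS : Spec n (ops, outs)) {W : List Wir}
    (hW : ∀ w0 ∈ wires n ops outs, ∃ w ∈ W, w.1 = w0.1 ∧ w.2.1 = w0.2) : Cov n ops W := by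
  have hwf : CellWF n ops := hS.wf
  refine ⟨fun i hi h0 => ⟨(hwf i hi).2.1, ?_⟩, fun i hi h0 => ⟨(hwf i hi).2.1, ?_⟩,
    fun i hi h0 => ⟨(hwf i hi).2.2, ?_⟩⟩
  · obtain ⟨w, hw, h1, h2⟩ := hW _ (mem_wires.2 (Or.inl ⟨i, hi, Or.inl ⟨h0, rfl⟩⟩))
    exact ⟨w, hw, h1, h2⟩
  · obtain ⟨w, hw, h1, h2⟩ := hW _ (mem_wires.2 (Or.inl ⟨i, hi, Or.inr ⟨h0, Or.inl rfl⟩⟩))
    exact ⟨w, hw, h1, h2⟩
  · obtain ⟨w, hw, h1, h2⟩ := hW _ (mem_wires.2 (Or.inl ⟨i, hi, Or.inr ⟨h0, Or.inr rfl⟩⟩))
    exact ⟨w, hw, h1, h2⟩

/-- the output wires -/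
theorem out_wire {j : ℕ} (hj : j < outs.length) {W : List Wir}
    (hW : ∀ w0 ∈ wires n ops outs, ∃ w ∈ W, w.1 = w0.1 ∧ w.2.1 = w0.2) :
    ∃ w ∈ W, w.1 = 3 ∧ w.2.1 = (outs[j], j) := by
  obtain ⟨w, hw, h1, h2⟩ := hW _ (mem_wires.2 (Or.inr ⟨j, hj, rfl⟩))
  exact ⟨w, hw, h1, h2⟩

/-- values of the cells -/
def cvS (ops : List (ℕ × ℕ × ℕ)) (v : Fin n → Bool) (t : ℕ) : Bool :=
  (slp cellEv (List.ofFn v) ops).getD t false

theorem cellEv_copy {g : ℕ × ℕ × ℕ} (h : g.1 = 0) (prev : List Bool) :
    cellEv g prev = prev.getD g.2.1 false := by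
  unfold cellEv
  rw [if_pos h]

theorem cellEv_nand {g : ℕ × ℕ × ℕ} (h : g.1 ≠ 0) (prev : List Bool) :
    cellEv g prev = !(prev.getD g.2.1 false && prev.getD g.2.2 false) := by
  unfold cellEv
  rw [if_neg h]

/-- the values of the straight line program satisfy the equations of the circuit -/
theorem cv_slp (hwf : CellWF n ops) (v : Fin n → Bool) (x : ℕ → Bool)
    (hx : ∀ t (h : t < n), x t = v ⟨t, h⟩) : CV n ops x (cvS ops v) := by
  refine ⟨fun t ht => ?_, fun i hi h0 => ?_, fun i hi h0 => ?_⟩
  · unfold cvS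
    rw [slp_getD_old _ _ _ _ (by simpa using ht), hx t ht, List.getD_eq_getElem?_getD,
      List.getElem?_eq_getElem (by simpa using ht)]
    simp
  · unfold cvS
    have h1 := slp_getD_new cellEv (List.ofFn v) ops i hi false
    rw [List.length_ofFn] at h1
    rw [h1, cellEv_copy h0]
    rw [← slp_getD_take cellEv (List.ofFn v) ops i _ (by
      rw [List.length_ofFn]; exact (hwf i hi).2.1) hi.le]
  · unfold cvS
    have h1 := slp_getD_new cellEv (List.ofFn v) ops i hi false
    rw [List.length_ofFn] at h1
    rw [h1, cellEv_nand h0]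
    rw [← slp_getD_take cellEv (List.ofFn v) ops i _ (by
      rw [List.length_ofFn]; exact (hwf i hi).2.1) hi.le,
      ← slp_getD_take cellEv (List.ofFn v) ops i _ (by
      rw [List.length_ofFn]; exact (hwf i hi).2.2) hi.le]

/-- **the compiled circuit**: normal form, number of cells, output values -/
theorem compile_facts {n : ℕ} (C : BCircuit n) (hC : C.WF) :
    Spec n ((compile (C.gates.map raw) C.outs).1, (compile (C.gates.map raw) C.outs).2) ∧
    n + (compile (C.gates.map raw) C.outs).1.length = 2 * n + 9 * C.gates.length ∧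
    ∀ (v : Fin n → Bool) (j : ℕ) (hj : j < n) (h' : j < (compile (C.gates.map raw) C.outs).2.length),
      cvS (compile (C.gates.map raw) C.outs).1 v (compile (C.gates.map raw) C.outs).2[j] =
        C.apply v ⟨j, hj⟩ := by
  obtain ⟨h1, h2, h3⟩ := compile_spec C hC
  refine ⟨h1, by omega, fun v j hj h' => ?_⟩
  have := h3 v ⟨j, hj⟩
  rw [← this]
  unfold cvS
  simp only
  rw [List.getD_eq_getElem _ _ h']

end Crest.Agent.R289.LaySpec436
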