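import Crest.Agent.R289.LayAsm_109
import Crest.Agent.R289.LayPTF_328

/-!
# Row 289, block C: the routed wires `mkW` are polynomial time (given the routing)
-/

set_option autoImplicit false
set_option linter.unusedSectionVars false

namespace Crest.Agent.R289.LayWPT109

open Crest.Agent.Lib.PT Crest.Agent.R289.Layout109 Crest.Agent.R289.EolNFPT328
  Crest.Agent.R289.LayPTF328

variable {γ : Type} [PTCode γ]

theorem ptf_look {r : γ → List (ℕ × (ℕ × ℕ) × List ℕ)} {a : γ → ℕ} (hr : PTF r) (ha : PTF a) :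
    PTF (fun c => Route649.look (r c) (a c)) := by
  have h1 : PTF (fun c => ((r c).find? (fun x => decide (x.2.1.1 = a c))).map
      (fun x : ℕ × (ℕ × ℕ) × List ℕ => (x.1, x.2.2))) := by
    refine PTF.optionMap (g := fun (_ : γ) (x : ℕ × (ℕ × ℕ) × List ℕ) => (x.1, x.2.2)) ?_ ?_
    · refine PTF.find? (p := fun c x => decide (x.2.1.1 = a c)) hr ?_
      exact PTF.beq (f := fun p : γ × (ℕ × (ℕ × ℕ) × List ℕ) => p.2.2.1.1)
        (g := fun p => a p.1) (by pt_prop) (PTF.comp (g := a) ha PTF.fst)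
    · pt_prop
  refine PTF.of_eq (PTF.optionGetD h1 (PTF.const ((0, []) : ℕ × List ℕ))) (fun c => ?_)
  unfold Route649.look
  cases (r c).find? (fun x => decide (x.2.1.1 = a c)) <;> rfl

theorem ptf_wiresOf (k : ℕ) {ws : γ → List (ℕ × (ℕ × ℕ))} (hws : PTF ws) :
    PTF (fun c => wiresOf k (ws c)) := by
  unfold wiresOf
  refine PTF.map (f := fun (_ : γ) (x : ℕ × (ℕ × ℕ)) => x.2)
    (PTF.filter (p := fun (_ : γ) (e : ℕ × (ℕ × ℕ)) => e.1 == k) hws ?_) ?_
  · refine PTF.of_eq (PTF.beq (f := fun p : γ × (ℕ × (ℕ × ℕ)) => p.2.1) (g := fun _ => k) ?_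
      (PTF.const k)) (fun p => ?_)
    · pt_prop
    · simp [Bool.beq_eq_decide_eq]
  · exact PTF.comp (g := fun x : ℕ × (ℕ × ℕ) => x.2) PTF.snd PTF.snd

theorem ptf_places {hp : γ → List ℕ} {ws : γ → List (ℕ × ℕ)} (hh : PTF hp) (hws : PTF ws) :
    PTF (fun c => places (hp c) (ws c)) := by
  unfold places
  refine PTF.map (f := fun c (e : ℕ × ℕ) => ((hp c).getD e.1 0, (hp c).getD e.2 0)) hws ?_
  refine PTF.prodMk ?_ ?_
  · exact ptf_getD (l := fun p : γ × (ℕ × ℕ) => hp p.1) (n := fun p => p.2.1)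
      (d := fun _ => 0) (PTF.comp (g := hp) hh PTF.fst) (by fun_prop) (PTF.const 0)
  · exact ptf_getD (l := fun p : γ × (ℕ × ℕ) => hp p.1) (n := fun p => p.2.2)
      (d := fun _ => 0) (PTF.comp (g := hp) hh PTF.fst) (by fun_prop) (PTF.const 0)

/-- **the routed wires are polynomial time, given that the routing is** -/
theorem ptf_mkW {nP l : γ → ℕ} {nb : γ → ℕ → ℕ → ℕ} {wd : γ → List (List ℕ)} {hp : γ → List ℕ}
    {ws : γ → List (ℕ × (ℕ × ℕ))} (hh : PTF hp) (hws : PTF ws)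
    (hroute : ∀ es : γ → List (ℕ × ℕ), PTF es →
      PTF (fun c => Route649.route (nP c) (l c) (nb c) (wd c) (es c))) :
    PTF (fun c => mkW (nP c) (l c) (nb c) (wd c) (hp c) (ws c)) := by
  have key : ∀ k : ℕ, PTF (fun c => (wiresOf k (ws c)).map fun e =>
      ((k, e, Route649.look (rtOf (nP c) (l c) (nb c) (wd c) (hp c) (ws c) k)
        ((hp c).getD e.1 0)) : Wir)) := by
    intro k
    have hrt : PTF (fun c => rtOf (nP c) (l c) (nb c) (wd c) (hp c) (ws c) k) :=
      hroute _ (ptf_places hh (ptf_wiresOf k hws))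
    refine PTF.map (f := fun c (e : ℕ × ℕ) => ((k, e,
      Route649.look (rtOf (nP c) (l c) (nb c) (wd c) (hp c) (ws c) k)
        ((hp c).getD e.1 0)) : Wir)) (ptf_wiresOf k hws) ?_
    refine PTF.prodMk (PTF.const k) (PTF.prodMk (by fun_prop) ?_)
    refine ptf_look (r := fun p : γ × (ℕ × ℕ) =>
      rtOf (nP p.1) (l p.1) (nb p.1) (wd p.1) (hp p.1) (ws p.1) k)
      (a := fun p => (hp p.1).getD p.2.1 0) ?_ ?_
    · exact PTF.comp (g := fun c => rtOf (nP c) (l c) (nb c) (wd c) (hp c) (ws c) k) hrt PTF.fst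
    · exact ptf_getD (l := fun p : γ × (ℕ × ℕ) => hp p.1) (n := fun p => p.2.1)
        (d := fun _ => 0) (PTF.comp (g := hp) hh PTF.fst) (by fun_prop) (PTF.const 0)
  refine PTF.of_eq (PTF.append (key 0) (PTF.append (key 1) (PTF.append (key 2) (key 3))))
    (fun c => ?_)
  unfold mkW
  simp only [show List.range 4 = [0, 1, 2, 3] from rfl, List.flatMap_cons, List.flatMap_nil,
    List.append_nil]

end Crest.Agent.R289.LayWPT109
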