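import Crest.Agent.R289.DefD_721

/-!
# Row 289, block D: small lemmas about `lift` and `klift`
-/

set_option autoImplicit false

namespace Crest.Agent.R289.DefD

section
variable {U : Type} {k l r : ℕ} {β : Type}
  (f : (Fin k → Fin l → Bool) → (Fin r → Bool) → β) (nb : Fin k → U → U)
  (pub : U → Fin r → Bool)

/-- a family of labels compatible with the readable ones exists -/
theorem exists_compat (X : U → Option (Fin l → Bool)) (u : U) :
    ∃ x : Fin k → Fin l → Bool, ∀ i y, X (nb i u) = some y → x i = y :=
  ⟨fun i => (X (nb i u)).getD (fun _ => false), fun i y h => by simp [h]⟩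

theorem klift_eq_some_iff (X : U → Option (Fin l → Bool)) (u : U) (g : β) :
    klift f nb pub X u = some g ↔
      ∀ x : Fin k → Fin l → Bool, (∀ i y, X (nb i u) = some y → x i = y) → f x (pub u) = g := by
  unfold klift
  constructor
  · intro h
    split_ifs at h with h0
    intro x hx
    rw [h0.choose_spec x hx]
    simpa using h
  · intro h
    have h0 : ∃ g : β, ∀ x : Fin k → Fin l → Bool,
        (∀ i y, X (nb i u) = some y → x i = y) → f x (pub u) = g := ⟨g, h⟩
    rw [dif_pos h0]
    obtain ⟨x, hx⟩ := exists_compat nb X u
    rw [← h0.choose_spec x hx, h x hx]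

/-- on a completely readable neighbourhood `klift` is the Boolean function -/
theorem klift_of_readable (X : U → Option (Fin l → Bool)) (u : U) (x : Fin k → Fin l → Bool)
    (hx : ∀ i, X (nb i u) = some (x i)) : klift f nb pub X u = some (f x (pub u)) := by
  rw [klift_eq_some_iff]
  intro y hy
  have : y = x := by
    funext i
    exact hy i (x i) (hx i)
  rw [this]

theorem klift_some (X : U → Fin l → Bool) (u : U) :
    klift f nb pub (fun v => some (X v)) u = some (f (fun i => X (nb i u)) (pub u)) :=
  klift_of_readable f nb pub _ u _ (fun _ => rfl)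

theorem lift_eq_some_iff (X : U → Option (Fin l → Bool)) (u : U) (g : β) :
    lift f nb pub X u = some g ↔
      ∃ x : Fin k → Fin l → Bool, (∀ i, X (nb i u) = some (x i)) ∧ f x (pub u) = g := by
  unfold lift
  constructor
  · intro h
    split_ifs at h with h0
    exact ⟨h0.choose, h0.choose_spec, by simpa using h⟩
  · rintro ⟨x, hx, hg⟩
    have h0 : ∃ x : Fin k → Fin l → Bool, ∀ i, X (nb i u) = some (x i) := ⟨x, hx⟩
    rw [dif_pos h0]
    have : h0.choose = x := by
      funext i
      have h1 := h0.choose_spec i
      rw [hx i] at h1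
      exact (Option.some.inj h1).symm
    rw [this, hg]

theorem lift_some (X : U → Fin l → Bool) (u : U) :
    lift f nb pub (fun v => some (X v)) u = some (f (fun i => X (nb i u)) (pub u)) := by
  rw [lift_eq_some_iff]
  exact ⟨_, fun _ => rfl, rfl⟩

/-- `klift` extends `lift` -/
theorem klift_of_lift (X : U → Option (Fin l → Bool)) (u : U) (g : β)
    (h : lift f nb pub X u = some g) : klift f nb pub X u = some g := by
  rw [lift_eq_some_iff] at h
  obtain ⟨x, hx, hg⟩ := h
  rw [klift_of_readable f nb pub X u x hx, hg]

end

end Crest.Agent.R289.DefD
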