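import Crest.Agent.R289.Window_954
import Crest.Agent.R289.Route_649
import Crest.Agent.R289.Circ_328
import Crest.Agent.R289.AsmObj_12

/-!
# Row 289: all numeric choices of `fam_of_obj` (levels `kP`, `kR`, `kT`, depth `L`)

`exists_levels`: for `Q ≥ 2` and demands `rq` (polylogarithmic), `tq` (polynomial) there are unary
polynomial-time levels with
`szE n0 a ≤ Q ^ kP a`, `rq (Q ^ kP a) < Q ^ kR a`, `tq (L a) < Q ^ kT a`,
`L a = LB (3 ^ 5) c0 (Q ^ kP a * Q ^ kR a)`, `3 ^ (3 * (L a + 1)) ≤ Q ^ kP a`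
and the literal size clause of `Fam289`.
-/

set_option autoImplicit false

namespace Crest.Agent.R289.LevObj517

open Crest.PPADPCP Crest.Agent.Lib.PT Crest.Agent.Lib.PT.Arith
open Crest.Agent.R289 Crest.Agent.R289.Size954 Crest.Agent.R289.Window954

/-- size demand of an instance: the cells of both compiled circuits (for a well-formed instance
`n + 9 * #gates + n` each) and `n0` -/
def szE (n0 : ℕ) (a : EI) : ℕ :=
  2 * a.2.1.2.length + 9 * a.2.1.1.length + (2 * a.2.2.2.length + 9 * a.2.2.1.length) + n0 + 1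

theorem one_le_szE (n0 : ℕ) (a : EI) : 1 ≤ szE n0 a := Nat.succ_le_succ (Nat.zero_le _)

theorem n0_le_szE (n0 : ℕ) (a : EI) : n0 ≤ szE n0 a := by unfold szE; omega

theorem ptu_szE (n0 : ℕ) : PTU (szE n0) := by
  unfold szE
  have h1 : PTU (fun a : EI => a.2.1.2.length) := PTU.length (by fun_prop)
  have h2 : PTU (fun a : EI => a.2.1.1.length) := PTU.length (by fun_prop)
  have h3 : PTU (fun a : EI => a.2.2.2.length) := PTU.length (by fun_prop)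
  have h4 : PTU (fun a : EI => a.2.2.1.length) := PTU.length (by fun_prop)
  exact PTU.add (PTU.add (PTU.add (PTU.add (PTU.mul (PTU.const 2) h1) (PTU.mul (PTU.const 9) h2))
    (PTU.add (PTU.mul (PTU.const 2) h3) (PTU.mul (PTU.const 9) h4))) (PTU.const n0)) (PTU.const 1)

/-- both compiled programs fit -/
theorem szE_raw_S (n0 : ℕ) (I : EOL) (h : I.WF) :
    I.n + (9 * I.S.gates.length + I.n) ≤ szE n0 (raw I) := by
  have h1 := h.2.1.1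
  unfold szE raw rawC
  simp only [List.length_map]
  omega

theorem szE_raw_P (n0 : ℕ) (I : EOL) (h : I.WF) :
    I.n + (9 * I.P.gates.length + I.n) ≤ szE n0 (raw I) := by
  have h1 := h.2.2.1.1
  unfold szE raw rawC
  simp only [List.length_map]
  omega

theorem szE_le_encode (n0 : ℕ) (I : EOL) (h : I.WF) :
    szE n0 (raw I) ≤ (n0 + 4) * I.encode.length := by
  have h1 := Circ328.encode_bound_wf I h
  have h2 := h.2.1.1
  have h3 := h.2.2.1.1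
  have h4 : n0 ≤ n0 * I.encode.length := Nat.le_mul_of_pos_right _ (by omega)
  have h5 : (n0 + 4) * I.encode.length = n0 * I.encode.length + 4 * I.encode.length := by ring
  rw [h5]
  unfold szE raw rawC
  simp only [List.length_map]
  omega

section generic

variable {α : Type}

/-- numeric core, without computability -/
theorem numeric {Q : ℕ} (hQ : 2 ≤ Q) (c0 n0 : ℕ) (rq : ℕ → ℕ) {A0 b0 : ℕ}
    (hrq : ∀ x, rq x ≤ A0 * cl x ^ b0) :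
    ∃ X e : ℕ, ∀ s : ℕ,
      rq (Q ^ lev Q 1 e (s + X)) < Q ^ lev Q 1 0 (rq (Q ^ lev Q 1 e (s + X)) + 1 + Q ^ n0) ∧
      n0 ≤ lev Q 1 e (s + X) ∧
      n0 ≤ lev Q 1 0 (rq (Q ^ lev Q 1 e (s + X)) + 1 + Q ^ n0) ∧
      s ≤ Q ^ lev Q 1 e (s + X) ∧
      3 ^ (3 * (LB (3 ^ 5) c0 (Q ^ lev Q 1 e (s + X) *
        Q ^ lev Q 1 0 (rq (Q ^ lev Q 1 e (s + X)) + 1 + Q ^ n0)) + 1)) ≤
        Q ^ lev Q 1 e (s + X) := by
  have hQ0 : 0 < Q := by omega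
  set e : ℕ := 3 * b0 + 1 with he
  set D : ℕ := cl Q + 2 * e + 4 with hD
  set A4 : ℕ := Q * (A0 * D ^ b0 + 1 + Q ^ n0) with hA4
  set C : ℕ := 3 ^ (3 * 5) * ((3 ^ 5) ^ (c0 + 1)) ^ 3 with hC
  refine ⟨2 ^ (C * A4 ^ 3) + Q ^ n0, e, fun s => ?_⟩
  set M : ℕ := s + (2 ^ (C * A4 ^ 3) + Q ^ n0) with hM
  have h2X : 0 < 2 ^ (C * A4 ^ 3) := by positivity
  have hsM : s ≤ M := by rw [hM]; exact Nat.le_add_right _ _
  have hM1 : 1 ≤ M := by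
    have : 1 ≤ Q ^ n0 := Nat.one_le_pow _ _ hQ0
    omega
  set P : ℕ := Q ^ lev Q 1 e M with hP
  have hPlo : M * cl M ^ e ≤ P := by
    have := le_pow_lev hQ 1 e M
    rwa [one_mul] at this
  have hPM : M ≤ P := (Nat.le_mul_of_pos_right _ (one_le_cl_pow M e)).trans hPlo
  have hPhi : P ≤ Q * M * cl M ^ e := by
    have := pow_lev_le hQ 1 e le_rfl hM1
    rwa [mul_one] at this
  have hclP : cl P ≤ D * cl M := (cl_mono hPhi).trans (cl_bound Q e M)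
  have hclX : C * A4 ^ 3 ≤ cl M := by
    have h1 : 2 ^ (C * A4 ^ 3) < 2 ^ cl M := by
      have := lt_two_pow_cl M
      omega
    exact ((Nat.pow_lt_pow_iff_right (by norm_num)).1 h1).le
  have hrP : rq P ≤ A0 * D ^ b0 * cl M ^ b0 := by
    refine (hrq P).trans ?_
    rw [mul_assoc, ← mul_pow]
    exact Nat.mul_le_mul_left _ (Nat.pow_le_pow_left hclP _)
  set R0 : ℕ := rq P + 1 + Q ^ n0 with hR0
  have hR01 : 1 ≤ R0 := by omega
  set R : ℕ := Q ^ lev Q 1 0 R0 with hR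
  have hRlo : R0 ≤ R := by
    have := le_pow_lev hQ 1 0 R0
    rwa [one_mul, pow_zero, mul_one] at this
  have hRhi : R ≤ A4 * cl M ^ b0 := by
    have h1 := pow_lev_le hQ 1 0 le_rfl hR01
    rw [mul_one, pow_zero, mul_one] at h1
    refine h1.trans ?_
    rw [hA4, mul_assoc]
    refine Nat.mul_le_mul_left _ ?_
    have h2 : 1 ≤ cl M ^ b0 := one_le_cl_pow M b0
    have h3 : 1 + Q ^ n0 ≤ (1 + Q ^ n0) * cl M ^ b0 := Nat.le_mul_of_pos_right _ h2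
    calc R0 = rq P + (1 + Q ^ n0) := by rw [hR0]; ring
      _ ≤ A0 * D ^ b0 * cl M ^ b0 + (1 + Q ^ n0) * cl M ^ b0 := Nat.add_le_add hrP h3
      _ = (A0 * D ^ b0 + 1 + Q ^ n0) * cl M ^ b0 := by ring
  refine ⟨lt_of_lt_of_le (by omega) hRlo, ?_, ?_, hsM.trans hPM, ?_⟩
  · have h1 : Q ^ n0 ≤ Q ^ lev Q 1 e M := by
      rw [← hP]
      have : 0 < 2 ^ (C * A4 ^ 3) := by positivity
      omega
    exact (Nat.pow_le_pow_iff_right (by omega)).1 h1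
  · have h1 : Q ^ n0 ≤ Q ^ lev Q 1 0 R0 := by
      rw [← hR]
      omega
    exact (Nat.pow_le_pow_iff_right (by omega)).1 h1
  · refine clock_LB (p := 3) (r := 5) c0 (by norm_num) (by omega)
      (Nat.one_le_pow _ _ hQ0) ?_
    rw [← hC]
    calc C * R ^ 3 ≤ C * (A4 * cl M ^ b0) ^ 3 :=
          Nat.mul_le_mul_left _ (Nat.pow_le_pow_left hRhi 3)
      _ = (C * A4 ^ 3) * cl M ^ (3 * b0) := by rw [mul_pow, ← pow_mul, mul_comm b0 3]; ring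
      _ ≤ cl M * cl M ^ (3 * b0) := Nat.mul_le_mul_right _ hclX
      _ = cl M ^ e := by rw [he, pow_succ]; ring
      _ ≤ M * cl M ^ e := Nat.le_mul_of_pos_left _ hM1
      _ ≤ P := hPlo

/-- **LEVELS**, generic: unary polynomial-time levels for a unary size demand `g` -/
theorem exists_levels_gen [PTCode α] {Q : ℕ} (hQ : 2 ≤ Q) (c0 n0 : ℕ) (rq tq : ℕ → ℕ)
    (hrq : PTF rq) (hrqb : ∃ A b, ∀ x, rq x ≤ A * cl x ^ b)
    (htq : PTF tq) (htqb : ∃ A b, ∀ x, tq x ≤ A * (x + 1) ^ b)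
    {g : α → ℕ} (hg : PTU g) (hg1 : ∀ a, 1 ≤ g a) :
    ∃ kP kR kT L : α → ℕ,
      PTU kP ∧ PTU kR ∧ PTU kT ∧ PTU L ∧
      PTU (fun a => Q ^ kP a) ∧ PTU (fun a => Q ^ kR a) ∧ PTU (fun a => Q ^ kT a) ∧
      (∀ a, g a ≤ Q ^ kP a ∧ rq (Q ^ kP a) < Q ^ kR a ∧ tq (L a) < Q ^ kT a ∧
        L a = LB (3 ^ 5) c0 (Q ^ kP a * Q ^ kR a) ∧
        Q ^ kP a * Q ^ kR a < (3 ^ 5) ^ L a ∧
        3 ^ (3 * (L a + 1)) ≤ Q ^ kP a ∧
        n0 ≤ kP a ∧ n0 ≤ kR a ∧ n0 ≤ kT a) ∧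
      BL (fun a => Q ^ kP a * Q ^ kR a * Q ^ kT a) g := by
  obtain ⟨A0, b0, hA0⟩ := hrqb
  obtain ⟨A1, b1, hA1⟩ := htqb
  obtain ⟨X, e, hX⟩ := numeric hQ c0 n0 rq hA0
  have hB : 1 < 3 ^ 5 := by norm_num
  -- the level of `P`
  have hMu : PTU (fun a => g a + X) := PTU.add hg (PTU.const X)
  have hkP : PTU (fun a => lev Q 1 e (g a + X)) := ptu_lev 1 e hQ hMu.toPTF
  have hPu : PTU (fun a => Q ^ lev Q 1 e (g a + X)) := ptu_pow_lev 1 e hQ hMu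
  have hMB : BL (fun a => g a + X) g := (BL.refl g).add (BL.const X hg1)
  have hPB : BL (fun a => Q ^ lev Q 1 e (g a + X)) g := BL_pow_lev hQ 1 e hMB hg1
  -- the level of `T_r`
  have hrP : PTF (fun a => rq (Q ^ lev Q 1 e (g a + X))) := hrq.comp hPu.toPTF
  have hrPb : PB (fun a => rq (Q ^ lev Q 1 e (g a + X))) :=
    ((PB.const A0).mul ((PB_cl hPu.toPTF).pow b0)).mono fun a => hA0 _
  have hR0u : PTU (fun a => rq (Q ^ lev Q 1 e (g a + X)) + 1 + Q ^ n0) :=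
    PTU.add (PTU.add (hrP.toPTU hrPb) (PTU.const 1)) (PTU.const (Q ^ n0))
  have hkR : PTU (fun a => lev Q 1 0 (rq (Q ^ lev Q 1 e (g a + X)) + 1 + Q ^ n0)) :=
    ptu_lev 1 0 hQ hR0u.toPTF
  have hRu : PTU (fun a => Q ^ lev Q 1 0 (rq (Q ^ lev Q 1 e (g a + X)) + 1 + Q ^ n0)) :=
    ptu_pow_lev 1 0 hQ hR0u
  have hclP : PL (fun a => cl (Q ^ lev Q 1 e (g a + X))) g := PL_cl hPB
  have hR0L : PL (fun a => rq (Q ^ lev Q 1 e (g a + X)) + 1 + Q ^ n0) g :=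
    ((((PL.const A0 g).mul (hclP.pow b0)).mono_left fun a => hA0 _).add (PL.const 1 g)).add
      (PL.const (Q ^ n0) g)
  have hRL : PL (fun a => Q ^ lev Q 1 0 (rq (Q ^ lev Q 1 e (g a + X)) + 1 + Q ^ n0)) g :=
    PL_pow_lev hQ 1 0 hR0L
  -- the depth
  have hGu := PTU.mul hPu hRu
  have hGB := hPB.mul_PL hRL
  have hLu := ptu_LB (B := 3 ^ 5) hB c0 hGu.toPTF
  have hLL := PL_LB (B := 3 ^ 5) hB c0 hGB
  -- the level of `T`
  have htL := htq.comp hLu.toPTF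
  have htLb : PB (fun a => tq (LB (3 ^ 5) c0 (Q ^ lev Q 1 e (g a + X) *
      Q ^ lev Q 1 0 (rq (Q ^ lev Q 1 e (g a + X)) + 1 + Q ^ n0)))) :=
    ((PB.const A1).mul ((hLu.pb.add (PB.const 1)).pow b1)).mono fun a => hA1 _
  have hT0u := PTU.add (PTU.add (htL.toPTU htLb) (PTU.const 1)) (PTU.const (Q ^ n0))
  have hkT := ptu_lev (Q := Q) 1 0 hQ hT0u.toPTF
  have hTu := ptu_pow_lev (Q := Q) 1 0 hQ hT0u
  have hT0L := ((((PL.const A1 g).mul ((hLL.add (PL.const 1 g)).pow b1)).mono_left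
    fun a => hA1 (LB (3 ^ 5) c0 (Q ^ lev Q 1 e (g a + X) *
      Q ^ lev Q 1 0 (rq (Q ^ lev Q 1 e (g a + X)) + 1 + Q ^ n0)))).add (PL.const 1 g)).add
      (PL.const (Q ^ n0) g)
  have hTL := PL_pow_lev hQ 1 0 hT0L
  refine ⟨_, _, _, _, hkP, hkR, hkT, hLu, hPu, hRu, hTu, fun a => ?_, (hPB.mul_PL hRL).mul_PL hTL⟩
  obtain ⟨h1, h2, h3, h4, h5⟩ := hX (g a)
  have h6 := le_pow_lev hQ 1 0 (tq (LB (3 ^ 5) c0 (Q ^ lev Q 1 e (g a + X) *
      Q ^ lev Q 1 0 (rq (Q ^ lev Q 1 e (g a + X)) + 1 + Q ^ n0))) + 1 + Q ^ n0)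
  rw [one_mul, pow_zero, mul_one] at h6
  refine ⟨h4, h1, ?_, rfl, lt_pow_LB hB c0 _, h5, h2, h3, ?_⟩
  · exact lt_of_lt_of_le (by omega) h6
  · refine (Nat.pow_le_pow_iff_right (a := Q) (by omega)).1 (le_trans ?_ h6)
    omega

end generic

/-- **LEV_OBJ**: all numeric choices of `fam_of_obj` -/
theorem exists_levels {Q : ℕ} (hQ : 2 ≤ Q) (c0 n0 : ℕ) (rq tq : ℕ → ℕ)
    (hrq : PTF rq) (hrqb : ∃ A b, ∀ x, rq x ≤ A * cl x ^ b)
    (htq : PTF tq) (htqb : ∃ A b, ∀ x, tq x ≤ A * (x + 1) ^ b) :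
    ∃ kP kR kT L : EI → ℕ,
      PTU kP ∧ PTU kR ∧ PTU kT ∧ PTU L ∧
      PTU (fun a => Q ^ kP a) ∧ PTU (fun a => Q ^ kR a) ∧ PTU (fun a => Q ^ kT a) ∧
      (∀ a, szE n0 a ≤ Q ^ kP a ∧ rq (Q ^ kP a) < Q ^ kR a ∧ tq (L a) < Q ^ kT a ∧
        L a = LB (3 ^ 5) c0 (Q ^ kP a * Q ^ kR a) ∧
        Q ^ kP a * Q ^ kR a < (3 ^ 5) ^ L a ∧
        3 ^ (3 * (L a + 1)) ≤ Q ^ kP a ∧
        n0 ≤ kP a ∧ n0 ≤ kR a ∧ n0 ≤ kT a ∧
        n0 ≤ Q ^ kP a * Q ^ kR a * Q ^ kT a ∧ 0 < Q ^ kP a * Q ^ kR a * Q ^ kT a) ∧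
      ∃ A b : ℕ, ∀ I : EOL, I.WF →
        Q ^ kP (raw I) * Q ^ kR (raw I) * Q ^ kT (raw I) ≤
          A * I.encode.length * (Nat.clog 2 (I.encode.length + 2)) ^ b := by
  obtain ⟨kP, kR, kT, L, h1, h2, h3, h4, h5, h6, h7, h8, h9⟩ :=
    exists_levels_gen hQ c0 n0 rq tq hrq hrqb htq htqb (ptu_szE n0) (one_le_szE n0)
  refine ⟨kP, kR, kT, L, h1, h2, h3, h4, h5, h6, h7, fun a => ?_, ?_⟩
  · obtain ⟨a1, a2, a3, a4, a5, a6, a7, a8, a9⟩ := h8 a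
    have hQ0 : 0 < Q := by omega
    have hR : 1 ≤ Q ^ kR a := Nat.one_le_pow _ _ hQ0
    have hT : 1 ≤ Q ^ kT a := Nat.one_le_pow _ _ hQ0
    have hP : 1 ≤ Q ^ kP a := Nat.one_le_pow _ _ hQ0
    have hn : n0 ≤ Q ^ kP a := (n0_le_szE n0 a).trans a1
    refine ⟨a1, a2, a3, a4, a5, a6, a7, a8, a9, ?_, Nat.mul_pos (Nat.mul_pos hP hR) hT⟩
    calc n0 ≤ Q ^ kP a := hn
      _ ≤ Q ^ kP a * Q ^ kR a := Nat.le_mul_of_pos_right _ hR
      _ ≤ Q ^ kP a * Q ^ kR a * Q ^ kT a := Nat.le_mul_of_pos_right _ hT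
  · have e1 : BL (fun I : {I : EOL // I.WF} => szE n0 (raw I.1)) (fun I => I.1.encode.length) :=
      ⟨n0 + 4, 0, fun I => by
        rw [pow_zero, mul_one]
        exact szE_le_encode n0 I.1 I.2⟩
    have e2 := (h9.comp (fun I : {I : EOL // I.WF} => raw I.1)).trans e1
    obtain ⟨A, b, h⟩ := e2.elim
    exact ⟨A, b, fun I hI => h ⟨I, hI⟩⟩

end Crest.Agent.R289.LevObj517
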