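import Crest.Agent.R289.GkPTF_726
import Crest.Agent.R289.Size2_954

/-!
# Row 289, E22: levels of the concrete group `P_k = U hσ k 1`

`K` finite, `2 ≠ 0`, `σ` an involution `≠ 1`, `q = q σ` the order of the fixed field.

* `card_A_odd`, `card_A_even`, `card_K`: `|A_i| = q²` (`i` odd), `q` (`i` even, `> 0`), `|K| = q²`;
* `card_U_prod`: `|U hσ k i| = ∏_{i ≤ n ≤ k} |A_n|`; `card_even`: `|U hσ (2m) 1| = (q³)^m`;
* `mlev`, `klev = 2 * mlev`: the least even level with `c N (clog N)^e ≤ |P_k|`; size window,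
  quasi-linear / polylog forms (`BL`, `PL`) and unary / binary computability, including the
  hypothesis `PTU (Q^(k+1))` of `GkPTF_726`.
-/

set_option autoImplicit false
set_option linter.unusedSectionVars false

namespace Crest.Agent.R289.Lev954

open Finset
open Crest.Agent.R289.SkewGrp877 (R c mk conj mono SG U A q J mem_A exists_theta card_U mem_U)
open Crest.Agent.R289.Size954 (cl lev BL PL one_le_cl one_le_cl_pow le_pow_lev pow_lev_le)

section card

variable {K : Type*} [Field K] [Finite K] {σ : K →+* K} {k : ℕ} (hσ : ∀ x, σ (σ x) = x)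

omit [Finite K] in
theorem card_A_odd {i : ℕ} (hi : i % 2 = 1) : Nat.card (A σ i) = Nat.card K := by
  have h : A σ i = Set.univ := by
    ext z; exact ⟨fun _ => Set.mem_univ _, fun _ => Or.inl hi⟩
  rw [h, Nat.card_univ]

include hσ

omit [Finite K] in
theorem card_A_even (_h2 : (2 : K) ≠ 0) (hne : ∃ x, σ x ≠ x) {i : ℕ} (hi : i % 2 = 0) :
    Nat.card (A σ i) = q σ := by
  obtain ⟨θ, hθ, hθ'⟩ := exists_theta hσ hne
  unfold q
  refine Nat.card_congr ⟨fun x => ⟨θ⁻¹ * x.1, ?_⟩, fun y => ⟨θ * y.1, ?_⟩, ?_, ?_⟩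
  · have hx : σ x.1 = -x.1 := x.2.resolve_left (by omega)
    show σ (θ⁻¹ * x.1) = θ⁻¹ * x.1
    rw [map_mul, map_inv₀, hθ', hx, inv_neg, neg_mul_neg]
  · refine Or.inr ?_
    have hy : σ y.1 = y.1 := y.2
    rw [map_mul, hθ', hy, neg_mul]
  · intro x
    apply Subtype.ext
    show θ * (θ⁻¹ * x.1) = x.1
    rw [mul_inv_cancel_left₀ hθ]
  · intro y
    apply Subtype.ext
    show θ⁻¹ * (θ * y.1) = y.1
    rw [inv_mul_cancel_left₀ hθ]

omit [Finite K] in
/-- the field has `q²` elements -/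
theorem card_K (h2 : (2 : K) ≠ 0) (hne : ∃ x, σ x ≠ x) : Nat.card K = q σ * q σ := by
  obtain ⟨θ, hθ, hθ'⟩ := exists_theta hσ hne
  unfold q
  rw [← Nat.card_prod]
  symm
  refine Nat.card_congr (Equiv.ofBijective
    (fun p : {x : K | σ x = x} × {x : K | σ x = x} => p.1.1 + θ * p.2.1) ⟨?_, ?_⟩)
  · rintro ⟨⟨a, ha⟩, ⟨b, hb⟩⟩ ⟨⟨a', ha'⟩, ⟨b', hb'⟩⟩ h
    rw [Set.mem_ofPred_eq] at ha hb ha' hb'
    simp only at h
    have h3 := congrArg σ h
    simp only [map_add, map_mul, ha, hb, ha', hb', hθ'] at h3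
    have h4 : 2 * (a - a') = 0 := by linear_combination h + h3
    have h5 : a = a' := sub_eq_zero.mp ((mul_eq_zero.mp h4).resolve_left h2)
    subst h5
    have h6 : θ * b = θ * b' := add_left_cancel h
    have h7 : b = b' := mul_left_cancel₀ hθ h6
    subst h7
    rfl
  · intro x
    refine ⟨⟨⟨(x + σ x) / 2, ?_⟩, ⟨(x - σ x) / (2 * θ), ?_⟩⟩, ?_⟩
    · rw [Set.mem_ofPred_eq, map_div₀, map_add, hσ, map_ofNat, add_comm]
    · rw [Set.mem_ofPred_eq, map_div₀, map_sub, hσ, map_mul, map_ofNat, hθ']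
      field_simp
      ring
    · simp only
      field_simp
      ring

/-- the fixed field has at least two elements -/
theorem two_le_q : 2 ≤ q σ := by
  unfold q
  have : Finite {x : K | σ x = x} := inferInstance
  have h : ∃ x y : {x : K | σ x = x}, x ≠ y :=
    ⟨⟨0, map_zero σ⟩, ⟨1, map_one σ⟩, fun h => zero_ne_one (congrArg Subtype.val h)⟩
  have h1 : Nontrivial {x : K | σ x = x} := ⟨h⟩
  exact Finite.one_lt_card

theorem card_U_top : Nat.card (U hσ k (k + 1)) = 1 := by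
  have h : ∀ u : U hσ k (k + 1), u = 1 := by
    intro u
    apply Subtype.ext
    apply Units.ext
    have hJ : J (k + 1) (((u : (R σ k)ˣ) : R σ k) - 1) := ((mem_U hσ).1 u.2).2
    have h0 : ((u : (R σ k)ˣ) : R σ k) - 1 = 0 :=
      SkewGrp877.ext' fun n hn => by rw [hJ n (by omega), SkewGrp877.c_zero]
    exact sub_eq_zero.mp h0
  have : Unique (U hσ k (k + 1)) := ⟨⟨1⟩, h⟩
  exact Nat.card_unique

/-- order of the filtration groups -/
theorem card_U_prod (h2 : (2 : K) ≠ 0) (d : ℕ) : ∀ i, 1 ≤ i → i + d = k + 1 →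
    Nat.card (U hσ k i) = ∏ n ∈ Ico i (k + 1), Nat.card (A σ n) := by
  induction d with
  | zero =>
    intro i _ h
    have : i = k + 1 := by omega
    subst this
    rw [card_U_top, Ico_self, prod_empty]
  | succ d ih =>
    intro i hi h
    rw [card_U hσ h2 hi (by omega), ih (i + 1) (by omega) (by omega)]
    exact (Finset.prod_eq_prod_Ico_succ_bot (by omega : i < k + 1)
      (fun n => Nat.card (A σ n))).symm

theorem card_P_prod (h2 : (2 : K) ≠ 0) :
    Nat.card (U hσ k 1) = ∏ n ∈ Ico 1 (k + 1), Nat.card (A σ n) :=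
  card_U_prod hσ h2 k 1 le_rfl (by omega)

theorem prod_even (h2 : (2 : K) ≠ 0) (hne : ∃ x, σ x ≠ x) (m : ℕ) :
    ∏ n ∈ Ico 1 (2 * m + 1), Nat.card (A σ n) = (q σ ^ 3) ^ m := by
  induction m with
  | zero => simp
  | succ m ih =>
    rw [show 2 * (m + 1) + 1 = (2 * m + 1) + 1 + 1 by ring,
      Finset.prod_Ico_succ_top (by omega), Finset.prod_Ico_succ_top (by omega), ih,
      card_A_odd (σ := σ) (by omega : (2 * m + 1) % 2 = 1),
      card_A_even hσ h2 hne (by omega : (2 * m + 1 + 1) % 2 = 0), card_K hσ h2 hne]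
    ring

/-- **order of `P_k` at the even levels** -/
theorem card_even (h2 : (2 : K) ≠ 0) (hne : ∃ x, σ x ≠ x) (m : ℕ) :
    Nat.card (U hσ (2 * m) 1) = (q σ ^ 3) ^ m := by
  rw [card_P_prod hσ h2, prod_even hσ h2 hne]

/-- order of `P_k` at the odd levels -/
theorem card_odd (h2 : (2 : K) ≠ 0) (hne : ∃ x, σ x ≠ x) (m : ℕ) :
    Nat.card (U hσ (2 * m + 1) 1) = (q σ ^ 3) ^ m * q σ ^ 2 := by
  rw [card_P_prod hσ h2, Finset.prod_Ico_succ_top (by omega), prod_even hσ h2 hne,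
    card_A_odd (σ := σ) (by omega : (2 * m + 1) % 2 = 1), card_K hσ h2 hne, pow_two]

end card

/-! ### level functions -/

section lev

variable {K : Type*} [Field K] [Finite K] (σ : K →+* K)

/-- `|P_{2m}| = bs ^ m` -/
noncomputable def bs : ℕ := q σ ^ 3

/-- half level -/
noncomputable def mlev (c e N : ℕ) : ℕ := lev (bs σ) c e N

/-- level (even) with `c N (clog N)^e ≤ |P_k| ≤ bs c N (clog N)^e` -/
noncomputable def klev (c e N : ℕ) : ℕ := 2 * mlev σ c e N

variable {σ} (hσ : ∀ x, σ (σ x) = x)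
include hσ

theorem two_le_bs : 2 ≤ bs σ := by
  have h := two_le_q hσ
  calc 2 ≤ 2 ^ 3 := by norm_num
    _ ≤ q σ ^ 3 := Nat.pow_le_pow_left h 3

variable (h2 : (2 : K) ≠ 0) (hne : ∃ x, σ x ≠ x) (c e : ℕ)
include h2 hne

theorem card_klev (N : ℕ) : Nat.card (U hσ (klev σ c e N) 1) = bs σ ^ mlev σ c e N :=
  card_even hσ h2 hne _

theorem le_card_klev (N : ℕ) : c * N * cl N ^ e ≤ Nat.card (U hσ (klev σ c e N) 1) := by
  rw [card_klev hσ h2 hne]
  exact le_pow_lev (two_le_bs hσ) c e N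

theorem mul_le_card_klev (N : ℕ) : c * N ≤ Nat.card (U hσ (klev σ c e N) 1) :=
  (Nat.le_mul_of_pos_right _ (one_le_cl_pow N e)).trans (le_card_klev hσ h2 hne c e N)

theorem card_klev_le (hc : 1 ≤ c) {N : ℕ} (hN : 1 ≤ N) :
    Nat.card (U hσ (klev σ c e N) 1) ≤ (bs σ * c) * N * cl N ^ e := by
  rw [card_klev hσ h2 hne]
  exact pow_lev_le (two_le_bs hσ) c e hc hN

/-- level `≥ k0` as soon as `q^(3 k0) ≤ N` -/
theorem le_mlev (hc : 1 ≤ c) {m N : ℕ} (h : bs σ ^ m ≤ N) : m ≤ mlev σ c e N := by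
  have h1 : bs σ ^ m ≤ bs σ ^ mlev σ c e N := by
    have h3 := mul_le_card_klev hσ h2 hne c e N
    rw [card_klev hσ h2 hne] at h3
    calc bs σ ^ m ≤ N := h
      _ ≤ c * N := Nat.le_mul_of_pos_left _ hc
      _ ≤ _ := h3
  exact (Nat.pow_le_pow_iff_right (two_le_bs hσ)).1 h1

theorem le_klev (hc : 1 ≤ c) {m N : ℕ} (h : bs σ ^ m ≤ N) : m ≤ klev σ c e N := by
  have := le_mlev hσ h2 hne c e hc h
  unfold klev
  omega

/-- size of level `P`: quasi-linear -/
theorem BL_card_klev {α : Type} {f g : α → ℕ} (hf : BL f g) (hg : ∀ a, 1 ≤ g a) :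
    BL (fun a => Nat.card (U hσ (klev σ c e (f a)) 1)) g := by
  simp only [card_klev hσ h2 hne]
  exact Size954.BL_pow_lev (two_le_bs hσ) c e hf hg

/-- size of level `T`: polylogarithmic -/
theorem PL_card_klev {α : Type} {f g : α → ℕ} (hf : PL f g) :
    PL (fun a => Nat.card (U hσ (klev σ c e (f a)) 1)) g := by
  simp only [card_klev hσ h2 hne]
  exact Size954.PL_pow_lev (two_le_bs hσ) c e hf

end lev

/-! ### computability -/

section PT

open Crest.Agent.Lib.PT Crest.Agent.Lib.PT.Arith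
open Crest.Agent.R289.GkPTF726 (NP card_P)
open Crest.Agent.R289.GkIdx594 (qK qK_eq_card)

variable {K : Type} [Field K] [Finite K] [Inhabited K] [PTCode K] {σ : K →+* K}
variable (hσ : ∀ x, σ (σ x) = x) {α : Type} [PTCode α] {f : α → ℕ} (c e : ℕ)
include hσ

theorem ptu_mlev (hf : PTF f) : PTU (fun a => mlev σ c e (f a)) :=
  Size954.ptu_lev c e (two_le_bs hσ) hf

theorem ptu_klev (hf : PTF f) : PTU (fun a => klev σ c e (f a)) :=
  PTU.mul (PTU.const 2) (ptu_mlev hσ c e hf)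

variable (h2 : (2 : K) ≠ 0) (hne : ∃ x, σ x ≠ x)
include h2 hne

theorem NP_klev (N : ℕ) : NP σ (klev σ c e N) = bs σ ^ mlev σ c e N := by
  rw [← card_P hσ, card_klev hσ h2 hne]

/-- `|P_k|` in binary -/
theorem ptf_NP (hf : PTF f) : PTF (fun a => NP σ (klev σ c e (f a))) :=
  (Size954.ptf_pow_lev c e (two_le_bs hσ) hf).of_eq fun a => (NP_klev hσ c e h2 hne (f a)).symm

/-- `|P_k|` in unary for unary size parameter -/
theorem ptu_NP (hf : PTU f) : PTU (fun a => NP σ (klev σ c e (f a))) :=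
  (Size954.ptu_pow_lev c e (two_le_bs hσ) hf).of_eq fun a => (NP_klev hσ c e h2 hne (f a)).symm

theorem qK_pow_le (N : ℕ) :
    qK K ^ (klev σ c e N + 1) ≤ (bs σ ^ mlev σ c e N) ^ 2 * (q σ * q σ) := by
  have h1 := two_le_q hσ
  rw [qK_eq_card, card_K hσ h2 hne, pow_succ]
  refine Nat.mul_le_mul_right _ ?_
  unfold klev bs
  rw [← pow_two, ← pow_mul, ← pow_mul, ← pow_mul]
  exact Nat.pow_le_pow_right (by omega) (by omega)

/-- the hypothesis `hQ` of `GkPTF_726` -/
theorem ptu_qK (hf : PTU f) : PTU (fun a => qK K ^ (klev σ c e (f a) + 1)) := by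
  refine Size954.ptu_pow_of_pb (qK K) (PTU.add (ptu_klev hσ c e hf.toPTF) (PTU.const 1)) ?_
  exact (((Size954.PB_pow_lev c e (two_le_bs hσ) hf).pow 2).mul (PB.const (q σ * q σ))).mono
    fun a => qK_pow_le hσ c e h2 hne (f a)

end PT

end Crest.Agent.R289.Lev954
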