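import Crest.Agent.R289.SkewDim_877
import Crest.Agent.R289.Size2_954
import Crest.Agent.R289.GkIdx_594

/-!
# R289: choice of the level `k` of the group `P_k = U hσ k 1` (helper940)

`|P_k| = q ^ hx k`, `hx k = k + (k+1)/2` (`SkewDim877.card_U_one`).
`lvl q M` = a level with `M ≤ |P_k| ≤ q^2 M`; in unary for every `PTF` size `M`; `Q ^ (k + 1)`
in unary if `M` is polynomially bounded.
-/

set_option autoImplicit false
set_option linter.dupNamespace false

namespace Crest.Agent.R289.Level940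

open Crest.Agent.Lib.PT Crest.Agent.Lib.PT.Arith
open Crest.Agent.R289.Size954 Crest.Agent.R289.GkIdx594 Crest.Agent.R289.SkewGrp877

/-- exponent of the order of `P_k` -/
def hx (k : ℕ) : ℕ := k + (k + 1) / 2

/-- the least `k` with `j ≤ hx k` -/
def kOf (j : ℕ) : ℕ := 2 * (j / 3) + min 1 (j % 3)

theorem hx_mono {k k' : ℕ} (h : k ≤ k') : hx k ≤ hx k' := by unfold hx; omega

theorem le_hx_kOf (j : ℕ) : j ≤ hx (kOf j) := by unfold hx kOf; omega

theorem hx_kOf_le (j : ℕ) : hx (kOf j) ≤ j + 1 := by unfold hx kOf; omega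

theorem kOf_le_self (j : ℕ) : kOf j ≤ j := by unfold kOf; omega

theorem kOf_least {j k : ℕ} (h : j ≤ hx k) : kOf j ≤ k := by unfold hx at h; unfold kOf; omega

theorem kOf_mono {i j : ℕ} (h : i ≤ j) : kOf i ≤ kOf j := kOf_least (h.trans (le_hx_kOf j))

/-- the level for size `M` -/
def lvl (q M : ℕ) : ℕ := kOf (Nat.clog q M)

section arith

variable {q : ℕ} (hq : 2 ≤ q)

include hq

theorem le_pow_lvl (M : ℕ) : M ≤ q ^ hx (lvl q M) :=
  (Nat.le_pow_clog (by omega) M).trans (Nat.pow_le_pow_right (by omega) (le_hx_kOf _))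

theorem pow_lvl_le {M : ℕ} (hM : 1 ≤ M) : q ^ hx (lvl q M) ≤ q ^ 2 * M := by
  calc q ^ hx (lvl q M) ≤ q ^ (Nat.clog q M + 1) := Nat.pow_le_pow_right (by omega) (hx_kOf_le _)
    _ = q * q ^ Nat.clog q M := by rw [pow_succ, mul_comm]
    _ ≤ q * (q * M) := Nat.mul_le_mul_left _ (pow_clog_le hq hM)
    _ = q ^ 2 * M := by ring

theorem pow_lvl_le' (M : ℕ) : q ^ hx (lvl q M) ≤ q ^ 2 * M + 1 := by
  rcases Nat.eq_zero_or_pos M with rfl | hM
  · have : lvl q 0 = 0 := by simp [lvl, kOf]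
    rw [this]
    simp [hx]
  · exact (pow_lvl_le hq hM).trans (Nat.le_succ _)

omit hq in
/-- `lvl` is monotone -/
theorem lvl_mono {M M' : ℕ} (h : M ≤ M') : lvl q M ≤ lvl q M' :=
  kOf_mono (Nat.clog_mono_right q h)

/-- `k ≤ lvl q M` as soon as `q ^ hx k ≤ M` -/
theorem le_lvl {k M : ℕ} (h : q ^ hx k ≤ M) : k ≤ lvl q M := by
  have h1 := h.trans (le_pow_lvl hq M)
  have h2 : hx k ≤ hx (lvl q M) := (Nat.pow_le_pow_iff_right (by omega)).1 h1
  by_contra h3
  have h4 : lvl q M + 1 ≤ k := by omega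
  have h5 := hx_mono h4
  unfold hx at h2 h5
  omega

/-- `Q = q^2`: the number of all digit lists of length `k + 1` -/
theorem pow_succ_lvl_le (M : ℕ) : (q * q) ^ (lvl q M + 1) ≤ q ^ 4 * M ^ 2 + q ^ 2 := by
  rcases Nat.eq_zero_or_pos M with rfl | hM
  · have : lvl q 0 = 0 := by simp [lvl, kOf]
    rw [this, zero_add, pow_one]
    nlinarith
  · calc (q * q) ^ (lvl q M + 1) ≤ (q * q) ^ (Nat.clog q M + 1) :=
          Nat.pow_le_pow_right (Nat.mul_pos (by omega) (by omega))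
            (Nat.succ_le_succ (kOf_le_self _))
      _ = q ^ 2 * (q ^ Nat.clog q M) ^ 2 := by
          rw [← pow_two, ← pow_mul, ← pow_mul, ← pow_add]; congr 1; ring
      _ ≤ q ^ 2 * (q * M) ^ 2 :=
          Nat.mul_le_mul_left _ (Nat.pow_le_pow_left (pow_clog_le hq hM) 2)
      _ = q ^ 4 * M ^ 2 := by ring
      _ ≤ q ^ 4 * M ^ 2 + q ^ 2 := Nat.le_add_right _ _

theorem lvl_le (M : ℕ) : lvl q M ≤ Nat.clog 2 M :=
  (kOf_le_self _).trans (Nat.clog_anti_left (b := q) (c := 2) (by norm_num) hq)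

theorem lvl_le_cl (M : ℕ) : lvl q M ≤ cl M :=
  (lvl_le hq M).trans (Nat.clog_mono_right 2 (Nat.le_add_right _ 2))

end arith

section growth

variable {α : Type} {M g : α → ℕ} {q : ℕ}

theorem BL_pow_lvl (hq : 2 ≤ q) (hM : BL M g) (hg : ∀ a, 1 ≤ g a) :
    BL (fun a => q ^ hx (lvl q (M a))) g :=
  ((hM.mul_const (q ^ 2)).add (BL.const 1 hg)).mono_left fun a => pow_lvl_le' hq (M a)

theorem PL_pow_lvl (hq : 2 ≤ q) (hM : PL M g) : PL (fun a => q ^ hx (lvl q (M a))) g :=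
  (((PL.const (q ^ 2) g).mul hM).add (PL.const 1 g)).mono_left fun a => pow_lvl_le' hq (M a)

theorem PL_lvl (hq : 2 ≤ q) (hM : BL M g) : PL (fun a => lvl q (M a)) g :=
  ((PL.clog M).trans hM).mono_left fun a => lvl_le_cl hq (M a)

end growth

section pt

variable {α : Type} [PTCode α] {M : α → ℕ} {q : ℕ}

theorem ptf_kOf {j : α → ℕ} (hj : PTF j) : PTF (fun a => kOf (j a)) := by
  unfold kOf
  exact PTF.natAdd (PTF.natMul (PTF.const 2) (PTF.natDiv hj (PTF.const 3)))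
    (PTF.natMin (PTF.const 1) (PTF.natMod hj (PTF.const 3)))

theorem ptf_lvl (q : ℕ) (hM : PTF M) : PTF (fun a => lvl q (M a)) :=
  ptf_kOf (ptf_clog (PTF.const q) hM)

/-- the level in unary -/
theorem ptu_lvl (hq : 2 ≤ q) (hM : PTF M) : PTU (fun a => lvl q (M a)) :=
  (ptf_lvl q hM).toPTU ((PB_cl hM).mono fun a => lvl_le_cl hq (M a))

/-- `Q ^ (k + 1)` in unary for `Q = q * q` -/
theorem ptu_pow_lvl (hq : 2 ≤ q) (hM : PTF M) (hB : PB M) {Q : ℕ} (hQ : Q = q * q) :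
    PTU (fun a => Q ^ (lvl q (M a) + 1)) := by
  subst hQ
  refine ptu_pow_of_pb (q * q) (PTU.succ (ptu_lvl hq hM)) ?_
  exact (((PB.const (q ^ 4)).mul (hB.pow 2)).add (PB.const (q ^ 2))).mono fun a =>
    pow_succ_lvl_le hq (M a)

/-- the order of `P_k` in unary -/
theorem ptu_card_lvl (hq : 2 ≤ q) (hM : PTF M) (hB : PB M) :
    PTU (fun a => q ^ hx (lvl q (M a))) := by
  have hk := ptu_lvl hq hM
  have h1 : PTF (fun a => q ^ hx (lvl q (M a))) := by
    refine PTF.natPow (PTF.const q) ?_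
    have h2 : PTF (fun a => hx (lvl q (M a))) := by
      unfold hx
      exact PTF.natAdd hk.toPTF (PTF.natDiv (PTF.natAdd hk.toPTF (PTF.const 1)) (PTF.const 2))
    refine h2.toPTU ?_
    refine ((hk.pb.mul (PB.const 2)).add (PB.const 1)).mono fun a => ?_
    unfold hx
    omega
  refine h1.toPTU ?_
  exact (((PB.const (q ^ 2)).mul hB).add (PB.const 1)).mono fun a => pow_lvl_le' hq (M a)

end pt

/-! ### the group -/

section group

variable {K : Type} [Field K] [Finite K] {σ : K →+* K}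

theorem two_le_q : 2 ≤ q σ := by
  unfold q
  have h0 : (0 : K) ∈ {x : K | σ x = x} := map_zero σ
  have h1 : (1 : K) ∈ {x : K | σ x = x} := map_one σ
  have h : Nontrivial {x : K | σ x = x} := ⟨⟨0, h0⟩, ⟨1, h1⟩, fun h => by
    have := congrArg Subtype.val h
    exact zero_ne_one this⟩
  exact Finite.one_lt_card

variable (hσ : ∀ x, σ (σ x) = x) (h2 : (2 : K) ≠ 0) (hne : ∃ x, σ x ≠ x)

include h2 hne in
theorem card_P (k : ℕ) : Nat.card (U hσ k 1) = q σ ^ hx k := card_U_one hσ h2 hne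

include h2 hne in
/-- size window of the level -/
theorem window (M : ℕ) : M ≤ Nat.card (U hσ (lvl (q σ) M) 1) ∧
    (1 ≤ M → Nat.card (U hσ (lvl (q σ) M) 1) ≤ q σ ^ 2 * M) := by
  rw [card_P hσ h2 hne]
  exact ⟨le_pow_lvl two_le_q M, fun h => pow_lvl_le two_le_q h⟩

include hσ h2 hne in
theorem qK_eq : qK K = q σ * q σ := by
  have : Inhabited K := ⟨0⟩
  rw [qK_eq_card, card_K hσ h2 hne]

variable {α : Type} [PTCode α] {M : α → ℕ}

include hσ h2 hne in
/-- `qK K ^ (k + 1)` in unary: the hypothesis of the group tables -/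
theorem ptu_qK_pow (hM : PTF M) (hB : PB M) :
    PTU (fun a => qK K ^ (lvl (q σ) (M a) + 1)) :=
  ptu_pow_lvl two_le_q hM hB (qK_eq hσ h2 hne)

include hσ h2 hne in
/-- `qK K ^ k` in unary -/
theorem ptu_qK_pow' (hM : PTF M) (hB : PB M) :
    PTU (fun a => qK K ^ (lvl (q σ) (M a))) := by
  refine ptu_pow_of_pb (qK K) (ptu_lvl two_le_q hM) ?_
  have : Inhabited K := ⟨0⟩
  refine (ptu_qK_pow hσ h2 hne hM hB).pb.mono fun a => ?_
  exact Nat.pow_le_pow_right qK_pos (Nat.le_succ _)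

include h2 hne in
/-- the order of `P_k` in unary -/
theorem ptu_card_P (hM : PTF M) (hB : PB M) :
    PTU (fun a => Nat.card (U hσ (lvl (q σ) (M a)) 1)) := by
  refine (ptu_card_lvl (q := q σ) two_le_q hM hB).of_eq fun a => ?_
  rw [card_P hσ h2 hne]

omit [PTCode α] in
include h2 hne in
theorem BL_card_P {g : α → ℕ} (hM : BL M g) (hg : ∀ a, 1 ≤ g a) :
    BL (fun a => Nat.card (U hσ (lvl (q σ) (M a)) 1)) g :=
  (BL_pow_lvl (q := q σ) two_le_q hM hg).mono_left fun a => by rw [card_P hσ h2 hne]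

omit [PTCode α] in
include h2 hne in
theorem PL_card_P {g : α → ℕ} (hM : PL M g) :
    PL (fun a => Nat.card (U hσ (lvl (q σ) (M a)) 1)) g :=
  (PL_pow_lvl (q := q σ) two_le_q hM).mono_left fun a => by rw [card_P hσ h2 hne]

end group

end Crest.Agent.R289.Level940
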