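import Crest.Agent.R289.Window_954

/-!
# Row 289, E24: the three levels of the unit set `P kP × P kR × P kT`

`|P k| = Q^k`.  From the number of addresses `need` (quasi-linear), the number of colours `col`
(polylog in `|P kP|`), the growth base `B` of the cascade and constants, one structure `Lev3` with
all inequalities and computability facts of `Fam289`.
-/

set_option autoImplicit false
set_option linter.unusedSectionVars false

namespace Crest.Agent.R289.Levels954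

open Crest.Agent.Lib.PT Crest.Agent.Lib.PT.Arith
open Crest.Agent.R289.Size954 Crest.Agent.R289.Window954

/-! ### polylogarithms are small -/

theorem exists_pow_le (C b : ℕ) : ∃ m0, ∀ m, m0 ≤ m → C * m ^ b ≤ 2 ^ m := by
  have h := tendsto_pow_const_div_const_pow_of_one_lt b (by norm_num : (1 : ℝ) < 2)
  have h1 : ∀ᶠ m : ℕ in Filter.atTop, (m : ℝ) ^ b / 2 ^ m < 1 / ((C : ℝ) + 1) :=
    (tendsto_order.1 h).2 _ (by positivity)
  obtain ⟨m0, hm0⟩ := Filter.eventually_atTop.1 h1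
  refine ⟨m0, fun m hm => ?_⟩
  have h2 := hm0 m hm
  rw [div_lt_div_iff₀ (by positivity) (by positivity), one_mul] at h2
  have h3 : (C : ℝ) * (m : ℝ) ^ b ≤ 2 ^ m := by
    have h4 : 0 ≤ (m : ℝ) ^ b := by positivity
    nlinarith
  exact_mod_cast h3

theorem two_pow_pred_cl_le (x : ℕ) : 2 ^ (cl x - 1) ≤ x + 1 := by
  have h : 1 < x + 2 := by omega
  have h1 := Nat.pow_pred_clog_lt_self (b := 2) (by norm_num) h
  rw [Nat.pred_eq_sub_one] at h1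
  unfold cl
  omega

/-- every polylogarithm is eventually below the identity -/
theorem exists_ge (C b : ℕ) : ∃ x0, ∀ x, x0 ≤ x → C * cl x ^ b ≤ x := by
  obtain ⟨m0, hm0⟩ := exists_pow_le (4 * C) b
  refine ⟨2 ^ m0, fun x hx => ?_⟩
  have h1 : m0 ≤ cl x := by
    have h2 : 2 ^ m0 < 2 ^ cl x := by
      have := lt_two_pow_cl x
      omega
    exact ((Nat.pow_lt_pow_iff_right (by norm_num)).1 h2).le
  have h3 := hm0 (cl x) h1
  have h4 := two_pow_pred_cl_le x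
  have h5 : 2 ^ cl x = 2 * 2 ^ (cl x - 1) := by
    rw [← pow_succ', Nat.sub_add_cancel (one_le_cl x)]
  have h6 : 1 ≤ x := (Nat.one_le_two_pow).trans hx
  have h7 : 4 * C * cl x ^ b = 4 * (C * cl x ^ b) := by ring
  omega

/-! ### level for a size request -/

section lv

variable {Q : ℕ} (hQ : 2 ≤ Q)

/-- level `≥ k0` with `M ≤ Q^k` -/
def lv (Q k0 M : ℕ) : ℕ := k0 + Nat.clog Q M

include hQ

theorem le_pow_lv (k0 M : ℕ) : M ≤ Q ^ lv Q k0 M := by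
  unfold lv
  rw [pow_add]
  exact (Nat.le_pow_clog (by omega) M).trans (Nat.le_mul_of_pos_left _ (Nat.pow_pos (by omega)))

theorem pow_lv_le (k0 M : ℕ) : Q ^ lv Q k0 M ≤ Q ^ k0 * (Q * (M + 1)) := by
  unfold lv
  rw [pow_add]
  refine Nat.mul_le_mul_left _ ?_
  rcases Nat.eq_zero_or_pos M with rfl | hM
  · simp; omega
  · exact (pow_clog_le hQ hM).trans (Nat.mul_le_mul_left _ (Nat.le_succ M))

theorem pow_k0_le (k0 M : ℕ) : Q ^ k0 ≤ Q ^ lv Q k0 M :=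
  Nat.pow_le_pow_right (by omega) (Nat.le_add_right _ _)

theorem lv_le_cl (k0 M : ℕ) : lv Q k0 M ≤ k0 + cl M := by
  have : Nat.clog Q M ≤ cl M :=
    (Nat.clog_anti_left (b := Q) (c := 2) (by norm_num) hQ).trans
      (Nat.clog_mono_right 2 (Nat.le_add_right _ 2))
  unfold lv
  omega

theorem ptu_lv {α : Type} [PTCode α] (k0 : ℕ) {M : α → ℕ} (hM : PTF M) :
    PTU (fun a => lv Q k0 (M a)) := by
  have h : PTF (fun a => lv Q k0 (M a)) :=
    PTF.natAdd (PTF.const k0) (ptf_clog (PTF.const Q) hM)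
  exact h.toPTU (((PB.const k0).add (PB_cl hM)).mono fun a => lv_le_cl hQ k0 (M a))

theorem PB_pow_lv {α : Type} [PTCode α] (k0 : ℕ) {M : α → ℕ} (hM : PB M) :
    PB (fun a => Q ^ lv Q k0 (M a)) :=
  ((PB.const (Q ^ k0)).mul ((PB.const Q).mul (hM.add (PB.const 1)))).mono
    fun a => pow_lv_le hQ k0 (M a)

theorem ptu_pow_lv {α : Type} [PTCode α] (k0 : ℕ) {M : α → ℕ} (hM : PTF M) (hB : PB M) :
    PTU (fun a => Q ^ lv Q k0 (M a)) :=
  ptu_pow_of_pb Q (ptu_lv hQ k0 hM) (PB_pow_lv hQ k0 hB)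

theorem BL_pow_lv {α : Type} {g M : α → ℕ} (k0 : ℕ) (hM : BL M g) (hg : ∀ a, 1 ≤ g a) :
    BL (fun a => Q ^ lv Q k0 (M a)) g :=
  (((hM.add (BL.const 1 hg)).mul_const Q).mul_const (Q ^ k0)).mono_left
    fun a => pow_lv_le hQ k0 (M a)

theorem PL_pow_lv {α : Type} {g M : α → ℕ} (k0 : ℕ) (hM : PL M g) :
    PL (fun a => Q ^ lv Q k0 (M a)) g :=
  ((PL.const (Q ^ k0) g).mul ((PL.const Q g).mul (hM.add (PL.const 1 g)))).mono_left
    fun a => pow_lv_le hQ k0 (M a)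

end lv

/-! ### the structure -/

/-- the three levels and the number of layers: `Q` = growth of the groups, `B` = growth of the
cascade, `C0` = constant of the clock window, `c0` = extra layers, `cT` = room in `T`, `k0` =
minimal level, `n0` = minimal number of units -/
structure Lev3 {α : Type} [PTCode α] (Q B C0 c0 cT k0 n0 : ℕ) (N need : α → ℕ)
    (col : α → ℕ → ℕ) where
  kP : α → ℕ
  kR : α → ℕ
  kT : α → ℕ
  L : α → ℕ
  ptu_kP : PTU kP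
  ptu_kR : PTU kR
  ptu_kT : PTU kT
  ptu_L : PTU L
  ptu_P : PTU fun a => Q ^ kP a
  ptu_R : PTU fun a => Q ^ kR a
  ptu_T : PTU fun a => Q ^ kT a
  ptu_n : PTU fun a => Q ^ kP a * Q ^ kR a * Q ^ kT a
  need_le : ∀ a, need a ≤ Q ^ kP a
  col_le : ∀ a, col a (kP a) ≤ Q ^ kR a
  L_eq : ∀ a, L a = LB B c0 (Q ^ kP a * Q ^ kR a)
  L_gt : ∀ a, Q ^ kP a * Q ^ kR a < B ^ L a
  T_le : ∀ a, cT * (L a + 1) ≤ Q ^ kT a
  window : ∀ a, C0 * (Q ^ kR a) ^ 3 ≤ Q ^ kP a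
  k0_kP : ∀ a, k0 ≤ kP a
  k0_kR : ∀ a, k0 ≤ kR a
  k0_kT : ∀ a, k0 ≤ kT a
  n0_P : ∀ a, n0 ≤ Q ^ kP a
  n0_le : ∀ a, n0 ≤ Q ^ kP a * Q ^ kR a * Q ^ kT a
  bl_P : BL (fun a => Q ^ kP a) N
  pl_R : PL (fun a => Q ^ kR a) N
  pl_T : PL (fun a => Q ^ kT a) N
  pl_L : PL L N
  size : ∃ A b : ℕ, ∀ a,
    Q ^ kP a * Q ^ kR a * Q ^ kT a ≤ A * N a * (Nat.clog 2 (N a + 2)) ^ b

section exist

variable {α : Type} [PTCode α] {N need : α → ℕ} {col : α → ℕ → ℕ}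

theorem exists_lev3 {Q B : ℕ} (hQ : 2 ≤ Q) (hB : 1 < B) (C0 c0 cT k0 n0 : ℕ)
    (hN : ∀ a, 1 ≤ N a) (hNb : PB N) (hneed : PTF need) (hBL : BL need N)
    (hcol : PTF (fun p : α × ℕ => col p.1 p.2))
    (hcb : ∃ A b, ∀ a k, need a ≤ Q ^ k → col a k ≤ A * cl (Q ^ k) ^ b) :
    Nonempty (Lev3 Q B C0 c0 cT k0 n0 N need col) := by
  obtain ⟨A, b, hA⟩ := hcb
  obtain ⟨x0, hx0⟩ := exists_ge (C0 * (Q ^ k0 * (Q * (A + 1))) ^ 3) (b * 3)
  let k1 : ℕ := k0 + x0 + n0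
  have hk1 : ∀ m, m ≤ k1 → m ≤ Q ^ k1 := fun m hm =>
    hm.trans ((Nat.lt_pow_self (by omega)).le)
  let kP : α → ℕ := fun a => lv Q k1 (need a)
  let kR : α → ℕ := fun a => lv Q k0 (col a (kP a))
  let L : α → ℕ := fun a => LB B c0 (Q ^ kP a * Q ^ kR a)
  let kT : α → ℕ := fun a => lv Q k0 (cT * (L a + 1))
  have hneedP : ∀ a, need a ≤ Q ^ kP a := fun a => le_pow_lv hQ k1 (need a)
  have hpos : ∀ k, 1 ≤ Q ^ k := fun k => Nat.one_le_pow _ _ (by omega)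
  have hP1 : ∀ a, Q ^ k1 ≤ Q ^ kP a := fun a => pow_k0_le hQ k1 (need a)
  -- colours
  have hcolP : ∀ a, col a (kP a) ≤ A * cl (Q ^ kP a) ^ b := fun a => hA a (kP a) (hneedP a)
  have hR1 : ∀ a, Q ^ kR a ≤ (Q ^ k0 * (Q * (A + 1))) * cl (Q ^ kP a) ^ b := by
    intro a
    refine (pow_lv_le hQ k0 _).trans ?_
    have h1 := hcolP a
    have h2 : 1 ≤ cl (Q ^ kP a) ^ b := one_le_cl_pow _ _
    calc Q ^ k0 * (Q * (col a (kP a) + 1))
        ≤ Q ^ k0 * (Q * (A * cl (Q ^ kP a) ^ b + cl (Q ^ kP a) ^ b)) :=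
          Nat.mul_le_mul_left _ (Nat.mul_le_mul_left _ (Nat.add_le_add h1 h2))
      _ = _ := by ring
  have hwin : ∀ a, C0 * (Q ^ kR a) ^ 3 ≤ Q ^ kP a := by
    intro a
    have h1 := hx0 (Q ^ kP a) ((hk1 x0 (by omega)).trans (hP1 a))
    refine le_trans ?_ h1
    calc C0 * (Q ^ kR a) ^ 3
        ≤ C0 * ((Q ^ k0 * (Q * (A + 1))) * cl (Q ^ kP a) ^ b) ^ 3 :=
          Nat.mul_le_mul_left _ (Nat.pow_le_pow_left (hR1 a) 3)
      _ = _ := by rw [mul_pow, ← pow_mul]; ring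
  -- growth
  have bP : BL (fun a => Q ^ kP a) N := BL_pow_lv hQ k1 hBL hN
  have pR : PL (fun a => Q ^ kR a) N :=
    PL.trans (g := fun a => Q ^ kP a) ⟨Q ^ k0 * (Q * (A + 1)), b, fun a => hR1 a⟩ bP
  have bG : BL (fun a => Q ^ kP a * Q ^ kR a) N := bP.mul_PL pR
  have pL : PL L N := PL_LB hB c0 bG
  have pT : PL (fun a => Q ^ kT a) N :=
    PL_pow_lv hQ k0 ((PL.const cT N).mul (pL.add (PL.const 1 N)))
  -- computability
  have uP : PTU kP := ptu_lv hQ k1 hneed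
  have bpP : PB fun a => Q ^ kP a := bP.pb hNb
  have uPP : PTU fun a => Q ^ kP a := ptu_pow_of_pb Q uP bpP
  have fc : PTF (fun a => col a (kP a)) :=
    PTF.comp (g := fun p : α × ℕ => col p.1 p.2) hcol (PTF.prodMk PTF.id uP.toPTF)
  have uR : PTU kR := ptu_lv hQ k0 fc
  have uRR : PTU fun a => Q ^ kR a := ptu_pow_of_pb Q uR (pR.pb hNb)
  have uG : PTU fun a => Q ^ kP a * Q ^ kR a := PTU.mul uPP uRR
  have uL : PTU L := ptu_LB hB c0 uG.toPTF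
  have uT : PTU kT := ptu_lv hQ k0 (PTF.natMul (PTF.const cT) (PTF.natAdd uL.toPTF (PTF.const 1)))
  have uTT : PTU fun a => Q ^ kT a := ptu_pow_of_pb Q uT (pT.pb hNb)
  refine ⟨⟨kP, kR, kT, L, uP, uR, uT, uL, uPP, uRR, uTT, PTU.mul uG uTT, hneedP,
    fun a => le_pow_lv hQ k0 _, fun a => rfl, fun a => lt_pow_LB hB c0 _,
    fun a => le_pow_lv hQ k0 _, hwin, ?_, fun a => Nat.le_add_right _ _,
    fun a => Nat.le_add_right _ _, ?_, ?_, bP, pR, pT, pL, total bP pR pT⟩⟩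
  · intro a
    have : k1 ≤ kP a := Nat.le_add_right _ _
    omega
  · intro a
    exact (hk1 n0 (by omega)).trans (hP1 a)
  · intro a
    have h1 : n0 ≤ Q ^ kP a := (hk1 n0 (by omega)).trans (hP1 a)
    calc n0 ≤ Q ^ kP a * 1 * 1 := by rw [mul_one, mul_one]; exact h1
      _ ≤ Q ^ kP a * Q ^ kR a * Q ^ kT a :=
        Nat.mul_le_mul (Nat.mul_le_mul_left _ (hpos _)) (hpos _)

end exist

namespace Lev3

variable {α : Type} [PTCode α] {Q B C0 c0 cT k0 n0 : ℕ} {N need : α → ℕ} {col : α → ℕ → ℕ}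
  (Z : Lev3 Q B C0 c0 cT k0 n0 N need col)

/-- the clock: `Q = p^m`, `B = p^r` -/
theorem clock {p m r : ℕ} (hp : 2 ≤ p) (hr : 4 ≤ r) (hQ : Q = p ^ m) (hB : B = p ^ r)
    (hC : p ^ (3 * r) * ((p ^ r) ^ (c0 + 1)) ^ 3 ≤ C0) (a : α) :
    3 * (Z.L a + 1) ≤ m * Z.kP a := by
  have hpos : ∀ k, 1 ≤ Q ^ k := fun k =>
    Nat.one_le_pow _ _ (by rw [hQ]; exact Nat.pow_pos (by omega))
  have h1 : p ^ (3 * r) * ((p ^ r) ^ (c0 + 1)) ^ 3 * (Q ^ Z.kR a) ^ 3 ≤ Q ^ Z.kP a :=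
    (Nat.mul_le_mul_right _ hC).trans (Z.window a)
  have h2 := clock_LB c0 hr (hpos _) (hpos _) h1
  have h4 : LB (p ^ r) c0 (Q ^ Z.kP a * Q ^ Z.kR a) = Z.L a := by
    rw [Z.L_eq a]
    exact congrArg (fun x => LB x c0 (Q ^ Z.kP a * Q ^ Z.kR a)) hB.symm
  rw [h4] at h2
  have h3 : Q ^ Z.kP a = p ^ (m * Z.kP a) := by
    rw [pow_mul]
    exact congrArg (fun x => x ^ Z.kP a) hQ
  rw [h3] at h2
  exact (Nat.pow_le_pow_iff_right (by omega : 1 < p)).1 h2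

theorem two_le_T (h : 2 ≤ cT) (a : α) : Z.L a + 2 ≤ Q ^ Z.kT a := by
  have := Z.T_le a
  have h1 : 2 * (Z.L a + 1) ≤ cT * (Z.L a + 1) := Nat.mul_le_mul_right _ h
  omega

end Lev3

end Crest.Agent.R289.Levels954
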