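import Mathlib
import Crest.Agent.R289.DefI_306

/-!
# Row 289, joint I2: local maps of the compiled machine on the literal `DefI`

Every function and relation of `DefI_306` as ONE uniform local map (`Local782.LMap` over the frame
`I.frame mc pc`, independent of the instance), with the equation for its `run` on exact words.
`rE`, `aE`, `xE`, `zE` = the words seen unit by unit.
-/

set_option autoImplicit false

namespace Crest.Agent.R289.DefI

open Finset DefC Compile827 Local782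

/-! ### more combinators -/

section comb
variable {Gen Pub Γ Δ E : Type}

/-- a rule evaluated at the unit reached by one move -/
def mvL (g : Gen) (A : LMap Gen Pub Γ Δ) : LMap Gen Pub Γ Δ where
  ι := A.ι
  adr := fun i => g :: A.adr i
  f := A.f

@[simp] theorem run_mvL (g : Gen) (A : LMap Gen Pub Γ Δ) (F : Frame Gen Pub) (X : F.U → Γ)
    (u : F.U) : (mvL g A).run F X u = A.run F X (F.act g u) := rfl

/-- a function of the label and the public datum of the unit -/
def atL (h : Γ → Pub → Δ) : LMap Gen Pub Γ Δ where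
  ι := Unit
  adr := fun _ => []
  f := fun x pb => h (x ()) (pb ())

@[simp] theorem run_atL (h : Γ → Pub → Δ) (F : Frame Gen Pub) (X : F.U → Γ) (u : F.U) :
    (atL h : LMap Gen Pub Γ Δ).run F X u = h (X u) (F.pub u) := rfl

end comb

variable {K : Type} [Field K] {c : Cst K} {Gc Pc : Type}

namespace Cst

variable (c) (Gc Pc)

/-- labels of the registers of a content word -/
abbrev LR : Type := c.A.Reg → c.S → K
/-- labels of a bundle word -/
abbrev LA : Type := c.S → c.V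
/-- labels of a record word -/
abbrev LX : Type := c.S' → c.S → c.V
/-- labels of the mirror words -/
abbrev LZ : Type := c.C → c.S' → c.S → c.V
/-- labels of a certificate -/
@[ext] structure BZ where
  X : c.LX
  Xm : c.LX
  Z : c.LZ
  Zm : c.LZ
/-- labels of a content word -/
abbrev BX : Type := c.A.Stg × c.LR
/-- local maps over the frame -/
abbrev LM (Γ Δ : Type) := LMap (c.Gen Gc) (c.PD × Pc) Γ Δ

variable {c} {Gc Pc}

/-- expressions -/
def peL : PE K c.A.Reg c.A.Pub c.G → c.LM Gc Pc c.LR (c.S → K)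
  | .zero => atL fun _ _ _ => 0
  | .reg i => atL fun x _ => x i
  | .pub i => atL fun _ p => p.1.b i
  | .smul k e => (peL e).map fun y s => k * y s
  | .add e f => ((peL e).pair (peL f)).map fun y s => y.1 s + y.2 s
  | .mul e f => ((peL e).pair (peL f)).map fun y s => y.1 s * y.2 s
  | .tr g e => mvL (.fwd g) (peL e)
  | .ti g e => mvL (.bwd g) (peL e)

/-- all components -/
def wvL : c.LM Gc Pc c.LR c.LA :=
  (LMap.pi fun m => peL (c.A.comp m)).map fun y s a m => if a = 0 then y m s else 0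

/-- the cascade operator on a family of bundle words -/
def lamL (ρ : Type) : c.LM Gc Pc (ρ → c.LA) (ρ → c.LA) where
  ι := c.Jc
  adr := fun j => [.cas j]
  f := fun x _ i s a m => ∑ j, ∑ b, c.lam j a b * x j i s b m

/-- the operator `N1` -/
def n1L : c.LM Gc Pc c.LX c.LX where
  ι := Option c.J1
  adr := fun j => match j with
    | none => []
    | some j => [.t1 j]
  f := fun x pb s' s a m => ∑ j, (pb none).1.E1 j s' * x (some j) s' s a m

/-- the operator `N2` -/
def n2L : c.LM Gc Pc c.LX c.LX where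
  ι := Option c.J2
  adr := fun j => match j with
    | none => []
    | some j => [.t2 j]
  f := fun x pb s' s a m => ∑ j, (pb none).1.E2 j s' * x (some j) s' s a m

/-- residual of a record: label = clock word, bundle word, record -/
def qL : c.LM Gc Pc ((c.S' → K) × c.LA × c.LX) c.LX :=
  (((LMap.idm _ _ _).pair (((lamL c.S').comp n1L).comap fun x => x.2.2)).pair
    ((n2L.comap fun x => x.2.2).pair (atL fun _ p => p.1.one))).map
    fun y s' s a m => y.2.2 s' * y.1.1.2.2 s' s a m - y.1.2 s' s a m - y.2.1 s' s a m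
      - y.2.2 s' * y.1.1.1 s' * y.1.1.2.1 s a m

open Classical in
/-- the mirror relation at a unit -/
def mirL : c.LM Gc Pc (c.LX × c.LZ) Prop where
  ι := c.JT
  adr := fun j => [.tm j]
  f := fun x _ => ∀ q : c.C, (∑ s, ∑ j, c.bet q s j • Mirror545.ext c.s0' (x j).1 (x j).2 s) = 0

/-- update of the content labels by a family of expressions -/
def updL (t : c.A.Stg) (e : c.A.Reg → PE K c.A.Reg c.A.Pub c.G) : c.LM Gc Pc c.BX c.BX :=
  ((LMap.pi fun i => peL (e i)).comap Prod.snd).map fun y => (t, y)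

/-- `push` -/
def pushL : c.LM Gc Pc (c.TD × c.LR × c.BZ) c.BZ :=
  ((((atL fun x _ => x).pair (wvL.comap fun x => x.2.1)).pair
    (((lamL Unit).comp (wvL.map fun y _ => y)).comap fun x => x.2.1)).pair
    (((lamL c.S').comap fun x => x.2.2.X).pair ((lamL (c.C × c.S')).comap
      fun x p => x.2.2.Z p.1 p.2))).map fun y =>
    let td := y.1.1.1.1
    let z := y.1.1.1.2.2
    let w := y.1.1.2
    let lw := y.1.2 ()
    { X := fun s' s a m => y.2.1 s' s a m + z.Xm s' s a m + td.Dp s' * w s a m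
      Xm := z.X
      Z := fun q s' s a m => y.2.2 (q, s') s a m + z.Zm q s' s a m + td.A q s' * lw s a m
        + td.B q s' * w s a m
      Zm := z.Z }

/-- `pop`, `td` = clock data before the pop -/
def popL : c.LM Gc Pc (c.TD × c.LR × c.BZ) c.BZ :=
  ((((atL fun x _ => x).pair (wvL.comap fun x => x.2.1)).pair
    (((lamL Unit).comp (wvL.map fun y _ => y)).comap fun x => x.2.1)).pair
    (((lamL c.S').comap fun x => x.2.2.Xm).pair ((lamL (c.C × c.S')).comap
      fun x p => x.2.2.Zm p.1 p.2))).map fun y =>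
    let td := y.1.1.1.1
    let z := y.1.1.1.2.2
    let w := y.1.1.2
    let lw := y.1.2 ()
    { X := z.Xm
      Xm := fun s' s a m => z.X s' s a m - y.2.1 s' s a m - td.D s' * w s a m
      Z := z.Zm
      Zm := fun q s' s a m => z.Z q s' s a m - y.2.2 (q, s') s a m - td.Am q s' * lw s a m
        - td.Bm q s' * w s a m }

/-- `ent` -/
def entL : c.LM Gc Pc c.LR c.BZ :=
  ((wvL.pair ((lamL Unit).comp (wvL.map fun y _ => y))).pair (atL fun _ p => p.1)).map fun y =>
    { X := fun s' s a m => y.2.D0 s' * y.1.1 s a m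
      Xm := 0
      Z := fun q s' s a m => y.2.A0 q s' * y.1.2 () s a m + y.2.B0 q s' * y.1.1 s a m
      Zm := 0 }

/-- residual of a record with the clock word `d` -/
def qAt (d : c.TD → c.S' → K) (X : c.BZ → c.LX) : c.LM Gc Pc (c.TD × c.LR × c.BZ) c.LX :=
  qL.comp (((atL fun x _ => x).pair (wvL.comap fun x => x.2.1)).map
    fun y => (d y.1.1, y.2, X y.1.2.2))

/-- mirror relation of a residual -/
def mirAt (d : c.TD → c.S' → K) (X : c.BZ → c.LX) (Z : c.BZ → c.LZ) :
    c.LM Gc Pc (c.TD × c.LR × c.BZ) Prop :=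
  mirL.comp (((qAt d X).pair (atL fun x _ => x)).map fun y => (y.1, Z y.2.2.2))

/-- the relations of a certificate -/
def recL : c.LM Gc Pc (c.TD × c.LR × c.BZ) Prop :=
  (((mirAt TD.D BZ.X BZ.Z).pair (mirAt TD.Dm BZ.Xm BZ.Zm)).pair
    (((qAt TD.D BZ.X).pair (qAt TD.Dm BZ.Xm)).pair (atL fun x _ => x.2.2))).map
    fun y => y.1.1 ∧ y.1.2 ∧ y.2.1.1 c.s0' = 0 ∧ y.2.1.2 c.s0' = 0 ∧
      (∀ q, y.2.2.Z q c.s0' = 0) ∧ ∀ q, y.2.2.Zm q c.s0' = 0

/-- zero claims: stages `st`, components `P`, identities `I` -/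
def claimL (st : c.A.Stg → Prop) (P : c.A.Stg → c.A.Comp → Prop) (Q : c.A.Stg → c.A.Idl → Prop) :
    c.LM Gc Pc (c.BX × c.BZ) Prop :=
  (((LMap.pi fun i => peL (c.A.idl i)).comap fun x => x.1.2).pair (atL fun x _ => x)).map
    fun y => st y.2.1.1 ∧ (∀ m, P y.2.1.1 m → ∀ s' a, y.2.2.X s' c.s0 a m = 0) ∧
      ∀ i, Q y.2.1.1 i → ∀ s, y.1 i s = 0

/-- static claims -/
def stL : c.LM Gc Pc (c.BX × c.BZ) Prop := claimL (fun _ => True) c.A.leg c.A.legI

/-- forward claims of a label -/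
def enL (ρ : c.A.Tr) : c.LM Gc Pc (c.BX × c.BZ) Prop :=
  claimL (fun s => s = c.A.src ρ) (fun _ => c.A.en ρ) (fun _ => c.A.enI ρ)

/-- backward claims of a label -/
def bkL (ρ : c.A.Tr) : c.LM Gc Pc (c.BX × c.BZ) Prop :=
  claimL (fun s => s = c.A.tgt ρ) (fun _ => c.A.bk ρ) (fun _ => c.A.bkI ρ)

end Cst

namespace Ins

variable (I : Ins c) (mc : Gc → I.U → I.U) (pc : I.U → Pc)

/-- registers seen at a unit -/
def rE (x : c.A.Reg → I.Om → K) (u : I.U) : c.LR := fun i s => x i (u.1, s)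
/-- content word seen at a unit -/
def xwE (x : I.XW) (u : I.U) : c.BX := (x.1, I.rE x.2 u)
/-- bundle word seen at a unit -/
def aE (y : I.AW) (u : I.U) : c.LA := fun s => y (u.1, s)
/-- record word seen at a unit -/
def xE (X : I.n → I.AW) (u : I.U) : c.LX := fun s' s => X (u.2, s') (u.1, s)
/-- mirror words seen at a unit -/
def zE (Z : c.C → I.n → I.AW) (u : I.U) : c.LZ := fun q s' s => Z q (u.2, s') (u.1, s)
/-- certificate seen at a unit -/
def zwE (z : I.ZW) (u : I.U) : c.BZ := ⟨I.xE z.X u, I.xE z.Xm u, I.zE z.Z u, I.zE z.Zm u⟩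
/-- public T-word seen at a unit -/
def tE (E : I.n → K) (u : I.U) : c.S' → K := fun s' => E (u.2, s')

theorem run_peL (e : PE K c.A.Reg c.A.Pub c.G) (x : c.A.Reg → I.Om → K) (u : I.U) :
    (Cst.peL e : c.LM Gc Pc _ _).run (I.frame mc pc) (I.rE x) u =
      fun s => I.evalW e x (u.1, s) := by
  induction e generalizing u with
  | zero => rfl
  | reg i => rfl
  | pub i => rfl
  | smul k e ih => exact funext fun s => congrArg (k * ·) (congrFun (ih u) s)
  | add e f ihe ihf =>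
    exact funext fun s => congrArg₂ (· + ·) (congrFun (ihe u) s) (congrFun (ihf u) s)
  | mul e f ihe ihf =>
    exact funext fun s => congrArg₂ (· * ·) (congrFun (ihe u) s) (congrFun (ihf u) s)
  | tr g e ih => exact ih (I.act g u.1, u.2)
  | ti g e ih => exact ih ((I.act g).symm u.1, u.2)

theorem run_wvL (x : c.A.Reg → I.Om → K) :
    (Cst.wvL : c.LM Gc Pc _ _).run (I.frame mc pc) (I.rE x) = I.aE (I.wv x) := by
  funext u s a m
  show (if a = 0 then (Cst.peL (c.A.comp m)).run (I.frame mc pc) (I.rE x) u s else 0) = _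
  rw [run_peL]
  rfl

theorem run_lamL_x (X : I.n → I.AW) :
    (Cst.lamL c.S' : c.LM Gc Pc _ _).run (I.frame mc pc) (I.xE X) =
      I.xE fun p => I.Lam (X p) := rfl

theorem run_lamL_z (Z : c.C → I.n → I.AW) :
    (Cst.lamL (c.C × c.S') : c.LM Gc Pc _ _).run (I.frame mc pc)
      (fun u p => I.zE Z u p.1 p.2) = fun u p => I.zE (fun q p => I.Lam (Z q p)) u p.1 p.2 := rfl

theorem run_lamL_a (y : I.AW) :
    (Cst.lamL Unit : c.LM Gc Pc _ _).run (I.frame mc pc) (fun u _ => I.aE y u) =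
      fun u _ => I.aE (I.Lam y) u := rfl

theorem act_mU_p (X : I.n → I.AW) (p : I.n) : Level492.act I.mU X p = I.one p • X p := by
  unfold Level492.act mU
  rw [Finset.sum_eq_single p]
  · rw [Matrix.diagonal_apply_eq]
  · intro q _ hq
    rw [Matrix.diagonal_apply_ne _ (Ne.symm hq), zero_smul]
  · intro h; exact absurd (mem_univ _) h

theorem act_mN1_p (X : I.n → I.AW) (p : I.n) :
    Level492.act I.mN1 X p = ∑ j, I.E1 j p • X (I.h1 j * p.1, p.2) := by
  unfold Level492.act mN1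
  simp only [Finset.sum_smul, ite_smul, zero_smul]
  rw [Finset.sum_comm]
  refine Finset.sum_congr rfl fun j _ => ?_
  rw [Finset.sum_eq_single (I.h1 j * p.1, p.2)]
  · simp
  · intro q _ hq
    rw [if_neg hq]
  · intro h; exact absurd (mem_univ _) h

theorem act_mN2_p (X : I.n → I.AW) (p : I.n) :
    Level492.act I.mN2 X p = ∑ j, I.E2 j p • X (I.h2 j * p.1, p.2) := by
  unfold Level492.act mN2
  simp only [Finset.sum_smul, ite_smul, zero_smul]
  rw [Finset.sum_comm]
  refine Finset.sum_congr rfl fun j _ => ?_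
  rw [Finset.sum_eq_single (I.h2 j * p.1, p.2)]
  · simp
  · intro q _ hq
    rw [if_neg hq]
  · intro h; exact absurd (mem_univ _) h

theorem mulVec_mU (E : I.n → K) (p : I.n) : Matrix.mulVec I.mU E p = I.one p * E p := by
  unfold mU
  rw [Matrix.mulVec_diagonal]

theorem run_n1L (X : I.n → I.AW) :
    (Cst.n1L : c.LM Gc Pc _ _).run (I.frame mc pc) (I.xE X) =
      I.xE (Level492.act I.mN1 X) := by
  funext u s' s a m
  show _ = Level492.act I.mN1 X (u.2, s') (u.1, s) a m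
  rw [act_mN1_p]
  simp only [Finset.sum_apply, Pi.smul_apply, smul_eq_mul]
  rfl

theorem run_n2L (X : I.n → I.AW) :
    (Cst.n2L : c.LM Gc Pc _ _).run (I.frame mc pc) (I.xE X) =
      I.xE (Level492.act I.mN2 X) := by
  funext u s' s a m
  show _ = Level492.act I.mN2 X (u.2, s') (u.1, s) a m
  rw [act_mN2_p]
  simp only [Finset.sum_apply, Pi.smul_apply, smul_eq_mul]
  rfl

theorem run_qL (E : I.n → K) (w : I.AW) (X : I.n → I.AW) :
    (Cst.qL : c.LM Gc Pc _ _).run (I.frame mc pc) (fun u => (I.tE E u, I.aE w u, I.xE X u)) =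
      I.xE (I.Q w E X) := by
  have h1 : ((Cst.lamL c.S' : c.LM Gc Pc _ _).comp Cst.n1L).run (I.frame mc pc) (I.xE X) =
      I.xE fun p => I.Lam (Level492.act I.mN1 X p) := by
    rw [LMap.run_comp, run_n1L, run_lamL_x]
  have h2 := I.run_n2L mc pc X
  funext u s' s a m
  show I.one (u.2, s') * X (u.2, s') (u.1, s) a m
      - ((Cst.lamL c.S' : c.LM Gc Pc _ _).comp Cst.n1L).run (I.frame mc pc) (I.xE X) u s' s a m
      - (Cst.n2L : c.LM Gc Pc _ _).run (I.frame mc pc) (I.xE X) u s' s a m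
      - I.one (u.2, s') * E (u.2, s') * w (u.1, s) a m = I.Q w E X (u.2, s') (u.1, s) a m
  rw [h1, h2]
  unfold Q Level492.Q Level492.Lc Level492.ten
  simp only [Pi.sub_apply, act_mU_p, mulVec_mU, Pi.smul_apply, smul_eq_mul]
  rfl

theorem mir_sum (q : I.n → I.AW) (Z : c.C → I.n → I.AW) (b : c.C) (u : I.U) (s' : c.S')
    (s : c.S) :
    (∑ s1, ∑ j, c.bet b s1 j • Mirror545.ext c.s0' (I.xE q (u.1, (I.gam j)⁻¹ * u.2))
      (I.zE Z (u.1, (I.gam j)⁻¹ * u.2)) s1) s' s =
    (∑ s1, ∑ j, c.bet b s1 j • Mirror545.ext c.s0' (fun τ s' => q (τ, s'))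
      (fun s τ s' => Z s (τ, s')) s1 ((I.gam j)⁻¹ * u.2)) s' (u.1, s) := by
  simp only [Finset.sum_apply, Pi.smul_apply]
  refine Finset.sum_congr rfl fun s1 _ => Finset.sum_congr rfl fun j _ => ?_
  congr 1
  by_cases hs : s1 = c.s0'
  · subst hs
    simp only [Mirror545.ext_s0]
    rfl
  · simp only [Mirror545.ext, dif_neg hs]
    rfl

theorem mirL_iff (q : I.n → I.AW) (Z : c.C → I.n → I.AW) :
    I.Mir q Z ↔ ∀ u : I.U, (Cst.mirL : c.LM Gc Pc _ _).run (I.frame mc pc)
      (fun u => (I.xE q u, I.zE Z u)) u := by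
  constructor
  · intro h u b
    funext s' s
    exact (I.mir_sum q Z b u s' s).trans (congrFun (congrFun (h b u.2) s') (u.1, s))
  · intro h b τ
    funext s' ω
    exact (I.mir_sum q Z b (ω.1, τ) s' ω.2).symm.trans
      (congrFun (congrFun (h (ω.1, τ) b) s') ω.2)

/-! ### updates and certificates -/

theorem run_updL (t : c.A.Stg) (e : c.A.Reg → PE K c.A.Reg c.A.Pub c.G) (x : I.XW) :
    (Cst.updL t e : c.LM Gc Pc _ _).run (I.frame mc pc) (I.xwE x) =
      I.xwE (t, fun i => I.evalW (e i) x.2) := by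
  funext u
  show (t, fun i => (Cst.peL (e i) : c.LM Gc Pc _ _).run (I.frame mc pc) (I.rE x.2) u) = _
  simp only [run_peL]
  rfl

theorem run_lwL (x : c.A.Reg → I.Om → K) :
    ((Cst.lamL Unit : c.LM Gc Pc _ _).comp (Cst.wvL.map fun y _ => y)).run (I.frame mc pc)
      (I.rE x) = fun u _ => I.aE (I.Lam (I.wv x)) u := by
  rw [LMap.run_comp]
  have : ((Cst.wvL : c.LM Gc Pc _ _).map fun y (_ : Unit) => y).run (I.frame mc pc) (I.rE x) =
      fun u _ => I.aE (I.wv x) u := by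
    funext u _
    show (Cst.wvL : c.LM Gc Pc _ _).run (I.frame mc pc) (I.rE x) u = _
    rw [run_wvL]
  rw [this]
  exact I.run_lamL_a mc pc _

/-- **push** -/
theorem run_pushL (t : ℕ) (x : I.XW) (z : I.ZW) :
    (Cst.pushL : c.LM Gc Pc _ _).run (I.frame mc pc)
      (fun u => (I.td t u.2, I.rE x.2 u, I.zwE z u)) = I.zwE (I.push t x z) := by
  funext u
  have h1 := congrFun (I.run_wvL mc pc x.2) u
  have h2 := congrFun (I.run_lwL mc pc x.2) u
  have e : (Cst.pushL : c.LM Gc Pc _ _).run (I.frame mc pc)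
      (fun u => (I.td t u.2, I.rE x.2 u, I.zwE z u)) u =
      { X := fun s' s a m => I.xE (fun p => I.Lam (z.X p)) u s' s a m + I.xE z.Xm u s' s a m
          + I.D (t + 1) (u.2, s') *
            (Cst.wvL : c.LM Gc Pc _ _).run (I.frame mc pc) (I.rE x.2) u s a m
        Xm := I.xE z.X u
        Z := fun q s' s a m => I.zE (fun q p => I.Lam (z.Z q p)) u q s' s a m
          + I.zE z.Zm u q s' s a m
          + I.A t q (u.2, s') *
            ((Cst.lamL Unit : c.LM Gc Pc _ _).comp (Cst.wvL.map fun y _ => y)).run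
              (I.frame mc pc) (I.rE x.2) u () s a m
          + I.B t q (u.2, s') *
            (Cst.wvL : c.LM Gc Pc _ _).run (I.frame mc pc) (I.rE x.2) u s a m
        Zm := I.zE z.Z u } := rfl
  rw [e, h1, h2]
  rfl

/-- **pop** -/
theorem run_popL (t : ℕ) (x : I.XW) (z : I.ZW) :
    (Cst.popL : c.LM Gc Pc _ _).run (I.frame mc pc)
      (fun u => (I.td (t + 1) u.2, I.rE x.2 u, I.zwE z u)) = I.zwE (I.pop t x z) := by
  funext u
  have h1 := congrFun (I.run_wvL mc pc x.2) u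
  have h2 := congrFun (I.run_lwL mc pc x.2) u
  have e : (Cst.popL : c.LM Gc Pc _ _).run (I.frame mc pc)
      (fun u => (I.td (t + 1) u.2, I.rE x.2 u, I.zwE z u)) u =
      { X := I.xE z.Xm u
        Xm := fun s' s a m => I.xE z.X u s' s a m - I.xE (fun p => I.Lam (z.Xm p)) u s' s a m
          - I.D (t + 1) (u.2, s') *
            (Cst.wvL : c.LM Gc Pc _ _).run (I.frame mc pc) (I.rE x.2) u s a m
        Z := I.zE z.Zm u
        Zm := fun q s' s a m => I.zE z.Z u q s' s a m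
          - I.zE (fun q p => I.Lam (z.Zm q p)) u q s' s a m
          - I.A t q (u.2, s') *
            ((Cst.lamL Unit : c.LM Gc Pc _ _).comp (Cst.wvL.map fun y _ => y)).run
              (I.frame mc pc) (I.rE x.2) u () s a m
          - I.B t q (u.2, s') *
            (Cst.wvL : c.LM Gc Pc _ _).run (I.frame mc pc) (I.rE x.2) u s a m } := rfl
  rw [e, h1, h2]
  rfl

/-- **entry** -/
theorem run_entL (x : I.XW) :
    (Cst.entL : c.LM Gc Pc _ _).run (I.frame mc pc) (I.rE x.2) = I.zwE (I.ent x) := by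
  funext u
  have h1 := congrFun (I.run_wvL mc pc x.2) u
  have h2 := congrFun (I.run_lwL mc pc x.2) u
  have e : (Cst.entL : c.LM Gc Pc _ _).run (I.frame mc pc) (I.rE x.2) u =
      { X := fun s' s a m => I.D 0 (u.2, s') *
            (Cst.wvL : c.LM Gc Pc _ _).run (I.frame mc pc) (I.rE x.2) u s a m
        Xm := 0
        Z := fun q s' s a m => I.A0 q (u.2, s') *
            ((Cst.lamL Unit : c.LM Gc Pc _ _).comp (Cst.wvL.map fun y _ => y)).run
              (I.frame mc pc) (I.rE x.2) u () s a m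
          + I.B0 q (u.2, s') *
            (Cst.wvL : c.LM Gc Pc _ _).run (I.frame mc pc) (I.rE x.2) u s a m
        Zm := 0 } := rfl
  rw [e, h1, h2]
  rfl


/-! ### relations -/

theorem run_qAt (d : c.TD → c.S' → K) (X : c.BZ → c.LX) (f : I.U → c.TD) (E : I.n → K)
    (hE : ∀ u, d (f u) = I.tE E u) (x : c.A.Reg → I.Om → K) (z : I.ZW) (Y : I.n → I.AW)
    (hY : ∀ u, X (I.zwE z u) = I.xE Y u) :
    (Cst.qAt d X : c.LM Gc Pc _ _).run (I.frame mc pc) (fun u => (f u, I.rE x u, I.zwE z u)) =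
      I.xE (I.Q (I.wv x) E Y) := by
  unfold Cst.qAt
  rw [LMap.run_comp, ← I.run_qL mc pc]
  congr 1
  funext u
  show (d (f u), (Cst.wvL : c.LM Gc Pc _ _).run (I.frame mc pc) (I.rE x) u, X (I.zwE z u)) = _
  rw [run_wvL, hE, hY]

theorem run_mirAt (d : c.TD → c.S' → K) (X : c.BZ → c.LX) (Z : c.BZ → c.LZ) (f : I.U → c.TD)
    (E : I.n → K) (hE : ∀ u, d (f u) = I.tE E u) (x : c.A.Reg → I.Om → K) (z : I.ZW)
    (Y : I.n → I.AW) (hY : ∀ u, X (I.zwE z u) = I.xE Y u) (W : c.C → I.n → I.AW)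
    (hW : ∀ u, Z (I.zwE z u) = I.zE W u) :
    (Cst.mirAt d X Z : c.LM Gc Pc _ _).run (I.frame mc pc)
      (fun u => (f u, I.rE x u, I.zwE z u)) =
    (Cst.mirL : c.LM Gc Pc _ _).run (I.frame mc pc)
      (fun u => (I.xE (I.Q (I.wv x) E Y) u, I.zE W u)) := by
  unfold Cst.mirAt
  rw [LMap.run_comp]
  congr 1
  funext u
  show ((Cst.qAt d X : c.LM Gc Pc _ _).run (I.frame mc pc)
    (fun u => (f u, I.rE x u, I.zwE z u)) u, Z (I.zwE z u)) = _
  rw [I.run_qAt mc pc d X f E hE x z Y hY, hW]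

/-- the relations of a certificate seen at a unit -/
def RecLU (t : ℕ) (x : I.XW) (z : I.ZW) (u : I.U) : Prop :=
  (Cst.recL : c.LM PEmpty Unit _ _).run (I.frame PEmpty.elim fun _ => ())
    (fun u => (I.td t u.2, I.rE x.2 u, I.zwE z u)) u

theorem run_recL (t : ℕ) (x : I.XW) (z : I.ZW) (u : I.U) :
    (Cst.recL : c.LM Gc Pc _ _).run (I.frame mc pc)
      (fun u => (I.td t u.2, I.rE x.2 u, I.zwE z u)) u ↔
    ((Cst.mirL : c.LM Gc Pc _ _).run (I.frame mc pc)
      (fun u => (I.xE (I.Q (I.wv x.2) (I.D t) z.X) u, I.zE z.Z u)) u ∧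
    (Cst.mirL : c.LM Gc Pc _ _).run (I.frame mc pc)
      (fun u => (I.xE (I.Q (I.wv x.2) (I.Dm t) z.Xm) u, I.zE z.Zm u)) u ∧
    I.xE (I.Q (I.wv x.2) (I.D t) z.X) u c.s0' = 0 ∧
    I.xE (I.Q (I.wv x.2) (I.Dm t) z.Xm) u c.s0' = 0 ∧
    (∀ q, I.zE z.Z u q c.s0' = 0) ∧ ∀ q, I.zE z.Zm u q c.s0' = 0) := by
  have h1 := congrFun (I.run_mirAt mc pc Cst.TD.D Cst.BZ.X Cst.BZ.Z (fun u => I.td t u.2) (I.D t)
    (fun _ => rfl) x.2 z z.X (fun _ => rfl) z.Z (fun _ => rfl)) u
  have h2 := congrFun (I.run_mirAt mc pc Cst.TD.Dm Cst.BZ.Xm Cst.BZ.Zm (fun u => I.td t u.2)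
    (I.Dm t) (fun _ => rfl) x.2 z z.Xm (fun _ => rfl) z.Zm (fun _ => rfl)) u
  have h3 := congrFun (I.run_qAt mc pc Cst.TD.D Cst.BZ.X (fun u => I.td t u.2) (I.D t)
    (fun _ => rfl) x.2 z z.X (fun _ => rfl)) u
  have h4 := congrFun (I.run_qAt mc pc Cst.TD.Dm Cst.BZ.Xm (fun u => I.td t u.2) (I.Dm t)
    (fun _ => rfl) x.2 z z.Xm (fun _ => rfl)) u
  rw [← h1, ← h2, ← h3, ← h4]
  exact Iff.rfl

/-- **the certificate relations are local** -/
theorem recL_iff (t : ℕ) (x : I.XW) (z : I.ZW) :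
    I.Rec t x z ↔ ∀ u : I.U, (Cst.recL : c.LM Gc Pc _ _).run (I.frame mc pc)
      (fun u => (I.td t u.2, I.rE x.2 u, I.zwE z u)) u := by
  have key : ∀ q : I.n → I.AW, (∀ τ, q (τ, c.s0') = 0) ↔ ∀ u, I.xE q u c.s0' = 0 := by
    intro q
    constructor
    · intro h u
      funext s
      exact congrFun (h u.2) (u.1, s)
    · intro h τ
      funext ω
      exact congrFun (h (ω.1, τ)) ω.2
  have key2 : ∀ Z : c.C → I.n → I.AW, (∀ s τ, Z s (τ, c.s0') = 0) ↔
      ∀ u, ∀ q, I.zE Z u q c.s0' = 0 := by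
    intro Z
    constructor
    · intro h u q
      funext s
      exact congrFun (h q u.2) (u.1, s)
    · intro h q τ
      funext ω
      exact congrFun (h (ω.1, τ) q) ω.2
  unfold Rec
  rw [I.mirL_iff mc pc, I.mirL_iff mc pc, key, key, key2, key2]
  constructor
  · rintro ⟨h1, h2, h3, h4, h5, h6⟩ u
    exact (I.run_recL mc pc t x z u).2 ⟨h1 u, h2 u, h3 u, h4 u, h5 u, h6 u⟩
  · intro h
    have h' := fun u => (I.run_recL mc pc t x z u).1 (h u)
    exact ⟨fun u => (h' u).1, fun u => (h' u).2.1, fun u => (h' u).2.2.1,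
      fun u => (h' u).2.2.2.1, fun u => (h' u).2.2.2.2.1, fun u => (h' u).2.2.2.2.2⟩

theorem run_claimL (st : c.A.Stg → Prop) (P : c.A.Stg → c.A.Comp → Prop)
    (Q : c.A.Stg → c.A.Idl → Prop) (x : I.XW) (z : I.ZW) (u : I.U) :
    (Cst.claimL st P Q : c.LM Gc Pc _ _).run (I.frame mc pc)
      (fun u => (I.xwE x u, I.zwE z u)) u ↔
    (st x.1 ∧ (∀ m, P x.1 m → ∀ s' a, z.X (u.2, s') (u.1, c.s0) a m = 0) ∧
      ∀ i, Q x.1 i → ∀ s, I.evalW (c.A.idl i) x.2 (u.1, s) = 0) := by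
  have h1 : ∀ i s, (Cst.peL (c.A.idl i) : c.LM Gc Pc _ _).run (I.frame mc pc) (I.rE x.2) u s =
      I.evalW (c.A.idl i) x.2 (u.1, s) := fun i s => by rw [run_peL]
  have e : (Cst.claimL st P Q : c.LM Gc Pc _ _).run (I.frame mc pc)
      (fun u => (I.xwE x u, I.zwE z u)) u =
    (st x.1 ∧ (∀ m, P x.1 m → ∀ s' a, z.X (u.2, s') (u.1, c.s0) a m = 0) ∧
      ∀ i, Q x.1 i → ∀ s,
        (Cst.peL (c.A.idl i) : c.LM Gc Pc _ _).run (I.frame mc pc) (I.rE x.2) u s = 0) := rfl
  rw [e]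
  simp only [h1]

theorem claim_iff [Nonempty I.Γ] (st : Prop) (P : c.A.Comp → Prop) (Q : c.A.Idl → Prop)
    (x : I.XW) (z : I.ZW) :
    (st ∧ (∀ m, P m → I.CZ z m) ∧ ∀ i, Q i → I.IZ x i) ↔
    ∀ u : I.U, st ∧ (∀ m, P m → ∀ s' a, z.X (u.2, s') (u.1, c.s0) a m = 0) ∧
      ∀ i, Q i → ∀ s, I.evalW (c.A.idl i) x.2 (u.1, s) = 0 := by
  constructor
  · rintro ⟨h1, h2, h3⟩ u
    exact ⟨h1, fun m hm s' a => h2 m hm (u.2, s') u.1 a, fun i hi s => h3 i hi (u.1, s)⟩
  · intro h
    refine ⟨(h (Classical.arbitrary _, 1)).1, fun m hm p g a => ?_, fun i hi ω => ?_⟩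
    · exact (h (g, p.1)).2.1 m hm p.2 a
    · exact (h (ω.1, 1)).2.2 i hi ω.2

theorem stL_iff [Nonempty I.Γ] (x : I.XW) (z : I.ZW) :
    I.St x z ↔ ∀ u : I.U, (Cst.stL : c.LM Gc Pc _ _).run (I.frame mc pc)
      (fun u => (I.xwE x u, I.zwE z u)) u := by
  have h := I.claim_iff True (c.A.leg x.1) (c.A.legI x.1) x z
  rw [true_and] at h
  unfold St Cst.stL
  rw [h]
  exact forall_congr' fun u =>
    (I.run_claimL mc pc (fun _ => True) c.A.leg c.A.legI x z u).symm

theorem enL_iff [Nonempty I.Γ] (ρ : c.A.Tr) (x : I.XW) (z : I.ZW) :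
    I.En ρ x z ↔ ∀ u : I.U, (Cst.enL ρ : c.LM Gc Pc _ _).run (I.frame mc pc)
      (fun u => (I.xwE x u, I.zwE z u)) u := by
  unfold En Cst.enL
  rw [I.claim_iff]
  exact forall_congr' fun u => (I.run_claimL mc pc (fun s => s = c.A.src ρ)
    (fun _ => c.A.en ρ) (fun _ => c.A.enI ρ) x z u).symm

theorem bkL_iff [Nonempty I.Γ] (ρ : c.A.Tr) (x : I.XW) (z : I.ZW) :
    I.Bk ρ x z ↔ ∀ u : I.U, (Cst.bkL ρ : c.LM Gc Pc _ _).run (I.frame mc pc)
      (fun u => (I.xwE x u, I.zwE z u)) u := by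
  unfold Bk Cst.bkL
  rw [I.claim_iff]
  exact forall_congr' fun u => (I.run_claimL mc pc (fun s => s = c.A.tgt ρ)
    (fun _ => c.A.bk ρ) (fun _ => c.A.bkI ρ) x z u).symm

/-! ### words are determined by their labels -/

theorem rE_inj {x y : c.A.Reg → I.Om → K} (h : I.rE x = I.rE y) : x = y := by
  funext i ω
  exact congrFun (congrFun (congrFun h (ω.1, 1)) i) ω.2

theorem xwE_inj [Nonempty I.Γ] {x y : I.XW} (h : I.xwE x = I.xwE y) : x = y := by
  have h1 : I.xwE x (Classical.arbitrary _, 1) = I.xwE y (Classical.arbitrary _, 1) :=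
    congrFun h _
  have h2 : x.1 = y.1 := by
    have h3 := congrArg (fun p : c.BX => p.1) h1
    exact h3
  exact Prod.ext h2 (I.rE_inj (funext fun u => congrArg (fun p : c.BX => p.2) (congrFun h u)))

theorem xE_inj {X Y : I.n → I.AW} (h : I.xE X = I.xE Y) : X = Y := by
  funext p ω
  exact congrFun (congrFun (congrFun h (ω.1, p.1)) p.2) ω.2

theorem zE_inj {X Y : c.C → I.n → I.AW} (h : I.zE X = I.zE Y) : X = Y := by
  funext q p ω
  exact congrFun (congrFun (congrFun (congrFun h (ω.1, p.1)) q) p.2) ω.2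

theorem zwE_inj {z w : I.ZW} (h : I.zwE z = I.zwE w) : z = w := by
  have h' := fun u => congrFun h u
  refine ZW.ext (I.xE_inj (funext fun u => congrArg Cst.BZ.X (h' u)))
    (I.xE_inj (funext fun u => congrArg Cst.BZ.Xm (h' u)))
    (I.zE_inj (funext fun u => congrArg Cst.BZ.Z (h' u)))
    (I.zE_inj (funext fun u => congrArg Cst.BZ.Zm (h' u)))

end Ins

end Crest.Agent.R289.DefI
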