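import Mathlib
import Crest.Agent.R289.LocI_306
import Crest.Agent.R289.GapI_731

/-!
# Row 289, block C, line 1: the local maps of LocI_306 at a unit = the relations at a unit of GapI_731

`recL`, `stL`, `enL ρ`, `bkL ρ` (LocI_306, values of the local maps) against `RecAt`, `StAt`,
`EnAt`, `BkAt`, `XAt`, `ZAt` (GapI_731).
-/

set_option autoImplicit false
set_option linter.unusedSectionVars false

namespace Crest.Agent.R289.LocAt89

open Finset DefC Compile827 Local782 DefI Crest.Agent.R289.DefD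

variable {K : Type} [Field K] {c : Cst K} {Gc Pc : Type} (I : Ins c) (mc : Gc → I.U → I.U)
  (pc : I.U → Pc)

theorem ext_at (q : I.n → I.AW) (Z : c.C → I.n → I.AW) (s1 : c.S') (v : I.U) (s' : c.S') (s : c.S) :
    Mirror545.ext c.s0' (I.xE q v) (I.zE Z v) s1 s' s =
      Mirror545.ext c.s0' q Z s1 (v.2, s') (v.1, s) := by
  by_cases hs : s1 = c.s0'
  · subst hs
    simp only [Mirror545.ext_s0]
    rfl
  · simp only [Mirror545.ext, dif_neg hs]
    rfl

/-- mirror relation at a unit -/
theorem mirAt_iff (q : I.n → I.AW) (Z : c.C → I.n → I.AW) (u : I.U) :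
    (Cst.mirL : c.LM Gc Pc _ _).run (I.frame mc pc) (fun u => (I.xE q u, I.zE Z u)) u ↔
      I.MirAt q Z u := by
  have e : ∀ (b : c.C) (s' : c.S') (s : c.S),
      (∑ s1, ∑ j, c.bet b s1 j • Mirror545.ext c.s0' (I.xE q (u.1, (I.gam j)⁻¹ * u.2))
        (I.zE Z (u.1, (I.gam j)⁻¹ * u.2)) s1) s' s =
      (∑ s1, ∑ j, c.bet b s1 j • Mirror545.ext c.s0' q Z s1 ((I.gam j)⁻¹ * u.2, s'))
        (u.1, s) := by
    intro b s' s
    simp only [Finset.sum_apply, Pi.smul_apply]
    refine Finset.sum_congr rfl fun s1 _ => Finset.sum_congr rfl fun j _ => ?_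
    rw [ext_at]
  constructor
  · intro h b s' s
    rw [← e]
    exact congrFun (congrFun (h b) s') s
  · intro h b
    funext s' s
    exact (e b s' s).trans (h b s' s)

/-- relations of a certificate at a unit -/
theorem recAt_iff (t : ℕ) (x : I.XW) (z : I.ZW) (u : I.U) :
    (Cst.recL : c.LM Gc Pc _ _).run (I.frame mc pc)
      (fun u => (I.td t u.2, I.rE x.2 u, I.zwE z u)) u ↔ I.RecAt t x z u := by
  rw [I.run_recL mc pc, mirAt_iff, mirAt_iff]
  unfold Ins.RecAt
  refine and_congr Iff.rfl (and_congr Iff.rfl (and_congr ?_ (and_congr ?_ (and_congr ?_ ?_))))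
  · exact ⟨fun h s => congrFun h s, fun h => funext h⟩
  · exact ⟨fun h s => congrFun h s, fun h => funext h⟩
  · exact ⟨fun h a s => congrFun (h a) s, fun h a => funext (h a)⟩
  · exact ⟨fun h a s => congrFun (h a) s, fun h a => funext (h a)⟩

/-- static claims at a unit -/
theorem stAt_iff (x : I.XW) (z : I.ZW) (u : I.U) :
    (Cst.stL : c.LM Gc Pc _ _).run (I.frame mc pc) (fun u => (I.xwE x u, I.zwE z u)) u ↔
      I.StAt x z u :=
  (I.run_claimL mc pc _ _ _ x z u).trans (iff_of_eq (true_and _))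

/-- forward claims at a unit -/
theorem enAt_iff (ρ : c.A.Tr) (x : I.XW) (z : I.ZW) (u : I.U) :
    (Cst.enL ρ : c.LM Gc Pc _ _).run (I.frame mc pc) (fun u => (I.xwE x u, I.zwE z u)) u ↔
      I.EnAt ρ x z u :=
  I.run_claimL mc pc _ _ _ x z u

/-- backward claims at a unit -/
theorem bkAt_iff (ρ : c.A.Tr) (x : I.XW) (z : I.ZW) (u : I.U) :
    (Cst.bkL ρ : c.LM Gc Pc _ _).run (I.frame mc pc) (fun u => (I.xwE x u, I.zwE z u)) u ↔
      I.BkAt ρ x z u :=
  I.run_claimL mc pc _ _ _ x z u

/-- content labels at a unit -/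
theorem xAt_iff (x y : I.XW) (u : I.U) : I.xwE x u = I.xwE y u ↔ I.XAt x y u := by
  constructor
  · intro h
    have h1 := congrArg (fun p : c.BX => p.1) h
    have h2 := congrArg (fun p : c.BX => p.2) h
    exact ⟨h1, fun i s => congrFun (congrFun h2 i) s⟩
  · rintro ⟨h1, h2⟩
    exact Prod.ext h1 (funext fun i => funext fun s => h2 i s)

/-- certificate labels at a unit -/
theorem zAt_iff (z z' : I.ZW) (u : I.U) : I.zwE z u = I.zwE z' u ↔ I.ZAt z z' u := by
  constructor
  · intro h
    have h1 := congrArg Cst.BZ.X h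
    have h2 := congrArg Cst.BZ.Xm h
    have h3 := congrArg Cst.BZ.Z h
    have h4 := congrArg Cst.BZ.Zm h
    exact ⟨fun s' s => congrFun (congrFun h1 s') s, fun s' s => congrFun (congrFun h2 s') s,
      fun a s' s => congrFun (congrFun (congrFun h3 a) s') s,
      fun a s' s => congrFun (congrFun (congrFun h4 a) s') s⟩
  · rintro ⟨h1, h2, h3, h4⟩
    exact Cst.BZ.ext (funext fun s' => funext fun s => h1 s' s)
      (funext fun s' => funext fun s => h2 s' s)
      (funext fun a => funext fun s' => funext fun s => h3 a s' s)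
      (funext fun a => funext fun s' => funext fun s => h4 a s' s)

end Crest.Agent.R289.LocAt89
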