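import Crest.Agent.R289.UFam_715
import Crest.Agent.R289.LocLM_89

/-!
# Row 289, block C: from correct local rules (`LocLM89.Loc`) to `Asm12.Fam289`

Family of instances `i : Inst` with base steps `mv i : St → U i → U i` and base public data
`pub i : U i → P`; ONE set of local rules `Q : Rul (Sl St n) (Sl St n → P) AC AX AZ R` over the words of at
most `n` base steps, correct for every instance (`LocLM89.Loc`).
* `sem` : the semantic data of `ULAsm_406`, `sem_loc`;
* `exact_of_loc` : `UFam715.Exact` on the label code;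
* `OnL`, `fam289_of_loc` : tables of the base steps and decoding clauses at the blocked rest words give
  `Fam289`.
-/

set_option autoImplicit false

namespace Crest.Agent.R289.LocTop25

open Crest.PPADPCP Crest.Agent.Lib.PT Crest.Agent.R289 Crest.Agent.R289.DefD
open Crest.Agent.R289.Word508 Crest.Agent.R289.Compile827 Crest.Agent.R289.LocLM89
open Crest.Agent.R289.ULoc406 Crest.Agent.R289.ULAsm406 Crest.Agent.R289.UFam715

section sem

variable {Inst St P AC AX AZ R : Type} {U : Inst → Type} (mv : ∀ i, St → U i → U i)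
  (pub : ∀ i, U i → P) {n : ℕ} (Q : Rul (Sl St n) (Sl St n → P) AC AX AZ R)

/-- the semantic data of the local rules -/
noncomputable def sem :
    Sem Inst U (Lab AC AX AZ R) Unit R (Option R) (fun _ => Unit) (fun _ => Unit) where
  rel j i w u := rel Q j (fun s => w (nbS (mv i) n s u)) (pubS (mv i) (pub i) n u)
  vl j i w u := (SN Q).val j (fun s => w (nbS (mv i) n s u)) (pubS (mv i) (pub i) n u)
  F i y w u := (SN Q).F (fun s => w (nbS (mv i) n s u)) (pubS (mv i) (pub i) n u) y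
  vl' j i w u := (SM Q).val j (fun s => w (nbS (mv i) n s u)) (pubS (mv i) (pub i) n u)
  F' i y w u := (SM Q).F (fun s => w (nbS (mv i) n s u)) (pubS (mv i) (pub i) n u) y

/-- they are uniformly local -/
theorem sem_loc : (sem mv pub Q).Loc mv pub where
  rel j := ⟨n, fun x p => rel Q j x p, fun _ _ _ => rfl⟩
  vl j := ⟨n, fun x p => (SN Q).val j x p, fun _ _ _ => rfl⟩
  F y := ⟨n, fun x p => (SN Q).F x p y, fun _ _ _ => rfl⟩
  vl' j := ⟨n, fun x p => (SM Q).val j x p, fun _ _ _ => rfl⟩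
  F' y := ⟨n, fun x p => (SM Q).F x p y, fun _ _ _ => rfl⟩

theorem sem_W (i : Inst) (C : Set (U i → Lab AC AX AZ R)) :
    (sem mv pub Q).W i C = restrictC (nbS (mv i) n) (pubS (mv i) (pub i) n) C (rel Q) := rfl

theorem sem_N (i : Inst) (w : U i → Lab AC AX AZ R) :
    (sem mv pub Q).N i w = (SN Q).glob (nbS (mv i) n) (pubS (mv i) (pub i) n) w := rfl

theorem sem_M (i : Inst) (w : U i → Lab AC AX AZ R) :
    (sem mv pub Q).M i w = (SM Q).glob (nbS (mv i) n) (pubS (mv i) (pub i) n) w := rfl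

end sem

section exactS

variable {Inst St P AC AX AZ R : Type} {U : Inst → Type} {mv : ∀ i, St → U i → U i}
  {pub : ∀ i, U i → P} {n : ℕ} {Q : Rul (Sl St n) (Sl St n → P) AC AX AZ R}
  {i : Inst} [Fintype (U i)] [Nonempty (U i)] {X Z : Type} {m : LM X Z R} {rx : X → U i → AX}
  {rz : Z → U i → AZ} {clk : ℕ → U i → AC} {g : ℝ}

/-- forward step on legal words -/
theorem N_stp (H : Loc Q m (nbS (mv i) n) (pubS (mv i) (pub i) n) rx rz clk g) (hg : 0 < g)
    {w : U i → Lab AC AX AZ R} (hw : w ∈ (sem mv pub Q).W i (code m rx rz clk)) :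
    (sem mv pub Q).N i w = stp m rx rz clk m.stepN w :=
  (N_eq H hg w hw).symm

/-- backward step on legal words -/
theorem M_stp (H : Loc Q m (nbS (mv i) n) (pubS (mv i) (pub i) n) rx rz clk g) (hg : 0 < g)
    {w : U i → Lab AC AX AZ R} (hw : w ∈ (sem mv pub Q).W i (code m rx rz clk)) :
    (sem mv pub Q).M i w = stp m rx rz clk m.stepM w :=
  (M_eq H hg w hw).symm

/-- **the exact facts** -/
theorem exact_of_loc (H : Loc Q m (nbS (mv i) n) (pubS (mv i) (pub i) n) rx rz clk g)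
    (hg : 0 < g) :
    Exact (sem mv pub Q) i (code m rx rz clk) (w0 m rx rz clk) g g where
  gap := gap H hg
  w0_mem := w0_mem H hg
  N_mem w hw := by rw [N_stp H hg hw]; exact N_mem H hg w hw
  M_mem w hw := by rw [M_stp H hg hw]; exact M_mem H hg w hw
  MN w hw hne := by
    have h1 : (sem mv pub Q).N i w ∈ (sem mv pub Q).W i (code m rx rz clk) := by
      rw [N_stp H hg hw]; exact N_mem H hg w hw
    rw [M_stp H hg h1, N_stp H hg hw]
    rw [N_stp H hg hw] at hne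
    exact MN H hg w hw hne
  NM w hw hne := by
    have h1 : (sem mv pub Q).M i w ∈ (sem mv pub Q).W i (code m rx rz clk) := by
      rw [M_stp H hg hw]; exact M_mem H hg w hw
    rw [N_stp H hg h1, M_stp H hg hw]
    rw [M_stp H hg hw] at hne
    exact NM H hg w hw hne
  M_w0 := by
    rw [M_stp H hg (w0_mem H hg)]; exact M_w0 H hg
  N_w0 := by
    rw [N_stp H hg (w0_mem H hg)]; exact N_w0 H hg
  cohN w hw j := cohN H hg w hw j
  cohM w hw j := cohM H hg w hw j

end exactS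

/-! ### tables and decoding -/

/-- tables of the base steps describe the instance; the blocked rest words carry a solution -/
structure OnL {St AC AX AZ R P : Type} (T : BaseT St (Lab AC AX AZ R) P) (I : EOL) {U X Z : Type}
    (mv : St → U → U) (pub : U → P) (m : LM X Z R) (rx : X → U → AX) (rz : Z → U → AZ)
    (clk : ℕ → U → AC) (gN gM : Lab AC AX AZ R → Bool) (n0 a b : ℕ) : Prop where
  n_ge : n0 ≤ T.n (raw I)
  n_pos : 0 < T.n (raw I)
  n_le : T.n (raw I) ≤ a * I.encode.length * (Nat.clog 2 (I.encode.length + 2)) ^ b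
  len_eq : T.len (raw I) = I.n
  ex : ∃ eU : U ≃ Fin (T.n (raw I)),
    (∀ s u, T.mv s (raw I) (eU u : Fin (T.n (raw I))) = (eU (mv s u) : Fin (T.n (raw I)))) ∧
    (∀ u, T.pub (raw I) (eU u : Fin (T.n (raw I))) = pub u) ∧
    (∀ u, T.w0 (raw I) (eU u : Fin (T.n (raw I))) = w0 m rx rz clk u) ∧
    (∀ x, ∀ hx : m.IsL x, (∀ ρ, ¬ m.en ρ x) → ∃ v : Fin I.n → Bool, I.IsSolution v ∧
      ∀ k : Fin I.n, ∃ u : U, ((eU u : Fin (T.n (raw I))) : ℕ) = T.adN (raw I, (k : ℕ)) ∧
        gN (word rx rz clk (m.conf (.rest x hx)) u) = v k) ∧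
    (∀ x, ∀ hx : m.IsL x, (∀ ρ, ¬ m.bk ρ x) → x ≠ m.x0 →
      ∃ v : Fin I.n → Bool, I.IsSolution v ∧
      ∀ k : Fin I.n, ∃ u : U, ((eU u : Fin (T.n (raw I))) : ℕ) = T.adM (raw I, (k : ℕ)) ∧
        gM (word rx rz clk (m.conf (.rest x hx)) u) = v k)

/-- **LOCAL RULES → `Fam289`** -/
theorem fam289_of_loc {Inst St P AC AX AZ R ι0 P0 : Type} {U : Inst → Type}
    [Finite St] [Finite P] [Nonempty P] [Finite AC] [Nonempty AC] [Finite AX] [Nonempty AX]
    [Finite AZ] [Nonempty AZ] [Finite R] [Finite ι0] [∀ i, Fintype (U i)] [∀ i, Nonempty (U i)]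
    {mv : ∀ i, St → U i → U i} {pub : ∀ i, U i → P} {n : ℕ}
    {Q : Rul (Sl St n) (Sl St n → P) AC AX AZ R} {X Z : Inst → Type} {m : ∀ i, LM (X i) (Z i) R}
    {rx : ∀ i, X i → U i → AX} {rz : ∀ i, Z i → U i → AZ} {clk : ∀ i, ℕ → U i → AC} {g : ℝ}
    (H : ∀ i, Loc Q (m i) (nbS (mv i) n) (pubS (mv i) (pub i) n) (rx i) (rz i) (clk i) g)
    (hg : 0 < g)
    {nb0 : ∀ i, ι0 → U i → U i} {pub0 : ∀ i, U i → P0} (hreal : Real mv pub nb0 pub0)
    {R0 : CRules ι0 (Lab AC AX AZ R) P0} {mu mm zs r0 d0 c θ : ℝ}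
    (hcode : ∀ i, CAx R0 (nb0 i) (pub0 i) (code (m i) (rx i) (rz i) (clk i)) mu zs r0 d0 c θ)
    (hmv : ∀ i, NbMult (mv i) mm) (hmm : 1 ≤ mm) (hzs : 0 < zs) (hr0 : 0 < r0) (hd0 : 0 < d0)
    (hc : 0 ≤ c) (hθ : θ ≤ 1 / 4) (gN gM : Lab AC AX AZ R → Bool)
    (HT : ∀ n0 : ℕ, ∃ (T : BaseT St (Lab AC AX AZ R) P) (a b : ℕ), T.PT ∧ ∀ I : EOL, I.WF →
      ∃ i : Inst, OnL T I (mv i) (pub i) (m i) (rx i) (rz i) (clk i) gN gM n0 a b) :
    Asm12.Fam289 := by
  refine fam289_of_sem (D := sem mv pub Q) (C := fun i => code (m i) (rx i) (rz i) (clk i))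
    (w0 := fun i => w0 (m i) (rx i) (rz i) (clk i)) hreal (sem_loc mv pub Q) hcode hmv hmm hzs hr0
    hd0 hc hθ hg hg (fun i => exact_of_loc (H i) hg) gN gM fun n0 => ?_
  obtain ⟨T, a, b, hT, hI⟩ := HT n0
  refine ⟨T, a, b, hT, fun I hWF => ?_⟩
  obtain ⟨i, hi⟩ := hI I hWF
  obtain ⟨eU, h1, h2, h3, h4, h5⟩ := hi.ex
  refine ⟨i, hi.n_ge, hi.n_pos, hi.n_le, hi.len_eq, eU, h1, h2, h3, fun w hw hNw => ?_,
    fun w hw hMw hne => ?_⟩
  · rw [N_stp (H i) hg hw] at hNw
    obtain ⟨x, hx, rfl, hen⟩ := ends_N (H i) hg w hw hNw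
    exact h4 x hx hen
  · rw [M_stp (H i) hg hw] at hMw
    rcases ends_M (H i) hg w hw hMw with h | ⟨x, hx, rfl, hbk, hne'⟩
    · exact absurd h hne
    · exact h5 x hx hbk hne'

end Crest.Agent.R289.LocTop25
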