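import Crest.Agent.R289.LocLM_89
import Crest.Agent.R289.UFam_715

/-!
# Row 289, block C: the adapter `LocLM89.Loc` → `UFam715.fam289_of_sem` (helper286, second typing)

* `semQ` : the semantic data `ULAsm406.Sem` read off instance independent local rules
  `Q : LocLM89.Rul` over the slots `Sl St n` (words of at most `n` steps) and the public views
  `Sl St n → P`;
* `semQ_loc` : they are uniformly local (radius `n`, the formula is the rule itself);
* `W_eq`, `N_eq'`, `M_eq'` : legal words, forward and backward step of `semQ` are those of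
  `LocLM89` (`restrictC`, `stp stepN`, `stp stepM`);
* `exact_of_loc` : the exact facts `UFam715.Exact` for one member;
* `LOn` : the table clause with the two decoding facts stated on the literal rest configurations;
* **`fam289_of_loc`** : local formulas + code + tables ⇒ `Asm12.Fam289`.
-/

set_option autoImplicit false
set_option linter.dupNamespace false
set_option linter.unusedSectionVars false

namespace Crest.Agent.R289.LocTop286

open Crest.PPADPCP Crest.Agent.Lib.PT Crest.Agent.R289 Crest.Agent.R289.DefD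
open Crest.Agent.R289.Asm12 Crest.Agent.R289.Word508 Crest.Agent.R289.ULoc406
open Crest.Agent.R289.ULAsm406 Crest.Agent.R289.UFam715 Crest.Agent.R289.Compile827

section sem

variable {Inst St : Type} {U : Inst → Type} {P AC AX AZ R : Type} {n : ℕ}

/-- the semantic data of local rules over words of steps -/
noncomputable def semQ (mv : ∀ i, St → U i → U i) (pub : ∀ i, U i → P)
    (Q : LocLM89.Rul (Sl St n) (Sl St n → P) AC AX AZ R) :
    Sem Inst U (LocLM89.Lab AC AX AZ R) Unit R (Option R) (fun _ => Unit) (fun _ => Unit) where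
  rel j i w u := LocLM89.rel Q j (fun s => w (nbS (mv i) n s u)) (pubS (mv i) (pub i) n u)
  vl j i w u := (LocLM89.SN Q).val j (fun s => w (nbS (mv i) n s u)) (pubS (mv i) (pub i) n u)
  F i y w u := (LocLM89.SN Q).F (fun s => w (nbS (mv i) n s u)) (pubS (mv i) (pub i) n u) y
  vl' j i w u := (LocLM89.SM Q).val j (fun s => w (nbS (mv i) n s u)) (pubS (mv i) (pub i) n u)
  F' i y w u := (LocLM89.SM Q).F (fun s => w (nbS (mv i) n s u)) (pubS (mv i) (pub i) n u) y

variable (mv : ∀ i, St → U i → U i) (pub : ∀ i, U i → P)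
  (Q : LocLM89.Rul (Sl St n) (Sl St n → P) AC AX AZ R)

/-- the rules are uniformly local -/
theorem semQ_loc : (semQ mv pub Q).Loc mv pub where
  rel j := ⟨n, fun x p => LocLM89.rel Q j x p, fun _ _ _ => rfl⟩
  vl j := ⟨n, fun x p => (LocLM89.SN Q).val j x p, fun _ _ _ => rfl⟩
  F y := ⟨n, fun x p => (LocLM89.SN Q).F x p y, fun _ _ _ => rfl⟩
  vl' j := ⟨n, fun x p => (LocLM89.SM Q).val j x p, fun _ _ _ => rfl⟩
  F' y := ⟨n, fun x p => (LocLM89.SM Q).F x p y, fun _ _ _ => rfl⟩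

/-- legal words -/
theorem W_eq (i : Inst) (C : Set (U i → LocLM89.Lab AC AX AZ R)) :
    (semQ mv pub Q).W i C =
      restrictC (nbS (mv i) n) (pubS (mv i) (pub i) n) C (LocLM89.rel Q) := rfl

/-- forward step -/
theorem N_glob (i : Inst) (w : U i → LocLM89.Lab AC AX AZ R) :
    (semQ mv pub Q).N i w = (LocLM89.SN Q).glob (nbS (mv i) n) (pubS (mv i) (pub i) n) w := rfl

/-- backward step -/
theorem M_glob (i : Inst) (w : U i → LocLM89.Lab AC AX AZ R) :
    (semQ mv pub Q).M i w = (LocLM89.SM Q).glob (nbS (mv i) n) (pubS (mv i) (pub i) n) w := rfl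

end sem

section one

variable {Inst St : Type} {U : Inst → Type} {P AC AX AZ R X Z : Type} {n : ℕ}
  {mv : ∀ i, St → U i → U i} {pub : ∀ i, U i → P}
  {Q : LocLM89.Rul (Sl St n) (Sl St n → P) AC AX AZ R} {i : Inst} [Fintype (U i)] [Nonempty (U i)]
  {m : LM X Z R} {rx : X → U i → AX} {rz : Z → U i → AZ} {clk : ℕ → U i → AC} {g : ℝ}

/-- the legal words are the words of the states -/
theorem mem_W (H : LocLM89.Loc Q m (nbS (mv i) n) (pubS (mv i) (pub i) n) rx rz clk g)
    (hg : 0 < g) (w : U i → LocLM89.Lab AC AX AZ R) :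
    w ∈ (semQ mv pub Q).W i (LocLM89.code m rx rz clk) ↔
      ∃ a : m.CSt, w = LocLM89.word rx rz clk (m.conf a) := LocLM89.mem_W H hg w

/-- the forward step on legal words -/
theorem N_eq' (H : LocLM89.Loc Q m (nbS (mv i) n) (pubS (mv i) (pub i) n) rx rz clk g)
    (hg : 0 < g) (w : U i → LocLM89.Lab AC AX AZ R)
    (hw : w ∈ (semQ mv pub Q).W i (LocLM89.code m rx rz clk)) :
    (semQ mv pub Q).N i w = LocLM89.stp m rx rz clk m.stepN w :=
  (LocLM89.N_eq H hg w hw).symm

/-- the backward step on legal words -/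
theorem M_eq' (H : LocLM89.Loc Q m (nbS (mv i) n) (pubS (mv i) (pub i) n) rx rz clk g)
    (hg : 0 < g) (w : U i → LocLM89.Lab AC AX AZ R)
    (hw : w ∈ (semQ mv pub Q).W i (LocLM89.code m rx rz clk)) :
    (semQ mv pub Q).M i w = LocLM89.stp m rx rz clk m.stepM w :=
  (LocLM89.M_eq H hg w hw).symm

/-- **the exact facts of one member** -/
theorem exact_of_loc (H : LocLM89.Loc Q m (nbS (mv i) n) (pubS (mv i) (pub i) n) rx rz clk g)
    (hg : 0 < g) :
    Exact (semQ mv pub Q) i (LocLM89.code m rx rz clk) (LocLM89.w0 m rx rz clk) g g where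
  gap := LocLM89.gap H hg
  w0_mem := LocLM89.w0_mem H hg
  N_mem w hw := by
    rw [N_eq' H hg w hw]
    exact LocLM89.N_mem H hg w hw
  M_mem w hw := by
    rw [M_eq' H hg w hw]
    exact LocLM89.M_mem H hg w hw
  MN w hw hne := by
    have h1 : LocLM89.stp m rx rz clk m.stepN w ∈
      (semQ mv pub Q).W i (LocLM89.code m rx rz clk) := LocLM89.N_mem H hg w hw
    rw [N_eq' H hg w hw] at hne ⊢
    rw [M_eq' H hg _ h1]
    exact LocLM89.MN H hg w hw hne
  NM w hw hne := by
    have h1 : LocLM89.stp m rx rz clk m.stepM w ∈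
      (semQ mv pub Q).W i (LocLM89.code m rx rz clk) := LocLM89.M_mem H hg w hw
    rw [M_eq' H hg w hw] at hne ⊢
    rw [N_eq' H hg _ h1]
    exact LocLM89.NM H hg w hw hne
  M_w0 := by
    rw [M_eq' H hg _ (LocLM89.w0_mem H hg)]
    exact LocLM89.M_w0 H hg
  N_w0 := by
    rw [N_eq' H hg _ (LocLM89.w0_mem H hg)]
    exact LocLM89.N_w0 H hg
  cohN w hw j := LocLM89.cohN H hg w hw j
  cohM w hw j := LocLM89.cohM H hg w hw j

/-- forward dead ends of the semantic machine -/
theorem ends_N (H : LocLM89.Loc Q m (nbS (mv i) n) (pubS (mv i) (pub i) n) rx rz clk g)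
    (hg : 0 < g) (w : U i → LocLM89.Lab AC AX AZ R)
    (hw : w ∈ (semQ mv pub Q).W i (LocLM89.code m rx rz clk))
    (h : (semQ mv pub Q).N i w = w) :
    ∃ x, ∃ hx : m.IsL x, w = LocLM89.word rx rz clk (m.conf (.rest x hx)) ∧
      ∀ ρ, ¬ m.en ρ x := by
  rw [N_eq' H hg w hw] at h
  exact LocLM89.ends_N H hg w hw h

/-- backward dead ends of the semantic machine -/
theorem ends_M (H : LocLM89.Loc Q m (nbS (mv i) n) (pubS (mv i) (pub i) n) rx rz clk g)
    (hg : 0 < g) (w : U i → LocLM89.Lab AC AX AZ R)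
    (hw : w ∈ (semQ mv pub Q).W i (LocLM89.code m rx rz clk))
    (h : (semQ mv pub Q).M i w = w) (h0 : w ≠ LocLM89.w0 m rx rz clk) :
    ∃ x, ∃ hx : m.IsL x, w = LocLM89.word rx rz clk (m.conf (.rest x hx)) ∧
      (∀ ρ, ¬ m.bk ρ x) ∧ x ≠ m.x0 := by
  rw [M_eq' H hg w hw] at h
  rcases LocLM89.ends_M H hg w hw h with h1 | h1
  · exact absurd h1 h0
  · exact h1

end one

/-! ### tables and decoding on the literal rest configurations -/

/-- the tables `T` describe the member on the instance `I`; decoding facts for the words of the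
rest configurations without applicable rule -/
structure LOn {St P AC AX AZ R X Z U : Type} (T : BaseT St (LocLM89.Lab AC AX AZ R) P) (I : EOL)
    (mv : St → U → U) (pub : U → P) (m : LM X Z R) (rx : X → U → AX) (rz : Z → U → AZ)
    (clk : ℕ → U → AC) (gN gM : LocLM89.Lab AC AX AZ R → Bool) (n0 a b : ℕ) : Prop where
  n_ge : n0 ≤ T.n (raw I)
  n_pos : 0 < T.n (raw I)
  n_le : T.n (raw I) ≤ a * I.encode.length * (Nat.clog 2 (I.encode.length + 2)) ^ b
  len_eq : T.len (raw I) = I.n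
  ex : ∃ eU : U ≃ Fin (T.n (raw I)),
    (∀ s u, T.mv s (raw I) (eU u : Fin (T.n (raw I))) = (eU (mv s u) : Fin (T.n (raw I)))) ∧
    (∀ u, T.pub (raw I) (eU u : Fin (T.n (raw I))) = pub u) ∧
    (∀ u, T.w0 (raw I) (eU u : Fin (T.n (raw I))) = LocLM89.word rx rz clk m.c0 u) ∧
    (∀ x, ∀ hx : m.IsL x, (∀ ρ, ¬ m.en ρ x) → ∃ v : Fin I.n → Bool, I.IsSolution v ∧
      ∀ i : Fin I.n, ∃ u : U, ((eU u : Fin (T.n (raw I))) : ℕ) = T.adN (raw I, (i : ℕ)) ∧
        gN (LocLM89.word rx rz clk (m.conf (.rest x hx)) u) = v i) ∧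
    (∀ x, ∀ hx : m.IsL x, (∀ ρ, ¬ m.bk ρ x) → x ≠ m.x0 → ∃ v : Fin I.n → Bool,
      I.IsSolution v ∧
      ∀ i : Fin I.n, ∃ u : U, ((eU u : Fin (T.n (raw I))) : ℕ) = T.adM (raw I, (i : ℕ)) ∧
        gM (LocLM89.word rx rz clk (m.conf (.rest x hx)) u) = v i)

/-- `LOn` gives the table clause of `fam289_of_sem` -/
theorem LOn.on {Inst St : Type} {U : Inst → Type} {P AC AX AZ R X Z : Type} {n : ℕ}
    {mv : ∀ i, St → U i → U i} {pub : ∀ i, U i → P}
    {Q : LocLM89.Rul (Sl St n) (Sl St n → P) AC AX AZ R} {i : Inst} [Fintype (U i)]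
    [Nonempty (U i)] {m : LM X Z R} {rx : X → U i → AX} {rz : Z → U i → AZ}
    {clk : ℕ → U i → AC} {g : ℝ}
    (H : LocLM89.Loc Q m (nbS (mv i) n) (pubS (mv i) (pub i) n) rx rz clk g) (hg : 0 < g)
    {T : BaseT St (LocLM89.Lab AC AX AZ R) P} {I : EOL}
    {gN gM : LocLM89.Lab AC AX AZ R → Bool} {n0 a b : ℕ}
    (h : LOn T I (mv i) (pub i) m rx rz clk gN gM n0 a b) :
    T.On I (mv i) (pub i) (LocLM89.w0 m rx rz clk)
      ((semQ mv pub Q).W i (LocLM89.code m rx rz clk)) ((semQ mv pub Q).N i)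
      ((semQ mv pub Q).M i) gN gM n0 a b where
  n_ge := h.n_ge
  n_pos := h.n_pos
  n_le := h.n_le
  len_eq := h.len_eq
  ex := by
    obtain ⟨eU, h1, h2, h3, h4, h5⟩ := h.ex
    refine ⟨eU, h1, h2, h3, ?_, ?_⟩
    · intro w hw hN
      obtain ⟨x, hx, rfl, hen⟩ := ends_N H hg w hw hN
      exact h4 x hx hen
    · intro w hw hM h0
      obtain ⟨x, hx, rfl, hbk, hx0⟩ := ends_M H hg w hw hM h0
      exact h5 x hx hbk hx0

/-! ### the top -/

/-- **LOCAL FORMULAS → `Fam289`**: `Q` = instance independent rules over words of at most `n`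
steps; `m i` = exact machine of the member `i`, realised by `rx`, `rz`, `clk`; `H` = the local
formulas are correct (`LocLM89.Loc`); `hcode` = the label code is a local code over words of
steps; `HT` = polynomial-time tables of the steps, the public data, the start labels and the two
decoding facts on rest configurations. -/
theorem fam289_of_loc {Inst St : Type} {U : Inst → Type} {P ι0 P0 AC AX AZ R : Type}
    {X Z : Inst → Type} {n : ℕ} [Finite St] [Finite AC] [Nonempty AC] [Finite AX] [Nonempty AX]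
    [Finite AZ] [Nonempty AZ] [Finite R] [Finite P] [Nonempty P] [Finite ι0]
    [∀ i, Fintype (U i)] [∀ i, Nonempty (U i)]
    (mv : ∀ i, St → U i → U i) (pub : ∀ i, U i → P)
    (Q : LocLM89.Rul (Sl St n) (Sl St n → P) AC AX AZ R)
    (m : ∀ i, LM (X i) (Z i) R) (rx : ∀ i, X i → U i → AX) (rz : ∀ i, Z i → U i → AZ)
    (clk : ∀ i, ℕ → U i → AC) {g : ℝ} (hg : 0 < g)
    (H : ∀ i, LocLM89.Loc Q (m i) (nbS (mv i) n) (pubS (mv i) (pub i) n) (rx i) (rz i) (clk i) g)
    {nb0 : ∀ i, ι0 → U i → U i} {pub0 : ∀ i, U i → P0} (hreal : Real mv pub nb0 pub0)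
    {R0 : CRules ι0 (LocLM89.Lab AC AX AZ R) P0} {mu mm zs r0 d0 c θ : ℝ}
    (hcode : ∀ i, CAx R0 (nb0 i) (pub0 i) (LocLM89.code (m i) (rx i) (rz i) (clk i))
      mu zs r0 d0 c θ)
    (hmv : ∀ i, NbMult (mv i) mm) (hmm : 1 ≤ mm) (hzs : 0 < zs) (hr0 : 0 < r0) (hd0 : 0 < d0)
    (hc : 0 ≤ c) (hθ : θ ≤ 1 / 4) (gN gM : LocLM89.Lab AC AX AZ R → Bool)
    (HT : ∀ n0 : ℕ, ∃ (T : BaseT St (LocLM89.Lab AC AX AZ R) P) (a b : ℕ), T.PT ∧
      ∀ I : EOL, I.WF → ∃ i : Inst,
        LOn T I (mv i) (pub i) (m i) (rx i) (rz i) (clk i) gN gM n0 a b) :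
    Fam289 := by
  refine fam289_of_sem (D := semQ mv pub Q) (w0 := fun i => LocLM89.w0 (m i) (rx i) (rz i) (clk i))
    hreal (semQ_loc mv pub Q) hcode hmv hmm hzs hr0 hd0 hc hθ hg hg
    (fun i => exact_of_loc (H i) hg) gN gM fun n0 => ?_
  obtain ⟨T, a, b, hT, hI⟩ := HT n0
  refine ⟨T, a, b, hT, fun I hWF => ?_⟩
  obtain ⟨i, hi⟩ := hI I hWF
  exact ⟨i, hi.on (H i) hg⟩

end Crest.Agent.R289.LocTop286
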