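import Mathlib
import Crest.Agent.Lib.PT.ListFns2
import Crest.Agent.Lib.PT.Arith

/-!
Row 289, layout leaf R4: loop erasure of a path as a list program.
-/

set_option autoImplicit false

namespace Crest.Agent.R289.LoopE653

open Crest.Agent.Lib.PT

/-- one step: cut the loop through `a` if `a` occurs in `e` -/
def step (a : ℕ) (e : List ℕ) : List ℕ :=
  if a ∈ e then e.dropWhile (fun b => !(decide (b = a))) else a :: e

/-- loop erasure -/
def erase (l : List ℕ) : List ℕ := l.foldr step []

theorem erase_nil : erase [] = [] := rfl

theorem erase_cons (a : ℕ) (l : List ℕ) : erase (a :: l) = step a (erase l) := rfl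

theorem dropWhile_eq {a : ℕ} : ∀ {e : List ℕ}, a ∈ e →
    ∃ t, e.dropWhile (fun b => !(decide (b = a))) = a :: t
  | [], h => absurd h (by simp)
  | b :: e, h => by
    by_cases hb : b = a
    · subst hb
      exact ⟨e, by simp⟩
    · have h1 : a ∈ e := by
        rcases List.mem_cons.1 h with h | h
        · exact absurd h.symm hb
        · exact h
      obtain ⟨t, ht⟩ := dropWhile_eq h1
      exact ⟨t, by simp [hb, ht]⟩

/-- the head is kept -/
theorem step_head (a : ℕ) (e : List ℕ) : ∃ t, step a e = a :: t := by
  unfold step
  split
  · exact dropWhile_eq ‹_›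
  · exact ⟨e, rfl⟩

theorem erase_head (a : ℕ) (l : List ℕ) : (erase (a :: l)).head? = some a := by
  rw [erase_cons]
  obtain ⟨t, ht⟩ := step_head a (erase l)
  rw [ht]
  rfl

theorem head?_erase (l : List ℕ) : (erase l).head? = l.head? := by
  cases l with
  | nil => rfl
  | cons a l => rw [erase_head]; rfl

theorem erase_ne_nil {l : List ℕ} (h : l ≠ []) : erase l ≠ [] := by
  cases l with
  | nil => exact absurd rfl h
  | cons a l =>
    rw [erase_cons]
    obtain ⟨t, ht⟩ := step_head a (erase l)
    rw [ht]
    simp

theorem step_suffix_or (a : ℕ) (e : List ℕ) : (step a e <:+ e) ∨ step a e = a :: e := by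
  unfold step
  split
  · exact Or.inl (List.dropWhile_suffix _)
  · exact Or.inr rfl

/-- the last vertex is kept -/
theorem getLast?_erase (l : List ℕ) : (erase l).getLast? = l.getLast? := by
  induction l with
  | nil => rfl
  | cons a l ih =>
    rw [erase_cons]
    cases l with
    | nil => simp [erase_nil, step]
    | cons b l =>
      rw [List.getLast?_cons_cons, ← ih]
      have hne : erase (b :: l) ≠ [] := erase_ne_nil (by simp)
      rcases step_suffix_or a (erase (b :: l)) with h | h
      · obtain ⟨p, hp⟩ := h
        obtain ⟨t, ht⟩ := step_head a (erase (b :: l))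
        conv_rhs => rw [← hp]
        rw [List.getLast?_append, ht]
        cases h2 : (a :: t).getLast? with
        | none => simp at h2
        | some c => rfl
      · rw [h]
        cases h3 : erase (b :: l) with
        | nil => exact absurd h3 hne
        | cons c t => rw [List.getLast?_cons_cons]

/-- the result is simple -/
theorem nodup_erase (l : List ℕ) : (erase l).Nodup := by
  induction l with
  | nil => exact List.nodup_nil
  | cons a l ih =>
    rw [erase_cons]
    unfold step
    split
    · exact ih.sublist (List.dropWhile_sublist _)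
    · exact List.nodup_cons.2 ⟨‹_›, ih⟩

theorem erase_sublist (l : List ℕ) : (erase l).Sublist l := by
  induction l with
  | nil => exact List.Sublist.refl _
  | cons a l ih =>
    rw [erase_cons]
    unfold step
    split
    · exact ((List.dropWhile_sublist _).trans ih).cons _
    · exact ih.cons_cons a

theorem mem_of_mem_erase {l : List ℕ} {a : ℕ} (h : a ∈ erase l) : a ∈ l :=
  (erase_sublist l).subset h

theorem length_erase_le (l : List ℕ) : (erase l).length ≤ l.length :=
  (erase_sublist l).length_le

/-- steps stay steps -/
theorem isChain_erase {R : ℕ → ℕ → Prop} {l : List ℕ} (h : l.IsChain R) : (erase l).IsChain R := by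
  induction l with
  | nil => exact List.IsChain.nil
  | cons a l ih =>
    have hl : l.IsChain R := h.tail
    rcases step_suffix_or a (erase l) with h1 | h1
    · rw [erase_cons]
      exact (ih hl).suffix h1
    · rw [erase_cons, h1]
      cases l with
      | nil => exact List.IsChain.singleton a
      | cons b l =>
        obtain ⟨t, ht⟩ := step_head b (erase l)
        have h2 : erase (b :: l) = b :: t := ht
        rw [h2]
        have h3 := ih hl
        rw [h2] at h3
        exact List.IsChain.cons_cons (List.isChain_cons_cons.1 h).1 h3

/-- consecutive pairs of the result are consecutive pairs of the input -/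
theorem pair_erase {l p s : List ℕ} {a b : ℕ} (h : erase l = p ++ a :: b :: s) :
    ∃ p' s', l = p' ++ a :: b :: s' := by
  have key : ∀ l : List ℕ, l.IsChain (fun x y => ∃ p' s', l = p' ++ x :: y :: s') := by
    intro l
    rw [List.isChain_iff_getElem]
    intro i hi
    refine ⟨l.take i, l.drop (i + 2), ?_⟩
    conv_lhs => rw [← List.take_append_drop i l]
    rw [List.drop_eq_getElem_cons (by omega), List.drop_eq_getElem_cons (by omega)]
  have h1 := isChain_erase (key l)
  rw [h] at h1
  have h2 := h1.right_of_append
  exact (List.isChain_cons_cons.1 h2).1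

theorem sz_step_le (a : ℕ) (e : List ℕ) : sz (step a e) ≤ sz e + sz [a] := by
  rcases step_suffix_or a e with h | h
  · obtain ⟨p, hp⟩ := h
    have h1 : sz (p ++ step a e) = sz e := by rw [hp]
    rw [sz_append] at h1
    omega
  · rw [h]
    have h1 : sz ([a] ++ e) = sz [a] + sz e := sz_append _ _
    have h2 : [a] ++ e = a :: e := rfl
    rw [h2] at h1
    omega

/-- loop erasure is polynomial time -/
theorem ptf_erase : PTF erase := by
  unfold erase
  refine PTF.foldr_add (l := fun l : List ℕ => l) (f := fun (_ : List ℕ) (a : ℕ) (e : List ℕ) =>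
    step a e) (by fun_prop) ?_ (PTF.const _) (G := fun l => sz l) PB.sz ?_
  · unfold step
    refine PTF.ite (PTPred.mem (by fun_prop) (by fun_prop)) ?_ (by fun_prop)
    refine PTF.dropWhile (l := fun p : List ℕ × ℕ × List ℕ => p.2.2)
      (p := fun (p : List ℕ × ℕ × List ℕ) (b : ℕ) => !(decide (b = p.2.1))) (by fun_prop) ?_
    exact PTF.not (PTPred.natEq (by fun_prop) (by fun_prop)).toPTF
  · intro c b a ha
    refine (sz_step_le a b).trans (Nat.add_le_add_left ?_ _)
    obtain ⟨s, t, hst⟩ := List.append_of_mem ha
    have h1 : sz c = sz s + (sz [a] + sz t) := by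
      rw [hst, sz_append]
      have : a :: t = [a] ++ t := rfl
      rw [this, sz_append]
    omega

end Crest.Agent.R289.LoopE653
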