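import Mathlib
import Crest.Agent.Lib.PT.ListFns2
import Crest.Agent.Lib.PT.Arith

/-!
Row 289, (R4) of post #5984 (helper109): loop erasure of a walk, in polynomial time.

`ler w` for a walk `w : List ℕ`: no repeated vertex, same first and last vertex, only vertices of
`w`, `IsChain R w → IsChain R (ler w)` for every relation `R` (so consecutive vertices of `ler w`
are consecutive in `w`), not longer than `w`.  `ptf_ler`: polynomial time.
-/

set_option autoImplicit false

namespace Crest.Agent.R289.LoopEr526

open Crest.Agent.Lib.PT

/-- the path so far is kept reversed; a repeated vertex cuts the loop -/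
def push (acc : List ℕ) (v : ℕ) : List ℕ :=
  if v ∈ acc then acc.dropWhile (fun u => !decide (u = v)) else v :: acc

/-- loop erasure, reversed -/
def lerR (w : List ℕ) : List ℕ := w.foldl push []

/-- **loop erasure** -/
def ler (w : List ℕ) : List ℕ := (lerR w).reverse

theorem lerR_nil : lerR [] = [] := rfl

theorem lerR_concat (w : List ℕ) (v : ℕ) : lerR (w ++ [v]) = push (lerR w) v := by
  unfold lerR
  rw [List.foldl_append]
  rfl

theorem dropWhile_eq_cons {acc : List ℕ} {v : ℕ} (h : v ∈ acc) :
    ∃ t, acc.dropWhile (fun u => !decide (u = v)) = v :: t := by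
  induction acc with
  | nil => simp at h
  | cons a l ih =>
    by_cases ha : a = v
    · subst ha
      exact ⟨l, by simp⟩
    · rcases List.mem_cons.1 h with h1 | h1
      · exact absurd h1.symm ha
      · obtain ⟨t, ht⟩ := ih h1
        refine ⟨t, ?_⟩
        rw [List.dropWhile_cons, if_pos (by simp [ha]), ht]

/-- `push` gives a list starting with `v` -/
theorem push_head (acc : List ℕ) (v : ℕ) : (push acc v).head? = some v := by
  unfold push
  split
  · next h =>
    obtain ⟨t, ht⟩ := dropWhile_eq_cons h
    rw [ht]
    rfl
  · rfl

theorem push_ne_nil (acc : List ℕ) (v : ℕ) : push acc v ≠ [] := by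
  intro h
  have := push_head acc v
  rw [h] at this
  simp at this

theorem push_subset (acc : List ℕ) (v : ℕ) : ∀ u ∈ push acc v, u ∈ acc ∨ u = v := by
  intro u hu
  unfold push at hu
  split at hu
  · exact Or.inl ((List.dropWhile_suffix _).subset hu)
  · rcases List.mem_cons.1 hu with h | h
    · exact Or.inr h
    · exact Or.inl h

theorem push_nodup {acc : List ℕ} (v : ℕ) (h : acc.Nodup) : (push acc v).Nodup := by
  unfold push
  split
  · exact h.sublist (List.dropWhile_suffix _).sublist
  · next h1 => exact List.nodup_cons.2 ⟨h1, h⟩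

theorem getLast?_suffix {α : Type*} {s l : List α} (h : s <:+ l) (hs : s ≠ []) :
    s.getLast? = l.getLast? := by
  obtain ⟨t, rfl⟩ := h
  rw [List.getLast?_append]
  cases hx : s.getLast? with
  | none => exact absurd (List.getLast?_eq_none_iff.1 hx) hs
  | some a => rfl

theorem push_last {acc : List ℕ} (v : ℕ) (h : acc ≠ []) :
    (push acc v).getLast? = acc.getLast? := by
  have hne := push_ne_nil acc v
  unfold push at hne ⊢
  split
  · next h1 =>
    rw [if_pos h1] at hne
    exact getLast?_suffix (List.dropWhile_suffix _) hne
  · cases acc with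
    | nil => exact absurd rfl h
    | cons a l => simp [List.getLast?_cons_cons]

theorem push_length (acc : List ℕ) (v : ℕ) : (push acc v).length ≤ acc.length + 1 := by
  unfold push
  split
  · exact (List.dropWhile_suffix _).length_le.trans (Nat.le_succ _)
  · simp

theorem lerR_nodup (w : List ℕ) : (lerR w).Nodup := by
  induction w using List.reverseRecOn with
  | nil => exact List.nodup_nil
  | append_singleton w v ih => rw [lerR_concat]; exact push_nodup v ih

theorem lerR_head (w : List ℕ) : (lerR w).head? = w.getLast? := by
  induction w using List.reverseRecOn with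
  | nil => rfl
  | append_singleton w v ih =>
    rw [lerR_concat, push_head]
    simp

theorem lerR_eq_nil {w : List ℕ} : lerR w = [] ↔ w = [] := by
  constructor
  · intro h
    have := lerR_head w
    rw [h] at this
    simp only [List.head?_nil] at this
    exact List.getLast?_eq_none_iff.1 this.symm
  · rintro rfl
    rfl

theorem lerR_last (w : List ℕ) : (lerR w).getLast? = w.head? := by
  induction w using List.reverseRecOn with
  | nil => rfl
  | append_singleton w v ih =>
    rw [lerR_concat]
    by_cases hw : w = []
    · subst hw
      simp [lerR_nil, push]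
    · have h1 : lerR w ≠ [] := fun h => hw (lerR_eq_nil.1 h)
      rw [push_last v h1, ih]
      cases w with
      | nil => exact absurd rfl hw
      | cons a l => simp

theorem lerR_subset (w : List ℕ) : ∀ u ∈ lerR w, u ∈ w := by
  induction w using List.reverseRecOn with
  | nil => intro u hu; simp [lerR_nil] at hu
  | append_singleton w v ih =>
    intro u hu
    rw [lerR_concat] at hu
    rcases push_subset _ _ u hu with h | h
    · exact List.mem_append_left _ (ih u h)
    · subst h
      simp

theorem lerR_length (w : List ℕ) : (lerR w).length ≤ w.length := by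
  induction w using List.reverseRecOn with
  | nil => exact le_rfl
  | append_singleton w v ih =>
    rw [lerR_concat, List.length_append]
    exact (push_length _ _).trans (Nat.succ_le_succ ih)

theorem lerR_chain {R : ℕ → ℕ → Prop} (w : List ℕ) (h : w.IsChain R) :
    (lerR w).IsChain (fun a b => R b a) := by
  induction w using List.reverseRecOn with
  | nil => exact List.isChain_nil
  | append_singleton w v ih =>
    rw [List.isChain_append] at h
    obtain ⟨h1, _, h3⟩ := h
    have ih' := ih h1
    rw [lerR_concat]
    unfold push
    split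
    · exact ih'.suffix (List.dropWhile_suffix _)
    · rw [List.isChain_cons]
      refine ⟨fun y hy => ?_, ih'⟩
      rw [lerR_head] at hy
      exact h3 y hy v (by simp)

/-! ### the specification of `ler` -/

theorem ler_nodup (w : List ℕ) : (ler w).Nodup := List.nodup_reverse.2 (lerR_nodup w)

theorem ler_head (w : List ℕ) : (ler w).head? = w.head? := by
  unfold ler
  rw [List.head?_reverse, lerR_last]

theorem ler_last (w : List ℕ) : (ler w).getLast? = w.getLast? := by
  unfold ler
  rw [List.getLast?_reverse, lerR_head]

theorem ler_subset (w : List ℕ) : ∀ u ∈ ler w, u ∈ w := fun u hu =>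
  lerR_subset w u (List.mem_reverse.1 hu)

theorem ler_length (w : List ℕ) : (ler w).length ≤ w.length := by
  unfold ler
  rw [List.length_reverse]
  exact lerR_length w

theorem ler_eq_nil {w : List ℕ} : ler w = [] ↔ w = [] := by
  unfold ler
  rw [List.reverse_eq_nil_iff, lerR_eq_nil]

theorem ler_isChain {R : ℕ → ℕ → Prop} {w : List ℕ} (h : w.IsChain R) : (ler w).IsChain R := by
  unfold ler
  rw [List.isChain_reverse]
  exact lerR_chain w h

/-- consecutive vertices of `ler w` are consecutive in `w` -/
theorem ler_infix {w : List ℕ} {a b : ℕ} (h : [a, b] <:+: ler w) : [a, b] <:+: w := by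
  have h1 : w.IsChain (fun a b => [a, b] <:+: w) := by
    rw [List.isChain_iff_getElem]
    intro i hi
    refine ⟨w.take i, w.drop (i + 2), ?_⟩
    rw [List.append_assoc]
    have h2 : [w[i], w[i + 1]] ++ w.drop (i + 2) = w.drop i := by
      rw [List.drop_eq_getElem_cons (i := i) (by omega), List.drop_eq_getElem_cons (i := i + 1) hi]
      rfl
    rw [h2, List.take_append_drop]
  have h3 := ler_isChain h1
  obtain ⟨s, t, hst⟩ := h
  rw [← hst, List.append_assoc, List.isChain_append] at h3
  have h4 := h3.2.1
  simp only [List.cons_append, List.nil_append, List.isChain_cons_cons] at h4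
  exact h4.1

/-- everything at once -/
theorem ler_spec (w : List ℕ) : (ler w).Nodup ∧ (ler w).head? = w.head? ∧
    (ler w).getLast? = w.getLast? ∧ (∀ u ∈ ler w, u ∈ w) ∧ (ler w).length ≤ w.length ∧
    (∀ R : ℕ → ℕ → Prop, w.IsChain R → (ler w).IsChain R) :=
  ⟨ler_nodup w, ler_head w, ler_last w, ler_subset w, ler_length w, fun _ h => ler_isChain h⟩

/-! ### polynomial time -/

section ptf

variable {γ : Type} [PTCode γ]

theorem ptf_push {f : γ → List ℕ} {g : γ → ℕ} (hf : PTF f) (hg : PTF g) :
    PTF (fun c => push (f c) (g c)) := by
  unfold push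
  refine PTF.ite (PTPred.mem hg hf) ?_ (by fun_prop)
  refine PTF.dropWhile (p := fun (c : γ) (u : ℕ) => !decide (u = g c)) hf ?_
  refine PTF.not (PTPred.natEq (by fun_prop) ?_).toPTF
  exact PTF.comp hg PTF.fst

theorem sz_suffix_le {l s : List ℕ} (h : s <:+ l) : sz s ≤ sz l := by
  obtain ⟨t, rfl⟩ := h
  rw [sz_append]
  exact Nat.le_add_left _ _

theorem sz_push_le (acc : List ℕ) (v : ℕ) : sz (push acc v) ≤ sz acc + sz [v] := by
  unfold push
  split
  · exact (sz_suffix_le (List.dropWhile_suffix _)).trans (Nat.le_add_right _ _)
  · rw [← List.singleton_append, sz_append, add_comm]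

theorem sz_lerR_le (w : List ℕ) : sz (lerR w) ≤ sz w := by
  induction w using List.reverseRecOn with
  | nil => exact le_rfl
  | append_singleton w v ih =>
    rw [lerR_concat, sz_append]
    exact (sz_push_le _ _).trans (Nat.add_le_add_right ih _)

theorem ptf_lerR : PTF lerR := by
  unfold lerR
  refine PTF.foldl (l := fun w : List ℕ => w)
    (f := fun (_ : List ℕ) (L : List ℕ) (e : ℕ) => push L e) (by fun_prop) ?_
    (PTF.const _) (B := fun w => sz w) ?_ ?_
  · exact ptf_push (by fun_prop) (by fun_prop)
  · exact PB.sz
  · intro w i _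
    exact (sz_lerR_le (w.take i)).trans (sz_take_le w i)

theorem ptf_ler : PTF ler := PTF.reverse ptf_lerR

theorem ptf_ler_comp {f : γ → List ℕ} (hf : PTF f) : PTF (fun c => ler (f c)) :=
  PTF.comp ptf_ler hf

theorem ptf_map_ler {f : γ → List (List ℕ)} (hf : PTF f) : PTF (fun c => (f c).map ler) :=
  PTF.map (f := fun (_ : γ) (w : List ℕ) => ler w) hf (PTF.comp ptf_ler PTF.snd)

end ptf

end Crest.Agent.R289.LoopEr526
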