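import Crest.Agent.R289.MachC_143

/-!
# Row 289, block C: the P-level content machine of `DefC_143`, part 2: labels

`mach_ok` : the machine satisfies `PMach.OK`; `blocked` : the ends.
-/

set_option autoImplicit false
set_option linter.unusedSectionVars false

namespace Crest.Agent.R289.DefC

open Crest.Agent.R289

variable {K : Type} [CommRing K] [IsDomain K]
variable {Γ G Λ : Type} {J : ℕ} [DecidableEq Γ] [DecidableEq Λ]
variable {act : G → Equiv.Perm Γ} {out : Λ} {P : Layout Γ G Λ J}

/-! ### arguments and written values -/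

/-- value of an argument -/
def Ar.bv (act : G → Equiv.Perm Γ) (x : Γ → Bool) (f : Γ → Λ → Bool) (a : Γ) : Ar G Λ → Bool
  | .no => false
  | .name _ => x a
  | .cell _ g l => f (act g a) l

theorem val_bv (c : Bool) (k : Op G Λ) (x : Γ → Bool) (f : Γ → Λ → Bool) (a : Γ) :
    k.val ((k.a1 c).bv act x f a) ((k.a2 c).bv act x f a) = k.eval act x f a := by
  cases k <;> rfl

/-- what is written at visit `t0` -/
def wrOf (act : G → Equiv.Perm Γ) (P : Layout Γ G Λ J) (c : Bool) (x : Γ → Bool)
    (f : Γ → Λ → Bool) (t0 : ℕ) : Wr G Λ :=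
  match P.ins c t0 with
  | none => .idle
  | some (l, k) => .put l k ((k.a1 c).bv act x f (P.vis t0).1) ((k.a2 c).bv act x f (P.vis t0).1)

theorem bv_stable (hP : P.OK act out) (c : Bool) (x : Γ → Bool) (l : Λ) (k : Op G Λ) (s : ℕ)
    (hs : s < P.L) (hi : P.ins c s = some (l, k)) (t : ℕ) (hst : s ≤ t) (ht : t ≤ P.L) :
    (k.a1 c).bv act x (P.run act c x t) (P.vis s).1 =
        (k.a1 c).bv act x (P.run act c x s) (P.vis s).1 ∧
      (k.a2 c).bv act x (P.run act c x t) (P.vis s).1 =
        (k.a2 c).bv act x (P.run act c x s) (P.vis s).1 := by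
  cases k with
  | inp => exact ⟨rfl, rfl⟩
  | cst b => exact ⟨rfl, rfl⟩
  | nand g1 l1 g2 l2 =>
    obtain ⟨⟨s1, h1, k1, hi1, ha1⟩, ⟨s2, h2, k2, hi2, ha2⟩⟩ := hP.arg c s l g1 l1 g2 l2 hs hi
    simp only [Op.a1, Op.a2, Ar.bv]
    rw [← ha1, ← ha2, run_written hP c x l1 k1 s1 (by omega) hi1 t (by omega) ht,
      run_written hP c x l1 k1 s1 (by omega) hi1 s h1 (by omega),
      run_written hP c x l2 k2 s2 (by omega) hi2 t (by omega) ht,
      run_written hP c x l2 k2 s2 (by omega) hi2 s h2 (by omega)]
    exact ⟨rfl, rfl⟩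

theorem wrOf_stable (hP : P.OK act out) (c : Bool) (x : Γ → Bool) (s : ℕ) (hs : s < P.L) (t : ℕ)
    (hst : s ≤ t) (ht : t ≤ P.L) :
    wrOf act P c x (P.run act c x t) s = wrOf act P c x (P.run act c x s) s := by
  unfold wrOf
  cases hi : P.ins c s with
  | none => rfl
  | some q =>
    obtain ⟨l, k⟩ := q
    obtain ⟨h1, h2⟩ := bv_stable hP c x l k s hs hi t hst ht
    simp only [h1, h2]

/-! ### guards with a pointer word -/

theorem delta_mul (f : Γ → K) (a0 : Γ) :
    (∀ a, f a * (if a = a0 then 1 else 0) = 0) ↔ f a0 = 0 := by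
  constructor
  · intro h
    have := h a0
    rwa [if_pos rfl, mul_one] at this
  · intro h a
    split_ifs with h'
    · rw [h', h, zero_mul]
    · rw [mul_zero]

section guards
variable (r : Rg Λ J → Γ → K) (p : Pt G J) (a0 : Γ)

theorem cz_gE (hp : ∀ a, (p.ex : Ex K G Λ J).evalC act (pubC P K) r a = if a = a0 then 1 else 0)
    (j : Fin J) (g : G) (j' : Fin J) :
    (∀ a, (cex (.gE j g j' p) : Ex K G Λ J).evalC act (pubC P K) r a = 0) ↔
      ∃ s < P.L, P.vis s = (a0, j) ∧ P.dir s = g ∧ (P.vis (s + 1)).2 = j' := by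
  classical
  have : ∀ a, (cex (.gE j g j' p) : Ex K G Λ J).evalC act (pubC P K) r a =
      (1 - pubC P K (.E j g j' : Pb G Λ J) a) * (if a = a0 then 1 else 0) := by
    intro a
    simp only [cex, PE.evalC, ev_sub, ev_u, one_mul, hp]
  simp only [this]
  rw [delta_mul]
  simp only [pubC]
  split_ifs with h
  · simpa using h
  · simpa using h

theorem cz_gN (hp : ∀ a, (p.ex : Ex K G Λ J).evalC act (pubC P K) r a = if a = a0 then 1 else 0)
    (c : Bool) (j : Fin J) :
    (∀ a, (cex (.gN c j p) : Ex K G Λ J).evalC act (pubC P K) r a = 0) ↔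
      ¬ ∃ s < P.L, P.vis s = (a0, j) ∧ P.ins c s ≠ none := by
  classical
  have : ∀ a, (cex (.gN c j p) : Ex K G Λ J).evalC act (pubC P K) r a =
      pubC P K (.Wa c j : Pb G Λ J) a * (if a = a0 then 1 else 0) := by
    intro a
    simp only [cex, PE.evalC, ev_u, one_mul, hp]
  simp only [this]
  rw [delta_mul]
  simp only [pubC]
  split_ifs with h
  · simp only [one_ne_zero, false_iff, not_not]
    exact h
  · simp only [true_iff]
    exact h

theorem cz_gW (hp : ∀ a, (p.ex : Ex K G Λ J).evalC act (pubC P K) r a = if a = a0 then 1 else 0)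
    (c : Bool) (j : Fin J) (l : Λ) (k : Op G Λ) :
    (∀ a, (cex (.gW c j l k p) : Ex K G Λ J).evalC act (pubC P K) r a = 0) ↔
      ∃ s < P.L, P.vis s = (a0, j) ∧ P.ins c s = some (l, k) := by
  classical
  have : ∀ a, (cex (.gW c j l k p) : Ex K G Λ J).evalC act (pubC P K) r a =
      (1 - pubC P K (.W c j l k : Pb G Λ J) a) * (if a = a0 then 1 else 0) := by
    intro a
    simp only [cex, PE.evalC, ev_sub, ev_u, one_mul, hp]
  simp only [this]
  rw [delta_mul]
  simp only [pubC]
  split_ifs with h
  · simpa using h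
  · simpa using h

theorem cz_gA (hp : ∀ a, (p.ex : Ex K G Λ J).evalC act (pubC P K) r a = if a = a0 then 1 else 0)
    (ar : Ar G Λ) (β β' : Bool) (har : (ar.ex : Ex K G Λ J).evalC act (pubC P K) r a0 = bt K β') :
    (∀ a, (cex (.gA ar β p) : Ex K G Λ J).evalC act (pubC P K) r a = 0) ↔ β = β' := by
  have : ∀ a, (cex (.gA ar β p) : Ex K G Λ J).evalC act (pubC P K) r a =
      ((ar.ex : Ex K G Λ J).evalC act (pubC P K) r a - bt K β) * (if a = a0 then 1 else 0) := by
    intro a
    simp only [cex, PE.evalC, ev_sub, ev_u, one_mul, mul_one, hp]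
  simp only [this]
  rw [delta_mul (fun a => (ar.ex : Ex K G Λ J).evalC act (pubC P K) r a - bt K β), har, sub_eq_zero]
  exact ⟨fun h => (bt_inj h).symm, fun h => by rw [h]⟩

/-- the guards of a fill label, pointer word `= δ_{a0}`, `vis t0 = (a0, j)` -/
theorem guards_iff (hP : P.OK act out)
    (hp : ∀ a, (p.ex : Ex K G Λ J).evalC act (pubC P K) r a = if a = a0 then 1 else 0)
    (c : Bool) (x : Γ → Bool) (f : Γ → Λ → Bool)
    (har : ∀ k : Op G Λ, ((k.a1 c).ex : Ex K G Λ J).evalC act (pubC P K) r a0 =
        bt K ((k.a1 c).bv act x f a0) ∧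
      ((k.a2 c).ex : Ex K G Λ J).evalC act (pubC P K) r a0 = bt K ((k.a2 c).bv act x f a0))
    (t0 : ℕ) (ht0 : t0 < P.L) (j : Fin J) (hv : P.vis t0 = (a0, j)) (g : G) (j' : Fin J)
    (w : Wr G Λ) :
    (∀ q, gd c j g j' w p q → ∀ a, (cex q : Ex K G Λ J).evalC act (pubC P K) r a = 0) ↔
      g = P.dir t0 ∧ j' = (P.vis (t0 + 1)).2 ∧ w = wrOf act P c x f t0 := by
  have huniq : ∀ s, s < P.L → P.vis s = (a0, j) → s = t0 := fun s hs h =>
    hP.inj s t0 hs.le ht0.le (h.trans hv.symm)
  have hE := cz_gE (act := act) (P := P) r p a0 hp j g j'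
  constructor
  · intro h
    obtain ⟨s, hs, h1, h2, h3⟩ := hE.1 (h _ (Or.inl rfl))
    have := huniq s hs h1
    subst this
    refine ⟨h2.symm, h3.symm, ?_⟩
    cases w with
    | idle =>
      have h4 := (cz_gN (act := act) (P := P) r p a0 hp c j).1 (h _ (Or.inr rfl))
      unfold wrOf
      cases hi : P.ins c s with
      | none => rfl
      | some q => exact absurd ⟨s, hs, h1, by rw [hi]; simp⟩ h4
    | put l k β β' =>
      obtain ⟨s', hs', h4, h5⟩ :=
        (cz_gW (act := act) (P := P) r p a0 hp c j l k).1 (h _ (Or.inr (Or.inl rfl)))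
      have := huniq s' hs' h4
      subst this
      have h6 := (cz_gA (act := act) (P := P) r p a0 hp (k.a1 c) β _ (har k).1).1
        (h _ (Or.inr (Or.inr (Or.inl rfl))))
      have h7 := (cz_gA (act := act) (P := P) r p a0 hp (k.a2 c) β' _ (har k).2).1
        (h _ (Or.inr (Or.inr (Or.inr rfl))))
      unfold wrOf
      rw [h5, h6, h7]
      simp only [h1]
  · rintro ⟨rfl, rfl, hw⟩ q hq
    rcases hq with rfl | hq
    · exact hE.2 ⟨t0, ht0, hv, rfl, rfl⟩
    · cases w with
      | idle =>
        have hq' : q = .gN c j p := hq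
        subst hq'
        apply (cz_gN (act := act) (P := P) r p a0 hp c j).2
        rintro ⟨s, hs, h1, h2⟩
        have := huniq s hs h1
        subst this
        unfold wrOf at hw
        cases hi : P.ins c s with
        | none => exact h2 hi
        | some q => rw [hi] at hw; simp at hw
      | put l k β β' =>
        unfold wrOf at hw
        cases hi : P.ins c t0 with
        | none => rw [hi] at hw; simp at hw
        | some q0 =>
          obtain ⟨l', k'⟩ := q0
          rw [hi] at hw
          simp only [hv, Wr.put.injEq] at hw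
          obtain ⟨rfl, rfl, h1, h2⟩ := hw
          have hq' : q = .gW c j l k p ∨ q = .gA (k.a1 c) β p ∨ q = .gA (k.a2 c) β' p := hq
          rcases hq' with rfl | rfl | rfl
          · exact (cz_gW (act := act) (P := P) r p a0 hp c j l k).2 ⟨t0, ht0, hv, hi⟩
          · exact (cz_gA (act := act) (P := P) r p a0 hp (k.a1 c) β _ (har k).1).2 h1
          · exact (cz_gA (act := act) (P := P) r p a0 hp (k.a2 c) β' _ (har k).2).2 h2

end guards

/-! ### fill labels at encoded states -/

/-- name read by program `c` in stage `s` -/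
def Layout.nC (act : G → Equiv.Perm Γ) (out : Λ) (P : Layout Γ G Λ J) (s : Sg)
    (v : Fin P.n → Bool) (c : Bool) : Γ → Bool :=
  P.nm (if c then P.nY act out s v else P.nX act out s v)

/-- what is written in stage `s` at time `t` -/
def wrS (act : G → Equiv.Perm Γ) (out : Λ) (P : Layout Γ G Λ J) (s : Sg) (t : ℕ)
    (v : Fin P.n → Bool) : Wr G Λ :=
  wrOf act P s.prog (P.nC act out s v s.prog) (P.run act s.prog (P.nC act out s v s.prog) t) t

theorem amt_prog (s : Sg) (L t : ℕ) : s.amt L t s.prog = t := by unfold Sg.amt; rw [if_pos rfl]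

theorem arg_enc (s : Sg) (t : ℕ) (v : Fin P.n → Bool) (a : Γ) (k : Op G Λ) :
    ((k.a1 s.prog).ex : Ex K G Λ J).evalC act (pubC P K) (encC act out P K s t v) a =
        bt K ((k.a1 s.prog).bv act (P.nC act out s v s.prog)
          (P.run act s.prog (P.nC act out s v s.prog) t) a) ∧
      ((k.a2 s.prog).ex : Ex K G Λ J).evalC act (pubC P K) (encC act out P K s t v) a =
        bt K ((k.a2 s.prog).bv act (P.nC act out s v s.prog)
          (P.run act s.prog (P.nC act out s v s.prog) t) a) := by
  have hF : ∀ g l, ((Ar.cell s.prog g l).ex : Ex K G Λ J).evalC act (pubC P K)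
      (encC act out P K s t v) a = bt K (P.run act s.prog (P.nC act out s v s.prog) t (act g a) l) := by
    intro g l
    change encC act out P K s t v (.F s.prog l) (act g a) = _
    rw [enc_F, amt_prog]
    rfl
  have hN : ((Ar.name s.prog : Ar G Λ).ex : Ex K G Λ J).evalC act (pubC P K)
      (encC act out P K s t v) a = bt K (P.nC act out s v s.prog a) := by
    cases s <;> rfl
  cases k with
  | inp => exact ⟨hN, by simp [Op.a2, Ar.ex, PE.evalC, Ar.bv]⟩
  | cst b => exact ⟨by simp [Op.a1, Ar.ex, PE.evalC, Ar.bv], by simp [Op.a2, Ar.ex, PE.evalC, Ar.bv]⟩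
  | nand g l g' l' => exact ⟨hF g l, hF g' l'⟩

theorem D_zero_iff (hP : P.OK act out) (s : Sg) (t : ℕ) (v : Fin P.n → Bool) (j : Fin J) :
    (∀ i, i ≠ j → ∀ a, encC act out P K s t v (.D i : Rg Λ J) a = 0) ↔ j = (P.vis t).2 := by
  constructor
  · intro h
    by_contra hj
    have := h (P.vis t).2 (fun h' => hj h'.symm) (P.vis t).1
    rw [enc_D, ptr_eq, if_pos rfl] at this
    exact one_ne_zero this
  · rintro rfl i hi a
    rw [enc_D, ptr_eq, if_neg]
    intro h
    exact hi (by rw [h])

/-- forward guards of a fill label -/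
theorem en_fill (hP : P.OK act out) (s : Sg) (t : ℕ) (ht : t ≤ P.L) (v : Fin P.n → Bool)
    (j : Fin J) (g : G) (j' : Fin J) (w : Wr G Λ) :
    ((∀ i, i ≠ j → ∀ a, encC act out P K s t v (.D i : Rg Λ J) a = 0) ∧
      ∀ q, gd s.prog j g j' w (.cur j) q → ∀ a, (cex q : Ex K G Λ J).evalC act (pubC P K)
        (encC act out P K s t v) a = 0) ↔
      t < P.L ∧ j = (P.vis t).2 ∧ g = P.dir t ∧ j' = (P.vis (t + 1)).2 ∧ w = wrS act out P s t v := by
  rw [D_zero_iff hP]
  constructor
  · rintro ⟨rfl, h⟩
    have hp : ∀ a, ((Pt.cur (P.vis t).2 : Pt G J).ex : Ex K G Λ J).evalC act (pubC P K)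
        (encC act out P K s t v) a = if a = (P.vis t).1 then 1 else 0 := by
      intro a
      change encC act out P K s t v (.D (P.vis t).2) a = _
      rw [enc_D, ptr_eq]
      by_cases h' : a = (P.vis t).1
      · subst h'; rw [if_pos rfl, if_pos rfl]
      · rw [if_neg, if_neg h']
        intro h2
        exact h' (by rw [h2])
    obtain ⟨s', hs', h1, -, -⟩ := (cz_gE (act := act) (P := P) _ _ _ hp _ g j').1 (h _ (Or.inl rfl))
    have hst : s' = t := hP.inj s' t hs'.le ht (by rw [h1])
    have htL : t < P.L := hst ▸ hs'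
    have := (guards_iff _ _ _ hP hp s.prog _ _ (fun k => arg_enc s t v _ k) t htL (P.vis t).2 rfl
      g j' w).1 h
    exact ⟨htL, rfl, this⟩
  · rintro ⟨htL, rfl, h⟩
    have hp : ∀ a, ((Pt.cur (P.vis t).2 : Pt G J).ex : Ex K G Λ J).evalC act (pubC P K)
        (encC act out P K s t v) a = if a = (P.vis t).1 then 1 else 0 := by
      intro a
      change encC act out P K s t v (.D (P.vis t).2) a = _
      rw [enc_D, ptr_eq]
      by_cases h' : a = (P.vis t).1
      · subst h'; rw [if_pos rfl, if_pos rfl]
      · rw [if_neg, if_neg h']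
        intro h2
        exact h' (by rw [h2])
    exact ⟨rfl, (guards_iff _ _ _ hP hp s.prog _ _ (fun k => arg_enc s t v _ k) t htL (P.vis t).2
      rfl g j' w).2 h⟩

/-- the previous pointer seen from the current one -/
theorem old_eval (s : Sg) (t : ℕ) (v : Fin P.n → Bool) (g : G) (a : Γ) :
    ((Pt.old g (P.vis t).2 : Pt G J).ex : Ex K G Λ J).evalC act (pubC P K)
      (encC act out P K s t v) a = if a = (act g).symm (P.vis t).1 then 1 else 0 := by
  change encC act out P K s t v (.D (P.vis t).2) (act g a) = _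
  rw [enc_D, ptr_eq]
  by_cases h' : a = (act g).symm (P.vis t).1
  · subst h'; rw [Equiv.apply_symm_apply, if_pos rfl, if_pos rfl]
  · rw [if_neg, if_neg h']
    intro h2
    exact h' (by rw [h2]; simp)

/-- backward guards of a fill label -/
theorem bk_fill (hP : P.OK act out) (s : Sg) (t : ℕ) (ht : t ≤ P.L) (v : Fin P.n → Bool)
    (j : Fin J) (g : G) (j' : Fin J) (w : Wr G Λ) :
    ((∀ i, i ≠ j' → ∀ a, encC act out P K s t v (.D i : Rg Λ J) a = 0) ∧
      ∀ q, gd s.prog j g j' w (.old g j') q → ∀ a, (cex q : Ex K G Λ J).evalC act (pubC P K)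
        (encC act out P K s t v) a = 0) ↔
      ∃ t0 < P.L, t = t0 + 1 ∧ j = (P.vis t0).2 ∧ g = P.dir t0 ∧ j' = (P.vis (t0 + 1)).2 ∧
        w = wrS act out P s t0 v := by
  rw [D_zero_iff hP]
  constructor
  · rintro ⟨rfl, h⟩
    have hp := old_eval (K := K) (act := act) (out := out) (P := P) s t v g
    obtain ⟨s', hs', h1, h2, h3⟩ :=
      (cz_gE (act := act) (P := P) _ _ _ hp j g _).1 (h _ (Or.inl rfl))
    have hst : t = s' + 1 := by
      apply hP.inj t (s' + 1) ht hs'
      apply Prod.ext
      · rw [hP.step s' hs', h2, h1]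
        simp
      · exact h3.symm
    have := (guards_iff _ _ _ hP hp s.prog _ _ (fun k => arg_enc s t v _ k) s' hs' j h1
      g _ w).1 h
    refine ⟨s', hs', hst, by rw [h1], this.1, by rw [← hst], ?_⟩
    rw [this.2.2, hst]
    exact wrOf_stable hP _ _ s' hs' _ (by omega) hs'
  · rintro ⟨t0, ht0, rfl, rfl, rfl, rfl, rfl⟩
    have hp := old_eval (K := K) (act := act) (out := out) (P := P) s (t0 + 1) v (P.dir t0)
    have ha : (act (P.dir t0)).symm (P.vis (t0 + 1)).1 = (P.vis t0).1 := by
      rw [hP.step t0 ht0]; simp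
    rw [ha] at hp
    refine ⟨rfl, (guards_iff _ _ _ hP hp s.prog _ _ (fun k => arg_enc s (t0 + 1) v _ k) t0 ht0
      (P.vis t0).2 rfl _ _ _).2 ⟨rfl, rfl, ?_⟩⟩
    exact (wrOf_stable hP _ _ t0 ht0 _ (by omega) ht0).symm

/-! ### updates of fill labels -/

theorem pre_succ (hP : P.OK act out) {t : ℕ} (ht : t < P.L) (a : Γ) (j : Fin J) :
    Builder490.pre K P.vis (t + 1) (a, j) =
      Builder490.pre K P.vis t (a, j) + Builder490.ptr K P.vis t (a, j) := by
  classical
  rw [pre_eq, pre_eq, ptr_eq]
  by_cases h1 : P.vis t = (a, j)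
  · rw [if_pos ⟨t, by omega, h1⟩, if_neg, if_pos h1, zero_add]
    rintro ⟨s, hs, h2⟩
    have := hP.inj s t (by omega) ht.le (h2.trans h1.symm)
    omega
  · rw [if_neg h1, add_zero]
    by_cases h2 : ∃ s' < t, P.vis s' = (a, j)
    · obtain ⟨s', hs, h3⟩ := h2
      rw [if_pos ⟨s', by omega, h3⟩, if_pos ⟨s', hs, h3⟩]
    · rw [if_neg h2, if_neg]
      rintro ⟨s', hs, h3⟩
      rcases Nat.lt_or_ge s' t with h4 | h4
      · exact h2 ⟨s', h4, h3⟩
      · have : s' = t := by omega
        exact h1 (this ▸ h3)

theorem run_step (hP : P.OK act out) (c : Bool) (x : Γ → Bool) {t : ℕ} (ht : t < P.L) (l : Λ)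
    (k : Op G Λ) (hi : P.ins c t = some (l, k)) (a : Γ) :
    bt K (P.run act c x (t + 1) a l) = bt K (P.run act c x t a l) +
      bt K (k.eval act x (P.run act c x t) (P.vis t).1) *
        Builder490.ptr K P.vis t (a, (P.vis t).2) := by
  classical
  rw [ptr_eq, run_succ, hi]
  simp only
  by_cases ha : (P.vis t).1 = a
  · subst ha
    rw [if_pos (by simp), if_pos rfl, mul_one, run_unwritten c x (P.vis t).1 l t, bt_false, zero_add]
    intro s hs k' hi' he
    have := hP.once c s t l k' k (by omega) ht hi' hi he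
    omega
  · rw [if_neg (fun h => ha h.1), if_neg, mul_zero, add_zero]
    intro h
    exact ha (by rw [h])

theorem run_other (c : Bool) (x : Γ → Bool) (t : ℕ) (l : Λ)
    (hi : ∀ k, P.ins c t ≠ some (l, k)) (a : Γ) :
    P.run act c x (t + 1) a l = P.run act c x t a l := by
  rw [run_succ]
  cases h : P.ins c t with
  | none => rfl
  | some q =>
    obtain ⟨l', k⟩ := q
    simp only
    rw [if_neg]
    rintro ⟨-, rfl⟩
    exact hi k h

theorem amt_other (s : Sg) (L t t' : ℕ) {c : Bool} (h : c ≠ s.prog) : s.amt L t c = s.amt L t' c := by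
  unfold Sg.amt
  rw [if_neg h, if_neg h]

theorem nxt_at (hP : P.OK act out) {t : ℕ} (ht : t < P.L) (a : Γ) :
    Builder490.ptr K P.vis (t + 1) (act (P.dir t) a, (P.vis (t + 1)).2) =
      Builder490.ptr K P.vis t (a, (P.vis t).2) := by
  rw [ptr_eq, ptr_eq]
  by_cases h : (P.vis t).1 = a
  · subst h
    rw [if_pos, if_pos rfl]
    rw [← hP.step t ht]
  · rw [if_neg, if_neg]
    · intro h'
      exact h (by rw [h'])
    · intro h'
      have h2 : (P.vis (t + 1)).1 = act (P.dir t) a := by rw [h']
      rw [hP.step t ht] at h2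
      exact h ((act _).injective h2)

theorem ptr_off {t : ℕ} {i : Fin J} (h : i ≠ (P.vis t).2) (a : Γ) :
    Builder490.ptr K P.vis t (a, i) = 0 := by
  rw [ptr_eq, if_neg]
  intro h'
  exact h (by rw [h'])

theorem fup_enc (hP : P.OK act out) (s : Sg) {t : ℕ} (ht : t < P.L) (v : Fin P.n → Bool)
    (i : Rg Λ J) (a : Γ) :
    (fup s.prog (P.vis t).2 (P.dir t) (P.vis (t + 1)).2 (wrS act out P s t v) i :
        Ex K G Λ J).evalC act (pubC P K) (encC act out P K s t v) a =
      encC act out P K s (t + 1) v i a := by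
  cases i with
  | X => rfl
  | Y => rfl
  | F c l =>
    by_cases hc : c = s.prog
    · subst hc
      rw [enc_F, amt_prog]
      unfold wrS wrOf
      cases hi : P.ins s.prog t with
      | none =>
        have e := run_other (act := act) s.prog (P.nC act out s v s.prog) t l
          (fun k => by rw [hi]; simp) a
        have e2 : (P.run act s.prog (P.nm (if s.prog then P.nY act out s v else P.nX act out s v))
            (t + 1) a l) = _ := e
        rw [e2]
        simp only [fup, PE.evalC]
        rw [enc_F, amt_prog]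
        rfl
      | some q =>
        obtain ⟨l', k⟩ := q
        simp only [fup]
        by_cases hl : l' = l
        · subst hl
          rw [if_pos (by simp)]
          simp only [PE.evalC]
          rw [enc_F, amt_prog, enc_D, val_bv]
          exact (run_step hP s.prog _ ht l' k hi a).symm
        · rw [if_neg (fun h => hl h.2)]
          have e := run_other (act := act) s.prog (P.nC act out s v s.prog) t l
            (fun k => by rw [hi]; simp [hl]) a
          have e2 : (P.run act s.prog (P.nm (if s.prog then P.nY act out s v else P.nX act out s v))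
              (t + 1) a l) = _ := e
          rw [e2]
          simp only [PE.evalC]
          rw [enc_F, amt_prog]
          rfl
    · rw [enc_F, amt_other s P.L (t + 1) t hc, ← enc_F K act out P s t v c l a]
      unfold wrS wrOf
      cases hi : P.ins s.prog t with
      | none => rfl
      | some q =>
        obtain ⟨l', k⟩ := q
        simp only [fup]
        rw [if_neg (fun h => hc h.1)]
        rfl
  | D i =>
    rw [enc_D]
    simp only [fup]
    by_cases hi : i = (P.vis (t + 1)).2
    · subst hi
      rw [if_pos rfl]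
      simp only [PE.evalC]
      rw [enc_D, ← nxt_at hP ht, Equiv.apply_symm_apply]
    · rw [if_neg hi, ptr_off hi]
      rfl
  | M i =>
    rw [enc_M, pre_succ hP ht]
    simp only [fup]
    by_cases hi : i = (P.vis t).2
    · subst hi
      rw [if_pos rfl]
      simp only [PE.evalC]
      rw [enc_M, enc_D]
    · rw [if_neg hi, ptr_off hi, add_zero]
      simp only [PE.evalC]
      rw [enc_M]

theorem fdn_enc (hP : P.OK act out) (s : Sg) {t : ℕ} (ht : t < P.L) (v : Fin P.n → Bool)
    (i : Rg Λ J) (a : Γ) :
    (fdn s.prog (P.vis t).2 (P.dir t) (P.vis (t + 1)).2 (wrS act out P s t v) i :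
        Ex K G Λ J).evalC act (pubC P K) (encC act out P K s (t + 1) v) a =
      encC act out P K s t v i a := by
  cases i with
  | X => rfl
  | Y => rfl
  | F c l =>
    by_cases hc : c = s.prog
    · subst hc
      rw [enc_F, amt_prog]
      unfold wrS wrOf
      cases hi : P.ins s.prog t with
      | none =>
        have e := run_other (act := act) s.prog (P.nC act out s v s.prog) t l
          (fun k => by rw [hi]; simp) a
        have e2 : (P.run act s.prog (P.nm (if s.prog then P.nY act out s v else P.nX act out s v))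
            (t + 1) a l) = _ := e
        simp only [fdn, PE.evalC]
        rw [enc_F, amt_prog, e2]
        rfl
      | some q =>
        obtain ⟨l', k⟩ := q
        simp only [fdn]
        by_cases hl : l' = l
        · subst hl
          rw [if_pos (by simp)]
          simp only [PE.evalC, ev_sub]
          rw [enc_F, amt_prog, enc_D, val_bv, nxt_at hP ht]
          have := run_step (K := K) hP s.prog (P.nC act out s v s.prog) ht l' k hi a
          exact sub_eq_iff_eq_add.2 this
        · rw [if_neg (fun h => hl h.2)]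
          have e := run_other (act := act) s.prog (P.nC act out s v s.prog) t l
            (fun k => by rw [hi]; simp [hl]) a
          have e2 : (P.run act s.prog (P.nm (if s.prog then P.nY act out s v else P.nX act out s v))
              (t + 1) a l) = _ := e
          simp only [PE.evalC]
          rw [enc_F, amt_prog, e2]
          rfl
    · rw [enc_F, amt_other s P.L t (t + 1) hc, ← enc_F K act out P s (t + 1) v c l a]
      unfold wrS wrOf
      cases hi : P.ins s.prog t with
      | none => rfl
      | some q =>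
        obtain ⟨l', k⟩ := q
        simp only [fdn]
        rw [if_neg (fun h => hc h.1)]
        rfl
  | D i =>
    rw [enc_D]
    simp only [fdn]
    by_cases hi : i = (P.vis t).2
    · subst hi
      rw [if_pos rfl]
      simp only [PE.evalC]
      rw [enc_D, nxt_at hP ht]
    · rw [if_neg hi, ptr_off hi]
      rfl
  | M i =>
    rw [enc_M]
    simp only [fdn]
    by_cases hi : i = (P.vis t).2
    · subst hi
      rw [if_pos rfl]
      simp only [PE.evalC, ev_sub]
      rw [enc_M, enc_D, nxt_at hP ht, pre_succ hP ht, add_sub_cancel_right]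
    · rw [if_neg hi]
      simp only [PE.evalC]
      rw [enc_M, pre_succ hP ht, ptr_off hi, add_zero]

/-! ### labels on encoded states -/

/-- label `ρ` leads from `(src ρ, t, v)` to `(tgt ρ, t', v')` -/
def Nx (act : G → Equiv.Perm Γ) (out : Λ) (P : Layout Γ G Λ J) (ρ : Lb G Λ J) (t : ℕ)
    (v : Fin P.n → Bool) (t' : ℕ) (v' : Fin P.n → Bool) : Prop :=
  match ρ with
  | .fill s j g j' w => ∃ t0 < P.L, (t = if s.inv then t0 + 1 else t0) ∧
      (t' = if s.inv then t0 else t0 + 1) ∧ v' = v ∧ j = (P.vis t0).2 ∧ g = P.dir t0 ∧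
      j' = (P.vis (t0 + 1)).2 ∧ w = wrS act out P s t0 v
  | .ab => t = P.L ∧ t' = 0 ∧ v' = v
  | .bc => t = P.L ∧ t' = P.L ∧ v' = P.outp act out false v ∧ P.outp act out true v' = v
  | .cd => t = 0 ∧ t' = P.L ∧ v' = v
  | .da => t = 0 ∧ t' = 0 ∧ v' = v

theorem ptr_ext (hP : P.OK act out) {t t' : ℕ} (ht : t ≤ P.L) (ht' : t' ≤ P.L)
    (h : ∀ (j : Fin J) a, Builder490.ptr K P.vis t (a, j) = Builder490.ptr K P.vis t' (a, j)) :
    t = t' := by
  have h1 := h (P.vis t).2 (P.vis t).1
  rw [ptr_eq, if_pos rfl, ptr_eq] at h1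
  by_contra hne
  rw [if_neg] at h1
  · exact one_ne_zero h1
  · intro h2
    exact hne (hP.inj t t' ht ht' h2.symm)

theorem pub_D0 (j : Fin J) (a : Γ) :
    pubC P K (.D0 j : Pb G Λ J) a = Builder490.ptr K P.vis 0 (a, j) := by
  rw [ptr_eq]
  simp only [pubC]
  split_ifs <;> rfl

theorem pub_DL (j : Fin J) (a : Γ) :
    pubC P K (.DL j : Pb G Λ J) a = Builder490.ptr K P.vis P.L (a, j) := by
  rw [ptr_eq]
  simp only [pubC]
  split_ifs <;> rfl

theorem pub_Full (j : Fin J) (a : Γ) :
    pubC P K (.Full j : Pb G Λ J) a = Builder490.pre K P.vis P.L (a, j) := by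
  classical
  rw [pre_eq]
  simp only [pubC]
  by_cases h : ∃ s < P.L, P.vis s = (a, j)
  · rw [if_pos h, if_pos h]
  · rw [if_neg h, if_neg h]

theorem pre_zero (j : Fin J) (a : Γ) : Builder490.pre K P.vis 0 (a, j) = 0 := by
  classical
  rw [pre_eq, if_neg]
  rintro ⟨s, hs, -⟩
  omega

theorem d0_iff (hP : P.OK act out) (s : Sg) {t : ℕ} (ht : t ≤ P.L) (v : Fin P.n → Bool) :
    (∀ (j : Fin J) a, (iex out (.d0 j) : Ex K G Λ J).evalC act (pubC P K)
      (encC act out P K s t v) a = 0) ↔ t = 0 := by
  have : ∀ (j : Fin J) a, (iex out (.d0 j) : Ex K G Λ J).evalC act (pubC P K)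
      (encC act out P K s t v) a = Builder490.ptr K P.vis t (a, j) -
        Builder490.ptr K P.vis 0 (a, j) := by
    intro j a
    simp only [iex, ev_sub, PE.evalC]
    rw [enc_D, pub_D0]
  simp only [this, sub_eq_zero]
  constructor
  · intro h
    exact ptr_ext hP ht (Nat.zero_le _) h
  · rintro rfl j a
    rfl

theorem dL_iff (hP : P.OK act out) (s : Sg) {t : ℕ} (ht : t ≤ P.L) (v : Fin P.n → Bool) :
    (∀ (j : Fin J) a, (iex out (.dL j) : Ex K G Λ J).evalC act (pubC P K)
      (encC act out P K s t v) a = 0) ↔ t = P.L := by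
  have : ∀ (j : Fin J) a, (iex out (.dL j) : Ex K G Λ J).evalC act (pubC P K)
      (encC act out P K s t v) a = Builder490.ptr K P.vis t (a, j) -
        Builder490.ptr K P.vis P.L (a, j) := by
    intro j a
    simp only [iex, ev_sub, PE.evalC]
    rw [enc_D, pub_DL]
  simp only [this, sub_eq_zero]
  constructor
  · intro h
    exact ptr_ext hP ht le_rfl h
  · rintro rfl j a
    rfl

theorem XP_iff (hP : P.OK act out) (v : Fin P.n → Bool) :
    (∀ a, (iex out .XP : Ex K G Λ J).evalC act (pubC P K) (encC act out P K .b P.L v) a = 0) ↔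
      P.outp act out true (P.outp act out false v) = v := by
  have : ∀ a, (iex out .XP : Ex K G Λ J).evalC act (pubC P K) (encC act out P K .b P.L v) a =
      bt K (P.nm v a) - bt K (P.nm (P.outp act out true (P.outp act out false v)) a) := by
    intro a
    simp only [iex, ev_sub, PE.evalC]
    rw [enc_X, enc_F, ← out_lane hP]
    rfl
  simp only [this, sub_eq_zero]
  constructor
  · intro h
    exact (nm_inj hP fun a => bt_inj (h a)).symm
  · intro h a
    rw [h]

theorem YS_iff (hP : P.OK act out) (v : Fin P.n → Bool) :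
    (∀ a, (iex out .YS : Ex K G Λ J).evalC act (pubC P K) (encC act out P K .c P.L v) a = 0) ↔
      P.outp act out false (P.outp act out true v) = v := by
  have : ∀ a, (iex out .YS : Ex K G Λ J).evalC act (pubC P K) (encC act out P K .c P.L v) a =
      bt K (P.nm v a) - bt K (P.nm (P.outp act out false (P.outp act out true v)) a) := by
    intro a
    simp only [iex, ev_sub, PE.evalC]
    rw [enc_Y, enc_F, ← out_lane hP]
    rfl
  simp only [this, sub_eq_zero]
  constructor
  · intro h
    exact (nm_inj hP fun a => bt_inj (h a)).symm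
  · intro h a
    rw [h]

/-- the machine -/
abbrev MM (K : Type) [CommRing K] (G : Type) (J : ℕ) (out : Λ) : PMach K G :=
  mach (K := K) (G := G) (J := J) out

theorem fillEn_iff (s : Sg) (j : Fin J) (g : G) (j' : Fin J) (w : Wr G Λ)
    (r : Rg Λ J → Γ → K) :
    (MM K G J out).En act (pubC P K) (.fill s j g j' w : Lb G Λ J) r ↔
      (∀ i, i ≠ (if s.inv then j' else j) → ∀ a, r (.D i) a = 0) ∧
      ∀ q, gd s.prog j g j' w (if s.inv then .old g j' else .cur j) q →
        ∀ a, (cex q : Ex K G Λ J).evalC act (pubC P K) r a = 0 := by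
  constructor
  · rintro ⟨h1, h2⟩
    refine ⟨fun i hi a => h2 (.D i) ?_ a, h1⟩
    change if s.inv = true then i ≠ j' else i ≠ j
    cases hs : s.inv <;> simpa [hs] using hi
  · rintro ⟨h1, h2⟩
    refine ⟨h2, fun i hi a => ?_⟩
    have hi' : enI (.fill s j g j' w : Lb G Λ J) i := hi
    cases i with
    | D i =>
      refine h1 i ?_ a
      have hi2 : if s.inv = true then i ≠ j' else i ≠ j := hi'
      cases hs : s.inv <;> simpa [hs] using hi2
    | _ => exact hi'.elim

theorem fillBk_iff (s : Sg) (j : Fin J) (g : G) (j' : Fin J) (w : Wr G Λ)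
    (r : Rg Λ J → Γ → K) :
    (MM K G J out).Bk act (pubC P K) (.fill s j g j' w : Lb G Λ J) r ↔
      (∀ i, i ≠ (if s.inv then j else j') → ∀ a, r (.D i) a = 0) ∧
      ∀ q, gd s.prog j g j' w (if s.inv then .cur j else .old g j') q →
        ∀ a, (cex q : Ex K G Λ J).evalC act (pubC P K) r a = 0 := by
  constructor
  · rintro ⟨h1, h2⟩
    refine ⟨fun i hi a => h2 (.D i) ?_ a, h1⟩
    change if s.inv = true then i ≠ j else i ≠ j'
    cases hs : s.inv <;> simpa [hs] using hi
  · rintro ⟨h1, h2⟩
    refine ⟨h2, fun i hi a => ?_⟩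
    have hi' : bkI (.fill s j g j' w : Lb G Λ J) i := hi
    cases i with
    | D i =>
      refine h1 i ?_ a
      have hi2 : if s.inv = true then i ≠ j else i ≠ j' := hi'
      cases hs : s.inv <;> simpa [hs] using hi2
    | _ => exact hi'.elim

/-- forward guards at encoded states -/
theorem en_iff (hP : P.OK act out) (ρ : Lb G Λ J) {t : ℕ} (ht : t ≤ P.L) (v : Fin P.n → Bool) :
    (MM K G J out).En act (pubC P K) ρ (encC act out P K ((MM K G J out).src ρ) t v) ↔
      ∃ t' ≤ P.L, ∃ v', Nx act out P ρ t v t' v' := by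
  cases ρ with
  | fill s j g j' w =>
    change (MM K G J out).En act (pubC P K) (.fill s j g j' w : Lb G Λ J)
      (encC act out P K s t v) ↔ _
    rw [fillEn_iff]
    cases hs : s.inv with
    | false =>
      simp only [Bool.false_eq_true, if_false]
      rw [en_fill hP s t ht v j g j' w]
      constructor
      · rintro ⟨h1, h2, h3, h4, h5⟩
        exact ⟨t + 1, h1, v, t, h1, by simp [hs], by simp [hs], rfl, h2, h3, h4, h5⟩
      · rintro ⟨t', -, v', t0, h1, h2, -, -, h5⟩
        simp only [hs, Bool.false_eq_true, if_false] at h2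
        subst h2
        exact ⟨h1, h5⟩
    | true =>
      simp only [if_true]
      rw [bk_fill hP s t ht v j g j' w]
      constructor
      · rintro ⟨t0, h1, h2, h3⟩
        exact ⟨t0, h1.le, v, t0, h1, by simp [hs, h2], by simp [hs], rfl, h3⟩
      · rintro ⟨t', -, v', t0, h1, h2, -, -, h5⟩
        simp only [hs, if_true] at h2
        exact ⟨t0, h1, h2, h5⟩
  | ab =>
    have hd := dL_iff (K := K) (G := G) (Λ := Λ) (J := J) hP .a ht v
    constructor
    · rintro ⟨-, h2⟩
      exact ⟨0, Nat.zero_le _, v, hd.1 (fun j a => h2 (.dL j) trivial a), rfl, rfl⟩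
    · rintro ⟨t', -, v', h1, -, -⟩
      refine ⟨fun c hc => hc.elim, fun i hi a => ?_⟩
      have hi' : enI (.ab : Lb G Λ J) i := hi
      cases i with
      | dL j => exact hd.2 h1 j a
      | _ => exact hi'.elim
  | bc =>
    have hd := dL_iff (K := K) (G := G) (Λ := Λ) (J := J) hP .b ht v
    have hx := XP_iff (K := K) (G := G) (Λ := Λ) (J := J) hP v
    constructor
    · rintro ⟨-, h2⟩
      have h3 : t = P.L := hd.1 (fun j a => h2 (.dL j) trivial a)
      subst h3
      exact ⟨P.L, le_rfl, P.outp act out false v, rfl, rfl, rfl,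
        hx.1 fun a => h2 .XP trivial a⟩
    · rintro ⟨t', -, v', rfl, -, rfl, h4⟩
      refine ⟨fun c hc => hc.elim, fun i hi a => ?_⟩
      have hi' : enI (.bc : Lb G Λ J) i := hi
      cases i with
      | dL j => exact hd.2 rfl j a
      | XP => exact hx.2 h4 a
      | _ => exact hi'.elim
  | cd =>
    have hd := d0_iff (K := K) (G := G) (Λ := Λ) (J := J) hP .c ht v
    constructor
    · rintro ⟨-, h2⟩
      exact ⟨P.L, le_rfl, v, hd.1 (fun j a => h2 (.d0 j) trivial a), rfl, rfl⟩
    · rintro ⟨t', -, v', h1, -, -⟩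
      refine ⟨fun c hc => hc.elim, fun i hi a => ?_⟩
      have hi' : enI (.cd : Lb G Λ J) i := hi
      cases i with
      | d0 j => exact hd.2 h1 j a
      | _ => exact hi'.elim
  | da =>
    have hd := d0_iff (K := K) (G := G) (Λ := Λ) (J := J) hP .d ht v
    constructor
    · rintro ⟨-, h2⟩
      exact ⟨0, Nat.zero_le _, v, hd.1 (fun j a => h2 (.d0 j) trivial a), rfl, rfl⟩
    · rintro ⟨t', -, v', h1, -, -⟩
      refine ⟨fun c hc => hc.elim, fun i hi a => ?_⟩
      have hi' : enI (.da : Lb G Λ J) i := hi
      cases i with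
      | d0 j => exact hd.2 h1 j a
      | _ => exact hi'.elim

/-- backward guards at encoded states -/
theorem bk_iff (hP : P.OK act out) (ρ : Lb G Λ J) {t' : ℕ} (ht : t' ≤ P.L)
    (v' : Fin P.n → Bool) :
    (MM K G J out).Bk act (pubC P K) ρ (encC act out P K ((MM K G J out).tgt ρ) t' v') ↔
      ∃ t ≤ P.L, ∃ v, Nx act out P ρ t v t' v' := by
  cases ρ with
  | fill s j g j' w =>
    change (MM K G J out).Bk act (pubC P K) (.fill s j g j' w : Lb G Λ J)
      (encC act out P K s t' v') ↔ _
    rw [fillBk_iff]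
    cases hs : s.inv with
    | false =>
      simp only [Bool.false_eq_true, if_false]
      rw [bk_fill hP s t' ht v' j g j' w]
      constructor
      · rintro ⟨t0, h1, h2, h3⟩
        exact ⟨t0, h1.le, v', t0, h1, by simp [hs], by simp [hs, h2], rfl, h3⟩
      · rintro ⟨t, -, v, t0, h1, -, h3, rfl, h5⟩
        simp only [hs, Bool.false_eq_true, if_false] at h3
        exact ⟨t0, h1, h3, h5⟩
    | true =>
      simp only [if_true]
      rw [en_fill hP s t' ht v' j g j' w]
      constructor
      · rintro ⟨h1, h3⟩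
        exact ⟨t' + 1, h1, v', t', h1, by simp [hs], by simp [hs], rfl, h3⟩
      · rintro ⟨t, -, v, t0, h1, -, h3, rfl, h5⟩
        simp only [hs, if_true] at h3
        subst h3
        exact ⟨h1, h5⟩
  | ab =>
    have hd := d0_iff (K := K) (G := G) (Λ := Λ) (J := J) hP .b ht v'
    constructor
    · rintro ⟨-, h2⟩
      exact ⟨P.L, le_rfl, v', rfl, hd.1 (fun j a => h2 (.d0 j) trivial a), rfl⟩
    · rintro ⟨t, -, v, -, h1, -⟩
      refine ⟨fun c hc => hc.elim, fun i hi a => ?_⟩
      have hi' : bkI (.ab : Lb G Λ J) i := hi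
      cases i with
      | d0 j => exact hd.2 h1 j a
      | _ => exact hi'.elim
  | bc =>
    have hd := dL_iff (K := K) (G := G) (Λ := Λ) (J := J) hP .c ht v'
    have hx := YS_iff (K := K) (G := G) (Λ := Λ) (J := J) hP v'
    constructor
    · rintro ⟨-, h2⟩
      have h3 : t' = P.L := hd.1 (fun j a => h2 (.dL j) trivial a)
      subst h3
      exact ⟨P.L, le_rfl, P.outp act out true v', rfl, rfl,
        (hx.1 fun a => h2 .YS trivial a).symm, rfl⟩
    · rintro ⟨t, -, v, -, rfl, h3, h4⟩
      refine ⟨fun c hc => hc.elim, fun i hi a => ?_⟩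
      have hi' : bkI (.bc : Lb G Λ J) i := hi
      cases i with
      | dL j => exact hd.2 rfl j a
      | YS => exact hx.2 (by rw [h4, ← h3]) a
      | _ => exact hi'.elim
  | cd =>
    have hd := dL_iff (K := K) (G := G) (Λ := Λ) (J := J) hP .d ht v'
    constructor
    · rintro ⟨-, h2⟩
      exact ⟨0, Nat.zero_le _, v', rfl, hd.1 (fun j a => h2 (.dL j) trivial a), rfl⟩
    · rintro ⟨t, -, v, -, h1, -⟩
      refine ⟨fun c hc => hc.elim, fun i hi a => ?_⟩
      have hi' : bkI (.cd : Lb G Λ J) i := hi
      cases i with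
      | dL j => exact hd.2 h1 j a
      | _ => exact hi'.elim
  | da =>
    have hd := d0_iff (K := K) (G := G) (Λ := Λ) (J := J) hP .a ht v'
    constructor
    · rintro ⟨-, h2⟩
      exact ⟨0, Nat.zero_le _, v', rfl, hd.1 (fun j a => h2 (.d0 j) trivial a), rfl⟩
    · rintro ⟨t, -, v, -, h1, -⟩
      refine ⟨fun c hc => hc.elim, fun i hi a => ?_⟩
      have hi' : bkI (.da : Lb G Λ J) i := hi
      cases i with
      | d0 j => exact hd.2 h1 j a
      | _ => exact hi'.elim

theorem Nx.le_right {ρ : Lb G Λ J} {t t' : ℕ} {v v' : Fin P.n → Bool}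
    (h : Nx act out P ρ t v t' v') : t' ≤ P.L := by
  cases ρ with
  | fill s j g j' w =>
    obtain ⟨t0, h1, -, h3, -⟩ := h
    rw [h3]
    split_ifs <;> omega
  | ab => rw [h.2.1]; exact Nat.zero_le _
  | bc => exact h.2.1.le
  | cd => exact h.2.1.le
  | da => rw [h.2.1]; exact Nat.zero_le _

theorem Nx.le_left {ρ : Lb G Λ J} {t t' : ℕ} {v v' : Fin P.n → Bool}
    (h : Nx act out P ρ t v t' v') : t ≤ P.L := by
  cases ρ with
  | fill s j g j' w =>
    obtain ⟨t0, h1, h3, -⟩ := h
    rw [h3]
    split_ifs <;> omega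
  | ab => exact h.1.le
  | bc => exact h.1.le
  | cd => rw [h.1]; exact Nat.zero_le _
  | da => rw [h.1]; exact Nat.zero_le _

theorem up_fill_cont (s : Sg) (j : Fin J) (g : G) (j' : Fin J) (w : Wr G Λ) (r : Rg Λ J → Γ → K) :
    (MM K G J out).upC act (pubC P K) (.fill s j g j' w : Lb G Λ J) r = fun i =>
      (if s.inv then fdn s.prog j g j' w i else fup s.prog j g j' w i :
        Ex K G Λ J).evalC act (pubC P K) r := by
  funext i
  change ((if s.inv then fdn s.prog j g j' w else fup s.prog j g j' w) i :
        Ex K G Λ J).evalC act (pubC P K) r = _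
  cases s.inv <;> rfl

theorem dn_fill_cont (s : Sg) (j : Fin J) (g : G) (j' : Fin J) (w : Wr G Λ) (r : Rg Λ J → Γ → K) :
    (MM K G J out).dnC act (pubC P K) (.fill s j g j' w : Lb G Λ J) r = fun i =>
      (if s.inv then fup s.prog j g j' w i else fdn s.prog j g j' w i :
        Ex K G Λ J).evalC act (pubC P K) r := by
  funext i
  change ((if s.inv then fup s.prog j g j' w else fdn s.prog j g j' w) i :
        Ex K G Λ J).evalC act (pubC P K) r = _
  cases s.inv <;> rfl

theorem enc_F0 (s : Sg) (t : ℕ) (v : Fin P.n → Bool) (c : Bool) (l : Λ) (a : Γ)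
    (h : s.amt P.L t c = 0) : encC act out P K s t v (.F c l : Rg Λ J) a = 0 := by
  rw [enc_F, h]
  rfl

theorem enc_M0 (s : Sg) (v : Fin P.n → Bool) (j : Fin J) (a : Γ) :
    encC act out P K s 0 v (.M j : Rg Λ J) a = 0 := by
  rw [enc_M, pre_zero]

/-- forward update of a label on an encoded state -/
theorem up_enc (hP : P.OK act out) (ρ : Lb G Λ J) {t t' : ℕ} {v v' : Fin P.n → Bool}
    (h : Nx act out P ρ t v t' v') :
    (MM K G J out).upC act (pubC P K) ρ (encC act out P K ((MM K G J out).src ρ) t v) =
      encC act out P K ((MM K G J out).tgt ρ) t' v' := by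
  cases ρ with
  | fill s j g j' w =>
    obtain ⟨t0, h1, h2, h3, rfl, rfl, rfl, rfl, rfl⟩ := h
    change (MM K G J out).upC act (pubC P K) (.fill s _ _ _ _ : Lb G Λ J)
      (encC act out P K s t v') = encC act out P K s t' v'
    rw [up_fill_cont]
    funext i a
    cases hs : s.inv with
    | false =>
      simp only [hs, Bool.false_eq_true, if_false] at h2 h3 ⊢
      subst h2 h3
      exact fup_enc hP s h1 v' i a
    | true =>
      simp only [hs, if_true] at h2 h3 ⊢
      subst h2 h3
      exact fdn_enc hP s h1 v' i a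
  | ab =>
    obtain ⟨rfl, rfl, rfl⟩ := h
    funext i a
    cases i with
    | X => rfl
    | Y =>
      change encC act out P K .a P.L v' (.F false out) a = encC act out P K .b 0 v' .Y a
      rw [enc_F, enc_Y, show P.nY act out .b v' = P.outp act out false v' from rfl,
        ← out_lane hP]
      rfl
    | F c l => cases c <;> rfl
    | D j =>
      change pubC P K (.D0 j : Pb G Λ J) a = encC act out P K .b 0 v' (.D j) a
      rw [pub_D0, enc_D]
    | M j =>
      change (0 : K) = encC act out P K .b 0 v' (.M j) a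
      rw [enc_M0]
  | bc =>
    obtain ⟨rfl, rfl, rfl, h4⟩ := h
    funext i a
    cases i with
    | X =>
      change encC act out P K .b P.L v .X a = encC act out P K .c P.L _ .X a
      rw [enc_X, enc_X, show P.nX act out .c (P.outp act out false v) =
        P.outp act out true (P.outp act out false v) from rfl, h4]
      rfl
    | Y => rfl
    | F c l =>
      change encC act out P K .b P.L v (.F c l) a = encC act out P K .c P.L _ (.F c l) a
      cases c with
      | true => rfl
      | false =>
        rw [enc_F, enc_F, show P.nX act out .c (P.outp act out false v) =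
          P.outp act out true (P.outp act out false v) from rfl, h4]
        rfl
    | D j =>
      change encC act out P K .b P.L v (.D j) a =
        encC act out P K .c P.L (P.outp act out false v) (.D j) a
      rw [enc_D, enc_D]
    | M j =>
      change encC act out P K .b P.L v (.M j) a =
        encC act out P K .c P.L (P.outp act out false v) (.M j) a
      rw [enc_M, enc_M]
  | cd =>
    obtain ⟨rfl, rfl, rfl⟩ := h
    funext i a
    cases i with
    | X =>
      change (0 : K) = encC act out P K .d P.L v' .X a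
      rw [enc_X, show P.nX act out .d v' = fun _ => false from rfl, nm_zero, bt_false]
    | Y => rfl
    | F c l => cases c <;> rfl
    | D j =>
      change pubC P K (.DL j : Pb G Λ J) a = encC act out P K .d P.L v' (.D j) a
      rw [pub_DL, enc_D]
    | M j =>
      change pubC P K (.Full j : Pb G Λ J) a = encC act out P K .d P.L v' (.M j) a
      rw [pub_Full, enc_M]
  | da =>
    obtain ⟨rfl, rfl, rfl⟩ := h
    funext i a
    cases i with
    | X => rfl
    | Y =>
      change (0 : K) = encC act out P K .a 0 v' .Y a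
      rw [enc_Y, show P.nY act out .a v' = fun _ => false from rfl, nm_zero, bt_false]
    | F c l => cases c <;> rfl
    | D j =>
      change encC act out P K .d 0 v' (.D j) a = encC act out P K .a 0 v' (.D j) a
      rw [enc_D, enc_D]
    | M j =>
      change encC act out P K .d 0 v' (.M j) a = encC act out P K .a 0 v' (.M j) a
      rw [enc_M, enc_M]

/-- backward update of a label on an encoded state -/
theorem dn_enc (hP : P.OK act out) (ρ : Lb G Λ J) {t t' : ℕ} {v v' : Fin P.n → Bool}
    (h : Nx act out P ρ t v t' v') :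
    (MM K G J out).dnC act (pubC P K) ρ (encC act out P K ((MM K G J out).tgt ρ) t' v') =
      encC act out P K ((MM K G J out).src ρ) t v := by
  cases ρ with
  | fill s j g j' w =>
    obtain ⟨t0, h1, h2, h3, rfl, rfl, rfl, rfl, rfl⟩ := h
    change (MM K G J out).dnC act (pubC P K) (.fill s _ _ _ _ : Lb G Λ J)
      (encC act out P K s t' v') = encC act out P K s t v'
    rw [dn_fill_cont]
    funext i a
    cases hs : s.inv with
    | false =>
      simp only [hs, Bool.false_eq_true, if_false] at h2 h3 ⊢
      subst h2 h3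
      exact fdn_enc hP s h1 v' i a
    | true =>
      simp only [hs, if_true] at h2 h3 ⊢
      subst h2 h3
      exact fup_enc hP s h1 v' i a
  | ab =>
    obtain ⟨rfl, rfl, rfl⟩ := h
    funext i a
    cases i with
    | X => rfl
    | Y =>
      change (0 : K) = encC act out P K .a P.L v' .Y a
      rw [enc_Y, show P.nY act out .a v' = fun _ => false from rfl, nm_zero, bt_false]
    | F c l => cases c <;> rfl
    | D j =>
      change pubC P K (.DL j : Pb G Λ J) a = encC act out P K .a P.L v' (.D j) a
      rw [pub_DL, enc_D]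
    | M j =>
      change pubC P K (.Full j : Pb G Λ J) a = encC act out P K .a P.L v' (.M j) a
      rw [pub_Full, enc_M]
  | bc =>
    obtain ⟨rfl, rfl, rfl, h4⟩ := h
    funext i a
    cases i with
    | X =>
      change encC act out P K .c P.L _ .X a = encC act out P K .b P.L v .X a
      rw [enc_X, enc_X, show P.nX act out .c (P.outp act out false v) =
        P.outp act out true (P.outp act out false v) from rfl, h4]
      rfl
    | Y => rfl
    | F c l =>
      change encC act out P K .c P.L _ (.F c l) a = encC act out P K .b P.L v (.F c l) a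
      cases c with
      | true => rfl
      | false =>
        rw [enc_F, enc_F, show P.nX act out .c (P.outp act out false v) =
          P.outp act out true (P.outp act out false v) from rfl, h4]
        rfl
    | D j =>
      change encC act out P K .c P.L (P.outp act out false v) (.D j) a =
        encC act out P K .b P.L v (.D j) a
      rw [enc_D, enc_D]
    | M j =>
      change encC act out P K .c P.L (P.outp act out false v) (.M j) a =
        encC act out P K .b P.L v (.M j) a
      rw [enc_M, enc_M]
  | cd =>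
    obtain ⟨rfl, rfl, rfl⟩ := h
    funext i a
    cases i with
    | X =>
      change encC act out P K .d P.L v' (.F true out) a = encC act out P K .c 0 v' .X a
      rw [enc_F, enc_X, show P.nX act out .c v' = P.outp act out true v' from rfl,
        ← out_lane hP]
      rfl
    | Y => rfl
    | F c l => cases c <;> rfl
    | D j =>
      change pubC P K (.D0 j : Pb G Λ J) a = encC act out P K .c 0 v' (.D j) a
      rw [pub_D0, enc_D]
    | M j =>
      change (0 : K) = encC act out P K .c 0 v' (.M j) a
      rw [enc_M0]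
  | da =>
    obtain ⟨rfl, rfl, rfl⟩ := h
    funext i a
    cases i with
    | X =>
      change (0 : K) = encC act out P K .d 0 v' .X a
      rw [enc_X, show P.nX act out .d v' = fun _ => false from rfl, nm_zero, bt_false]
    | Y => rfl
    | F c l => cases c <;> rfl
    | D j =>
      change encC act out P K .a 0 v' (.D j) a = encC act out P K .d 0 v' (.D j) a
      rw [enc_D, enc_D]
    | M j =>
      change encC act out P K .a 0 v' (.M j) a = encC act out P K .d 0 v' (.M j) a
      rw [enc_M, enc_M]

theorem Nx.detF {ρ ρ' : Lb G Λ J} {t t' t'' : ℕ} {v v' v'' : Fin P.n → Bool}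
    (h : Nx act out P ρ t v t' v') (h' : Nx act out P ρ' t v t'' v'')
    (hs : (MM K G J out).src ρ = (MM K G J out).src ρ') : ρ = ρ' := by
  cases ρ with
  | fill s j g j' w =>
    obtain ⟨t0, h1, h2, -, -, rfl, rfl, rfl, rfl⟩ := h
    cases ρ' with
    | fill s' j2 g2 j2' w' =>
      obtain ⟨t1, k1, k2, -, -, rfl, rfl, rfl, rfl⟩ := h'
      have hs' : s = s' := hs
      subst hs'
      have : t0 = t1 := by
        rw [h2] at k2
        cases hi : s.inv <;> simpa [hi] using k2
      subst this
      rfl
    | ab =>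
      have hs' : s = .a := hs
      subst hs'
      have h3 : t = t0 := h2
      have h4 := h'.1
      omega
    | bc =>
      have hs' : s = .b := hs
      subst hs'
      have h3 : t = t0 := h2
      have h4 := h'.1
      omega
    | cd =>
      have hs' : s = .c := hs
      subst hs'
      have h3 : t = t0 + 1 := h2
      have h4 := h'.1
      omega
    | da =>
      have hs' : s = .d := hs
      subst hs'
      have h3 : t = t0 + 1 := h2
      have h4 := h'.1
      omega
  | ab =>
    cases ρ' with
    | fill s' j2 g2 j2' w' =>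
      obtain ⟨t1, k1, k2, -⟩ := h'
      have hs' : Sg.a = s' := hs
      subst hs'
      have h3 : t = t1 := k2
      have h4 := h.1
      omega
    | ab => rfl
    | bc => exact absurd (show Sg.a = Sg.b from hs) (by decide)
    | cd => exact absurd (show Sg.a = Sg.c from hs) (by decide)
    | da => exact absurd (show Sg.a = Sg.d from hs) (by decide)
  | bc =>
    cases ρ' with
    | fill s' j2 g2 j2' w' =>
      obtain ⟨t1, k1, k2, -⟩ := h'
      have hs' : Sg.b = s' := hs
      subst hs'
      have h3 : t = t1 := k2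
      have h4 := h.1
      omega
    | ab => exact absurd (show Sg.b = Sg.a from hs) (by decide)
    | bc => rfl
    | cd => exact absurd (show Sg.b = Sg.c from hs) (by decide)
    | da => exact absurd (show Sg.b = Sg.d from hs) (by decide)
  | cd =>
    cases ρ' with
    | fill s' j2 g2 j2' w' =>
      obtain ⟨t1, k1, k2, -⟩ := h'
      have hs' : Sg.c = s' := hs
      subst hs'
      have h3 : t = t1 + 1 := k2
      have h4 := h.1
      omega
    | ab => exact absurd (show Sg.c = Sg.a from hs) (by decide)
    | bc => exact absurd (show Sg.c = Sg.b from hs) (by decide)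
    | cd => rfl
    | da => exact absurd (show Sg.c = Sg.d from hs) (by decide)
  | da =>
    cases ρ' with
    | fill s' j2 g2 j2' w' =>
      obtain ⟨t1, k1, k2, -⟩ := h'
      have hs' : Sg.d = s' := hs
      subst hs'
      have h3 : t = t1 + 1 := k2
      have h4 := h.1
      omega
    | ab => exact absurd (show Sg.d = Sg.a from hs) (by decide)
    | bc => exact absurd (show Sg.d = Sg.b from hs) (by decide)
    | cd => exact absurd (show Sg.d = Sg.c from hs) (by decide)
    | da => rfl

theorem Nx.detB {ρ ρ' : Lb G Λ J} {t s0 t' : ℕ} {v v0 v' : Fin P.n → Bool}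
    (h : Nx act out P ρ t v t' v') (h' : Nx act out P ρ' s0 v0 t' v')
    (hs : (MM K G J out).tgt ρ = (MM K G J out).tgt ρ') : ρ = ρ' := by
  cases ρ with
  | fill s j g j' w =>
    obtain ⟨t0, h1, -, h2, rfl, rfl, rfl, rfl, rfl⟩ := h
    cases ρ' with
    | fill s' j2 g2 j2' w' =>
      obtain ⟨t1, k1, -, k2, rfl, rfl, rfl, rfl, rfl⟩ := h'
      have hs' : s = s' := hs
      subst hs'
      have : t0 = t1 := by
        rw [h2] at k2
        cases hi : s.inv <;> simpa [hi] using k2
      subst this
      rfl
    | ab =>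
      have hs' : s = .b := hs
      subst hs'
      have h3 : t' = t0 + 1 := h2
      have h4 := h'.2.1
      omega
    | bc =>
      have hs' : s = .c := hs
      subst hs'
      have h3 : t' = t0 := h2
      have h4 := h'.2.1
      omega
    | cd =>
      have hs' : s = .d := hs
      subst hs'
      have h3 : t' = t0 := h2
      have h4 := h'.2.1
      omega
    | da =>
      have hs' : s = .a := hs
      subst hs'
      have h3 : t' = t0 + 1 := h2
      have h4 := h'.2.1
      omega
  | ab =>
    cases ρ' with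
    | fill s' j2 g2 j2' w' =>
      obtain ⟨t1, k1, -, k2, -⟩ := h'
      have hs' : Sg.b = s' := hs
      subst hs'
      have h3 : t' = t1 + 1 := k2
      have h4 := h.2.1
      omega
    | ab => rfl
    | bc => exact absurd (show Sg.b = Sg.c from hs) (by decide)
    | cd => exact absurd (show Sg.b = Sg.d from hs) (by decide)
    | da => exact absurd (show Sg.b = Sg.a from hs) (by decide)
  | bc =>
    cases ρ' with
    | fill s' j2 g2 j2' w' =>
      obtain ⟨t1, k1, -, k2, -⟩ := h'
      have hs' : Sg.c = s' := hs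
      subst hs'
      have h3 : t' = t1 := k2
      have h4 := h.2.1
      omega
    | ab => exact absurd (show Sg.c = Sg.b from hs) (by decide)
    | bc => rfl
    | cd => exact absurd (show Sg.c = Sg.d from hs) (by decide)
    | da => exact absurd (show Sg.c = Sg.a from hs) (by decide)
  | cd =>
    cases ρ' with
    | fill s' j2 g2 j2' w' =>
      obtain ⟨t1, k1, -, k2, -⟩ := h'
      have hs' : Sg.d = s' := hs
      subst hs'
      have h3 : t' = t1 := k2
      have h4 := h.2.1
      omega
    | ab => exact absurd (show Sg.d = Sg.b from hs) (by decide)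
    | bc => exact absurd (show Sg.d = Sg.c from hs) (by decide)
    | cd => rfl
    | da => exact absurd (show Sg.d = Sg.a from hs) (by decide)
  | da =>
    cases ρ' with
    | fill s' j2 g2 j2' w' =>
      obtain ⟨t1, k1, -, k2, -⟩ := h'
      have hs' : Sg.a = s' := hs
      subst hs'
      have h3 : t' = t1 + 1 := k2
      have h4 := h.2.1
      omega
    | ab => exact absurd (show Sg.a = Sg.b from hs) (by decide)
    | bc => exact absurd (show Sg.a = Sg.c from hs) (by decide)
    | cd => exact absurd (show Sg.a = Sg.d from hs) (by decide)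
    | da => rfl

theorem Nx.moves (hP : P.OK act out) {ρ : Lb G Λ J} {t t' : ℕ} {v v' : Fin P.n → Bool}
    (h : Nx act out P ρ t v t' v') :
    (MM K G J out).src ρ ≠ (MM K G J out).tgt ρ ∨
      encC act out P K ((MM K G J out).tgt ρ) t' v' ≠
        encC act out P K ((MM K G J out).src ρ) t v := by
  cases ρ with
  | fill s j g j' w =>
    right
    obtain ⟨t0, h1, h2, h3, -⟩ := h
    intro he
    have he' : encC act out P K s t' v' = encC act out P K s t v := he
    have : t' = t := by
      apply ptr_ext (K := K) hP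
      · rw [h3]; split_ifs <;> omega
      · rw [h2]; split_ifs <;> omega
      · intro j a
        have := congrFun (congrFun he' (.D j)) a
        rwa [enc_D, enc_D] at this
    rw [h2, h3] at this
    split_ifs at this <;> omega
  | ab => left; exact fun h => absurd (show Sg.a = Sg.b from h) (by decide)
  | bc => left; exact fun h => absurd (show Sg.b = Sg.c from h) (by decide)
  | cd => left; exact fun h => absurd (show Sg.c = Sg.d from h) (by decide)
  | da => left; exact fun h => absurd (show Sg.d = Sg.a from h) (by decide)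

/-- **THEOREM C1**: the End-of-Line content machine satisfies the axioms -/
theorem mach_ok (hP : P.OK act out) : (MM K G J out).OK act (pubC P K) := by
  refine ⟨fun ρ r hr he => ?_, fun ρ r hr he => ?_, fun ρ ρ' r hs hr he he' => ?_,
    fun ρ ρ' r hs hr he he' => ?_, fun ρ r hr he => ?_⟩
  · obtain ⟨t, ht, v, rfl⟩ := (legal_iff hP _ _).1 hr
    obtain ⟨t', ht', v', hn⟩ := (en_iff hP ρ ht v).1 he
    rw [up_enc hP ρ hn]
    exact ⟨(legal_iff hP _ _).2 ⟨t', ht', v', rfl⟩, (bk_iff hP ρ ht' v').2 ⟨t, ht, v, hn⟩,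
      dn_enc hP ρ hn⟩
  · obtain ⟨t', ht', v', rfl⟩ := (legal_iff hP _ _).1 hr
    obtain ⟨t, ht, v, hn⟩ := (bk_iff hP ρ ht' v').1 he
    rw [dn_enc hP ρ hn]
    exact ⟨(legal_iff hP _ _).2 ⟨t, ht, v, rfl⟩, (en_iff hP ρ ht v).2 ⟨t', ht', v', hn⟩,
      up_enc hP ρ hn⟩
  · obtain ⟨t, ht, v, rfl⟩ := (legal_iff hP _ _).1 hr
    obtain ⟨t', ht', v', hn⟩ := (en_iff hP ρ ht v).1 he
    rw [hs] at he'
    obtain ⟨t'', ht'', v'', hn'⟩ := (en_iff hP ρ' ht v).1 he'
    exact Nx.detF (K := K) hn hn' hs
  · obtain ⟨t', ht', v', rfl⟩ := (legal_iff hP _ _).1 hr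
    obtain ⟨t, ht, v, hn⟩ := (bk_iff hP ρ ht' v').1 he
    rw [hs] at he'
    obtain ⟨s0, hs0, v0, hn'⟩ := (bk_iff hP ρ' ht' v').1 he'
    exact Nx.detB (K := K) hn hn' hs
  · obtain ⟨t, ht, v, rfl⟩ := (legal_iff hP _ _).1 hr
    obtain ⟨t', ht', v', hn⟩ := (en_iff hP ρ ht v).1 he
    rw [up_enc hP ρ hn]
    exact Nx.moves (K := K) hP hn

/-- LEMMA P2 in the literal form of `DefC_143` -/
theorem legal_iff_holds (p : ℕ) [CharP K p] [Fact p.Prime] : legal_iff_stmt (J := J) act out P K p :=
  fun _ hP s r => legal_iff hP s r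

/-- THEOREM C1 in the literal form of `DefC_143` -/
theorem mach_ok_holds (p : ℕ) [CharP K p] [Fact p.Prime] : mach_ok_stmt (J := J) act out P K p :=
  fun _ hP => mach_ok hP

end Crest.Agent.R289.DefC
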