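import Crest.Agent.R289.MemB_12
import Crest.Agent.R289.FamU_782

/-!
# Row 289: the data of `MemB_12` and of `FamU_782` are the same (helper146)
-/

set_option autoImplicit false

namespace Crest.Agent.R289.MemBr146

open Crest.Agent.R289.Asm12 Crest.Agent.R289.DefC Crest.Agent.R289.DefI
  Crest.Agent.R289.InsObj576 Crest.Agent.R289.Mem12 Crest.Agent.R289.Compile827

variable {D : Obj} {M0 : ℕ} {lam0 Kr : ℝ} {h : D.OK M0 lam0 Kr} {W c0 : ℕ} (i : Mem h W c0)

theorem nbc_eq : i.nbc = FamU782.nbc i := rfl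

theorem nb0_eq : i.nb0 = FamU782.nb0 i := rfl

theorem lm_eq : i.lm = FamU782.lmM i := rfl

theorem word_eq (f : Conf (FamU782.XM i) (FamU782.ZM i) (cst h W).A.Tr) :
    i.word f = FamU782.labM i f := rfl

theorem w0_eq : i.w0 = FamU782.labM i (FamU782.lmM i).c0 := rfl

theorem clk_eq : Clock425.clkC i.e = FamU782.clkM i := ClockObj698.clkC_eq i.I i.e

theorem C_eq : i.C = FamU782.codeM i :=
  congrArg (fun V => RegsObj335.labCO h W i.kP i.kR i.kT V) (clk_eq i)

theorem mvF_eq : i.mvF = (i.I.frame i.mc fun _ => ()).act := rfl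

theorem pubF_eq : i.pubF = (i.I.frame i.mc fun _ => ()).pub := rfl

/-- the step set of `TopU_782` -/
theorem mv_eq : i.mv = Sum.elim (i.I.frame i.mc fun _ => ()).act (FamU782.nb0 i) := rfl

end Crest.Agent.R289.MemBr146
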