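import Crest.Agent.R289.FamU_782
import Crest.Agent.R289.LocLM_89
import Crest.Agent.R289.LocI_306

/-!
# Row 289, line 1: the label code over 89's labels

* `e89` : 89's label `LocLM89.Lab Ck BX BZ Tr` is the literal label `c.Lab Ck` of `DefI_306`;
  `rx`, `rz` : content words and certificates of `LMI827.lmI` seen at the units;
* `code_eq`, `code_CAx` : 560's `LabCode` through `e89` is `LocLM89.code (lmI ..) rx rz cw`;
* `code89_eq`, `caxM89` : the same for a member `i : Mem12.Mem h W c0` (782's `codeM`, `caxM`).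
-/

set_option autoImplicit false
set_option linter.unusedVariables false
set_option linter.unusedSectionVars false

namespace Crest.Agent.R289.MemCAx465

open Crest.Agent.R289.DefD Crest.Agent.R289.Word508 Crest.Agent.R289.DefI
open Crest.Agent.R289.Compile827 (Letter Conf LM)
open Crest.Agent.R289.LMI827 (Hyp XS ZS InPC InZ lmI)
open Crest.Agent.R289.LabCAx560 (LabCode labOf cur unc)

/-! ### labels -/

section lab

variable {K : Type} [Field K] {c : Cst K}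

/-- bank from its content label and its certificate label -/
def toB (x : c.BX) (z : c.BZ) : c.Bank := ⟨x.1, x.2, z.X, z.Xm, z.Z, z.Zm⟩

/-- 89's labels are the literal labels -/
def e89 (c : Cst K) (Ck : Type) : LocLM89.Lab Ck c.BX c.BZ c.A.Tr ≃ c.Lab Ck where
  toFun a := ⟨a.l, a.c, toB a.x1 a.z1, toB a.x2 a.z2⟩
  invFun a := ⟨a.l, a.ck, (a.b1.stg, a.b1.R), ⟨a.b1.X, a.b1.Xm, a.b1.Z, a.b1.Zm⟩,
    (a.b2.stg, a.b2.R), ⟨a.b2.X, a.b2.Xm, a.b2.Z, a.b2.Zm⟩⟩
  left_inv _ := rfl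
  right_inv _ := rfl

variable {I : Ins c} {CG : ℕ → Submodule K (I.Om → K)} {CT : ℕ → Submodule K (I.n → K)}
  {tt : ℕ → I.T} {Ck : Type}

/-- content words seen at the units -/
def rx (x : XS I CG) : I.U → c.BX := I.xwE x.1

/-- certificates seen at the units -/
def rz (z : ZS I CG CT) : I.U → c.BZ := I.zwE z.1

theorem e89_word (cw : ℕ → I.U → Ck) (f : Conf (XS I CG) (ZS I CG CT) c.A.Tr) (u : I.U) :
    e89 c Ck (LocLM89.word rx rz cw f u) = LabCAx560.labS I CG CT cw f u := rfl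

theorem e89_symm_labS (cw : ℕ → I.U → Ck) (f : Conf (XS I CG) (ZS I CG CT) c.A.Tr) (u : I.U) :
    (e89 c Ck).symm (LabCAx560.labS I CG CT cw f u) = LocLM89.word rx rz cw f u := rfl

/-- label words through `e89` -/
theorem code_eq' (h : Hyp I CG CT tt) (hx0 : c.A.Legal I.act I.pubC I.stg0 (I.con I.xs))
    (hb0 : ∀ ρ, ¬ (I.stg0 = c.A.tgt ρ ∧ c.A.Bk I.act I.pubC ρ (I.con I.xs)))
    (cw : ℕ → I.U → Ck) :
    {w : I.U → LocLM89.Lab Ck c.BX c.BZ c.A.Tr | (fun u => e89 c Ck (w u)) ∈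
      {w | ∃ f : Conf (XS I CG) (ZS I CG CT) c.A.Tr, f.t ≤ I.L ∧
        w = LabCAx560.labS I CG CT cw f}} =
      LocLM89.code (lmI h hx0 hb0) rx rz cw := by
  ext w
  constructor
  · rintro ⟨f, hf, hw⟩
    refine ⟨f, hf, ?_⟩
    funext u
    exact (e89 c Ck).injective ((congrFun hw u).trans (e89_word cw f u).symm)
  · rintro ⟨f, hf, rfl⟩
    exact ⟨f, hf, rfl⟩

/-- **560's register code through 89's labels is `LocLM89.code (lmI ..)`** -/
theorem code_eq (h : Hyp I CG CT tt) (hx0 : c.A.Legal I.act I.pubC I.stg0 (I.con I.xs))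
    (hb0 : ∀ ρ, ¬ (I.stg0 = c.A.tgt ρ ∧ c.A.Bk I.act I.pubC ρ (I.con I.xs)))
    (cw : ℕ → I.U → Ck) :
    {w : I.U → LocLM89.Lab Ck c.BX c.BZ c.A.Tr | (fun u => e89 c Ck (w u)) ∈
      LabCode I (cur (CG 1)) (cur (CG 4)) (cur (CT 1)) (cur (CT 2))
        {t | ∃ n, n ≤ I.L ∧ t = cw n}} =
      LocLM89.code (lmI h hx0 hb0) rx rz cw := by
  rw [LabCAx560.LabCode_labS]
  exact code_eq' h hx0 hb0 cw

/-- **the `CAx` of 560 on `LocLM89.code`** -/
theorem code_CAx [Fintype I.U] {ι P : Type} {R : CRules ι (c.Lab Ck) P} {nb : ι → I.U → I.U}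
    {pub : I.U → P} {m zs r0 d0 k θ : ℝ} {cw : ℕ → I.U → Ck} (h : Hyp I CG CT tt)
    (hx0 : c.A.Legal I.act I.pubC I.stg0 (I.con I.xs))
    (hb0 : ∀ ρ, ¬ (I.stg0 = c.A.tgt ρ ∧ c.A.Bk I.act I.pubC ρ (I.con I.xs)))
    (hC : CAx R nb pub (LabCode I (cur (CG 1)) (cur (CG 4)) (cur (CT 1)) (cur (CT 2))
      {t | ∃ n, n ≤ I.L ∧ t = cw n}) m zs r0 d0 k θ) :
    CAx (LabCAx560.relabel R (e89 c Ck)) nb pub (LocLM89.code (lmI h hx0 hb0) rx rz cw)
      m zs r0 d0 k θ := by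
  rw [← code_eq h hx0 hb0 cw]
  exact LabCAx560.relabel_CAx hC (e89 c Ck)

end lab

/-! ### one member -/

section member

open Crest.Agent.R289.Asm12 Crest.Agent.R289.RegsObj335 Crest.Agent.R289.InsObj576
open Crest.Agent.R289.Mem12 Crest.Agent.R289.FamU782

variable {D : Obj} {M0 : ℕ} {lam0 Kr : ℝ} {h : D.OK M0 lam0 Kr} {W c0 : ℕ}

theorem e89_labM (i : Mem h W c0) (f : Conf (XM i) (ZM i) (cst h W).A.Tr) (u : i.I.U) :
    e89 (cst h W) (ZMod 3) (LocLM89.word rx rz i.cw f u) = labM i f u := rfl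

/-- the label code of a member over 89's labels -/
theorem code89_eq (i : Mem h W c0) :
    {w : i.I.U → LocLM89.Lab (ZMod 3) (cst h W).BX (cst h W).BZ (cst h W).A.Tr |
      (fun u => e89 (cst h W) (ZMod 3) (w u)) ∈ codeM i} = LocLM89.code (lmM i) rx rz i.cw := by
  rw [codeM_eq]
  exact code_eq' (hypM i) (hx0M i) (hb0M i) i.cw

/-- **the local code of the labels over 89's labels** (= `hcode` of `LocTop25.fam289_of_loc`) -/
theorem caxM89 (h : D.OK M0 lam0 Kr) (W c0 : ℕ) (hK : 0 ≤ Kr) (h4 : 4 ≤ M0)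
    (hl : lam0 ≤ 1 / 64) :
    ∃ k : CK D, ∀ i : Mem h W c0,
      CAx (LabCAx560.relabel
        (labRO h W k.n (P := Unit) (Clock425.clkRules 3 (ClockU698.SJ 3)))
        (e89 (cst h W) (ZMod 3))) (nb0 i) (fun _ => ()) (LocLM89.code (lmM i) rx rz i.cw)
        1 k.zs k.r0 k.d0 k.cc (1 / 4) := by
  obtain ⟨k, hk⟩ := caxM h W c0 hK h4 hl
  refine ⟨k, fun i => ?_⟩
  rw [← code89_eq]
  exact LabCAx560.relabel_CAx (hk i) (e89 (cst h W) (ZMod 3))

end member

end Crest.Agent.R289.MemCAx465
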