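import Crest.Agent.R289.DefC_143

/-!
# Row 289, leaf C_W for the literal expressions `DefC.PE` of DefC_143

The same `PE.evalC` evaluates contents (points = addresses) and words (points = points of the code,
steps = left translations).

* `evalC_comap`: equivariant maps; content of a word expression = content expression.
* `evalC_mem`: a homogeneous expression of degree `d` of words of degree one (= `s`) is a word of
  degree `d`.
* `word_of_content`: both together, for the orbit `h0 : Γ → Ω` carrying the contents.
* `zero_iff`: a component vanishes on the orbit iff the content component vanishes (`CZ`).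
* `evalC_linear`: expressions homogeneous of degree `1` are additive in (publics, registers).
* `offs`, `evalC_congr`, `card_evalC_ne_le`: locality.
-/

set_option autoImplicit false

namespace Crest.Agent.R289.WordC880

open Finset DefC

variable {K R B G : Type} [CommRing K]

theorem symm_comm {Γ Γ' : Type} (act : G → Equiv.Perm Γ) (act' : G → Equiv.Perm Γ') (φ : Γ → Γ')
    (hφ : ∀ g x, φ (act g x) = act' g (φ x)) (g : G) (x : Γ) :
    φ ((act g).symm x) = (act' g).symm (φ x) := by
  rw [Equiv.eq_symm_apply, ← hφ, Equiv.apply_symm_apply]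

/-- **evaluation and equivariant maps** -/
theorem evalC_comap {Γ Γ' : Type} (act : G → Equiv.Perm Γ) (act' : G → Equiv.Perm Γ')
    (φ : Γ → Γ') (hφ : ∀ g x, φ (act g x) = act' g (φ x))
    (b : B → Γ → K) (b' : B → Γ' → K) (hb : ∀ i x, b i x = b' i (φ x))
    (r : R → Γ → K) (r' : R → Γ' → K) (hr : ∀ i x, r i x = r' i (φ x))
    (e : PE K R B G) (x : Γ) :
    e.evalC act b r x = e.evalC act' b' r' (φ x) := by
  induction e generalizing x with
  | zero => rfl
  | reg i => exact hr i x
  | pub i => exact hb i x
  | smul c e ih => simp only [PE.evalC, ih]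
  | add e f ihe ihf => simp only [PE.evalC, ihe, ihf]
  | mul e f ihe ihf => simp only [PE.evalC, ihe, ihf]
  | tr g e ih => simp only [PE.evalC, ih, hφ]
  | ti g e ih => simp only [PE.evalC, ih, symm_comm act act' φ hφ]

/-- **a homogeneous expression of words is a word**: `C d` = words of degree `d * s` -/
theorem evalC_mem {Ω : Type} (act : G → Equiv.Perm Ω) (C : ℕ → Submodule K (Ω → K))
    (hmul : ∀ a b f g, f ∈ C a → g ∈ C b → (fun x => f x * g x) ∈ C (a + b))
    (htr : ∀ g a f, f ∈ C a → (fun x => f (act g x)) ∈ C a)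
    (hti : ∀ g a f, f ∈ C a → (fun x => f ((act g).symm x)) ∈ C a)
    (b : B → Ω → K) (r : R → Ω → K) (hb : ∀ i, b i ∈ C 1) (hr : ∀ i, r i ∈ C 1)
    (e : PE K R B G) (d : ℕ) (he : e.Hom d) : e.evalC act b r ∈ C d := by
  induction e generalizing d with
  | zero => exact (C d).zero_mem
  | reg i => simp only [PE.Hom] at he; subst he; exact hr i
  | pub i => simp only [PE.Hom] at he; subst he; exact hb i
  | smul c e ih => exact (C d).smul_mem c (ih d he)
  | add e f ihe ihf => exact (C d).add_mem (ihe d he.1) (ihf d he.2)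
  | mul e f ihe ihf =>
    obtain ⟨a, c, rfl, h1, h2⟩ := he
    exact hmul a c _ _ (ihe a h1) (ihf c h2)
  | tr g e ih => exact htr g d _ (ih d he)
  | ti g e ih => exact hti g d _ (ih d he)

/-- **C_W**: words restrict to contents, expressions commute with the restriction -/
theorem word_of_content {Γ Ω : Type} (act : G → Equiv.Perm Γ) (actO : G → Equiv.Perm Ω)
    (h0 : Γ → Ω) (hh : ∀ g a, h0 (act g a) = actO g (h0 a)) (C : ℕ → Submodule K (Ω → K))
    (hmul : ∀ a b f g, f ∈ C a → g ∈ C b → (fun x => f x * g x) ∈ C (a + b))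
    (htr : ∀ g a f, f ∈ C a → (fun x => f (actO g x)) ∈ C a)
    (hti : ∀ g a f, f ∈ C a → (fun x => f ((actO g).symm x)) ∈ C a)
    (b : B → Ω → K) (r : R → Ω → K) (hb : ∀ i, b i ∈ C 1) (hr : ∀ i, r i ∈ C 1)
    (e : PE K R B G) (d : ℕ) (he : e.Hom d) :
    e.evalC actO b r ∈ C d ∧
      ∀ a, e.evalC actO b r (h0 a) =
        e.evalC act (fun i a => b i (h0 a)) (fun i a => r i (h0 a)) a :=
  ⟨evalC_mem actO C hmul htr hti b r hb hr e d he,
    fun a => (evalC_comap act actO h0 hh _ b (fun _ _ => rfl) _ r (fun _ _ => rfl) e a).symm⟩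

/-- the word expression vanishes on the orbit iff the component vanishes as a content -/
theorem zero_iff {Γ Ω : Type} (A : PMach K G) (act : G → Equiv.Perm Γ) (actO : G → Equiv.Perm Ω)
    (h0 : Γ → Ω) (hh : ∀ g a, h0 (act g a) = actO g (h0 a))
    (b : A.Pub → Ω → K) (r : A.Reg → Ω → K) (c : A.Comp) :
    (∀ a, (A.comp c).evalC actO b r (h0 a) = 0) ↔
      A.CZ act (fun i a => b i (h0 a)) (fun i a => r i (h0 a)) c := by
  unfold PMach.CZ
  constructor
  · intro h a
    rw [evalC_comap act actO h0 hh _ b (fun _ _ => rfl) _ r (fun _ _ => rfl)]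
    exact h a
  · intro h a
    rw [← evalC_comap act actO h0 hh _ b (fun _ _ => rfl) _ r (fun _ _ => rfl)]
    exact h a

/-- if words of degree one are determined by their contents, a linear identity holds for the words
iff it holds for the contents (`IZ`) -/
theorem idl_iff {Γ Ω : Type} (A : PMach K G) (act : G → Equiv.Perm Γ) (actO : G → Equiv.Perm Ω)
    (h0 : Γ → Ω) (hh : ∀ g a, h0 (act g a) = actO g (h0 a)) (C : ℕ → Submodule K (Ω → K))
    (hmul : ∀ a b f g, f ∈ C a → g ∈ C b → (fun x => f x * g x) ∈ C (a + b))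
    (htr : ∀ g a f, f ∈ C a → (fun x => f (actO g x)) ∈ C a)
    (hti : ∀ g a f, f ∈ C a → (fun x => f ((actO g).symm x)) ∈ C a)
    (hrig : ∀ f ∈ C 1, (∀ a, f (h0 a) = 0) → f = 0)
    (b : A.Pub → Ω → K) (r : A.Reg → Ω → K) (hb : ∀ i, b i ∈ C 1) (hr : ∀ i, r i ∈ C 1)
    (i : A.Idl) (hi : (A.idl i).Hom 1) :
    (∀ x, (A.idl i).evalC actO b r x = 0) ↔
      A.IZ act (fun i a => b i (h0 a)) (fun i a => r i (h0 a)) i := by
  unfold PMach.IZ
  have hw := word_of_content act actO h0 hh C hmul htr hti b r hb hr (A.idl i) 1 hi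
  constructor
  · intro h a
    rw [← hw.2 a]
    exact h (h0 a)
  · intro h x
    have hz := hrig _ hw.1 (fun a => by rw [hw.2 a]; exact h a)
    exact congrFun hz x

/-- the update words have the updated contents -/
theorem upW_content {Γ Ω : Type} (A : PMach K G) (act : G → Equiv.Perm Γ)
    (actO : G → Equiv.Perm Ω) (h0 : Γ → Ω) (hh : ∀ g a, h0 (act g a) = actO g (h0 a))
    (b : A.Pub → Ω → K) (r : A.Reg → Ω → K) (ρ : A.Tr) (i : A.Reg) (a : Γ) :
    (A.up ρ i).evalC actO b r (h0 a) =
      A.upC act (fun i a => b i (h0 a)) ρ (fun i a => r i (h0 a)) i a :=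
  (evalC_comap act actO h0 hh _ b (fun _ _ => rfl) _ r (fun _ _ => rfl) _ a).symm

theorem dnW_content {Γ Ω : Type} (A : PMach K G) (act : G → Equiv.Perm Γ)
    (actO : G → Equiv.Perm Ω) (h0 : Γ → Ω) (hh : ∀ g a, h0 (act g a) = actO g (h0 a))
    (b : A.Pub → Ω → K) (r : A.Reg → Ω → K) (ρ : A.Tr) (i : A.Reg) (a : Γ) :
    (A.dn ρ i).evalC actO b r (h0 a) =
      A.dnC act (fun i a => b i (h0 a)) ρ (fun i a => r i (h0 a)) i a :=
  (evalC_comap act actO h0 hh _ b (fun _ _ => rfl) _ r (fun _ _ => rfl) _ a).symm

/-! ### linearity of the degree-one expressions -/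

/-- an expression of degree zero is zero -/
theorem evalC_deg_zero {Γ : Type} (act : G → Equiv.Perm Γ) (b : B → Γ → K) (r : R → Γ → K)
    (e : PE K R B G) (he : e.Hom 0) (x : Γ) : e.evalC act b r x = 0 := by
  induction e generalizing x with
  | zero => rfl
  | reg i => simp [PE.Hom] at he
  | pub i => simp [PE.Hom] at he
  | smul c e ih => simp only [PE.evalC, ih he, mul_zero]
  | add e f ihe ihf => simp only [PE.evalC, ihe he.1, ihf he.2, add_zero]
  | mul e f ihe ihf =>
    obtain ⟨a, c, h, h1, h2⟩ := he
    have ha : a = 0 := by omega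
    subst ha
    simp only [PE.evalC, ihe h1, zero_mul]
  | tr g e ih => simp only [PE.evalC, ih he]
  | ti g e ih => simp only [PE.evalC, ih he]

/-- expressions homogeneous of degree one are additive -/
theorem evalC_linear {Γ : Type} (act : G → Equiv.Perm Γ) (b b' : B → Γ → K) (r r' : R → Γ → K)
    (e : PE K R B G) (he : e.Hom 1) (x : Γ) :
    e.evalC act (fun i x => b i x + b' i x) (fun i x => r i x + r' i x) x =
      e.evalC act b r x + e.evalC act b' r' x := by
  induction e generalizing x with
  | zero => simp [PE.evalC]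
  | reg i => rfl
  | pub i => rfl
  | smul c e ih => simp only [PE.evalC, ih he]; ring
  | add e f ihe ihf => simp only [PE.evalC, ihe he.1, ihf he.2]; ring
  | mul e f ihe ihf =>
    obtain ⟨a, c, h, h1, h2⟩ := he
    rcases Nat.eq_zero_or_pos a with ha | ha
    · subst ha
      simp only [PE.evalC, evalC_deg_zero act _ _ e h1, zero_mul, add_zero]
    · have hc : c = 0 := by omega
      subst hc
      simp only [PE.evalC, evalC_deg_zero act _ _ f h2, mul_zero, add_zero]
  | tr g e ih => simp only [PE.evalC, ih he]
  | ti g e ih => simp only [PE.evalC, ih he]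

/-- expressions homogeneous of degree one are compatible with scalars -/
theorem evalC_smul {Γ : Type} (act : G → Equiv.Perm Γ) (k : K) (b : B → Γ → K) (r : R → Γ → K)
    (e : PE K R B G) (he : e.Hom 1) (x : Γ) :
    e.evalC act (fun i x => k * b i x) (fun i x => k * r i x) x = k * e.evalC act b r x := by
  induction e generalizing x with
  | zero => simp [PE.evalC]
  | reg i => rfl
  | pub i => rfl
  | smul c e ih => simp only [PE.evalC, ih he]; ring
  | add e f ihe ihf => simp only [PE.evalC, ihe he.1, ihf he.2]; ring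
  | mul e f ihe ihf =>
    obtain ⟨a, c, h, h1, h2⟩ := he
    rcases Nat.eq_zero_or_pos a with ha | ha
    · subst ha
      simp only [PE.evalC, evalC_deg_zero act _ _ e h1, zero_mul, mul_zero]
    · have hc : c = 0 := by omega
      subst hc
      simp only [PE.evalC, evalC_deg_zero act _ _ f h2, mul_zero]
  | tr g e ih => simp only [PE.evalC, ih he]
  | ti g e ih => simp only [PE.evalC, ih he]

/-! ### locality -/

/-- the translation paths at which an expression is read (`false` = forward step) -/
def offs : PE K R B G → List (List (Bool × G))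
  | .zero => []
  | .reg _ => [[]]
  | .pub _ => [[]]
  | .smul _ e => offs e
  | .add e f => offs e ++ offs f
  | .mul e f => offs e ++ offs f
  | .tr g e => (offs e).map fun p => (false, g) :: p
  | .ti g e => (offs e).map fun p => (true, g) :: p

/-- the point reached along a path -/
def run {Γ : Type} (act : G → Equiv.Perm Γ) : List (Bool × G) → Γ → Γ
  | [], x => x
  | (false, g) :: p, x => run act p (act g x)
  | (true, g) :: p, x => run act p ((act g).symm x)

theorem run_injective {Γ : Type} (act : G → Equiv.Perm Γ) (p : List (Bool × G)) :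
    Function.Injective (run act p) := by
  induction p with
  | nil => exact fun _ _ h => h
  | cons c p ih =>
    obtain ⟨b, g⟩ := c
    cases b with
    | false => exact fun x y h => (act g).injective (ih h)
    | true => exact fun x y h => (act g).symm.injective (ih h)

/-- locality: the value depends only on registers and public words at the points of the paths -/
theorem evalC_congr {Γ : Type} (act : G → Equiv.Perm Γ) (b b' : B → Γ → K) (r r' : R → Γ → K)
    (e : PE K R B G) (x : Γ)
    (h : ∀ p ∈ offs e, (∀ i, r i (run act p x) = r' i (run act p x)) ∧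
      ∀ i, b i (run act p x) = b' i (run act p x)) :
    e.evalC act b r x = e.evalC act b' r' x := by
  induction e generalizing x with
  | zero => rfl
  | reg i => exact (h [] (by simp [offs])).1 i
  | pub i => exact (h [] (by simp [offs])).2 i
  | smul c e ih =>
    simp only [PE.evalC]
    rw [ih x fun p hp => h p (by simpa only [offs] using hp)]
  | add e f ihe ihf =>
    simp only [PE.evalC]
    rw [ihe x fun p hp => h p (by simp only [offs, List.mem_append]; exact Or.inl hp),
      ihf x fun p hp => h p (by simp only [offs, List.mem_append]; exact Or.inr hp)]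
  | mul e f ihe ihf =>
    simp only [PE.evalC]
    rw [ihe x fun p hp => h p (by simp only [offs, List.mem_append]; exact Or.inl hp),
      ihf x fun p hp => h p (by simp only [offs, List.mem_append]; exact Or.inr hp)]
  | tr g e ih =>
    simp only [PE.evalC]
    apply ih
    intro p hp
    exact h ((false, g) :: p) (by simp only [offs, List.mem_map]; exact ⟨p, hp, rfl⟩)
  | ti g e ih =>
    simp only [PE.evalC]
    apply ih
    intro p hp
    exact h ((true, g) :: p) (by simp only [offs, List.mem_map]; exact ⟨p, hp, rfl⟩)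

open Classical in
/-- number of changed values ≤ number of paths times number of places with a changed register -/
theorem card_evalC_ne_le {Γ : Type} [Fintype Γ] (act : G → Equiv.Perm Γ) (b : B → Γ → K)
    (r r' : R → Γ → K) (e : PE K R B G) :
    (univ.filter fun x => e.evalC act b r x ≠ e.evalC act b r' x).card ≤
      (offs e).length * (univ.filter fun x => ∃ i, r i x ≠ r' i x).card := by
  set E : Finset Γ := univ.filter fun x => ∃ i, r i x ≠ r' i x with hE
  have hsub : (univ.filter fun x => e.evalC act b r x ≠ e.evalC act b r' x) ⊆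
      ((offs e).toFinset.biUnion fun p => univ.filter fun x => run act p x ∈ E) := by
    intro x hx
    rw [mem_filter] at hx
    by_contra hc
    apply hx.2
    apply evalC_congr
    intro p hp
    refine ⟨fun i => ?_, fun _ => rfl⟩
    by_contra hr
    apply hc
    rw [mem_biUnion]
    refine ⟨p, List.mem_toFinset.2 hp, ?_⟩
    rw [mem_filter]
    refine ⟨mem_univ _, ?_⟩
    rw [hE, mem_filter]
    exact ⟨mem_univ _, i, hr⟩
  refine (card_le_card hsub).trans (card_biUnion_le.trans ?_)
  have hle : ∀ p ∈ (offs e).toFinset, (univ.filter fun x => run act p x ∈ E).card ≤ E.card := by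
    intro p _
    apply card_le_card_of_injOn (run act p)
    · intro x hx
      simp only [coe_filter, mem_univ, true_and, Set.mem_ofPred_eq] at hx
      exact hx
    · exact fun x _ y _ hxy => run_injective act p hxy
  calc ∑ p ∈ (offs e).toFinset, (univ.filter fun x => run act p x ∈ E).card
      ≤ ∑ _p ∈ (offs e).toFinset, E.card := sum_le_sum hle
    _ = (offs e).toFinset.card * E.card := by rw [sum_const, smul_eq_mul]
    _ ≤ (offs e).length * E.card :=
        Nat.mul_le_mul_right _ (List.toFinset_card_le _)

/-! ### the machine of DefC is well formed -/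

theorem mach_WF (Λ : Type) (J : ℕ) [DecidableEq Λ] (out : Λ) :
    (mach (K := K) (G := G) (J := J) out).WF 4 := by
  have h2 : ∀ (c : Bool) (k : Op G Λ), (k.ex c : Ex K G Λ J).Hom 2 := by
    intro c k
    cases k with
    | inp => exact ⟨1, 1, rfl, rfl, rfl⟩
    | cst b => exact ⟨1, 1, rfl, rfl, rfl⟩
    | nand g l g' l' => exact ⟨⟨1, 1, rfl, rfl, rfl⟩, ⟨1, 1, rfl, rfl, rfl⟩⟩
  have hp : ∀ p : Pt G J, (p.ex : Ex K G Λ J).Hom 1 := by
    intro p; cases p <;> exact rfl
  have ha : ∀ a : Ar G Λ, (a.ex : Ex K G Λ J).Hom 1 := by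
    intro a
    cases a with
    | no => exact trivial
    | name c => exact rfl
    | cell c g l => exact rfl
  have huu : ((PE.mul u u : Ex K G Λ J)).Hom 2 := ⟨1, 1, rfl, rfl, rfl⟩
  refine ⟨?_, ?_, ?_, ?_⟩
  · intro c
    change (cex c : Ex K G Λ J).Hom 4
    cases c with
    | bool r => exact ⟨2, 2, rfl, huu, ⟨1, 1, rfl, rfl, rfl⟩, ⟨1, 1, rfl, rfl, rfl⟩⟩
    | dm j => exact ⟨2, 2, rfl, huu, ⟨1, 1, rfl, rfl, rfl⟩⟩
    | visD j => exact ⟨2, 2, rfl, huu, ⟨1, 1, rfl, ⟨rfl, rfl⟩, rfl⟩⟩
    | visM j => exact ⟨2, 2, rfl, huu, ⟨1, 1, rfl, ⟨rfl, rfl⟩, rfl⟩⟩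
    | inX => exact ⟨2, 2, rfl, huu, ⟨1, 1, rfl, ⟨rfl, rfl⟩, rfl⟩⟩
    | inY => exact ⟨2, 2, rfl, huu, ⟨1, 1, rfl, ⟨rfl, rfl⟩, rfl⟩⟩
    | step j g j' => exact ⟨2, 2, rfl, huu, ⟨1, 1, rfl, rfl, ⟨rfl, ⟨rfl, rfl⟩⟩⟩⟩
    | fi j => exact ⟨2, 2, rfl, huu, ⟨1, 1, rfl, rfl, ⟨⟨rfl, rfl⟩, rfl⟩⟩⟩
    | la j => exact ⟨2, 2, rfl, huu, ⟨1, 1, rfl, rfl, rfl⟩⟩
    | unw c l => exact ⟨2, 2, rfl, huu, ⟨1, 1, rfl, ⟨rfl, rfl⟩, rfl⟩⟩
    | cell c f j l k =>
      refine ⟨1, 3, rfl, rfl, ⟨2, 1, rfl, huu, rfl⟩, ⟨1, 2, rfl, ?_, h2 c k⟩⟩
      cases f <;> exact rfl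
    | gE j g j' p => exact ⟨2, 2, rfl, huu, ⟨1, 1, rfl, ⟨rfl, rfl⟩, hp p⟩⟩
    | gN c j p => exact ⟨2, 2, rfl, huu, ⟨1, 1, rfl, rfl, hp p⟩⟩
    | gW c j l k p => exact ⟨2, 2, rfl, huu, ⟨1, 1, rfl, ⟨rfl, rfl⟩, hp p⟩⟩
    | gA a β p => exact ⟨2, 2, rfl, huu, ⟨1, 1, rfl, ⟨ha a, rfl⟩, hp p⟩⟩
  · intro i
    change (iex out i : Ex K G Λ J).Hom 1
    cases i with
    | D j => exact rfl
    | d0 j => exact ⟨rfl, rfl⟩
    | dL j => exact ⟨rfl, rfl⟩
    | X0 => exact rfl
    | Y0 => exact rfl
    | F0 c l => exact rfl
    | YS => exact ⟨rfl, rfl⟩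
    | XP => exact ⟨rfl, rfl⟩
  · intro ρ r
    have hfup : ∀ (c : Bool) (j : Fin J) (g : G) (j' : Fin J) (w : Wr G Λ) (r : Rg Λ J),
        (fup (K := K) c j g j' w r).Hom 1 := by
      intro c j g j' w r
      cases r with
      | X => exact rfl
      | Y => exact rfl
      | F c' l =>
        cases w with
        | idle => exact rfl
        | put l' k β β' =>
          simp only [fup]
          split_ifs
          · exact ⟨rfl, rfl⟩
          · exact rfl
      | D i => simp only [fup]; split_ifs; · exact rfl
               · exact trivial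
      | M i => simp only [fup]; split_ifs; · exact ⟨rfl, rfl⟩
               · exact rfl
    have hfdn : ∀ (c : Bool) (j : Fin J) (g : G) (j' : Fin J) (w : Wr G Λ) (r : Rg Λ J),
        (fdn (K := K) c j g j' w r).Hom 1 := by
      intro c j g j' w r
      cases r with
      | X => exact rfl
      | Y => exact rfl
      | F c' l =>
        cases w with
        | idle => exact rfl
        | put l' k β β' =>
          simp only [fdn]
          split_ifs
          · exact ⟨rfl, rfl⟩
          · exact rfl
      | D i => simp only [fdn]; split_ifs; · exact rfl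
               · exact trivial
      | M i => simp only [fdn]; split_ifs; · exact ⟨rfl, rfl⟩
               · exact rfl
    cases ρ with
    | fill s j g j' w =>
      change ((if s.inv then fdn s.prog j g j' w else fup s.prog j g j' w) r :
        Ex K G Λ J).Hom 1
      split_ifs
      · exact hfdn _ _ _ _ _ _
      · exact hfup _ _ _ _ _ _
    | ab => cases r <;> first | exact rfl | exact trivial
    | bc => exact rfl
    | cd => cases r <;> first | exact rfl | exact trivial
    | da => cases r <;> first | exact rfl | exact trivial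
  · intro ρ r
    have hfup : ∀ (c : Bool) (j : Fin J) (g : G) (j' : Fin J) (w : Wr G Λ) (r : Rg Λ J),
        (fup (K := K) c j g j' w r).Hom 1 := by
      intro c j g j' w r
      cases r with
      | X => exact rfl
      | Y => exact rfl
      | F c' l =>
        cases w with
        | idle => exact rfl
        | put l' k β β' =>
          simp only [fup]
          split_ifs
          · exact ⟨rfl, rfl⟩
          · exact rfl
      | D i => simp only [fup]; split_ifs; · exact rfl
               · exact trivial
      | M i => simp only [fup]; split_ifs; · exact ⟨rfl, rfl⟩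
               · exact rfl
    have hfdn : ∀ (c : Bool) (j : Fin J) (g : G) (j' : Fin J) (w : Wr G Λ) (r : Rg Λ J),
        (fdn (K := K) c j g j' w r).Hom 1 := by
      intro c j g j' w r
      cases r with
      | X => exact rfl
      | Y => exact rfl
      | F c' l =>
        cases w with
        | idle => exact rfl
        | put l' k β β' =>
          simp only [fdn]
          split_ifs
          · exact ⟨rfl, rfl⟩
          · exact rfl
      | D i => simp only [fdn]; split_ifs; · exact rfl
               · exact trivial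
      | M i => simp only [fdn]; split_ifs; · exact ⟨rfl, rfl⟩
               · exact rfl
    cases ρ with
    | fill s j g j' w =>
      change ((if s.inv then fup s.prog j g j' w else fdn s.prog j g j' w) r :
        Ex K G Λ J).Hom 1
      split_ifs
      · exact hfup _ _ _ _ _ _
      · exact hfdn _ _ _ _ _ _
    | ab => cases r <;> first | exact rfl | exact trivial
    | bc => exact rfl
    | cd => cases r <;> first | exact rfl | exact trivial
    | da => cases r <;> first | exact rfl | exact trivial

end Crest.Agent.R289.WordC880
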