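import Crest.Agent.R289.DefI_306
import Crest.Agent.R289.ULoc_406
import Crest.Agent.R289.WordC_880

/-!
# Row 289, joint I2/C9: uniform locality of the words and steps of `DefI_306` (helper880)

Bank words `B : I.U → c.Bank`; `rR`, `aX`, `aXm`, `aZ`, `aZm` read the words of `DefI` off a bank word.
`pushB`, `popB`, `entB`, `upB`, `dnB`, `blankB`, `startB` are the pointwise forms of `I.push`, `I.pop`,
`I.ent`, `I.up`, `I.dn`, the blank and the start bank (`*_bankE`: equal to the label form of the exact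
operation).  `UL` (uniform locality of `ULoc_406`) of all of them over the moves and public data of
`DefI.Ins.frame`.
-/

set_option autoImplicit false

namespace Crest.Agent.R289.ULocI880

open Finset DefC DefI Compile827 ULoc406

/-! ### words read off a bank word -/

section bank

variable {K : Type} [Field K] {c : Cst K} (I : Ins c)

/-- register words of a bank word, read on the slice of the T-unit `τ` -/
def rR (B : I.U → c.Bank) (τ : I.T) : c.A.Reg → I.Om → K := fun i ω => (B (ω.1, τ)).R i ω.2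

def aX (B : I.U → c.Bank) : I.n → I.AW := fun p ω => (B (ω.1, p.1)).X p.2 ω.2

def aXm (B : I.U → c.Bank) : I.n → I.AW := fun p ω => (B (ω.1, p.1)).Xm p.2 ω.2

def aZ (B : I.U → c.Bank) (q : c.C) : I.n → I.AW := fun p ω => (B (ω.1, p.1)).Z q p.2 ω.2

def aZm (B : I.U → c.Bank) (q : c.C) : I.n → I.AW := fun p ω => (B (ω.1, p.1)).Zm q p.2 ω.2

@[simp] theorem rR_bankE (x : I.XW) (z : I.ZW) (τ : I.T) : rR I (I.bankE x z) τ = x.2 := rfl
@[simp] theorem aX_bankE (x : I.XW) (z : I.ZW) : aX I (I.bankE x z) = z.X := rfl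
@[simp] theorem aXm_bankE (x : I.XW) (z : I.ZW) : aXm I (I.bankE x z) = z.Xm := rfl
@[simp] theorem aZ_bankE (x : I.XW) (z : I.ZW) : aZ I (I.bankE x z) = z.Z := rfl
@[simp] theorem aZm_bankE (x : I.XW) (z : I.ZW) : aZm I (I.bankE x z) = z.Zm := rfl

/-- all component words at a unit -/
def wB (B : I.U → c.Bank) (u : I.U) (s : c.S) : c.V := I.wv (rR I B u.2) (u.1, s)

/-- the cascade operator on fields of bundles over the units -/
def lamF (f : I.U → c.S → c.V) (u : I.U) (s : c.S) : c.V := fun a m =>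
  ∑ j, ∑ b, c.lam j a b * f (I.mv j u.1, u.2) s b m

theorem lamF_eq (y : I.T → I.AW) (u : I.U) (s : c.S) :
    lamF I (fun v s => y v.2 (v.1, s)) u s = I.Lam (y u.2) (u.1, s) := rfl

/-- push of the certificate of a bank -/
def pushB (d : I.U → c.TD) (B : I.U → c.Bank) (u : I.U) : c.Bank where
  stg := (B u).stg
  R := (B u).R
  X := fun s' s => lamF I (fun v => (B v).X s') u s + (B u).Xm s' s + (d u).Dp s' • wB I B u s
  Xm := (B u).X
  Z := fun q s' s => lamF I (fun v => (B v).Z q s') u s + (B u).Zm q s' s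
    + (d u).A q s' • lamF I (wB I B) u s + (d u).B q s' • wB I B u s
  Zm := (B u).Z

/-- pop of the certificate of a bank -/
def popB (d : I.U → c.TD) (B : I.U → c.Bank) (u : I.U) : c.Bank where
  stg := (B u).stg
  R := (B u).R
  X := (B u).Xm
  Xm := fun s' s => (B u).X s' s - lamF I (fun v => (B v).Xm s') u s - (d u).D s' • wB I B u s
  Z := (B u).Zm
  Zm := fun q s' s => (B u).Z q s' s - lamF I (fun v => (B v).Zm q s') u s
    - (d u).Am q s' • lamF I (wB I B) u s - (d u).Bm q s' • wB I B u s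

/-- the entry certificate of the register words of a bank -/
def entB (B : I.U → c.Bank) (u : I.U) : c.Bank where
  stg := (B u).stg
  R := (B u).R
  X := fun s' s => I.D 0 (u.2, s') • wB I B u s
  Xm := 0
  Z := fun q s' s => I.A0 q (u.2, s') • lamF I (wB I B) u s + I.B0 q (u.2, s') • wB I B u s
  Zm := 0

/-- bank with given registers, blank certificate -/
def regB (g : c.A.Stg) (R : c.A.Reg → c.S → K) : c.Bank := ⟨g, R, 0, 0, 0, 0⟩

/-- register update, forward -/
def upB (ρ : c.A.Tr) (B : I.U → c.Bank) (u : I.U) : c.Bank :=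
  regB (c.A.tgt ρ) fun i s => I.evalW (c.A.up ρ i) (rR I B u.2) (u.1, s)

/-- register update, backward -/
def dnB (ρ : c.A.Tr) (B : I.U → c.Bank) (u : I.U) : c.Bank :=
  regB (c.A.src ρ) fun i s => I.evalW (c.A.dn ρ i) (rR I B u.2) (u.1, s)

theorem pushB_bankE (t : ℕ) (x : I.XW) (z : I.ZW) :
    pushB I (fun u => I.td t u.2) (I.bankE x z) = I.bankE x (I.push t x z) := rfl

theorem popB_bankE (t : ℕ) (x : I.XW) (z : I.ZW) :
    popB I (fun u => I.td (t + 1) u.2) (I.bankE x z) = I.bankE x (I.pop t x z) := rfl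

theorem entB_bankE (x : I.XW) (z : I.ZW) : entB I (I.bankE x z) = I.bankE x (I.ent x) := rfl

theorem upB_bankE (ρ : c.A.Tr) (x : I.XW) (z : I.ZW) :
    upB I ρ (I.bankE x z) = I.bankE (I.up ρ x) I.zz := rfl

theorem dnB_bankE (ρ : c.A.Tr) (x : I.XW) (z : I.ZW) :
    dnB I ρ (I.bankE x z) = I.bankE (I.dn ρ x) I.zz := rfl

theorem blank_bankE : (fun _ => regB I.stgz 0) = I.bankE I.xz I.zz := rfl

end bank

/-! ### the family of instances -/

section family

variable {K : Type} [Field K] {c : Cst K} {Inst : Type} (J : Inst → Ins c) {Gc Pc : Type}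
  (mc : ∀ i, Gc → (J i).U → (J i).U) (pc : ∀ i, (J i).U → Pc)

/-- the moves of the units (= `act` of `Ins.frame`) -/
def mvF (i : Inst) : c.Gen Gc → (J i).U → (J i).U
  | .fwd g, u => ((J i).act g u.1, u.2)
  | .bwd g, u => (((J i).act g).symm u.1, u.2)
  | .cas j, u => ((J i).mv j u.1, u.2)
  | .t1 j, u => (u.1, (J i).h1 j * u.2)
  | .t2 j, u => (u.1, (J i).h2 j * u.2)
  | .tm j, u => (u.1, ((J i).gam j)⁻¹ * u.2)
  | .ck g, u => mc i g u

/-- the public data of the units (= `pub` of `Ins.frame`) -/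
def pubF (i : Inst) (u : (J i).U) : c.PD × Pc := ((J i).pd u, pc i u)

theorem mvF_eq (i : Inst) (g : c.Gen Gc) (u : (J i).U) :
    mvF J mc i g u = ((J i).frame (mc i) (pc i)).act g u := by cases g <;> rfl

theorem pubF_eq (i : Inst) (u : (J i).U) :
    pubF J pc i u = ((J i).frame (mc i) (pc i)).pub u := rfl

variable {J mc pc} {A : Type} {B : ∀ i, ((J i).U → A) → (J i).U → c.Bank}

/-- the value of an expression of the registers of a bank -/
theorem ul_eval (hB : UL (mvF J mc) (pubF J pc) B) (e : PE K c.A.Reg c.A.Pub c.G) (s : c.S) :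
    UL (mvF J mc) (pubF J pc) (fun i w u => (J i).evalW e (rR (J i) (B i w) u.2) (u.1, s)) := by
  have h := UL.evalC (mv := mvF J mc) (pub := pubF J pc) (A := A)
    (Ω := fun i => (J i).Om × (J i).T)
    (act := fun i g => Equiv.prodCongr ((J i).pm ((J i).act g)) (Equiv.refl _))
    (pt := fun i u => ((u.1, s), u.2)) (lt := fun g => [.fwd g]) (li := fun g => [.bwd g])
    (fun i g u => rfl) (fun i g u => rfl)
    (b := fun i _ j ω => (J i).pubP j ω.1)
    (r := fun i w j ω => (B i w (ω.1.1, ω.2)).R j ω.1.2)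
    (fun j => (UL.publ (A := A)).map fun p : c.PD × Pc => p.1.b j s)
    (fun j => hB.map fun b => b.R j s) e
  refine h.congr fun i w u => ?_
  exact WordC880.evalC_comap (fun g => (J i).pm ((J i).act g))
    (fun g => Equiv.prodCongr ((J i).pm ((J i).act g)) (Equiv.refl _))
    (fun ω => (ω, u.2)) (fun g x => rfl) (J i).pubP (fun j ω => (J i).pubP j ω.1)
    (fun _ _ => rfl) (rR (J i) (B i w) u.2) (fun j ω => (B i w (ω.1.1, ω.2)).R j ω.1.2)
    (fun _ _ => rfl) e (u.1, s)

theorem ul_wB (hB : UL (mvF J mc) (pubF J pc) B) :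
    UL (mvF J mc) (pubF J pc) (fun i w u => wB (J i) (B i w) u) := by
  refine UL.pi fun s => UL.pi fun a => UL.pi fun m => ?_
  by_cases ha : a = 0
  · refine (ul_eval hB (c.A.comp m) s).congr fun i w u => ?_
    simp [wB, Ins.wv, ha]
  · refine (UL.const (0 : K)).congr fun i w u => ?_
    simp [wB, Ins.wv, ha]

/-- the cascade operator of a local field is local -/
theorem ul_lamF {f : ∀ i, ((J i).U → A) → (J i).U → c.S → c.V}
    (hf : UL (mvF J mc) (pubF J pc) f) :
    UL (mvF J mc) (pubF J pc) (fun i w u => lamF (J i) (f i w) u) := by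
  refine UL.pi fun s => UL.pi fun a => UL.pi fun m => ?_
  refine UL.sum _ fun j => UL.sum _ fun b => ?_
  have h := UL.step (mv := mvF J mc) (Cst.Gen.cas (Gc := Gc) j) hf
  exact h.map fun y => c.lam j a b * y s b m

/-- the T-side operator `mU` -/
theorem ul_one {f : ∀ i, ((J i).U → A) → (J i).U → c.V} (hf : UL (mvF J mc) (pubF J pc) f)
    (s' : c.S') :
    UL (mvF J mc) (pubF J pc) (fun i w u => (J i).one (u.2, s') • f i w u) :=
  UL.smul ((UL.publ (A := A)).map fun p : c.PD × Pc => p.1.one s') hf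

/-- one bank from its parts -/
theorem ul_bank {g : ∀ i, ((J i).U → A) → (J i).U → c.A.Stg}
    {R : ∀ i, ((J i).U → A) → (J i).U → c.A.Reg → c.S → K}
    {X Xm : ∀ i, ((J i).U → A) → (J i).U → c.S' → c.S → c.V}
    {Z Zm : ∀ i, ((J i).U → A) → (J i).U → c.C → c.S' → c.S → c.V}
    (hg : UL (mvF J mc) (pubF J pc) g) (hR : UL (mvF J mc) (pubF J pc) R)
    (hX : UL (mvF J mc) (pubF J pc) X) (hXm : UL (mvF J mc) (pubF J pc) Xm)
    (hZ : UL (mvF J mc) (pubF J pc) Z) (hZm : UL (mvF J mc) (pubF J pc) Zm) :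
    UL (mvF J mc) (pubF J pc) (fun i w u =>
      (⟨g i w u, R i w u, X i w u, Xm i w u, Z i w u, Zm i w u⟩ : c.Bank)) :=
  (((((hg.prod hR).prod hX).prod hXm).prod hZ).prod hZm).map fun x =>
    (⟨x.1.1.1.1.1, x.1.1.1.1.2, x.1.1.1.2, x.1.1.2, x.1.2, x.2⟩ : c.Bank)

theorem ul_pushB {d : ∀ i, ((J i).U → A) → (J i).U → c.TD} (hd : UL (mvF J mc) (pubF J pc) d)
    (hB : UL (mvF J mc) (pubF J pc) B) :
    UL (mvF J mc) (pubF J pc) (fun i w u => pushB (J i) (d i w) (B i w) u) := by
  have hw := ul_wB hB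
  have hlw := ul_lamF hw
  refine ul_bank (hB.map fun b => b.stg) (hB.map fun b => b.R) ?_ (hB.map fun b => b.X) ?_
    (hB.map fun b => b.Z)
  · refine UL.pi fun s' => UL.pi fun s => ?_
    have h1 := ul_lamF (hB.map fun b => b.X s')
    exact ((h1.map fun y => y s).add (hB.map fun b => b.Xm s' s)).add
      (UL.smul (hd.map fun d => d.Dp s') (hw.map fun y => y s))
  · refine UL.pi fun q => UL.pi fun s' => UL.pi fun s => ?_
    have h1 := ul_lamF (hB.map fun b => b.Z q s')
    exact (((h1.map fun y => y s).add (hB.map fun b => b.Zm q s' s)).add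
      (UL.smul (hd.map fun d => d.A q s') (hlw.map fun y => y s))).add
      (UL.smul (hd.map fun d => d.B q s') (hw.map fun y => y s))

theorem ul_popB {d : ∀ i, ((J i).U → A) → (J i).U → c.TD} (hd : UL (mvF J mc) (pubF J pc) d)
    (hB : UL (mvF J mc) (pubF J pc) B) :
    UL (mvF J mc) (pubF J pc) (fun i w u => popB (J i) (d i w) (B i w) u) := by
  have hw := ul_wB hB
  have hlw := ul_lamF hw
  refine ul_bank (hB.map fun b => b.stg) (hB.map fun b => b.R) (hB.map fun b => b.Xm) ?_
    (hB.map fun b => b.Zm) ?_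
  · refine UL.pi fun s' => UL.pi fun s => ?_
    have h1 := ul_lamF (hB.map fun b => b.Xm s')
    exact ((hB.map fun b => b.X s' s).sub (h1.map fun y => y s)).sub
      (UL.smul (hd.map fun d => d.D s') (hw.map fun y => y s))
  · refine UL.pi fun q => UL.pi fun s' => UL.pi fun s => ?_
    have h1 := ul_lamF (hB.map fun b => b.Zm q s')
    exact (((hB.map fun b => b.Z q s' s).sub (h1.map fun y => y s)).sub
      (UL.smul (hd.map fun d => d.Am q s') (hlw.map fun y => y s))).sub
      (UL.smul (hd.map fun d => d.Bm q s') (hw.map fun y => y s))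

theorem ul_entB (hB : UL (mvF J mc) (pubF J pc) B) :
    UL (mvF J mc) (pubF J pc) (fun i w u => entB (J i) (B i w) u) := by
  have hw := ul_wB hB
  have hlw := ul_lamF hw
  refine ul_bank (hB.map fun b => b.stg) (hB.map fun b => b.R) ?_ (UL.const 0) ?_ (UL.const 0)
  · refine UL.pi fun s' => UL.pi fun s => ?_
    exact UL.smul ((UL.publ (A := A)).map fun p : c.PD × Pc => p.1.D0 s') (hw.map fun y => y s)
  · refine UL.pi fun q => UL.pi fun s' => UL.pi fun s => ?_
    exact (UL.smul ((UL.publ (A := A)).map fun p : c.PD × Pc => p.1.A0 q s')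
        (hlw.map fun y => y s)).add
      (UL.smul ((UL.publ (A := A)).map fun p : c.PD × Pc => p.1.B0 q s') (hw.map fun y => y s))

theorem ul_regB (g : c.A.Stg) {R : ∀ i, ((J i).U → A) → (J i).U → c.A.Reg → c.S → K}
    (hR : UL (mvF J mc) (pubF J pc) R) :
    UL (mvF J mc) (pubF J pc) (fun i w u => regB g (R i w u)) := hR.map fun R => regB g R

theorem ul_upB (ρ : c.A.Tr) (hB : UL (mvF J mc) (pubF J pc) B) :
    UL (mvF J mc) (pubF J pc) (fun i w u => upB (J i) ρ (B i w) u) :=
  ul_regB _ (UL.pi fun j => UL.pi fun s => ul_eval hB (c.A.up ρ j) s)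

theorem ul_dnB (ρ : c.A.Tr) (hB : UL (mvF J mc) (pubF J pc) B) :
    UL (mvF J mc) (pubF J pc) (fun i w u => dnB (J i) ρ (B i w) u) :=
  ul_regB _ (UL.pi fun j => UL.pi fun s => ul_eval hB (c.A.dn ρ j) s)

end family

end Crest.Agent.R289.ULocI880
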