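import Crest.Agent.R289.MemB_12
import Crest.Agent.R289.SemLoc_406
import Crest.Agent.R289.ULocI_880

/-!
# Row 289, block C, leaf (L): locality of `semI` over the family `Mem12.Mem` (helper880)

* `clkS i` : clock words and reads of the clock of a member; `clkS_ok` : `Clk.OK`;
* `clkUL` : the reads are uniformly local over the frame;
* `mem_loc` : `(semI (fun i => i.I) clkS).Loc` over the frame of `DefI_306`.
-/

set_option autoImplicit false

namespace Crest.Agent.R289.MemLoc880

open Finset DefC DefI Compile827 ULoc406 ULocI880 SemI406 Crest.Agent.R289.Asm12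
  Crest.Agent.R289.InsObj576 Crest.Agent.R289.ClkTD766 Crest.Agent.R289.Mem12

/-! ### clock reads, generic -/

section gen

variable {K : Type} [Field K] [Finite K] {c : Cst K} (I : Ins c) {p : ℕ} {Q : Type}
  (e : I.U ≃ Clock311.U p (I.L + 1) Q) (tq : Q → I.T)

/-- clock words and reads of the clock -/
noncomputable def clkT : Clk I (ZMod p) where
  cw := cw I e
  rd w u := rdTD fun g => w (mc I e tq g u)
  up w u := w (mc I e tq (.inr 1) u)
  dn w u := w (mc I e tq (.inr 2) u)

omit [Finite K] in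
theorem clkT_ok [Fact p.Prime] [Finite Q] [Nonempty Q] (ht : ∀ u, u.2 = tq (e u).2.2.2) :
    (clkT I e tq).OK where
  rd _ h u := rdTD_eq I e tq ht h u
  up t _ u := (cw_up I e tq t u).symm
  dn t _ u := (cw_dn I e tq t u).symm
  top u := (cw_zero I e tq u).symm
  bot u := (cw_top I e tq u).symm
  inj _ _ h h' he := cw_inj I e h h' he

end gen

section genUL

variable {K : Type} [Field K] [Finite K] {c : Cst K} {Inst : Type} {J : Inst → Ins c} {p : ℕ}
  {Q : Inst → Type} {Pc : Type} (e : ∀ i, (J i).U ≃ Clock311.U p ((J i).L + 1) (Q i))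
  (tq : ∀ i, Q i → (J i).T) (pc : ∀ i, (J i).U → Pc)

theorem clkT_UL :
    ClkUL (J := J) (fun i => mc (J i) (e i) (tq i)) pc (fun i => clkT (J i) (e i) (tq i)) where
  rd := UL.map (fun s : CG c → ZMod p => (rdTD s : c.TD))
    (UL.pi fun g => UL.step (mv := mvF J fun i => mc (J i) (e i) (tq i))
      (Cst.Gen.ck (Gc := CG c) g) UL.here)
  up := UL.step (mv := mvF J fun i => mc (J i) (e i) (tq i))
      (Cst.Gen.ck (Gc := CG c) (.inr 1)) UL.here
  dn := UL.step (mv := mvF J fun i => mc (J i) (e i) (tq i))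
      (Cst.Gen.ck (Gc := CG c) (.inr 2)) UL.here

end genUL

/-! ### the family -/

section mem

variable {D : Obj} {M0 : ℕ} {lam0 Kr : ℝ} {h : D.OK M0 lam0 Kr} {W c0 : ℕ}

/-- **clock of a member** -/
noncomputable def clkS (i : Mem h W c0) : Clk i.I (ZMod 3) := clkT i.I i.e i.tq

theorem clkS_cw (i : Mem h W c0) : (clkS i).cw = i.cw := rfl

theorem clkS_ok (i : Mem h W c0) : (clkS i).OK := by
  have : Fact (Nat.Prime 3) := ⟨by norm_num⟩
  have : Nonempty (Fin i.siz.rho) := ⟨(i.e (Classical.arbitrary i.I.U)).2.2.2⟩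
  exact clkT_ok i.I i.e i.tq i.tq_e

theorem clkS_UL : ClkUL (J := fun i : Mem h W c0 => i.I) (fun i => i.mc) (fun _ _ => ())
    clkS := clkT_UL (J := fun i : Mem h W c0 => i.I) (fun i => i.e) (fun i => i.tq) _

/-- **(L): the machine is uniformly local over the frame** -/
theorem mem_loc : (semI (fun i : Mem h W c0 => i.I) clkS).Loc
    (fun i => (i.I.frame i.mc (fun _ => ())).act)
    (fun i => (i.I.frame i.mc (fun _ => ())).pub) := by
  have h1 := semI_loc (J := fun i : Mem h W c0 => i.I) (mc := fun i => i.mc)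
    (pc := fun _ _ => ()) clkS_UL (g0 := _) (gz := _) (fun _ => rfl) (fun _ => rfl)
  have h2 : (fun i : Mem h W c0 => (i.I.frame i.mc (fun _ => ())).act) =
      ULocI880.mvF (fun i : Mem h W c0 => i.I) (fun i => i.mc) := by
    funext i g u
    exact (mvF_eq (J := fun i : Mem h W c0 => i.I) (mc := fun i => i.mc)
      (pc := fun _ _ => ()) i g u).symm
  exact h2 ▸ h1

end mem

end Crest.Agent.R289.MemLoc880
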