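import Crest.Agent.R289.SemX_482
import Crest.Agent.R289.FamU2_782
import Crest.Agent.R289.GapObj_719

/-!
Row 289, block C, key (X) over the family `Mem12.Mem` (helper482).

* `evM` : the semantic machine `semM` of `FamU2_782` computes `i.lm` on the words `i.word f`;
* **`exactM`** : `UFam715.Exact (semM h W c0) i i.C i.w0 (1 / 15616) (1 / 15616)`;
* `legalM` : legal words are words of legal configurations;
* **`fam_of_HC`** : the instance clause `HC` alone gives `Fam289`.
-/

set_option autoImplicit false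
set_option linter.unusedSectionVars false

namespace Crest.Agent.R289.MemX482

open Crest.Agent.R289.Asm12 Crest.Agent.R289.Mem12 Crest.Agent.R289.FamU782
open Crest.Agent.R289.InsObj576 Crest.Agent.R289.Compile827 Crest.Agent.R289.SemE482

variable {D : Obj} {M0 : ℕ} {lam0 Kr : ℝ} {h : D.OK M0 lam0 Kr} {W c0 : ℕ}

/-- **the machine of a member on exact words** -/
theorem evM (h4 : 4 ≤ M0) (hl : lam0 ≤ 1 / 4096) (i : Mem h W c0) :
    Ev (semM h W c0) i i.lm i.word (1 / 15616) (1 / 15616) :=
  SemX482.ev_semI (fun i : Mem h W c0 => i.I) (fun i => clkI i) i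
    (GapObj719.numM h4 hl i) (hypM i) (hx0M i) (hb0M i) (clkOK i)

/-- the code of a member -/
theorem code_eq (i : Mem h W c0) : i.C = code i.lm i.word := codeC_eq i

/-- **key (X)** -/
theorem exactM (h4 : 4 ≤ M0) (hl : lam0 ≤ 1 / 4096) (i : Mem h W c0) :
    UFam715.Exact (semM h W c0) i i.C i.w0 (1 / 15616) (1 / 15616) := by
  rw [code_eq]
  exact (evM h4 hl i).exact (by norm_num) (by norm_num)

/-- legal words are words of legal configurations -/
theorem legalM (h4 : 4 ≤ M0) (hl : lam0 ≤ 1 / 4096) (i : Mem h W c0) :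
    ∀ w ∈ (semM h W c0).W i i.C, ∃ f, i.lm.Legal f ∧ w = i.word f := by
  intro w hw
  rw [code_eq, (evM h4 hl i).W_eq (by norm_num)] at hw
  exact hw

/-- **the uniform part is closed**: the instance clause gives the family -/
theorem fam_of_HC (h : D.OK M0 lam0 Kr) (W c0 : ℕ) (hK : 0 ≤ Kr) (h4 : 4 ≤ M0)
    (hl : lam0 ≤ 1 / 4096) {gN gM : (cst h W).Lab (ZMod 3) → Bool} (hH : HC h W c0 gN gM) :
    Fam289 :=
  fam_of_exact h W c0 hK h4 (hl.trans (by norm_num)) (g := 1 / 15616) (ρ := 1 / 15616)
    (by norm_num) (by norm_num) (legalM h4 hl) (exactM h4 hl) hH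

end Crest.Agent.R289.MemX482
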