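import Mathlib

/-!
# Row 289, block C: the path of micro states (one double buffer, one clock)

`S` = content-level states, `su`/`pr` = partial successor / predecessor (mutually inverse).
Micro states of #5756 (6): `(ph, t, s)` with `t ≤ L`;
`ph = false`: bank 1 = `s` with the full record, bank 2 = `su s` with the record up to `t`
(legal iff `su s` is defined); `ph = true`: bank 2 = `s` with the full record, bank 1 = `pr s` with
the record up to `t` (legal iff `pr s` is defined).
`N`, `M` are total maps, `N w = w` iff `w` is blocked forward.
-/

set_option autoImplicit false

namespace Crest.Agent.R289.Micro492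

variable {S : Type*} (su pr : S → Option S) (L : ℕ)

/-- raw micro states: phase, clock, content state -/
abbrev Mi (S : Type*) := Bool × ℕ × S

/-- legal micro states -/
def Leg (m : Mi S) : Prop :=
  m.2.1 ≤ L ∧ (m.1 = false → su m.2.2 ≠ none) ∧ (m.1 = true → pr m.2.2 ≠ none)

/-- successor of micro states (total; the identity at a blocked state) -/
def N : Mi S → Mi S
  | (false, t, s) => if t < L then (false, t + 1, s) else
      match su s with
      | some s' => (true, t, s')
      | none => (false, t, s)
  | (true, t, s) => match t with
      | t + 1 => (true, t, s)
      | 0 => match su s with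
        | some _ => (false, 0, s)
        | none => (true, 0, s)

/-- predecessor of micro states -/
def M : Mi S → Mi S
  | (true, t, s) => if t < L then (true, t + 1, s) else
      match pr s with
      | some s' => (false, t, s')
      | none => (true, t, s)
  | (false, t, s) => match t with
      | t + 1 => (false, t, s)
      | 0 => match pr s with
        | some _ => (true, 0, s)
        | none => (false, 0, s)

variable {su pr L}

/-- `su` and `pr` are mutually inverse partial maps -/
def Inv (su pr : S → Option S) : Prop := ∀ a b, su a = some b ↔ pr b = some a

theorem N_mem (h : Inv su pr) {m : Mi S} (hm : Leg su pr L m) : Leg su pr L (N su L m) := by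
  obtain ⟨ph, t, s⟩ := m
  obtain ⟨ht, h0, h1⟩ := hm
  cases ph with
  | false =>
    simp only [N]
    split_ifs with hlt
    · exact ⟨hlt, by simpa using h0, by simp⟩
    · have hs := h0 rfl
      cases hsu : su s with
      | none => exact absurd hsu hs
      | some s' =>
        refine ⟨ht, by simp, fun _ => ?_⟩
        simp only
        rw [(h s s').1 hsu]; simp
  | true =>
    cases t with
    | succ t =>
      simp only [N]
      exact ⟨by simp only at ht ⊢; omega, by simp, by simpa using h1⟩
    | zero =>
      simp only [N]
      cases hsu : su s with
      | none => exact ⟨ht, by simp, by simpa using h1⟩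
      | some s' => exact ⟨ht, by simp [hsu], by simp⟩

theorem M_mem (h : Inv su pr) {m : Mi S} (hm : Leg su pr L m) : Leg su pr L (M pr L m) := by
  obtain ⟨ph, t, s⟩ := m
  obtain ⟨ht, h0, h1⟩ := hm
  cases ph with
  | true =>
    simp only [M]
    split_ifs with hlt
    · exact ⟨hlt, by simp, by simpa using h1⟩
    · have hs := h1 rfl
      cases hsu : pr s with
      | none => exact absurd hsu hs
      | some s' =>
        refine ⟨ht, fun _ => ?_, by simp⟩
        simp only
        rw [(h s' s).2 hsu]; simp
  | false =>
    cases t with
    | succ t =>
      simp only [M]
      exact ⟨by simp only at ht ⊢; omega, by simpa using h0, by simp⟩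
    | zero =>
      simp only [M]
      cases hsu : pr s with
      | none => exact ⟨ht, by simpa using h0, by simp⟩
      | some s' => exact ⟨ht, by simp, by simp [hsu]⟩

theorem MN (h : Inv su pr) {m : Mi S} (hm : Leg su pr L m) (hN : N su L m ≠ m) :
    M pr L (N su L m) = m := by
  obtain ⟨ph, t, s⟩ := m
  obtain ⟨ht, h0, h1⟩ := hm
  cases ph with
  | false =>
    simp only [N] at hN ⊢
    split_ifs at hN ⊢ with hlt
    · simp only [M]
    · have hs := h0 rfl
      cases hsu : su s with
      | none => exact absurd hsu hs
      | some s' =>
        simp only [M, hlt, if_false]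
        rw [(h s s').1 hsu]
  | true =>
    cases t with
    | succ t =>
      simp only [N, M]
      have : t < L := by simp only at ht; omega
      simp [this]
    | zero =>
      simp only [N] at hN ⊢
      cases hsu : su s with
      | none => simp [hsu] at hN
      | some s' =>
        simp only [M]
        cases hpr : pr s with
        | none => exact absurd hpr (h1 rfl)
        | some s'' => rfl

theorem NM (h : Inv su pr) {m : Mi S} (hm : Leg su pr L m) (hM : M pr L m ≠ m) :
    N su L (M pr L m) = m := by
  obtain ⟨ph, t, s⟩ := m
  obtain ⟨ht, h0, h1⟩ := hm
  cases ph with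
  | true =>
    simp only [M] at hM ⊢
    split_ifs at hM ⊢ with hlt
    · simp only [N]
    · have hs := h1 rfl
      cases hsu : pr s with
      | none => exact absurd hsu hs
      | some s' =>
        simp only [N, hlt, if_false]
        rw [(h s' s).2 hsu]
  | false =>
    cases t with
    | succ t =>
      simp only [N, M]
      have : t < L := by simp only at ht; omega
      simp [this]
    | zero =>
      simp only [M] at hM ⊢
      cases hsu : pr s with
      | none => simp [hsu] at hM
      | some s' =>
        simp only [N]
        cases hpr : su s with
        | none => exact absurd hpr (h0 rfl)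
        | some s'' => rfl

/-- blocked forward = end of a line: `(true, 0, s)` with `su s` undefined -/
theorem N_eq_self (h : Inv su pr) {m : Mi S} (hm : Leg su pr L m) (hN : N su L m = m) :
    m.1 = true ∧ m.2.1 = 0 ∧ su m.2.2 = none := by
  obtain ⟨ph, t, s⟩ := m
  obtain ⟨ht, h0, h1⟩ := hm
  cases ph with
  | false =>
    simp only [N] at hN
    split_ifs at hN with hlt
    · simp at hN
    · cases hsu : su s with
      | none => exact absurd hsu (h0 rfl)
      | some s' => simp [hsu] at hN
  | true =>
    cases t with
    | succ t => simp [N] at hN
    | zero =>
      simp only [N] at hN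
      cases hsu : su s with
      | none => exact ⟨rfl, rfl, by simpa using hsu⟩
      | some s' => simp [hsu] at hN

theorem M_eq_self (h : Inv su pr) {m : Mi S} (hm : Leg su pr L m) (hM : M pr L m = m) :
    m.1 = false ∧ m.2.1 = 0 ∧ pr m.2.2 = none := by
  obtain ⟨ph, t, s⟩ := m
  obtain ⟨ht, h0, h1⟩ := hm
  cases ph with
  | true =>
    simp only [M] at hM
    split_ifs at hM with hlt
    · simp at hM
    · cases hsu : pr s with
      | none => exact absurd hsu (h1 rfl)
      | some s' => simp [hsu] at hM
  | false =>
    cases t with
    | succ t => simp [M] at hM
    | zero =>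
      simp only [M] at hM
      cases hsu : pr s with
      | none => exact ⟨rfl, rfl, by simpa using hsu⟩
      | some s' => simp [hsu] at hM

/-- `START = (false, 0, s0)`: blocked backward, not blocked forward -/
theorem start_spec {s0 : S} (h0 : pr s0 = none) (h1 : su s0 ≠ none) :
    Leg su pr L (false, 0, s0) ∧ M pr L (false, 0, s0) = (false, 0, s0) ∧
      N su L (false, 0, s0) ≠ (false, 0, s0) := by
  refine ⟨⟨Nat.zero_le _, fun _ => h1, by simp⟩, by simp [M, h0], ?_⟩
  simp only [N]
  split_ifs with hlt
  · simp
  · cases hsu : su s0 with
    | none => exact absurd hsu h1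
    | some s' => simp

end Crest.Agent.R289.Micro492
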