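import Crest.Agent.R289.AsmObj_12
import Crest.Agent.R289.TSide_492

/-!
# Row 289: the words of the two-place object (`Obj.OK` of AsmObj_12) as submodules

* `cmod D k d` : words of degree `d` at level `k` as functions `P k → S → K`,
  `S = Option K × Option K` (symbols of a unit);
* left translations `cmod_lt`, products `cmod_mul`, contents `cmod_inj`, `cmod_surj`;
* `toTO` : the T-object of TSide_492;
* `wmod D k d` : the same words as functions on the points `P k × S`, with the hypotheses of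
  WordC_880 / DefI_306 (`hmul`, `htr`, `hti`, `hrig`, `surj`).
-/

set_option autoImplicit false

namespace Crest.Agent.R289.ObjTO821

open Crest.Agent.R289.TP846 Crest.Agent.R289.Asm12 Crest.Agent.R289.TSide492

variable (D : Obj)

/-- symbols of a unit -/
abbrev Sy : Type := Option D.K × Option D.K

/-- content symbol -/
abbrev sy0 : Sy D := (D.z0, D.w0)

/-- words of degree `d` at level `k` -/
def cmod (k d : ℕ) : Submodule D.K (D.P k → Sy D → D.K) where
  carrier := {f | (fun g l m => f g (l, m)) ∈ D.C k d}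
  zero_mem' := ⟨fun j _ z => (D.X d j z).zero_mem, fun i _ w => (D.Y d i w).zero_mem⟩
  add_mem' hf hf' := ⟨fun j h z => (D.X d j z).add_mem (hf.1 j h z) (hf'.1 j h z),
    fun i h w => (D.Y d i w).add_mem (hf.2 i h w) (hf'.2 i h w)⟩
  smul_mem' c _ hf := ⟨fun j h z => (D.X d j z).smul_mem c (hf.1 j h z),
    fun i h w => (D.Y d i w).smul_mem c (hf.2 i h w)⟩

theorem mem_cmod {k d : ℕ} {f : D.P k → Sy D → D.K} :
    f ∈ cmod D k d ↔ (fun g l m => f g (l, m)) ∈ D.C k d := Iff.rfl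

/-- left translations -/
theorem cmod_lt {k d : ℕ} {f : D.P k → Sy D → D.K} (hf : f ∈ cmod D k d) (a : D.P k) :
    (fun t s => f (a * t) s) ∈ cmod D k d := by
  have h1 := (D.tp k).tr_mem (a⁻¹) ((mem_cmod D).1 hf)
  have h2 : TP.tr a⁻¹ (fun g l m => f g (l, m)) = fun g l m => f (a * g) (l, m) := by
    funext g l m
    show f (a⁻¹⁻¹ * g) (l, m) = f (a * g) (l, m)
    rw [inv_inv]
  rw [h2] at h1
  exact h1

variable {D} {M0 : ℕ} {lam0 Kr : ℝ}

/-- products -/
theorem cmod_mul (h : D.OK M0 lam0 Kr) {k a b : ℕ} {f g : D.P k → Sy D → D.K}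
    (hf : f ∈ cmod D k a) (hg : g ∈ cmod D k b) :
    (fun t s => f t s * g t s) ∈ cmod D k (a + b) :=
  ⟨fun j h' z => h.mulX a b j z _ _ (hf.1 j h' z) (hg.1 j h' z),
    fun i h' w => h.mulY a b i w _ _ (hf.2 i h' w) (hg.2 i h' w)⟩

/-- a word of degree one is determined by its contents -/
theorem cmod_inj (h : D.OK M0 lam0 Kr) {k : ℕ} {f : D.P k → Sy D → D.K}
    (hf : f ∈ cmod D k 1) (h0 : ∀ t, f t (sy0 D) = 0) : f = 0 := by
  have h1 := (h.content k (fun _ => 0)).unique (y₁ := fun g l m => f g (l, m))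
    (y₂ := fun _ _ _ => 0) ⟨hf, fun g => h0 g⟩
    ⟨(cmod D k 1).zero_mem, fun _ => rfl⟩
  funext t s
  obtain ⟨l, m⟩ := s
  exact congrFun (congrFun (congrFun h1 t) l) m

/-- every content is the content of a word of degree one -/
theorem cmod_surj (h : D.OK M0 lam0 Kr) {k : ℕ} (c : D.P k → D.K) :
    ∃ f ∈ cmod D k 1, ∀ t, f t (sy0 D) = c t := by
  obtain ⟨f, ⟨hf, hc⟩, -⟩ := h.content k c
  exact ⟨fun g s => f g s.1 s.2, hf, hc⟩

/-- **the T-object at level `k`** -/
def toTO (h : D.OK M0 lam0 Kr) (k : ℕ) : TO D.K (D.P k) (Sy D) where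
  s0 := sy0 D
  C1 := cmod D k 1
  C2 := cmod D k 2
  lt1 _ hf a := cmod_lt D hf a
  lt2 _ hf a := cmod_lt D hf a
  mul _ hf _ hg := cmod_mul h hf hg
  inj _ hf h0 := cmod_inj h hf h0
  surj c := cmod_surj h c

/-! ### words as functions on the points `P k × S` -/

variable (D)

/-- words of degree `d` at level `k`, functions on the points -/
def wmod (k d : ℕ) : Submodule D.K (D.P k × Sy D → D.K) :=
  (cmod D k d).comap (LinearEquiv.curry D.K D.K (D.P k) (Sy D)).toLinearMap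

theorem mem_wmod {k d : ℕ} {f : D.P k × Sy D → D.K} :
    f ∈ wmod D k d ↔ (fun g s => f (g, s)) ∈ cmod D k d := Iff.rfl

/-- left multiplication on the points -/
def lmul (k : ℕ) (a : D.P k) : Equiv.Perm (D.P k × Sy D) :=
  (Equiv.mulLeft a).prodCongr (Equiv.refl _)

@[simp] theorem lmul_apply (k : ℕ) (a : D.P k) (x : D.P k × Sy D) :
    lmul D k a x = (a * x.1, x.2) := rfl

@[simp] theorem lmul_symm_apply (k : ℕ) (a : D.P k) (x : D.P k × Sy D) :
    (lmul D k a).symm x = (a⁻¹ * x.1, x.2) := rfl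

theorem wmod_tr {k d : ℕ} (a : D.P k) {f : D.P k × Sy D → D.K} (hf : f ∈ wmod D k d) :
    (fun x => f (lmul D k a x)) ∈ wmod D k d :=
  cmod_lt D hf a

theorem wmod_ti {k d : ℕ} (a : D.P k) {f : D.P k × Sy D → D.K} (hf : f ∈ wmod D k d) :
    (fun x => f ((lmul D k a).symm x)) ∈ wmod D k d :=
  cmod_lt D hf a⁻¹

variable {D}

theorem wmod_mul (h : D.OK M0 lam0 Kr) {k a b : ℕ} {f g : D.P k × Sy D → D.K}
    (hf : f ∈ wmod D k a) (hg : g ∈ wmod D k b) : (fun x => f x * g x) ∈ wmod D k (a + b) :=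
  cmod_mul h hf hg

theorem wmod_rig (h : D.OK M0 lam0 Kr) {k : ℕ} {f : D.P k × Sy D → D.K}
    (hf : f ∈ wmod D k 1) (h0 : ∀ a, f (a, sy0 D) = 0) : f = 0 := by
  have := cmod_inj h hf h0
  funext x
  exact congrFun (congrFun this x.1) x.2

theorem wmod_surj (h : D.OK M0 lam0 Kr) {k : ℕ} (c : D.P k → D.K) :
    ∃ f ∈ wmod D k 1, ∀ a, f (a, sy0 D) = c a := by
  obtain ⟨f, hf, hc⟩ := cmod_surj h c
  exact ⟨fun x => f x.1 x.2, hf, hc⟩

end Crest.Agent.R289.ObjTO821
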