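import Crest.Agent.R289.MirInst_781
import Crest.Agent.R289.ObjTO_821

/-!
Row 289 (helper3): the mirror words of `Mirror_545` for the degree one code of the two-place object
`Asm12.Obj` (piece (p3) of #6387).

Symbols of a unit `Sy D = Option K × Option K`, content symbol `sy0 D = (z0, w0)`
(`ObjTO821`).  The conditions of the complex are four: `inl j` = all x-edges of type `j`,
`inr i` = all y-edges of type `i`.

* `liO`, `miO` : the level independent functions `li`, `mi` (`li_eq`, `mi_eq`);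
* `cond D d : Bool ⊕ Bool → Submodule K (Sy D → K)` : level independent local codes of degree `d`,
  `rr D k` : positions; `mem_cmod_iff : f ∈ cmod D k d ↔ f ∈ Lift2_878.Code (rr D k) (cond D d)`;
* `JO D = (Bool ⊕ Bool) × Sy D`, `alO D`, `gamO D k`, `inV_iff` : the code `cmod D k 1` is
  `Mirror545.InV (alO D) (gamO D k)`; `gamO_inl`, `gamO_inr` : the group elements are the inverses
  of `bj j m`, `ai i l`;
* `pmO`, `isP_pmO`, `betO` : level independent coefficients of the mirror relation,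
  `betO = Mirror545.bet (sy0 D) (alO D) (pmO D h)`;
* `nilO` : the augmentation ideal of `K[P k]` is nilpotent;
* `surjO` : hypothesis `hsurj` of `Mirror_545`;
* `mir_existsUnique`, `mir_unique`, `mir_zero`, `mir_word`, `mir_dense`, `mir_dense_prod`,
  `mir_units` for `cmod D k 1`.
-/

set_option autoImplicit false
set_option linter.unusedSectionVars false

namespace Crest.Agent.R289.MirIn3

open Crest.Agent.R289.TP846 Crest.Agent.R289.Asm12 Crest.Agent.R289.ObjTO821
open Crest.Agent.R289.Lift2_878 (Code mem_Code)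

variable (D : Obj)

/-! ### level independent labels -/

/-- x-label on the x-edges of type `j` -/
def xlO (j : Bool) (l m : Option D.K) : Option D.K := if j then D.L l m else l

/-- y-label on the y-edges of type `i` -/
def ylO (i : Bool) (l m : Option D.K) : Option D.K := if i then D.M l m else m

open Classical in
/-- the `l` with `xlO j l m = z` -/
noncomputable def liO (j : Bool) (m z : Option D.K) : Option D.K :=
  if h : ∃ l, xlO D j l m = z then h.choose else none

open Classical in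
/-- the `m` with `ylO i l m = w` -/
noncomputable def miO (i : Bool) (l w : Option D.K) : Option D.K :=
  if h : ∃ m, ylO D i l m = w then h.choose else none

variable {D} {M0 : ℕ} {lam0 Kr : ℝ}

theorem xl_eq (h : D.OK M0 lam0 Kr) (k : ℕ) (j : Bool) (l m : Option D.K) :
    (D.tp k).xl j l m = xlO D j l m := by
  unfold TP.xl xlO
  rw [h.L_eq k]

theorem yl_eq (h : D.OK M0 lam0 Kr) (k : ℕ) (i : Bool) (l m : Option D.K) :
    (D.tp k).yl i l m = ylO D i l m := by
  unfold TP.yl ylO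
  rw [h.M_eq k]

theorem li_eq (h : D.OK M0 lam0 Kr) (k : ℕ) (j : Bool) (m z : Option D.K) :
    (D.tp k).li j m z = liO D j m z := by
  have h1 : xlO D j ((D.tp k).li j m z) m = z := by
    rw [← xl_eq h k]; exact (D.tp k).xl_li j m z
  have hex : ∃ l, xlO D j l m = z := ⟨_, h1⟩
  have h2 : xlO D j (liO D j m z) m = z := by
    unfold liO
    rw [dif_pos hex]
    exact hex.choose_spec
  rw [← xl_eq h k] at h2
  conv_lhs => rw [← h2]
  exact (D.tp k).li_xl j _ m

theorem mi_eq (h : D.OK M0 lam0 Kr) (k : ℕ) (i : Bool) (l w : Option D.K) :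
    (D.tp k).mi i l w = miO D i l w := by
  have h1 : ylO D i l ((D.tp k).mi i l w) = w := by
    rw [← yl_eq h k]; exact (D.tp k).yl_mi i l w
  have hex : ∃ m, ylO D i l m = w := ⟨_, h1⟩
  have h2 : ylO D i l (miO D i l w) = w := by
    unfold miO
    rw [dif_pos hex]
    exact hex.choose_spec
  rw [← yl_eq h k] at h2
  conv_lhs => rw [← h2]
  exact (D.tp k).mi_yl i l _

theorem xlO_liO (h : D.OK M0 lam0 Kr) (j : Bool) (m z : Option D.K) :
    xlO D j (liO D j m z) m = z := by
  rw [← li_eq h 0, ← xl_eq h 0]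
  exact (D.tp 0).xl_li j m z

theorem liO_xlO (h : D.OK M0 lam0 Kr) (j : Bool) (l m : Option D.K) :
    liO D j m (xlO D j l m) = l := by
  rw [← li_eq h 0, ← xl_eq h 0]
  exact (D.tp 0).li_xl j l m

theorem ylO_miO (h : D.OK M0 lam0 Kr) (i : Bool) (l w : Option D.K) :
    ylO D i l (miO D i l w) = w := by
  rw [← mi_eq h 0, ← yl_eq h 0]
  exact (D.tp 0).yl_mi i l w

theorem miO_ylO (h : D.OK M0 lam0 Kr) (i : Bool) (l m : Option D.K) :
    miO D i l (ylO D i l m) = m := by
  rw [← mi_eq h 0, ← yl_eq h 0]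
  exact (D.tp 0).mi_yl i l m

variable (D)

/-! ### the four conditions -/

/-- level independent local codes of degree `d` -/
noncomputable def cond (d : ℕ) : Bool ⊕ Bool → Submodule D.K (Sy D → D.K)
  | .inl j => ⨅ z, (D.X d j z).comap
      (LinearMap.funLeft D.K D.K fun m : Option D.K => ((liO D j m z, m) : Sy D))
  | .inr i => ⨅ w, (D.Y d i w).comap
      (LinearMap.funLeft D.K D.K fun l : Option D.K => ((l, miO D i l w) : Sy D))

theorem mem_cond_inl {d : ℕ} {j : Bool} {u : Sy D → D.K} :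
    u ∈ cond D d (.inl j) ↔ ∀ z, (fun m => u (liO D j m z, m)) ∈ D.X d j z := by
  simp only [cond, Submodule.mem_iInf, Submodule.mem_comap]
  rfl

theorem mem_cond_inr {d : ℕ} {i : Bool} {u : Sy D → D.K} :
    u ∈ cond D d (.inr i) ↔ ∀ w, (fun l => u (l, miO D i l w)) ∈ D.Y d i w := by
  simp only [cond, Submodule.mem_iInf, Submodule.mem_comap]
  rfl

/-- positions of the squares on the edges of one type -/
def rr (k : ℕ) : Bool ⊕ Bool → Sy D → D.P k
  | .inl j, s => (D.tp k).bj j s.2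
  | .inr i, s => (D.tp k).ai i s.1

theorem rr_inl (k : ℕ) (j : Bool) (s : Sy D) : rr D k (.inl j) s = (D.tp k).bj j s.2 := rfl
theorem rr_inr (k : ℕ) (i : Bool) (s : Sy D) : rr D k (.inr i) s = (D.tp k).ai i s.1 := rfl

variable {D}

/-- **the code of degree `d` at level `k` as a family of four conditions** -/
theorem mem_cmod_iff (h : D.OK M0 lam0 Kr) {k d : ℕ} {f : D.P k → Sy D → D.K} :
    f ∈ cmod D k d ↔ f ∈ Code (rr D k) (cond D d) := by
  rw [mem_Code]
  constructor
  · rintro ⟨h1, h2⟩ c g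
    cases c with
    | inl j =>
      rw [mem_cond_inl]
      intro z
      have h3 := h1 j g z
      simp only [TP.sq, TP.sqX, li_eq h] at h3
      exact h3
    | inr i =>
      rw [mem_cond_inr]
      intro w
      have h3 := h2 i g w
      simp only [TP.sq, TP.sqY, mi_eq h] at h3
      exact h3
  · intro hf
    refine ⟨fun j g z => ?_, fun i g w => ?_⟩
    · have h3 := (mem_cond_inl D).1 (hf (.inl j) g) z
      simp only [TP.sq, TP.sqX, li_eq h]
      exact h3
    · have h3 := (mem_cond_inr D).1 (hf (.inr i) g) w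
      simp only [TP.sq, TP.sqY, mi_eq h]
      exact h3

/-- the base code has no non-zero word vanishing at the content symbol -/
theorem base0 (h : D.OK M0 lam0 Kr) :
    ∀ v : Sy D → D.K, (∀ c, v ∈ cond D 1 c) → v (sy0 D) = 0 → v = 0 := by
  intro v hv h0
  have h1 : (fun _ : D.P 0 => v) ∈ cmod D 0 1 := by
    rw [mem_cmod_iff h, mem_Code]
    intro c _
    exact hv c
  exact congrFun (cmod_inj h h1 fun _ => h0) 1

/-- constant words of the code = base code -/
theorem const_mem_iff (h : D.OK M0 lam0 Kr) {k d : ℕ} {v : Sy D → D.K} :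
    (fun _ : D.P k => v) ∈ cmod D k d ↔ ∀ c, v ∈ cond D d c := by
  rw [mem_cmod_iff h, mem_Code]
  exact ⟨fun hf c => hf c 1, fun hf c _ => hf c⟩

/-! ### right constraints with absolute coefficients -/

variable (D)

/-- terms of the mirror relation -/
abbrev JO : Type := (Bool ⊕ Bool) × Sy D

/-- rows of the constraints -/
abbrev RowO : Type := MirInst781.Row (cond D 1)

/-- **absolute coefficients** -/
noncomputable def alO : RowO D → Sy D → JO D → D.K := MirInst781.al (cond D 1)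

/-- group elements of the relations -/
def gamO (k : ℕ) : JO D → D.P k := MirInst781.gam (rr D k)

theorem gamO_inl (k : ℕ) (j : Bool) (s : Sy D) :
    gamO D k (.inl j, s) = ((D.tp k).bj j s.2)⁻¹ := rfl

theorem gamO_inr (k : ℕ) (i : Bool) (s : Sy D) :
    gamO D k (.inr i, s) = ((D.tp k).ai i s.1)⁻¹ := rfl

theorem gamO_x0 (k : ℕ) (s : Sy D) : gamO D k (.inl false, s) = 1 := by
  simp [gamO_inl, TP.bj]

theorem gamO_x1 (k : ℕ) (s : Sy D) : gamO D k (.inl true, s) = ((D.tp k).b s.2)⁻¹ := by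
  simp [gamO_inl, TP.bj]

theorem gamO_y0 (k : ℕ) (s : Sy D) : gamO D k (.inr false, s) = 1 := by
  simp [gamO_inr, TP.ai]

theorem gamO_y1 (k : ℕ) (s : Sy D) : gamO D k (.inr true, s) = ((D.tp k).a s.1)⁻¹ := by
  simp [gamO_inr, TP.ai]

variable {D}

/-- **(p3)**: the degree one code = right constraints with absolute coefficients -/
theorem inV_iff (h : D.OK M0 lam0 Kr) {k : ℕ} {f : D.P k → Sy D → D.K} :
    Mirror545.InV (alO D) (gamO D k) f ↔ f ∈ cmod D k 1 := by
  rw [mem_cmod_iff h]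
  exact MirInst781.inv_iff (rr D k) (cond D 1) f

/-- the same over the curried words of `Obj.C` -/
theorem inV_iff_C (h : D.OK M0 lam0 Kr) {k : ℕ} {f : D.P k → Option D.K → Option D.K → D.K} :
    Mirror545.InV (alO D) (gamO D k) (fun g (s : Sy D) => f g s.1 s.2) ↔ f ∈ D.C k 1 :=
  inV_iff h

/-- **absolute left inverse of the augmented columns** -/
noncomputable def pmO (h : D.OK M0 lam0 Kr) : {s : Sy D // s ≠ sy0 D} → RowO D → D.K :=
  MirInst781.pm (cond D 1) (sy0 D) (base0 h)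

theorem isP_pmO (h : D.OK M0 lam0 Kr) : Mirror545.IsP (sy0 D) (alO D) (pmO h) :=
  MirInst781.pm_spec (cond D 1) (sy0 D) (base0 h)

/-- **absolute coefficients of the mirror relation** (`Cst.bet` of `DefI_306`) -/
noncomputable def betO (h : D.OK M0 lam0 Kr) : {s : Sy D // s ≠ sy0 D} → Sy D → JO D → D.K :=
  MirInst781.beta (cond D 1) (sy0 D) (base0 h)

theorem betO_eq (h : D.OK M0 lam0 Kr) :
    betO h = Mirror545.bet (sy0 D) (alO D) (pmO h) := rfl

/-- the augmentation ideal of `K[P k]` is nilpotent -/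
theorem nilO (h : D.OK M0 lam0 Kr) (k : ℕ) :
    ∃ L : ℕ, AugNil322.J D.K (D.P k) ^ L = ⊥ := by
  have : Fact D.p.Prime := ⟨h.prime⟩
  have : CharP D.K D.p := h.charP
  exact MirInst781.J_nilpotent (K := D.K) (h.isP k)

/-- hypothesis `hsurj` of `Mirror_545` -/
theorem surjO (h : D.OK M0 lam0 Kr) {k : ℕ} (c : D.P k → D.K) :
    ∃ f : D.P k → Sy D → D.K, Mirror545.InV (alO D) (gamO D k) f ∧ ∀ g, f g (sy0 D) = c g := by
  obtain ⟨f, hf, hc⟩ := cmod_surj h c
  exact ⟨f, (inV_iff h).2 hf, hc⟩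

/-- hypothesis `hinj` of `Mirror545.base_of_inj` -/
theorem injO (h : D.OK M0 lam0 Kr) {k : ℕ} {f : D.P k → Sy D → D.K}
    (hf : Mirror545.InV (alO D) (gamO D k) f) (h0 : ∀ g, f g (sy0 D) = 0) : f = 0 :=
  cmod_inj h ((inV_iff h).1 hf) h0

/-! ### the mirror words of the object -/

section main

variable (h : D.OK M0 lam0 Kr) {k : ℕ} {M : Type*} [AddCommGroup M] [Module D.K M]

/-- mirror relation of level `k` -/
abbrev MR (h : D.OK M0 lam0 Kr) {k : ℕ} {M : Type*} [AddCommGroup M] [Module D.K M]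
    (q : D.P k → M) (U : {s : Sy D // s ≠ sy0 D} → D.P k → M) : Prop :=
  Mirror545.MirRel (sy0 D) (betO h) (gamO D k) q U

/-- **every word has exactly one family of mirror words** -/
theorem mir_existsUnique (q : D.P k → M) :
    ∃! U : {s : Sy D // s ≠ sy0 D} → D.P k → M, MR h q U := by
  obtain ⟨L, hL⟩ := nilO h k
  exact Mirror545.mir_existsUnique (sy0 D) (alO D) (pmO h) (isP_pmO h) (gamO D k) hL q

theorem mir_unique {q : D.P k → M} {U U' : {s : Sy D // s ≠ sy0 D} → D.P k → M}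
    (h1 : MR h q U) (h2 : MR h q U') : U = U' :=
  (mir_existsUnique h q).unique h1 h2

theorem mir_zero {q : D.P k → M} {U : {s : Sy D // s ≠ sy0 D} → D.P k → M}
    (h1 : MR h q U) (hq : ∀ g, q g = 0) : ∀ s g, U s g = 0 := by
  obtain ⟨L, hL⟩ := nilO h k
  exact Mirror545.mir_zero (sy0 D) (alO D) (pmO h) (isP_pmO h) (gamO D k) hL h1 hq

/-- **the mirror words read backwards are the word of the code with content `g ↦ q g⁻¹`** -/
theorem mir_word {q : D.P k → D.K} {U : {s : Sy D // s ≠ sy0 D} → D.P k → D.K}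
    (h1 : MR h q U) : (fun g s => Mirror545.ext (sy0 D) q U s g⁻¹) ∈ cmod D k 1 := by
  obtain ⟨L, hL⟩ := nilO h k
  rw [← inV_iff h]
  exact Mirror545.mir_word (sy0 D) (alO D) (pmO h) (isP_pmO h) (gamO D k) hL (surjO h) h1

/-- conversely: the symbols of a word of the code read backwards are the mirror words of its
content -/
theorem mir_of_word {f : D.P k → Sy D → D.K} (hf : f ∈ cmod D k 1) :
    MR h (fun g => f g⁻¹ (sy0 D)) (fun s g => f g⁻¹ s.1) := by
  obtain ⟨U, hU, -⟩ := mir_existsUnique h (fun g => f g⁻¹ (sy0 D))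
  have h1 := mir_word h hU
  have h2 : (fun g s => Mirror545.ext (sy0 D) (fun g => f g⁻¹ (sy0 D)) U s g⁻¹) = f := by
    have h3 := cmod_inj h ((cmod D k 1).sub_mem h1 hf) fun t => by
      simp
    exact sub_eq_zero.1 h3
  have h4 : U = fun (s : {s : Sy D // s ≠ sy0 D}) g => f g⁻¹ s.1 := by
    funext s g
    have := congrFun (congrFun h2 g⁻¹) s.1
    simp only [Mirror545.ext_ne, inv_inv] at this
    exact this
  rw [← h4]
  exact hU

/-- **density** -/
theorem mir_dense {d : ℕ} (hd : ∀ f ∈ cmod D k 1, f ≠ 0 →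
      d ≤ Nat.card {x : D.P k × Sy D // f x.1 x.2 ≠ 0})
    {q : D.P k → M} {U : {s : Sy D // s ≠ sy0 D} → D.P k → M}
    (h1 : MR h q U) (hq : ∃ g, q g ≠ 0) :
    d ≤ Nat.card {x : D.P k × Sy D // Mirror545.ext (sy0 D) q U x.2 x.1 ≠ 0} := by
  obtain ⟨L, hL⟩ := nilO h k
  exact Mirror545.mir_dense (sy0 D) (alO D) (pmO h) (isP_pmO h) (gamO D k) hL (surjO h)
    (fun f hf hf0 => hd f ((inV_iff h).1 hf) hf0) h1 hq

/-- **density, two factors**: positions `Ω` of the first factor -/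
theorem mir_dense_prod {Ω : Type*} [Finite Ω] {d : ℕ}
    (hd : ∀ f ∈ cmod D k 1, f ≠ 0 → d ≤ Nat.card {x : D.P k × Sy D // f x.1 x.2 ≠ 0})
    {q : D.P k → Ω → D.K} {U : {s : Sy D // s ≠ sy0 D} → D.P k → Ω → D.K}
    (h1 : MR h q U) {dP : ℕ} {τ0 : D.P k} (hdP : dP ≤ Nat.card {ω : Ω // q τ0 ω ≠ 0}) :
    dP * d ≤ Nat.card {x : Ω × (D.P k × Sy D) //
      Mirror545.ext (sy0 D) q U x.2.2 x.2.1 x.1 ≠ 0} := by
  obtain ⟨L, hL⟩ := nilO h k
  exact Mirror545.mir_dense_prod (sy0 D) (alO D) (pmO h) (isP_pmO h) (gamO D k) hL (surjO h)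
    (fun f hf hf0 => hd f ((inV_iff h).1 hf) hf0) h1 hdP

/-- **density, units** -/
theorem mir_units {Pg SP : Type*} [Finite Pg] [Fintype SP] {d : ℕ}
    (hd : ∀ f ∈ cmod D k 1, f ≠ 0 → d ≤ Nat.card {x : D.P k × Sy D // f x.1 x.2 ≠ 0})
    {q : D.P k → (Pg × SP) → D.K} {U : {s : Sy D // s ≠ sy0 D} → D.P k → (Pg × SP) → D.K}
    (h1 : MR h q U) {dP : ℕ} {τ0 : D.P k}
    (hdP : dP ≤ Nat.card {ω : Pg × SP // q τ0 ω ≠ 0}) :
    dP * d ≤ Nat.card {u : Pg × D.P k // ∃ b : SP × Sy D,
        Mirror545.ext (sy0 D) q U b.2 u.2 (u.1, b.1) ≠ 0}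
      * (Fintype.card SP * Fintype.card (Sy D)) := by
  obtain ⟨L, hL⟩ := nilO h k
  exact Mirror545.mir_units (sy0 D) (alO D) (pmO h) (isP_pmO h) (gamO D k) hL (surjO h)
    (fun f hf hf0 => hd f ((inV_iff h).1 hf) hf0) h1 hdP

end main

/-! ### minimum distance of the codes -/

open Tan846 in
/-- two words of degree at most `M0` differ in more than `(9 / 16 - lam ^ 2) |P k|` units -/
theorem dist_units (h : D.OK M0 lam0 Kr) (h0 : lam0 ≤ 1 / 4) {k d : ℕ} (hd : d ≤ M0)
    {f f' : D.P k → Sy D → D.K} (hf : f ∈ cmod D k d) (hf' : f' ∈ cmod D k d) (hne : f ≠ f') :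
    Fintype.card (D.P k) ≤ 2 * cnt (fun u => f u ≠ f' u) := by
  obtain ⟨n, hn, -, hY⟩ := h.dist
  obtain ⟨lam, hl0, hl1, -, hexp⟩ := h.exp
  have h1 := (D.tp k).sep (hexp k).2.1 (fun i w => hY d hd i w) ((mem_cmod D).1 hf)
    ((mem_cmod D).1 hf') (fun he => hne (by
      funext g s
      obtain ⟨l, m⟩ := s
      exact congrFun (congrFun (congrFun he g) l) m))
  have h2 : cnt (fun u => (fun l m => f u (l, m)) ≠ fun l m => f' u (l, m))
      = cnt (fun u => f u ≠ f' u) := by
    congr 1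
    funext u
    refine propext (not_congr ⟨fun he => ?_, fun he => by rw [he]⟩)
    funext s
    obtain ⟨l, m⟩ := s
    exact congrFun (congrFun he l) m
  rw [h2] at h1
  have hI : (0 : ℝ) < Fintype.card (Option D.K) := by exact_mod_cast Fintype.card_pos
  have hn' : (3 : ℝ) * Fintype.card (Option D.K) ≤ 4 * n := by exact_mod_cast hn
  have hN0 : (0 : ℝ) ≤ Fintype.card (D.P k) := by positivity
  have hgoal : ((Fintype.card (D.P k) : ℕ) : ℝ) ≤ 2 * ((cnt (fun u => f u ≠ f' u) : ℕ) : ℝ) →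
      Fintype.card (D.P k) ≤ 2 * cnt (fun u => f u ≠ f' u) := by
    intro h5
    exact_mod_cast h5
  apply hgoal
  generalize ((Fintype.card (Option D.K) : ℕ) : ℝ) = I at *
  generalize ((Fintype.card (D.P k) : ℕ) : ℝ) = N at *
  generalize ((cnt (fun u => f u ≠ f' u) : ℕ) : ℝ) = w at *
  have hlam : lam ^ 2 ≤ 1 / 16 := by nlinarith
  have h3 : (9 / 16 : ℝ) * I ^ 2 * N ≤ I ^ 2 * (w + lam ^ 2 * N) := by
    refine le_trans ?_ h1
    refine mul_le_mul_of_nonneg_right ?_ hN0
    nlinarith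
  have h4 : (9 / 16 : ℝ) * N ≤ w + lam ^ 2 * N := by
    have : I ^ 2 * ((9 / 16 : ℝ) * N) ≤ I ^ 2 * (w + lam ^ 2 * N) := by linarith
    exact le_of_mul_le_mul_left this (by positivity)
  nlinarith

open Tan846 in
/-- minimum number of non-zero symbols -/
theorem dist_symbols (h : D.OK M0 lam0 Kr) (h0 : lam0 ≤ 1 / 4) {k d : ℕ} (hd : d ≤ M0)
    {f : D.P k → Sy D → D.K} (hf : f ∈ cmod D k d) (hne : f ≠ 0) :
    Fintype.card (D.P k) ≤ 2 * Nat.card {x : D.P k × Sy D // f x.1 x.2 ≠ 0} := by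
  classical
  refine (dist_units h h0 hd hf (cmod D k d).zero_mem hne).trans ?_
  refine Nat.mul_le_mul_left 2 ?_
  have h1 : cnt (fun u => f u ≠ (0 : D.P k → Sy D → D.K) u)
      = Nat.card {u : D.P k // f u ≠ (0 : D.P k → Sy D → D.K) u} := by
    rw [Nat.card_eq_fintype_card, Fintype.card_subtype]
    unfold cnt
    congr
  rw [h1]
  have h2 : ∀ u : {u : D.P k // f u ≠ (0 : D.P k → Sy D → D.K) u}, ∃ s, f u.1 s ≠ 0 := by
    intro u
    obtain ⟨s, hs⟩ := Function.ne_iff.1 u.2
    exact ⟨s, hs⟩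
  choose s hs using h2
  refine Nat.card_le_card_of_injective
    (fun u => (⟨(u.1, s u), hs u⟩ : {x : D.P k × Sy D // f x.1 x.2 ≠ 0})) ?_
  intro u v huv
  have := congrArg (fun z : {x : D.P k × Sy D // f x.1 x.2 ≠ 0} => z.1.1) huv
  exact Subtype.ext this

/-- hypothesis `hd` of the density theorems, `d = ⌈|P k| / 2⌉` -/
theorem hd_of (h : D.OK M0 lam0 Kr) (h0 : lam0 ≤ 1 / 4) (h1 : 1 ≤ M0) (k : ℕ) :
    ∀ f ∈ cmod D k 1, f ≠ 0 →
      (Fintype.card (D.P k) + 1) / 2 ≤ Nat.card {x : D.P k × Sy D // f x.1 x.2 ≠ 0} := by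
  intro f hf hne
  have := dist_symbols h h0 h1 hf hne
  omega

end Crest.Agent.R289.MirIn3
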