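import Crest.Agent.R289.Pub_654
import Crest.Agent.R289.Mirror_545
import Crest.Agent.R289.Level_492

/-!
# R289, leaf E25: polynomial-time tables of the T-side public words (helper407)

`K` a finite field with any code; `e a : P a ≃ Fin (n a)` numbered finite sets, `n` unary.

* `Tb e f` : the family `f a : P a → β` is a polynomial-time table (value `0` outside);
  `PTW e f` : the family of words `f a : P a → X → K` is one (symbol by symbol).
* closure: zero, constants, functions of `a`, sums, differences, products, scalar multiples, finite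
  sums, change of symbols, composition with tabled maps (`Tb.comp`, translations).
* `ptw_mir` : the mirror words (`Mirror545.MirRel`, absolute coefficients `β`, tabled left
  translations `(γ a j)⁻¹ * ·`) of a tabled word are tabled (unique solution of a linear system).
-/

set_option autoImplicit false
set_option linter.dupNamespace false
set_option linter.unusedSectionVars false

namespace Crest.Agent.R289.MirTab407

open Crest.Agent.Lib.PT Crest.Agent.Lib.PT.Arith Crest.Agent.R288.PtDp115 Crest.Agent.R289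
open Crest.Agent.R289.Gauss115 Crest.Agent.R289.Tab858 Crest.Agent.R289.Pub654
open Crest.Agent.R289.Mirror545

section basic

variable {α : Type} [PTCode α] {n : α → ℕ} {P : α → Type} (e : ∀ a, P a ≃ Fin (n a))

/-- the family `f` is a polynomial-time table -/
def Tb {β : Type} [Zero β] [PTCode β] (f : ∀ a, P a → β) : Prop :=
  PTF (fun p : α × ℕ => if h : p.2 < n p.1 then f p.1 ((e p.1).symm ⟨p.2, h⟩) else 0)

variable {e}

theorem Tb.of_eq {β : Type} [Zero β] [PTCode β] {f g : ∀ a, P a → β} (hf : Tb e f)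
    (h : ∀ a x, f a x = g a x) : Tb e g := by
  have : f = g := by funext a x; exact h a x
  rwa [this] at hf

theorem ptf_in {β : Type} [PTCode β] (hn : PTU n) {f d : α × ℕ → β} (hf : PTF f) (hd : PTF d) :
    PTF (fun p : α × ℕ => if p.2 < n p.1 then f p else d p) :=
  PTF.ite (p := fun p : α × ℕ => p.2 < n p.1)
    (PTPred.natLt PTF.snd (PTF.comp (g := n) hn.toPTF PTF.fst)) hf hd

/-- functions of the instance -/
theorem Tb.fst {β : Type} [Zero β] [PTCode β] (hn : PTU n) {k : α → β} (hk : PTF k) :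
    Tb e (fun a _ => k a) := by
  refine PTF.of_eq (ptf_in hn (f := fun p => k p.1) (d := fun _ => (0 : β))
    (PTF.comp (g := k) hk PTF.fst) (PTF.const 0)) fun p => ?_
  by_cases h : p.2 < n p.1 <;> simp [h]

theorem Tb.const {β : Type} [Zero β] [PTCode β] (hn : PTU n) (c : β) :
    Tb e (fun _ _ => c) := Tb.fst hn (PTF.const c)

theorem Tb.zero {β : Type} [Zero β] [PTCode β] : Tb e (fun _ _ => (0 : β)) := by
  refine PTF.of_eq (PTF.const (0 : β)) fun p => ?_
  by_cases h : p.2 < n p.1 <;> simp [h]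

/-- the number of an element -/
theorem Tb.id (hn : PTU n) : Tb e (fun a x => ((e a x : Fin (n a)) : ℕ)) := by
  refine PTF.of_eq (ptf_in hn (f := fun p => p.2) (d := fun _ => 0) PTF.snd (PTF.const 0))
    fun p => ?_
  by_cases h : p.2 < n p.1 <;> simp [h]

/-- composition of a table with a tabled map -/
theorem Tb.comp {β : Type} [Zero β] [PTCode β] (hn : PTU n) {f : ∀ a, P a → β} (hf : Tb e f)
    {m : ∀ a, P a → P a} (hm : Tb e (fun a x => ((e a (m a x) : Fin (n a)) : ℕ))) :
    Tb e (fun a x => f a (m a x)) := by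
  have h1 : PTF (fun p : α × ℕ => (p.1, if h : p.2 < n p.1 then
      ((e p.1 (m p.1 ((e p.1).symm ⟨p.2, h⟩)) : Fin (n p.1)) : ℕ) else 0)) :=
    PTF.prodMk PTF.fst hm
  have h2 := PTF.comp (g := fun p : α × ℕ => if h : p.2 < n p.1 then
    f p.1 ((e p.1).symm ⟨p.2, h⟩) else 0) hf h1
  refine PTF.of_eq (ptf_in hn h2 (PTF.const (0 : β))) fun p => ?_
  by_cases h : p.2 < n p.1 <;> simp [h]

/-- general map of values -/
theorem Tb.map {β γ : Type} [Zero β] [PTCode β] [Zero γ] [PTCode γ] (hn : PTU n)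
    {f : ∀ a, P a → β} (hf : Tb e f) {φ : β → γ} (hφ : PTF φ) : Tb e (fun a x => φ (f a x)) := by
  have h2 := PTF.comp (g := φ) hφ (f := fun p : α × ℕ => if h : p.2 < n p.1 then
    f p.1 ((e p.1).symm ⟨p.2, h⟩) else 0) hf
  refine PTF.of_eq (ptf_in hn h2 (PTF.const (0 : γ))) fun p => ?_
  by_cases h : p.2 < n p.1 <;> simp [h]

/-- table of pairs, mapped -/
theorem Tb.map₂ {β γ δ : Type} [Zero β] [PTCode β] [Zero γ] [PTCode γ] [Zero δ] [PTCode δ]
    (hn : PTU n) {f : ∀ a, P a → β} {g : ∀ a, P a → γ} (hf : Tb e f) (hg : Tb e g)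
    {φ : β → γ → δ} (hφ : PTF (fun p : β × γ => φ p.1 p.2)) :
    Tb e (fun a x => φ (f a x) (g a x)) := by
  have h2 := PTF.comp (g := fun p : β × γ => φ p.1 p.2) hφ (f := fun p : α × ℕ =>
    ((if h : p.2 < n p.1 then f p.1 ((e p.1).symm ⟨p.2, h⟩) else 0),
     (if h : p.2 < n p.1 then g p.1 ((e p.1).symm ⟨p.2, h⟩) else 0))) (PTF.prodMk hf hg)
  refine PTF.of_eq (ptf_in hn h2 (PTF.const (0 : δ))) fun p => ?_
  by_cases h : p.2 < n p.1 <;> simp [h]

end basic

section field

variable {K : Type} [Field K] [Finite K] [PTCode K]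
variable {α : Type} [PTCode α] {n : α → ℕ} {P : α → Type} {e : ∀ a, P a ≃ Fin (n a)}

theorem Tb.add {f g : ∀ a, P a → K} (hf : Tb e f) (hg : Tb e g) :
    Tb e (fun a x => f a x + g a x) := by
  refine PTF.of_eq (ptf_kadd hf hg) fun p => ?_
  by_cases h : p.2 < n p.1 <;> simp [h]

theorem Tb.sub {f g : ∀ a, P a → K} (hf : Tb e f) (hg : Tb e g) :
    Tb e (fun a x => f a x - g a x) := by
  refine PTF.of_eq (ptf_ksub hf hg) fun p => ?_
  by_cases h : p.2 < n p.1 <;> simp [h]

theorem Tb.mul {f g : ∀ a, P a → K} (hf : Tb e f) (hg : Tb e g) :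
    Tb e (fun a x => f a x * g a x) := by
  refine PTF.of_eq (ptf_kmul hf hg) fun p => ?_
  by_cases h : p.2 < n p.1 <;> simp [h]

theorem Tb.neg {f : ∀ a, P a → K} (hf : Tb e f) : Tb e (fun a x => - f a x) := by
  refine PTF.of_eq (ptf_kneg hf) fun p => ?_
  by_cases h : p.2 < n p.1 <;> simp [h]

theorem Tb.smul {f : ∀ a, P a → K} (c : K) (hf : Tb e f) : Tb e (fun a x => c * f a x) := by
  refine PTF.of_eq (ptf_kmul (PTF.const c) hf) fun p => ?_
  by_cases h : p.2 < n p.1 <;> simp [h]

/-- scalar depending on the instance -/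
theorem Tb.smulA {f : ∀ a, P a → K} {c : α → K} (hc : PTF c) (hf : Tb e f) :
    Tb e (fun a x => c a * f a x) := by
  refine PTF.of_eq (ptf_kmul (PTF.comp (g := c) hc PTF.fst) hf) fun p => ?_
  by_cases h : p.2 < n p.1 <;> simp [h]

theorem Tb.sum {ι : Type} (s : Finset ι) {f : ι → ∀ a, P a → K} (hf : ∀ i ∈ s, Tb e (f i)) :
    Tb e (fun a x => ∑ i ∈ s, f i a x) := by
  classical
  induction s using Finset.induction_on with
  | empty => simpa using (Tb.zero (e := e) (β := K))
  | insert i s hi ih =>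
    refine Tb.of_eq (Tb.add (hf i (Finset.mem_insert_self _ _))
      (ih fun j hj => hf j (Finset.mem_insert_of_mem hj))) fun a x => ?_
    rw [Finset.sum_insert hi]

theorem ptf_fsum {ι : Type} (s : Finset ι) {f : ι → α → K} (hf : ∀ i ∈ s, PTF (f i)) :
    PTF (fun a => ∑ i ∈ s, f i a) := by
  classical
  induction s using Finset.induction_on with
  | empty => simpa using PTF.const (0 : K)
  | insert i s hi ih =>
    refine PTF.of_eq (ptf_kadd (hf i (Finset.mem_insert_self _ _))
      (ih fun j hj => hf j (Finset.mem_insert_of_mem hj))) fun a => ?_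
    rw [Finset.sum_insert hi]

variable (e) in
/-- the family of words is a polynomial-time table -/
def PTW {X : Type} (f : ∀ a, P a → X → K) : Prop := ∀ x, Tb e (fun a g => f a g x)

variable {X Y : Type}

theorem PTW.of_eq {f g : ∀ a, P a → X → K} (hf : PTW e f) (h : ∀ a u x, f a u x = g a u x) :
    PTW e g := fun x => Tb.of_eq (hf x) fun a u => h a u x

theorem PTW.zero : PTW e (fun _ _ (_ : X) => (0 : K)) := fun _ => Tb.zero

theorem PTW.const (hn : PTU n) (c : X → K) : PTW e (fun _ _ x => c x) :=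
  fun x => Tb.const hn (c x)

theorem PTW.add {f g : ∀ a, P a → X → K} (hf : PTW e f) (hg : PTW e g) :
    PTW e (fun a u x => f a u x + g a u x) := fun x => (hf x).add (hg x)

theorem PTW.sub {f g : ∀ a, P a → X → K} (hf : PTW e f) (hg : PTW e g) :
    PTW e (fun a u x => f a u x - g a u x) := fun x => (hf x).sub (hg x)

theorem PTW.mul {f g : ∀ a, P a → X → K} (hf : PTW e f) (hg : PTW e g) :
    PTW e (fun a u x => f a u x * g a u x) := fun x => (hf x).mul (hg x)

theorem PTW.neg {f : ∀ a, P a → X → K} (hf : PTW e f) :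
    PTW e (fun a u x => - f a u x) := fun x => (hf x).neg

theorem PTW.smul {f : ∀ a, P a → X → K} (c : K) (hf : PTW e f) :
    PTW e (fun a u x => c * f a u x) := fun x => (hf x).smul c

theorem PTW.smulA {f : ∀ a, P a → X → K} {c : α → K} (hc : PTF c) (hf : PTW e f) :
    PTW e (fun a u x => c a * f a u x) := fun x => (hf x).smulA hc

theorem PTW.sum {ι : Type} (s : Finset ι) {f : ι → ∀ a, P a → X → K}
    (hf : ∀ i ∈ s, PTW e (f i)) : PTW e (fun a u x => ∑ i ∈ s, f i a u x) :=
  fun x => Tb.sum s fun i hi => hf i hi x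

/-- change of symbols -/
theorem PTW.sym {f : ∀ a, P a → X → K} (hf : PTW e f) (φ : Y → X) :
    PTW e (fun a u y => f a u (φ y)) := fun y => hf (φ y)

/-- word at a tabled neighbour -/
theorem PTW.comp (hn : PTU n) {f : ∀ a, P a → X → K} (hf : PTW e f) {m : ∀ a, P a → P a}
    (hm : Tb e (fun a x => ((e a (m a x) : Fin (n a)) : ℕ))) :
    PTW e (fun a u x => f a (m a u) x) := fun x => Tb.comp hn (hf x) hm

/-- choice of one of two words by a property of the instance -/
theorem PTW.ite {f g : ∀ a, P a → X → K} {c : α → Prop} [DecidablePred c] (hc : PTPred c)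
    (hf : PTW e f) (hg : PTW e g) : PTW e (fun a u x => if c a then f a u x else g a u x) := by
  intro x
  have hc' : PTPred (fun p : α × ℕ => c p.1) := PTPred.comp hc PTF.fst
  refine PTF.of_eq (PTF.ite (p := fun p : α × ℕ => c p.1) hc' (hf x) (hg x)) fun p => ?_
  by_cases h : p.2 < n p.1 <;> by_cases h' : c p.1 <;> simp [h, h']

/-- change of the instance: `f (r b)` is a table on `b` -/
theorem PTW.inst {β : Type} [PTCode β] {f : ∀ a, P a → X → K} (hf : PTW e f) {r : β → α}
    (hr : PTF r) : PTW (fun b => e (r b)) (fun b => f (r b)) := by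
  intro x
  have h := PTF.comp (g := fun p : α × ℕ => if h : p.2 < n p.1 then
    f p.1 ((e p.1).symm ⟨p.2, h⟩) x else 0) (f := fun p : β × ℕ => (r p.1, p.2)) (hf x)
    (PTF.prodMk (PTF.comp (g := r) hr PTF.fst) PTF.snd)
  exact h

end field

/-! ### mirror words -/

section mirror

variable {K : Type} [Field K] [Finite K] [PTCode K]
variable {α : Type} [PTCode α] {n : α → ℕ} {T : α → Type} [∀ a, Group (T a)]
  {e : ∀ a, T a ≃ Fin (n a)}
variable {S J X : Type} [Fintype S] [DecidableEq S] [Fintype J]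

/-- coefficient of the unknown `(g, s)` in the equation `(h, c)` -/
def cfm (s0 : S) (β : {s : S // s ≠ s0} → S → J → K) (nb : J → ℕ → ℕ) (c s : {s : S // s ≠ s0})
    (h g : ℕ) : K := ∑ j, if nb j h = g then β c s.1 j else 0

/-- right side of the equation `(h, c)` -/
def rhm (s0 : S) (β : {s : S // s ≠ s0} → S → J → K) (nb : J → ℕ → ℕ) (qN : ℕ → K)
    (c : {s : S // s ≠ s0}) (h : ℕ) : K := - ∑ j, β c s0 j * qN (nb j h)

omit [Finite K] [PTCode K] [DecidableEq S] in
theorem sum_cfm [DecidableEq S] (s0 : S) (β : {s : S // s ≠ s0} → S → J → K) (nb : J → ℕ → ℕ)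
    {n h : ℕ} (hlt : ∀ j, nb j h < n) (c : {s : S // s ≠ s0})
    (v : ℕ → {s : S // s ≠ s0} → K) :
    ∑ g ∈ Finset.range n, ∑ s, cfm s0 β nb c s h g * v g s
      = ∑ s : {s : S // s ≠ s0}, ∑ j, β c s.1 j * v (nb j h) s := by
  rw [Finset.sum_comm]
  refine Finset.sum_congr rfl fun s _ => ?_
  simp only [cfm, Finset.sum_mul, ite_mul, zero_mul]
  rw [Finset.sum_comm]
  refine Finset.sum_congr rfl fun j _ => ?_
  rw [Finset.sum_ite_eq, if_pos (Finset.mem_range.2 (hlt j))]

omit [Finite K] [PTCode K] in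
theorem mir_scalar {T : Type} [Group T] {s0 : S} {β : {s : S // s ≠ s0} → S → J → K} {γ : J → T}
    {q : T → K} {U : {s : S // s ≠ s0} → T → K} :
    MirRel s0 β γ q U ↔ ∀ c g, ∑ s : {s : S // s ≠ s0}, ∑ j, β c s.1 j * U s ((γ j)⁻¹ * g)
      = - ∑ j, β c s0 j * q ((γ j)⁻¹ * g) := by
  unfold MirRel
  constructor
  · intro h c g
    have := h c g
    rw [sum_ext] at this
    simp only [smul_eq_mul] at this
    exact eq_neg_of_add_eq_zero_right this
  · intro h c g
    rw [sum_ext]
    simp only [smul_eq_mul]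
    rw [h c g]
    exact add_neg_cancel _

set_option maxHeartbeats 800000 in
/-- **mirror words of tabled words are tabled** -/
theorem ptw_mir (s0 : S) (β : {s : S // s ≠ s0} → S → J → K) (γ : ∀ a, J → T a) (hn : PTU n)
    (hγ : ∀ j, Tb e (fun a g => ((e a ((γ a j)⁻¹ * g) : Fin (n a)) : ℕ)))
    {q : ∀ a, T a → X → K} (hq : PTW e q) {U : ∀ a, {s : S // s ≠ s0} → T a → X → K}
    (hU : ∀ a, MirRel s0 β (γ a) (q a) (U a))
    (huniq : ∀ a (V : {s : S // s ≠ s0} → T a → K),
      MirRel s0 β (γ a) (fun _ => (0 : K)) V → ∀ s g, V s g = 0)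
    (s : {s : S // s ≠ s0}) : PTW e (fun a => U a s) := by
  classical
  intro x
  set m := Fintype.card {s : S // s ≠ s0} with hm
  have hm0 : 0 < m := Fintype.card_pos_iff.2 ⟨s⟩
  -- number level data
  obtain ⟨nb, hnbd⟩ : ∃ nb : α → J → ℕ → ℕ, nb = fun a j h => if hh : h < n a then
    ((e a ((γ a j)⁻¹ * (e a).symm ⟨h, hh⟩) : Fin (n a)) : ℕ) else 0 := ⟨_, rfl⟩
  obtain ⟨qN, hqNd⟩ : ∃ qN : α → ℕ → K, qN = fun a g =>
    if h : g < n a then q a ((e a).symm ⟨g, h⟩) x else 0 := ⟨_, rfl⟩
  have hnb : ∀ j, PTF (fun p : α × ℕ => nb p.1 j p.2) := by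
    rw [hnbd]; exact fun j => hγ j
  have hqN : PTF (fun p : α × ℕ => qN p.1 p.2) := by
    rw [hqNd]; exact hq x
  have hlt : ∀ a j h, h < n a → nb a j h < n a := by
    intro a j h hh
    simp only [hnbd, hh, dif_pos]
    exact Fin.isLt _
  have hrel : ∀ a, MirRel s0 β (γ a) (fun g => q a g x) (fun s g => U a s g x) :=
    fun a => (hU a).map (LinearMap.proj x)
  -- the coefficients
  have hA : PTF (fun p : α × ℕ × ℕ => cfm s0 β (nb p.1) (dec s (p.2.1 % m)) (dec s (p.2.2 % m))
      (p.2.1 / m) (p.2.2 / m)) := by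
    have hG : ∀ i t : ℕ, PTF (fun p : α × ℕ × ℕ => cfm s0 β (nb p.1) (dec s i) (dec s t)
        (p.2.1 / m) (p.2.2 / m)) := by
      intro i t
      refine ptf_fsum Finset.univ fun j _ => ?_
      have hh : PTF (fun p : α × ℕ × ℕ => p.2.1 / m) :=
        PTF.natDiv (PTF.comp PTF.fst PTF.snd) (PTF.const m)
      have hg : PTF (fun p : α × ℕ × ℕ => p.2.2 / m) :=
        PTF.natDiv (PTF.comp PTF.snd PTF.snd) (PTF.const m)
      have hnb' : PTF (fun p : α × ℕ × ℕ => nb p.1 j (p.2.1 / m)) :=
        PTF.comp (g := fun p : α × ℕ => nb p.1 j p.2)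
          (f := fun p : α × ℕ × ℕ => (p.1, p.2.1 / m)) (hnb j) (PTF.prodMk PTF.fst hh)
      exact PTF.ite (p := fun p : α × ℕ × ℕ => nb p.1 j (p.2.1 / m) = p.2.2 / m)
        (PTPred.eq hnb' hg) (PTF.const _) (PTF.const 0)
    have h1 : PTF (fun p : α × ℕ × ℕ => if p.2.1 % m < m then (if p.2.2 % m < m then
        cfm s0 β (nb p.1) (dec s (p.2.1 % m)) (dec s (p.2.2 % m)) (p.2.1 / m) (p.2.2 / m)
        else 0) else 0) := by
      refine ptf_upto m (f := fun i p => if p.2.2 % m < m then
        cfm s0 β (nb p.1) (dec s i) (dec s (p.2.2 % m)) (p.2.1 / m) (p.2.2 / m) else 0)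
        (d := fun _ : α × ℕ × ℕ => (0 : K)) (fun i _ => ?_) (PTF.const 0)
        (PTF.natMod (PTF.comp PTF.fst PTF.snd) (PTF.const m))
      exact ptf_upto m (f := fun t p => cfm s0 β (nb p.1) (dec s i) (dec s t)
        (p.2.1 / m) (p.2.2 / m)) (d := fun _ : α × ℕ × ℕ => (0 : K)) (fun t _ => hG i t)
        (PTF.const 0) (PTF.natMod (PTF.comp PTF.snd PTF.snd) (PTF.const m))
    refine PTF.of_eq h1 fun p => ?_
    rw [if_pos (Nat.mod_lt _ hm0), if_pos (Nat.mod_lt _ hm0)]
  have hb : PTF (fun p : α × ℕ => rhm s0 β (nb p.1) (qN p.1) (dec s (p.2 % m)) (p.2 / m)) := by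
    have hG : ∀ i : ℕ, PTF (fun p : α × ℕ => rhm s0 β (nb p.1) (qN p.1) (dec s i) (p.2 / m)) := by
      intro i
      refine ptf_kneg (ptf_fsum Finset.univ fun j _ => ptf_kmul (PTF.const _) ?_)
      have hnb' : PTF (fun p : α × ℕ => nb p.1 j (p.2 / m)) :=
        PTF.comp (g := fun p : α × ℕ => nb p.1 j p.2)
          (f := fun p : α × ℕ => (p.1, p.2 / m)) (hnb j)
          (PTF.prodMk PTF.fst (PTF.natDiv PTF.snd (PTF.const m)))
      exact PTF.comp (g := fun p : α × ℕ => qN p.1 p.2)
        (f := fun p : α × ℕ => (p.1, nb p.1 j (p.2 / m))) hqN (PTF.prodMk PTF.fst hnb')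
    have h1 : PTF (fun p : α × ℕ => if p.2 % m < m then
        rhm s0 β (nb p.1) (qN p.1) (dec s (p.2 % m)) (p.2 / m) else 0) :=
      ptf_upto m (f := fun i p => rhm s0 β (nb p.1) (qN p.1) (dec s i) (p.2 / m))
        (d := fun _ : α × ℕ => (0 : K)) (fun i _ => hG i) (PTF.const 0)
        (PTF.natMod PTF.snd (PTF.const m))
    refine PTF.of_eq h1 fun p => ?_
    rw [if_pos (Nat.mod_lt _ hm0)]
  have hmain := ptf_unique (n := fun a => n a * m) (m := fun a => n a * m)
    (A := fun a row col => cfm s0 β (nb a) (dec s (row % m)) (dec s (col % m)) (row / m)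
      (col / m))
    (b := fun a row => rhm s0 β (nb a) (qN a) (dec s (row % m)) (row / m))
    (x := fun a j => if h : j / m < n a then U a (dec s (j % m)) ((e a).symm ⟨j / m, h⟩) x else 0)
    (PTU.mul hn (PTU.const m)) (PTU.mul hn (PTU.const m)) hA hb ?_ ?_
  · -- read off
    have hc : PTF (fun p : α × ℕ => (p.1, p.2 * m + num s)) :=
      PTF.prodMk PTF.fst (PTF.natAdd (PTF.natMul PTF.snd (PTF.const m)) (PTF.const (num s)))
    have h2 := PTF.comp (g := fun p : α × ℕ => if p.2 < n p.1 * m then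
      (if h : p.2 / m < n p.1 then U p.1 (dec s (p.2 % m)) ((e p.1).symm ⟨p.2 / m, h⟩) x else 0)
      else 0) (f := fun p : α × ℕ => (p.1, p.2 * m + num s)) hmain hc
    refine PTF.of_eq h2 fun p => ?_
    simp only
    by_cases h : p.2 < n p.1
    · rw [if_pos (idx_lt h (num_lt s))]
      have h3 : (p.2 * m + num s) / m = p.2 := idx_div (num_lt s)
      have h4 : (p.2 * m + num s) % m = num s := idx_mod (num_lt s)
      rw [h4, dec_num]
      simp only [h3, h, dif_pos]
    · rw [if_neg, dif_neg h]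
      intro hcon
      apply h
      have : p.2 * m < n p.1 * m := by omega
      exact Nat.lt_of_mul_lt_mul_right this
  · intro a row hrow
    have hh : row / m < n a := Nat.div_lt_of_lt_mul (by rwa [mul_comm] at hrow)
    have e1 := sum_range_mul_card s (n a) (fun g s' => cfm s0 β (nb a) (dec s (row % m)) s'
      (row / m) g * (if h : g < n a then U a s' ((e a).symm ⟨g, h⟩) x else 0))
    rw [← hm] at e1
    rw [e1, sum_cfm s0 β (nb a) (fun j => hlt a j _ hh)]
    have h5 := (mir_scalar.1 (hrel a)) (dec s (row % m)) ((e a).symm ⟨row / m, hh⟩)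
    have h6 : ∀ j, nb a j (row / m) = ((e a ((γ a j)⁻¹ * (e a).symm ⟨row / m, hh⟩) :
        Fin (n a)) : ℕ) := by
      intro j
      simp only [hnbd, hh, dif_pos]
    simp only [rhm, h6, hqNd, Fin.is_lt, dif_pos, Fin.eta, Equiv.symm_apply_apply]
    exact h5
  · intro a y hy j hj
    have hj' : j / m < n a := Nat.div_lt_of_lt_mul (by rwa [mul_comm] at hj)
    have key := huniq a (fun s' g => y ((e a g : ℕ) * m + num s')) ?_ (dec s (j % m))
      ((e a).symm ⟨j / m, hj'⟩)
    · have key' : y (j / m * m + num (dec s (j % m))) = 0 := by simpa using key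
      rw [num_dec s (Nat.mod_lt _ hm0), mul_comm, Nat.div_add_mod] at key'
      exact key'
    · rw [mir_scalar]
      intro c g
      have h1 := hy ((e a g : ℕ) * m + num c) (idx_lt (e a g).2 (num_lt _))
      have e1 := sum_range_mul_card s (n a) (fun g' s' => cfm s0 β (nb a) c s'
        (e a g : ℕ) g' * y (g' * m + num s'))
      rw [← hm] at e1
      rw [sum_cfm s0 β (nb a) (fun j => hlt a j _ (e a g).2)] at e1
      have h6 : ∀ j, nb a j (e a g : ℕ) = ((e a ((γ a j)⁻¹ * g) : Fin (n a)) : ℕ) := by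
        intro j
        simp only [hnbd, Fin.is_lt, dif_pos, Fin.eta, Equiv.symm_apply_apply]
      simp only [h6] at e1
      simp only [mul_zero, Finset.sum_const_zero, neg_zero]
      rw [← e1, ← h1]
      refine Finset.sum_congr rfl fun j _ => ?_
      rw [idx_div (num_lt _), idx_mod (num_lt _), dec_num, num_dec s (Nat.mod_lt _ hm0),
        mul_comm (j / m) m, Nat.div_add_mod]

end mirror

end Crest.Agent.R289.MirTab407
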