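import Crest.Agent.R289.Mirror2_545
import Crest.Agent.R289.Level_492

/-!
Row 289, mirror words as a MATRIX (for `Level492.cert`, `Level492.certm`).

`mirM` : matrix `({s // s ≠ s0} × T) × T` over `K`; for words `q : T → M` with values in ANY
`K`-module, `MirRel q U ↔ U = act mirM q` (`mirRel_iff_act`).
`mirMS` : the same on words on `T × S'` (`S'` = symbols of the second factor): index type of
`Level492` is `T × S'`; `mirRelS_iff_act`.
-/

set_option autoImplicit false
set_option linter.unusedSectionVars false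

namespace Crest.Agent.R289.Mirror545

open Finset

variable {K T S ι J M : Type*} [Field K] [Group T] [Fintype S] [DecidableEq S] [Fintype ι]
  [Fintype J] [AddCommGroup M] [Module K M]

/-- the mirror relation is linear in the coefficients: finite sums -/
theorem MirRel.sum {X : Type*} (A : Finset X) {s0 : S} {β : {s : S // s ≠ s0} → S → J → K}
    {γ : J → T} {q : X → T → M} {U : X → {s : S // s ≠ s0} → T → M}
    (h : ∀ x ∈ A, MirRel s0 β γ (q x) (U x)) :
    MirRel s0 β γ (fun g => ∑ x ∈ A, q x g) (fun s g => ∑ x ∈ A, U x s g) := by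
  classical
  induction A using Finset.induction_on with
  | empty =>
    simp only [Finset.sum_empty]
    exact MirRel.zero s0 β γ
  | insert a A ha ih =>
    have h1 := (h a (Finset.mem_insert_self a A)).add
      (ih fun x hx => h x (Finset.mem_insert_of_mem hx))
    have e1 : (fun g => ∑ x ∈ insert a A, q x g) = fun g => q a g + ∑ x ∈ A, q x g := by
      funext g; rw [Finset.sum_insert ha]
    have e2 : (fun s g => ∑ x ∈ insert a A, U x s g) = fun s g => U a s g + ∑ x ∈ A, U x s g := by
      funext s g; rw [Finset.sum_insert ha]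
    rw [e1, e2]
    exact h1

section matrix

variable [Fintype T] [DecidableEq T]

open Classical in
/-- the mirror words of the delta functions -/
noncomputable def mirM (s0 : S) (α : ι → S → J → K) (P : {s : S // s ≠ s0} → ι → K)
    (γ : J → T) : Matrix ({s : S // s ≠ s0} × T) T K :=
  fun x τ => if h : ∃ U : {s : S // s ≠ s0} → T → K,
      MirRel s0 (bet s0 α P) γ (Pi.single τ (1 : K)) U then h.choose x.1 x.2 else 0

theorem mirM_spec (s0 : S) (α : ι → S → J → K) (P : {s : S // s ≠ s0} → ι → K)
    (hP : IsP s0 α P) (γ : J → T) {L : ℕ} (hL : AugNil322.J K T ^ L = ⊥) (τ : T) :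
    MirRel s0 (bet s0 α P) γ (Pi.single τ (1 : K)) (fun s g => mirM s0 α P γ (s, g) τ) := by
  have h : ∃ U : {s : S // s ≠ s0} → T → K,
      MirRel s0 (bet s0 α P) γ (Pi.single τ (1 : K)) U :=
    (mir_existsUnique s0 α P hP γ hL _).exists
  have e : (fun s g => mirM s0 α P γ (s, g) τ) = h.choose := by
    funext s g
    simp only [mirM, dif_pos h]
  rw [e]
  exact h.choose_spec

/-- **mirror words = matrix product** (values in any `K`-module) -/
theorem mirRel_act (s0 : S) (α : ι → S → J → K) (P : {s : S // s ≠ s0} → ι → K)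
    (hP : IsP s0 α P) (γ : J → T) {L : ℕ} (hL : AugNil322.J K T ^ L = ⊥) (q : T → M) :
    MirRel s0 (bet s0 α P) γ q (fun s g => Level492.act (mirM s0 α P γ) q (s, g)) := by
  have h := MirRel.sum (M := M) (Finset.univ : Finset T)
    (q := fun τ g => (Pi.single τ (1 : K) : T → K) g • q τ)
    (U := fun τ s g => mirM s0 α P γ (s, g) τ • q τ)
    (fun τ _ => (mirM_spec s0 α P hP γ hL τ).map (LinearMap.toSpanSingleton K M (q τ)))
  have e : (fun g => ∑ τ, (Pi.single τ (1 : K) : T → K) g • q τ) = q := by
    funext g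
    rw [Finset.sum_eq_single g]
    · simp
    · intro τ _ hτ
      rw [Pi.single_eq_of_ne (Ne.symm hτ), zero_smul]
    · intro hg; exact absurd (Finset.mem_univ _) hg
  rw [e] at h
  exact h

theorem mirRel_iff_act (s0 : S) (α : ι → S → J → K) (P : {s : S // s ≠ s0} → ι → K)
    (hP : IsP s0 α P) (γ : J → T) {L : ℕ} (hL : AugNil322.J K T ^ L = ⊥) (q : T → M)
    (U : {s : S // s ≠ s0} → T → M) :
    MirRel s0 (bet s0 α P) γ q U ↔ ∀ s g, U s g = Level492.act (mirM s0 α P γ) q (s, g) := by
  constructor
  · intro h s g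
    have := mir_unique s0 α P hP γ hL h (mirRel_act s0 α P hP γ hL q)
    exact congrFun (congrFun this s) g
  · intro h
    have e : U = fun s g => Level492.act (mirM s0 α P γ) q (s, g) := by
      funext s g; exact h s g
    rw [e]
    exact mirRel_act s0 α P hP γ hL q

/-! ### words on `T × S'` -/

variable {S' : Type*} [Fintype S'] [DecidableEq S']

/-- mirror matrix on words on `T × S'` -/
noncomputable def mirMS (S' : Type*) [Fintype S'] [DecidableEq S'] (s0 : S) (α : ι → S → J → K)
    (P : {s : S // s ≠ s0} → ι → K) (γ : J → T) :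
    Matrix ({s : S // s ≠ s0} × (T × S')) (T × S') K :=
  fun x y => if x.2.2 = y.2 then mirM s0 α P γ (x.1, x.2.1) y.1 else 0

theorem mirMS_act (s0 : S) (α : ι → S → J → K) (P : {s : S // s ≠ s0} → ι → K)
    (γ : J → T) (Q : T × S' → M) (s : {s : S // s ≠ s0}) (τ : T) (t : S') :
    Level492.act (mirMS S' s0 α P γ) Q (s, (τ, t))
      = Level492.act (mirM s0 α P γ) (fun τ' => fun t' => Q (τ', t')) (s, τ) t := by
  simp only [Level492.act, mirMS, Finset.sum_apply, Pi.smul_apply]
  rw [Fintype.sum_prod_type]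
  refine Finset.sum_congr rfl fun τ' _ => ?_
  rw [Finset.sum_eq_single t]
  · simp
  · intro b _ hb
    rw [if_neg (Ne.symm hb), zero_smul]
  · intro h; exact absurd (Finset.mem_univ _) h

/-- the relation for a word on `T × S'`, all symbols `t : S'` at once -/
theorem mirRelS_iff_act (s0 : S) (α : ι → S → J → K) (P : {s : S // s ≠ s0} → ι → K)
    (hP : IsP s0 α P) (γ : J → T) {L : ℕ} (hL : AugNil322.J K T ^ L = ⊥) (Q : T × S' → M)
    (Z : {s : S // s ≠ s0} × (T × S') → M) :
    MirRel s0 (bet s0 α P) γ (fun τ (t : S') => Q (τ, t)) (fun s τ t => Z (s, (τ, t)))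
      ↔ Z = Level492.act (mirMS S' s0 α P γ) Q := by
  rw [mirRel_iff_act s0 α P hP γ hL]
  constructor
  · intro h
    funext ⟨s, τ, t⟩
    rw [mirMS_act]
    exact congrFun (h s τ) t
  · rintro rfl s τ
    funext t
    exact mirMS_act s0 α P γ Q s τ t

/-- the same at one symbol `t` -/
theorem mirRelS_iff_act' (s0 : S) (α : ι → S → J → K) (P : {s : S // s ≠ s0} → ι → K)
    (hP : IsP s0 α P) (γ : J → T) {L : ℕ} (hL : AugNil322.J K T ^ L = ⊥) (Q : T × S' → M)
    (Z : {s : S // s ≠ s0} × (T × S') → M) :
    (∀ t, MirRel s0 (bet s0 α P) γ (fun τ => Q (τ, t)) (fun s τ => Z (s, (τ, t))))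
      ↔ Z = Level492.act (mirMS S' s0 α P γ) Q := by
  rw [← mirRelS_iff_act s0 α P hP γ hL]
  constructor
  · intro h c g
    funext t
    have := h t c g
    simp only [Finset.sum_apply, Pi.smul_apply]
    refine Eq.trans ?_ this
    refine Finset.sum_congr rfl fun s _ => Finset.sum_congr rfl fun j _ => ?_
    congr 1
    unfold ext
    split_ifs <;> rfl
  · intro h t
    have := h.map (LinearMap.proj t : (S' → M) →ₗ[K] M)
    exact this

end matrix

end Crest.Agent.R289.Mirror545
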