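import Crest.Agent.R289.AsmObj_12
import Crest.Agent.R289.Cascade_397

/-!
# Row 289, seam Obj289 -> cascade: expansion of a sub-family of the steps, left form

`Cascade397.growthG` needs as many steps as there are elements of the field (`al : ι → F` injective),
the object has one more step (`Option K`).

* `mix_of_inj` : `Exp s lam` (right steps `s : I → P`) and `j : ι → I` injective give
  `Mix (s ∘ j) lam'` (left form) when `(n² - n'²) + n² lam² ≤ n'² lam'²`;
* `exp_lower` : `1/n - 1/|P| ≤ lam²`;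
* `mix_some` : the sub-family `some`;
* `obj_mix` : from `Obj.OK`, all levels.
-/

set_option autoImplicit false

namespace Crest.Agent.R289.MixSub164

open Finset
open Crest.Agent.R289.TP846 Crest.Agent.R289.Cascade397 Crest.Agent.R289.Asm12

lemma sq_sum_div_le {α : Type*} [Fintype α] (f : α → ℝ) :
    (∑ v, f v) ^ 2 / (Fintype.card α : ℝ) ≤ ∑ v, f v ^ 2 := by
  refine div_le_of_le_mul₀ (Nat.cast_nonneg _) (Finset.sum_nonneg fun v _ => sq_nonneg _) ?_
  have := sq_sum_le_card_mul_sum_sq (s := (univ : Finset α)) (f := f)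
  rw [Finset.card_univ] at this
  rw [mul_comm]
  exact this

section general

variable {P I ι : Type} [Group P] [Fintype P] [Fintype I] [Fintype ι]

/-- expansion of a sub-family of the steps, left form -/
theorem mix_of_inj (s : I → P) (j : ι → I) (hj : Function.Injective j) {lam lam' : ℝ}
    (h : Exp s lam)
    (hl : ((Fintype.card I : ℝ) ^ 2 - (Fintype.card ι : ℝ) ^ 2) +
      (Fintype.card I : ℝ) ^ 2 * lam ^ 2 ≤ (Fintype.card ι : ℝ) ^ 2 * lam' ^ 2) :
    Mix (fun i => s (j i)) lam' := by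
  classical
  intro f hf
  set n : ℝ := (Fintype.card I : ℝ) with hn
  set m : ℝ := (Fintype.card ι : ℝ) with hm
  have h0 := h (fun v => f v⁻¹) (fun v => hf _)
  have e1 : ∑ v : P, f v⁻¹ = ∑ v, f v := Equiv.sum_comp (Equiv.inv P) f
  have e2 : ∑ v : P, f v⁻¹ ^ 2 = ∑ v, f v ^ 2 := Equiv.sum_comp (Equiv.inv P) (fun v => f v ^ 2)
  rw [e1, e2] at h0
  have e3 : ∑ g : P, (∑ i, f ((s (j i))⁻¹ * g)) ^ 2 = ∑ v : P, (∑ i, f (v * s (j i))⁻¹) ^ 2 := by
    rw [← Equiv.sum_comp (Equiv.inv P) (fun g => (∑ i, f ((s (j i))⁻¹ * g)) ^ 2)]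
    refine Finset.sum_congr rfl fun v _ => ?_
    congr 1
    refine Finset.sum_congr rfl fun i _ => ?_
    simp only [Equiv.inv_apply, mul_inv_rev]
  rw [e3]
  have e4 : ∀ v : P, ∑ i, f (v * s (j i))⁻¹ ≤ ∑ z, f (v * s z)⁻¹ := by
    intro v
    calc ∑ i, f (v * s (j i))⁻¹ = ∑ z ∈ univ.image j, f (v * s z)⁻¹ := by
          rw [Finset.sum_image (fun a _ b _ hab => hj hab)]
      _ ≤ ∑ z, f (v * s z)⁻¹ :=
          Finset.sum_le_sum_of_subset_of_nonneg (Finset.subset_univ _) fun z _ _ => hf _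
  have e5 : ∑ v : P, (∑ i, f (v * s (j i))⁻¹) ^ 2 ≤ ∑ v : P, (∑ z, f (v * s z)⁻¹) ^ 2 := by
    refine Finset.sum_le_sum fun v _ => ?_
    exact pow_le_pow_left₀ (Finset.sum_nonneg fun i _ => hf _) (e4 v) 2
  refine e5.trans (h0.trans ?_)
  have hA := sq_sum_div_le (α := P) f
  set A : ℝ := (∑ v : P, f v) ^ 2 / (Fintype.card P : ℝ) with hAA
  set B : ℝ := ∑ v : P, f v ^ 2 with hBB
  have hB0 : 0 ≤ B := Finset.sum_nonneg fun v _ => sq_nonneg _
  have hmn : m ^ 2 ≤ n ^ 2 := by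
    refine pow_le_pow_left₀ (Nat.cast_nonneg _) ?_ 2
    rw [hm, hn]
    exact_mod_cast Fintype.card_le_of_injective j hj
  have h6 : (n ^ 2 - m ^ 2) * A ≤ (n ^ 2 - m ^ 2) * B :=
    mul_le_mul_of_nonneg_left hA (by linarith)
  have h7 := mul_le_mul_of_nonneg_right hl hB0
  nlinarith

/-- lower bound for the expansion -/
theorem exp_lower [Nonempty I] (s : I → P) {lam : ℝ} (h : Exp s lam) :
    1 / (Fintype.card I : ℝ) - 1 / (Fintype.card P : ℝ) ≤ lam ^ 2 := by
  classical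
  set n : ℝ := (Fintype.card I : ℝ) with hn
  have hn0 : 0 < n := by rw [hn]; exact_mod_cast Fintype.card_pos
  have hP0 : (0 : ℝ) < Fintype.card P := by exact_mod_cast Fintype.card_pos
  have h0 := h (fun v => if v = 1 then (1 : ℝ) else 0) (fun v => by split <;> norm_num)
  have e1 : ∑ v : P, (if v = 1 then (1 : ℝ) else 0) = 1 := by simp
  have e2 : ∑ v : P, (if v = 1 then (1 : ℝ) else 0) ^ 2 = 1 := by simp
  rw [e1, e2] at h0
  have e3 : (∑ v : P, ∑ z, (if v * s z = 1 then (1 : ℝ) else 0)) = n := by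
    rw [Finset.sum_comm]
    have : ∀ z, ∑ v : P, (if v * s z = 1 then (1 : ℝ) else 0) = 1 := by
      intro z
      rw [Finset.sum_eq_single (s z)⁻¹]
      · simp
      · intro v _ hv
        rw [if_neg]
        intro hc
        exact hv (eq_inv_of_mul_eq_one_left hc)
      · intro hc
        exact absurd (Finset.mem_univ _) hc
    simp [this, hn]
  have e4 : ∀ v : P, (∑ z, (if v * s z = 1 then (1 : ℝ) else 0)) ≤
      (∑ z, (if v * s z = 1 then (1 : ℝ) else 0)) ^ 2 := by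
    intro v
    have : (∑ z, (if v * s z = 1 then (1 : ℝ) else 0)) =
        ((univ.filter fun z => v * s z = 1).card : ℝ) := by
      rw [Finset.card_filter]
      push_cast
      rfl
    rw [this]
    have h1 : ∀ k : ℕ, (k : ℝ) ≤ (k : ℝ) ^ 2 := by
      intro k
      have : k ≤ k ^ 2 := Nat.le_self_pow (by norm_num) k
      exact_mod_cast this
    exact h1 _
  have e5 := Finset.sum_le_sum (fun v (_ : v ∈ (univ : Finset P)) => e4 v)
  rw [e3] at e5
  have h1 : n ≤ n ^ 2 * (1 / (Fintype.card P : ℝ) + lam ^ 2) := by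
    refine e5.trans ?_
    simpa using h0
  have h2 : 1 / n ≤ 1 / (Fintype.card P : ℝ) + lam ^ 2 := by
    rw [div_le_iff₀ hn0]
    have : n * 1 ≤ n * ((1 / (Fintype.card P : ℝ) + lam ^ 2) * n) := by nlinarith
    exact le_of_mul_le_mul_left this hn0
  linarith

end general

/-- the family of all labels but one -/
theorem mix_some {P K : Type} [Group P] [Fintype P] [Fintype K] (s : Option K → P) {lam lam' : ℝ}
    (h : Exp s lam)
    (hl : (2 * (Fintype.card K : ℝ) + 1) + ((Fintype.card K : ℝ) + 1) ^ 2 * lam ^ 2 ≤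
      (Fintype.card K : ℝ) ^ 2 * lam' ^ 2) :
    Mix (fun z : K => s (some z)) lam' := by
  refine mix_of_inj s (fun z : K => some z) (fun a b h => Option.some.inj h) h ?_
  rw [Fintype.card_option]
  push_cast
  linarith

/-- if the expansion holds on arbitrarily large groups then `lam` is at least `(card I)^(-1/2)` -/
theorem one_div_le_of_levels {I : Type} [Fintype I] [Nonempty I] {P : ℕ → Type}
    [∀ k, Group (P k)] [∀ k, Fintype (P k)] {Q : ℕ} (hQ : 2 ≤ Q)
    (hc : ∀ k, Fintype.card (P k) = Q ^ k) (s : ∀ k, I → P k) {lam : ℝ}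
    (h : ∀ k, Exp (s k) lam) : 1 / (Fintype.card I : ℝ) ≤ lam ^ 2 := by
  refine le_of_forall_pos_le_add fun e he => ?_
  have hQR : (1 : ℝ) < Q := by exact_mod_cast (by omega : 1 < Q)
  obtain ⟨k, hk⟩ := pow_unbounded_of_one_lt (1 / e) hQR
  have h1 := exp_lower (s k) (h k)
  rw [hc k] at h1
  push_cast at h1
  have hQk : (0 : ℝ) < (Q : ℝ) ^ k := by positivity
  have h2 : 1 / ((Q : ℝ) ^ k) ≤ e := by
    rw [div_le_iff₀ hQk]
    rw [div_lt_iff₀ he] at hk
    linarith
  linarith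

/-- the constants: sub-family of all labels but one, all levels -/
theorem mix_levels {K : Type} [Fintype K] [Nonempty K] {P : ℕ → Type}
    [∀ k, Group (P k)] [∀ k, Fintype (P k)] {Q : ℕ} (hQ : 2 ≤ Q)
    (hc : ∀ k, Fintype.card (P k) = Q ^ k) (s : ∀ k, Option K → P k) {lam : ℝ}
    (h : ∀ k, Exp (s k) lam) (k : ℕ) : Mix (fun z : K => s k (some z)) (4 * lam) := by
  have h1 := one_div_le_of_levels hQ hc s h
  refine mix_some (s k) (h k) ?_
  rw [Fintype.card_option] at h1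
  push_cast at h1
  set n : ℝ := (Fintype.card K : ℝ) with hn
  have hn1 : (1 : ℝ) ≤ n := by
    rw [hn]
    exact_mod_cast Fintype.card_pos
  have hn0 : 0 < n + 1 := by linarith
  rw [div_le_iff₀ hn0] at h1
  -- `1 ≤ lam² (n+1)`
  have hl0 : 0 ≤ lam ^ 2 := sq_nonneg _
  have h2 : n + 1 ≤ 2 * n := by linarith
  have h3 : lam ^ 2 * (n + 1) ≤ lam ^ 2 * (2 * n) := mul_le_mul_of_nonneg_left h2 hl0
  have h4 : 1 ≤ 2 * (lam ^ 2 * n) := by linarith
  have h5 : 2 * n + 1 ≤ 3 * n := by linarith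
  have h6 : 3 * n * 1 ≤ 3 * n * (2 * (lam ^ 2 * n)) :=
    mul_le_mul_of_nonneg_left h4 (by linarith)
  have h7 : (n + 1) ^ 2 ≤ (2 * n) ^ 2 := pow_le_pow_left₀ (by linarith) h2 2
  have h8 : (n + 1) ^ 2 * lam ^ 2 ≤ (2 * n) ^ 2 * lam ^ 2 := mul_le_mul_of_nonneg_right h7 hl0
  have h9 : 0 ≤ n ^ 2 * lam ^ 2 := by positivity
  nlinarith

/-- **seam**: mixing (left form, one label dropped) of the steps of the object at all levels -/
theorem obj_mix {D : Obj} {M0 : ℕ} {lam0 Kr : ℝ}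
    (h : D.OK M0 lam0 Kr) : ∃ lam : ℝ, 0 ≤ lam ∧ lam ≤ 4 * lam0 ∧ ∀ k,
      Mix (fun z : D.K => (D.tp k).a (some z)) lam ∧
      Mix (fun z : D.K => ((D.tp k).a (some z))⁻¹) lam ∧
      Mix (fun z : D.K => (D.tp k).b (some z)) lam ∧
      Mix (fun z : D.K => ((D.tp k).b (some z))⁻¹) lam := by
  obtain ⟨lam, h0, h1, -, h2⟩ := h.exp
  have hc : ∀ k, Fintype.card (D.P k) = D.Q ^ k := fun k => by
    rw [Fintype.card_congr (D.ix k), Fintype.card_fin]
  refine ⟨4 * lam, by linarith, by linarith, fun k => ⟨?_, ?_, ?_, ?_⟩⟩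
  · exact mix_levels h.two_le hc (fun k => (D.tp k).a) (fun k => (h2 k).1) k
  · exact mix_levels h.two_le hc (fun k z => ((D.tp k).a z)⁻¹) (fun k => (h2 k).2.1) k
  · exact mix_levels h.two_le hc (fun k => (D.tp k).b) (fun k => (h2 k).2.2.1) k
  · exact mix_levels h.two_le hc (fun k z => ((D.tp k).b z)⁻¹) (fun k => (h2 k).2.2.2) k

/-- side conditions of `growthG` for `ι = K`, `al = id`, `r = (card K + 1) / 2` -/
theorem half_card (K : Type) [Fintype K] [Nonempty K] :
    Fintype.card K ≤ 2 * ((Fintype.card K + 1) / 2) ∧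
      2 * ((Fintype.card K + 1) / 2) ≤ Fintype.card K + 2 ∧ 0 < Fintype.card K :=
  ⟨by omega, by omega, Fintype.card_pos⟩

end Crest.Agent.R289.MixSub164
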