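import Mathlib
import Crest.Agent.R289.PGroup_878

/-!
# Row 289, block A, leaf A1_Nak (helper280): Hecke localisation + dimension count

`P` a finite `p`-group, `K` a finite field of characteristic `p`, `ρ` a representation of `P` on a
finite dimensional `K`-space `M`.

* `Nak280.finrank_le`        : `dim N ≤ |P| dim N^P` for every stable submodule `N`;
* `Nak280.summand_free`      : equality passes to stable direct summands;
* `Nak280.two_sub`           : two submodules `A, B ≤ M` (one place code `V = A ⊓ B`);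
* `Nak280.two_term`          : complex `M0 → M1`;
* `Nak280.three_term`        : complex `M0 → M1 → M2` (two place code);
* `Nak280.rank_one`          : conclusion `dim V = |P|`, `V ≤ ker S`;
* `Nak280.restrict_bijective`: evaluation along a `P`-orbit is bijective on `V`;
* `Nak280.fun_free`          : functions on a free `P`-set satisfy the equality.

Everywhere `S` plays the role of `(T - λ)^n` (`T` a Hecke operator), with
`IsCompl (ker S) (range S)`.
-/

set_option autoImplicit false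

namespace Crest.Agent.R289.Nak280

open Module

variable {p : ℕ} [Fact p.Prime] {P : Type*} [Group P]
  {K : Type*} [Field K]

section basic

variable {M : Type*} [AddCommGroup M] [Module K M]

/-- stability of a submodule -/
def Stab (ρ : Representation K P M) (N : Submodule K M) : Prop :=
  ∀ g : P, ∀ x ∈ N, ρ g x ∈ N

/-- the invariants -/
def inv (ρ : Representation K P M) : Submodule K M where
  carrier := {x | ∀ g : P, ρ g x = x}
  add_mem' := fun {a b} ha hb g => by rw [map_add, ha g, hb g]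
  zero_mem' := fun g => map_zero _
  smul_mem' := fun c x hx g => by rw [map_smul, hx g]

theorem mem_inv {ρ : Representation K P M} {x : M} : x ∈ inv ρ ↔ ∀ g : P, ρ g x = x := Iff.rfl

theorem Stab.inf {ρ : Representation K P M} {N N' : Submodule K M} (h : Stab ρ N)
    (h' : Stab ρ N') : Stab ρ (N ⊓ N') := fun g x hx =>
  ⟨h g x hx.1, h' g x hx.2⟩

theorem Stab.top (ρ : Representation K P M) : Stab ρ ⊤ := fun _ _ _ => Submodule.mem_top

/-- kernel of an equivariant map -/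
theorem Stab.ker {ρ : Representation K P M} {M' : Type*} [AddCommGroup M'] [Module K M']
    {ρ' : Representation K P M'} {f : M →ₗ[K] M'} (hf : ∀ g x, f (ρ g x) = ρ' g (f x)) :
    Stab ρ (LinearMap.ker f) := fun g x hx => by
  rw [LinearMap.mem_ker] at hx ⊢
  rw [hf, hx, map_zero]

/-- range of an equivariant map -/
theorem Stab.range {ρ : Representation K P M} {M' : Type*} [AddCommGroup M'] [Module K M']
    {ρ' : Representation K P M'} {f : M →ₗ[K] M'} (hf : ∀ g x, f (ρ g x) = ρ' g (f x)) :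
    Stab ρ' (LinearMap.range f) := fun g x hx => by
  obtain ⟨y, rfl⟩ := hx
  exact ⟨ρ g y, hf g y⟩

/-- a nonzero stable submodule contains a nonzero invariant vector -/
theorem exists_inv [Finite P] [Finite K] [CharP K p] (hP : IsPGroup p P) [Finite M]
    (ρ : Representation K P M) {N : Submodule K M} (hN : Stab ρ N) (hne : N ≠ ⊥) :
    ∃ v ∈ N, v ≠ 0 ∧ v ∈ inv ρ := by
  classical
  let _ : DistribMulAction P N :=
    { smul := fun g x => ⟨ρ g x.1, hN g x.1 x.2⟩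
      one_smul := fun x => by
        apply Subtype.ext
        show ρ 1 x.1 = x.1
        simp
      mul_smul := fun g h x => by
        apply Subtype.ext
        show ρ (g * h) x.1 = ρ g (ρ h x.1)
        simp
      smul_zero := fun g => by
        apply Subtype.ext
        show ρ g (0 : M) = 0
        simp
      smul_add := fun g x y => by
        apply Subtype.ext
        show ρ g (x.1 + y.1) = ρ g x.1 + ρ g y.1
        simp }
  have hex : ∃ v : N, v ≠ 0 := by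
    obtain ⟨v, hv, hv0⟩ := (Submodule.ne_bot_iff N).1 hne
    exact ⟨⟨v, hv⟩, fun h => hv0 (congrArg Subtype.val h)⟩
  have _ : Finite N := inferInstance
  obtain ⟨v, hv0, hfix⟩ := PG878.exists_fixed_ne_zero (K := K) hP hex
  refine ⟨v.1, v.2, fun h => hv0 (Subtype.ext h), fun g => ?_⟩
  exact congrArg Subtype.val (hfix g)

/-- **(D)** `dim N ≤ |P| dim N^P` -/
theorem finrank_le [Finite P] [Finite K] [CharP K p] (hP : IsPGroup p P) [Finite M]
    (ρ : Representation K P M) {N : Submodule K M} (hN : Stab ρ N) :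
    finrank K N ≤ Nat.card P * finrank K (N ⊓ inv ρ : Submodule K M) := by
  classical
  have : Fintype P := Fintype.ofFinite P
  have _ : FiniteDimensional K M := Module.Finite.of_finite
  obtain ⟨π, hπ⟩ := LinearMap.exists_leftInverse_of_injective
    (N ⊓ inv ρ : Submodule K M).subtype (Submodule.ker_subtype _)
  let Φ : N →ₗ[K] (P → (N ⊓ inv ρ : Submodule K M)) :=
    LinearMap.pi fun g => π ∘ₗ (ρ g) ∘ₗ N.subtype
  have hΦ : ∀ (y : N) (g : P), Φ y g = π (ρ g y.1) := fun y g => rfl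
  have hinj : LinearMap.ker Φ = ⊥ := by
    by_contra hne
    -- the kernel as a submodule of `M`
    let N' : Submodule K M := (LinearMap.ker Φ).map N.subtype
    have hN' : Stab ρ N' := by
      rintro h x ⟨y, hy, rfl⟩
      refine ⟨⟨ρ h y.1, hN h y.1 y.2⟩, ?_, rfl⟩
      have hy' : Φ y = 0 := hy
      show Φ _ = 0
      funext g
      rw [hΦ]
      have h1 : ρ g (ρ h y.1) = ρ (g * h) y.1 := by simp
      show π (ρ g (ρ h y.1)) = 0
      rw [h1, ← hΦ y (g * h), hy']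
      rfl
    have hne' : N' ≠ ⊥ := by
      intro h
      apply hne
      rw [eq_bot_iff]
      intro y hy
      have h1 : y.1 ∈ N' := ⟨y, hy, rfl⟩
      rw [h] at h1
      exact (Submodule.mem_bot K).2 (Subtype.ext ((Submodule.mem_bot K).1 h1))
    obtain ⟨v, hv, hv0, hvi⟩ := exists_inv hP ρ hN' hne'
    obtain ⟨y, hy, rfl⟩ := hv
    have hy' : Φ y = 0 := hy
    have h1 : Φ y 1 = 0 := by rw [hy']; rfl
    rw [hΦ] at h1
    have h2 : ρ 1 y.1 = y.1 := by simp
    rw [h2] at h1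
    have hmem : y.1 ∈ (N ⊓ inv ρ : Submodule K M) := ⟨y.2, hvi⟩
    have h3 : π y.1 = ⟨y.1, hmem⟩ := by
      have := LinearMap.congr_fun hπ ⟨y.1, hmem⟩
      exact this
    rw [h3] at h1
    exact hv0 (congrArg Subtype.val h1)
  calc finrank K N ≤ finrank K (P → (N ⊓ inv ρ : Submodule K M)) :=
        LinearMap.finrank_le_finrank_of_injective (LinearMap.ker_eq_bot.1 hinj)
    _ = Nat.card P * finrank K (N ⊓ inv ρ : Submodule K M) := by
        rw [Module.finrank_pi_fintype, Finset.sum_const, Finset.card_univ, smul_eq_mul,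
          Nat.card_eq_fintype_card]

/-- invariants of a stable direct sum decomposition -/
theorem finrank_inv_add [Finite K] [Finite M]
    (ρ : Representation K P M) {L N N' : Submodule K M} (hN : Stab ρ N) (hN' : Stab ρ N')
    (hd : Disjoint N N') (hs : N ⊔ N' = L) :
    finrank K (N ⊓ inv ρ : Submodule K M) + finrank K (N' ⊓ inv ρ : Submodule K M) =
      finrank K (L ⊓ inv ρ : Submodule K M) := by
  classical
  have _ : FiniteDimensional K M := Module.Finite.of_finite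
  have h1 : (N ⊓ inv ρ) ⊔ (N' ⊓ inv ρ) = L ⊓ inv ρ := by
    apply le_antisymm
    · apply sup_le
      · exact inf_le_inf_right _ (hs ▸ le_sup_left)
      · exact inf_le_inf_right _ (hs ▸ le_sup_right)
    · rintro x ⟨hxL, hxi⟩
      have hxL' : x ∈ L := hxL
      rw [← hs] at hxL'
      obtain ⟨a, ha, b, hb, rfl⟩ := Submodule.mem_sup.1 hxL'
      have key : ∀ g : P, ρ g a = a ∧ ρ g b = b := by
        intro g
        have e : ρ g a + ρ g b = a + b := by rw [← map_add]; exact hxi g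
        have e2 : ρ g a - a = b - ρ g b := by
          rw [sub_eq_sub_iff_add_eq_add, e, add_comm]
        have m1 : ρ g a - a ∈ N := N.sub_mem (hN g a ha) ha
        have m2 : ρ g a - a ∈ N' := by rw [e2]; exact N'.sub_mem hb (hN' g b hb)
        have z : ρ g a - a = 0 := by
          have := hd.le_bot (show ρ g a - a ∈ N ⊓ N' from ⟨m1, m2⟩)
          simpa using this
        have z2 : b - ρ g b = 0 := by rw [← e2]; exact z
        exact ⟨sub_eq_zero.1 z, (sub_eq_zero.1 z2).symm⟩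
      exact Submodule.add_mem_sup ⟨ha, fun g => (key g).1⟩ ⟨hb, fun g => (key g).2⟩
  have h2 : (N ⊓ inv ρ) ⊓ (N' ⊓ inv ρ) = ⊥ := by
    rw [eq_bot_iff]
    exact (inf_le_inf inf_le_left inf_le_left).trans hd.le_bot
  have h3 := Submodule.finrank_sup_add_finrank_inf_eq (N ⊓ inv ρ) (N' ⊓ inv ρ)
  rw [h1, h2, finrank_bot, add_zero] at h3
  exact h3.symm

/-- the equality `dim N = |P| dim N^P` -/
def IsFree (ρ : Representation K P M) (N : Submodule K M) : Prop :=
  finrank K N = Nat.card P * finrank K (N ⊓ inv ρ : Submodule K M)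

/-- equality passes to stable direct summands -/
theorem summand_free [Finite P] [Finite K] [CharP K p] (hP : IsPGroup p P) [Finite M]
    (ρ : Representation K P M) {L N N' : Submodule K M} (hN : Stab ρ N) (hN' : Stab ρ N')
    (hd : Disjoint N N') (hs : N ⊔ N' = L) (hL : IsFree ρ L) : IsFree ρ N := by
  have _ : FiniteDimensional K M := Module.Finite.of_finite
  have h1 := finrank_inv_add ρ hN hN' hd hs
  have h2 := finrank_le hP ρ hN
  have h3 := finrank_le hP ρ hN'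
  have h4 := Submodule.finrank_sup_add_finrank_inf_eq N N'
  rw [hd.eq_bot, finrank_bot, add_zero, hs] at h4
  unfold IsFree at hL ⊢
  rw [← h1, Nat.mul_add] at hL
  omega

/-- kernel and range parts of an equivariant endomorphism with `IsCompl (ker S) (range S)`,
inside a stable submodule `N` with `S N ≤ N` -/
theorem kerPart_free [Finite P] [Finite K] [CharP K p] (hP : IsPGroup p P) [Finite M]
    (ρ : Representation K P M) (S : M →ₗ[K] M) (hS : ∀ g x, S (ρ g x) = ρ g (S x))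
    (hc : Disjoint (LinearMap.ker S) (LinearMap.range S))
    {N : Submodule K M} (hN : Stab ρ N) (hSN : ∀ x ∈ N, S x ∈ N) (hfree : IsFree ρ N) :
    IsFree ρ (N ⊓ LinearMap.ker S) := by
  have _ : FiniteDimensional K M := Module.Finite.of_finite
  have hk : Stab ρ (N ⊓ LinearMap.ker S) := hN.inf (Stab.ker (ρ' := ρ) hS)
  have hr : Stab ρ (N.map S) := by
    rintro g x ⟨y, hy, rfl⟩
    exact ⟨ρ g y, hN g y hy, hS g y⟩
  have hd : Disjoint (N ⊓ LinearMap.ker S) (N.map S) := by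
    refine Disjoint.mono inf_le_right ?_ hc
    rintro x ⟨y, _, rfl⟩
    exact ⟨y, rfl⟩
  have hmap : N.map S ≤ N := by
    rintro x ⟨y, hy, rfl⟩
    exact hSN y hy
  have hs : (N ⊓ LinearMap.ker S) ⊔ N.map S = N := by
    apply Submodule.eq_of_le_of_finrank_le (sup_le inf_le_left hmap)
    have h1 := Submodule.finrank_sup_add_finrank_inf_eq (N ⊓ LinearMap.ker S) (N.map S)
    rw [hd.eq_bot, finrank_bot, add_zero] at h1
    rw [h1]
    have h2 := LinearMap.finrank_range_add_finrank_ker (S.domRestrict N)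
    have e1 : LinearMap.range (S.domRestrict N) = N.map S := by
      rw [LinearMap.range_domRestrict]
    have e2 : finrank K (LinearMap.ker (S.domRestrict N)) =
        finrank K (N ⊓ LinearMap.ker S : Submodule K M) := by
      have e3 : (LinearMap.ker (S.domRestrict N)).map N.subtype = N ⊓ LinearMap.ker S := by
        ext x
        constructor
        · rintro ⟨y, hy, rfl⟩
          exact ⟨y.2, hy⟩
        · rintro ⟨hx, hx'⟩
          exact ⟨⟨x, hx⟩, hx', rfl⟩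
      rw [← e3]
      exact (LinearEquiv.finrank_eq
        (Submodule.equivMapOfInjective N.subtype N.injective_subtype _))
    rw [e1, e2] at h2
    omega
  exact summand_free hP ρ hk hr hd hs hfree

end basic

section complexes

variable {M : Type*} [AddCommGroup M] [Module K M]

/-- **one place**: `V = A ⊓ B`, `A, B, L ≤ M` with `A, B ≤ L` satisfying the equality, `S` a
(Hecke) operator preserving them; hypothesis on invariants (level `0`):
`(L^P)_S ≤ (A^P)_S + (B^P)_S`. Then the `S`-part of `V` satisfies the equality. -/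
theorem two_sub [Finite P] [Finite K] [CharP K p] (hP : IsPGroup p P) [Finite M]
    (ρ : Representation K P M) (S : M →ₗ[K] M) (hS : ∀ g x, S (ρ g x) = ρ g (S x))
    (hc : Disjoint (LinearMap.ker S) (LinearMap.range S))
    {L A B : Submodule K M} (hL : Stab ρ L) (hA : Stab ρ A) (hB : Stab ρ B)
    (hSL : ∀ x ∈ L, S x ∈ L) (hSA : ∀ x ∈ A, S x ∈ A) (hSB : ∀ x ∈ B, S x ∈ B)
    (hAL : A ≤ L) (hBL : B ≤ L)
    (fL : IsFree ρ L) (fA : IsFree ρ A) (fB : IsFree ρ B)
    (hbase : ∀ x ∈ L, x ∈ inv ρ → S x = 0 →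
      ∃ a ∈ A, ∃ b ∈ B, a ∈ inv ρ ∧ b ∈ inv ρ ∧ S a = 0 ∧ S b = 0 ∧ a + b = x) :
    IsFree ρ ((A ⊓ B) ⊓ LinearMap.ker S) := by
  have _ : FiniteDimensional K M := Module.Finite.of_finite
  have gL := kerPart_free hP ρ S hS hc hL hSL fL
  have gA := kerPart_free hP ρ S hS hc hA hSA fA
  have gB := kerPart_free hP ρ S hS hc hB hSB fB
  have hk : Stab ρ (LinearMap.ker S) := Stab.ker (ρ' := ρ) hS
  have hV : Stab ρ ((A ⊓ B) ⊓ LinearMap.ker S) := (hA.inf hB).inf hk
  -- level 0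
  have e0 : ((A ⊓ LinearMap.ker S) ⊓ inv ρ) ⊔ ((B ⊓ LinearMap.ker S) ⊓ inv ρ) =
      (L ⊓ LinearMap.ker S) ⊓ inv ρ := by
    apply le_antisymm
    · exact sup_le (inf_le_inf_right _ (inf_le_inf_right _ hAL))
        (inf_le_inf_right _ (inf_le_inf_right _ hBL))
    · rintro x ⟨⟨hx1, hx2⟩, hx3⟩
      obtain ⟨a, ha, b, hb, ia, ib, sa, sb, rfl⟩ := hbase x hx1 hx3 hx2
      exact Submodule.add_mem_sup ⟨⟨ha, sa⟩, ia⟩ ⟨⟨hb, sb⟩, ib⟩
  have i0 : ((A ⊓ LinearMap.ker S) ⊓ inv ρ) ⊓ ((B ⊓ LinearMap.ker S) ⊓ inv ρ) =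
      ((A ⊓ B) ⊓ LinearMap.ker S) ⊓ inv ρ := by
    ext x
    simp only [Submodule.mem_inf]
    tauto
  have d0 := Submodule.finrank_sup_add_finrank_inf_eq ((A ⊓ LinearMap.ker S) ⊓ inv ρ)
    ((B ⊓ LinearMap.ker S) ⊓ inv ρ)
  rw [e0, i0] at d0
  -- level k
  have i1 : (A ⊓ LinearMap.ker S) ⊓ (B ⊓ LinearMap.ker S) = (A ⊓ B) ⊓ LinearMap.ker S := by
    ext x
    simp only [Submodule.mem_inf]
    tauto
  have s1 : finrank K ((A ⊓ LinearMap.ker S) ⊔ (B ⊓ LinearMap.ker S) : Submodule K M) ≤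
      finrank K (L ⊓ LinearMap.ker S : Submodule K M) :=
    Submodule.finrank_mono (sup_le (inf_le_inf_right _ hAL) (inf_le_inf_right _ hBL))
  have d1 := Submodule.finrank_sup_add_finrank_inf_eq (A ⊓ LinearMap.ker S)
    (B ⊓ LinearMap.ker S)
  rw [i1] at d1
  have u := finrank_le hP ρ hV
  unfold IsFree at gL gA gB ⊢
  have key : Nat.card P * finrank K (((A ⊓ B) ⊓ LinearMap.ker S) ⊓ inv ρ : Submodule K M) +
      Nat.card P * finrank K ((L ⊓ LinearMap.ker S) ⊓ inv ρ : Submodule K M) =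
      Nat.card P * finrank K ((A ⊓ LinearMap.ker S) ⊓ inv ρ : Submodule K M) +
      Nat.card P * finrank K ((B ⊓ LinearMap.ker S) ⊓ inv ρ : Submodule K M) := by
    rw [← Nat.mul_add, ← Nat.mul_add, ← d0, Nat.add_comm]
  omega

variable {M0 M1 M2 : Type*} [AddCommGroup M0] [Module K M0] [AddCommGroup M1] [Module K M1]
  [AddCommGroup M2] [Module K M2]

/-- rank-nullity inside submodules -/
theorem finrank_map_add [Finite M0] [Finite M1] [Finite K] (d : M0 →ₗ[K] M1) (N : Submodule K M0) :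
    finrank K (N.map d) + finrank K (N ⊓ LinearMap.ker d : Submodule K M0) = finrank K N := by
  have _ : FiniteDimensional K M0 := Module.Finite.of_finite
  have _ : FiniteDimensional K M1 := Module.Finite.of_finite
  have h2 := LinearMap.finrank_range_add_finrank_ker (d.domRestrict N)
  have e1 : LinearMap.range (d.domRestrict N) = N.map d := by
    rw [LinearMap.range_domRestrict]
  have e3 : (LinearMap.ker (d.domRestrict N)).map N.subtype = N ⊓ LinearMap.ker d := by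
    ext x
    constructor
    · rintro ⟨y, hy, rfl⟩
      exact ⟨y.2, hy⟩
    · rintro ⟨hx, hx'⟩
      exact ⟨⟨x, hx⟩, hx', rfl⟩
  have e2 : finrank K (LinearMap.ker (d.domRestrict N)) =
      finrank K (N ⊓ LinearMap.ker d : Submodule K M0) := by
    rw [← e3]
    exact (LinearEquiv.finrank_eq
      (Submodule.equivMapOfInjective N.subtype N.injective_subtype _))
  rw [e1, e2] at h2
  exact h2

/-- **two term complex** `M0 → M1`, no operator: `N0 → N1` with `N0`, `N1` satisfying the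
equality and `N0^P → N1^P` onto: the kernel satisfies the equality. -/
theorem ker_free [Finite P] [Finite K] [CharP K p] (hP : IsPGroup p P) [Finite M0] [Finite M1]
    (ρ0 : Representation K P M0) (ρ1 : Representation K P M1) (d : M0 →ₗ[K] M1)
    (hd : ∀ g x, d (ρ0 g x) = ρ1 g (d x)) {N0 : Submodule K M0} {N1 : Submodule K M1}
    (h0 : Stab ρ0 N0) (hN : ∀ x ∈ N0, d x ∈ N1)
    (f0 : IsFree ρ0 N0) (f1 : IsFree ρ1 N1)
    (hbase : ∀ y ∈ N1, y ∈ inv ρ1 → ∃ x ∈ N0, x ∈ inv ρ0 ∧ d x = y) :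
    IsFree ρ0 (N0 ⊓ LinearMap.ker d) := by
  have _ : FiniteDimensional K M0 := Module.Finite.of_finite
  have _ : FiniteDimensional K M1 := Module.Finite.of_finite
  have hV : Stab ρ0 (N0 ⊓ LinearMap.ker d) := h0.inf (Stab.ker (ρ' := ρ1) hd)
  have u := finrank_le hP ρ0 hV
  have r := finrank_map_add d N0
  have rm : N0.map d ≤ N1 := by
    rintro x ⟨y, hy, rfl⟩
    exact hN y hy
  have r1 : finrank K (N0.map d) ≤ finrank K N1 := Submodule.finrank_mono rm
  -- level 0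
  have q := finrank_map_add d (N0 ⊓ inv ρ0)
  have e : (N0 ⊓ inv ρ0).map d = N1 ⊓ inv ρ1 := by
    apply le_antisymm
    · rintro x ⟨y, ⟨hy, hyi⟩, rfl⟩
      refine ⟨hN y hy, fun g => ?_⟩
      rw [← hd, hyi g]
    · rintro y ⟨hy, hyi⟩
      obtain ⟨x, hx, hxi, rfl⟩ := hbase y hy hyi
      exact ⟨x, ⟨hx, hxi⟩, rfl⟩
  have e2 : (N0 ⊓ inv ρ0) ⊓ LinearMap.ker d = (N0 ⊓ LinearMap.ker d) ⊓ inv ρ0 := by
    ext x
    simp only [Submodule.mem_inf]
    tauto
  rw [e, e2] at q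
  unfold IsFree at f0 f1 ⊢
  have key : Nat.card P * finrank K (N1 ⊓ inv ρ1 : Submodule K M1) +
      Nat.card P * finrank K ((N0 ⊓ LinearMap.ker d) ⊓ inv ρ0 : Submodule K M0) =
      Nat.card P * finrank K (N0 ⊓ inv ρ0 : Submodule K M0) := by
    rw [← Nat.mul_add, q]
  omega

/-- **two term complex with a Hecke operator** -/
theorem two_term [Finite P] [Finite K] [CharP K p] (hP : IsPGroup p P) [Finite M0] [Finite M1]
    (ρ0 : Representation K P M0) (ρ1 : Representation K P M1) (d : M0 →ₗ[K] M1)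
    (hd : ∀ g x, d (ρ0 g x) = ρ1 g (d x))
    (S0 : M0 →ₗ[K] M0) (S1 : M1 →ₗ[K] M1) (hS0 : ∀ g x, S0 (ρ0 g x) = ρ0 g (S0 x))
    (hS1 : ∀ g x, S1 (ρ1 g x) = ρ1 g (S1 x)) (hdS : ∀ x, d (S0 x) = S1 (d x))
    (hc0 : Disjoint (LinearMap.ker S0) (LinearMap.range S0))
    (hc1 : Disjoint (LinearMap.ker S1) (LinearMap.range S1))
    {N0 : Submodule K M0} {N1 : Submodule K M1} (h0 : Stab ρ0 N0) (h1 : Stab ρ1 N1)
    (hs0 : ∀ x ∈ N0, S0 x ∈ N0) (hs1 : ∀ x ∈ N1, S1 x ∈ N1)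
    (hN : ∀ x ∈ N0, d x ∈ N1) (f0 : IsFree ρ0 N0) (f1 : IsFree ρ1 N1)
    (hbase : ∀ y ∈ N1, y ∈ inv ρ1 → S1 y = 0 → ∃ x ∈ N0, x ∈ inv ρ0 ∧ S0 x = 0 ∧ d x = y) :
    IsFree ρ0 ((N0 ⊓ LinearMap.ker S0) ⊓ LinearMap.ker d) := by
  refine ker_free hP ρ0 ρ1 d hd (N0 := N0 ⊓ LinearMap.ker S0) (N1 := N1 ⊓ LinearMap.ker S1)
    (h0.inf (Stab.ker (ρ' := ρ0) hS0)) ?_ (kerPart_free hP ρ0 S0 hS0 hc0 h0 hs0 f0)
    (kerPart_free hP ρ1 S1 hS1 hc1 h1 hs1 f1) ?_
  · rintro x ⟨hx, hx'⟩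
    have hx2 : S0 x = 0 := hx'
    refine ⟨hN x hx, ?_⟩
    show S1 (d x) = 0
    rw [← hdS, hx2, map_zero]
  · rintro y ⟨hy, hy'⟩ hyi
    obtain ⟨x, hx, hxi, hx', hxy⟩ := hbase y hy hyi hy'
    exact ⟨x, ⟨hx, hx'⟩, hxi, hxy⟩

/-- **three term complex with a Hecke operator** (two place code) -/
theorem three_term [Finite P] [Finite K] [CharP K p] (hP : IsPGroup p P)
    [Finite M0] [Finite M1] [Finite M2]
    (ρ0 : Representation K P M0) (ρ1 : Representation K P M1) (ρ2 : Representation K P M2)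
    (d : M0 →ₗ[K] M1) (d' : M1 →ₗ[K] M2)
    (hd : ∀ g x, d (ρ0 g x) = ρ1 g (d x)) (hd' : ∀ g x, d' (ρ1 g x) = ρ2 g (d' x))
    (hdd : ∀ x, d' (d x) = 0)
    (S0 : M0 →ₗ[K] M0) (S1 : M1 →ₗ[K] M1) (S2 : M2 →ₗ[K] M2)
    (hS0 : ∀ g x, S0 (ρ0 g x) = ρ0 g (S0 x)) (hS1 : ∀ g x, S1 (ρ1 g x) = ρ1 g (S1 x))
    (hS2 : ∀ g x, S2 (ρ2 g x) = ρ2 g (S2 x))
    (hdS : ∀ x, d (S0 x) = S1 (d x)) (hdS' : ∀ x, d' (S1 x) = S2 (d' x))
    (hc0 : Disjoint (LinearMap.ker S0) (LinearMap.range S0))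
    (hc1 : Disjoint (LinearMap.ker S1) (LinearMap.range S1))
    (hc2 : Disjoint (LinearMap.ker S2) (LinearMap.range S2))
    {N0 : Submodule K M0} {N1 : Submodule K M1} {N2 : Submodule K M2}
    (h0 : Stab ρ0 N0) (h1 : Stab ρ1 N1) (h2 : Stab ρ2 N2)
    (hs0 : ∀ x ∈ N0, S0 x ∈ N0) (hs1 : ∀ x ∈ N1, S1 x ∈ N1) (hs2 : ∀ x ∈ N2, S2 x ∈ N2)
    (hN : ∀ x ∈ N0, d x ∈ N1) (hN' : ∀ x ∈ N1, d' x ∈ N2)
    (f0 : IsFree ρ0 N0) (f1 : IsFree ρ1 N1) (f2 : IsFree ρ2 N2)
    (hbase2 : ∀ z ∈ N2, z ∈ inv ρ2 → S2 z = 0 → ∃ y ∈ N1, y ∈ inv ρ1 ∧ S1 y = 0 ∧ d' y = z)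
    (hbase1 : ∀ y ∈ N1, y ∈ inv ρ1 → S1 y = 0 → d' y = 0 →
      ∃ x ∈ N0, x ∈ inv ρ0 ∧ S0 x = 0 ∧ d x = y) :
    IsFree ρ0 ((N0 ⊓ LinearMap.ker S0) ⊓ LinearMap.ker d) := by
  have z1 := two_term hP ρ1 ρ2 d' hd' S1 S2 hS1 hS2 hdS' hc1 hc2 h1 h2 hs1 hs2 hN' f1 f2 hbase2
  refine ker_free hP ρ0 ρ1 d hd (N0 := N0 ⊓ LinearMap.ker S0)
    (N1 := (N1 ⊓ LinearMap.ker S1) ⊓ LinearMap.ker d')
    (h0.inf (Stab.ker (ρ' := ρ0) hS0)) ?_ (kerPart_free hP ρ0 S0 hS0 hc0 h0 hs0 f0) z1 ?_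
  · rintro x ⟨hx, hx'⟩
    have hx2 : S0 x = 0 := hx'
    refine ⟨⟨hN x hx, ?_⟩, hdd x⟩
    show S1 (d x) = 0
    rw [← hdS, hx2, map_zero]
  · rintro y ⟨⟨hy, hy'⟩, hy''⟩ hyi
    obtain ⟨x, hx, hxi, hx', hxy⟩ := hbase1 y hy hyi hy' hy''
    exact ⟨x, ⟨hx, hx'⟩, hxi, hxy⟩

/-- `dim V = |P|` and `V ≤ ker S` once `V^P` is spanned by one vector of `ker S` -/
theorem rank_one [Finite P] [Finite K] [CharP K p] (hP : IsPGroup p P) [Finite M]
    (ρ : Representation K P M) {V V' : Submodule K M} (hV : Stab ρ V) (hV' : V' ≤ V)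
    (f : IsFree ρ V') {w0 : M} (hw : w0 ∈ V') (hwi : w0 ∈ inv ρ) (hw0 : w0 ≠ 0)
    (hspan : ∀ x ∈ V, x ∈ inv ρ → ∃ c : K, x = c • w0) :
    finrank K V = Nat.card P ∧ V' = V := by
  have _ : FiniteDimensional K M := Module.Finite.of_finite
  have e : (V ⊓ inv ρ : Submodule K M) = Submodule.span K {w0} := by
    apply le_antisymm
    · rintro x ⟨hx, hxi⟩
      obtain ⟨c, rfl⟩ := hspan x hx hxi
      exact Submodule.smul_mem _ _ (Submodule.mem_span_singleton_self _)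
    · rw [Submodule.span_singleton_le_iff_mem]
      exact ⟨hV' hw, hwi⟩
  have e' : (V' ⊓ inv ρ : Submodule K M) = Submodule.span K {w0} := by
    apply le_antisymm
    · rw [← e]
      exact inf_le_inf_right _ hV'
    · rw [Submodule.span_singleton_le_iff_mem]
      exact ⟨hw, hwi⟩
  have u := finrank_le hP ρ hV
  unfold IsFree at f
  rw [e, finrank_span_singleton hw0, mul_one] at u
  rw [e', finrank_span_singleton hw0, mul_one] at f
  have m : finrank K V' ≤ finrank K V := Submodule.finrank_mono hV'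
  have h : finrank K V = Nat.card P := by omega
  exact ⟨h, Submodule.eq_of_le_of_finrank_le hV' (by omega)⟩

/-- **evaluation along an orbit is bijective**: `φ` any linear functional with `φ w0 ≠ 0` -/
theorem restrict_bijective [Finite P] [Finite K] [CharP K p] (hP : IsPGroup p P) [Finite M]
    (ρ : Representation K P M) {V : Submodule K M} (hV : Stab ρ V)
    (hdim : finrank K V = Nat.card P) {w0 : M}
    (hspan : ∀ x ∈ V, x ∈ inv ρ → ∃ c : K, x = c • w0) (φ : M →ₗ[K] K) (hφ : φ w0 ≠ 0) :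
    Function.Bijective (fun (x : V) (g : P) => φ (ρ g x.1)) := by
  classical
  have : Fintype P := Fintype.ofFinite P
  have _ : FiniteDimensional K M := Module.Finite.of_finite
  let Φ : V →ₗ[K] (P → K) := LinearMap.pi fun g => φ ∘ₗ (ρ g) ∘ₗ V.subtype
  have hΦ : ∀ (y : V) (g : P), Φ y g = φ (ρ g y.1) := fun y g => rfl
  have hinj : LinearMap.ker Φ = ⊥ := by
    by_contra hne
    let N' : Submodule K M := (LinearMap.ker Φ).map V.subtype
    have hN' : Stab ρ N' := by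
      rintro h x ⟨y, hy, rfl⟩
      refine ⟨⟨ρ h y.1, hV h y.1 y.2⟩, ?_, rfl⟩
      have hy' : Φ y = 0 := hy
      show Φ _ = 0
      funext g
      have h1 : ρ g (ρ h y.1) = ρ (g * h) y.1 := by simp
      show φ (ρ g (ρ h y.1)) = 0
      rw [h1, ← hΦ y (g * h), hy']
      rfl
    have hne' : N' ≠ ⊥ := by
      intro h
      apply hne
      rw [eq_bot_iff]
      intro y hy
      have h1 : y.1 ∈ N' := ⟨y, hy, rfl⟩
      rw [h] at h1
      exact (Submodule.mem_bot K).2 (Subtype.ext ((Submodule.mem_bot K).1 h1))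
    obtain ⟨v, hv, hv0, hvi⟩ := exists_inv hP ρ hN' hne'
    obtain ⟨y, hy, rfl⟩ := hv
    obtain ⟨c, hc⟩ := hspan y.1 y.2 hvi
    have hy' : Φ y = 0 := hy
    have h1 : Φ y 1 = 0 := by rw [hy']; rfl
    rw [hΦ] at h1
    have h2 : ρ 1 y.1 = y.1 := by simp
    rw [h2, hc, map_smul, smul_eq_mul, mul_eq_zero] at h1
    rcases h1 with h1 | h1
    · apply hv0
      show y.1 = 0
      rw [hc, h1, zero_smul]
    · exact hφ h1
  have hi : Function.Injective Φ := LinearMap.ker_eq_bot.1 hinj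
  have hs : Function.Surjective Φ := by
    have hf : finrank K V = finrank K (P → K) := by
      rw [hdim, Module.finrank_fintype_fun_eq_card, Nat.card_eq_fintype_card]
    exact (LinearMap.injective_iff_surjective_of_finrank_eq_finrank hf).1 hi
  exact ⟨hi, hs⟩

end complexes

section hecke

variable {M : Type*} [AddCommGroup M] [Module K M]

/-- Fitting decomposition of an `S`-stable submodule -/
theorem fitting_sub [Finite K] [Finite M] (S : M →ₗ[K] M)
    (hc : Disjoint (LinearMap.ker S) (LinearMap.range S)) {N : Submodule K M}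
    (hSN : ∀ x ∈ N, S x ∈ N) {x : M} (hx : x ∈ N) :
    ∃ a ∈ N, ∃ b ∈ N, S a = 0 ∧ x = a + S b := by
  have _ : FiniteDimensional K M := Module.Finite.of_finite
  have hmap : N.map S ≤ N := by
    rintro x ⟨y, hy, rfl⟩
    exact hSN y hy
  have hd : Disjoint (N ⊓ LinearMap.ker S) (N.map S) := by
    refine Disjoint.mono inf_le_right ?_ hc
    rintro x ⟨y, _, rfl⟩
    exact ⟨y, rfl⟩
  have hs : (N ⊓ LinearMap.ker S) ⊔ N.map S = N := by
    apply Submodule.eq_of_le_of_finrank_le (sup_le inf_le_left hmap)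
    have h1 := Submodule.finrank_sup_add_finrank_inf_eq (N ⊓ LinearMap.ker S) (N.map S)
    rw [hd.eq_bot, finrank_bot, add_zero] at h1
    rw [h1]
    have h2 := finrank_map_add S N
    omega
  rw [← hs] at hx
  obtain ⟨a, ⟨ha, ha'⟩, c, ⟨b, hb, rfl⟩, rfl⟩ := Submodule.mem_sup.1 hx
  exact ⟨a, ha, b, hb, ha', rfl⟩

/-- `(T - λ)^n` -/
noncomputable def sh (T : M →ₗ[K] M) (lam : K) (n : ℕ) : M →ₗ[K] M := (T - lam • 1) ^ n

theorem sh_zero (T : M →ₗ[K] M) (lam : K) (x : M) : sh T lam 0 x = x := by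
  simp [sh]

theorem sh_succ (T : M →ₗ[K] M) (lam : K) (n : ℕ) (x : M) :
    sh T lam (n + 1) x = sh T lam n (T x - lam • x) := by
  simp [sh, pow_succ]

theorem sh_comm {M' : Type*} [AddCommGroup M'] [Module K M'] (T : M →ₗ[K] M) (T' : M' →ₗ[K] M')
    (lam : K) (d : M →ₗ[K] M') (h : ∀ x, d (T x) = T' (d x)) (n : ℕ) (x : M) :
    d (sh T lam n x) = sh T' lam n (d x) := by
  induction n generalizing x with
  | zero => rw [sh_zero, sh_zero]
  | succ n ih => rw [sh_succ, sh_succ, ih, map_sub, map_smul, h]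

theorem sh_rep {ρ : Representation K P M} {T : M →ₗ[K] M} (h : ∀ g x, T (ρ g x) = ρ g (T x))
    (lam : K) (n : ℕ) (g : P) (x : M) : sh T lam n (ρ g x) = ρ g (sh T lam n x) :=
  (sh_comm T T lam (ρ g) (fun y => (h g y).symm) n x).symm

theorem sh_mem {T : M →ₗ[K] M} {N : Submodule K M} (h : ∀ x ∈ N, T x ∈ N) (lam : K) (n : ℕ) :
    ∀ x ∈ N, sh T lam n x ∈ N := by
  induction n with
  | zero => intro x hx; rw [sh_zero]; exact hx
  | succ n ih =>
    intro x hx
    rw [sh_succ]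
    exact ih _ (N.sub_mem (h x hx) (N.smul_mem _ hx))

theorem sh_eigen {T : M →ₗ[K] M} {lam : K} {w : M} (h : T w = lam • w) (n : ℕ) :
    sh T lam (n + 1) w = 0 := by
  rw [sh_succ, h, sub_self, map_zero]

theorem sh_disjoint [Finite K] [Finite M] (T : M →ₗ[K] M) (lam : K) :
    ∃ n0, ∀ n ≥ n0, Disjoint (LinearMap.ker (sh T lam n)) (LinearMap.range (sh T lam n)) := by
  have _ : FiniteDimensional K M := Module.Finite.of_finite
  obtain ⟨n0, h⟩ := Filter.eventually_atTop.1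
    (Module.End.eventually_disjoint_ker_pow_range_pow (T - lam • (1 : Module.End K M)))
  exact ⟨n0, h⟩

theorem inv_stable {ρ : Representation K P M} {T : M →ₗ[K] M}
    (h : ∀ g x, T (ρ g x) = ρ g (T x)) : ∀ x ∈ inv ρ, T x ∈ inv ρ := fun x hx g => by
  rw [← h, hx g]

/-- **A1, one place, abstract form.** `A, B ≤ L ≤ M` stable under `P` and under the Hecke
operator `T`, all three satisfying `dim = |P| dim (invariants)`; `(A ⊓ B)^P = K w0`,
`T w0 = λ w0`; at level `0` (= on invariants) `T - λ` is onto on `L^P / (A^P + B^P)`.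
Then `dim (A ⊓ B) = |P|`. -/
theorem one_place [Finite P] [Finite K] [CharP K p] (hP : IsPGroup p P) [Finite M]
    (ρ : Representation K P M) (T : M →ₗ[K] M) (hT : ∀ g x, T (ρ g x) = ρ g (T x))
    {L A B : Submodule K M} (hL : Stab ρ L) (hA : Stab ρ A) (hB : Stab ρ B)
    (hTL : ∀ x ∈ L, T x ∈ L) (hTA : ∀ x ∈ A, T x ∈ A) (hTB : ∀ x ∈ B, T x ∈ B)
    (hAL : A ≤ L) (hBL : B ≤ L)
    (fL : IsFree ρ L) (fA : IsFree ρ A) (fB : IsFree ρ B)
    {w0 : M} (hwA : w0 ∈ A) (hwB : w0 ∈ B) (hwi : w0 ∈ inv ρ) (hw0 : w0 ≠ 0) (lam : K)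
    (hTw : T w0 = lam • w0)
    (hspan : ∀ x ∈ A, x ∈ B → x ∈ inv ρ → ∃ c : K, x = c • w0)
    (hbase : ∀ y ∈ L, y ∈ inv ρ → ∃ z ∈ L, z ∈ inv ρ ∧
      ∃ a ∈ A, a ∈ inv ρ ∧ ∃ b ∈ B, b ∈ inv ρ ∧ y = (T z - lam • z) + (a + b)) :
    finrank K (A ⊓ B : Submodule K M) = Nat.card P := by
  classical
  have _ : FiniteDimensional K M := Module.Finite.of_finite
  obtain ⟨n0, hn0⟩ := sh_disjoint T lam
  set n := n0 + 1 with hn
  have hc := hn0 n (by omega)
  -- `(T - λ)^n` is onto on `H^1_0`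
  have onto : ∀ n : ℕ, ∀ y ∈ L, y ∈ inv ρ → ∃ z ∈ L, z ∈ inv ρ ∧
      ∃ a ∈ A, a ∈ inv ρ ∧ ∃ b ∈ B, b ∈ inv ρ ∧ y = sh T lam n z + (a + b) := by
    intro n
    induction n with
    | zero =>
      intro y hy hyi
      refine ⟨y, hy, hyi, 0, A.zero_mem, (inv ρ).zero_mem, 0, B.zero_mem, (inv ρ).zero_mem, ?_⟩
      rw [sh_zero, add_zero, add_zero]
    | succ n ih =>
      intro y hy hyi
      obtain ⟨z, hz, hzi, a, ha, hai, b, hb, hbi, rfl⟩ := ih y hy hyi
      obtain ⟨z', hz', hzi', a', ha', hai', b', hb', hbi', rfl⟩ := hbase z hz hzi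
      refine ⟨z', hz', hzi', sh T lam n a' + a, A.add_mem (sh_mem hTA lam n a' ha') ha,
        (inv ρ).add_mem (sh_mem (inv_stable hT) lam n a' hai') hai,
        sh T lam n b' + b, B.add_mem (sh_mem hTB lam n b' hb') hb,
        (inv ρ).add_mem (sh_mem (inv_stable hT) lam n b' hbi') hbi, ?_⟩
      rw [sh_succ, map_add, map_add]
      abel
  have hbase' : ∀ x ∈ L, x ∈ inv ρ → sh T lam n x = 0 →
      ∃ a ∈ A, ∃ b ∈ B, a ∈ inv ρ ∧ b ∈ inv ρ ∧ sh T lam n a = 0 ∧ sh T lam n b = 0 ∧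
        a + b = x := by
    intro x hx hxi hxS
    obtain ⟨z, hz, hzi, a, ha, hai, b, hb, hbi, hxe⟩ := onto n x hx hxi
    obtain ⟨a1, ha1, a2, ha2, hSa, hae⟩ := fitting_sub (sh T lam n) hc (N := A ⊓ inv ρ)
      (fun y hy => ⟨sh_mem hTA lam n y hy.1, sh_mem (inv_stable hT) lam n y hy.2⟩)
      (x := a) ⟨ha, hai⟩
    obtain ⟨b1, hb1, b2, hb2, hSb, hbe⟩ := fitting_sub (sh T lam n) hc (N := B ⊓ inv ρ)
      (fun y hy => ⟨sh_mem hTB lam n y hy.1, sh_mem (inv_stable hT) lam n y hy.2⟩)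
      (x := b) ⟨hb, hbi⟩
    refine ⟨a1, ha1.1, b1, hb1.1, ha1.2, hb1.2, hSa, hSb, ?_⟩
    have e : x - (a1 + b1) = sh T lam n (z + a2 + b2) := by
      rw [hxe, hae, hbe, map_add, map_add]
      abel
    have k : sh T lam n (x - (a1 + b1)) = 0 := by
      rw [map_sub, map_add, hxS, hSa, hSb]
      simp
    have hz0 : x - (a1 + b1) = 0 := by
      have := hc.le_bot (show x - (a1 + b1) ∈ LinearMap.ker (sh T lam n) ⊓
        LinearMap.range (sh T lam n) from ⟨k, ⟨_, e.symm⟩⟩)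
      simpa using this
    exact (sub_eq_zero.1 hz0).symm
  have f := two_sub hP ρ (sh T lam n) (sh_rep hT lam n) hc hL hA hB (sh_mem hTL lam n)
    (sh_mem hTA lam n) (sh_mem hTB lam n) hAL hBL fL fA fB hbase'
  exact (rank_one hP ρ (hA.inf hB) inf_le_left f (w0 := w0)
    ⟨⟨hwA, hwB⟩, sh_eigen hTw n0⟩ hwi hw0 (fun x hx hxi => hspan x hx.1 hx.2 hxi)).1

variable {M0 M1 M2 : Type*} [AddCommGroup M0] [Module K M0] [AddCommGroup M1] [Module K M1]
  [AddCommGroup M2] [Module K M2]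

/-- from "`T - λ` onto on `H` at level 0" to "`λ`-part of cycles = image of the `λ`-part" -/
theorem base_of_onto [Finite K] [Finite M0] [Finite M1]
    (T0 : M0 →ₗ[K] M0) (T1 : M1 →ₗ[K] M1) (d : M0 →ₗ[K] M1) (hdT : ∀ x, d (T0 x) = T1 (d x))
    (lam : K) (n : ℕ)
    (hc0 : Disjoint (LinearMap.ker (sh T0 lam n)) (LinearMap.range (sh T0 lam n)))
    (hc1 : Disjoint (LinearMap.ker (sh T1 lam n)) (LinearMap.range (sh T1 lam n)))
    {Z0 : Submodule K M0} {Z1 : Submodule K M1} (hT0 : ∀ x ∈ Z0, T0 x ∈ Z0)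
    (_hT1 : ∀ x ∈ Z1, T1 x ∈ Z1)
    (hbase : ∀ y ∈ Z1, ∃ z ∈ Z1, ∃ x ∈ Z0, y = (T1 z - lam • z) + d x) :
    ∀ y ∈ Z1, sh T1 lam n y = 0 → ∃ x ∈ Z0, sh T0 lam n x = 0 ∧ d x = y := by
  have onto : ∀ n : ℕ, ∀ y ∈ Z1, ∃ z ∈ Z1, ∃ x ∈ Z0, y = sh T1 lam n z + d x := by
    intro n
    induction n with
    | zero =>
      intro y hy
      exact ⟨y, hy, 0, Z0.zero_mem, by rw [sh_zero, map_zero, add_zero]⟩
    | succ n ih =>
      intro y hy
      obtain ⟨z, hz, x, hx, rfl⟩ := ih y hy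
      obtain ⟨z', hz', x', hx', rfl⟩ := hbase z hz
      refine ⟨z', hz', sh T0 lam n x' + x, Z0.add_mem (sh_mem hT0 lam n x' hx') hx, ?_⟩
      rw [sh_succ, map_add, map_add, sh_comm T0 T1 lam d hdT, add_assoc]
  intro y hy hyS
  obtain ⟨z, hz, x, hx, hye⟩ := onto n y hy
  obtain ⟨a, ha, b, hb, hSa, hxe⟩ := fitting_sub (sh T0 lam n) hc0 (N := Z0)
    (sh_mem hT0 lam n) hx
  refine ⟨a, ha, hSa, ?_⟩
  have e : y - d a = sh T1 lam n (z + d b) := by
    rw [hye, hxe, map_add, map_add, sh_comm T0 T1 lam d hdT]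
    abel
  have k : sh T1 lam n (y - d a) = 0 := by
    rw [map_sub, hyS, ← sh_comm T0 T1 lam d hdT, hSa, map_zero, sub_zero]
  have hz0 : y - d a = 0 := by
    have := hc1.le_bot (show y - d a ∈ LinearMap.ker (sh T1 lam n) ⊓
      LinearMap.range (sh T1 lam n) from ⟨k, ⟨_, e.symm⟩⟩)
    simpa using this
  exact (sub_eq_zero.1 hz0).symm

/-- **A1, two places, abstract form**: complex `N0 → N1 → N2` of modules satisfying
`dim = |P| dim (invariants)`, Hecke operator `T` with `T - λ` onto on `H^2` and on `H^1` of the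
complex of invariants, `(ker d)^P = K w0`, `T w0 = λ w0`. Then `dim ker d = |P|`. -/
theorem two_place [Finite P] [Finite K] [CharP K p] (hP : IsPGroup p P)
    [Finite M0] [Finite M1] [Finite M2]
    (ρ0 : Representation K P M0) (ρ1 : Representation K P M1) (ρ2 : Representation K P M2)
    (d : M0 →ₗ[K] M1) (d' : M1 →ₗ[K] M2)
    (hd : ∀ g x, d (ρ0 g x) = ρ1 g (d x)) (hd' : ∀ g x, d' (ρ1 g x) = ρ2 g (d' x))
    (hdd : ∀ x, d' (d x) = 0)
    (T0 : M0 →ₗ[K] M0) (T1 : M1 →ₗ[K] M1) (T2 : M2 →ₗ[K] M2)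
    (hT0 : ∀ g x, T0 (ρ0 g x) = ρ0 g (T0 x)) (hT1 : ∀ g x, T1 (ρ1 g x) = ρ1 g (T1 x))
    (hT2 : ∀ g x, T2 (ρ2 g x) = ρ2 g (T2 x))
    (hdT : ∀ x, d (T0 x) = T1 (d x)) (hdT' : ∀ x, d' (T1 x) = T2 (d' x))
    {N0 : Submodule K M0} {N1 : Submodule K M1} {N2 : Submodule K M2}
    (h0 : Stab ρ0 N0) (h1 : Stab ρ1 N1) (h2 : Stab ρ2 N2)
    (ht0 : ∀ x ∈ N0, T0 x ∈ N0) (ht1 : ∀ x ∈ N1, T1 x ∈ N1) (ht2 : ∀ x ∈ N2, T2 x ∈ N2)
    (hN : ∀ x ∈ N0, d x ∈ N1) (hN' : ∀ x ∈ N1, d' x ∈ N2)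
    (f0 : IsFree ρ0 N0) (f1 : IsFree ρ1 N1) (f2 : IsFree ρ2 N2)
    {w0 : M0} (hw : w0 ∈ N0) (hdw : d w0 = 0) (hwi : w0 ∈ inv ρ0) (hw0 : w0 ≠ 0) (lam : K)
    (hTw : T0 w0 = lam • w0)
    (hspan : ∀ x ∈ N0, d x = 0 → x ∈ inv ρ0 → ∃ c : K, x = c • w0)
    (hbase2 : ∀ y ∈ N2, y ∈ inv ρ2 → ∃ z ∈ N2, z ∈ inv ρ2 ∧ ∃ x ∈ N1, x ∈ inv ρ1 ∧
      y = (T2 z - lam • z) + d' x)
    (hbase1 : ∀ y ∈ N1, y ∈ inv ρ1 → d' y = 0 → ∃ z ∈ N1, z ∈ inv ρ1 ∧ d' z = 0 ∧
      ∃ x ∈ N0, x ∈ inv ρ0 ∧ y = (T1 z - lam • z) + d x) :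
    finrank K (N0 ⊓ LinearMap.ker d : Submodule K M0) = Nat.card P := by
  classical
  obtain ⟨n0, c0⟩ := sh_disjoint T0 lam
  obtain ⟨n1, c1⟩ := sh_disjoint T1 lam
  obtain ⟨n2, c2⟩ := sh_disjoint T2 lam
  set m := n0 + n1 + n2 with hm
  set n := m + 1 with hn
  have hc0 := c0 n (by omega)
  have hc1 := c1 n (by omega)
  have hc2 := c2 n (by omega)
  have b2 := base_of_onto T1 T2 d' hdT' lam n hc1 hc2 (Z0 := N1 ⊓ inv ρ1) (Z1 := N2 ⊓ inv ρ2)
    (fun x hx => ⟨ht1 x hx.1, inv_stable hT1 x hx.2⟩)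
    (fun x hx => ⟨ht2 x hx.1, inv_stable hT2 x hx.2⟩)
    (fun y hy => by
      obtain ⟨z, hz, hzi, x, hx, hxi, e⟩ := hbase2 y hy.1 hy.2
      exact ⟨z, ⟨hz, hzi⟩, x, ⟨hx, hxi⟩, e⟩)
  have b1 := base_of_onto T0 T1 d hdT lam n hc0 hc1 (Z0 := N0 ⊓ inv ρ0)
    (Z1 := (N1 ⊓ inv ρ1) ⊓ LinearMap.ker d')
    (fun x hx => ⟨ht0 x hx.1, inv_stable hT0 x hx.2⟩)
    (fun x hx => ⟨⟨ht1 x hx.1.1, inv_stable hT1 x hx.1.2⟩, by
      have h : d' x = 0 := hx.2
      show d' (T1 x) = 0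
      rw [hdT', h, map_zero]⟩)
    (fun y hy => by
      obtain ⟨z, hz, hzi, hz0, x, hx, hxi, e⟩ := hbase1 y hy.1.1 hy.1.2 hy.2
      exact ⟨z, ⟨⟨hz, hzi⟩, hz0⟩, x, ⟨hx, hxi⟩, e⟩)
  have f := three_term hP ρ0 ρ1 ρ2 d d' hd hd' hdd (sh T0 lam n) (sh T1 lam n) (sh T2 lam n)
    (sh_rep hT0 lam n) (sh_rep hT1 lam n) (sh_rep hT2 lam n)
    (sh_comm T0 T1 lam d hdT n) (sh_comm T1 T2 lam d' hdT' n) hc0 hc1 hc2 h0 h1 h2
    (sh_mem ht0 lam n) (sh_mem ht1 lam n) (sh_mem ht2 lam n) hN hN' f0 f1 f2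
    (fun z hz hzi hzS => by
      obtain ⟨x, hx, hxS, e⟩ := b2 z ⟨hz, hzi⟩ hzS
      exact ⟨x, hx.1, hx.2, hxS, e⟩)
    (fun y hy hyi hyS hy0 => by
      obtain ⟨x, hx, hxS, e⟩ := b1 y ⟨⟨hy, hyi⟩, hy0⟩ hyS
      exact ⟨x, hx.1, hx.2, hxS, e⟩)
  have hker : Stab ρ0 (N0 ⊓ LinearMap.ker d) := h0.inf (Stab.ker (ρ' := ρ1) hd)
  refine (rank_one hP ρ0 hker (V' := (N0 ⊓ LinearMap.ker (sh T0 lam n)) ⊓ LinearMap.ker d)
    ?_ f (w0 := w0) ⟨⟨hw, sh_eigen hTw m⟩, hdw⟩ hwi hw0 ?_).1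
  · exact inf_le_inf_right _ inf_le_left
  · exact fun x hx hxi => hspan x hx.1 hx.2 hxi

end hecke

section examples

variable {M : Type*} [AddCommGroup M] [Module K M] {M' : Type*} [AddCommGroup M'] [Module K M']

/-- the equality is transported by injective equivariant maps -/
theorem map_free [Finite K] [Finite M] [Finite M'] (ρ : Representation K P M)
    (ρ' : Representation K P M') (f : M →ₗ[K] M') (hf : ∀ g x, f (ρ g x) = ρ' g (f x))
    (hi : Function.Injective f) {N : Submodule K M} (h : IsFree ρ N) :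
    IsFree ρ' (N.map f) := by
  have _ : FiniteDimensional K M := Module.Finite.of_finite
  have _ : FiniteDimensional K M' := Module.Finite.of_finite
  have e1 : ∀ N : Submodule K M, finrank K (N.map f) = finrank K N := fun N =>
    (LinearEquiv.finrank_eq (Submodule.equivMapOfInjective f hi N)).symm
  have e2 : N.map f ⊓ inv ρ' = (N ⊓ inv ρ).map f := by
    apply le_antisymm
    · rintro x ⟨⟨y, hy, rfl⟩, hxi⟩
      refine ⟨y, ⟨hy, fun g => hi ?_⟩, rfl⟩
      rw [hf]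
      exact hxi g
    · rintro x ⟨y, ⟨hy, hyi⟩, rfl⟩
      refine ⟨⟨y, hy, rfl⟩, fun g => ?_⟩
      rw [← hf, hyi g]
  unfold IsFree at h ⊢
  rw [e1, e2, e1, h]

/-- translation representation on functions `Ω → W`: `(ρ g f) ω = f (g⁻¹ • ω)` -/
def fnRep (P K : Type*) [Group P] [Field K] (Ω W : Type*) [MulAction P Ω] [AddCommGroup W]
    [Module K W] : Representation K P (Ω → W) where
  toFun g :=
    { toFun := fun f ω => f (g⁻¹ • ω)
      map_add' := fun _ _ => rfl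
      map_smul' := fun _ _ => rfl }
  map_one' := by
    ext f ω
    simp
  map_mul' g h := by
    ext f ω
    simp [mul_smul]

theorem fnRep_apply {Ω W : Type*} [MulAction P Ω] [AddCommGroup W] [Module K W] (g : P)
    (f : Ω → W) (ω : Ω) : fnRep P K Ω W g f ω = f (g⁻¹ • ω) := rfl

theorem mem_inv_fnRep {Ω W : Type*} [MulAction P Ω] [AddCommGroup W] [Module K W]
    {f : Ω → W} : f ∈ inv (fnRep P K Ω W) ↔ ∀ (g : P) (ω : Ω), f (g • ω) = f ω := by
  constructor
  · intro h g ω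
    have := congrFun (h g⁻¹) ω
    rw [fnRep_apply, inv_inv] at this
    exact this
  · intro h g
    funext ω
    rw [fnRep_apply]
    exact h g⁻¹ ω

/-- functions on a free `P`-set: `dim = |P| dim (invariants)` -/
theorem fun_free [Finite P] {Ω W : Type*} [MulAction P Ω] [Finite Ω] [AddCommGroup W]
    [Module K W] [FiniteDimensional K W] (hfree : ∀ (g : P) (ω : Ω), g • ω = ω → g = 1) :
    IsFree (fnRep P K Ω W) ⊤ := by
  classical
  have : Fintype P := Fintype.ofFinite P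
  have : Fintype Ω := Fintype.ofFinite Ω
  let Q := Quotient (MulAction.orbitRel P Ω)
  have : Fintype Q := Fintype.ofFinite Q
  have hcard : Fintype.card Ω = Fintype.card P * Fintype.card Q := by
    have h := MulAction.card_eq_sum_card_group_div_card_stabilizer P Ω
    rw [h]
    have hst : ∀ ω : Ω, Fintype.card (MulAction.stabilizer P ω) = 1 := by
      intro ω
      rw [Fintype.card_eq_one_iff]
      exact ⟨1, fun g => Subtype.ext (hfree g.1 ω g.2)⟩
    have hsum : ∀ q : Q, Fintype.card P / Fintype.card (MulAction.stabilizer P q.out) =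
        Fintype.card P := by
      intro q
      rw [hst, Nat.div_one]
    rw [Finset.sum_congr rfl (fun q _ => hsum q), Finset.sum_const, Finset.card_univ,
      smul_eq_mul, Nat.mul_comm]
  -- invariants = functions on the quotient
  let e : (Q → W) →ₗ[K] (Ω → W) :=
    { toFun := fun f ω => f (Quotient.mk _ ω)
      map_add' := fun _ _ => rfl
      map_smul' := fun _ _ => rfl }
  have he : LinearMap.range e = inv (fnRep P K Ω W) := by
    ext f
    constructor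
    · rintro ⟨f', rfl⟩
      rw [mem_inv_fnRep]
      intro g ω
      show f' _ = f' _
      congr 1
      exact Quotient.sound ⟨g, rfl⟩
    · intro hf
      rw [mem_inv_fnRep] at hf
      refine ⟨fun q => f q.out, ?_⟩
      funext ω
      show f (Quotient.mk (MulAction.orbitRel P Ω) ω).out = f ω
      have hr : (MulAction.orbitRel P Ω) (Quotient.mk (MulAction.orbitRel P Ω) ω).out ω :=
        Quotient.mk_out (s := MulAction.orbitRel P Ω) ω
      obtain ⟨g, hg⟩ := hr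
      rw [← hg]
      exact hf g ω
  have hei : Function.Injective e := by
    intro f f' h
    funext q
    obtain ⟨ω, rfl⟩ := Quotient.exists_rep q
    exact congrFun h ω
  unfold IsFree
  rw [top_inf_eq, ← he, LinearMap.finrank_range_of_inj hei, finrank_top,
    Module.finrank_pi_fintype, Module.finrank_pi_fintype, Finset.sum_const, Finset.sum_const,
    Finset.card_univ, Finset.card_univ, smul_eq_mul, smul_eq_mul, hcard,
    Nat.card_eq_fintype_card, Nat.mul_assoc]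

end examples

end Crest.Agent.R289.Nak280
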