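import Mathlib

/-!
R289, block A (row 289, S0434): nilpotency of the augmentation ideal of `K[P]` for a finite group `P`
with triangular digits, and the Horner / Richardson iteration for linear systems over `K[P]`
that are invertible modulo the augmentation ideal.

Everything is stated for functions `P → K` and coefficient functions `a : P → K`
(`conv a f x = ∑ s, a s * f (x * s)`, right translations).
-/

set_option autoImplicit false
set_option linter.unusedSectionVars false
open scoped BigOperators

namespace Crest.Agent.R289.Nil781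

section Filtration

variable {ι P K : Type*} [Fintype ι] [Field K]

/-- monomial in the digits -/
def mono (d : ι → P → K) (n : ι → ℕ) : P → K := fun x => ∏ i, d i x ^ n i

/-- span of the monomials of weight `< w` -/
def G (d : ι → P → K) (wt : ι → ℕ) (w : ℕ) : Submodule K (P → K) :=
  Submodule.span K {f | ∃ n : ι → ℕ, ∑ i, wt i * n i < w ∧ f = mono d n}

variable {d : ι → P → K} {wt : ι → ℕ}

theorem G_mono {a b : ℕ} (h : a ≤ b) : G d wt a ≤ G d wt b := by
  apply Submodule.span_mono
  rintro f ⟨n, hn, rfl⟩
  exact ⟨n, lt_of_lt_of_le hn h, rfl⟩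

theorem mono_mem {n : ι → ℕ} {w : ℕ} (h : ∑ i, wt i * n i < w) : mono d n ∈ G d wt w :=
  Submodule.subset_span ⟨n, h, rfl⟩

theorem G_zero : G d wt 0 = ⊥ := by
  rw [G, Submodule.span_eq_bot]
  rintro f ⟨n, hn, -⟩
  exact absurd hn (Nat.not_lt_zero _)

theorem mono_mul (n m : ι → ℕ) : mono d n * mono d m = mono d (n + m) := by
  funext x
  simp only [mono, Pi.mul_apply, Pi.add_apply, pow_add, Finset.prod_mul_distrib]

theorem one_eq_mono : (1 : P → K) = mono d (0 : ι → ℕ) := by
  funext x
  simp [mono]

theorem one_mem {w : ℕ} (h : 0 < w) : (1 : P → K) ∈ G d wt w := by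
  rw [one_eq_mono (d := d)]
  exact mono_mem (by simpa using h)

theorem mul_mem {a b : ℕ} {f g : P → K} (hf : f ∈ G d wt a) (hg : g ∈ G d wt b) :
    f * g ∈ G d wt (a + b - 1) := by
  have h : G d wt a * G d wt b ≤ G d wt (a + b - 1) := by
    rw [G, G, Submodule.span_mul_span]
    apply Submodule.span_le.2
    rintro _ ⟨f, ⟨n, hn, rfl⟩, g, ⟨m, hm, rfl⟩, rfl⟩
    show mono d n * mono d m ∈ _
    rw [mono_mul]
    apply mono_mem
    have : ∑ i, wt i * (n + m) i = ∑ i, wt i * n i + ∑ i, wt i * m i := by
      rw [← Finset.sum_add_distrib]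
      exact Finset.sum_congr rfl fun i _ => by simp [mul_add]
    omega
  exact h (Submodule.mul_mem_mul hf hg)

/-- `u` and `v` have weight `≤ a` and the same leading part -/
def Rel (d : ι → P → K) (wt : ι → ℕ) (a : ℕ) (u v : P → K) : Prop :=
  u ∈ G d wt (a + 1) ∧ v ∈ G d wt (a + 1) ∧ u - v ∈ G d wt a

theorem Rel.one : Rel d wt 0 1 1 :=
  ⟨one_mem Nat.one_pos, one_mem Nat.one_pos, by simp⟩

theorem Rel.mul {a b : ℕ} {u v u' v' : P → K} (h : Rel d wt a u v) (h' : Rel d wt b u' v') :
    Rel d wt (a + b) (u * u') (v * v') := by
  obtain ⟨h1, h2, h3⟩ := h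
  obtain ⟨h1', h2', h3'⟩ := h'
  refine ⟨?_, ?_, ?_⟩
  · have := mul_mem h1 h1'
    rwa [show a + 1 + (b + 1) - 1 = a + b + 1 by omega] at this
  · have := mul_mem h2 h2'
    rwa [show a + 1 + (b + 1) - 1 = a + b + 1 by omega] at this
  · have e : u * u' - v * v' = u * (u' - v') + (u - v) * v' := by ring
    rw [e]
    apply Submodule.add_mem
    · have := mul_mem h1 h3'
      rwa [show a + 1 + b - 1 = a + b by omega] at this
    · have := mul_mem h3 h2'
      rwa [show a + (b + 1) - 1 = a + b by omega] at this

theorem Rel.pow {a : ℕ} {u v : P → K} (h : Rel d wt a u v) (n : ℕ) :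
    Rel d wt (a * n) (u ^ n) (v ^ n) := by
  induction n with
  | zero => simpa using Rel.one
  | succ n ih =>
    rw [pow_succ, pow_succ, Nat.mul_succ]
    exact ih.mul h

theorem Rel.prod {κ : Type*} (s : Finset κ) (a : κ → ℕ) (u v : κ → P → K)
    (h : ∀ i ∈ s, Rel d wt (a i) (u i) (v i)) :
    Rel d wt (∑ i ∈ s, a i) (∏ i ∈ s, u i) (∏ i ∈ s, v i) := by
  classical
  induction s using Finset.induction_on with
  | empty => simpa using Rel.one
  | insert i s hi ih =>
    rw [Finset.sum_insert hi, Finset.prod_insert hi, Finset.prod_insert hi]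
    exact (h i (Finset.mem_insert_self i s)).mul
      (ih fun j hj => h j (Finset.mem_insert_of_mem hj))

theorem digit_mem [DecidableEq ι] (i : ι) : d i ∈ G d wt (wt i + 1) := by
  have h : d i = mono d (Pi.single i 1) := by
    funext x
    rw [mono, Finset.prod_eq_single i]
    · simp
    · intro j _ hj
      simp [Pi.single_eq_of_ne hj]
    · intro h
      exact absurd (Finset.mem_univ i) h
  rw [h]
  apply mono_mem
  rw [Finset.sum_eq_single i]
  · simp
  · intro j _ hj
    simp [Pi.single_eq_of_ne hj]
  · intro h
    exact absurd (Finset.mem_univ i) h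

end Filtration

section Trans

variable {ι P K : Type*} [Fintype ι] [Field K] [Group P]
variable {d : ι → P → K} {wt : ι → ℕ}

/-- right translation `(T s f) x = f (x * s)` -/
def T (s : P) : (P → K) →ₗ[K] (P → K) := LinearMap.funLeft K K (fun x => x * s)

@[simp] theorem T_apply (s : P) (f : P → K) (x : P) : T s f x = f (x * s) := rfl

/-- The hypothesis on the digits: right translations change the digit `i` only by functions of
weight `< wt i`. -/
def Triangular (d : ι → P → K) (wt : ι → ℕ) : Prop :=
  ∀ (s : P) (i : ι), (fun x => d i (x * s) - d i x) ∈ G d wt (wt i)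

theorem T_mono_rel (hd : Triangular d wt) (s : P) (n : ι → ℕ) :
    Rel d wt (∑ i, wt i * n i) (T s (mono d n)) (mono d n) := by
  classical
  have e1 : (T s (mono d n) : P → K) = ∏ i, (T s (d i)) ^ n i := by
    funext x
    simp [mono, Finset.prod_apply]
  have e2 : mono d n = ∏ i, (d i) ^ n i := by
    funext x
    simp [mono, Finset.prod_apply]
  rw [e1, e2]
  refine Rel.prod Finset.univ (fun i => wt i * n i) (fun i => (T s (d i)) ^ n i)
    (fun i => (d i) ^ n i) fun i _ => ?_
  apply Rel.pow
  have h1 : d i ∈ G d wt (wt i + 1) := digit_mem i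
  have h2 : T s (d i) - d i ∈ G d wt (wt i) := hd s i
  refine ⟨?_, h1, h2⟩
  have : T s (d i) = (T s (d i) - d i) + d i := by abel
  rw [this]
  exact Submodule.add_mem _ (G_mono (Nat.le_succ _) h2) h1

theorem T_sub_mem (hd : Triangular d wt) (s : P) {w : ℕ} {f : P → K} (hf : f ∈ G d wt w) :
    T s f - f ∈ G d wt (w - 1) := by
  have h : G d wt w ≤ (G d wt (w - 1)).comap (T s - LinearMap.id : (P → K) →ₗ[K] (P → K)) := by
    conv_lhs => rw [G]
    apply Submodule.span_le.2
    rintro f ⟨n, hn, rfl⟩
    show T s (mono d n) - mono d n ∈ G d wt (w - 1)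
    exact G_mono (by omega) (T_mono_rel hd s n).2.2
  exact h hf

theorem T_mem (hd : Triangular d wt) (s : P) {w : ℕ} {f : P → K} (hf : f ∈ G d wt w) :
    T s f ∈ G d wt w := by
  have : T s f = (T s f - f) + f := by abel
  rw [this]
  exact Submodule.add_mem _ (G_mono (Nat.sub_le _ _) (T_sub_mem hd s hf)) hf

variable [Fintype P]

/-- the operator of the group algebra element `a` (right translations) -/
def conv (a : P → K) (f : P → K) : P → K := fun x => ∑ s, a s * f (x * s)

theorem conv_eq (a f : P → K) : conv a f = ∑ s, a s • T s f := by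
  funext x
  simp [conv, Finset.sum_apply]

theorem conv_mem (hd : Triangular d wt) (a : P → K) {w : ℕ} {f : P → K} (hf : f ∈ G d wt w) :
    conv a f ∈ G d wt w := by
  rw [conv_eq]
  exact Submodule.sum_mem _ fun s _ => Submodule.smul_mem _ _ (T_mem hd s hf)

theorem conv_aug_mem (hd : Triangular d wt) {a : P → K} (ha : ∑ s, a s = 0) {w : ℕ} {f : P → K}
    (hf : f ∈ G d wt w) : conv a f ∈ G d wt (w - 1) := by
  have e : conv a f = ∑ s, a s • (T s f - f) := by
    simp only [smul_sub, Finset.sum_sub_distrib, ← Finset.sum_smul, ha, zero_smul, sub_zero]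
    exact conv_eq a f
  rw [e]
  exact Submodule.sum_mem _ fun s _ => Submodule.smul_mem _ _ (T_sub_mem hd s hf)

end Trans

section Top

variable {ι P K : Type*} [Fintype ι] [Field K] [Fintype K] [Finite P]
variable {d : ι → P → K} {wt : ι → ℕ}

/-- the largest weight -/
def W (K : Type*) [Fintype K] {ι : Type*} [Fintype ι] (wt : ι → ℕ) : ℕ :=
  (Fintype.card K - 1) * ∑ i, wt i

theorem G_top (hinj : ∀ x y : P, (∀ i, d i x = d i y) → x = y) :
    G d wt (W K wt + 1) = ⊤ := by
  classical
  have := Fintype.ofFinite P
  have hcard : 1 < Fintype.card K := Fintype.one_lt_card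
  have hdelta : ∀ y : P, (Pi.single y 1 : P → K) ∈ G d wt (W K wt + 1) := by
    intro y
    have e : (Pi.single y 1 : P → K)
        = ∏ i, (1 - (d i - fun _ => d i y) ^ (Fintype.card K - 1)) := by
      funext x
      simp only [Finset.prod_apply, Pi.sub_apply, Pi.one_apply, Pi.pow_apply]
      by_cases h : x = y
      · subst h
        rw [Pi.single_eq_same]
        symm
        apply Finset.prod_eq_one
        intro i _
        rw [sub_self, zero_pow (by omega), sub_zero]
      · rw [Pi.single_eq_of_ne h]
        symm
        have : ∃ i, d i x ≠ d i y := by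
          by_contra hc
          push Not at hc
          exact h (hinj x y hc)
        obtain ⟨i, hi⟩ := this
        apply Finset.prod_eq_zero (Finset.mem_univ i)
        rw [FiniteField.pow_card_sub_one_eq_one _ (sub_ne_zero.2 hi), sub_self]
    rw [e]
    have hrel : ∀ i ∈ (Finset.univ : Finset ι),
        Rel d wt (wt i * (Fintype.card K - 1))
          (1 - (d i - fun _ => d i y) ^ (Fintype.card K - 1))
          (1 - (d i - fun _ => d i y) ^ (Fintype.card K - 1)) := by
      intro i _
      have h1 : (d i - fun _ => d i y) ∈ G d wt (wt i + 1) := by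
        apply Submodule.sub_mem _ (digit_mem i)
        have : (fun _ => d i y : P → K) = d i y • (1 : P → K) := by
          funext x
          simp
        rw [this]
        exact Submodule.smul_mem _ _ (one_mem (Nat.succ_pos _))
      have h2 : Rel d wt (wt i) (d i - fun _ => d i y) (d i - fun _ => d i y) :=
        ⟨h1, h1, by simp⟩
      have h3 := (h2.pow (Fintype.card K - 1)).1
      have h4 : (1 - (d i - fun _ => d i y) ^ (Fintype.card K - 1))
          ∈ G d wt (wt i * (Fintype.card K - 1) + 1) :=
        Submodule.sub_mem _ (one_mem (Nat.succ_pos _)) h3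
      exact ⟨h4, h4, by simp⟩
    have := (Rel.prod Finset.univ _ _ _ hrel).1
    rwa [← Finset.sum_mul, mul_comm] at this
  rw [eq_top_iff]
  intro f _
  have e : f = ∑ y, f y • (Pi.single y 1 : P → K) := by
    funext x
    simp [Finset.sum_apply, Pi.single_apply]
  rw [e]
  exact Submodule.sum_mem _ fun y _ => Submodule.smul_mem _ _ (hdelta y)

end Top

section Vec

variable {ι P K : Type*} [Fintype ι] [Field K] [Group P] [Fintype P]
variable {d : ι → P → K} {wt : ι → ℕ}
variable {m n : Type*} [Fintype m] [Fintype n]

/-- matrix over `K[P]` (coefficient functions) acting on vectors of functions by right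
translations -/
def act (A : m → n → P → K) (y : n → P → K) : m → P → K := fun i x => ∑ j, ∑ s, A i j s * y j (x * s)

theorem act_eq (A : m → n → P → K) (y : n → P → K) (i : m) :
    act A y i = ∑ j, conv (A i j) (y j) := by
  funext x
  simp [act, conv, Finset.sum_apply]

theorem act_sub (A : m → n → P → K) (y z : n → P → K) : act A (y - z) = act A y - act A z := by
  funext i x
  simp [act, mul_sub, Finset.sum_sub_distrib]

theorem act_add (A : m → n → P → K) (y z : n → P → K) : act A (y + z) = act A y + act A z := by
  funext i x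
  simp [act, mul_add, Finset.sum_add_distrib]

/-- weight filtration of vectors -/
def GV (d : ι → P → K) (wt : ι → ℕ) (m : Type*) (w : ℕ) : Set (m → P → K) :=
  {y | ∀ i, y i ∈ G d wt w}

theorem GV_zero {y : m → P → K} (hy : y ∈ GV d wt m 0) : y = 0 := by
  funext i
  have := hy i
  rw [G_zero, Submodule.mem_bot] at this
  exact this

/-- iterates of any map that lowers the weight of vectors vanish. -/
theorem iterate_zero [Fintype K] (hinj : ∀ x y : P, (∀ i, d i x = d i y) → x = y)
    (E : (m → P → K) → (m → P → K))
    (hE : ∀ w y, y ∈ GV d wt m w → E y ∈ GV d wt m (w - 1)) {t : ℕ} (ht : W K wt < t)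
    (y : m → P → K) : E^[t] y = 0 := by
  have key : ∀ t, E^[t] y ∈ GV d wt m (W K wt + 1 - t) := by
    intro t
    induction t with
    | zero =>
      intro i
      rw [Nat.sub_zero, G_top hinj]
      trivial
    | succ t ih =>
      rw [Function.iterate_succ_apply']
      have := hE _ _ ih
      rwa [Nat.sub_sub] at this
  apply GV_zero (d := d) (wt := wt)
  have := key t
  rwa [Nat.sub_eq_zero_of_le (by omega)] at this

/-- a matrix with entries in the augmentation ideal lowers the weight -/
theorem act_aug_mem (hd : Triangular d wt) (X : m → m → P → K) (hX : ∀ i j, ∑ s, X i j s = 0)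
    (w : ℕ) (y : m → P → K) (hy : y ∈ GV d wt m w) : act X y ∈ GV d wt m (w - 1) := by
  intro i
  rw [act_eq]
  exact Submodule.sum_mem _ fun j _ => conv_aug_mem hd (hX i j) (hy j)

/-- **Nilpotency**: more than `W` applications of a matrix over the augmentation ideal. -/
theorem act_iterate_zero [Fintype K] (hd : Triangular d wt)
    (hinj : ∀ x y : P, (∀ i, d i x = d i y) → x = y)
    (X : m → m → P → K) (hX : ∀ i j, ∑ s, X i j s = 0) {t : ℕ} (ht : W K wt < t)
    (y : m → P → K) : (act X)^[t] y = 0 :=
  iterate_zero hinj (act X) (act_aug_mem hd X hX) ht y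

/-- product of more than `W` elements of the augmentation ideal -/
theorem list_zero [Fintype K] (hd : Triangular d wt)
    (hinj : ∀ x y : P, (∀ i, d i x = d i y) → x = y)
    (l : List (P → K)) (hl : ∀ a ∈ l, ∑ s, a s = 0) (ht : W K wt < l.length) (f : P → K) :
    l.foldr conv f = 0 := by
  have key : ∀ l : List (P → K), (∀ a ∈ l, ∑ s, a s = 0) →
      l.foldr conv f ∈ G d wt (W K wt + 1 - l.length) := by
    intro l
    induction l with
    | nil =>
      intro _
      rw [List.length_nil, Nat.sub_zero, G_top hinj]
      trivial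
    | cons a l ih =>
      intro h
      have := conv_aug_mem hd (h a List.mem_cons_self) (ih fun b hb => h b (List.mem_cons_of_mem _ hb))
      rwa [Nat.sub_sub] at this
  have := key l hl
  rwa [Nat.sub_eq_zero_of_le (by omega), G_zero, Submodule.mem_bot] at this

/-- constant matrix applied pointwise -/
def cmul (B : Matrix m n K) (r : n → P → K) : m → P → K := fun i x => ∑ j, B i j * r j x

theorem cmul_sub (B : Matrix m n K) (y z : n → P → K) : cmul B (y - z) = cmul B y - cmul B z := by
  funext i x
  simp [cmul, mul_sub, Finset.sum_sub_distrib]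

/-- augmentation of a matrix over `K[P]` -/
def aug (A : m → n → P → K) : Matrix m n K := fun i j => ∑ s, A i j s

/-- one step of the Richardson / Horner iteration for `A y = b` -/
def step (A : n → m → P → K) (B : Matrix m n K) (b : n → P → K) (y : m → P → K) : m → P → K :=
  y + cmul B (b - act A y)

/-- `y - B (A y)` as a matrix over `K[P]` -/
theorem sub_cmul_act_mem [DecidableEq m] (hd : Triangular d wt) (A : n → m → P → K)
    (B : Matrix m n K) (hB : B * aug A = 1) (w : ℕ) (y : m → P → K) (hy : y ∈ GV d wt m w) :
    y - cmul B (act A y) ∈ GV d wt m (w - 1) := by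
  classical
  have e : y - cmul B (act A y)
      = act (fun i l s => (if i = l ∧ s = 1 then 1 else 0) - ∑ j, B i j * A j l s) y := by
    funext i x
    simp only [act, cmul, Pi.sub_apply, sub_mul, Finset.sum_sub_distrib]
    congr 1
    · symm
      rw [Finset.sum_eq_single i, Finset.sum_eq_single (1 : P)]
      · simp
      · intro s _ hs
        simp [hs]
      · intro h
        exact absurd (Finset.mem_univ _) h
      · intro l _ hl
        apply Finset.sum_eq_zero
        intro s _
        simp [Ne.symm hl]
      · intro h
        exact absurd (Finset.mem_univ _) h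
    · simp only [Finset.mul_sum, Finset.sum_mul]
      rw [Finset.sum_comm]
      apply Finset.sum_congr rfl
      intro l _
      rw [Finset.sum_comm]
      apply Finset.sum_congr rfl
      intro s _
      apply Finset.sum_congr rfl
      intro j _
      ring
  rw [e]
  apply act_aug_mem hd _ _ w y hy
  intro i l
  rw [Finset.sum_sub_distrib]
  have h1 : ∑ s : P, (if i = l ∧ s = 1 then (1 : K) else 0) = (1 : Matrix m m K) i l := by
    rw [Matrix.one_apply]
    by_cases h : i = l
    · simp [h]
    · simp [h]
  have h2 : ∑ s : P, ∑ j, B i j * A j l s = (B * aug A) i l := by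
    rw [Matrix.mul_apply, Finset.sum_comm]
    apply Finset.sum_congr rfl
    intro j _
    rw [aug, Finset.mul_sum]
  rw [h1, h2, hB, sub_self]

/-- **Horner, uniqueness**: if `A y = b` then the iteration reaches `y` after more than `W` steps
from every starting point. -/
theorem step_iterate_eq [DecidableEq m] [Fintype K] (hd : Triangular d wt)
    (hinj : ∀ x y : P, (∀ i, d i x = d i y) → x = y)
    (A : n → m → P → K) (B : Matrix m n K) (hB : B * aug A = 1)
    (b : n → P → K) (y : m → P → K) (hy : act A y = b) (y0 : m → P → K) {t : ℕ}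
    (ht : W K wt < t) : (step A B b)^[t] y0 = y := by
  subst hy
  set E : (m → P → K) → (m → P → K) := fun e => e - cmul B (act A e) with hE
  have key : ∀ t, y - (step A B (act A y))^[t] y0 = E^[t] (y - y0) := by
    intro t
    induction t with
    | zero => rfl
    | succ t ih =>
      rw [Function.iterate_succ_apply', Function.iterate_succ_apply', ← ih]
      simp only [hE, step]
      rw [act_sub, ← sub_sub]
  have h0 := iterate_zero (wt := wt) hinj E (fun w z hz => sub_cmul_act_mem hd A B hB w z hz) ht (y - y0)
  have := key t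
  rw [h0, sub_eq_zero] at this
  exact this.symm

/-- the residual version: `r - A (B r)` lowers the weight if `aug A * B = 1`. -/
theorem sub_act_cmul_mem [DecidableEq n] (hd : Triangular d wt) (A : n → m → P → K)
    (B : Matrix m n K) (hB : aug A * B = 1) (w : ℕ) (r : n → P → K) (hr : r ∈ GV d wt n w) :
    r - act A (cmul B r) ∈ GV d wt n (w - 1) := by
  classical
  have e : r - act A (cmul B r)
      = act (fun i l s => (if i = l ∧ s = 1 then 1 else 0) - ∑ j, A i j s * B j l) r := by
    funext i x
    simp only [act, cmul, Pi.sub_apply, sub_mul, Finset.sum_sub_distrib]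
    congr 1
    · symm
      rw [Finset.sum_eq_single i, Finset.sum_eq_single (1 : P)]
      · simp
      · intro s _ hs
        simp [hs]
      · intro h
        exact absurd (Finset.mem_univ _) h
      · intro l _ hl
        apply Finset.sum_eq_zero
        intro s _
        simp [Ne.symm hl]
      · intro h
        exact absurd (Finset.mem_univ _) h
    · simp only [Finset.mul_sum, Finset.sum_mul]
      rw [Finset.sum_comm]
      conv_rhs => rw [Finset.sum_comm]
      apply Finset.sum_congr rfl
      intro s _
      rw [Finset.sum_comm]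
      apply Finset.sum_congr rfl
      intro l _
      apply Finset.sum_congr rfl
      intro j _
      ring
  rw [e]
  apply act_aug_mem hd _ _ w r hr
  intro i l
  rw [Finset.sum_sub_distrib]
  have h1 : ∑ s : P, (if i = l ∧ s = 1 then (1 : K) else 0) = (1 : Matrix n n K) i l := by
    rw [Matrix.one_apply]
    by_cases h : i = l
    · simp [h]
    · simp [h]
  have h2 : ∑ s : P, ∑ j, A i j s * B j l = (aug A * B) i l := by
    rw [Matrix.mul_apply, Finset.sum_comm]
    apply Finset.sum_congr rfl
    intro j _
    rw [aug, Finset.sum_mul]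
  rw [h1, h2, hB, sub_self]

/-- **Horner, existence**: if `aug A * B = 1` then the iteration solves `A y = b` after more than
`W` steps from every starting point. -/
theorem act_step_iterate [DecidableEq n] [Fintype K] (hd : Triangular d wt)
    (hinj : ∀ x y : P, (∀ i, d i x = d i y) → x = y)
    (A : n → m → P → K) (B : Matrix m n K) (hB : aug A * B = 1)
    (b : n → P → K) (y0 : m → P → K) {t : ℕ} (ht : W K wt < t) :
    act A ((step A B b)^[t] y0) = b := by
  set E : (n → P → K) → (n → P → K) := fun e => e - act A (cmul B e) with hE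
  have key : ∀ t, b - act A ((step A B b)^[t] y0) = E^[t] (b - act A y0) := by
    intro t
    induction t with
    | zero => rfl
    | succ t ih =>
      rw [Function.iterate_succ_apply', Function.iterate_succ_apply', ← ih]
      simp only [hE, step]
      rw [act_add, ← sub_sub]
  have h0 := iterate_zero (wt := wt) hinj E (fun w z hz => sub_act_cmul_mem hd A B hB w z hz) ht
    (b - act A y0)
  have := key t
  rw [h0, sub_eq_zero] at this
  exact this.symm

end Vec

section Left

variable {ι P K : Type*} [Fintype ι] [Field K] [Group P] [Fintype P]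
variable {d : ι → P → K} {wt : ι → ℕ}
variable {m n : Type*} [Fintype m] [Fintype n]

/-- mirror image of a vector of functions -/
def hat (y : m → P → K) : m → P → K := fun i x => y i x⁻¹

@[simp] theorem hat_hat (y : m → P → K) : hat (hat y) = y := by
  funext i x
  simp [hat]

/-- matrix over `K[P]` acting by left translations `f ↦ f (s⁻¹ * x)` -/
def actL (A : m → n → P → K) (y : n → P → K) : m → P → K :=
  fun i x => ∑ j, ∑ s, A i j s * y j (s⁻¹ * x)

theorem actL_eq (A : m → n → P → K) (y : n → P → K) : actL A y = hat (act A (hat y)) := by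
  funext i x
  simp [actL, hat, act, mul_inv_rev]

/-- one step of the iteration, left version -/
def stepL (A : n → m → P → K) (B : Matrix m n K) (b : n → P → K) (y : m → P → K) : m → P → K :=
  y + cmul B (b - actL A y)

theorem stepL_eq (A : n → m → P → K) (B : Matrix m n K) (b : n → P → K) (y : m → P → K) :
    stepL A B b y = hat (step A B (hat b) (hat y)) := by
  funext i x
  simp [stepL, step, hat, cmul, actL_eq]

theorem stepL_iterate (A : n → m → P → K) (B : Matrix m n K) (b : n → P → K) (y : m → P → K) (t : ℕ) :
    (stepL A B b)^[t] y = hat ((step A B (hat b))^[t] (hat y)) := by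
  induction t with
  | zero => simp
  | succ t ih => rw [Function.iterate_succ_apply', ih, stepL_eq, hat_hat, Function.iterate_succ_apply']

theorem stepL_iterate_eq [DecidableEq m] [Fintype K] (hd : Triangular d wt)
    (hinj : ∀ x y : P, (∀ i, d i x = d i y) → x = y)
    (A : n → m → P → K) (B : Matrix m n K) (hB : B * aug A = 1)
    (b : n → P → K) (y : m → P → K) (hy : actL A y = b) (y0 : m → P → K) {t : ℕ}
    (ht : W K wt < t) : (stepL A B b)^[t] y0 = y := by
  rw [stepL_iterate, step_iterate_eq hd hinj A B hB (hat b) (hat y) ?_ (hat y0) ht, hat_hat]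
  rw [← hy, actL_eq, hat_hat]

theorem actL_stepL_iterate [DecidableEq n] [Fintype K] (hd : Triangular d wt)
    (hinj : ∀ x y : P, (∀ i, d i x = d i y) → x = y)
    (A : n → m → P → K) (B : Matrix m n K) (hB : aug A * B = 1)
    (b : n → P → K) (y0 : m → P → K) {t : ℕ} (ht : W K wt < t) :
    actL A ((stepL A B b)^[t] y0) = b := by
  rw [stepL_iterate, actL_eq, hat_hat, act_step_iterate hd hinj A B hB _ _ ht, hat_hat]

theorem actL_iterate_zero [Fintype K] (hd : Triangular d wt)
    (hinj : ∀ x y : P, (∀ i, d i x = d i y) → x = y)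
    (X : m → m → P → K) (hX : ∀ i j, ∑ s, X i j s = 0) {t : ℕ} (ht : W K wt < t)
    (y : m → P → K) : (actL X)^[t] y = 0 := by
  have key : ∀ t, (actL X)^[t] y = hat ((act X)^[t] (hat y)) := by
    intro t
    induction t with
    | zero => simp
    | succ t ih => rw [Function.iterate_succ_apply', ih, actL_eq, hat_hat, Function.iterate_succ_apply']
  rw [key, act_iterate_zero hd hinj X hX ht]
  funext i x
  rfl

end Left

/-- Affine triangular digits are triangular in the sense above: if
`d i (x * s) = d i x + c + ∑_{j, wt j < wt i} c_j * d j x` then the hypothesis holds. -/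
theorem triangular_of_affine {ι P K : Type*} [Fintype ι] [Field K] [Group P] (d : ι → P → K)
    (wt : ι → ℕ) (hpos : ∀ i, 0 < wt i)
    (h : ∀ (s : P) (i : ι), ∃ (c : K) (e : ι → K), (∀ j, wt i ≤ wt j → e j = 0) ∧
      ∀ x, d i (x * s) = d i x + c + ∑ j, e j * d j x) :
    Triangular d wt := by
  classical
  intro s i
  obtain ⟨c, e, he, hx⟩ := h s i
  have e1 : (fun x => d i (x * s) - d i x) = c • (1 : P → K) + ∑ j, e j • d j := by
    funext x
    simp [hx x, Finset.sum_apply, add_assoc]
  rw [e1]
  refine Submodule.add_mem _ (Submodule.smul_mem _ _ (one_mem (hpos i)))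
    (Submodule.sum_mem _ fun j _ => ?_)
  by_cases hj : wt i ≤ wt j
  · rw [he j hj, zero_smul]
    exact Submodule.zero_mem _
  · exact Submodule.smul_mem _ _ (G_mono (by omega) (digit_mem j))

end Crest.Agent.R289.Nil781
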