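import Crest.Agent.R289.InsObj_576
import Crest.Agent.R289.LayNet_896
import Crest.Agent.R289.RouteObj_649

/-!
# Row 289, block C: the names `LayNet896.Nm` of steps of `P × R` inside the names `InsObj576.G`

`toG D : Nm (dG D) → G D` (absolute) with `act D kP kR (toG D g) = LayNet896.act .. g` at all levels.
-/

set_option autoImplicit false

namespace Crest.Agent.R289.NmG576

open Crest.Agent.R289.Asm12 Crest.Agent.R289.InsObj576 Crest.Agent.R289.RouteObj649
  Crest.Agent.R289.LayNet896

variable (D : Obj)

/-- the letters of `letP` as names -/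
noncomputable def letL : List (Ltr D) :=
  (labs D).map (fun z => (false, false, z)) ++ (labs D).map (fun z => (false, true, z))

theorem letP_eq (k : ℕ) : letP D k = (letL D).map (lv D k) := by
  simp [letP, letL, lv, Function.comp_def]

/-- letters of `RouteObj649` at level `k` -/
noncomputable def S (k : ℕ) (i : ℕ) : D.P k := (letP D k).getD i 1

theorem S_eq (k i : ℕ) : S D k i = ov D k ((letL D)[i]?) := by
  unfold S
  rw [letP_eq, List.getD_eq_getElem?_getD, List.getElem?_map]
  cases (letL D)[i]? with
  | none => rfl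
  | some a => rfl

/-- the name of a word of letter numbers -/
noncomputable def nm3 (w : List ℕ) : W3 D := fun i => (w[(i : ℕ)]?).bind fun n => (letL D)[n]?

theorem ov_nm3 (k : ℕ) (w : List ℕ) (i : Fin 3) :
    ov D k (nm3 D w i) = match w[(i : ℕ)]? with
      | none => 1
      | some n => S D k n := by
  unfold nm3
  cases w[(i : ℕ)]? with
  | none => rfl
  | some n => exact (S_eq D k n).symm

theorem wv3_nm3 (k : ℕ) (w : List ℕ) (hw : w.length ≤ 3) :
    wv3 D k (nm3 D w) = (w.reverse.map (S D k)).prod := by
  unfold wv3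
  rw [ov_nm3, ov_nm3, ov_nm3]
  match w, hw with
  | [], _ => simp
  | [a], _ => simp
  | [a, b], _ => simp
  | [a, b, c], _ => simp [mul_assoc]

/-- **names of `LayNet896` as names of moves** -/
noncomputable def toG (g : Nm (dG D)) : G D :=
  (nm3 D (Ham613.wd (dG D) g.1), nm3 D (Ham613.wd (dG D) g.2))

theorem act_toG (kP kR : ℕ) (g : Nm (dG D)) :
    InsObj576.act D kP kR (toG D g) = LayNet896.act (S D kP) (S D kR) (dG D) g := by
  apply Equiv.ext
  intro x
  rw [InsObj576.act_apply, LayNet896.act_apply]
  unfold toG LayNet896.val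
  rw [wv3_nm3 D kP _ (Ham613.wd_length _ _), wv3_nm3 D kR _ (Ham613.wd_length _ _)]

/-- the name of the identity -/
theorem act_toG_default (kP kR : ℕ) (x : D.P kP × D.P kR) :
    InsObj576.act D kP kR (toG D default) x = x := by
  rw [act_toG, LayNet896.act_default]

/-- `nbN` is left multiplication by `S` -/
theorem nbN_S {M0 : ℕ} {lam0 Kr : ℝ} (h : D.OK M0 lam0 Kr) (k : ℕ) (g : ℕ) (hg : g < dG D)
    (x : D.P k) :
    nbN D (Crest.Agent.Lib.PT.Un.mk k) (D.ix k x) g = D.ix k (S D k g * x) := nbN_eq h k g hg x

/-- list of all names -/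
noncomputable def gs : List (G D) := (Finset.univ : Finset (Nm (dG D))).toList.map (toG D)

theorem mem_gs (g : Nm (dG D)) : toG D g ∈ gs D :=
  List.mem_map.2 ⟨g, by simp, rfl⟩

end Crest.Agent.R289.NmG576
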