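import Crest.Agent.R289.EvalC_690
import Crest.Agent.R289.EolNFPT_328
import Crest.Agent.R289.LayPTF_328

/-!
# Row 289: normalisation of coded End-of-Line instances

`WI` = codes of well formed instances; `norm : EI → WI` is polynomial time, keeps the codes of well
formed instances and sends every other code to a fixed well formed instance.  So all families of
block C may be indexed by `WI` (or by `EI` through `norm`), and every statement about them holds
for ALL indices.
-/

set_option autoImplicit false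
set_option linter.unusedSectionVars false

namespace Crest.Agent.R289.NormEI109

open Crest.PPADPCP Crest.Agent.Lib.PT Crest.Agent.R289 Crest.Agent.R289.EvalC690

/-! ### `raw` is injective -/

theorem rawBGate_inj : Function.Injective rawBGate := by
  intro g h e
  cases g <;> cases h <;> simp [rawBGate] at e <;> simp [e]

theorem rawC_inj {n : ℕ} : Function.Injective (rawC : BCircuit n → RawCirc) := by
  intro C D e
  obtain ⟨g, o⟩ := C
  obtain ⟨g', o'⟩ := D
  simp only [rawC, Prod.mk.injEq] at e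
  obtain ⟨e1, e2⟩ := e
  have := List.map_injective_iff.2 rawBGate_inj e1
  subst this e2
  rfl

theorem raw_inj : Function.Injective raw := by
  intro I J e
  obtain ⟨n, S, P⟩ := I
  obtain ⟨m, S', P'⟩ := J
  simp only [raw, Prod.mk.injEq] at e
  obtain ⟨rfl, e1, e2⟩ := e
  rw [rawC_inj e1, rawC_inj e2]

/-! ### decoding -/

/-- the gate of a raw gate -/
def unG (g : ℕ × ℕ × ℕ) : BGate :=
  if g.1 = 0 then .var g.2.1 else if g.1 = 1 then .and g.2.1 g.2.2
  else if g.1 = 2 then .or g.2.1 g.2.2 else .not g.2.1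

/-- a raw gate is the code of a well formed gate at position `t` -/
def okG (n t : ℕ) (g : ℕ × ℕ × ℕ) : Bool :=
  (decide (g.1 = 0) && decide (g.2.1 < n) && decide (g.2.2 = 0)) ||
  (decide (g.1 = 1) && decide (g.2.1 < t) && decide (g.2.2 < t)) ||
  (decide (g.1 = 2) && decide (g.2.1 < t) && decide (g.2.2 < t)) ||
  (decide (g.1 = 3) && decide (g.2.1 < t) && decide (g.2.2 = 0))

theorem okG_spec {n t : ℕ} {g : ℕ × ℕ × ℕ} (h : okG n t g = true) :
    rawBGate (unG g) = g ∧ (unG g).WF n t := by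
  obtain ⟨k, a, b⟩ := g
  simp only [okG, Bool.or_eq_true, Bool.and_eq_true, decide_eq_true_eq] at h
  rcases h with ((⟨⟨rfl, h1⟩, rfl⟩ | ⟨⟨rfl, h1⟩, h2⟩) | ⟨⟨rfl, h1⟩, h2⟩) | ⟨⟨rfl, h1⟩, rfl⟩ <;>
    simp [unG, rawBGate, BGate.WF, *]

theorem okG_raw {n t : ℕ} {g : BGate} (h : g.WF n t) : okG n t (rawBGate g) = true := by
  cases g <;> simp_all [okG, rawBGate, BGate.WF]

/-- all gates of a raw circuit are well formed -/
def okGs (n : ℕ) (gs : List (ℕ × ℕ × ℕ)) : Bool :=
  gs.zipIdx.all fun e => okG n e.2 e.1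

/-- a raw circuit is the code of a well formed circuit with `n` inputs and outputs -/
def okC (n : ℕ) (C : RawCirc) : Bool :=
  decide (C.2.length = n) && (C.2.all fun o => decide (o < C.1.length)) && okGs n C.1

theorem okGs_iff (n : ℕ) (gs : List (ℕ × ℕ × ℕ)) :
    okGs n gs = true ↔ ∀ t (h : t < gs.length), okG n t gs[t] = true := by
  unfold okGs
  rw [List.all_eq_true]
  constructor
  · intro h t ht
    exact h (gs[t], t) (by rw [List.mk_mem_zipIdx_iff_getElem?, List.getElem?_eq_getElem ht])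
  · intro h e he
    rw [List.mem_zipIdx_iff_getElem?, List.getElem?_eq_some_iff] at he
    obtain ⟨hi, e'⟩ := he
    have := h e.2 hi
    rwa [e'] at this

/-- the circuit of a raw circuit -/
def unC (n : ℕ) (C : RawCirc) : BCircuit n := ⟨C.1.map unG, C.2⟩

theorem okC_spec {n : ℕ} {C : RawCirc} (h : okC n C = true) :
    rawC (unC n C) = C ∧ (unC n C).WF := by
  obtain ⟨gs, os⟩ := C
  simp only [okC, Bool.and_eq_true, decide_eq_true_eq, List.all_eq_true] at h
  obtain ⟨⟨h1, h2⟩, h3⟩ := h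
  rw [okGs_iff] at h3
  constructor
  · simp only [rawC, unC, List.map_map, Prod.mk.injEq, and_true]
    apply List.ext_getElem
    · simp
    · intro i k1 k2
      simp only [List.getElem_map, Function.comp_apply]
      exact (okG_spec (h3 i k2)).1
  · refine ⟨h1, ?_, ?_⟩
    · intro o ho
      simpa [unC] using h2 o ho
    · intro t
      have ht : (t : ℕ) < gs.length := by simpa [unC] using t.2
      have := (okG_spec (h3 t ht)).2
      have e : (unC n (gs, os)).gates.get t = unG gs[(t : ℕ)] := by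
        rw [List.get_eq_getElem]
        exact List.getElem_map ..
      rw [e]
      exact this

theorem okC_raw {n : ℕ} {C : BCircuit n} (h : C.WF) : okC n (rawC C) = true := by
  obtain ⟨h1, h2, h3⟩ := h
  have k1 : decide ((rawC C).2.length = n) = true := decide_eq_true h1
  have k2 : ((rawC C).2.all fun o => decide (o < (rawC C).1.length)) = true := by
    rw [List.all_eq_true]
    intro o ho
    have : (rawC C).1.length = C.gates.length := List.length_map ..
    rw [this]
    exact decide_eq_true (h2 o ho)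
  have k3 : okGs n (rawC C).1 = true := by
    rw [okGs_iff]
    intro t ht
    have ht' : t < C.gates.length := by simpa [rawC] using ht
    have e : (rawC C).1[t] = rawBGate C.gates[t] := List.getElem_map ..
    rw [e]
    exact okG_raw (h3 ⟨t, ht'⟩)
  unfold okC
  rw [k1, k2, k3]
  rfl

/-! ### the check -/

/-- the zero name -/
def zer (C : RawCirc) : List Bool := C.2.map fun _ => false

/-- `E` is the code of a well formed instance -/
def wfB (E : EI) : Bool :=
  decide (1 ≤ E.1) && okC E.1 E.2.1 && okC E.1 E.2.2 &&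
  decide (evalC (E.2.2, zer E.2.1) = zer E.2.1) &&
  !(decide (evalC (E.2.1, zer E.2.1) = zer E.2.1)) &&
  decide (evalC (E.2.2, evalC (E.2.1, zer E.2.1)) = zer E.2.1)

theorem zer_eq {n : ℕ} {C : BCircuit n} (h : C.outs.length = n) :
    zer (rawC C) = List.ofFn (fun _ : Fin n => false) := by
  have e : zer (rawC C) = List.replicate C.outs.length false := by
    simp [zer, rawC, List.map_const']
  rw [e, h, List.ofFn_const]

theorem ofFn_inj' {n : ℕ} {u v : Fin n → Bool} : List.ofFn u = List.ofFn v ↔ u = v :=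
  List.ofFn_injective.eq_iff

theorem wfB_raw {I : EOL} : (wfB (raw I) = true ↔ I.WF) := by
  unfold wfB
  constructor
  · intro h
    simp only [Bool.and_eq_true, decide_eq_true_eq, Bool.not_eq_true', decide_eq_false_iff_not] at h
    obtain ⟨⟨⟨⟨⟨h1, h2⟩, h3⟩, h4⟩, h5⟩, h6⟩ := h
    have s1 := okC_spec h2
    have s2 := okC_spec h3
    have w1 : I.S.WF := by
      have : unC I.n (rawC I.S) = I.S := rawC_inj s1.1
      rw [← this]; exact s1.2
    have w2 : I.P.WF := by
      have : unC I.n (rawC I.P) = I.P := rawC_inj s2.1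
      rw [← this]; exact s2.2
    simp only [raw] at h4 h5 h6
    rw [zer_eq w1.1] at h4 h5 h6
    rw [evalC_rawC' I.P w2, ofFn_inj'] at h4
    rw [evalC_rawC' I.S w1, ofFn_inj'] at h5
    rw [evalC_rawC' I.S w1, evalC_rawC' I.P w2, ofFn_inj'] at h6
    exact ⟨h1, w1, w2, h4, h5, h6⟩
  · rintro ⟨h1, w1, w2, h4, h5, h6⟩
    simp only [Bool.and_eq_true, decide_eq_true_eq, Bool.not_eq_true', decide_eq_false_iff_not]
    refine ⟨⟨⟨⟨⟨h1, okC_raw w1⟩, okC_raw w2⟩, ?_⟩, ?_⟩, ?_⟩
    · simp only [raw]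
      rw [zer_eq w1.1, evalC_rawC' I.P w2, ofFn_inj']
      exact h4
    · simp only [raw]
      rw [zer_eq w1.1, evalC_rawC' I.S w1, ofFn_inj']
      exact h5
    · simp only [raw]
      rw [zer_eq w1.1, evalC_rawC' I.S w1, evalC_rawC' I.P w2, ofFn_inj']
      exact h6

/-- codes of well formed instances -/
abbrev WI := {E : EI // ∃ I : EOL, I.WF ∧ raw I = E}

theorem exists_of_wfB {E : EI} (h : wfB E = true) : ∃ I : EOL, I.WF ∧ raw I = E := by
  have h' := h
  unfold wfB at h'
  simp only [Bool.and_eq_true] at h'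
  obtain ⟨⟨⟨⟨⟨h1, h2⟩, h3⟩, h4⟩, h5⟩, h6⟩ := h'
  have e : raw ⟨E.1, unC E.1 E.2.1, unC E.1 E.2.2⟩ = E := by
    simp only [raw, (okC_spec h2).1, (okC_spec h3).1]
  refine ⟨⟨E.1, unC E.1 E.2.1, unC E.1 E.2.2⟩, ?_, e⟩
  rw [← wfB_raw, e]
  exact h

/-- a fixed well formed instance: `n = 1`, `S x = ¬ x`, `P x = x ∧ ¬ x` -/
def I0 : EOL where
  n := 1
  S := ⟨[.var 0, .not 0], [1]⟩
  P := ⟨[.var 0, .not 0, .and 0 1], [2]⟩

theorem I0_wf : I0.WF := by
  rw [← wfB_raw]
  decide

/-- the instance of a code -/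
noncomputable def inst (a : WI) : EOL := a.2.choose

theorem inst_wf (a : WI) : (inst a).WF := a.2.choose_spec.1

theorem raw_inst (a : WI) : raw (inst a) = a.1 := a.2.choose_spec.2

/-- the normalisation -/
def norm (E : EI) : WI :=
  if h : wfB E = true then ⟨E, exists_of_wfB h⟩ else ⟨raw I0, I0, I0_wf, rfl⟩

theorem norm_val (E : EI) : (norm E).1 = if wfB E = true then E else raw I0 := by
  unfold norm
  split_ifs <;> rfl

theorem norm_raw {I : EOL} (h : I.WF) : (norm (raw I)).1 = raw I := by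
  rw [norm_val, if_pos (wfB_raw.2 h)]

/-- the normalisation keeps well formed instances -/
theorem inst_norm {I : EOL} (h : I.WF) : inst (norm (raw I)) = I :=
  raw_inj (by rw [raw_inst, norm_raw h])

/-! ### polynomial time -/

variable {γ : Type} [PTCode γ]

theorem ptf_okG {n t : γ → ℕ} {g : γ → ℕ × ℕ × ℕ} (hn : PTF n) (ht : PTF t) (hg : PTF g) :
    PTF (fun c => okG (n c) (t c) (g c)) := by
  unfold okG
  have h1 : PTF (fun c => (g c).1) := PTF.comp PTF.fst hg
  have h2 : PTF (fun c => (g c).2.1) := PTF.comp (g := fun x : ℕ × ℕ × ℕ => x.2.1)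
    (by pt_prop) hg
  have h3 : PTF (fun c => (g c).2.2) := PTF.comp (g := fun x : ℕ × ℕ × ℕ => x.2.2)
    (by pt_prop) hg
  have e : ∀ k : ℕ, PTF (fun c => decide ((g c).1 = k)) := fun k => PTF.beq h1 (PTF.const k)
  have l2n : PTF (fun c => decide ((g c).2.1 < n c)) :=
    PTF.comp (g := fun p : ℕ × ℕ => decide (p.1 < p.2)) Arith.ptf_ltb (PTF.prodMk h2 hn)
  have l2t : PTF (fun c => decide ((g c).2.1 < t c)) :=
    PTF.comp (g := fun p : ℕ × ℕ => decide (p.1 < p.2)) Arith.ptf_ltb (PTF.prodMk h2 ht)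
  have l3t : PTF (fun c => decide ((g c).2.2 < t c)) :=
    PTF.comp (g := fun p : ℕ × ℕ => decide (p.1 < p.2)) Arith.ptf_ltb (PTF.prodMk h3 ht)
  have z3 : PTF (fun c => decide ((g c).2.2 = 0)) := PTF.beq h3 (PTF.const 0)
  exact PTF.or (PTF.or (PTF.or (PTF.and (PTF.and (e 0) l2n) z3) (PTF.and (PTF.and (e 1) l2t) l3t))
    (PTF.and (PTF.and (e 2) l2t) l3t)) (PTF.and (PTF.and (e 3) l2t) z3)

theorem ptf_okC {n : γ → ℕ} {C : γ → RawCirc} (hn : PTF n) (hC : PTF C) :
    PTF (fun c => okC (n c) (C c)) := by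
  have h1 : PTF (fun c => (C c).1) := PTF.comp PTF.fst hC
  have h2 : PTF (fun c => (C c).2) := PTF.comp PTF.snd hC
  have hl : PTF (fun c => (C c).1.length) := (PTU.length h1).toPTF
  have hl2 : PTF (fun c => (C c).2.length) := (PTU.length h2).toPTF
  refine PTF.and (PTF.and (PTF.beq hl2 hn) ?_) ?_
  · refine PTF.all (p := fun c o => decide (o < (C c).1.length)) h2 ?_
    exact PTF.comp (g := fun p : ℕ × ℕ => decide (p.1 < p.2)) Arith.ptf_ltb
      (PTF.prodMk PTF.snd (PTF.comp (g := fun c => (C c).1.length) hl PTF.fst))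
  · unfold okGs
    refine PTF.all (p := fun c (e : (ℕ × ℕ × ℕ) × ℕ) => okG (n c) e.2 e.1)
      (LayPTF328.ptf_zipIdx h1) ?_
    exact ptf_okG (n := fun p : γ × ((ℕ × ℕ × ℕ) × ℕ) => n p.1) (t := fun p => p.2.2)
      (g := fun p => p.2.1) (PTF.comp (g := n) hn PTF.fst) (by pt_prop) (by pt_prop)

theorem ptf_zer {C : γ → RawCirc} (hC : PTF C) : PTF (fun c => zer (C c)) := by
  unfold zer
  exact PTF.map (f := fun (_ : γ) (_ : ℕ) => false) (PTF.comp PTF.snd hC) (PTF.const false)

theorem ptf_wfB : PTF wfB := by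
  have hn : PTF (fun E : EI => E.1) := PTF.fst
  have hS : PTF (fun E : EI => E.2.1) := by pt_prop
  have hP : PTF (fun E : EI => E.2.2) := by pt_prop
  have hz := ptf_zer hS
  have hSz := PTF_evalC hS hz
  have hPz := PTF_evalC hP hz
  have hPSz := PTF_evalC hP hSz
  have h1 : PTF (fun E : EI => decide (1 ≤ E.1)) :=
    PTF.of_eq (PTF.comp (g := fun p : ℕ × ℕ => decide (p.1 < p.2)) Arith.ptf_ltb
      (PTF.prodMk (PTF.const 0) hn)) (fun E => by simp [Nat.one_le_iff_ne_zero, Nat.pos_iff_ne_zero])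
  exact PTF.and (PTF.and (PTF.and (PTF.and (PTF.and h1 (ptf_okC hn hS)) (ptf_okC hn hP))
    (PTF.beq hPz hz)) (PTF.not (PTF.beq hSz hz))) (PTF.beq hPSz hz)

/-- the code of an index is polynomial time -/
theorem ptf_val : PTF (fun a : WI => a.1) := by
  exact ⟨_, PT.id, fun _ => rfl⟩

/-- **the normalisation is polynomial time** -/
theorem ptf_norm : PTF norm := by
  have h : PTF (fun E : EI => (norm E).1) := by
    refine PTF.of_eq (PTF.cond ptf_wfB PTF.id (PTF.const (raw I0))) (fun E => ?_)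
    rw [norm_val]
    cases wfB E <;> rfl
  obtain ⟨g, hg, h⟩ := h
  exact ⟨g, hg, h⟩

end Crest.Agent.R289.NormEI109
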