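import Crest.Agent.R289.PTab_480

/-!
# R289: the normalisation `nrm` as a multiplicative map into the group `U hσ k 1`, digit lists,
words (helper480)
-/

set_option autoImplicit false
set_option linter.dupNamespace false
set_option linter.unusedSectionVars false

namespace Crest.Agent.R289.PTab480

open Crest.Agent.Lib.PT Crest.Agent.Lib.PT.Arith Crest.Agent.R288.PtDp115
open Crest.Agent.R289.Gauss115 Crest.Agent.R289.GkIdx594
open Crest.Agent.R289.SkewGrp877
open Finset

section norm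

variable {K : Type} [Field K] {σ : K →+* K} {k : ℕ}

/-- the central factor of the normalisation -/
def cen (e : ℕ) (b : R σ k) : R σ k := (b * conj b) ^ e

theorem nrm_eq (e : ℕ) (b : R σ k) : nrm e b = b * cen e b := rfl

theorem cen_fixed (hσ : ∀ x, σ (σ x) = x) (e : ℕ) (b : R σ k) : conj (cen e b) = cen e b :=
  conj_pow_fixed hσ (norm_fixed hσ b) e

theorem cen_comm (h2 : (2 : K) ≠ 0) (hσ : ∀ x, σ (σ x) = x) (e : ℕ) (b g : R σ k) :
    cen e b * g = g * cen e b := fixed_central h2 hσ (cen_fixed hσ e b) g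

theorem norm_mul (h2 : (2 : K) ≠ 0) (hσ : ∀ x, σ (σ x) = x) (a b : R σ k) :
    (a * b) * conj (a * b) = (a * conj a) * (b * conj b) := by
  have h := fixed_central h2 hσ (norm_fixed hσ b) (conj a)
  rw [conj_mul hσ]
  calc a * b * (conj b * conj a) = a * ((b * conj b) * conj a) := by noncomm_ring
    _ = a * (conj a * (b * conj b)) := by rw [h]
    _ = _ := by noncomm_ring

theorem cen_mul (h2 : (2 : K) ≠ 0) (hσ : ∀ x, σ (σ x) = x) (e : ℕ) (a b : R σ k) :
    cen e (a * b) = cen e a * cen e b := by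
  unfold cen
  rw [norm_mul h2 hσ]
  exact Commute.mul_pow (fixed_central h2 hσ (norm_fixed hσ a) _) e

theorem nrm_mul (h2 : (2 : K) ≠ 0) (hσ : ∀ x, σ (σ x) = x) (e : ℕ) (a b : R σ k) :
    nrm e (a * b) = nrm e a * nrm e b := by
  rw [nrm_eq, nrm_eq, nrm_eq, cen_mul h2 hσ]
  have h := cen_comm h2 hσ e a b
  calc a * b * (cen e a * cen e b) = a * (b * cen e a) * cen e b := by noncomm_ring
    _ = a * (cen e a * b) * cen e b := by rw [h]
    _ = _ := by noncomm_ring

theorem nrm_one (e : ℕ) : nrm e (1 : R σ k) = 1 := by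
  unfold nrm
  rw [conj_one, mul_one, one_pow, one_mul]

/-- `nrm` depends on the norm only through the central factor; an element of norm one is not
changed -/
theorem nrm_of_norm_one {b : R σ k} (hb : b * conj b = 1) (e : ℕ) : nrm e b = b := by
  unfold nrm
  rw [hb, one_pow, mul_one]

/-- the exponent -/
def eN (p k : ℕ) : ℕ := (p ^ (k + 1) - 1) / 2

theorem two_eN {p : ℕ} (hp : p % 2 = 1) (k : ℕ) : 2 * eN p k + 1 = p ^ (k + 1) := by
  have h1 : p ^ (k + 1) % 2 = 1 := by
    have := Odd.pow (n := k + 1) (Nat.odd_iff.2 hp)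
    exact Nat.odd_iff.1 this
  unfold eN
  omega

theorem lt_pow_succ {p : ℕ} (hp : 1 < p) (k : ℕ) : k < p ^ (k + 1) :=
  (Nat.lt_succ_self k).trans (Nat.lt_pow_self hp)

variable (p : ℕ)

/-- the normalised element as an element of the group `U hσ k 1` -/
def nrmP [Finite K] [Fact p.Prime] [CharP K p] (h2 : (2 : K) ≠ 0) (hp : p % 2 = 1)
    (hσ : ∀ x, σ (σ x) = x) (b : R σ k) (hb : J 1 (b - 1)) : U hσ k 1 :=
  have h1 : nrm (eN p k) b * conj (nrm (eN p k) b) = 1 :=
    nrm_mul_conj h2 hσ hb (lt_pow_succ (Fact.out : p.Prime).one_lt k) (two_eN hp k)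
  ⟨⟨nrm (eN p k) b, conj (nrm (eN p k) b), h1, mul_eq_one_comm.1 h1⟩, h1, J_one_nrm hb _⟩

theorem nrmP_val [Finite K] [Fact p.Prime] [CharP K p] (h2 : (2 : K) ≠ 0) (hp : p % 2 = 1)
    (hσ : ∀ x, σ (σ x) = x) (b : R σ k) (hb : J 1 (b - 1)) :
    ((nrmP p h2 hp hσ b hb : (R σ k)ˣ) : R σ k) = nrm (eN p k) b := rfl

theorem nrmP_mul [Finite K] [Fact p.Prime] [CharP K p] (h2 : (2 : K) ≠ 0) (hp : p % 2 = 1)
    (hσ : ∀ x, σ (σ x) = x) (a b : R σ k) (ha : J 1 (a - 1)) (hb : J 1 (b - 1)) :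
    nrmP p h2 hp hσ (a * b) (J_one_mul ha hb) = nrmP p h2 hp hσ a ha * nrmP p h2 hp hσ b hb :=
  Subtype.ext (Units.ext (nrm_mul h2 hσ _ a b))

theorem nrmP_of_mem [Finite K] [Fact p.Prime] [CharP K p] (h2 : (2 : K) ≠ 0) (hp : p % 2 = 1)
    (hσ : ∀ x, σ (σ x) = x) (u : U hσ k 1) :
    nrmP p h2 hp hσ ((u : (R σ k)ˣ) : R σ k) u.2.2 = u :=
  Subtype.ext (Units.ext (nrm_of_norm_one u.2.1 _))

/-- digit list of the normalised element -/
def nrmL (σ : K →+* K) (p k : ℕ) (l : List K) : List K :=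
  lmul σ k l (lpow σ k (lmul σ k l (lconj σ k l)) (eN p k))

theorem toL_nrm (hσ : ∀ x, σ (σ x) = x) (b : R σ k) :
    toL (nrm (eN p k) b) = nrmL σ p k (toL b) := by
  unfold nrm nrmL
  rw [toL_mul hσ, toL_pow hσ, toL_mul hσ, toL_conj hσ]

theorem toP_nrmP [Finite K] [Fact p.Prime] [CharP K p] (h2 : (2 : K) ≠ 0) (hp : p % 2 = 1)
    (hσ : ∀ x, σ (σ x) = x) (b : R σ k) (hb : J 1 (b - 1)) :
    toP (nrmP p h2 hp hσ b hb) = nrmL σ p k (toL b) := toL_nrm p hσ b

/-- padding / truncation of a list of coefficients -/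
def trunc (k : ℕ) (l : List K) : List K := tabK (k + 1) (getK l)

theorem toL_ofL_trunc (l : List K) : toL (ofL σ k l) = trunc k l := by
  refine list_ext (length_toL _) (length_tabK _ _) fun n hn => ?_
  rw [getK_toL _ (by omega)]
  unfold ofL trunc
  rw [c_mk _ (by omega), getK_tabK _ hn]

theorem J_one_ofL (l : List K) : J 1 (ofL σ k (1 :: l) - 1) := by
  intro n hn
  have : n = 0 := by omega
  subst this
  rw [c_sub, c_one (Nat.zero_le _), if_pos rfl]
  unfold ofL
  rw [c_mk _ (Nat.zero_le _)]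
  simp [getK]

end norm

/-! ### words -/

section words

variable {K : Type} [Field K] [Finite K] {σ : K →+* K} {k : ℕ}

/-- product of a list of digit lists -/
def lprod (σ : K →+* K) (k : ℕ) (ls : List (List K)) : List K :=
  ls.foldl (fun t l => lmul σ k t l) (lone K k)

theorem lprod_aux (hσ : ∀ x, σ (σ x) = x) (us : List (U hσ k 1)) (v : U hσ k 1) :
    (us.map toP).foldl (fun t l => lmul σ k t l) (toP v) = toP (v * us.prod) := by
  induction us generalizing v with
  | nil => simp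
  | cons u us ih =>
    rw [List.map_cons, List.foldl_cons, ← toP_mul hσ, ih, List.prod_cons, mul_assoc]

theorem lprod_map (hσ : ∀ x, σ (σ x) = x) (us : List (U hσ k 1)) :
    lprod σ k (us.map toP) = toP us.prod := by
  unfold lprod
  rw [← toP_one hσ, lprod_aux hσ, one_mul]

@[simp] theorem length_lprod (ls : List (List K)) : (lprod σ k ls).length = k + 1 := by
  unfold lprod
  suffices h : ∀ (ls : List (List K)) (t : List K), t.length = k + 1 →
      (ls.foldl (fun t l => lmul σ k t l) t).length = k + 1 from h ls _ (length_lone k)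
  intro ls
  induction ls with
  | nil => intro t ht; exact ht
  | cons l ls ih => intro t _; exact ih _ (length_lmul _ _)

end words

section pt

variable {K : Type} [Field K] [Finite K] [PTCode K]
variable {α : Type} [PTCode α] {σ : K →+* K} {k : α → ℕ}

theorem ptf_trunc (hk : PTU k) {l : α → List K} (hl : PTF l) :
    PTF (fun a => trunc (k a) (l a)) := by
  unfold trunc
  exact ptf_tabK (PTU.succ hk) (ptf_getK (PTF.comp (g := l) hl PTF.fst) PTF.snd)

theorem ptu_eN (hk : PTU k) (hN : PTU fun a => qK K ^ (k a + 1)) {p : ℕ} (hp : p ≤ qK K) :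
    PTU (fun a => eN p (k a)) := by
  have h1 : PTF (fun a => (p ^ (k a + 1) - 1) / 2) :=
    PTF.natDiv (PTF.natSub (PTF.natPow (PTF.const p) (PTU.succ hk)) (PTF.const 1)) (PTF.const 2)
  refine PTF.toPTU h1 (hN.pb.mono fun a => ?_)
  have h2 : p ^ (k a + 1) ≤ qK K ^ (k a + 1) := Nat.pow_le_pow_left hp _
  change (p ^ (k a + 1) - 1) / 2 ≤ _
  omega

theorem ptf_nrmL [Inhabited K] (hk : PTU k) (hN : PTU fun a => qK K ^ (k a + 1)) {p : ℕ}
    (hp : p ≤ qK K) {l : α → List K} (hl : PTF l) : PTF (fun a => nrmL σ p (k a) (l a)) :=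
  ptf_lmul hk hl (ptf_lpow hk (ptf_lmul hk hl (ptf_lconj hk hl)) (ptu_eN hk hN hp))

theorem ptf_lprod [Inhabited K] (hk : PTU k) {ls : α → List (List K)} (hl : PTF ls) :
    PTF (fun a => lprod σ (k a) (ls a)) := by
  obtain ⟨C, hC⟩ := exists_sz_le K
  have hb : ∀ (a : α) (l : List K), l.length = k a + 1 → sz l ≤ (k a + 1) * (2 * C + 1) := by
    intro a l h
    refine (sz_list_le (m := C) (fun x _ => hC x)).trans ?_
    rw [h]
  unfold lprod
  refine PTF.foldl (f := fun (a : α) (t l : List K) => lmul σ (k a) t l)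
    (b := fun a => lone K (k a)) hl ?_ (ptf_lone hk) (B := fun a => (k a + 1) * (2 * C + 1)) ?_
    (fun a i _ => ?_)
  · exact ptf_lmul (k := fun p : α × List K × List K => k p.1) (PTU.comp (n := k) hk PTF.fst)
      (by fun_prop) (by fun_prop)
  · have h1 := hk.pb
    fun_prop
  · exact hb a _ (length_lprod (σ := σ) _)

end pt

end Crest.Agent.R289.PTab480
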