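import Crest.Agent.R289.SkewDim_877

/-!
# Truncation `R σ k → R σ k'` and the tower of norm-one groups (row 289, block B)
-/

namespace Crest.Agent.R289.SkewGrp877

open Finset

section trunc

variable {K : Type*} [Field K] {σ : K →+* K} {k k' : ℕ}

/-- truncation modulo `τ^(k'+1)`. -/
def tr (σ : K →+* K) (hk : k' ≤ k) : R σ k →+* R σ k' where
  toFun f := mk (c f)
  map_zero' := by
    refine ext' fun n hn => ?_
    rw [c_mk _ hn, c_zero, c_zero]
  map_one' := by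
    refine ext' fun n hn => ?_
    rw [c_mk _ hn, c_one (hn.trans hk), c_one hn]
  map_add' f g := by
    refine ext' fun n hn => ?_
    rw [c_mk _ hn, c_add, c_add, c_mk _ hn, c_mk _ hn]
  map_mul' f g := by
    refine ext' fun n hn => ?_
    rw [c_mk _ hn, c_mul _ _ (hn.trans hk), c_mul _ _ hn]
    refine Finset.sum_congr rfl fun p hp => ?_
    rw [HasAntidiagonal.mem_antidiagonal] at hp
    rw [c_mk _ (by omega), c_mk _ (by omega)]

lemma c_tr (hk : k' ≤ k) (f : R σ k) {n : ℕ} (hn : n ≤ k') : c (tr σ hk f) n = c f n := by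
  change c (mk (c f) : R σ k') n = c f n
  exact c_mk _ hn

lemma tr_eq_iff (hk : k' ≤ k) (f g : R σ k) : tr σ hk f = tr σ hk g ↔ J (k' + 1) (f - g) := by
  constructor
  · intro h n hn
    rw [c_sub, ← c_tr hk f (by omega), ← c_tr hk g (by omega), h, sub_self]
  · intro h
    refine ext' fun n hn => ?_
    have := h n (by omega)
    rw [c_sub] at this
    rw [c_tr hk f hn, c_tr hk g hn]
    exact sub_eq_zero.mp this

lemma J_tr (hk : k' ≤ k) {i : ℕ} {f : R σ k} (hf : J i f) : J i (tr σ hk f) := by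
  intro n hn
  by_cases h : n ≤ k'
  · rw [c_tr hk f h]; exact hf n hn
  · exact c_gt _ (by omega)

lemma tr_conj (hk : k' ≤ k) (f : R σ k) : tr σ hk (conj f) = conj (tr σ hk f) := by
  refine ext' fun n hn => ?_
  rw [c_tr hk _ hn, c_conj _ hn, c_conj _ (hn.trans hk), c_tr hk _ hn]

/-- truncation of units. -/
def trU (σ : K →+* K) (hk : k' ≤ k) : (R σ k)ˣ →* (R σ k')ˣ := Units.map (tr σ hk : R σ k →* R σ k')

lemma val_trU (hk : k' ≤ k) (u : (R σ k)ˣ) :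
    ((trU σ hk u : (R σ k')ˣ) : R σ k') = tr σ hk (u : R σ k) := rfl

variable (hσ : ∀ x, σ (σ x) = x)
include hσ

lemma trU_SG (hk : k' ≤ k) {u : (R σ k)ˣ} (hu : u ∈ SG hσ k) : trU σ hk u ∈ SG hσ k' := by
  rw [mem_SG hσ, val_trU, ← tr_conj, ← map_mul, (mem_SG hσ).mp hu, map_one]

lemma trU_U (hk : k' ≤ k) {i : ℕ} {u : (R σ k)ˣ} (hu : u ∈ U hσ k i) :
    trU σ hk u ∈ U hσ k' i := by
  refine ⟨trU_SG hσ hk hu.1, ?_⟩
  rw [val_trU, ← map_one (tr σ hk), ← map_sub]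
  exact J_tr hk hu.2

/-- the kernel of truncation. -/
lemma trU_eq_one_iff (hk : k' ≤ k) {u : (R σ k)ˣ} (hu : u ∈ SG hσ k) :
    trU σ hk u = 1 ↔ u ∈ U hσ k (k' + 1) := by
  rw [Units.ext_iff, val_trU, Units.val_one, ← map_one (tr σ hk), tr_eq_iff]
  exact ⟨fun h => ⟨hu, h⟩, fun h => h.2⟩

/-- `U i` is mapped onto `U i`. -/
lemma trU_surj (hk : k' ≤ k) (h2 : (2 : K) ≠ 0) {i : ℕ} (hi : 1 ≤ i) {v : (R σ k')ˣ}
    (hv : v ∈ U hσ k' i) : ∃ u ∈ U hσ k i, trU σ hk u = v := by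
  have key : ∀ t i, 1 ≤ i → k' + 1 - i ≤ t → ∀ v ∈ U hσ k' i, ∃ u ∈ U hσ k i, trU σ hk u = v := by
    intro t
    induction t with
    | zero =>
      intro i hi ht v hv
      have : v = 1 := U_top hσ (U_mono hσ (by omega) hv)
      exact ⟨1, (U hσ k i).one_mem, by rw [map_one, this]⟩
    | succ t ih =>
      intro i hi ht v hv
      by_cases hik : i ≤ k'
      · obtain ⟨a, ha, hlead⟩ := exists_lead hσ h2 (k := k) hi (hik.trans hk)
          (lead_mem hσ hi hik hv)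
        have ha' := trU_U hσ hk ha
        have hla : c (((trU σ hk a : (R σ k')ˣ) : R σ k') - 1) i = c ((v : R σ k') - 1) i := by
          rw [← hlead, val_trU, ← map_one (tr σ hk), ← map_sub, c_tr hk _ hik]
        have hw : v * (trU σ hk a)⁻¹ ∈ U hσ k' (i + 1) := by
          refine ⟨((U hσ k' i).mul_mem hv ((U hσ k' i).inv_mem ha')).1, ?_⟩
          intro n hn
          by_cases h : n < i
          · exact ((U hσ k' i).mul_mem hv ((U hσ k' i).inv_mem ha')).2 n h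
          · have hni : n = i := by omega
            rw [hni, lead_mul hσ hi hv ((U hσ k' i).inv_mem ha'), lead_inv hσ hi ha', hla,
              add_neg_cancel]
        obtain ⟨b, hb, hbv⟩ := ih (i + 1) (by omega) (by omega) _ hw
        refine ⟨b * a, (U hσ k i).mul_mem (U_mono hσ (Nat.le_succ i) hb) ha, ?_⟩
        rw [map_mul, hbv, inv_mul_cancel_right]
      · have : v = 1 := U_top hσ (U_mono hσ (by omega) hv)
        exact ⟨1, (U hσ k i).one_mem, by rw [map_one, this]⟩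
  exact key _ i hi le_rfl v hv

/-- `SG` is mapped onto `SG`. -/
lemma trU_surj_SG (hk : k' ≤ k) (h2 : (2 : K) ≠ 0) {v : (R σ k')ˣ}
    (hv : v ∈ SG hσ k') : ∃ u ∈ SG hσ k, trU σ hk u = v := by
  set x := c (v : R σ k') 0 with hx
  have hx1 : x * σ x = 1 := const_SG hσ hv
  have ht : trU σ hk (tor k x hx1) = tor k' x hx1 := by
    refine Units.ext ?_
    rw [val_trU]
    change tr σ hk (mono 0 x) = mono 0 x
    refine ext' fun n hn => ?_
    rw [c_tr hk _ hn, c_mono _ _ hn, c_mono _ _ (hn.trans hk)]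
  have hw : (tor k' x hx1)⁻¹ * v ∈ U hσ k' 1 := by
    refine ⟨(SG hσ k').mul_mem ((SG hσ k').inv_mem (tor_mem hσ x hx1)) hv, ?_⟩
    intro n hn
    have hn0 : n = 0 := by omega
    subst hn0
    rw [c_sub, Units.val_mul]
    have h1 := map_mul (const σ k') (((tor k' x hx1)⁻¹ : (R σ k')ˣ) : R σ k') (v : R σ k')
    rw [const_apply, const_apply, const_apply] at h1
    rw [h1]
    change c (mono 0 (σ x) : R σ k') 0 * c (v : R σ k') 0 - c (1 : R σ k') 0 = 0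
    rw [c_mono _ _ (Nat.zero_le _), if_pos rfl, c_one (Nat.zero_le _), if_pos rfl, ← hx, mul_comm,
      hx1, sub_self]
  obtain ⟨u, hu, huv⟩ := trU_surj hσ hk h2 le_rfl hw
  refine ⟨tor k x hx1 * u, (SG hσ k).mul_mem (tor_mem hσ x hx1) hu.1, ?_⟩
  rw [map_mul, ht, huv, mul_inv_cancel_left]

/-- truncation `SG k →* SG k'`. -/
def trSG (hk : k' ≤ k) : SG hσ k →* SG hσ k' :=
  ((trU σ hk).comp (SG hσ k).subtype).codRestrict (SG hσ k') fun u => trU_SG hσ hk u.2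

lemma trSG_surjective (hk : k' ≤ k) (h2 : (2 : K) ≠ 0) :
    Function.Surjective (trSG hσ hk) := by
  rintro ⟨v, hv⟩
  obtain ⟨u, hu, huv⟩ := trU_surj_SG hσ hk h2 hv
  exact ⟨⟨u, hu⟩, Subtype.ext huv⟩

lemma trSG_eq_one_iff (hk : k' ≤ k) (u : SG hσ k) :
    trSG hσ hk u = 1 ↔ (u : (R σ k)ˣ) ∈ U hσ k (k' + 1) := by
  rw [← trU_eq_one_iff hσ hk u.2, Subtype.ext_iff]
  rfl

/-- truncation `U k i →* U k' i`. -/
def trUU (hk : k' ≤ k) (i : ℕ) : U hσ k i →* U hσ k' i :=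
  ((trU σ hk).comp (U hσ k i).subtype).codRestrict (U hσ k' i) fun u => trU_U hσ hk u.2

lemma trUU_surjective (hk : k' ≤ k) (h2 : (2 : K) ≠ 0) {i : ℕ} (hi : 1 ≤ i) :
    Function.Surjective (trUU hσ hk i) := by
  rintro ⟨v, hv⟩
  obtain ⟨u, hu, huv⟩ := trU_surj hσ hk h2 hi hv
  exact ⟨⟨u, hu⟩, Subtype.ext huv⟩

lemma trUU_eq_one_iff (hk : k' ≤ k) (i : ℕ) (u : U hσ k i) :
    trUU hσ hk i u = 1 ↔ (u : (R σ k)ˣ) ∈ U hσ k (k' + 1) := by
  rw [← trU_eq_one_iff hσ hk u.2.1, Subtype.ext_iff]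
  rfl

/-- conjugation permutes the layer `U i`. -/
def conjEquiv (i : ℕ) (g : SG hσ k) : U hσ k i ≃ U hσ k i where
  toFun z := ⟨(g : (R σ k)ˣ) * z * (g : (R σ k)ˣ)⁻¹, U_conj hσ g.2 z.2⟩
  invFun z := ⟨((g⁻¹ : SG hσ k) : (R σ k)ˣ) * z * (((g⁻¹ : SG hσ k) : (R σ k)ˣ))⁻¹,
    U_conj hσ (g⁻¹ : SG hσ k).2 z.2⟩
  left_inv z := by
    refine Subtype.ext ?_
    change ((g : (R σ k)ˣ))⁻¹ * ((g : (R σ k)ˣ) * z * (g : (R σ k)ˣ)⁻¹) *
      (((g : (R σ k)ˣ))⁻¹)⁻¹ = z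
    group
  right_inv z := by
    refine Subtype.ext ?_
    change (g : (R σ k)ˣ) * (((g : (R σ k)ˣ))⁻¹ * z * (((g : (R σ k)ˣ))⁻¹)⁻¹) *
      (g : (R σ k)ˣ)⁻¹ = z
    group

/-- the inclusion `U i → SG`. -/
def inclSG (i : ℕ) : U hσ k i →* SG hσ k := Subgroup.inclusion (U_one_le_SG hσ)

lemma incl_conj (i : ℕ) (g : SG hσ k) (z : U hσ k i) :
    g * inclSG hσ i z = inclSG hσ i (conjEquiv hσ i g z) * g := by
  refine Subtype.ext ?_
  change (g : (R σ k)ˣ) * z = (g : (R σ k)ˣ) * z * (g : (R σ k)ˣ)⁻¹ * g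
  rw [inv_mul_cancel_right]

end trunc

end Crest.Agent.R289.SkewGrp877
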