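import Crest.Agent.R289.FacB_281
import Crest.Agent.R289.ExpTr_820
import Crest.Agent.R289.PTabW_480
import Crest.Agent.R289.SkewTr_877
import Crest.Agent.R289.TPgrpB_547

/-!
Row 289, block B, TP4b: the multiplicative normalisation `nu : Sk σ → U hσ k 1`
(truncation of `ExpTr_820`, norm one by `PTabW_480`), the steps `a i = nu (be x (sec i))` of the
two-place square complex and their relation.
-/

set_option autoImplicit false
set_option linter.unusedSectionVars false
set_option linter.unusedVariables false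

namespace Crest.Agent.R289.Nu547

open Polynomial Crest.Agent.R289.Exp820 Crest.Agent.R289.Exp820.Sk Crest.Agent.R289.SkewGrp877
  Crest.Agent.R289.PTab480 Crest.Agent.R289.Mob459

section ring

variable {K : Type} [Field K] {σ : K →+* K} {k : ℕ}

theorem tr_J {r : Sk σ} (hr : r.re.coeff 0 = 1) : J 1 (Exp820.tr k r - 1) := by
  intro n hn
  have hn0 : n = 0 := by omega
  subst hn0
  rw [c_sub, Exp820.c_tr _ (Nat.zero_le _), c_one (Nat.zero_le _), if_pos rfl,
    show (0 : ℕ) = 2 * 0 by rfl, cf_even, hr, sub_self]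

theorem coeff_mul_zero {r s : Sk σ} (hr : r.re.coeff 0 = 1) (hs : s.re.coeff 0 = 1) :
    (r * s).re.coeff 0 = 1 := by
  rw [Sk.mul_re, coeff_add, mul_coeff_zero, mul_assoc, mul_coeff_zero, coeff_X_zero, zero_mul,
    add_zero, hr, hs, one_mul]

theorem coeff_conj_zero {r : Sk σ} (hr : r.re.coeff 0 = 1) : (Sk.conj r).re.coeff 0 = 1 := by
  change (sg σ r.re).coeff 0 = 1
  rw [sg_coeff, hr, map_one]

/-- elements fixed by the conjugation with constant term one are `Cen` -/
theorem cen_of_fixed (h2 : (2 : K) ≠ 0) (hσ : ∀ x, σ (σ x) = x) {f : R σ k}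
    (h : SkewGrp877.conj f = f) (h0 : J 1 (f - 1)) : TPgrp547.Cen f := by
  refine ⟨?_, fun n hn => fixed_coeff h2 hσ h hn⟩
  have := h0 0 (by omega)
  rw [c_sub, c_one (Nat.zero_le _), if_pos rfl] at this
  exact sub_eq_zero.1 this

theorem Cen_cen (h2 : (2 : K) ≠ 0) (hσ : ∀ x, σ (σ x) = x) (e : ℕ) {b : R σ k}
    (hb : J 1 (b - 1)) : TPgrp547.Cen (cen e b) :=
  cen_of_fixed h2 hσ (cen_fixed hσ e b) (J_one_pow (J_one_mul hb (J_one_conj hb)) e)

/-- uniqueness of the central square root of the inverse norm -/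
theorem Cen_unique (h2 : (2 : K) ≠ 0) (hσ : ∀ x, σ (σ x) = x) {f g n : R σ k}
    (hf : TPgrp547.Cen f) (hg : TPgrp547.Cen g) (hn : TPgrp547.Cen n) (e1 : f * f * n = 1)
    (e2 : g * g * n = 1) : f = g := by
  have h1 : n * (f * f - g * g) = 0 := by
    rw [mul_sub, hn.comm hσ (f * f), hn.comm hσ (g * g), e1, e2, sub_self]
  have h3 := TPgrp547.cancel (by rw [hn.1]; exact one_ne_zero) h1
  have h4 : (f + g) * (f - g) = 0 := by
    rw [mul_sub, add_mul, add_mul, hf.comm hσ g]
    rw [← h3]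
    abel
  have h5 := TPgrp547.cancel (by rw [c_add, hf.1, hg.1, one_add_one_eq_two]; exact h2) h4
  exact sub_eq_zero.1 h5

theorem cen_sq (h2 : (2 : K) ≠ 0) (hσ : ∀ x, σ (σ x) = x) {p : ℕ} [Fact p.Prime] [CharP K p]
    {b : R σ k} (hb : J 1 (b - 1)) {r e : ℕ} (hr : k < p ^ r) (he : 2 * e + 1 = p ^ r) :
    cen e b * cen e b * (b * SkewGrp877.conj b) = 1 := by
  unfold cen
  rw [← pow_add, ← two_mul, ← pow_succ, he]
  exact pow_char (J_one_mul hb (J_one_conj hb)) hr

end ring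

section nu

variable {K : Type} [Field K] [Finite K] {σ : K →+* K} (p : ℕ) [Fact p.Prime] [CharP K p]
  (h2 : (2 : K) ≠ 0) (hp : p % 2 = 1) (hσ : ∀ x, σ (σ x) = x) (k : ℕ)

open Classical in
/-- **normalisation** of an element with constant term one: truncation times the central square
root of the inverse norm -/
noncomputable def nu (r : Sk σ) : U hσ k 1 :=
  if h : r.re.coeff 0 = 1 then nrmP p h2 hp hσ (Exp820.tr k r) (tr_J h) else 1

variable {p h2 hp hσ k}

theorem nu_eq {r : Sk σ} (h : r.re.coeff 0 = 1) :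
    nu p h2 hp hσ k r = nrmP p h2 hp hσ (Exp820.tr k r) (tr_J h) := dif_pos h

theorem nu_val {r : Sk σ} (h : r.re.coeff 0 = 1) :
    ((nu p h2 hp hσ k r : (R σ k)ˣ) : R σ k) = nrm (eN p k) (Exp820.tr k r) := by
  rw [nu_eq h, nrmP_val]

theorem nu_mul {r s : Sk σ} (hr : r.re.coeff 0 = 1) (hs : s.re.coeff 0 = 1) :
    nu p h2 hp hσ k (r * s) = nu p h2 hp hσ k r * nu p h2 hp hσ k s := by
  apply Subtype.ext
  apply Units.ext
  rw [nu_val (coeff_mul_zero hr hs), Subgroup.coe_mul, Units.val_mul, nu_val hr, nu_val hs,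
    Exp820.tr_mul hσ, nrm_mul h2 hσ]

theorem one_coeff_zero : (1 : Sk σ).re.coeff 0 = 1 := by
  rw [Sk.one_re, coeff_one_zero]

theorem nu_one : nu p h2 hp hσ k (1 : Sk σ) = 1 := by
  apply Subtype.ext
  apply Units.ext
  rw [nu_val one_coeff_zero, Exp820.tr_one, nrm_one]
  rfl

/-- elements of norm one are only truncated -/
theorem nu_of_norm_one {r : Sk σ} (hr : r.re.coeff 0 = 1) (h : r * Sk.conj r = 1) :
    ((nu p h2 hp hσ k r : (R σ k)ˣ) : R σ k) = Exp820.tr k r := by
  rw [nu_val hr, nrm_of_norm_one]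
  rw [← Exp820.tr_conj hσ, ← Exp820.tr_mul hσ, h, Exp820.tr_one]

/-- central elements are killed -/
theorem nu_central {P : K[X]} (hP : sg σ P = P) (h0 : P.coeff 0 = 1) :
    nu p h2 hp hσ k (⟨P, 0⟩ : Sk σ) = 1 := by
  have hc : Sk.conj (⟨P, 0⟩ : Sk σ) = ⟨P, 0⟩ := by
    apply Sk.ext
    · exact hP
    · exact neg_zero
  apply Subtype.ext
  apply Units.ext
  rw [nu_val h0]
  set f : R σ k := Exp820.tr k (⟨P, 0⟩ : Sk σ) with hf
  have hcf : SkewGrp877.conj f = f := by rw [hf, ← Exp820.tr_conj hσ, hc]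
  have hJ : J 1 (f - 1) := tr_J h0
  unfold nrm
  rw [hcf, ← pow_two, ← pow_mul, ← pow_succ', two_eN hp k]
  exact pow_char hJ (lt_pow_succ (Fact.out : p.Prime).one_lt k)

theorem mul_conj_eq (hσ : ∀ x, σ (σ x) = x) (r : Sk σ) : r * Sk.conj r = ⟨N r, 0⟩ := by
  apply Sk.ext
  · simp only [Sk.mul_re, Sk.conj, N, map_neg]
    ring
  · simp only [Sk.mul_im, Sk.conj, sg_sg hσ]
    ring

theorem N_coeff_zero {r : Sk σ} (hr : r.re.coeff 0 = 1) : (N r).coeff 0 = 1 := by
  rw [N, coeff_sub, mul_coeff_zero, mul_assoc, mul_coeff_zero, coeff_X_zero, zero_mul, sub_zero,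
    sg_coeff, hr, map_one, one_mul]

theorem sg_N' (hσ : ∀ x, σ (σ x) = x) (r : Sk σ) : sg σ (N r) = N r := Fac281.sg_N hσ r

/-- conjugation gives the inverse -/
theorem nu_conj {r : Sk σ} (hr : r.re.coeff 0 = 1) :
    nu p h2 hp hσ k (Sk.conj r) = (nu p h2 hp hσ k r)⁻¹ := by
  rw [eq_inv_iff_mul_eq_one, ← nu_mul (coeff_conj_zero hr) hr]
  have h : Sk.conj r * r = ⟨N r, 0⟩ := by
    have h1 := mul_conj_eq hσ (Sk.conj r)
    rwa [FacB281.conj_conj hσ, FacB281.N_conj hσ] at h1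
  rw [h]
  exact nu_central (sg_N' hσ r) (N_coeff_zero hr)

/-- `nu` of an element times a central element -/
theorem nu_mul_central {r : Sk σ} (hr : r.re.coeff 0 = 1) {P : K[X]} (hP : sg σ P = P)
    (h0 : P.coeff 0 = 1) : nu p h2 hp hσ k (r * ⟨P, 0⟩) = nu p h2 hp hσ k r := by
  rw [nu_mul hr h0, nu_central hP h0, mul_one]

/-- **quotients of elements with the same norm are only truncated** -/
theorem nu_same_norm {r s : Sk σ} (hr : r.re.coeff 0 = 1) (hs : s.re.coeff 0 = 1)
    (h : N r = N s) :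
    Exp820.tr k r * ((nu p h2 hp hσ k s : (R σ k)ˣ) : R σ k) =
      ((nu p h2 hp hσ k r : (R σ k)ˣ) : R σ k) * Exp820.tr k s := by
  have e1 : Exp820.tr k r * SkewGrp877.conj (Exp820.tr k r) =
      Exp820.tr k s * SkewGrp877.conj (Exp820.tr (σ := σ) k s) := by
    rw [← Exp820.tr_conj hσ, ← Exp820.tr_mul hσ, ← Exp820.tr_conj hσ, ← Exp820.tr_mul hσ,
      mul_conj_eq hσ, mul_conj_eq hσ, h]
  have e2 : cen (eN p k) (Exp820.tr k r) = cen (eN p k) (Exp820.tr (σ := σ) k s) := by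
    unfold cen
    rw [e1]
  rw [nu_val hr, nu_val hs, nrm_eq, nrm_eq, ← e2, mul_assoc (Exp820.tr k r) (cen _ _),
    cen_comm h2 hσ]

/-- compatibility with 877's truncation maps -/
theorem nu_trunc {k' : ℕ} (hk : k' ≤ k) (r : Sk σ) :
    trUU hσ hk 1 (nu p h2 hp hσ k r) = nu p h2 hp hσ k' r := by
  by_cases hr : r.re.coeff 0 = 1
  · apply Subtype.ext
    apply Units.ext
    change SkewGrp877.tr σ hk ((nu p h2 hp hσ k r : (R σ k)ˣ) : R σ k) = _
    have ht : SkewGrp877.tr σ hk (Exp820.tr k r) = Exp820.tr k' r := by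
      refine ext' fun n hn => ?_
      rw [SkewGrp877.c_tr hk _ hn, Exp820.c_tr _ hn, Exp820.c_tr _ (hn.trans hk)]
    have hb : J 1 (Exp820.tr k' r - 1) := tr_J hr
    rw [nu_val hr, nu_val hr, nrm_eq, nrm_eq, map_mul, ht]
    congr 1
    have e3 : SkewGrp877.tr σ hk (cen (eN p k) (Exp820.tr k r)) =
        cen (eN p k) (Exp820.tr k' r) := by
      unfold cen
      rw [map_pow, map_mul, SkewGrp877.tr_conj hk, ht]
    rw [e3]
    have hC : TPgrp547.Cen (Exp820.tr k' r * SkewGrp877.conj (Exp820.tr k' r)) :=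
      cen_of_fixed h2 hσ (norm_fixed hσ _) (J_one_mul hb (J_one_conj hb))
    refine Cen_unique h2 hσ (Cen_cen h2 hσ _ hb) (Cen_cen h2 hσ _ hb) hC ?_ ?_
    · exact cen_sq h2 hσ hb
        (lt_of_le_of_lt hk (lt_pow_succ (Fact.out : p.Prime).one_lt k)) (two_eN hp k)
    · exact cen_sq h2 hσ hb (lt_pow_succ (Fact.out : p.Prime).one_lt k') (two_eN hp k')
  · have e1 : nu p h2 hp hσ k r = 1 := dif_neg hr
    have e2 : nu p h2 hp hσ k' r = 1 := dif_neg hr
    rw [e1, e2, map_one]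

end nu

/-! ### the steps of the square complex -/

section steps

variable {K : Type} [Field K] [Finite K] {σ : K →+* K} (p : ℕ) [Fact p.Prime] [CharP K p]
  (h2 : (2 : K) ≠ 0) (hp : p % 2 = 1) (hσ : ∀ x, σ (σ x) = x) (k : ℕ)

/-- the step with label `i` at the place `x` -/
noncomputable def st (x : K) (i : Option K) : U hσ k 1 := nu p h2 hp hσ k (Fac281.be σ x (sec i))

variable {p h2 hp hσ k}

/-- `x`-steps and `y`-steps: **the relation of the square complex** -/
theorem comm {x y : K} (hx : σ x ≠ x) (hy : σ y ≠ y) (hxy : x ≠ y) (hxy' : σ x ≠ y)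
    (l m : Option K) :
    st p h2 hp hσ k x l * st p h2 hp hσ k y (FacB281.M σ x y l m) =
      st p h2 hp hσ k y m * st p h2 hp hσ k x (FacB281.L σ x y l m) := by
  unfold st
  rw [← nu_mul (Fac281.be_re_coeff _ _) (Fac281.be_re_coeff _ _),
    ← nu_mul (Fac281.be_re_coeff _ _) (Fac281.be_re_coeff _ _),
    FacB281.comm' hσ hx hy hxy hxy']

theorem st_trunc {k' : ℕ} (hk : k' ≤ k) (x : K) (i : Option K) :
    trUU hσ hk 1 (st p h2 hp hσ k x i) = st p h2 hp hσ k' x i := nu_trunc hk _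

/-- truncation of `be` -/
theorem tr_be (x : K) (l : K × K) :
    Exp820.tr k (Fac281.be σ x l) = ofL σ k [1, Fac281.bet σ x l, Fac281.gam σ x l] := by
  refine ext' fun n hn => ?_
  rw [Exp820.c_tr _ hn, ofL, c_mk _ hn]
  rcases Nat.even_or_odd' n with ⟨m, rfl | rfl⟩
  · rw [cf_even]
    match m with
    | 0 => simp [Fac281.be, Gauss115.getK]
    | 1 => simp [Fac281.be, Gauss115.getK, coeff_one]
    | (j + 2) =>
      have h : (Fac281.be σ x l).re.coeff (j + 2) = 0 := by
        apply coeff_eq_zero_of_natDegree_lt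
        have := Fac281.be_re_deg (σ := σ) x l
        omega
      rw [h]
      unfold Gauss115.getK
      rw [List.getD_eq_default]
      simp
      omega
  · rw [cf_odd]
    match m with
    | 0 => simp [Fac281.be, Gauss115.getK]
    | (j + 1) =>
      have h : (Fac281.be σ x l).im.coeff (j + 1) = 0 := by
        apply coeff_eq_zero_of_natDegree_lt
        have := Fac281.be_im_deg (σ := σ) x l
        omega
      rw [h]
      unfold Gauss115.getK
      rw [List.getD_eq_default]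
      simp

end steps

end Crest.Agent.R289.Nu547
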