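import Crest.Agent.R289.ExpTr_820
import Crest.Agent.R289.PTabW_480
import Crest.Agent.R289.Fac_281

/-!
Row 289, block A/B: the map `nu : Sk σ → U hσ k 1` (truncation, then normalisation to norm one),
multiplicative on elements with constant term one.
-/

set_option autoImplicit false
set_option linter.unusedSectionVars false

namespace Crest.Agent.R289.Nu548

open Polynomial Crest.Agent.R289.Exp820 Crest.Agent.R289.Exp820.Sk Crest.Agent.R289.SkewGrp877
  Crest.Agent.R289.PTab480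

variable {K : Type} [Field K] {σ : K →+* K} {k : ℕ}

theorem cf_zero (r : Sk σ) : cf r 0 = r.re.coeff 0 := cf_even r 0

theorem J_tr {r : Sk σ} : J 1 (tr k r - 1) ↔ r.re.coeff 0 = 1 := by
  constructor
  · intro h
    have h0 := h 0 Nat.one_pos
    rw [c_sub, c_tr _ (Nat.zero_le _), c_one (Nat.zero_le _), if_pos rfl, cf_zero] at h0
    exact sub_eq_zero.1 h0
  · intro h n hn
    have hn0 : n = 0 := by omega
    subst hn0
    rw [c_sub, c_tr _ (Nat.zero_le _), c_one (Nat.zero_le _), if_pos rfl, cf_zero, h, sub_self]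

theorem coeff_zero_mul (r s : Sk σ) : (r * s).re.coeff 0 = r.re.coeff 0 * s.re.coeff 0 := by
  rw [mul_re, coeff_add, mul_coeff_zero, mul_assoc, mul_coeff_zero, coeff_X_zero, zero_mul,
    add_zero]

section nu

variable (p : ℕ) [Finite K] [Fact p.Prime] [CharP K p]

open Classical in
/-- truncation and normalisation of an element with constant term one -/
noncomputable def nu (h2 : (2 : K) ≠ 0) (hp : p % 2 = 1) (hσ : ∀ x, σ (σ x) = x) (k : ℕ)
    (r : Sk σ) : U hσ k 1 :=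
  if h : r.re.coeff 0 = 1 then nrmP p h2 hp hσ (tr k r) (J_tr.2 h) else 1

variable (h2 : (2 : K) ≠ 0) (hp : p % 2 = 1) (hσ : ∀ x, σ (σ x) = x)

theorem nu_of {r : Sk σ} (h : r.re.coeff 0 = 1) :
    nu p h2 hp hσ k r = nrmP p h2 hp hσ (tr k r) (J_tr.2 h) := dif_pos h

theorem nu_val {r : Sk σ} (h : r.re.coeff 0 = 1) :
    ((nu p h2 hp hσ k r : (R σ k)ˣ) : R σ k) = nrm (eN p k) (tr k r) := by
  rw [nu_of p h2 hp hσ h, nrmP_val]

theorem nu_mul {r s : Sk σ} (hr : r.re.coeff 0 = 1) (hs : s.re.coeff 0 = 1) :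
    nu p h2 hp hσ k (r * s) = nu p h2 hp hσ k r * nu p h2 hp hσ k s := by
  have hrs : (r * s).re.coeff 0 = 1 := by rw [coeff_zero_mul, hr, hs, one_mul]
  rw [nu_of p h2 hp hσ hr, nu_of p h2 hp hσ hs, nu_of p h2 hp hσ hrs]
  rw [← nrmP_mul p h2 hp hσ _ _ (J_tr.2 hr) (J_tr.2 hs)]
  congr 1
  exact tr_mul hσ r s

theorem nu_one : nu p h2 hp hσ k (1 : Sk σ) = 1 := by
  have h1 : (1 : Sk σ).re.coeff 0 = 1 := by simp
  have h := nu_mul (k := k) p h2 hp hσ h1 h1
  rw [sk_one_mul] at h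
  exact left_eq_mul.mp h

end nu

end Crest.Agent.R289.Nu548
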