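import Crest.Agent.R289.ObjB2_367
import Crest.Agent.R289.ObjDef_233

/-!
Row 289, block B (helper367).  The fields `mulX`, `mulY`, `dist`, `rob` of `Asm12.Obj.OK` for the
concrete object `ObjDef233.Par.obj`.
-/

set_option autoImplicit false
set_option linter.unusedSectionVars false

namespace Crest.Agent.R289.ObjB367

open Polynomial
open Crest.Agent.R289.PS459 Crest.Agent.R289.Tan846 Crest.Agent.R289.TP846
open Crest.Agent.R289.ObjDef233

variable (D : Par)

theorem norm_pow_par (c : D.K) (hc : c ≠ 0) : (c * D.σ c) ^ (D.q - 1) = 1 := by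
  have hq : 1 ≤ D.q := by
    rcases Nat.eq_zero_or_pos D.q with h | h
    · have h1 := D.card
      rw [h] at h1
      have h2 : 0 < Fintype.card D.K := Fintype.card_pos
      simp at h1
    · exact h
  have h1 : c * D.σ c = c ^ (D.q + 1) := by rw [D.frob, pow_succ']
  rw [h1, ← pow_mul]
  have h2 : (D.q + 1) * (D.q - 1) = Fintype.card D.K - 1 := by
    rw [D.card]
    obtain ⟨r, hr⟩ : ∃ r, D.q = r + 1 := ⟨D.q - 1, by omega⟩
    rw [hr]
    have : (r + 1) ^ 2 = (r + 1 + 1) * r + 1 := by ring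
    rw [this]
    simp
  rw [h2]
  exact FiniteField.pow_card_sub_one_eq_one c hc

/-- the charts -/
noncomputable def chP : ChL D.K (FacB281.L D.σ D.x D.y) (FacB281.M D.σ D.x D.y) (D.q - 1) :=
  chl D.hσ D.hx D.hy D.hxy D.hxy' (D.q - 1) (norm_pow_par D)

theorem X_eq (d : ℕ) (j : Bool) (z : Option D.K) : D.X d j z = (chP D).X (D.dg d) j z := by
  ext u
  cases j
  · rw [Par.mem_X_false, ChL.mem_X_false]
  · rw [Par.mem_X_true]
    exact (mem_chl_X_true D.hσ D.hx D.hy D.hxy D.hxy' (D.q - 1) (norm_pow_par D)).symm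

theorem Y_eq (d : ℕ) (i : Bool) (v : Option D.K) : D.Y d i v = (chP D).Y (D.dg d) i v := by
  ext u
  cases i
  · rw [Par.mem_Y_false, ChL.mem_Y_false]
  · rw [Par.mem_Y_true]
    exact (mem_chl_Y_true D.hσ D.hx D.hy D.hxy D.hxy' (D.q - 1) (norm_pow_par D)).symm

theorem dg_add (d d' : ℕ) : D.dg (d + d') = D.dg d + D.dg d' := by
  simp only [Par.dg, add_mul]

/-- field `mulX` -/
theorem obj_mulX (d d' : ℕ) (j : Bool) (z : Option D.K) (f g : Option D.K → D.K)
    (hf : f ∈ D.X d j z) (hg : g ∈ D.X d' j z) : f * g ∈ D.X (d + d') j z := by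
  rw [X_eq] at hf hg ⊢
  rw [dg_add]
  exact (chP D).mulX _ _ j z f g hf hg

/-- field `mulY` -/
theorem obj_mulY (d d' : ℕ) (i : Bool) (v : Option D.K) (f g : Option D.K → D.K)
    (hf : f ∈ D.Y d i v) (hg : g ∈ D.Y d' i v) : f * g ∈ D.Y (d + d') i v := by
  rw [Y_eq] at hf hg ⊢
  rw [dg_add]
  exact (chP D).mulY _ _ i v f g hf hg

/-- field `dist` -/
theorem obj_dist {M0 : ℕ} (h : 8 * M0 ≤ D.q) :
    ∃ n : ℕ, 3 * Fintype.card (Option D.K) ≤ 4 * n ∧
      (∀ d ≤ M0, ∀ j z, Dist (D.X d j z : Set (Option D.K → D.K)) n) ∧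
      ∀ d ≤ M0, ∀ i v, Dist (D.Y d i v : Set (Option D.K → D.K)) n := by
  have h1 : 4 * (M0 * (2 * (D.q - 1))) ≤ Fintype.card D.K := by
    rw [D.card]
    have h2 : 8 * M0 * (D.q - 1) ≤ D.q * (D.q - 1) := Nat.mul_le_mul_right _ h
    have h3 : D.q * (D.q - 1) ≤ D.q * D.q := Nat.mul_le_mul_left _ (Nat.sub_le _ _)
    calc 4 * (M0 * (2 * (D.q - 1))) = 8 * M0 * (D.q - 1) := by ring
      _ ≤ D.q * D.q := h2.trans h3
      _ = D.q ^ 2 := by ring
  obtain ⟨n, hn, hX, hY⟩ := (chP D).dist (s := 2 * (D.q - 1)) (M0 := M0) h1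
  refine ⟨n, hn, fun d hd j z => ?_, fun d hd i v => ?_⟩
  · rw [X_eq]
    exact hX d hd j z
  · rw [Y_eq]
    exact hY d hd i v

/-- field `rob`, `Kr = 92` -/
theorem obj_rob (T : D.Tabs) {M0 : ℕ} (h : 16 * M0 * (D.q - 1) + 32 ≤ D.q ^ 2) (κ : Type)
    [Fintype κ] (deg : κ → ℕ) (hdeg : ∀ ρ, deg ρ ≤ M0) (k : ℕ) (i j : Bool) :
    ((D.obj T).tp k).Rob ((D.obj T).bX deg) ((D.obj T).bY deg) i j 92 := by
  have hK : 8 * (M0 * (2 * (D.q - 1))) + 32 ≤ Fintype.card D.K := by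
    rw [D.card]
    calc 8 * (M0 * (2 * (D.q - 1))) + 32 = 16 * M0 * (D.q - 1) + 32 := by ring
      _ ≤ D.q ^ 2 := h
  have hs : (D.q - 1) ∣ 2 * (D.q - 1) := Dvd.intro_left 2 rfl
  have key := (chP D).rob (D.tp k) rfl rfl hs hK κ deg hdeg i j
  have eX : ((D.obj T).bX deg : Bool → Option D.K → Set (Option D.K → κ → D.K)) =
      fun j z => {c : Option D.K → κ → D.K |
        ∀ ρ, (fun m => c m ρ) ∈ (chP D).X (deg ρ * (2 * (D.q - 1))) j z} := by
    funext j z
    ext c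
    refine forall_congr' fun ρ => ?_
    exact iff_of_eq (congrArg (fun S : Submodule D.K (Option D.K → D.K) =>
      (fun m => c m ρ) ∈ S) (X_eq D (deg ρ) j z))
  have eY : ((D.obj T).bY deg : Bool → Option D.K → Set (Option D.K → κ → D.K)) =
      fun i v => {c : Option D.K → κ → D.K |
        ∀ ρ, (fun l => c l ρ) ∈ (chP D).Y (deg ρ * (2 * (D.q - 1))) i v} := by
    funext i v
    ext c
    refine forall_congr' fun ρ => ?_
    exact iff_of_eq (congrArg (fun S : Submodule D.K (Option D.K → D.K) =>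
      (fun l => c l ρ) ∈ S) (Y_eq D (deg ρ) i v))
  rw [eX, eY]
  exact key

end Crest.Agent.R289.ObjB367
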