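import Crest.Agent.R289.ObjB3_367
import Crest.Agent.R289.Obj289_233

/-!
Row 289, block B (helper367).  The leaves `hmulX`, `hmulY`, `hdist`, `hrob` (`Kr = 92`) of
`Obj289233.obj289_of`.
-/

set_option autoImplicit false
set_option linter.unusedSectionVars false

namespace Crest.Agent.R289.ObjB367

open Filter
open Crest.Agent.R289.Tan846 Crest.Agent.R289.TP846
open Crest.Agent.R289.ObjDef233 Crest.Agent.R289.Obj289233

/-- leaf `hmulX` -/
theorem leaf_mulX : ∀ D : Par, MulX D := fun D => obj_mulX D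

/-- leaf `hmulY` -/
theorem leaf_mulY : ∀ D : Par, MulY D := fun D => obj_mulY D

theorem distOK (D : Par) {M0 : ℕ} (h : 8 * M0 ≤ D.q) : DistOK D M0 := obj_dist D h

theorem robOK (D : Par) {M0 : ℕ} (h : 16 * M0 * (D.q - 1) + 32 ≤ D.q ^ 2) : RobOK D M0 92 := by
  intro κ _ deg hdeg k i j
  have hK : 8 * (M0 * (2 * (D.q - 1))) + 32 ≤ Fintype.card D.K := by
    rw [D.card]
    calc 8 * (M0 * (2 * (D.q - 1))) + 32 = 16 * M0 * (D.q - 1) + 32 := by ring
      _ ≤ D.q ^ 2 := h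
  have hs : (D.q - 1) ∣ 2 * (D.q - 1) := Dvd.intro_left 2 rfl
  have key := (chP D).rob (D.tp k) rfl rfl hs hK κ deg hdeg i j
  simp only [X_eq, Y_eq]
  exact key

/-- leaf `hdist` -/
theorem leaf_dist : ∀ M0 : ℕ, ∀ᶠ q : ℕ in atTop, ∀ D : Par, D.q = q → DistOK D M0 := fun M0 => by
  filter_upwards [eventually_ge_atTop (8 * M0)] with q hq D hD
  exact distOK D (by rw [hD]; exact hq)

/-- leaf `hrob` -/
theorem leaf_rob : ∀ M0 : ℕ, ∀ᶠ q : ℕ in atTop, ∀ D : Par, D.q = q → RobOK D M0 92 := fun M0 => by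
  filter_upwards [eventually_ge_atTop (16 * M0 + 32)] with q hq D hD
  refine robOK D ?_
  rw [hD]
  have h1 : (q - 1) + 1 = q := by omega
  have h2 : 16 * M0 * (q - 1) + 32 * (q - 1) ≤ q * (q - 1) := by
    rw [← Nat.add_mul]
    exact Nat.mul_le_mul_right _ hq
  have h3 : 32 ≤ 32 * (q - 1) := by omega
  have h4 : q * (q - 1) ≤ q * q := Nat.mul_le_mul_left _ (Nat.sub_le _ _)
  calc 16 * M0 * (q - 1) + 32 ≤ 16 * M0 * (q - 1) + 32 * (q - 1) := Nat.add_le_add_left h3 _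
    _ ≤ q * q := h2.trans h4
    _ = q ^ 2 := by ring

end Crest.Agent.R289.ObjB367
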