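import Crest.Agent.R289.TPRob_367

/-!
Row 289, block B (helper367).  The fields `X`, `Y`, `mulX`, `mulY`, `dist`, `rob` of `Asm12.Obj`
from the chart structure (the same data as `TP9.Ch` of helper946, but with the labels `L`, `M` only,
no group): edge codes in vertex charts with scalars, four edge equivalences.
-/

set_option autoImplicit false
set_option linter.unusedSectionVars false

namespace Crest.Agent.R289.ObjB367

open Polynomial
open Crest.Agent.R289.PS459 Crest.Agent.R289.Tan846 Crest.Agent.R289.TP846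
open Crest.Agent.R289.TPRob367

/-- charts at the four kinds of corners: `ee (l, m)`, `oe (px l, M l m)`, `eo (L l m, py m)`,
`oo (px (L l m), py (M l m))`, scalars `soe`, `seo`, `soo`; each kind of edge condition is the same
from both ends of the edge, for all degrees divisible by `w`. -/
structure ChL (K : Type) [Field K] (L M : Option K → Option K → Option K) (w : ℕ) where
  hM : ∀ l, Function.Bijective (M l)
  hL : ∀ m, Function.Bijective (fun l => L l m)
  px : Option K → Option K
  py : Option K → Option K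
  hpx : Function.Bijective px
  hpy : Function.Bijective py
  soe : Option K → Option K → K
  seo : Option K → Option K → K
  soo : Option K → Option K → K
  soe_ne : ∀ l m, soe l m ≠ 0
  seo_ne : ∀ l m, seo l m ≠ 0
  soo_ne : ∀ l m, soo l m ≠ 0
  h0 : ∀ D, w ∣ D → ∀ (l : Option K) (x : Option K → K),
    (∃ p : K[X], p.natDegree ≤ D ∧ ∀ m, x m = ev D p m) ↔
      ∃ p : K[X], p.natDegree ≤ D ∧ ∀ m, soe l m ^ D * x m = ev D p (M l m)
  v0 : ∀ D, w ∣ D → ∀ (m : Option K) (x : Option K → K),
    (∃ p : K[X], p.natDegree ≤ D ∧ ∀ l, x l = ev D p l) ↔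
      ∃ p : K[X], p.natDegree ≤ D ∧ ∀ l, seo l m ^ D * x l = ev D p (L l m)
  h1 : ∀ D, w ∣ D → ∀ (l' : Option K) (lam : Option K → Option K), (∀ m, L (lam m) m = l') →
    ∀ x : Option K → K, (∃ p : K[X], p.natDegree ≤ D ∧ ∀ m, seo (lam m) m ^ D * x m = ev D p (py m)) ↔
      ∃ p : K[X], p.natDegree ≤ D ∧ ∀ m, soo (lam m) m ^ D * x m = ev D p (py (M (lam m) m))
  v1 : ∀ D, w ∣ D → ∀ (m' : Option K) (mu : Option K → Option K), (∀ l, M l (mu l) = m') →
    ∀ x : Option K → K, (∃ p : K[X], p.natDegree ≤ D ∧ ∀ l, soe l (mu l) ^ D * x l = ev D p (px l)) ↔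
      ∃ p : K[X], p.natDegree ≤ D ∧ ∀ l, soo l (mu l) ^ D * x l = ev D p (px (L l (mu l)))

namespace ChL

variable {K : Type} [Field K] {L M : Option K → Option K → Option K} {w : ℕ} (C : ChL K L M w)

/-- the `l` with `L l m = z` -/
noncomputable def li (m z : Option K) : Option K := (Equiv.ofBijective _ (C.hL m)).symm z

/-- the `m` with `M l m = v` -/
noncomputable def mi (l v : Option K) : Option K := (Equiv.ofBijective _ (C.hM l)).symm v

theorem L_li (m z : Option K) : L (C.li m z) m = z :=
  (Equiv.ofBijective _ (C.hL m)).apply_symm_apply z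

theorem M_mi (l v : Option K) : M l (C.mi l v) = v :=
  (Equiv.ofBijective _ (C.hM l)).apply_symm_apply v

/-- scalar along an x-edge -/
noncomputable def xs (j : Bool) (z m : Option K) : K := if j then C.seo (C.li m z) m else 1

/-- coordinate along an x-edge -/
def xc (j : Bool) (m : Option K) : Option K := if j then C.py m else m

/-- scalar along a y-edge -/
noncomputable def ys (i : Bool) (v l : Option K) : K := if i then C.soe l (C.mi l v) else 1

/-- coordinate along a y-edge -/
def yc (i : Bool) (l : Option K) : Option K := if i then C.px l else l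

/-- edge code of the x-edges of type `j`, label `z` (functions of `m`), degree `D` -/
noncomputable def X (D : ℕ) (j : Bool) (z : Option K) : Submodule K (Option K → K) :=
  RSC D (C.xc j) (fun m => C.xs j z m ^ D)

/-- edge code of the y-edges of type `i`, label `v` (functions of `l`), degree `D` -/
noncomputable def Y (D : ℕ) (i : Bool) (v : Option K) : Submodule K (Option K → K) :=
  RSC D (C.yc i) (fun l => C.ys i v l ^ D)

theorem mem_X_false {D : ℕ} {z : Option K} {u : Option K → K} :
    u ∈ C.X D false z ↔ ∃ p : K[X], p.natDegree ≤ D ∧ ∀ m, u m = ev D p m := by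
  simp only [X, mem_RSC, xs, xc, Bool.false_eq_true, if_false, one_pow, one_mul]

theorem mem_X_true {D : ℕ} {z : Option K} {u : Option K → K} :
    u ∈ C.X D true z ↔
      ∃ p : K[X], p.natDegree ≤ D ∧ ∀ m, C.seo (C.li m z) m ^ D * u m = ev D p (C.py m) := by
  simp only [X, mem_RSC, xs, xc, if_true]

theorem mem_Y_false {D : ℕ} {v : Option K} {u : Option K → K} :
    u ∈ C.Y D false v ↔ ∃ p : K[X], p.natDegree ≤ D ∧ ∀ l, u l = ev D p l := by
  simp only [Y, mem_RSC, ys, yc, Bool.false_eq_true, if_false, one_pow, one_mul]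

theorem mem_Y_true {D : ℕ} {v : Option K} {u : Option K → K} :
    u ∈ C.Y D true v ↔
      ∃ p : K[X], p.natDegree ≤ D ∧ ∀ l, C.soe l (C.mi l v) ^ D * u l = ev D p (C.px l) := by
  simp only [Y, mem_RSC, ys, yc, if_true]

theorem xc_inj (j : Bool) : Function.Injective (C.xc j) := by
  cases j
  · exact fun a b h => by simpa [xc] using h
  · exact fun a b h => C.hpy.1 (by simpa [xc] using h)

theorem yc_inj (i : Bool) : Function.Injective (C.yc i) := by
  cases i
  · exact fun a b h => by simpa [yc] using h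
  · exact fun a b h => C.hpx.1 (by simpa [yc] using h)

theorem xs_ne (j : Bool) (z m : Option K) : C.xs j z m ≠ 0 := by
  cases j
  · simp [xs]
  · simpa [xs] using C.seo_ne _ _

theorem ys_ne (i : Bool) (v l : Option K) : C.ys i v l ≠ 0 := by
  cases i
  · simp [ys]
  · simpa [ys] using C.soe_ne _ _

/-- products -/
theorem mulX (D D' : ℕ) (j : Bool) (z : Option K) (f g : Option K → K) (hf : f ∈ C.X D j z)
    (hg : g ∈ C.X D' j z) : f * g ∈ C.X (D + D') j z := by
  have h := RSC_mul hf hg
  have e : ((fun m => C.xs j z m ^ D) * fun m => C.xs j z m ^ D') =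
      fun m => C.xs j z m ^ (D + D') := by
    funext m
    simp only [Pi.mul_apply, pow_add]
  rwa [e] at h

theorem mulY (D D' : ℕ) (i : Bool) (v : Option K) (f g : Option K → K) (hf : f ∈ C.Y D i v)
    (hg : g ∈ C.Y D' i v) : f * g ∈ C.Y (D + D') i v := by
  have h := RSC_mul hf hg
  have e : ((fun l => C.ys i v l ^ D) * fun l => C.ys i v l ^ D') =
      fun l => C.ys i v l ^ (D + D') := by
    funext l
    simp only [Pi.mul_apply, pow_add]
  rwa [e] at h

section dist

variable [Fintype K]

theorem dist_RSC {s : ℕ} {ψ : Option K → Option K} (hψ : Function.Injective ψ) {μ : Option K → K}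
    (hμ : ∀ z, μ z ≠ 0) :
    Dist (RSC s ψ μ : Set (Option K → K)) (Fintype.card K + 1 - s) := by
  classical
  intro c hc c' hc' hne
  have h := RSC_dist hψ hμ hc hc' hne
  have h2 : (Finset.univ.filter fun z => c z = c' z).card +
      (Finset.univ.filter fun z => ¬ c z = c' z).card = Fintype.card (Option K) := by
    rw [Finset.card_filter_add_card_filter_not, Finset.card_univ]
  have h3 : (cnt fun z => c z ≠ c' z) = (Finset.univ.filter fun z => ¬ c z = c' z).card := by
    rw [← card_eq_cnt]
  rw [Fintype.card_option] at h2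
  omega

theorem distX {D n : ℕ} (h : n + D ≤ Fintype.card K + 1) (j : Bool) (z : Option K) :
    Dist (C.X D j z : Set (Option K → K)) n := by
  intro c hc c' hc' hne
  have := dist_RSC (C.xc_inj j) (fun m => pow_ne_zero D (C.xs_ne j z m)) c hc c' hc' hne
  omega

theorem distY {D n : ℕ} (h : n + D ≤ Fintype.card K + 1) (i : Bool) (v : Option K) :
    Dist (C.Y D i v : Set (Option K → K)) n := by
  intro c hc c' hc' hne
  have := dist_RSC (C.yc_inj i) (fun m => pow_ne_zero D (C.ys_ne i v m)) c hc c' hc' hne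
  omega

/-- the field `dist` of `Asm12.Obj.OK` -/
theorem dist {s M0 : ℕ} (h : 4 * (M0 * s) ≤ Fintype.card K) :
    ∃ n : ℕ, 3 * Fintype.card (Option K) ≤ 4 * n ∧
      (∀ d ≤ M0, ∀ j z, Dist (C.X (d * s) j z : Set (Option K → K)) n) ∧
      ∀ d ≤ M0, ∀ i v, Dist (C.Y (d * s) i v : Set (Option K → K)) n := by
  refine ⟨Fintype.card K + 1 - M0 * s, ?_, fun d hd j z => C.distX ?_ j z,
    fun d hd i v => C.distY ?_ i v⟩
  · rw [Fintype.card_option]
    omega
  · have := Nat.mul_le_mul_right s hd
    omega
  · have := Nat.mul_le_mul_right s hd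
    omega

end dist

/-! ### robustness -/

/-- the scalar at a corner -/
noncomputable def mu (i j : Bool) (l m : Option K) : K :=
  if i then (if j then C.soo l m else C.soe l m) else (if j then C.seo l m else 1)

theorem mu_ne (i j : Bool) (l m : Option K) : C.mu i j l m ≠ 0 := by
  cases i <;> cases j <;> simp [mu, C.soo_ne, C.soe_ne, C.seo_ne]

/-- the bijection `px` or the identity -/
noncomputable def fx (i : Bool) : Option K ≃ Option K :=
  if i then Equiv.ofBijective _ C.hpx else Equiv.refl _

/-- the bijection `py` or the identity -/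
noncomputable def fy (j : Bool) : Option K ≃ Option K :=
  if j then Equiv.ofBijective _ C.hpy else Equiv.refl _

theorem fx_false (l : Option K) : C.fx false l = l := by simp [fx]
theorem fx_true (l : Option K) : C.fx true l = C.px l := by simp [fx]
theorem fy_false (m : Option K) : C.fy false m = m := by simp [fy]
theorem fy_true (m : Option K) : C.fy true m = C.py m := by simp [fy]

variable {P : Type} [Group P]

/-- the condition on an x-edge from the end of type `(i, j)` -/
theorem X_iff (T : TP P (Option K)) (hTL : T.L = L) (hTM : T.M = M) {D : ℕ} (hD : w ∣ D)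
    (i j : Bool) (z : Option K) (u : Option K → K) :
    u ∈ C.X D j z ↔ ∃ p : K[X], p.natDegree ≤ D ∧
      ∀ m, C.mu i j (T.li j m z) m ^ D * u m = ev D p (C.fy j (T.yl i (T.li j m z) m)) := by
  subst hTL hTM
  cases i <;> cases j
  · rw [mem_X_false]
    simp only [mu, fy_false, TP.yl, TP.li, Bool.false_eq_true, if_false, one_pow, one_mul]
  · rw [mem_X_true]
    simp only [mu, fy_true, TP.yl, TP.li, Bool.false_eq_true, if_false, if_true]
    rfl
  · rw [mem_X_false, C.h0 D hD z u]
    simp only [mu, fy_false, TP.yl, TP.li, Bool.false_eq_true, if_false, if_true]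
  · rw [mem_X_true, C.h1 D hD z (fun m => C.li m z) (fun m => C.L_li m z) u]
    simp only [mu, fy_true, TP.yl, TP.li, if_true]
    rfl

/-- the condition on a y-edge from the end of type `(i, j)` -/
theorem Y_iff (T : TP P (Option K)) (hTL : T.L = L) (hTM : T.M = M) {D : ℕ} (hD : w ∣ D)
    (i j : Bool) (v : Option K) (u : Option K → K) :
    u ∈ C.Y D i v ↔ ∃ p : K[X], p.natDegree ≤ D ∧
      ∀ l, C.mu i j l (T.mi i l v) ^ D * u l = ev D p (C.fx i (T.xl j l (T.mi i l v))) := by
  subst hTL hTM
  cases i <;> cases j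
  · rw [mem_Y_false]
    simp only [mu, fx_false, TP.xl, TP.mi, Bool.false_eq_true, if_false, one_pow, one_mul]
  · rw [mem_Y_false, C.v0 D hD v u]
    simp only [mu, fx_false, TP.xl, TP.mi, Bool.false_eq_true, if_false, if_true]
  · rw [mem_Y_true]
    simp only [mu, fx_true, TP.xl, TP.mi, Bool.false_eq_true, if_false, if_true]
    rfl
  · rw [mem_Y_true, C.v1 D hD v (fun l => C.mi l v) (fun l => C.M_mi l v) u]
    simp only [mu, fx_true, TP.xl, TP.mi, if_true]
    rfl

/-- **the field `rob` of `Asm12.Obj.OK`**, constant 92 -/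
theorem rob [Fintype K] (T : TP P (Option K)) (hTL : T.L = L) (hTM : T.M = M) {s M0 : ℕ}
    (hs : w ∣ s) (hK : 8 * (M0 * s) + 32 ≤ Fintype.card K) (κ : Type) [Fintype κ] (deg : κ → ℕ)
    (hdeg : ∀ ρ, deg ρ ≤ M0) (i j : Bool) :
    T.Rob (fun j z => {c : Option K → κ → K | ∀ ρ, (fun m => c m ρ) ∈ C.X (deg ρ * s) j z})
      (fun i v => {c : Option K → κ → K | ∀ ρ, (fun l => c l ρ) ∈ C.Y (deg ρ * s) i v}) i j 92 := by
  refine rob_chart T i j (M0 * s) hK (C.fx i) (C.fy j) (fun ρ => deg ρ * s) (fun ρ => deg ρ * s)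
    (fun ρ => Nat.mul_le_mul_right s (hdeg ρ)) (fun ρ => Nat.mul_le_mul_right s (hdeg ρ))
    (fun l m ρ => C.mu i j l m ^ (deg ρ * s)) (fun l m ρ => pow_ne_zero _ (C.mu_ne i j l m)) ?_ ?_
  · intro z u
    refine forall_congr' fun ρ => ?_
    exact C.X_iff T hTL hTM (Dvd.dvd.mul_left hs _) i j z (fun m => u m ρ)
  · intro v u
    refine forall_congr' fun ρ => ?_
    exact C.Y_iff T hTL hTM (Dvd.dvd.mul_left hs _) i j v (fun l => u l ρ)

end ChL

end Crest.Agent.R289.ObjB367
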