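import Crest.Agent.R289.Lev_954
import Crest.Agent.R289.Params_233

/-!
# Row 289, block B v2.5 (vii): the group fields of `Obj.OK` (AsmObj_12)

`P k = U hσ (2 * k) 1`, `Q = bs σ = q^3`, `p` = characteristic.

* `exists_q_pow`: the fixed field has `p^m` elements; `isP_U`: `U hσ k 1` is a `p`-group;
* `card_Pk`: `|U hσ (2k) 1| = Q^k`; `ixP`: numbering `U hσ (2k) 1 ≃ Fin (Q^k)` on 726's `eqP`
  (the number is the number, `ixP_val`);
* for the field `KK p e` of Params_233: `q_KK`: `q (sg p e) = p^e`, `charP_KK`, `isP_KK`, `bs_KK`.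
-/

set_option autoImplicit false
set_option linter.unusedSectionVars false

namespace Crest.Agent.R289.ObjP954

open Finset
open Crest.Agent.R289.SkewGrp877 (R U A q exists_theta)
open Crest.Agent.R289.Lev954

section general

variable {K : Type*} [Field K] [Finite K] {σ : K →+* K} (hσ : ∀ x, σ (σ x) = x)
  {p : ℕ} [hp : Fact p.Prime] [hc : CharP K p]

omit [Fact p.Prime] in
/-- the number of elements of `K` is a power of the characteristic -/
theorem exists_card_pow : ∃ n, Nat.card K = p ^ n := by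
  have := Fintype.ofFinite K
  obtain ⟨n, _, hn⟩ := FiniteField.card K p
  exact ⟨n, by rw [Nat.card_eq_fintype_card, hn]⟩

include hσ

/-- the fixed field has `p^m` elements -/
theorem exists_q_pow (h2 : (2 : K) ≠ 0) (hne : ∃ x, σ x ≠ x) : ∃ m, q σ = p ^ m := by
  obtain ⟨n, hn⟩ := exists_card_pow (K := K) (p := p)
  rw [card_K hσ h2 hne] at hn
  obtain ⟨m, _, hm⟩ := (Nat.dvd_prime_pow hp.out).1 (Dvd.intro _ hn)
  exact ⟨m, hm⟩

theorem exists_card_U_pow (h2 : (2 : K) ≠ 0) (hne : ∃ x, σ x ≠ x) (k : ℕ) :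
    ∃ n, Nat.card (U hσ k 1) = p ^ n := by
  obtain ⟨m, hm⟩ := exists_q_pow hσ (p := p) h2 hne
  rw [card_P_prod hσ h2]
  have h : ∀ s : Finset ℕ, ∃ n, ∏ i ∈ s, Nat.card (A σ i) = p ^ n := by
    intro s
    induction s using Finset.induction_on with
    | empty => exact ⟨0, by simp⟩
    | insert a s ha ih =>
      obtain ⟨n, hn⟩ := ih
      rcases Nat.mod_two_eq_zero_or_one a with h0 | h1
      · exact ⟨m + n, by rw [prod_insert ha, hn, card_A_even hσ h2 hne h0, hm, pow_add]⟩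
      · exact ⟨m + m + n, by
          rw [prod_insert ha, hn, card_A_odd (σ := σ) h1, card_K hσ h2 hne, hm, pow_add, pow_add]⟩
  exact h _

/-- **the groups are `p`-groups** -/
theorem isP_U (h2 : (2 : K) ≠ 0) (hne : ∃ x, σ x ≠ x) (k : ℕ) : IsPGroup p (U hσ k 1) := by
  obtain ⟨n, hn⟩ := exists_card_U_pow hσ (p := p) h2 hne k
  exact IsPGroup.of_card hn

/-- **order of `P k = U hσ (2k) 1`** -/
theorem card_Pk (h2 : (2 : K) ≠ 0) (hne : ∃ x, σ x ≠ x) (k : ℕ) :
    Nat.card (U hσ (2 * k) 1) = bs σ ^ k := card_even hσ h2 hne k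

end general

section index

open Crest.Agent.Lib.PT
open Crest.Agent.R289.GkPTF726 (NP eqP card_P num elt)

variable {K : Type} [Field K] [Finite K] [Inhabited K] {σ : K →+* K}

theorem NP_even (hσ : ∀ x, σ (σ x) = x) (h2 : (2 : K) ≠ 0) (hne : ∃ x, σ x ≠ x) (k : ℕ) :
    NP σ (2 * k) = bs σ ^ k := by
  rw [← card_P hσ, card_Pk hσ h2 hne]

/-- numbering of `P k`, on 726's `eqP` -/
noncomputable def ixP (hσ : ∀ x, σ (σ x) = x) (h2 : (2 : K) ≠ 0) (hne : ∃ x, σ x ≠ x) (k : ℕ) :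
    U hσ (2 * k) 1 ≃ Fin (bs σ ^ k) :=
  (eqP hσ (2 * k)).trans (finCongr (NP_even hσ h2 hne k))

theorem ixP_val (hσ : ∀ x, σ (σ x) = x) (h2 : (2 : K) ≠ 0) (hne : ∃ x, σ x ≠ x) (k : ℕ)
    (u : U hσ (2 * k) 1) :
    ((ixP hσ h2 hne k u : Fin _) : ℕ) = num ((u : (R σ (2 * k))ˣ) : R σ (2 * k)) := rfl

end index

/-! ### the field of Params_233 -/

section concrete

open Crest.Agent.R289.Params233

variable (p e : ℕ) [hp : Fact p.Prime]

theorem charP_KK : CharP (KK p e) p := inferInstance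

theorem q_KK (he : 0 < e) (h2 : p ≠ 2) (hne : ∃ x, sg p e x ≠ x) : q (sg p e) = p ^ e := by
  have h := card_K (sg_sg p e he) (two_ne p e h2) hne
  rw [Nat.card_eq_fintype_card, card_KK p e he, sq] at h
  exact (Nat.mul_self_inj.mp h).symm

theorem bs_KK (he : 0 < e) (h2 : p ≠ 2) (hne : ∃ x, sg p e x ≠ x) :
    bs (sg p e) = (p ^ e) ^ 3 := by
  unfold bs
  rw [q_KK p e he h2 hne]

theorem isP_KK (he : 0 < e) (h2 : p ≠ 2) (hne : ∃ x, sg p e x ≠ x) (k : ℕ) :
    IsPGroup p (U (sg_sg p e he) k 1) := isP_U (sg_sg p e he) (two_ne p e h2) hne k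

theorem card_Pk_KK (he : 0 < e) (h2 : p ≠ 2) (hne : ∃ x, sg p e x ≠ x) (k : ℕ) :
    Nat.card (U (sg_sg p e he) (2 * k) 1) = ((p ^ e) ^ 3) ^ k := by
  rw [card_Pk (sg_sg p e he) (two_ne p e h2) hne, bs_KK p e he h2 hne]

theorem two_le_bs_KK (he : 0 < e) : 2 ≤ bs (sg p e) := two_le_bs (sg_sg p e he)

end concrete

end Crest.Agent.R289.ObjP954
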