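import Crest.Agent.R289.Pub_117

/-!
# R289, leaf E24 (second part): public words of a product of objects, in polynomial time (helper117)

* `Cd.prod C D` : the tensor product of two codes given by tables; positions `a * D.n + b`, content
  positions in the order `i * D.h + j`; `prod_mem`, `prod_mem_iff`, `prod_ok`, `PTFCd.prod`.
* `Rep C V ps ix s0` : the table `C` represents the set of words `V ⊆ (G → S → K)`; `ps g s` = number
  of the symbol `s` at `g`, `ix g` = number of `g` among the contents, `s0` = content symbol.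
  `Rep.enc_eq` : symbols of the word with content `u`.
* `Rep.prod` : product of two (so of three, four) represented objects.
* `ptf_sym` : the symbol `s` of the word with PTF content, at the unit with PTF number, is PTF.
-/

set_option autoImplicit false
set_option linter.dupNamespace false

namespace Crest.Agent.R289.Pub117

open Crest.Agent.Lib.PT Crest.Agent.Lib.PT.Arith Crest.Agent.R288.PtDp115
open Crest.Agent.R289.Gauss115

section prod

variable {K : Type} [Field K] [Finite K] [PTCode K]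
variable {α : Type} [PTCode α]

/-- tensor product of two codes -/
def Cd.prod (C D : Cd K) : Cd K where
  n := C.n * D.n
  m := C.m * D.n + C.n * D.m
  h := C.h * D.h
  A := fun c j =>
    if c < C.m * D.n then
      (if j % D.n = c % D.n then C.A (c / D.n) (j / D.n) else 0)
    else
      (if j / D.n = (c - C.m * D.n) / D.m then D.A ((c - C.m * D.n) % D.m) (j % D.n) else 0)
  pos := fun i => C.pos (i / D.h) * D.n + D.pos (i % D.h)

omit [Finite K] [PTCode K] in
/-- sums over positions of the product -/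
theorem sum_prod (n1 n2 : ℕ) (f : ℕ → K) :
    ∑ j ∈ Finset.range (n1 * n2), f j =
      ∑ a ∈ Finset.range n1, ∑ b ∈ Finset.range n2, f (a * n2 + b) := by
  induction n1 with
  | zero => simp
  | succ n1 ih =>
    rw [Finset.sum_range_succ, ← ih, Nat.succ_mul, Finset.sum_range_add]

omit [Finite K] [PTCode K] in
theorem divmod {n2 a b : ℕ} (hb : b < n2) : (a * n2 + b) / n2 = a ∧ (a * n2 + b) % n2 = b := by
  have h0 : 0 < n2 := by omega
  constructor
  · rw [Nat.add_comm, Nat.add_mul_div_right _ _ h0, Nat.div_eq_of_lt hb, Nat.zero_add]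
  · rw [Nat.add_comm, Nat.add_mul_mod_self_right, Nat.mod_eq_of_lt hb]

omit [Finite K] [PTCode K] in
theorem lt_prod {n1 n2 a b : ℕ} (ha : a < n1) (hb : b < n2) : a * n2 + b < n1 * n2 := by
  calc a * n2 + b < a * n2 + n2 := by omega
    _ = (a + 1) * n2 := by ring
    _ ≤ n1 * n2 := Nat.mul_le_mul_right _ ha

omit [Finite K] [PTCode K] in
/-- words of the product: rows and columns -/
theorem Cd.prod_mem_iff (C D : Cd K) (x : ℕ → K) :
    (C.prod D).Mem x ↔ (∀ b < D.n, C.Mem fun a => x (a * D.n + b)) ∧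
      ∀ a < C.n, D.Mem fun b => x (a * D.n + b) := by
  have e1 : ∀ c < C.m, ∀ b < D.n,
      (∑ j ∈ Finset.range (C.prod D).n, (C.prod D).A (c * D.n + b) j * x j) =
        ∑ a ∈ Finset.range C.n, C.A c a * x (a * D.n + b) := by
    intro c hc b hb
    have hlt : c * D.n + b < C.m * D.n := lt_prod hc hb
    obtain ⟨hd, hm⟩ := divmod (a := c) hb
    show ∑ j ∈ Finset.range (C.n * D.n), _ = _
    rw [sum_prod]
    refine Finset.sum_congr rfl fun a _ => ?_
    rw [Finset.sum_eq_single b]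
    · obtain ⟨hd', hm'⟩ := divmod (a := a) hb
      simp only [Cd.prod, if_pos hlt, hd, hm, hd', hm', if_true]
    · intro b' hb' hne
      obtain ⟨_, hm'⟩ := divmod (a := a) (Finset.mem_range.1 hb')
      simp only [Cd.prod, if_pos hlt, hm, hm', if_neg hne, zero_mul]
    · intro h; exact absurd (Finset.mem_range.2 hb) h
  have e2 : ∀ a < C.n, ∀ d < D.m,
      (∑ j ∈ Finset.range (C.prod D).n, (C.prod D).A (C.m * D.n + (a * D.m + d)) j * x j) =
        ∑ b ∈ Finset.range D.n, D.A d b * x (a * D.n + b) := by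
    intro a ha d hd
    have hlt : ¬ C.m * D.n + (a * D.m + d) < C.m * D.n := by omega
    obtain ⟨hq, hr⟩ := divmod (a := a) hd
    show ∑ j ∈ Finset.range (C.n * D.n), _ = _
    rw [sum_prod, Finset.sum_eq_single a]
    · refine Finset.sum_congr rfl fun b hb => ?_
      obtain ⟨hd', hm'⟩ := divmod (a := a) (Finset.mem_range.1 hb)
      simp only [Cd.prod, if_neg hlt, Nat.add_sub_cancel_left, hq, hr, hd', hm', if_true]
    · intro a' _ hne
      refine Finset.sum_eq_zero fun b hb => ?_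
      obtain ⟨hd', hm'⟩ := divmod (a := a') (Finset.mem_range.1 hb)
      simp only [Cd.prod, if_neg hlt, Nat.add_sub_cancel_left, hq, hd', if_neg hne, zero_mul]
    · intro h; exact absurd (Finset.mem_range.2 ha) h
  constructor
  · intro h
    refine ⟨fun b hb c hc => ?_, fun a ha d hd => ?_⟩
    · rw [← e1 c hc b hb]
      exact h _ (lt_of_lt_of_le (lt_prod hc hb) (Nat.le_add_right _ _))
    · rw [← e2 a ha d hd]
      exact h _ (Nat.add_lt_add_left (lt_prod ha hd) _)
  · rintro ⟨h1, h2⟩ c hc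
    have hc' : c < C.m * D.n + C.n * D.m := hc
    rcases Nat.lt_or_ge c (C.m * D.n) with h | h
    · have h0 : 0 < D.n := by
        rcases Nat.eq_zero_or_pos D.n with h0 | h0
        · rw [h0, Nat.mul_zero] at h; omega
        · exact h0
      have hb : c % D.n < D.n := Nat.mod_lt _ h0
      have hq : c / D.n < C.m := Nat.div_lt_of_lt_mul (by rwa [Nat.mul_comm])
      have := e1 (c / D.n) hq (c % D.n) hb
      rw [Nat.div_add_mod' c D.n] at this
      rw [this]
      exact h1 _ hb _ hq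
    · obtain ⟨e, rfl⟩ := Nat.exists_eq_add_of_le h
      have he : e < C.n * D.m := by omega
      have h0 : 0 < D.m := by
        rcases Nat.eq_zero_or_pos D.m with h0 | h0
        · rw [h0, Nat.mul_zero] at he; omega
        · exact h0
      have hb : e % D.m < D.m := Nat.mod_lt _ h0
      have hq : e / D.m < C.n := Nat.div_lt_of_lt_mul (by rwa [Nat.mul_comm])
      have := e2 (e / D.m) hq (e % D.m) hb
      rw [Nat.div_add_mod' e D.m] at this
      rw [this]
      exact h2 _ hq _ hb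

omit [Finite K] [PTCode K] in
theorem Cd.prod_ok {C D : Cd K} (hC : C.OK) (hD : D.OK) : (C.prod D).OK := by
  refine ⟨fun i hi => ?_, fun x hx h0 j hj => ?_⟩
  · have hi' : i < C.h * D.h := hi
    have h0 : 0 < D.h := by
      rcases Nat.eq_zero_or_pos D.h with h0 | h0
      · rw [h0, Nat.mul_zero] at hi'; omega
      · exact h0
    exact lt_prod (hC.1 _ (Nat.div_lt_of_lt_mul (by rwa [Nat.mul_comm])))
      (hD.1 _ (Nat.mod_lt _ h0))
  · obtain ⟨h1, h2⟩ := (C.prod_mem_iff D x).1 hx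
    have hj' : j < C.n * D.n := hj
    have hn0 : 0 < D.n := by
      rcases Nat.eq_zero_or_pos D.n with h0 | h0
      · rw [h0, Nat.mul_zero] at hj'; omega
      · exact h0
    have hq : j / D.n < C.n := Nat.div_lt_of_lt_mul (by rwa [Nat.mul_comm])
    have hr : j % D.n < D.n := Nat.mod_lt _ hn0
    have hcol : ∀ k < D.h, ∀ a < C.n, x (a * D.n + D.pos k) = 0 := by
      intro k hk a ha
      refine hC.2 (fun a => x (a * D.n + D.pos k)) (h1 _ (hD.1 k hk)) (fun i hi => ?_) a ha
      have hik : i * D.h + k < C.h * D.h := lt_prod hi hk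
      have := h0 (i * D.h + k) hik
      obtain ⟨hd, hm⟩ := divmod (a := i) hk
      simpa only [Cd.prod, hd, hm] using this
    have := hD.2 (fun b => x (j / D.n * D.n + b)) (h2 _ hq)
      (fun k hk => hcol k hk _ hq) (j % D.n) hr
    rwa [Nat.div_add_mod'] at this

omit [Finite K] in
theorem PTFCd.prod {C D : α → Cd K} (hC : PTFCd C) (hD : PTFCd D) :
    PTFCd (fun a => (C a).prod (D a)) := by
  classical
  have cn : ∀ {β : Type} [PTCode β] {f : β → α}, PTF f → PTF (fun b => (C (f b)).n) :=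
    fun hf => PTF.comp (g := fun a => (C a).n) hC.n.toPTF hf
  have cm : ∀ {β : Type} [PTCode β] {f : β → α}, PTF f → PTF (fun b => (C (f b)).m) :=
    fun hf => PTF.comp (g := fun a => (C a).m) hC.m.toPTF hf
  have dn : ∀ {β : Type} [PTCode β] {f : β → α}, PTF f → PTF (fun b => (D (f b)).n) :=
    fun hf => PTF.comp (g := fun a => (D a).n) hD.n.toPTF hf
  have dm : ∀ {β : Type} [PTCode β] {f : β → α}, PTF f → PTF (fun b => (D (f b)).m) :=
    fun hf => PTF.comp (g := fun a => (D a).m) hD.m.toPTF hf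
  have dh : ∀ {β : Type} [PTCode β] {f : β → α}, PTF f → PTF (fun b => (D (f b)).h) :=
    fun hf => PTF.comp (g := fun a => (D a).h) hD.h.toPTF hf
  refine ⟨PTU.mul hC.n hD.n, PTU.add (PTU.mul hC.m hD.n) (PTU.mul hC.n hD.m),
    PTU.mul hC.h hD.h, ?_, ?_⟩
  · show PTF (fun p : α × ℕ × ℕ => if p.2.1 < (C p.1).m * (D p.1).n then
      (if p.2.2 % (D p.1).n = p.2.1 % (D p.1).n then
        (C p.1).A (p.2.1 / (D p.1).n) (p.2.2 / (D p.1).n) else 0)
      else (if p.2.2 / (D p.1).n = (p.2.1 - (C p.1).m * (D p.1).n) / (D p.1).m then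
        (D p.1).A ((p.2.1 - (C p.1).m * (D p.1).n) % (D p.1).m) (p.2.2 % (D p.1).n) else 0))
    have h1 : PTF (fun p : α × ℕ × ℕ => (D p.1).n) := dn PTF.fst
    have h2 : PTF (fun p : α × ℕ × ℕ => (C p.1).m) := cm PTF.fst
    have h3 : PTF (fun p : α × ℕ × ℕ => (D p.1).m) := dm PTF.fst
    have hs : PTF (fun p : α × ℕ × ℕ => p.2.1 - (C p.1).m * (D p.1).n) :=
      PTF.natSub (by fun_prop) (PTF.natMul h2 h1)
    refine PTF.ite (PTPred.natLt (by fun_prop) (PTF.natMul h2 h1))
      (PTF.ite (PTPred.eq (PTF.natMod (by fun_prop) h1) (PTF.natMod (by fun_prop) h1)) ?_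
        (PTF.const 0))
      (PTF.ite (PTPred.eq (PTF.natDiv (by fun_prop) h1) (PTF.natDiv hs h3)) ?_ (PTF.const 0))
    · exact PTF.comp (g := fun p : α × ℕ × ℕ => (C p.1).A p.2.1 p.2.2)
        (f := fun p : α × ℕ × ℕ => (p.1, p.2.1 / (D p.1).n, p.2.2 / (D p.1).n)) hC.A
        (PTF.prodMk PTF.fst (PTF.prodMk (PTF.natDiv (by fun_prop) h1)
          (PTF.natDiv (by fun_prop) h1)))
    · exact PTF.comp (g := fun p : α × ℕ × ℕ => (D p.1).A p.2.1 p.2.2)
        (f := fun p : α × ℕ × ℕ => (p.1, (p.2.1 - (C p.1).m * (D p.1).n) % (D p.1).m,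
          p.2.2 % (D p.1).n)) hD.A
        (PTF.prodMk PTF.fst (PTF.prodMk (PTF.natMod hs h3) (PTF.natMod (by fun_prop) h1)))
  · show PTF (fun p : α × ℕ => (C p.1).pos (p.2 / (D p.1).h) * (D p.1).n +
      (D p.1).pos (p.2 % (D p.1).h))
    have h1 : PTF (fun p : α × ℕ => (D p.1).n) := dn PTF.fst
    have h2 : PTF (fun p : α × ℕ => (D p.1).h) := dh PTF.fst
    refine PTF.natAdd (PTF.natMul ?_ h1) ?_
    · exact PTF.comp (g := fun p : α × ℕ => (C p.1).pos p.2)
        (f := fun p : α × ℕ => (p.1, p.2 / (D p.1).h)) hC.pos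
        (PTF.prodMk PTF.fst (PTF.natDiv (by fun_prop) h2))
    · exact PTF.comp (g := fun p : α × ℕ => (D p.1).pos p.2)
        (f := fun p : α × ℕ => (p.1, p.2 % (D p.1).h)) hD.pos
        (PTF.prodMk PTF.fst (PTF.natMod (by fun_prop) h2))

end prod

/-! ### represented objects -/

section rep

variable {K : Type} [Field K]

/-- the table `C` represents the words `V` on units `G` with symbols `S` -/
structure Rep {G S : Type} (C : Cd K) (V : Set (G → S → K)) (ps : G → S → ℕ) (ix : G → ℕ)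
    (s0 : S) : Prop where
  ok : C.OK
  lt : ∀ g s, ps g s < C.n
  inj : ∀ g s g' s', ps g s = ps g' s' → g = g' ∧ s = s'
  surj : ∀ j < C.n, ∃ g s, ps g s = j
  mem : ∀ F, F ∈ V → ∀ x : ℕ → K, (∀ g s, x (ps g s) = F g s) → C.Mem x
  cont : ∀ i < C.h, ∃ g, ix g = i ∧ C.pos i = ps g s0

/-- an array with given symbols -/
noncomputable def Rep.arr {G S : Type} (ps : G → S → ℕ) (F : G → S → K) (j : ℕ) : K := by
  classical
  exact if h : ∃ p : G × S, ps p.1 p.2 = j then F h.choose.1 h.choose.2 else 0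

theorem Rep.arr_ps {G S : Type} {C : Cd K} {V : Set (G → S → K)} {ps : G → S → ℕ}
    {ix : G → ℕ} {s0 : S} (h : Rep C V ps ix s0) (F : G → S → K) (g : G) (s : S) :
    Rep.arr ps F (ps g s) = F g s := by
  classical
  have hex : ∃ p : G × S, ps p.1 p.2 = ps g s := ⟨(g, s), rfl⟩
  unfold Rep.arr
  rw [dif_pos hex]
  obtain ⟨e1, e2⟩ := h.inj _ _ _ _ hex.choose_spec
  rw [e1, e2]

/-- symbols of the word with content `u` -/
theorem Rep.enc_eq {G S : Type} {C : Cd K} {V : Set (G → S → K)} {ps : G → S → ℕ}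
    {ix : G → ℕ} {s0 : S} (h : Rep C V ps ix s0) {F : G → S → K} (hF : F ∈ V) {u : ℕ → K}
    (hu : ∀ g, F g s0 = u (ix g)) (g : G) (s : S) : getK (C.enc u) (ps g s) = F g s := by
  rw [Cd.enc_eq (x := Rep.arr ps F) h.ok (h.mem F hF _ fun g s => h.arr_ps F g s)
    (fun i hi => ?_) (h.lt g s), h.arr_ps F]
  obtain ⟨g', hg', hp⟩ := h.cont i hi
  rw [hp, h.arr_ps F, hu g', hg']

/-- words of the product of two objects: rows and columns -/
def tens {G G' S S' : Type} (V : Set (G → S → K)) (V' : Set (G' → S' → K)) :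
    Set (G × G' → S × S' → K) :=
  {F | (∀ g' s', (fun g s => F (g, g') (s, s')) ∈ V) ∧
    ∀ g s, (fun g' s' => F (g, g') (s, s')) ∈ V'}

omit [Field K] in
theorem mem_tens {G G' S S' : Type} {V : Set (G → S → K)} {V' : Set (G' → S' → K)}
    {F : G × G' → S × S' → K} : F ∈ tens V V' ↔
      (∀ g' s', (fun g s => F (g, g') (s, s')) ∈ V) ∧
        ∀ g s, (fun g' s' => F (g, g') (s, s')) ∈ V' := Iff.rfl

/-- product of represented objects -/
theorem Rep.prod {G G' S S' : Type} {C D : Cd K} {V : Set (G → S → K)}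
    {V' : Set (G' → S' → K)} {ps : G → S → ℕ} {ix : G → ℕ} {s0 : S} {ps' : G' → S' → ℕ}
    {ix' : G' → ℕ} {s0' : S'} (h : Rep C V ps ix s0) (h' : Rep D V' ps' ix' s0') :
    Rep (C.prod D) (tens V V') (fun g s => ps g.1 s.1 * D.n + ps' g.2 s.2)
      (fun g => ix g.1 * D.h + ix' g.2) (s0, s0') where
  ok := Cd.prod_ok h.ok h'.ok
  lt g s := lt_prod (h.lt _ _) (h'.lt _ _)
  inj := by
    rintro ⟨g, g'⟩ ⟨s, s'⟩ ⟨k, k'⟩ ⟨t, t'⟩ he
    simp only at he
    obtain ⟨a1, a2⟩ := divmod (a := ps g s) (h'.lt g' s')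
    obtain ⟨b1, b2⟩ := divmod (a := ps k t) (h'.lt k' t')
    rw [he] at a1 a2
    obtain ⟨rfl, rfl⟩ := h.inj _ _ _ _ (a1.symm.trans b1)
    obtain ⟨rfl, rfl⟩ := h'.inj _ _ _ _ (a2.symm.trans b2)
    exact ⟨rfl, rfl⟩
  surj := by
    intro j hj
    have hj' : j < C.n * D.n := hj
    have hn0 : 0 < D.n := by
      rcases Nat.eq_zero_or_pos D.n with h0 | h0
      · rw [h0, Nat.mul_zero] at hj'; omega
      · exact h0
    obtain ⟨g, s, hg⟩ := h.surj (j / D.n) (Nat.div_lt_of_lt_mul (by rwa [Nat.mul_comm]))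
    obtain ⟨g', s', hg'⟩ := h'.surj (j % D.n) (Nat.mod_lt _ hn0)
    refine ⟨(g, g'), (s, s'), ?_⟩
    simp only [hg, hg', Nat.div_add_mod']
  mem := by
    rintro F ⟨h1, h2⟩ x hx
    rw [Cd.prod_mem_iff]
    refine ⟨fun b hb => ?_, fun a ha => ?_⟩
    · obtain ⟨g', s', rfl⟩ := h'.surj b hb
      exact h.mem _ (h1 g' s') _ fun g s => hx (g, g') (s, s')
    · obtain ⟨g, s, rfl⟩ := h.surj a ha
      exact h'.mem _ (h2 g s) _ fun g' s' => hx (g, g') (s, s')
  cont := by
    intro i hi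
    have hi' : i < C.h * D.h := hi
    have h0 : 0 < D.h := by
      rcases Nat.eq_zero_or_pos D.h with h0 | h0
      · rw [h0, Nat.mul_zero] at hi'; omega
      · exact h0
    obtain ⟨g, hg, hp⟩ := h.cont (i / D.h) (Nat.div_lt_of_lt_mul (by rwa [Nat.mul_comm]))
    obtain ⟨g', hg', hp'⟩ := h'.cont (i % D.h) (Nat.mod_lt _ h0)
    refine ⟨(g, g'), ?_, ?_⟩
    · simp only [hg, hg', Nat.div_add_mod']
    · show C.pos (i / D.h) * D.n + D.pos (i % D.h) = _
      rw [hp, hp']

/-- pure tensors -/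
theorem tens_mul {G G' S S' : Type} {V : Set (G → S → K)} {V' : Set (G' → S' → K)}
    (hV : ∀ f ∈ V, ∀ c : K, (fun g s => f g s * c) ∈ V)
    (hV' : ∀ f ∈ V', ∀ c : K, (fun g s => c * f g s) ∈ V') {f : G → S → K} {f' : G' → S' → K}
    (hf : f ∈ V) (hf' : f' ∈ V') : (fun g s => f g.1 s.1 * f' g.2 s.2) ∈ tens V V' :=
  ⟨fun g' s' => hV f hf (f' g' s'), fun g s => hV' f' hf' (f g s)⟩

end rep

section ptf

variable {K : Type} [Field K] [Finite K] [PTCode K]
variable {α : Type} [PTCode α]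

/-- the symbol at a position with PTF number, of the word with PTF content -/
theorem ptf_sym {C : α → Cd K} (hC : PTFCd C) {u : α → ℕ → K}
    (hu : PTF (fun p : α × ℕ => u p.1 p.2)) {pn : α → ℕ → ℕ}
    (hp : PTF (fun p : α × ℕ => pn p.1 p.2)) :
    PTF (fun p : α × ℕ => getK ((C p.1).enc (u p.1)) (pn p.1 p.2)) := by
  refine ptf_getK ?_ hp
  refine ptf_cdEnc (hC.comp PTF.fst) ?_
  exact PTF.comp (g := fun p : α × ℕ => u p.1 p.2)
    (f := fun q : (α × ℕ) × ℕ => (q.1.1, q.2)) hu (by fun_prop)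

end ptf

end Crest.Agent.R289.Pub117
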