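import Crest.Agent.R289.ObjPub_683
import Crest.Agent.R289.ObjPub3_117
import Crest.Agent.R289.GamObj_821

/-!
# Row 289, E24: tables of the words with given contents, one factor and `Gam = P k × P k'` (helper683)

* `rep1 hD k` : 117's `Rep` for the words `cmod D k 1` of level `k` (821's vocabulary);
* `word_tab1` : words of `cmod D (k a) 1` with PTF contents have PTF symbols (numbering `D.ix`);
* `rep2`, `word_tab2` : the same for `gmod D (k a) (k' a) 1` (numbering `eP (D.ix _) (D.ix _)`);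
* relative forms (`raw : ι → α`): `tb_word1`, `tb_word2`, `tb_genc` (contents table ⇒ symbols table),
  `tbT_word1` (contents depending on a time).
-/

set_option autoImplicit false
set_option linter.dupNamespace false
set_option linter.unusedSectionVars false

namespace Crest.Agent.R289.ObjRep683

open Crest.Agent.Lib.PT Crest.Agent.Lib.PT.Arith Crest.Agent.R288.PtDp115
open Crest.Agent.R289.Gauss115 Crest.Agent.R289.Pub117 Crest.Agent.R289.ObjPub683
open Crest.Agent.R289.YIdx901 Crest.Agent.R289.Asm12 Crest.Agent.R289.ObjTO821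
open Crest.Agent.R289.GamObj821

variable (D : Obj)

/-- position number of the symbol `s` at the unit `g` -/
noncomputable def ps (k : ℕ) (g : D.P k) (s : Sy D) : ℕ := pos D (D.ix k g) s.1 s.2

/-- words of the code of degree one, as a set -/
def W1 (k : ℕ) : Set (D.P k → Sy D → D.K) := {f | f ∈ cmod D k 1}

variable {D}

theorem rep1 {M0 : ℕ} {lam0 Kr : ℝ} (hD : D.OK M0 lam0 Kr) (k : ℕ) :
    Rep (cd D 1 k) (W1 D k) (ps D k) (fun g => (D.ix k g : ℕ)) (sy0 D) where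
  ok := cd_ok hD k
  lt g s := pos_lt D (D.ix k g).2 _ _
  inj := by
    rintro g ⟨l, m⟩ g' ⟨l', m'⟩ h
    obtain ⟨h1, h2, h3⟩ := pos_inj D h
    have h2 : l = l' := h2
    have h3 : m = m' := h3
    exact ⟨(D.ix k).injective (Fin.ext h1), by rw [h2, h3]⟩
  surj j hj := by
    obtain ⟨g, l, m, h⟩ := exists_pos D hj
    exact ⟨g, (l, m), h.symm⟩
  mem F hF x hx := by
    rw [cd_mem_iff hD]
    have h1 : (fun g l m => x (pos D (D.ix k g) l m)) = fun g l m => F g (l, m) := by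
      funext g l m
      exact hx g (l, m)
    rw [h1]
    exact (mem_cmod D).1 hF
  cont i hi := by
    refine ⟨(D.ix k).symm ⟨i, hi⟩, by simp, ?_⟩
    show pos D i D.z0 D.w0 = pos D _ D.z0 D.w0
    simp

variable (D) in
/-- words of degree one on `Gam`, as a set -/
def W2 (k k' : ℕ) : Set (Gam D k k' → SyG D → D.K) := {F | (fun x => F x.1 x.2) ∈ gmod D k k' 1}

theorem W2_tens {k k' : ℕ} {F : Gam D k k' → SyG D → D.K} (hF : F ∈ W2 D k k') :
    F ∈ Pub117.tens (W1 D k) (W1 D k') :=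
  ⟨fun g' s' => hF.1 (g', s'), fun g s => hF.2 (g, s)⟩

theorem rep2 {M0 : ℕ} {lam0 Kr : ℝ} (hD : D.OK M0 lam0 Kr) (k k' : ℕ) :
    Rep ((cd D 1 k).prod (cd D 1 k')) (Pub117.tens (W1 D k) (W1 D k'))
      (fun g s => ps D k g.1 s.1 * (cd D 1 k').n + ps D k' g.2 s.2)
      (fun g => (D.ix k g.1 : ℕ) * (cd D 1 k').h + (D.ix k' g.2 : ℕ)) (syG0 D) :=
  Rep.prod (rep1 hD k) (rep1 hD k')

section tab

variable {α : Type} [PTCode α] {M0 : ℕ} {lam0 Kr : ℝ}

/-- **words of one factor with PTF contents have PTF symbols** -/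
theorem word_tab1 (hD : D.OK M0 lam0 Kr) {k : α → ℕ} (hk : PTU k) (hQ : PTU fun a => D.Q ^ k a)
    {u : α → ℕ → D.K} (hu : PTF (fun p : α × ℕ => u p.1 p.2)) (s : Sy D) :
    ∃ t : α → ℕ → D.K, PTF (fun p : α × ℕ => t p.1 p.2) ∧
      ∀ a (F : D.P (k a) → Sy D → D.K), F ∈ cmod D (k a) 1 →
        (∀ g, F g (sy0 D) = u a (D.ix (k a) g)) → ∀ g, t a (D.ix (k a) g) = F g s := by
  refine ⟨fun a g => sym D (k a) (u a) g s.1 s.2, ?_, ?_⟩
  · refine ptf_sym (α := α × ℕ) (k := fun p => k p.1) (u := fun p => u p.1)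
      (g := fun p => p.2) hD (PTU.comp (n := k) hk PTF.fst)
      (PTU.comp (n := fun a => D.Q ^ k a) hQ PTF.fst) ?_ PTF.snd s.1 s.2
    exact PTF.comp (g := fun p : α × ℕ => u p.1 p.2)
      (f := fun q : (α × ℕ) × ℕ => (q.1.1, q.2)) hu (by fun_prop)
  · intro a F hF hc g
    have := (rep1 hD (k a)).enc_eq (F := F) hF (u := u a) hc g s
    exact this

/-- **words of `Gam` with PTF contents have PTF symbols** -/
theorem word_tab2 (hD : D.OK M0 lam0 Kr) {k k' : α → ℕ} (hk : PTU k)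
    (hQ : PTU fun a => D.Q ^ k a) (hk' : PTU k') (hQ' : PTU fun a => D.Q ^ k' a)
    {u : α → ℕ → D.K} (hu : PTF (fun p : α × ℕ => u p.1 p.2)) (s : SyG D) :
    ∃ t : α → ℕ → D.K, PTF (fun p : α × ℕ => t p.1 p.2) ∧
      ∀ a (F : Om D (k a) (k' a) → D.K), F ∈ gmod D (k a) (k' a) 1 →
        (∀ g : Gam D (k a) (k' a), F (g, syG0 D) =
          u a (eP (D.ix (k a)) (D.ix (k' a)) g : Fin _)) →
        ∀ g : Gam D (k a) (k' a), t a (eP (D.ix (k a)) (D.ix (k' a)) g : Fin _) = F (g, s) := by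
  refine ⟨fun a w => getK (((cd D 1 (k a)).prod (cd D 1 (k' a))).enc (u a))
    (pos D (w / D.Q ^ k' a) s.1.1 s.1.2 * nPos D (k' a) +
      pos D (w % D.Q ^ k' a) s.2.1 s.2.2), ?_, ?_⟩
  · have h1 := ptfCd_cd hD 1 hk hQ
    have h2 := ptfCd_cd hD 1 hk' hQ'
    have hq : PTF (fun p : α × ℕ => D.Q ^ k' p.1) :=
      PTF.comp (g := fun a => D.Q ^ k' a) hQ'.toPTF PTF.fst
    have hn : PTF (fun p : α × ℕ => nPos D (k' p.1)) :=
      PTF.comp (g := fun a => nPos D (k' a)) h2.n.toPTF PTF.fst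
    refine Pub117.ptf_sym (PTFCd.prod h1 h2) hu (pn := fun a w =>
      pos D (w / D.Q ^ k' a) s.1.1 s.1.2 * nPos D (k' a) +
      pos D (w % D.Q ^ k' a) s.2.1 s.2.2) ?_
    refine PTF.natAdd (PTF.natMul (ptf_pos D ?_ _ _) hn) (ptf_pos D ?_ _ _)
    · exact PTF.natDiv (by fun_prop) hq
    · exact PTF.natMod (by fun_prop) hq
  · intro a F hF hc g
    have hF' : (fun g s => F (g, s)) ∈ Pub117.tens (W1 D (k a)) (W1 D (k' a)) :=
      W2_tens (F := fun g s => F (g, s)) hF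
    have hh : (cd D 1 (k' a)).h = D.Q ^ k' a := rfl
    have h0 := (rep2 hD (k a) (k' a)).enc_eq (F := fun g s => F (g, s)) hF' (u := u a)
      (fun g => by
        rw [hc g, eP_val]
        show u a (pI _ _ _) = u a _
        unfold pI
        rw [hh]
        congr 1
        ring) g s
    show getK _ (pos D ((eP (D.ix (k a)) (D.ix (k' a)) g : Fin _) / D.Q ^ k' a) s.1.1 s.1.2 *
      nPos D (k' a) + pos D ((eP (D.ix (k a)) (D.ix (k' a)) g : Fin _) % D.Q ^ k' a)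
        s.2.1 s.2.2) = _
    rw [eP_div, eP_mod]
    exact h0

/-! ### relative forms: `raw : ι → α`, levels `k (raw i)` -/

variable {ι : Type} {raw : ι → α}

/-- table of contents ⇒ table of symbols, one factor (words `F i`) -/
theorem tb_word1 (hD : D.OK M0 lam0 Kr) {k : α → ℕ} (hk : PTU k) (hQ : PTU fun a => D.Q ^ k a)
    {c : ∀ i, D.P (k (raw i)) → D.K}
    (hc : ∃ u : α → ℕ → D.K, PTF₂ u ∧ ∀ i g, u (raw i) (D.ix (k (raw i)) g) = c i g)
    {F : ∀ i, D.P (k (raw i)) → Sy D → D.K} (hF : ∀ i, F i ∈ cmod D (k (raw i)) 1)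
    (hFc : ∀ i g, F i g (sy0 D) = c i g) (s : Sy D) :
    ∃ t : α → ℕ → D.K, PTF₂ t ∧ ∀ i g, t (raw i) (D.ix (k (raw i)) g) = F i g s := by
  obtain ⟨u, hu, hc⟩ := hc
  obtain ⟨t, ht, h⟩ := word_tab1 hD hk hQ (u := u) hu s
  exact ⟨t, ht, fun i g => h (raw i) (F i) (hF i) (fun g => by rw [hFc, hc]) g⟩

/-- table of contents ⇒ table of symbols, one factor, contents and words depending on a time -/
theorem tbT_word1 (hD : D.OK M0 lam0 Kr) {k : α → ℕ} (hk : PTU k) (hQ : PTU fun a => D.Q ^ k a)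
    {c : ∀ i, ℕ → D.P (k (raw i)) → D.K}
    (hc : ∃ u : α → ℕ → ℕ → D.K, PTF (fun p : α × ℕ × ℕ => u p.1 p.2.1 p.2.2) ∧
      ∀ i n g, u (raw i) n (D.ix (k (raw i)) g) = c i n g)
    {F : ∀ i, ℕ → D.P (k (raw i)) → Sy D → D.K} (hF : ∀ i n, F i n ∈ cmod D (k (raw i)) 1)
    (hFc : ∀ i n g, F i n g (sy0 D) = c i n g) (s : Sy D) :
    ∃ t : α → ℕ → ℕ → D.K, PTF (fun p : α × ℕ × ℕ => t p.1 p.2.1 p.2.2) ∧
      ∀ i n g, t (raw i) n (D.ix (k (raw i)) g) = F i n g s := by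
  obtain ⟨u, hu, hc⟩ := hc
  have hu' : PTF (fun p : (α × ℕ) × ℕ => u p.1.1 p.1.2 p.2) :=
    PTF.comp (g := fun p : α × ℕ × ℕ => u p.1 p.2.1 p.2.2)
      (f := fun q : (α × ℕ) × ℕ => (q.1.1, q.1.2, q.2)) hu (by fun_prop)
  obtain ⟨t, ht, h⟩ := word_tab1 (α := α × ℕ) (k := fun p => k p.1) hD
    (PTU.comp (n := k) hk PTF.fst) (PTU.comp (n := fun a => D.Q ^ k a) hQ PTF.fst)
    (u := fun p => u p.1 p.2) hu' s
  refine ⟨fun a n w => t (a, n) w, ?_, fun i n g => h (raw i, n) (F i n) (hF i n)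
    (fun g => by rw [hFc, hc]) g⟩
  exact PTF.comp (g := fun p : (α × ℕ) × ℕ => t p.1 p.2)
    (f := fun q : α × ℕ × ℕ => ((q.1, q.2.1), q.2.2)) ht (by fun_prop)

/-- table of contents ⇒ table of symbols on `Gam` (words `F i`) -/
theorem tb_word2 (hD : D.OK M0 lam0 Kr) {k k' : α → ℕ} (hk : PTU k)
    (hQ : PTU fun a => D.Q ^ k a) (hk' : PTU k') (hQ' : PTU fun a => D.Q ^ k' a)
    {c : ∀ i, Gam D (k (raw i)) (k' (raw i)) → D.K}
    (hc : ∃ u : α → ℕ → D.K, PTF₂ u ∧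
      ∀ i g, u (raw i) (eP (D.ix (k (raw i))) (D.ix (k' (raw i))) g : Fin _) = c i g)
    {F : ∀ i, Om D (k (raw i)) (k' (raw i)) → D.K}
    (hF : ∀ i, F i ∈ gmod D (k (raw i)) (k' (raw i)) 1)
    (hFc : ∀ i g, F i (g, syG0 D) = c i g) (s : SyG D) :
    ∃ t : α → ℕ → D.K, PTF₂ t ∧
      ∀ i g, t (raw i) (eP (D.ix (k (raw i))) (D.ix (k' (raw i))) g : Fin _) = F i (g, s) := by
  obtain ⟨u, hu, hc⟩ := hc
  obtain ⟨t, ht, h⟩ := word_tab2 hD hk hQ hk' hQ' (u := u) hu s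
  exact ⟨t, ht, fun i g => h (raw i) (F i) (hF i) (fun g => by rw [hFc, hc]) g⟩

/-- **table of contents ⇒ table of symbols of 821's `genc`** -/
theorem tb_genc (hD : D.OK M0 lam0 Kr) {k k' : α → ℕ} (hk : PTU k)
    (hQ : PTU fun a => D.Q ^ k a) (hk' : PTU k') (hQ' : PTU fun a => D.Q ^ k' a)
    {c : ∀ i, Gam D (k (raw i)) (k' (raw i)) → D.K}
    (hc : ∃ u : α → ℕ → D.K, PTF₂ u ∧
      ∀ i g, u (raw i) (eP (D.ix (k (raw i))) (D.ix (k' (raw i))) g : Fin _) = c i g)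
    (s : SyG D) :
    ∃ t : α → ℕ → D.K, PTF₂ t ∧
      ∀ i g, t (raw i) (eP (D.ix (k (raw i))) (D.ix (k' (raw i))) g : Fin _) =
        genc hD (c i) (g, s) :=
  tb_word2 hD hk hQ hk' hQ' hc (fun i => genc_mem hD (c i)) (fun i g => genc_content hD (c i) g) s

end tab

end Crest.Agent.R289.ObjRep683
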