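import Crest.Agent.R289.GkMul_940
import Crest.Agent.R289.Level_940

/-!
# R289: the table fields of `Obj.OK` (helper940)

Group of level `k` of the object: `P k = U hσ (2 * k) 1` (`SkewGrp_877`), `|P k| = (q^3)^k`.
A unary argument `x : Un × Un` stands for (level, order of the group); `kg x` = `2 * level` if the
order is right and `0` otherwise, so that `qK K ^ (kg x + 1)` is polynomially bounded.

* `ix k : U hσ (2 * k) 1 ≃ Fin ((q σ ^ 3) ^ k)`;
* `tmul, tinv, tchi, tgen` : tables, with `tmul_eq, tinv_eq, tchi_eq, tgen_eq` and `ptf_*`;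
* `chi_mul, chi_conj, chi_sep` : the digits `chi k i u` = coefficient of `τ^(i+1)`.
-/

set_option autoImplicit false
set_option linter.dupNamespace false

namespace Crest.Agent.R289.ObjTab940

open Crest.Agent.Lib.PT Crest.Agent.Lib.PT.Arith Crest.Agent.R288.PtDp115
open Crest.Agent.R289.Gauss115 Crest.Agent.R289.GkIdx594 Crest.Agent.R289.SkewGrp877
open Crest.Agent.R289.Size954 Crest.Agent.R289.GkMul940 Crest.Agent.R289.Level940

/-! ### guard -/

/-- level (doubled) of a unary pair (level, order) -/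
def kg (Q : ℕ) (x : Un × Un) : ℕ := if Q ^ x.1.val = x.2.val then 2 * x.1.val else 0

@[simp] theorem kg_eq (Q k : ℕ) : kg Q (Un.mk k, Un.mk (Q ^ k)) = 2 * k := by
  unfold kg
  rw [if_pos rfl]

theorem ptu_fst : PTU (fun x : Un × Un => x.1.val) := PTU.val PTF.fst

theorem ptu_snd : PTU (fun x : Un × Un => x.2.val) := PTU.val PTF.snd

theorem ptu_kg (Q : ℕ) : PTU (kg Q) := by
  unfold kg
  refine PTU.ite (p := fun x : Un × Un => Q ^ x.1.val = x.2.val) ?_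
    (PTU.mul (PTU.const 2) ptu_fst) (PTU.const 0)
  exact PTPred.natEq (PTF.natPow (PTF.const Q) ptu_fst) ptu_snd.toPTF

section guard

variable {K : Type} [Field K] [Finite K] {σ : K →+* K}
variable (hσ : ∀ x, σ (σ x) = x) (h2 : (2 : K) ≠ 0) (hne : ∃ x, σ x ≠ x)

include hσ h2 hne in
theorem ptu_qkg : PTU (fun x => qK K ^ (kg (q σ ^ 3) x + 1)) := by
  refine ptu_pow_of_pb (qK K) (PTU.succ (ptu_kg _)) ?_
  have h : PB (fun x : Un × Un => q σ ^ 2 * x.2.val ^ 2 + q σ ^ 2) :=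
    ((PB.const (q σ ^ 2)).mul (ptu_snd.pb.pow 2)).add (PB.const (q σ ^ 2))
  refine h.mono fun x => ?_
  rw [qK_eq hσ h2 hne]
  unfold kg
  split_ifs with hx
  · have e : (q σ * q σ) ^ (2 * x.1.val + 1) ≤ q σ ^ 2 * ((q σ ^ 3) ^ x.1.val) ^ 2 := by
      rw [← pow_two, ← pow_mul, ← pow_mul, ← pow_mul, ← pow_add]
      exact Nat.pow_le_pow_right (by have := two_le_q (σ := σ); omega) (by ring_nf; omega)
    rw [hx] at e
    exact e.trans (Nat.le_add_right _ _)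
  · rw [zero_add, pow_one, ← pow_two]
    exact Nat.le_add_left _ _

end guard

/-! ### numbering -/

section num

variable {K : Type} [Field K] [Finite K] [Inhabited K] {σ : K →+* K}
variable (hσ : ∀ x, σ (σ x) = x) (h2 : (2 : K) ≠ 0) (hne : ∃ x, σ x ≠ x)

include hσ h2 hne in
theorem numU_two_mul (k : ℕ) : numU σ (2 * k) 1 = (q σ ^ 3) ^ k := by
  rw [numU_eq_card hσ, card_P hσ h2 hne, ← pow_mul]
  congr 1
  unfold hx
  omega

/-- numbering of the group of level `k` -/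
noncomputable def ix (k : ℕ) : U hσ (2 * k) 1 ≃ Fin ((q σ ^ 3) ^ k) :=
  (eU hσ (2 * k) 1).trans (finCongr (numU_two_mul hσ h2 hne k))

theorem ix_val (k : ℕ) (u : U hσ (2 * k) 1) :
    ((ix hσ h2 hne k u : Fin _) : ℕ) = noL σ (2 * k) 1 (uL (u : (R σ (2 * k))ˣ)) := rfl

theorem ix_val' (k : ℕ) (u : U hσ (2 * k) 1) :
    ((ix hσ h2 hne k u : Fin _) : ℕ) = (eU hσ (2 * k) 1 u : Fin _) := rfl

/-- table of the multiplication -/
noncomputable def tmul (σ : K →+* K) (x : (Un × Un) × ℕ × ℕ) : ℕ :=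
  mulN σ (kg (q σ ^ 3) x.1) 1 x.2.1 x.2.2

/-- table of the inverses -/
noncomputable def tinv (σ : K →+* K) (x : (Un × Un) × ℕ) : ℕ :=
  invN σ (kg (q σ ^ 3) x.1) 1 x.2

/-- table of the digits -/
noncomputable def tchi (σ : K →+* K) (x : (Un × Un) × ℕ × ℕ) : K :=
  getK (elL σ (kg (q σ ^ 3) x.1) 1 x.2.2) (x.2.1 + 1)

/-- number of a group element given by its digit lists `gl (2 k)` -/
noncomputable def tgen (σ : K →+* K) (gl : ℕ → List K) (x : Un × Un) : ℕ :=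
  noL σ (kg (q σ ^ 3) x) 1 (gl (kg (q σ ^ 3) x))

/-- number of `1` -/
noncomputable def tone (σ : K →+* K) (x : Un × Un) : ℕ := oneN σ (kg (q σ ^ 3) x) 1

theorem tmul_eq (k : ℕ) (u v : U hσ (2 * k) 1) :
    tmul σ ((Un.mk k, Un.mk ((q σ ^ 3) ^ k)), (ix hσ h2 hne k u : Fin _),
      (ix hσ h2 hne k v : Fin _)) = (ix hσ h2 hne k (u * v) : Fin _) := by
  unfold tmul
  simp only [kg_eq]
  rw [ix_val', ix_val', ix_val', eU_mul hσ]

theorem tinv_eq (k : ℕ) (u : U hσ (2 * k) 1) :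
    tinv σ ((Un.mk k, Un.mk ((q σ ^ 3) ^ k)), (ix hσ h2 hne k u : Fin _)) =
      (ix hσ h2 hne k u⁻¹ : Fin _) := by
  unfold tinv
  simp only [kg_eq]
  rw [ix_val', ix_val', eU_inv hσ]

theorem tone_eq (k : ℕ) :
    tone σ (Un.mk k, Un.mk ((q σ ^ 3) ^ k)) = (ix hσ h2 hne k 1 : Fin _) := by
  unfold tone
  simp only [kg_eq]
  rw [ix_val', eU_one hσ]

theorem tchi_eq (k i : ℕ) (u : U hσ (2 * k) 1) :
    tchi σ ((Un.mk k, Un.mk ((q σ ^ 3) ^ k)), i, (ix hσ h2 hne k u : Fin _)) =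
      c ((u : (R σ (2 * k))ˣ) : R σ (2 * k)) (i + 1) := by
  unfold tchi
  simp only [kg_eq]
  rw [ix_val', elL_eU hσ]
  exact getK_toL _ _

theorem tgen_eq (gl : ℕ → List K) (k : ℕ) (g : U hσ (2 * k) 1)
    (hg : gl (2 * k) = uL (g : (R σ (2 * k))ˣ)) :
    tgen σ gl (Un.mk k, Un.mk ((q σ ^ 3) ^ k)) = (ix hσ h2 hne k g : Fin _) := by
  unfold tgen
  simp only [kg_eq]
  rw [hg, ix_val]

/-! ### digits -/

omit [Finite K] [Inhabited K] in
theorem c_zero_of_mem {m : ℕ} {u : (R σ m)ˣ} (hu : u ∈ U hσ m 1) : c (u : R σ m) 0 = 1 := by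
  have h := hu.2 0 (by omega)
  rw [c_sub, c_one (Nat.zero_le m), if_pos rfl, sub_eq_zero] at h
  exact h

omit [Finite K] [Inhabited K] in
theorem mem_U_of_digits {m i : ℕ} {u : (R σ m)ˣ} (hu : u ∈ U hσ m 1)
    (h : ∀ j < i, c (u : R σ m) (j + 1) = 0) : u ∈ U hσ m (i + 1) := by
  refine ⟨hu.1, fun n hn => ?_⟩
  by_cases hnm : n ≤ m
  · rcases n with _ | n
    · exact hu.2 0 (by omega)
    · rw [c_sub, c_one hnm, if_neg (by omega), sub_zero]
      exact h n (by omega)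
  · exact c_gt _ (by omega)

omit [Finite K] [Inhabited K] in
theorem c_sub_one {m n : ℕ} (x : R σ m) : c (x - 1) (n + 1) = c x (n + 1) := by
  by_cases h : n + 1 ≤ m
  · rw [c_sub, c_one h, if_neg (by omega), sub_zero]
  · rw [c_gt _ (by omega), c_gt _ (by omega)]

omit [Finite K] [Inhabited K] in
theorem digit_mul {m i : ℕ} {u v : (R σ m)ˣ} (hu : u ∈ U hσ m 1) (hv : v ∈ U hσ m 1)
    (hu' : ∀ j < i, c (u : R σ m) (j + 1) = 0) (hv' : ∀ j < i, c (v : R σ m) (j + 1) = 0) :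
    c ((u * v : (R σ m)ˣ) : R σ m) (i + 1) = c (u : R σ m) (i + 1) + c (v : R σ m) (i + 1) := by
  have h := lead_mul hσ (by omega) (mem_U_of_digits hσ hu hu') (mem_U_of_digits hσ hv hv')
  rwa [c_sub_one, c_sub_one, c_sub_one] at h

omit [Finite K] [Inhabited K] in
theorem digit_conj {m i : ℕ} {h u : (R σ m)ˣ} (hh : h ∈ U hσ m 1) (hu : u ∈ U hσ m 1)
    (hu' : ∀ j < i, c (u : R σ m) (j + 1) = 0) :
    c ((h⁻¹ * u * h : (R σ m)ˣ) : R σ m) (i + 1) = c (u : R σ m) (i + 1) := by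
  by_cases hm : i + 1 ≤ m
  · have hU := mem_U_of_digits hσ hu hu'
    have hi : h⁻¹ ∈ U hσ m 1 := inv_mem hh
    have e : ((h⁻¹ * u * h : (R σ m)ˣ) : R σ m) - 1 =
        ((h⁻¹ : (R σ m)ˣ) : R σ m) * ((u : R σ m) - 1) * (h : R σ m) := by
      rw [Units.val_mul, Units.val_mul, mul_sub, sub_mul, mul_one, Units.inv_mul]
    have h1 : J (i + 1) (((h⁻¹ : (R σ m)ˣ) : R σ m) * ((u : R σ m) - 1)) := hU.2.mul_left _
    rw [← c_sub_one, e]
    have h3 := c_mul_lead (i := i + 1) (j := 0) h1 (J_zero (h : R σ m)) hm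
    have h4 := c_mul_lead (i := 0) (j := i + 1) (J_zero ((h⁻¹ : (R σ m)ˣ) : R σ m)) hU.2
      (by omega)
    rw [add_zero] at h3
    rw [zero_add] at h4
    rw [h3, h4, c_zero_of_mem hσ hh, c_zero_of_mem hσ hi, map_one, mul_one, one_mul, pow_zero,
      c_sub_one]
    rfl
  · rw [c_gt _ (by omega), c_gt _ (by omega)]

omit [Finite K] [Inhabited K] in
theorem digit_sep {m : ℕ} {u : (R σ m)ˣ} (hu : u ∈ U hσ m 1)
    (h : ∀ i < m, c (u : R σ m) (i + 1) = 0) : u = 1 := by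
  refine Units.ext (ext' fun n hn => ?_)
  rw [Units.val_one, c_one hn]
  rcases n with _ | n
  · rw [c_zero_of_mem hσ hu, if_pos rfl]
  · rw [h n (by omega), if_neg (by omega)]

/-- digits by the table -/
noncomputable def chi (k i : ℕ) (u : U hσ (2 * k) 1) : K :=
  tchi σ ((Un.mk k, Un.mk ((q σ ^ 3) ^ k)), i, (ix hσ h2 hne k u : Fin _))

theorem chi_mul (k i : ℕ) (u v : U hσ (2 * k) 1) (hu : ∀ j < i, chi hσ h2 hne k j u = 0)
    (hv : ∀ j < i, chi hσ h2 hne k j v = 0) :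
    chi hσ h2 hne k i (u * v) = chi hσ h2 hne k i u + chi hσ h2 hne k i v := by
  unfold chi at *
  simp only [tchi_eq] at *
  exact digit_mul hσ u.2 v.2 hu hv

theorem chi_conj (k i : ℕ) (h u : U hσ (2 * k) 1) (hu : ∀ j < i, chi hσ h2 hne k j u = 0) :
    chi hσ h2 hne k i (h⁻¹ * u * h) = chi hσ h2 hne k i u := by
  unfold chi at *
  simp only [tchi_eq] at *
  exact digit_conj hσ h.2 u.2 hu

theorem chi_sep (k : ℕ) (u : U hσ (2 * k) 1) (hu : ∀ i < 2 * k, chi hσ h2 hne k i u = 0) :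
    u = 1 := by
  unfold chi at hu
  simp only [tchi_eq] at hu
  exact Subtype.ext (digit_sep hσ u.2 hu)

end num

/-! ### polynomial time -/

section pt

variable {K : Type} [Field K] [Finite K] [Inhabited K] [PTCode K] {σ : K →+* K}
variable (hσ : ∀ x, σ (σ x) = x) (h2 : (2 : K) ≠ 0) (hne : ∃ x, σ x ≠ x)

include hσ h2 hne

theorem ptu_kg_fst {β : Type} [PTCode β] :
    PTU (fun x : (Un × Un) × β => kg (q σ ^ 3) x.1) := PTU.comp (ptu_kg _) PTF.fst

theorem ptu_qkg_fst {β : Type} [PTCode β] :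
    PTU (fun x : (Un × Un) × β => qK K ^ (kg (q σ ^ 3) x.1 + 1)) :=
  PTU.comp (n := fun x => qK K ^ (kg (q σ ^ 3) x + 1)) (ptu_qkg hσ h2 hne) PTF.fst

theorem ptf_tmul : PTF (tmul σ) := by
  unfold tmul
  exact ptf_mulN 1 (ptu_kg_fst hσ h2 hne) (ptu_qkg_fst hσ h2 hne)
    (PTF.comp (g := Prod.fst) PTF.fst PTF.snd) (PTF.comp (g := Prod.snd) PTF.snd PTF.snd)

theorem ptf_tinv : PTF (tinv σ) := by
  unfold tinv
  exact ptf_invN 1 (ptu_kg_fst hσ h2 hne) (ptu_qkg_fst hσ h2 hne) PTF.snd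

theorem ptf_tchi : PTF (tchi σ) := by
  unfold tchi
  exact ptf_getK (ptf_elL 1 (ptu_kg_fst hσ h2 hne) (ptu_qkg_fst hσ h2 hne)
    (PTF.comp (g := Prod.snd) PTF.snd PTF.snd))
    (PTF.natAdd (PTF.comp (g := Prod.fst) PTF.fst PTF.snd) (PTF.const 1))

theorem ptf_tone : PTF (tone σ) := by
  unfold tone
  exact ptf_oneN 1 (ptu_kg _) (ptu_qkg hσ h2 hne)

theorem ptf_tgen {gl : ℕ → List K} (hgl : PTF (fun x : Un => gl x.val)) : PTF (tgen σ gl) := by
  unfold tgen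
  refine ptf_noL 1 (ptu_kg _) (ptu_qkg hσ h2 hne) ?_
  exact PTF.comp (g := fun x : Un => gl x.val) (f := fun x => Un.mk (kg (q σ ^ 3) x)) hgl
    (PTF.unMk (ptu_kg _))

end pt

end Crest.Agent.R289.ObjTab940
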