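import Crest.Agent.R289.TabObj_480
import Crest.Agent.R289.ObjDef_233
import Crest.Agent.R289.Nu_547
import Crest.Agent.R289.ObjP_954

/-!
# Row 289: numbering, tables, `isP` of the concrete object `ObjDef233.Par`

Literal fields `ix, aN, bN, mulN, invN`, `ptf_a .. inv_eq`, `isP` of `Asm12.Obj.OK`.
-/

set_option autoImplicit false
set_option linter.unusedSectionVars false

namespace Crest.Agent.R289.ObjTabs480

open Crest.Agent.Lib.PT
open Crest.Agent.R289.SkewGrp877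
open Crest.Agent.R289.PTab480 Crest.Agent.R289.Gauss115
open Crest.Agent.R289.GkIdx594 (qK qK_eq_card)
open Crest.Agent.R289.Nu547 (st nu_val tr_be Cen_unique Cen_cen cen_sq tr_J)

/-! ### the steps `alP` of 547 are the normalised `be` -/

section steps

variable {K : Type} [Field K] [Finite K] {σ : K →+* K}

theorem tr_be_el (hσ : ∀ a, σ (σ a) = a) (k : ℕ) (x : K) (i : Option K) :
    (Exp820.tr k (Fac281.be σ x (Mob459.sec i)) : R σ k) =
      TPgrp547.el σ k (TPgrp547.bet σ x (TPgrp547.rp i)) (TPgrp547.gam σ x (TPgrp547.rp i)) := by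
  rw [tr_be, ObjDef233.bet_eq hσ, ObjDef233.gam_eq hσ, ObjDef233.rp_eq_sec]
  unfold ofL TPgrp547.el
  refine ext' fun n hn => ?_
  rw [c_mk _ hn, c_mk _ hn]
  match n with
  | 0 => rfl
  | 1 => rfl
  | 2 => rfl
  | 3 => rfl
  | 4 => rfl
  | (m + 5) => simp [getK, TPgrp547.f4]

variable (p : ℕ) [Fact p.Prime] [CharP K p]
  (h2 : (2 : K) ≠ 0) (hp : p % 2 = 1) (hσ : ∀ x, σ (σ x) = x) (k : ℕ)

include hp in
theorem alP_val {x : K} (hx : σ x ≠ x) (i : Option K) :
    ((TPgrp547.alP hσ h2 k hx i : (R σ k)ˣ) : R σ k) =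
      nrm (eN p k) (Exp820.tr k (Fac281.be σ x (Mob459.sec i))) := by
  have hJ : J 1 (Exp820.tr k (Fac281.be σ x (Mob459.sec i)) - 1) := tr_J (Fac281.be_re_coeff _ _)
  have hcen := Cen_cen h2 hσ (eN p k) hJ
  have hsq := cen_sq (p := p) (r := k + 1) h2 hσ hJ (lt_pow_succ (Fact.out : p.Prime).one_lt k)
    (two_eN hp k)
  have hn := (TPgrp547.el_conj_mul (k := k) hσ hx (TPgrp547.rp_ne i)).1
  have key : cen (eN p k) (Exp820.tr k (Fac281.be σ x (Mob459.sec i))) =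
      TPgrp547.sX hσ h2 k x := by
    refine Cen_unique h2 hσ hcen (TPgrp547.Cen_sX hσ h2 k x) (TPgrp547.Cen_nX hσ x) ?_
      (TPgrp547.sX_sq hσ h2 k x)
    rw [← hn, ← tr_be_el hσ]
    exact hsq
  rw [nrm_eq, key, ← (TPgrp547.Cen_sX hσ h2 k x).comm hσ, tr_be_el hσ]
  rfl

theorem alP_eq_st {x : K} (hx : σ x ≠ x) (i : Option K) :
    TPgrp547.alP hσ h2 k hx i = st p h2 hp hσ k x i := by
  apply Subtype.ext
  apply Units.ext
  rw [alP_val p h2 hp hσ k hx i]
  exact (nu_val (Fac281.be_re_coeff _ _)).symm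

end steps

/-! ### the fields of `Obj.OK` -/

section obj

open Crest.Agent.R289.ObjDef233

variable (D : Par)

theorem hne : ∃ x, D.σ x ≠ x := ⟨D.x, D.hx⟩

theorem q_eq : SkewGrp877.q D.σ = D.q := by
  have h := Lev954.card_K D.hσ D.two (hne D)
  rw [Nat.card_eq_fintype_card, D.card, pow_two] at h
  exact (Nat.mul_self_inj.1 h).symm

theorem p_mod : D.p % 2 = 1 := by
  rcases D.prime.eq_two_or_odd with h | h
  · exact absurd h D.odd
  · exact h

noncomputable local instance : Inhabited D.K := ⟨0⟩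

theorem p_le : D.p ≤ qK D.K := by
  have := D.charP
  have : Fact D.p.Prime := ⟨D.prime⟩
  rw [qK_eq_card, Nat.card_eq_fintype_card]
  obtain ⟨n, -, hn⟩ := FiniteField.card D.K D.p
  rw [hn]
  exact Nat.le_self_pow n.ne_zero _

/-- `ix` -/
noncomputable def ix (k : ℕ) : D.P k ≃ Fin ((D.q ^ 3) ^ k) :=
  (TabObj480.ixQ D.hσ D.two (hne D) k).trans (finCongr (by rw [q_eq]))

theorem ix_val (k : ℕ) (u : D.P k) :
    (ix D k u : ℕ) = TabObj480.ixQ D.hσ D.two (hne D) k u := rfl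

/-- `mulN` -/
noncomputable def mulN : Un × ℕ × ℕ → ℕ := TabObj480.mulN D.σ

/-- `invN` -/
noncomputable def invN : Un × ℕ → ℕ := TabObj480.invN D.σ

/-- `aN` -/
noncomputable def aN (z : Option D.K) : Un → ℕ :=
  TabObj480.genN D.σ (TabObj480.glN D.p (Fac281.be D.σ D.x (Mob459.sec z)))

/-- `bN` -/
noncomputable def bN (w : Option D.K) : Un → ℕ :=
  TabObj480.genN D.σ (TabObj480.glN D.p (Fac281.be D.σ D.y (Mob459.sec w)))

theorem mul_eq (k : ℕ) (u v : D.P k) : mulN D (Un.mk k, ix D k u, ix D k v) = ix D k (u * v) :=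
  TabObj480.mul_eq D.hσ D.two (hne D) k u v

theorem inv_eq (k : ℕ) (u : D.P k) : invN D (Un.mk k, ix D k u) = ix D k u⁻¹ :=
  TabObj480.inv_eq D.hσ D.two (hne D) k u

theorem aN_eq (z : Option D.K) (k : ℕ) : aN D z (Un.mk k) = ix D k ((D.tp k).a z) := by
  have := D.charP
  have : Fact D.p.Prime := ⟨D.prime⟩
  refine TabObj480.gen_eq D.hσ D.two (hne D) _ k _ (TabObj480.glN_eq D.hσ _ _ ?_)
  exact alP_val D.p D.two (p_mod D) D.hσ (2 * k) D.hx z

theorem bN_eq (w : Option D.K) (k : ℕ) : bN D w (Un.mk k) = ix D k ((D.tp k).b w) := by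
  have := D.charP
  have : Fact D.p.Prime := ⟨D.prime⟩
  refine TabObj480.gen_eq D.hσ D.two (hne D) _ k _ (TabObj480.glN_eq D.hσ _ _ ?_)
  exact alP_val D.p D.two (p_mod D) D.hσ (2 * k) D.hy w

theorem ptf_mul {α : Type} [PTCode α] (k u v : α → ℕ) (hk : PTU k)
    (hQ : PTU (fun x => (D.q ^ 3) ^ k x)) (hu : PTF u) (hv : PTF v) :
    PTF (fun x => mulN D (Un.mk (k x), u x, v x)) :=
  TabObj480.ptf_mul D.hσ D.two (hne D) k u v hk (by rw [q_eq]; exact hQ) hu hv

theorem ptf_inv {α : Type} [PTCode α] (k u : α → ℕ) (hk : PTU k)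
    (hQ : PTU (fun x => (D.q ^ 3) ^ k x)) (hu : PTF u) :
    PTF (fun x => invN D (Un.mk (k x), u x)) :=
  TabObj480.ptf_inv D.hσ D.two (hne D) k u hk (by rw [q_eq]; exact hQ) hu

theorem ptf_a {α : Type} [PTCode α] (z : Option D.K) (k : α → ℕ) (hk : PTU k)
    (hQ : PTU (fun x => (D.q ^ 3) ^ k x)) : PTF (fun x => aN D z (Un.mk (k x))) :=
  TabObj480.ptf_gen D.hσ D.two (hne D) _ (fun m => TabObj480.length_glN _ _ m)
    (fun m hm hN => TabObj480.ptf_glN (p_le D) _ m hm hN) k hk (by rw [q_eq]; exact hQ)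

theorem ptf_b {α : Type} [PTCode α] (w : Option D.K) (k : α → ℕ) (hk : PTU k)
    (hQ : PTU (fun x => (D.q ^ 3) ^ k x)) : PTF (fun x => bN D w (Un.mk (k x))) :=
  TabObj480.ptf_gen D.hσ D.two (hne D) _ (fun m => TabObj480.length_glN _ _ m)
    (fun m hm hN => TabObj480.ptf_glN (p_le D) _ m hm hN) k hk (by rw [q_eq]; exact hQ)

theorem isP (k : ℕ) : IsPGroup D.p (D.P k) := by
  have := D.charP
  have : Fact D.p.Prime := ⟨D.prime⟩
  exact ObjP954.isP_U D.hσ D.two (hne D) (2 * k)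

theorem two_le : 2 ≤ D.q ^ 3 := by
  rw [← q_eq]
  exact Lev954.two_le_bs D.hσ

end obj

end Crest.Agent.R289.ObjTabs480
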