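import Crest.Agent.R289.TPhomB_964
import Crest.Agent.R289.CornerHecke_223

/-!
Row 289, passage A <-> B, last part: the bridge for every `TP` with the labels of 281, and the
Hecke sums of 223 preserve the corner codes in the uniform notation `tcC`, `C1`, `C2`.
-/

set_option autoImplicit false

open Polynomial

namespace Crest.Agent.R289.TPhom964

open HeckeTwo622 Exp820 Fac281
open Crest.Agent.R289.TP846 (TP)

/-! ### corner codes depend on the data at non-zero vectors only -/

theorem Corner_congr {K : Type*} [Field K] {P : Type*} [Group P] {s t : ℕ}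
    {tc tc' : K × K → K × K → P} {c1 c1' c2 c2' : K × K → K × K → K × K}
    (h : ∀ l m, l ≠ 0 → m ≠ 0 → tc l m = tc' l m ∧ c1 l m = c1' l m ∧ c2 l m = c2' l m) :
    Corner s t tc c1 c2 = Corner s t tc' c1' c2' := by
  ext w
  constructor
  · intro hw k
    obtain ⟨G, hG, hG'⟩ := hw k
    refine ⟨G, hG, fun l m hl hm => ?_⟩
    obtain ⟨e1, e2, e3⟩ := h l m hl hm
    rw [← e1, ← e2, ← e3]
    exact hG' l m hl hm
  · intro hw k
    obtain ⟨G, hG, hG'⟩ := hw k
    refine ⟨G, hG, fun l m hl hm => ?_⟩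
    obtain ⟨e1, e2, e3⟩ := h l m hl hm
    rw [e1, e2, e3]
    exact hG' l m hl hm

/-! ### 223's `psi` = 281's `psi` -/

theorem psi223_eq {K : Type*} [Field K] (σ : K →+* K) (x : K) (l : K × K) :
    CornerHecke223.psi σ x l = FacB281.psi σ x l := by
  have h : Corner223.sharp σ x l = FacB281.fl σ x l := by
    unfold Corner223.sharp FacB281.fl
    ext
    · simp only
      ring
    · simp only
      ring
  unfold CornerHecke223.psi FacB281.psi
  rw [h]
  rfl

variable {K : Type} [Field K] {σ : K →+* K} {x y : K} {P : Type} [Group P]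

/-! ### any `TP` with 281's labels -/

theorem TP_ext {I : Type} {T T' : TP P I} (ha : T.a = T'.a) (hb : T.b = T'.b) (hL : T.L = T'.L)
    (hM : T.M = T'.M) : T = T' := by
  cases T
  cases T'
  simp only at ha hb hL hM
  subst ha hb hL hM
  rfl

theorem hom0_pt {A : K × K → P} (hA : Hom0 A) {v : K × K} (hv : v ≠ 0) :
    A v = A (rp (ptv v)) := by
  have h := hA (scv v) (scv_ne hv) (rp (ptv v)) (rp_ne_zero _)
  rwa [scv_smul_rp] at h

theorem ptv_U' (H : Places σ x y) (j : Bool) {l m : K × K} (hl : l ≠ 0) (hm : m ≠ 0) :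
    ptv (U σ x y j l m) = xlab σ x y j (ptv l) (ptv m) := by
  have h := U_smul H j (c := scv l) (scv_ne hm) (l := rp (ptv l)) (rp_ne_zero (ptv m))
  rw [scv_smul_rp, scv_smul_rp] at h
  rw [h, ptv_smul (scv_ne hl), ptv_U]

theorem hAB_of (H : Places σ x y) {A B : K × K → P} (hA : Hom0 A) (hB : Hom0 B)
    (T : TP P (Option K)) (hL : T.L = FacB281.L σ x y) (hM : T.M = FacB281.M σ x y)
    (ha : ∀ i, T.a i = A (rp i)) (hb : ∀ i, T.b i = B (rp i)) :
    ∀ l m : K × K, l ≠ 0 → m ≠ 0 →
      A l * B (act y m (be σ x l)) = B m * A (act x l (be σ y m)) := by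
  intro l m hl hm
  have e1 : B (act y m (be σ x l)) = T.b (T.M (ptv l) (ptv m)) := by
    have h1 : act y m (be σ x l) = U σ y x true m l := rfl
    rw [h1, hom0_pt hB (U_ne H.swap true hm hl), ptv_U' H.swap true hm hl, hb, hM]
    rfl
  have e2 : A (act x l (be σ y m)) = T.a (T.L (ptv l) (ptv m)) := by
    have h1 : act x l (be σ y m) = U σ x y true l m := rfl
    rw [h1, hom0_pt hA (U_ne H true hl hm), ptv_U' H true hl hm, ha, hL]
    rfl
  rw [e1, e2, hom0_pt hA hl, hom0_pt hB hm, ← ha, ← hb]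
  exact T.comm _ _

theorem eq_tp (H : Places σ x y) {A B : K × K → P} (hA : Hom0 A) (hB : Hom0 B)
    (T : TP P (Option K)) (hL : T.L = FacB281.L σ x y) (hM : T.M = FacB281.M σ x y)
    (ha : ∀ i, T.a i = A (rp i)) (hb : ∀ i, T.b i = B (rp i)) :
    T = tp H A B hA hB (hAB_of H hA hB T hL hM ha hb) :=
  TP_ext (funext ha) (funext hb) hL hM

/-- **the bridge for any `TP` with 281's labels** -/
theorem mem_Code_iff_T [Fintype P] [Fintype K] (H : Places σ x y) {A B : K × K → P}
    (hA : Hom0 A) (hB : Hom0 B)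
    (T : TP P (Option K)) (hL : T.L = FacB281.L σ x y) (hM : T.M = FacB281.M σ x y)
    (ha : ∀ i, T.a i = A (rp i)) (hb : ∀ i, T.b i = B (rp i))
    {s : ℕ} (hsK : s < Fintype.card K) (hs : ∀ c : K, c ≠ 0 → (c * σ c) ^ s = 1)
    (w : P → Option K → Option K → K) :
    w ∈ T.Code (xcD σ x y s) (ycD σ x y s) ↔
      ∀ i j : Bool, w ∈ Corner s s (tcC σ x y A B i j) (C1 σ x y i j) (C2 σ x y i j) := by
  rw [eq_tp H hA hB T hL hM ha hb]
  exact mem_Code_iff H hA hB _ hsK hs w

theorem hom0_ptv (f : Option K → P) : Hom0 fun v : K × K => f (ptv v) := by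
  intro c hc l _
  show f _ = f _
  rw [ptv_smul hc]

/-- the bridge with the steps of the complex itself -/
theorem mem_Code_iff_self [Fintype P] [Fintype K] (H : Places σ x y)
    (T : TP P (Option K)) (hL : T.L = FacB281.L σ x y) (hM : T.M = FacB281.M σ x y)
    {s : ℕ} (hsK : s < Fintype.card K) (hs : ∀ c : K, c ≠ 0 → (c * σ c) ^ s = 1)
    (w : P → Option K → Option K → K) :
    w ∈ T.Code (xcD σ x y s) (ycD σ x y s) ↔
      ∀ i j : Bool, w ∈ Corner s s (tcC σ x y (fun v => T.a (ptv v)) (fun v => T.b (ptv v)) i j)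
        (C1 σ x y i j) (C2 σ x y i j) :=
  mem_Code_iff_T H (hom0_ptv T.a) (hom0_ptv T.b) T hL hM (fun i => by rw [ptv_rp])
    (fun i => by rw [ptv_rp]) hsK hs w

/-! ### Hecke stability in the uniform notation -/

theorem hom0_nu (hσ : ∀ a, σ (σ a) = a) {x : K} (hx : σ x ≠ x) (nu : Sk σ → P) :
    Hom0 fun l : K × K => nu (be σ x l) := by
  intro c hc l hl
  show nu _ = nu _
  rw [be_smul hσ hx hl hc]

open CornerHecke223 in
/-- **the Hecke sums preserve all four corner codes** (hypothesis `hst` of `A1Two_14`) -/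
theorem HS_mem {Λ : Type*} [Fintype Λ] (H : Places σ x y) (I : Idx σ x y Λ) (nu : Sk σ → P)
    (hnu : MulOne nu) (W : K[X] → K) (s : ℕ) (i j : Bool) (w : P → Option K → Option K → K)
    (hw : w ∈ Corner s s (tcC σ x y (fun l => nu (be σ x l)) (fun m => nu (be σ y m)) i j)
      (C1 σ x y i j) (C2 σ x y i j)) :
    HS s s I nu W w ∈
      Corner s s (tcC σ x y (fun l => nu (be σ x l)) (fun m => nu (be σ y m)) i j)
        (C1 σ x y i j) (C2 σ x y i j) := by
  cases i <;> cases j
  · have e : Corner s s (tcC σ x y (fun l => nu (be σ x l)) (fun m => nu (be σ y m)) false false)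
        (C1 σ x y false false) (C2 σ x y false false)
        = Corner s s (fun _ _ => (1 : P)) (fun l _ => l) (fun _ m => m) :=
      Corner_congr fun l m _ _ => ⟨by simp [tcC], rfl, rfl⟩
    rw [e] at hw ⊢
    exact S_ee H.hσ I nu W s s hw
  · have e : Corner s s (tcC σ x y (fun l => nu (be σ x l)) (fun m => nu (be σ y m)) false true)
        (C1 σ x y false true) (C2 σ x y false true)
        = Corner s s (fun _ m => nu (be σ y m)) (fun l m => act x l (be σ y m))
          (fun _ m => CornerHecke223.psi σ y m) :=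
      Corner_congr fun l m _ _ => ⟨by simp [tcC, U], rfl, (psi223_eq σ y m).symm⟩
    rw [e] at hw ⊢
    exact S_eo H.hσ I nu W s s H.hy hnu hw
  · have e : Corner s s (tcC σ x y (fun l => nu (be σ x l)) (fun m => nu (be σ y m)) true false)
        (C1 σ x y true false) (C2 σ x y true false)
        = Corner s s (fun l _ => nu (be σ x l)) (fun l _ => CornerHecke223.psi σ x l)
          (fun l m => act y m (be σ x l)) :=
      Corner_congr fun l m _ _ => ⟨by simp [tcC], (psi223_eq σ x l).symm, rfl⟩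
    rw [e] at hw ⊢
    exact S_oe H.hσ I nu W s s H.hx hnu hw
  · have e : Corner s s (tcC σ x y (fun l => nu (be σ x l)) (fun m => nu (be σ y m)) true true)
        (C1 σ x y true true) (C2 σ x y true true)
        = Corner s s (fun l m => nu (be σ x l) * nu (be σ y (act y m (be σ x l))))
          (fun l m => CornerHecke223.psi σ x (act x l (be σ y m)))
          (fun l m => CornerHecke223.psi σ y (act y m (be σ x l))) :=
      Corner_congr fun l m _ _ => ⟨by simp [tcC, U], (psi223_eq σ x _).symm,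
        (psi223_eq σ y _).symm⟩
    rw [e] at hw ⊢
    exact S_oo H.hσ I nu W s s H.hx H.hy H.hxy H.hxy' hnu hw

end Crest.Agent.R289.TPhom964
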