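import Crest.Agent.R289.W0_540
import Crest.Agent.R289.TPhomC_964
import Crest.Agent.R289.A1Two_14

/-!
Row 289, block A, leaf A.W0, glue: the base word `w0` in the base corner codes
`A1Two14.BC (2n) (2n) (C1 σ x y i j) (C2 σ x y i j)` of 14 / 964 (all four corners).
-/

set_option autoImplicit false

namespace Crest.Agent.R289.W0540

open Crest.Agent.R289.Exp820 Crest.Agent.R289.Exp820.Sk Crest.Agent.R289.Fac281
  Crest.Agent.R289.Corner223 Crest.Agent.R289.HeckeTwo622 Crest.Agent.R289.TPhom964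

variable {K : Type} [Field K] {σ : K →+* K}

theorem psi540_eq (x : K) (l : K × K) : psi σ x l = FacB281.psi σ x l :=
  psi223_eq σ x l

theorem w0_corner {x y : K} (H : Places σ x y) {n : ℕ}
    (hn : ∀ c : K, c ≠ 0 → nm σ c ^ n = 1) (i j : Bool) :
    ∃ G ∈ BP K (2 * n) (2 * n), ∀ l m, l ≠ 0 → m ≠ 0 →
      w0 n x y l m = G (C1 σ x y i j l m) (C2 σ x y i j l m) := by
  have hyx : σ y ≠ x := fun h => H.hxy' (by rw [← h, H.hσ])
  have e : ∀ l m, ext2 (2 * n) (2 * n) (w0t n x y) l m = w0 n x y l m :=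
    fun l m => ext2_w0t n x y l m
  cases i <;> cases j
  · obtain ⟨G, hG, h⟩ := Bc_ee n x y
    refine ⟨G, hG, fun l m hl hm => ?_⟩
    rw [← e, h l m hl hm]
    simp only [C1, C2, V, U, Bool.false_eq_true, if_false]
  · obtain ⟨G, hG, h⟩ := Bc_eo H.hσ hn H.hy hyx
    refine ⟨G, hG, fun l m hl hm => ?_⟩
    rw [← e, h l m hl hm]
    simp only [C1, C2, V, U, Bool.false_eq_true, if_false, if_true, psi540_eq]
  · obtain ⟨G, hG, h⟩ := Bc_oe H.hσ hn H.hx H.hxy'
    refine ⟨G, hG, fun l m hl hm => ?_⟩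
    rw [← e, h l m hl hm]
    simp only [C1, C2, V, U, Bool.false_eq_true, if_false, if_true, psi540_eq]
  · obtain ⟨G, hG, h⟩ := Bc_oo H.hσ hn H.hx H.hy H.hxy H.hxy'
    refine ⟨G, hG, fun l m hl hm => ?_⟩
    rw [← e, h l m hl hm]
    simp only [C1, C2, V, U, if_true, psi540_eq]

/-- **A.W0** in the form `hwC` of `A1Two14.content_corner` -/
theorem w0t_BC {x y : K} (H : Places σ x y) {n : ℕ}
    (hn : ∀ c : K, c ≠ 0 → nm σ c ^ n = 1) (i j : Bool) :
    w0t n x y ∈ A1Two14.BC (2 * n) (2 * n) (C1 σ x y i j) (C2 σ x y i j) := by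
  obtain ⟨G, hG, h⟩ := w0_corner H hn i j
  exact A1Two14.mem_BC.2 ⟨G, hG, fun a b => h _ _ (rp_ne_zero a) (rp_ne_zero b)⟩

theorem w0t_ne_zero {x y : K} (H : Places σ x y) (n : ℕ) :
    w0t n x y (some 1) (some 0) ≠ 0 := by
  rw [w0t_point]
  exact pow_ne_zero _ (neg_ne_zero.2 (x_ne_zero H.hy))

end Crest.Agent.R289.W0540
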