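import Crest.Agent.R289.BaseA_975
import Crest.Agent.R289.W0B_540

/-!
Row 289, block A, leaf A.UNIQ, joint: a table in the base corner codes `ee`, `oe`, `eo`
(`A1Two14.BC`, corners `C1 σ x y i j`, `C2 σ x y i j` of 964) gives a coefficient table `F` with
`OddX q x y F G` and `OddX q y x Fᵀ G'` of `BaseA_975`.
-/

set_option autoImplicit false

namespace Crest.Agent.R289.OddBC540

open Polynomial Finset Crest.Agent.R289.Exp820 Crest.Agent.R289.Exp820.Sk
  Crest.Agent.R289.Fac281 Crest.Agent.R289.HeckeTwo622 Crest.Agent.R289.TPhom964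
  Crest.Agent.R289.BaseA975 Crest.Agent.R289.A1Two14

variable {K : Type} [Field K]

/-- coefficient table of a bihomogeneous polynomial function -/
theorem BP_coeff {s : ℕ} {B : K × K → K × K → K} (hB : B ∈ BP K s s) :
    ∃ c : ℕ → ℕ → K, ∀ l m, B l m = ev2 s c l m := by
  unfold BP at hB
  induction hB using Submodule.span_induction with
  | mem B hB =>
    obtain ⟨F, hF, G, hG, rfl⟩ := hB
    obtain ⟨c, hc⟩ := mem_HP.1 hF
    obtain ⟨d, hd⟩ := mem_HP.1 hG
    refine ⟨fun n k => c n * d k, fun l m => ?_⟩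
    show F l * G m = _
    rw [hc, hd, Finset.sum_mul_sum]
    unfold ev2
    refine Finset.sum_congr rfl fun n _ => Finset.sum_congr rfl fun k _ => ?_
    ring
  | zero => exact ⟨fun _ _ => 0, fun l m => by simp [ev2]⟩
  | add B1 B2 _ _ h1 h2 =>
    obtain ⟨c, hc⟩ := h1
    obtain ⟨d, hd⟩ := h2
    refine ⟨fun n k => c n k + d n k, fun l m => ?_⟩
    rw [Pi.add_apply, Pi.add_apply, hc, hd]
    unfold ev2
    rw [← Finset.sum_add_distrib]
    refine Finset.sum_congr rfl fun n _ => ?_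
    rw [← Finset.sum_add_distrib]
    refine Finset.sum_congr rfl fun k _ => ?_
    ring
  | smul a B1 _ h1 =>
    obtain ⟨c, hc⟩ := h1
    refine ⟨fun n k => a * c n k, fun l m => ?_⟩
    rw [Pi.smul_apply, Pi.smul_apply, smul_eq_mul, hc]
    unfold ev2
    rw [Finset.mul_sum]
    refine Finset.sum_congr rfl fun n _ => ?_
    rw [Finset.mul_sum]
    refine Finset.sum_congr rfl fun k _ => ?_
    ring

theorem ev2_smul_left (s : ℕ) (c : ℕ → ℕ → K) (a : K) (l m : K × K) :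
    ev2 s c (a • l) m = ev2 s (fun n k => a ^ s * c n k) l m := by
  unfold ev2
  refine Finset.sum_congr rfl fun n hn => Finset.sum_congr rfl fun k _ => ?_
  have hn' := Nat.lt_succ_iff.1 (Finset.mem_range.1 hn)
  have e : a ^ s = a ^ n * a ^ (s - n) := by rw [← pow_add, Nat.add_sub_cancel' hn']
  simp only [Prod.smul_fst, Prod.smul_snd, smul_eq_mul, mul_pow, e]
  ring

theorem ev2_swap (s : ℕ) (c : ℕ → ℕ → K) (l m : K × K) :
    ev2 s c l m = ev2 s (fun n k => c k n) m l := by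
  unfold ev2
  rw [Finset.sum_comm]
  refine Finset.sum_congr rfl fun n _ => Finset.sum_congr rfl fun k _ => ?_
  ring

theorem ev2_point (s : ℕ) (c : ℕ → ℕ → K) (z u : K) :
    ev2 s c (z, 1) (u, 1) = ev s c z u := by
  unfold ev2 ev
  refine Finset.sum_congr rfl fun n _ => Finset.sum_congr rfl fun k _ => ?_
  simp

variable {q : ℕ} {σ : K →+* K}

/-- the odd vector at `(z, 1)` -/
theorem psi_point (hfr : ∀ a, σ a = a ^ q) (hσ : ∀ a, σ (σ a) = a) {x : K} (hx : σ x ≠ x)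
    (z : K) :
    FacB281.psi σ x (z, 1) = (x - σ x) • psz x (x ^ q) (z ^ (q + 1)) z := by
  have hx0 : x ≠ 0 := x_ne_zero hx
  have hl : ((z, 1) : K × K) ≠ 0 := fun h => one_ne_zero (congrArg Prod.snd h)
  have hQ := Q_ne_zero hσ hx hl
  have hQs : σ (Q σ x (z, 1)) ≠ 0 := (map_ne_zero σ).2 hQ
  have e1 : Q σ x (z, 1) = z ^ (q + 1) - x := by
    simp only [Q, nm, map_one, mul_one, hfr, pow_succ]
    ring
  have e2 : σ (Q σ x (z, 1)) = z ^ (q + 1) - x ^ q := by
    rw [Q_sigma hσ]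
    simp only [nm, map_one, mul_one, hfr, pow_succ]
    ring
  rw [FacB281.psi_eq hσ, e2]
  rw [e1] at hQ ⊢
  rw [e2] at hQs
  unfold psz
  ext
  · simp only [Prod.smul_fst, smul_eq_mul]
    ring
  · simp only [Prod.smul_snd, smul_eq_mul]
    field_simp

/-- the even vector transported along the edge `(z, 1)` -/
theorem act_point (hfr : ∀ a, σ a = a ^ q) (hσ : ∀ a, σ (σ a) = a) {x : K} (hx : σ x ≠ x)
    (y z u : K) :
    act y (u, 1) (be σ x (z, 1)) = mbz x (x ^ q) y (z ^ (q + 1)) z (z ^ q) u := by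
  have hx0 : x ≠ 0 := x_ne_zero hx
  have hsx0 : σ x ≠ 0 := (map_ne_zero σ).2 hx0
  have hl : ((z, 1) : K × K) ≠ 0 := fun h => one_ne_zero (congrArg Prod.snd h)
  have hQ := Q_ne_zero hσ hx hl
  have hQs : σ (Q σ x (z, 1)) ≠ 0 := (map_ne_zero σ).2 hQ
  have hsg : sg σ (1 + C (gam σ x (z, 1)) * X) = 1 + C (σ (gam σ x (z, 1))) * X := by
    simp only [map_add, map_one, map_mul, sg_C, sg_X]
  have hgs : σ (gam σ x (z, 1)) = -(Q σ x (z, 1) / σ (Q σ x (z, 1))) / x := by
    simp only [gam, map_div₀, map_neg, hσ]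
  have hbs : σ (bet σ x (z, 1)) = (σ x - x) / σ x * (σ z / Q σ x (z, 1)) := by
    simp only [bet, map_div₀, map_mul, map_sub, hσ, map_one, mul_one]
  have e1 : Q σ x (z, 1) = z ^ (q + 1) - x := by
    simp only [Q, nm, map_one, mul_one, hfr, pow_succ]
    ring
  have e2 : σ (Q σ x (z, 1)) = z ^ (q + 1) - x ^ q := by
    rw [Q_sigma hσ]
    simp only [nm, map_one, mul_one, hfr, pow_succ]
    ring
  have hM1 : (act y (u, 1) (be σ x (z, 1))).1
      = (1 + -(Q σ x (z, 1) / σ (Q σ x (z, 1))) / x * y) * u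
        - y * ((x - σ x) / x * (z / σ (Q σ x (z, 1)))) := by
    simp only [act, be, hsg, eval_add, eval_one, eval_mul, eval_C, eval_X, hgs, bet, map_one,
      mul_one]
  have hM2 : (act y (u, 1) (be σ x (z, 1))).2
      = (1 + -(σ (Q σ x (z, 1)) / Q σ x (z, 1)) / σ x * y)
        - (σ x - x) / σ x * (σ z / Q σ x (z, 1)) * u := by
    simp only [act, be, sg_C, eval_add, eval_one, eval_mul, eval_C, eval_X, hbs, gam, mul_one]
  unfold mbz
  rw [e2] at hQs hM1 hM2
  rw [e1] at hQ hM1 hM2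
  rw [hfr x] at hsx0 hM1 hM2
  rw [hfr z] at hM2
  ext
  · rw [hM1]
    field_simp
    ring
  · rw [hM2]
    field_simp
    ring

/-- the `x`-odd condition from the corner `oe` -/
theorem oddX_of_oe (hfr : ∀ a, σ a = a ^ q) (hσ : ∀ a, σ (σ a) = a) {x : K} (hx : σ x ≠ x)
    (y : K) {v : Option K → Option K → K} {F G : ℕ → ℕ → K}
    (hF : ∀ i j, v i j = ev2 (2 * (q - 1)) F (rp i) (rp j))
    (hG : ∀ i j, v i j = ev2 (2 * (q - 1)) G (FacB281.psi σ x (rp i))
      (act y (rp j) (be σ x (rp i)))) :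
    OddX q x y F (fun n k => (x - σ x) ^ (2 * (q - 1)) * G n k) := by
  intro z u _
  have h1 := hF (some z) (some u)
  rw [hG] at h1
  have r1 : rp (some z) = (z, 1) := rfl
  have r2 : rp (some u) = (u, 1) := rfl
  rw [r1, r2, psi_point hfr hσ hx, act_point hfr hσ hx, ev2_smul_left, ev2_point] at h1
  exact h1.symm

/-- **the joint of A.UNIQ** -/
theorem odd_of_BC (hfr : ∀ a, σ a = a ^ q) {x y : K} (H : Places σ x y)
    {v : Option K → Option K → K}
    (hv : ∀ i j : Bool, v ∈ BC (2 * (q - 1)) (2 * (q - 1)) (C1 σ x y i j) (C2 σ x y i j)) :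
    ∃ F : ℕ → ℕ → K, (∀ i j, v i j = ev2 (2 * (q - 1)) F (rp i) (rp j)) ∧
      (∃ G, OddX q x y F G) ∧ (∃ G, OddX q y x (fun n k => F k n) G) := by
  obtain ⟨B0, hB0, h0⟩ := mem_BC.1 (hv false false)
  obtain ⟨B1, hB1, h1⟩ := mem_BC.1 (hv true false)
  obtain ⟨B2, hB2, h2⟩ := mem_BC.1 (hv false true)
  obtain ⟨F, hF⟩ := BP_coeff hB0
  obtain ⟨G1, hG1⟩ := BP_coeff hB1
  obtain ⟨G2, hG2⟩ := BP_coeff hB2
  have k0 : ∀ i j, v i j = ev2 (2 * (q - 1)) F (rp i) (rp j) := fun i j => by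
    rw [h0, hF]
    simp only [C1, C2, V, U, Bool.false_eq_true, if_false]
  have k1 : ∀ i j, v i j = ev2 (2 * (q - 1)) G1 (FacB281.psi σ x (rp i))
      (act y (rp j) (be σ x (rp i))) := fun i j => by
    rw [h1, hG1]
    simp only [C1, C2, V, U, Bool.false_eq_true, if_false, if_true]
  have k2 : ∀ i j, v i j = ev2 (2 * (q - 1)) G2 (act x (rp i) (be σ y (rp j)))
      (FacB281.psi σ y (rp j)) := fun i j => by
    rw [h2, hG2]
    simp only [C1, C2, V, U, Bool.false_eq_true, if_false, if_true]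
  refine ⟨F, k0, ⟨_, oddX_of_oe hfr H.hσ H.hx y k0 k1⟩, ⟨_, oddX_of_oe hfr H.hσ H.hy x
    (v := fun j i => v i j) (F := fun n k => F k n) (G := fun n k => G2 k n) ?_ ?_⟩⟩
  · intro i j
    rw [k0, ev2_swap]
  · intro i j
    rw [k2, ev2_swap]

end Crest.Agent.R289.OddBC540
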