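import Mathlib
import Crest.Agent.R289.BaseDim_394

/-!
Row 289, block A, service leaf for A.UNIQ (helper748): the one-variable facts used in 186's
proof (post 6032) of the two-place base uniqueness.

* `dvd_of_transport`  : `(w-v)^r p(w) = (w-u)^r p'(w)` on a large point set gives divisibility;
* `zero_of_transports`: two coprime places kill `p` as soon as `deg p < 2r`;
* `cls q P r`         : the part of `P` in the class `r mod (q+1)`, as a polynomial in
  `w = z^(q+1)`; `eval_cls`, `cls_zero`, `cls_transport`, `natDegree_cls`.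
-/

set_option autoImplicit false

namespace Crest.Agent.R289.OneVar748

open Polynomial Finset BaseDim394

section general

variable {K : Type*} [Field K]

theorem cop {u v : K} (huv : u ≠ v) (r s : ℕ) :
    IsCoprime ((X - C u) ^ r : K[X]) ((X - C v) ^ s) :=
  (isCoprime_X_sub_C_of_isUnit_sub (sub_ne_zero.2 huv).isUnit).pow

/-- equality of two polynomials from their values on a point set -/
theorem eq_of_eval {P Q : K[X]} {n : ℕ} (hP : P.natDegree ≤ n) (hQ : Q.natDegree ≤ n)
    (S : Finset K) (hS : n < S.card) (h : ∀ w ∈ S, P.eval w = Q.eval w) : P = Q := by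
  refine Polynomial.eq_of_degree_sub_lt_of_eval_finset_eq S ?_ h
  refine lt_of_le_of_lt (degree_sub_le _ _) ?_
  refine lt_of_le_of_lt (max_le ((natDegree_le_iff_degree_le).1 hP)
    ((natDegree_le_iff_degree_le).1 hQ)) ?_
  exact_mod_cast hS

/-- (W1) -/
theorem dvd_of_transport {u v : K} (huv : u ≠ v) {M r : ℕ} (S : Finset K)
    (hS : M + r < S.card) {p p' : K[X]} (hp : p.natDegree ≤ M) (hp' : p'.natDegree ≤ M)
    (h : ∀ w ∈ S, (w - v) ^ r * p.eval w = (w - u) ^ r * p'.eval w) :
    (X - C u) ^ r ∣ p ∧ (X - C v) ^ r ∣ p' := by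
  have hd : ∀ (t : K) (f : K[X]), f.natDegree ≤ M → ((X - C t) ^ r * f).natDegree ≤ M + r := by
    intro t f hf
    refine natDegree_mul_le.trans ?_
    rw [natDegree_pow, natDegree_X_sub_C, mul_one, add_comm]
    exact Nat.add_le_add_right hf r
  have he : (X - C v) ^ r * p = (X - C u) ^ r * p' :=
    eq_of_eval (hd v p hp) (hd u p' hp') S hS fun w hw => by simpa using h w hw
  constructor
  · refine (cop huv r r).dvd_of_dvd_mul_left ?_
    exact ⟨p', he⟩
  · refine (cop huv.symm r r).dvd_of_dvd_mul_left ?_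
    exact ⟨p, he.symm⟩

theorem zero_of_dvd {p g : K[X]} (h : g ∣ p) (hd : p.natDegree < g.natDegree) : p = 0 := by
  by_contra hne
  exact absurd (natDegree_le_of_dvd h hne) (not_le.2 hd)

/-- (W2) -/
theorem zero_of_two {a b : K} (hab : a ≠ b) {r s : ℕ} {p : K[X]} (hp : p.natDegree < r + s)
    (h1 : (X - C a) ^ r ∣ p) (h2 : (X - C b) ^ s ∣ p) : p = 0 := by
  have h3 := (cop hab r s).mul_dvd h1 h2
  refine zero_of_dvd h3 ?_
  rw [natDegree_mul (pow_ne_zero _ (X_sub_C_ne_zero a)) (pow_ne_zero _ (X_sub_C_ne_zero b)),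
    natDegree_pow, natDegree_pow, natDegree_X_sub_C, natDegree_X_sub_C, mul_one, mul_one]
  exact hp

/-- (W12): transports at two different places -/
theorem zero_of_transports {u v u' v' : K} (huv : u ≠ v) (huv' : u' ≠ v') (huu : u ≠ u')
    {M r s : ℕ} (S : Finset K) (hS : M + r < S.card) (hS' : M + s < S.card) {p p₁ p₂ : K[X]}
    (hp : p.natDegree ≤ M) (hp₁ : p₁.natDegree ≤ M) (hp₂ : p₂.natDegree ≤ M)
    (h1 : ∀ w ∈ S, (w - v) ^ r * p.eval w = (w - u) ^ r * p₁.eval w)
    (h2 : ∀ w ∈ S, (w - v') ^ s * p.eval w = (w - u') ^ s * p₂.eval w)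
    (hM : M < r + s) : p = 0 :=
  zero_of_two huu (lt_of_le_of_lt hp hM) (dvd_of_transport huv S hS hp hp₁ h1).1
    (dvd_of_transport huv' S hS' hp hp₂ h2).1

/-- one place, `deg < r` -/
theorem zero_of_transport {u v : K} (huv : u ≠ v) {M r : ℕ} (S : Finset K)
    (hS : M + r < S.card) {p p' : K[X]} (hp : p.natDegree ≤ M) (hp' : p'.natDegree ≤ M)
    (h : ∀ w ∈ S, (w - v) ^ r * p.eval w = (w - u) ^ r * p'.eval w) (hM : M < r) : p = 0 := by
  refine zero_of_dvd (dvd_of_transport huv S hS hp hp' h).1 ?_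
  rw [natDegree_pow, natDegree_X_sub_C, mul_one]
  omega

/-- the class `r` of `P` modulo `q+1`, as a polynomial in `w = z^(q+1)` -/
noncomputable def cls (q : ℕ) (P : K[X]) (r : ℕ) : K[X] :=
  ∑ t ∈ Finset.range (P.natDegree + 1), monomial t (P.coeff (r + (q + 1) * t))

theorem coeff_cls (q : ℕ) (P : K[X]) (r t : ℕ) :
    (cls q P r).coeff t = P.coeff (r + (q + 1) * t) := by
  rw [cls, finsetSum_coeff]
  simp only [coeff_monomial]
  rw [Finset.sum_ite_eq' (Finset.range (P.natDegree + 1)) t]
  split_ifs with h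
  · rfl
  · symm
    apply coeff_eq_zero_of_natDegree_lt
    have : P.natDegree + 1 ≤ t := by simpa using h
    nlinarith

theorem cls_add (q : ℕ) (P Q : K[X]) (r : ℕ) : cls q (P + Q) r = cls q P r + cls q Q r := by
  ext t; simp [coeff_cls]

theorem cls_sub (q : ℕ) (P Q : K[X]) (r : ℕ) : cls q (P - Q) r = cls q P r - cls q Q r := by
  ext t; simp [coeff_cls]

theorem cls_C_mul (q : ℕ) (a : K) (P : K[X]) (r : ℕ) : cls q (C a * P) r = C a * cls q P r := by
  ext t; simp [coeff_cls]

/-- degree of a class -/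
theorem natDegree_cls (q : ℕ) (P : K[X]) (r : ℕ) {D : ℕ} (hP : P.natDegree ≤ D) :
    (cls q P r).natDegree ≤ (D - r) / (q + 1) := by
  rw [natDegree_le_iff_coeff_eq_zero]
  intro t ht
  rw [coeff_cls]
  apply coeff_eq_zero_of_natDegree_lt
  rw [Nat.div_lt_iff_lt_mul (Nat.succ_pos q)] at ht
  have h1 : D - r < (q + 1) * t := by rw [mul_comm]; exact ht
  omega

/-- `P` is zero when all its classes are -/
theorem eq_zero_of_cls (q : ℕ) (P : K[X]) (h : ∀ r ≤ q, cls q P r = 0) : P = 0 := by
  ext n
  have h1 : n % (q + 1) ≤ q := Nat.lt_succ_iff.1 (Nat.mod_lt _ (Nat.succ_pos q))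
  have := congrArg (fun f => f.coeff (n / (q + 1))) (h _ h1)
  simp only [coeff_cls, coeff_zero] at this
  rwa [Nat.mod_add_div] at this

/-- splitting of the value into classes -/
theorem eval_cls (q : ℕ) (P : K[X]) (z : K) :
    P.eval z = ∑ r ∈ Finset.range (q + 1), (cls q P r).eval (z ^ (q + 1)) * z ^ r := by
  -- linear in `P`: check on monomials
  induction P using Polynomial.induction_on' with
  | add P Q hP hQ =>
    rw [eval_add, hP, hQ, ← Finset.sum_add_distrib]
    refine Finset.sum_congr rfl fun r _ => ?_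
    rw [cls_add, eval_add, add_mul]
  | monomial n a =>
    rw [eval_monomial]
    have h1 : n % (q + 1) < q + 1 := Nat.mod_lt _ (Nat.succ_pos q)
    rw [Finset.sum_eq_single (n % (q + 1))]
    · have : cls q (monomial n a) (n % (q + 1)) = monomial (n / (q + 1)) a := by
        ext t
        rw [coeff_cls, coeff_monomial, coeff_monomial]
        have h2 := Nat.mod_add_div n (q + 1)
        by_cases ht : n / (q + 1) = t
        · subst ht
          rw [if_pos h2.symm, if_pos rfl]
        · rw [if_neg ht, if_neg]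
          intro h3
          apply ht
          have h4 : (q + 1) * (n / (q + 1)) = (q + 1) * t := by omega
          exact Nat.eq_of_mul_eq_mul_left (Nat.succ_pos q) h4
      rw [this, eval_monomial, mul_assoc, ← pow_mul, ← pow_add]
      congr 2
      rw [add_comm]
      exact (Nat.mod_add_div n (q + 1)).symm
    · intro r hr hne
      have : cls q (monomial n a) r = 0 := by
        ext t
        rw [coeff_cls, coeff_monomial, coeff_zero, if_neg]
        intro h3
        apply hne
        have h5 := Finset.mem_range.1 hr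
        rw [h3, Nat.add_mul_mod_self_left, Nat.mod_eq_of_lt h5]
      rw [this, eval_zero, zero_mul]
    · intro hn
      exact absurd (Finset.mem_range.2 h1) hn

end general

section finite

variable {K : Type*} [Field K] [Fintype K] {q : ℕ}

/-- vanishing on a norm fibre kills the value of every class -/
theorem cls_zero (hcard : Fintype.card K = q ^ 2) (P : K[X]) (z : K) (hz : z ≠ 0)
    (h : ∀ y : K, y ≠ 0 → y ^ (q + 1) = z ^ (q + 1) → P.eval y = 0) :
    ∀ r ≤ q, (cls q P r).eval (z ^ (q + 1)) = 0 := by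
  classical
  obtain ⟨S, hS, hS'⟩ := fibre hcard z hz
  set w := z ^ (q + 1) with hw
  set R : K[X] := ∑ r ∈ Finset.range (q + 1), monomial r ((cls q P r).eval w) with hR
  have hR0 : R = 0 := by
    refine eq_of_eval (n := q) ?_ (by simp) S (by omega) ?_
    · refine natDegree_sum_le_of_forall_le _ _ fun r hr => ?_
      exact (natDegree_monomial_le _).trans (Nat.lt_succ_iff.1 (Finset.mem_range.1 hr))
    · intro y hy
      obtain ⟨h1, h2⟩ := hS' y hy
      have h3 := h y h1 h2
      rw [eval_cls q P y, h2] at h3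
      rw [hR, eval_finsetSum, eval_zero, ← h3]
      exact Finset.sum_congr rfl fun r _ => eval_monomial
  intro r hr
  have h4 := congrArg (fun f : K[X] => f.coeff r) hR0
  simp only [hR, finsetSum_coeff, coeff_monomial, coeff_zero] at h4
  rw [Finset.sum_ite_eq' (Finset.range (q + 1)) r] at h4
  rwa [if_pos (Finset.mem_range.2 (Nat.lt_succ_of_le hr))] at h4

omit [Fintype K] in
/-- the class of the transported polynomial -/
theorem cls_scale (q : ℕ) (P : K[X]) (ρ : K) (hρ : ρ ^ (q + 1) = 1) (r : ℕ) :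
    cls q (P.comp (C ρ * X)) r = C (ρ ^ r) * cls q P r := by
  ext t
  rw [coeff_cls, coeff_C_mul, coeff_cls, comp_C_mul_X_coeff, pow_add, pow_mul, hρ, one_pow,
    mul_one]
  ring

/-- **class transport** -/
theorem cls_transport (hcard : Fintype.card K = q ^ 2) (P P' : K[X]) (z : K) (hz : z ≠ 0)
    (a b ρ : K) (hρ : ρ ^ (q + 1) = 1)
    (h : ∀ y : K, y ≠ 0 → y ^ (q + 1) = z ^ (q + 1) → a * P.eval y = b * P'.eval (ρ * y)) :
    ∀ r ≤ q, a * (cls q P r).eval (z ^ (q + 1)) =
      b * ρ ^ r * (cls q P' r).eval (z ^ (q + 1)) := by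
  intro r hr
  have := cls_zero hcard (C a * P - C b * P'.comp (C ρ * X)) z hz ?_ r hr
  · rw [cls_sub, cls_C_mul, cls_C_mul, cls_scale q P' ρ hρ, eval_sub, eval_mul, eval_mul,
      eval_mul, eval_C, eval_C, eval_C] at this
    linear_combination this
  · intro y hy hyz
    rw [eval_sub, eval_mul, eval_mul, eval_C, eval_C, eval_comp, eval_mul, eval_C, eval_X,
      h y hy hyz, sub_self]

/-- a polynomial of degree `< q^2 - 1` vanishing on `K^*` is zero -/
theorem eq_zero_of_units (hcard : Fintype.card K = q ^ 2) {P : K[X]}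
    (hP : P.natDegree < q ^ 2 - 1) (h : ∀ z : K, z ≠ 0 → P.eval z = 0) : P = 0 := by
  classical
  refine eq_of_eval (n := P.natDegree) le_rfl (by simp) (Finset.univ.erase 0) ?_ ?_
  · rw [Finset.card_erase_of_mem (Finset.mem_univ _), Finset.card_univ, hcard]
    exact hP
  · intro w hw
    rw [eval_zero]
    exact h w (Finset.mem_erase.1 hw).1

end finite

end Crest.Agent.R289.OneVar748
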