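import Crest.Agent.R289.TraceM_962

/-!
# B1b: dimension of left-stable function spaces by orbits of characters (row 289, block B)

`j : B → G` is an (injective) homomorphism from a finite additive commutative group, `V ≤ (G → ℂ)`
nonzero and stable under left translations.  If no nonzero `f ∈ V` is fixed by the left
translations by `j u`, `u ∈ U`, then some character `ψ` of `B` with `ψ|U ≠ 1` occurs in `V`, with
all its conjugates; so `dim V ≥` the length of its orbit.
-/

namespace Crest.Agent.R289.OrbitDim962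

open Module.End Crest.Agent.R289.TraceM962
open scoped Matrix

variable {G : Type*} [Group G] [Fintype G]

/-- left translation. -/
def ltr (g : G) : (G → ℂ) →ₗ[ℂ] (G → ℂ) where
  toFun f := fun x => f (g * x)
  map_add' _ _ := rfl
  map_smul' _ _ := rfl

omit [Fintype G] in
@[simp] lemma ltr_apply (g : G) (f : G → ℂ) (x : G) : ltr g f x = f (g * x) := rfl

section fourier

variable {B : Type*} [AddCommGroup B] [Fintype B] (j : B → G)

/-- the projection on the `ψ`-part. -/
noncomputable def proj (ψ : AddChar B ℂ) (f : G → ℂ) : G → ℂ :=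
  ∑ b : B, (ψ (-b)) • ltr (j b) f

omit [Fintype G] in
lemma proj_eigen (hj : ∀ a b, j (a + b) = j a * j b) (ψ : AddChar B ℂ) (f : G → ℂ) (a : B) :
    ltr (j a) (proj j ψ f) = ψ a • proj j ψ f := by
  unfold proj
  rw [map_sum, Finset.smul_sum]
  rw [← Equiv.sum_comp (Equiv.addRight a) (fun b => ψ a • ψ (-b) • ltr (j b) f)]
  refine Finset.sum_congr rfl fun b _ => ?_
  funext x
  simp only [Equiv.coe_addRight, Pi.smul_apply, ltr_apply, smul_eq_mul, hj]
  rw [← mul_assoc (ψ a), ← AddChar.map_add_eq_mul, mul_assoc (j b)]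
  congr 2
  abel

omit [Fintype G] in
lemma sum_proj (hj0 : j 0 = 1) (f : G → ℂ) :
    ∑ ψ : AddChar B ℂ, proj j ψ f = (Fintype.card B : ℂ) • f := by
  classical
  unfold proj
  rw [Finset.sum_comm]
  simp_rw [← Finset.sum_smul, AddChar.sum_apply_eq_ite, neg_eq_zero, ite_smul, zero_smul]
  rw [Finset.sum_ite_eq' Finset.univ (0 : B), if_pos (Finset.mem_univ _), hj0]
  congr 1
  funext x
  simp

omit [Fintype B] in
lemma exists_char_part (V : Submodule ℂ (G → ℂ)) (hV : LStable V) [Finite B]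
    (hj : ∀ a b, j (a + b) = j a * j b) (hj0 : j 0 = 1) (hV0 : V ≠ ⊥) (U : Set B)
    (hfix : ∀ f ∈ V, (∀ u ∈ U, ∀ x, f (j u * x) = f x) → f = 0) :
    ∃ (ψ : AddChar B ℂ) (f : G → ℂ), f ∈ V ∧ f ≠ 0 ∧ (∀ b x, f (j b * x) = ψ b * f x) ∧
      ∃ u ∈ U, ψ u ≠ 1 := by
  classical
  have := Fintype.ofFinite B
  obtain ⟨f, hf, hf0⟩ := (Submodule.ne_bot_iff V).mp hV0
  have h1 : ∃ ψ : AddChar B ℂ, proj j ψ f ≠ 0 := by
    by_contra hcon
    push Not at hcon
    have := sum_proj j hj0 f
    rw [Finset.sum_eq_zero (fun ψ _ => hcon ψ)] at this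
    have hc : (Fintype.card B : ℂ) ≠ 0 := Nat.cast_ne_zero.mpr Fintype.card_ne_zero
    exact hf0 ((smul_eq_zero.mp this.symm).resolve_left hc)
  obtain ⟨ψ, hψ⟩ := h1
  have hmem : proj j ψ f ∈ V := by
    unfold proj
    refine Submodule.sum_mem _ fun b _ => Submodule.smul_mem _ _ ?_
    exact hV (j b) f hf
  have heig : ∀ b x, (proj j ψ f) (j b * x) = ψ b * (proj j ψ f) x := by
    intro b x
    have := congrFun (proj_eigen j hj ψ f b) x
    simpa using this
  refine ⟨ψ, proj j ψ f, hmem, hψ, heig, ?_⟩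
  by_contra hcon
  push Not at hcon
  apply hψ
  apply hfix _ hmem
  intro u hu x
  rw [heig, hcon u hu, one_mul]

end fourier

section indep

variable {B : Type*} (j : B → G)

/-- joint eigenvectors with distinct eigenvalue functions are independent. -/
lemma card_le_finrank (hcomm : ∀ a b, j a * j b = j b * j a) (V : Submodule ℂ (G → ℂ))
    (Ψ : Finset (B → ℂ))
    (h : ∀ χ ∈ Ψ, ∃ f ∈ V, f ≠ 0 ∧ ∀ b x, f (j b * x) = χ b * f x) :
    Ψ.card ≤ Module.finrank ℂ V := by
  classical
  choose! F hFV hF0 hF using h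
  have hind := Module.End.independent_iInf_maxGenEigenspace_of_forall_mapsTo
    (fun b : B => (ltr (j b) : Module.End ℂ (G → ℂ))) (by
      intro a b φ
      apply Module.End.mapsTo_maxGenEigenspace_of_comm
      refine LinearMap.ext fun f => funext fun x => ?_
      change f (j a * (j b * x)) = f (j b * (j a * x))
      rw [← mul_assoc, hcomm, mul_assoc])
  have hind2 := hind.comp (f := fun χ : Ψ => (χ : B → ℂ)) Subtype.val_injective
  have hli : LinearIndependent ℂ (fun χ : Ψ => F (χ : B → ℂ)) := by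
    refine iSupIndep.linearIndependent _ hind2 ?_ ?_
    · intro χ
      rw [Function.comp_apply, Submodule.mem_iInf]
      intro b
      apply eigenspace_le_maxGenEigenspace
      rw [mem_eigenspace_iff]
      funext x
      simpa using hF χ χ.2 b x
    · intro χ
      exact hF0 χ χ.2
  have hli2 : LinearIndependent ℂ (fun χ : Ψ => (⟨F (χ : B → ℂ), hFV χ χ.2⟩ : V)) := by
    apply LinearIndependent.of_comp V.subtype
    exact hli
  have := hli2.fintype_card_le_finrank
  simpa using this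

end indep

section orbit

variable {B : Type*} [AddCommGroup B] [Finite B] (j : B → G)

/-- **B1b, orbit form.** -/
theorem orbit_dim (hj : ∀ a b, j (a + b) = j a * j b) (hj0 : j 0 = 1)
    (V : Submodule ℂ (G → ℂ)) (hV : LStable V) (hV0 : V ≠ ⊥) (U : Set B)
    (hfix : ∀ f ∈ V, (∀ u ∈ U, ∀ x, f (j u * x) = f x) → f = 0)
    (H : Set G) (c : G → B → B) (hc : ∀ h ∈ H, ∀ b, h * j b = j (c h b) * h) (D : ℕ)
    (horb : ∀ ψ : AddChar B ℂ, (∃ u ∈ U, ψ u ≠ 1) →
      ∃ Ψ : Finset (B → ℂ), D ≤ Ψ.card ∧ ∀ χ ∈ Ψ, ∃ h ∈ H, ∀ b, χ b = ψ (c h b)) :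
    D ≤ Module.finrank ℂ V := by
  obtain ⟨ψ, f, hfV, hf0, hf, hu⟩ := exists_char_part j V hV hj hj0 hV0 U hfix
  obtain ⟨Ψ, hΨ, hconj⟩ := horb ψ hu
  refine hΨ.trans (card_le_finrank j (fun a b => by rw [← hj, ← hj, add_comm]) V Ψ ?_)
  intro χ hχ
  obtain ⟨h, hh, hχh⟩ := hconj χ hχ
  refine ⟨fun x => f (h * x), hV h f hfV, ?_, ?_⟩
  · intro h0
    apply hf0
    funext x
    have := congrFun h0 (h⁻¹ * x)
    simpa using this
  · intro b x
    change f (h * (j b * x)) = χ b * f (h * x)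
    rw [← mul_assoc, hc h hh, mul_assoc, hf, hχh]

/-- **B1b, stabiliser form**: `D * |Stab_H ψ| ≤ |H|` for all `ψ` with `ψ|U ≠ 1`. -/
theorem orbit_dim_stab (hj : ∀ a b, j (a + b) = j a * j b) (hj0 : j 0 = 1)
    (hinj : Function.Injective j)
    (V : Submodule ℂ (G → ℂ)) (hV : LStable V) (hV0 : V ≠ ⊥) (U : Set B)
    (hfix : ∀ f ∈ V, (∀ u ∈ U, ∀ x, f (j u * x) = f x) → f = 0)
    (H : Subgroup G) (c : G → B → B) (hc : ∀ h ∈ H, ∀ b, h * j b = j (c h b) * h) (D : ℕ)
    (hstab : ∀ ψ : AddChar B ℂ, (∃ u ∈ U, ψ u ≠ 1) →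
      D * Nat.card {h : G // h ∈ H ∧ ∀ b, ψ (c h b) = ψ b} ≤ Nat.card H) :
    D ≤ Module.finrank ℂ V := by
  classical
  refine orbit_dim j hj hj0 V hV hV0 U hfix (H : Set G) c hc D fun ψ hψ => ?_
  have hst := hstab ψ hψ
  set S : Finset G := Finset.univ.filter (fun h => h ∈ H ∧ ∀ b, ψ (c h b) = ψ b) with hS
  set HH : Finset G := Finset.univ.filter (fun h => h ∈ H) with hHH
  have hcardS : Nat.card {h : G // h ∈ H ∧ ∀ b, ψ (c h b) = ψ b} = S.card := by
    rw [Nat.card_eq_fintype_card, Fintype.card_subtype]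
  have hcardH : Nat.card H = HH.card := by
    rw [Nat.card_eq_fintype_card, ← Fintype.card_subtype]
  rw [hcardS, hcardH] at hst
  have hmulc : ∀ g ∈ H, ∀ h ∈ H, ∀ b, c (g * h) b = c g (c h b) := by
    intro g hg h hh b
    apply hinj
    have h1 := hc (g * h) (H.mul_mem hg hh) b
    have h2 : g * h * j b = j (c g (c h b)) * (g * h) := by
      rw [mul_assoc, hc h hh, ← mul_assoc, hc g hg, mul_assoc]
    rw [h2] at h1
    exact (mul_right_cancel h1).symm
  have hone : ∀ b, c 1 b = b := by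
    intro b
    apply hinj
    have := hc 1 H.one_mem b
    simpa using this.symm
  refine ⟨HH.image (fun h b => ψ (c h b)), ?_, ?_⟩
  · have hle : HH.card ≤ S.card * (HH.image (fun h b => ψ (c h b))).card := by
      apply Finset.card_le_mul_card_image
      intro χ hχ
      obtain ⟨h0, hh0, rfl⟩ := Finset.mem_image.mp hχ
      have hh0' : h0 ∈ H := (Finset.mem_filter.mp hh0).2
      refine Finset.card_le_card_of_injOn (fun h => h * h0⁻¹) ?_ ?_
      · intro h hh
        simp only [Finset.coe_filter, Set.mem_ofPred_eq] at hh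
        have hhH : h ∈ H := (Finset.mem_filter.mp hh.1).2
        simp only [hS, Finset.coe_filter, Set.mem_ofPred_eq, Finset.mem_univ, true_and]
        refine ⟨H.mul_mem hhH (H.inv_mem hh0'), fun b => ?_⟩
        rw [hmulc h hhH h0⁻¹ (H.inv_mem hh0')]
        have h3 : ψ (c h (c h0⁻¹ b)) = ψ (c h0 (c h0⁻¹ b)) := congrFun hh.2 (c h0⁻¹ b)
        rw [h3, ← hmulc h0 hh0' h0⁻¹ (H.inv_mem hh0'), mul_inv_cancel, hone]
      · intro a _ b _ hab
        exact mul_right_cancel hab
    have hSpos : 0 < S.card := by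
      apply Finset.card_pos.mpr
      exact ⟨1, Finset.mem_filter.mpr ⟨Finset.mem_univ _, H.one_mem, fun b => by rw [hone]⟩⟩
    have := hst.trans hle
    rw [mul_comm D] at this
    exact Nat.le_of_mul_le_mul_left this hSpos
  · intro χ hχ
    obtain ⟨h0, hh0, rfl⟩ := Finset.mem_image.mp hχ
    exact ⟨h0, (Finset.mem_filter.mp hh0).2, fun b => rfl⟩

end orbit

section newspace

/-- functions killed by summation over the left translates by `j z`. -/
def newSpace {Z : Type*} [Fintype Z] (j : Z → G) : Submodule ℂ (G → ℂ) where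
  carrier := {f | ∀ g : G, ∑ z : Z, f (j z * g) = 0}
  zero_mem' := by intro g; simp
  add_mem' := by
    intro a b ha hb g
    simp only [Set.mem_ofPred_eq] at ha hb
    simp only [Pi.add_apply, Finset.sum_add_distrib, ha g, hb g, add_zero]
  smul_mem' := by
    intro c a ha g
    simp only [Set.mem_ofPred_eq] at ha
    simp only [Pi.smul_apply, ← Finset.smul_sum, ha g, smul_zero]

variable {Z : Type*} [Fintype Z] (j : Z → G)

omit [Fintype G] in
lemma mem_newSpace {f : G → ℂ} : f ∈ newSpace j ↔ ∀ g : G, ∑ z : Z, f (j z * g) = 0 := Iff.rfl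

omit [Fintype G] in
/-- if the image of `j` is normal (conjugation permutes `Z`), `newSpace j` is left-stable. -/
lemma newSpace_lstable (hn : ∀ g : G, ∃ e : Z ≃ Z, ∀ z, g * j z = j (e z) * g) :
    LStable (newSpace j) := by
  intro g f hf x
  obtain ⟨e, he⟩ := hn g
  have : ∀ z, f (g * (j z * x)) = f (j (e z) * (g * x)) := fun z => by
    rw [← mul_assoc, he, mul_assoc]
  simp only [this]
  rw [e.sum_comp (fun z => f (j z * (g * x)))]
  exact hf (g * x)

lemma newSpace_gram [DecidableEq G] {ι : Type*} [Fintype ι] (s : ι → G) (f : G → ℂ)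
    (hf : f ∈ newSpace j) : gram s *ᵥ f ∈ newSpace j := by
  rw [gram_mulVec, mem_newSpace]
  intro g
  rw [Finset.sum_comm]
  refine Finset.sum_eq_zero fun i _ => ?_
  rw [Finset.sum_comm]
  refine Finset.sum_eq_zero fun k _ => ?_
  simp only [mul_assoc]
  exact hf _

omit [Fintype G] in
lemma newSpace_fix [Nonempty Z] (f : G → ℂ) (hf : f ∈ newSpace j)
    (hfix : ∀ z x, f (j z * x) = f x) : f = 0 := by
  funext g
  have h := hf g
  simp only [hfix, Finset.sum_const, nsmul_eq_mul] at h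
  have hc : ((Finset.univ : Finset Z).card : ℂ) ≠ 0 := by
    rw [Finset.card_univ]
    exact Nat.cast_ne_zero.mpr Fintype.card_ne_zero
  exact (mul_eq_zero.mp h).resolve_left hc

end newspace

end Crest.Agent.R289.OrbitDim962
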