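import Crest.Agent.R289.PExpBool_940
import Crest.Agent.R289.DefD_721

/-!
# Row 289: Kleene-monotone functions, closure properties

* `KMono` (of `PExpBool_940`) is closed under constants, coordinates, composition, renaming, and the
  operations `k3not, k3and, k3or, k3mux` of `DefD_721`.
* `kall F` : all possible candidates agree (`F : κ → Option β`, candidate `none` is never equal).
* `kdec S o t` : nearest-codeword decoding, unreadable entries count as errors: monotone if words of
  `S` with different outputs are at distance `> 2t`.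
-/

set_option autoImplicit false

namespace Crest.Agent.R289.PBool940

open Crest.Agent.R289.DefD

variable {ι κ β γ : Type}

theorem KMono.const (c : Option β) : KMono (fun _ : ι → Option Bool => c) := fun _ _ _ _ => rfl

theorem KMono.proj (i : ι) : KMono (fun p : ι → Option Bool => p i) :=
  fun _ _ h hi => h i hi

theorem KMono.map {f : (ι → Option Bool) → Option β} (hf : KMono f) (g : β → γ) :
    KMono (fun p => (f p).map g) := by
  intro p q h hp
  have : f p ≠ none := fun h0 => hp (by simp [h0])
  simp only
  rw [hf p q h this]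

theorem KMono.bind {f : (ι → Option Bool) → Option β} (hf : KMono f)
    {g : β → (ι → Option Bool) → Option γ} (hg : ∀ b, KMono (g b)) :
    KMono (fun p => (f p).bind fun b => g b p) := by
  intro p q h hp
  simp only at hp ⊢
  have h0 : f p ≠ none := fun h0 => hp (by simp [h0])
  rw [hf p q h h0]
  obtain ⟨b, hb⟩ := Option.ne_none_iff_exists'.1 h0
  rw [hb] at hp ⊢
  exact hg b p q h hp

/-- composition: a monotone function of monotone readings -/
theorem KMono.comp {F : (κ → Option Bool) → Option β} (hF : KMono F)
    {f : κ → (ι → Option Bool) → Option Bool} (hf : ∀ k, KMono (f k)) :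
    KMono (fun p => F fun k => f k p) := by
  intro p q h hp
  exact hF _ _ (fun k hk => hf k p q h hk) hp

/-- renaming of the inputs -/
theorem KMono.comp_inj {F : (κ → Option Bool) → Option β} (hF : KMono F) (e : κ → ι) :
    KMono (fun p : ι → Option Bool => F fun k => p (e k)) :=
  hF.comp fun k => KMono.proj (e k)

/-- restriction of the first argument of a sum type: the others are fixed readings -/
theorem KMono.mono_fix {F : (ι → Option Bool) → Option β} (hF : KMono F)
    {p q : ι → Option Bool} (h : Ref p q) {b : β} (hp : F p = some b) : F q = some b := by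
  rw [hF p q h (by rw [hp]; simp), hp]

section k3

variable {f g s : (ι → Option Bool) → K3}

theorem KMono.k3not (hf : KMono f) : KMono (fun p => k3not (f p)) := by
  intro p q h hp
  simp only at hp ⊢
  have h0 : f p ≠ none := fun h0 => hp (by rw [h0]; rfl)
  rw [hf p q h h0]

/-- a binary Kleene operation that is monotone in each argument -/
def Bin (op : K3 → K3 → K3) : Prop :=
  ∀ a a' b b' : K3, (a ≠ none → a' = a) → (b ≠ none → b' = b) → op a b ≠ none → op a' b' = op a b

theorem bin_and : Bin k3and := by
  unfold Bin
  decide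

theorem bin_or : Bin k3or := by
  unfold Bin
  decide

theorem KMono.bin {op : K3 → K3 → K3} (hop : Bin op) (hf : KMono f) (hg : KMono g) :
    KMono (fun p => op (f p) (g p)) := by
  intro p q h hp
  exact hop _ _ _ _ (fun h0 => hf p q h h0) (fun h0 => hg p q h h0) hp

theorem KMono.k3and (hf : KMono f) (hg : KMono g) : KMono (fun p => k3and (f p) (g p)) :=
  KMono.bin bin_and hf hg

theorem KMono.k3or (hf : KMono f) (hg : KMono g) : KMono (fun p => k3or (f p) (g p)) :=
  KMono.bin bin_or hf hg

theorem tri_mux (a a' b b' c c' : K3) (ha : a ≠ none → a' = a) (hb : b ≠ none → b' = b)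
    (hc : c ≠ none → c' = c) (h : k3mux a b c ≠ none) : k3mux a' b' c' = k3mux a b c := by
  by_cases hb0 : b = none
  · subst hb0
    by_cases hc0 : c = none
    · subst hc0
      rcases a with _ | _ | _ <;> exact absurd rfl h
    · rw [hc hc0]
      rcases a with _ | _ | _
      · rcases c with _ | _ | _ <;> exact absurd rfl h
      · rw [ha (by simp)]
        rfl
      · exact absurd rfl h
  · rw [hb hb0]
    by_cases hc0 : c = none
    · subst hc0
      rcases a with _ | _ | _
      · rcases b with _ | _ | _ <;> exact absurd rfl h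
      · exact absurd rfl h
      · rw [ha (by simp)]
        rfl
    · rw [hc hc0]
      by_cases ha0 : a = none
      · subst ha0
        rcases b with _ | _ | _
        · exact absurd rfl hb0
        · rcases c with _ | _ | _
          · exact absurd rfl hc0
          · rcases a' with _ | _ | _ <;> rfl
          · exact absurd rfl h
        · rcases c with _ | _ | _
          · exact absurd rfl hc0
          · exact absurd rfl h
          · rcases a' with _ | _ | _ <;> rfl
      · rw [ha ha0]

theorem KMono.k3mux (hs : KMono s) (hf : KMono f) (hg : KMono g) :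
    KMono (fun p => k3mux (s p) (f p) (g p)) := by
  intro p q h hp
  exact tri_mux _ _ _ _ _ _ (fun h0 => hs p q h h0) (fun h0 => hf p q h h0)
    (fun h0 => hg p q h h0) hp

end k3

/-! ### possible candidates -/

open Classical in
/-- common value of all candidates that are possible: candidate `k` is excluded if its guard reads
`some false`; the result is `some b` iff every candidate that is not excluded equals `some b` (and at
least one is not excluded) -/
noncomputable def kcand (guard : κ → K3) (cand : κ → Option β) : Option β :=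
  if h : ∃ b, (∃ k, guard k ≠ some false) ∧ ∀ k, guard k ≠ some false → cand k = some b
  then some h.choose else none

theorem kcand_eq (guard : κ → K3) (cand : κ → Option β) (b : β) :
    kcand guard cand = some b ↔
      (∃ k, guard k ≠ some false) ∧ ∀ k, guard k ≠ some false → cand k = some b := by
  classical
  unfold kcand
  constructor
  · intro h
    split_ifs at h with h1
    obtain ⟨h2, h3⟩ := h1.choose_spec
    exact ⟨h2, fun k hk => by rw [h3 k hk]; exact h⟩
  · rintro ⟨⟨k, hk⟩, h⟩
    have h1 : ∃ b, (∃ k, guard k ≠ some false) ∧ ∀ k, guard k ≠ some false → cand k = some b :=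
      ⟨b, ⟨k, hk⟩, h⟩
    rw [dif_pos h1]
    have h2 := h1.choose_spec.2 k hk
    rw [h k hk] at h2
    rw [Option.some.inj h2.symm]

/-- monotone in guards and candidates, as long as some guard is (and stays) not excluded -/
theorem kcand_mono {guard guard' : κ → K3} {cand cand' : κ → Option β} {b : β}
    (hg : ∀ k, guard k ≠ none → guard' k = guard k) (hc : ∀ k, cand k ≠ none → cand' k = cand k)
    (hex : ∃ k, guard' k ≠ some false) (h : kcand guard cand = some b) :
    kcand guard' cand' = some b := by
  rw [kcand_eq] at h ⊢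
  refine ⟨hex, fun k hk => ?_⟩
  have h1 : guard k ≠ some false := by
    intro h0
    exact hk (by rw [hg k (by rw [h0]; simp), h0])
  have h2 := h.2 k h1
  rw [hc k (by rw [h2]; simp), h2]

/-! ### nearest-codeword decoding -/

section dec

variable [Fintype ι]

/-- number of entries that are not (readable and equal to the word) -/
def errs (p : ι → Option Bool) (c : ι → Bool) : ℕ :=
  ((Finset.univ : Finset ι).filter fun i => p i ≠ some (c i)).card

theorem errs_anti {p q : ι → Option Bool} (h : Ref p q) (c : ι → Bool) : errs q c ≤ errs p c := by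
  refine Finset.card_le_card fun i hi => ?_
  rw [Finset.mem_filter] at hi ⊢
  refine ⟨Finset.mem_univ _, fun h0 => hi.2 ?_⟩
  rw [h i (by rw [h0]; simp), h0]

theorem dist_le_errs (p : ι → Option Bool) (c d : ι → Bool) :
    ((Finset.univ : Finset ι).filter fun i => c i ≠ d i).card ≤ errs p c + errs p d := by
  classical
  unfold errs
  refine le_trans (Finset.card_le_card ?_) (Finset.card_union_le _ _)
  intro i hi
  rw [Finset.mem_filter] at hi
  rw [Finset.mem_union, Finset.mem_filter, Finset.mem_filter]
  by_contra hcon
  push Not at hcon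
  have h1 := hcon.1 (Finset.mem_univ _)
  have h2 := hcon.2 (Finset.mem_univ _)
  rw [h1] at h2
  exact hi.2 (Option.some.inj h2)

open Classical in
/-- decoding to the output of a word of `S` with at most `t` errors -/
noncomputable def kdec (S : Set (ι → Bool)) (o : (ι → Bool) → β) (t : ℕ)
    (p : ι → Option Bool) : Option β :=
  if h : ∃ c ∈ S, errs p c ≤ t then some (o h.choose) else none

/-- words of `S` with different outputs are at distance `> 2t` -/
def Sep (S : Set (ι → Bool)) (o : (ι → Bool) → β) (t : ℕ) : Prop :=
  ∀ c ∈ S, ∀ d ∈ S, o c ≠ o d →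
    2 * t < ((Finset.univ : Finset ι).filter fun i => c i ≠ d i).card

theorem kdec_eq {S : Set (ι → Bool)} {o : (ι → Bool) → β} {t : ℕ} (hS : Sep S o t)
    {p : ι → Option Bool} {c : ι → Bool} (hc : c ∈ S) (h : errs p c ≤ t) :
    kdec S o t p = some (o c) := by
  classical
  have h1 : ∃ c ∈ S, errs p c ≤ t := ⟨c, hc, h⟩
  unfold kdec
  rw [dif_pos h1]
  congr 1
  by_contra hne
  have h2 := hS _ h1.choose_spec.1 _ hc hne
  have h3 := dist_le_errs p h1.choose c
  have h4 := h1.choose_spec.2
  omega

theorem kdec_mono {S : Set (ι → Bool)} {o : (ι → Bool) → β} {t : ℕ} (hS : Sep S o t) :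
    KMono (kdec S o t) := by
  classical
  intro p q h hp
  have h1 : ∃ c ∈ S, errs p c ≤ t := by
    by_contra h0
    exact hp (by unfold kdec; rw [dif_neg h0])
  obtain ⟨c, hc, he⟩ := h1
  rw [kdec_eq hS hc he, kdec_eq hS hc ((errs_anti h c).trans he)]

end dec

/-! ### comparators -/

/-- comparator output: `0` for `a ≤ lo`, `1` for `lo + 1/2^(n+1) ≤ a` (`2^(n+1)`-fold amplification) -/
def amp : ℕ → PExp → PExp
  | 0, a => a
  | n + 1, a => dbl (amp n a)

/-- `0` for `a ≤ lo`, `1` for `lo + 1/2^n ≤ a` -/
def cmpX (n : ℕ) (lo : ℚ) (a : PExp) : PExp := amp n (.sub a (.const lo))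

variable {x : ℕ → ℕ → ℚ} {a : PExp}

theorem In01.amp (ha : In01 x a) (n : ℕ) : In01 x (amp n a) := by
  induction n with
  | zero => exact ha
  | succ n ih => exact In01.dbl ih.1

theorem eval_amp (ha : In01 x a) (n : ℕ) : (PBool940.amp n a).eval x = min (2 ^ n * a.eval x) 1 := by
  induction n with
  | zero => simp [PBool940.amp, ha.2]
  | succ n ih =>
    rw [PBool940.amp, eval_dbl, ih]
    have h0 : 0 ≤ 2 ^ n * a.eval x := mul_nonneg (by positivity) ha.1
    rcases le_total (2 ^ n * a.eval x) 1 with h | h
    · rw [min_eq_left h, pow_succ]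
      congr 1
      ring
    · rw [min_eq_right h, pow_succ, min_eq_right (by norm_num), min_eq_right (by nlinarith)]

theorem In01.cmpX (ha : In01 x a) (n : ℕ) {lo : ℚ} (h : 0 ≤ lo) : In01 x (cmpX n lo a) :=
  In01.amp (In01.sub (b := .const lo) ha h) n

theorem cmpX_zero (ha : In01 x a) (n : ℕ) {lo : ℚ} (h0 : 0 ≤ lo) (h : a.eval x ≤ lo) :
    (PBool940.cmpX n lo a).eval x = 0 := by
  have h1 : (PExp.sub a (.const lo)).eval x = 0 := by
    simp only [PExp.eval]
    exact max_eq_right (by linarith)
  rw [PBool940.cmpX, eval_amp (In01.sub (b := .const lo) ha h0), h1]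
  simp

theorem cmpX_one (ha : In01 x a) (n : ℕ) {lo : ℚ} (h0 : 0 ≤ lo) (h : lo + 1 / 2 ^ n ≤ a.eval x) :
    (PBool940.cmpX n lo a).eval x = 1 := by
  have h1 : 1 / 2 ^ n ≤ (PExp.sub a (.const lo)).eval x := by
    simp only [PExp.eval]
    exact (by linarith : (1 : ℚ) / 2 ^ n ≤ a.eval x - lo).trans (le_max_left _ _)
  rw [PBool940.cmpX, eval_amp (In01.sub (b := .const lo) ha h0)]
  refine min_eq_right ?_
  have h2 : (0 : ℚ) < 2 ^ n := by positivity
  calc (1 : ℚ) = 2 ^ n * (1 / 2 ^ n) := by field_simp
    _ ≤ _ := mul_le_mul_of_nonneg_left h1 h2.le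

theorem WF_amp {K L : ℕ} (ha : a.WF K L) (n : ℕ) : (PBool940.amp n a).WF K L := by
  induction n with
  | zero => exact ha
  | succ n ih => exact WF_dbl ih

theorem WF_cmpX {K L : ℕ} (ha : a.WF K L) (n : ℕ) {lo : ℚ} (h0 : 0 ≤ lo) (h1 : lo ≤ 1) :
    (PBool940.cmpX n lo a).WF K L :=
  WF_amp (a := .sub a (.const lo)) ⟨ha, h0, h1⟩ n

end Crest.Agent.R289.PBool940
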