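import Crest.Agent.R289.DefE_217

/-!
# Row 289, block E: library of piecewise linear expressions on `PExp` (helper118)

`compl`, `mn`, `mx`, `dst`, `natMul`, `ramp`, `mix`, `sumL`, `avg`, `mxL`, `mnL` with exact values,
`eval_mem` (values stay in `[0,1]`), `eval_congr`, `eval_lip` (Lipschitz constant `occ`), `WF` of each,
decidability of `WF`, substitution `bind`.
-/

set_option autoImplicit false

namespace Crest.Agent.R289.PExp

variable {K L : ℕ} {x y : ℕ → ℕ → ℚ}

/-- number of occurrences of variables = Lipschitz constant -/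
def occ : PExp → ℕ
  | .var _ _ => 1
  | .const _ => 0
  | .scale _ e => e.occ
  | .add a b => a.occ + b.occ
  | .sub a b => a.occ + b.occ

instance decWF (K L : ℕ) : (e : PExp) → Decidable (e.WF K L)
  | .var k l => inferInstanceAs (Decidable (k < K ∧ l < L))
  | .const q => inferInstanceAs (Decidable (0 ≤ q ∧ q ≤ 1))
  | .scale q e => @instDecidableAnd (0 ≤ q ∧ q ≤ 1) (e.WF K L) inferInstance (decWF K L e)
  | .add a b => @instDecidableAnd (a.WF K L) (b.WF K L) (decWF K L a) (decWF K L b)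
  | .sub a b => @instDecidableAnd (a.WF K L) (b.WF K L) (decWF K L a) (decWF K L b)

theorem WF.mono {K' L' : ℕ} (hK : K ≤ K') (hL : L ≤ L') {e : PExp} (h : e.WF K L) :
    e.WF K' L' := by
  induction e with
  | var k l => exact ⟨lt_of_lt_of_le h.1 hK, lt_of_lt_of_le h.2 hL⟩
  | const q => exact h
  | scale q e ih => exact ⟨h.1, ih h.2⟩
  | add a b iha ihb => exact ⟨iha h.1, ihb h.2⟩
  | sub a b iha ihb => exact ⟨iha h.1, ihb h.2⟩

theorem size_pos (e : PExp) : 0 < e.size := by
  cases e <;> simp [size]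

theorem occ_le_size (e : PExp) : e.occ ≤ e.size := by
  induction e with
  | var k l => exact le_rfl
  | const q => exact Nat.zero_le _
  | scale q e ih => exact ih.trans (Nat.le_succ _)
  | add a b iha ihb => simp only [occ, size]; omega
  | sub a b iha ihb => simp only [occ, size]; omega

/-- values of a well formed expression stay in `[0,1]` -/
theorem eval_mem' {e : PExp} (he : e.WF K L)
    (hx : ∀ k < K, ∀ l < L, 0 ≤ x k l ∧ x k l ≤ 1) : 0 ≤ e.eval x ∧ e.eval x ≤ 1 := by
  induction e with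
  | var k l => exact hx k he.1 l he.2
  | const q => exact he
  | scale q e ih =>
    have h := ih he.2
    refine ⟨mul_nonneg he.1.1 h.1, ?_⟩
    calc q * e.eval x ≤ 1 * 1 := mul_le_mul he.1.2 h.2 h.1 zero_le_one
      _ = 1 := one_mul 1
  | add a b iha ihb =>
    have ha := iha he.1
    have hb := ihb he.2
    exact ⟨le_min (add_nonneg ha.1 hb.1) zero_le_one, min_le_right _ _⟩
  | sub a b iha ihb =>
    have ha := iha he.1
    have hb := ihb he.2
    refine ⟨le_max_right _ _, max_le ?_ zero_le_one⟩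
    have h1 := hb.1
    have h2 := ha.2
    linarith

theorem eval_mem {e : PExp} (he : e.WF K L) (hx : ∀ k l, 0 ≤ x k l ∧ x k l ≤ 1) :
    0 ≤ e.eval x ∧ e.eval x ≤ 1 := eval_mem' he fun k _ l _ => hx k l

/-- only the variables below `K`, `L` matter -/
theorem eval_congr {e : PExp} (he : e.WF K L) (h : ∀ k < K, ∀ l < L, x k l = y k l) :
    e.eval x = e.eval y := by
  induction e with
  | var k l => exact h k he.1 l he.2
  | const q => rfl
  | scale q e ih => simp only [eval, ih he.2]
  | add a b iha ihb => simp only [eval, iha he.1, ihb he.2]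
  | sub a b iha ihb => simp only [eval, iha he.1, ihb he.2]

theorem abs_min_sub (a b c d : ℚ) : |min (a + b) 1 - min (c + d) 1| ≤ |a - c| + |b - d| := by
  have h := abs_min_sub_min_le_max (a + b) 1 (c + d) 1
  rw [sub_self, abs_zero, max_eq_left (abs_nonneg _)] at h
  refine h.trans ?_
  have : a + b - (c + d) = (a - c) + (b - d) := by ring
  rw [this]
  exact abs_add_le _ _

theorem abs_max_sub (a b c d : ℚ) : |max (a - b) 0 - max (c - d) 0| ≤ |a - c| + |b - d| := by
  have h := abs_max_sub_max_le_max (a - b) 0 (c - d) 0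
  rw [sub_self, abs_zero, max_eq_left (abs_nonneg (a - b - (c - d)))] at h
  refine h.trans ?_
  have : a - b - (c - d) = (a - c) + (d - b) := by ring
  rw [this]
  refine (abs_add_le _ _).trans ?_
  rw [abs_sub_comm d b]

/-- Lipschitz bound -/
theorem eval_lip {e : PExp} (he : e.WF K L) (η : ℚ)
    (h : ∀ k < K, ∀ l < L, |x k l - y k l| ≤ η) : |e.eval x - e.eval y| ≤ e.occ * η := by
  induction e with
  | var k l =>
    have := h k he.1 l he.2
    simpa [eval, occ] using this
  | const q => simp [eval, occ]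
  | scale q a ih =>
    have h1 := ih he.2
    simp only [eval, occ]
    rw [← mul_sub, abs_mul, abs_of_nonneg he.1.1]
    calc q * |a.eval x - a.eval y| ≤ 1 * |a.eval x - a.eval y| :=
          mul_le_mul_of_nonneg_right he.1.2 (abs_nonneg _)
      _ = |a.eval x - a.eval y| := one_mul _
      _ ≤ _ := h1
  | add a b iha ihb =>
    have h1 := iha he.1
    have h2 := ihb he.2
    simp only [eval, occ]
    push_cast
    exact (abs_min_sub _ _ _ _).trans (by linarith)
  | sub a b iha ihb =>
    have h1 := iha he.1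
    have h2 := ihb he.2
    simp only [eval, occ]
    push_cast
    exact (abs_max_sub _ _ _ _).trans (by linarith)

/-! ### substitution -/

/-- substitution of expressions for the variables -/
def bind (f : ℕ → ℕ → PExp) : PExp → PExp
  | .var k l => f k l
  | .const q => .const q
  | .scale q e => .scale q (e.bind f)
  | .add a b => .add (a.bind f) (b.bind f)
  | .sub a b => .sub (a.bind f) (b.bind f)

theorem eval_bind (f : ℕ → ℕ → PExp) (x : ℕ → ℕ → ℚ) (e : PExp) :
    (e.bind f).eval x = e.eval fun k l => (f k l).eval x := by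
  induction e with
  | var k l => rfl
  | const q => rfl
  | scale q a ih => simp only [bind, eval, ih]
  | add a b iha ihb => simp only [bind, eval, iha, ihb]
  | sub a b iha ihb => simp only [bind, eval, iha, ihb]

theorem WF_bind {K' L' : ℕ} {f : ℕ → ℕ → PExp} {e : PExp} (he : e.WF K L)
    (hf : ∀ k < K, ∀ l < L, (f k l).WF K' L') : (e.bind f).WF K' L' := by
  induction e with
  | var k l => exact hf k he.1 l he.2
  | const q => exact he
  | scale q a ih => exact ⟨he.1, ih he.2⟩
  | add a b iha ihb => exact ⟨iha he.1, ihb he.2⟩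
  | sub a b iha ihb => exact ⟨iha he.1, ihb he.2⟩

/-! ### derived expressions -/

/-- `1 - a` -/
def compl (a : PExp) : PExp := .sub (.const 1) a
/-- minimum -/
def mn (a b : PExp) : PExp := .sub a (.sub a b)
/-- maximum -/
def mx (a b : PExp) : PExp := .add b (.sub a b)
/-- `|a - b|` -/
def dst (a b : PExp) : PExp := .add (.sub a b) (.sub b a)
/-- `min (n * a) 1` -/
def natMul : ℕ → PExp → PExp
  | 0, _ => .const 0
  | n + 1, a => .add a (natMul n a)
/-- `0` for values `≤ lo`, `1` for values `≥ lo + 1/n`, linear in between -/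
def ramp (lo : ℚ) (n : ℕ) (a : PExp) : PExp := natMul n (.sub a (.const lo))
/-- `a` for `w = 0`, `b` for `w = 1`, the common value of `a`, `b` for every `w` -/
def mix (w a b : PExp) : PExp := mx (mx (mn a (compl w)) (mn b w)) (mn a b)
/-- sum, capped at `1` -/
def sumL : List PExp → PExp
  | [] => .const 0
  | a :: l => .add a (sumL l)
/-- mean -/
def avg (l : List PExp) : PExp := sumL (l.map (.scale (1 / (l.length : ℚ))))
/-- weighted sum -/
def wsum (l : List (ℚ × PExp)) : PExp := sumL (l.map fun p => .scale p.1 p.2)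
/-- maximum of a list (`0` if empty) -/
def mxL : List PExp → PExp
  | [] => .const 0
  | a :: l => mx a (mxL l)
/-- minimum of a list (`1` if empty) -/
def mnL : List PExp → PExp
  | [] => .const 1
  | a :: l => mn a (mnL l)

/-! ### well-formedness -/

theorem compl_WF {a : PExp} (ha : a.WF K L) : (compl a).WF K L := ⟨⟨zero_le_one, le_rfl⟩, ha⟩

theorem mn_WF {a b : PExp} (ha : a.WF K L) (hb : b.WF K L) : (mn a b).WF K L := ⟨ha, ha, hb⟩

theorem mx_WF {a b : PExp} (ha : a.WF K L) (hb : b.WF K L) : (mx a b).WF K L := ⟨hb, ha, hb⟩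

theorem dst_WF {a b : PExp} (ha : a.WF K L) (hb : b.WF K L) : (dst a b).WF K L :=
  ⟨⟨ha, hb⟩, ⟨hb, ha⟩⟩

theorem natMul_WF (n : ℕ) {a : PExp} (ha : a.WF K L) : (natMul n a).WF K L := by
  induction n with
  | zero => exact ⟨le_rfl, zero_le_one⟩
  | succ n ih => exact ⟨ha, ih⟩

theorem ramp_WF {lo : ℚ} (h0 : 0 ≤ lo) (h1 : lo ≤ 1) (n : ℕ) {a : PExp} (ha : a.WF K L) :
    (ramp lo n a).WF K L := natMul_WF n ⟨ha, h0, h1⟩

theorem mix_WF {w a b : PExp} (hw : w.WF K L) (ha : a.WF K L) (hb : b.WF K L) :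
    (mix w a b).WF K L :=
  mx_WF (mx_WF (mn_WF ha (compl_WF hw)) (mn_WF hb hw)) (mn_WF ha hb)

theorem sumL_WF {l : List PExp} (h : ∀ a ∈ l, a.WF K L) : (sumL l).WF K L := by
  induction l with
  | nil => exact ⟨le_rfl, zero_le_one⟩
  | cons a l ih =>
    exact ⟨h a List.mem_cons_self, ih fun b hb => h b (List.mem_cons_of_mem _ hb)⟩

theorem avg_WF {l : List PExp} (h : ∀ a ∈ l, a.WF K L) : (avg l).WF K L := by
  refine sumL_WF fun a ha => ?_
  obtain ⟨b, hb, rfl⟩ := List.mem_map.1 ha
  refine ⟨⟨by positivity, ?_⟩, h b hb⟩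
  rw [div_le_one]
  · exact_mod_cast List.length_pos_of_mem hb
  · exact_mod_cast List.length_pos_of_mem hb

theorem wsum_WF {l : List (ℚ × PExp)} (h : ∀ p ∈ l, (0 ≤ p.1 ∧ p.1 ≤ 1) ∧ p.2.WF K L) :
    (wsum l).WF K L := by
  refine sumL_WF fun a ha => ?_
  obtain ⟨b, hb, rfl⟩ := List.mem_map.1 ha
  exact h b hb

theorem mxL_WF {l : List PExp} (h : ∀ a ∈ l, a.WF K L) : (mxL l).WF K L := by
  induction l with
  | nil => exact ⟨le_rfl, zero_le_one⟩
  | cons a l ih =>
    exact mx_WF (h a List.mem_cons_self) (ih fun b hb => h b (List.mem_cons_of_mem _ hb))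

theorem mnL_WF {l : List PExp} (h : ∀ a ∈ l, a.WF K L) : (mnL l).WF K L := by
  induction l with
  | nil => exact ⟨zero_le_one, le_rfl⟩
  | cons a l ih =>
    exact mn_WF (h a List.mem_cons_self) (ih fun b hb => h b (List.mem_cons_of_mem _ hb))

/-! ### values -/

theorem eval_compl {a : PExp} (ha : a.eval x ≤ 1) : (compl a).eval x = 1 - a.eval x := by
  simp only [compl, eval]
  exact max_eq_left (by linarith)

theorem eval_mn {a b : PExp} (ha : 0 ≤ a.eval x) (hb : 0 ≤ b.eval x) :
    (mn a b).eval x = min (a.eval x) (b.eval x) := by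
  simp only [mn, eval]
  rcases le_total (a.eval x) (b.eval x) with h | h
  · rw [min_eq_left h, max_eq_right (a := a.eval x - b.eval x) (by linarith), sub_zero,
      max_eq_left ha]
  · rw [min_eq_right h, max_eq_left (a := a.eval x - b.eval x) (by linarith), sub_sub_cancel,
      max_eq_left hb]

theorem eval_mx {a b : PExp} (ha : a.eval x ≤ 1) (hb : b.eval x ≤ 1) :
    (mx a b).eval x = max (a.eval x) (b.eval x) := by
  simp only [mx, eval]
  rcases le_total (a.eval x) (b.eval x) with h | h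
  · rw [max_eq_right h, max_eq_right (a := a.eval x - b.eval x) (by linarith), add_zero,
      min_eq_left hb]
  · rw [max_eq_left h, max_eq_left (a := a.eval x - b.eval x) (by linarith), add_sub_cancel,
      min_eq_left ha]

theorem eval_dst {a b : PExp} (ha : 0 ≤ a.eval x ∧ a.eval x ≤ 1)
    (hb : 0 ≤ b.eval x ∧ b.eval x ≤ 1) : (dst a b).eval x = |a.eval x - b.eval x| := by
  simp only [dst, eval]
  rcases le_total (a.eval x) (b.eval x) with h | h
  · rw [max_eq_right (a := a.eval x - b.eval x) (by linarith),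
      max_eq_left (a := b.eval x - a.eval x) (by linarith), zero_add,
      abs_of_nonpos (by linarith), neg_sub, min_eq_left (by linarith [ha.1, hb.2])]
  · rw [max_eq_left (a := a.eval x - b.eval x) (by linarith),
      max_eq_right (a := b.eval x - a.eval x) (by linarith), add_zero,
      abs_of_nonneg (by linarith), min_eq_left (by linarith [ha.2, hb.1])]

theorem eval_natMul (n : ℕ) {a : PExp} (ha : 0 ≤ a.eval x) :
    (natMul n a).eval x = min ((n : ℚ) * a.eval x) 1 := by
  induction n with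
  | zero => simp [natMul, eval]
  | succ n ih =>
    simp only [natMul, eval, ih]
    push_cast
    have h0 : 0 ≤ (n : ℚ) * a.eval x := by positivity
    rcases le_total ((n : ℚ) * a.eval x) 1 with h | h
    · rw [min_eq_left h]
      congr 1
      ring
    · rw [min_eq_right h, min_eq_right (by linarith), min_eq_right (by linarith)]

theorem eval_ramp (lo : ℚ) (n : ℕ) (a : PExp) :
    (ramp lo n a).eval x = min ((n : ℚ) * max (a.eval x - lo) 0) 1 := by
  rw [ramp, eval_natMul n (show (0 : ℚ) ≤ (PExp.sub a (.const lo)).eval x from le_max_right _ _)]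
  rfl

theorem eval_ramp_zero {lo : ℚ} {n : ℕ} {a : PExp} (h : a.eval x ≤ lo) :
    (ramp lo n a).eval x = 0 := by
  rw [eval_ramp, max_eq_right (by linarith), mul_zero, min_eq_left zero_le_one]

theorem eval_ramp_one {lo : ℚ} {n : ℕ} (hn : 0 < n) {a : PExp}
    (h : lo + 1 / (n : ℚ) ≤ a.eval x) : (ramp lo n a).eval x = 1 := by
  have hn' : (0 : ℚ) < n := by exact_mod_cast hn
  have h1 : 0 < 1 / (n : ℚ) := by positivity
  rw [eval_ramp, max_eq_left (by linarith), min_eq_right]
  have h2 : 1 / (n : ℚ) ≤ a.eval x - lo := by linarith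
  calc (1 : ℚ) = n * (1 / (n : ℚ)) := by field_simp
    _ ≤ n * (a.eval x - lo) := mul_le_mul_of_nonneg_left h2 hn'.le

theorem eval_ramp_mem (lo : ℚ) (n : ℕ) (a : PExp) :
    0 ≤ (ramp lo n a).eval x ∧ (ramp lo n a).eval x ≤ 1 := by
  rw [eval_ramp]
  refine ⟨le_min (mul_nonneg (by positivity) (le_max_right _ _)) zero_le_one, min_le_right _ _⟩

theorem eval_mix {w a b : PExp} (hw : 0 ≤ w.eval x ∧ w.eval x ≤ 1)
    (ha : 0 ≤ a.eval x ∧ a.eval x ≤ 1) (hb : 0 ≤ b.eval x ∧ b.eval x ≤ 1) :
    (mix w a b).eval x = max (max (min (a.eval x) (1 - w.eval x)) (min (b.eval x) (w.eval x)))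
      (min (a.eval x) (b.eval x)) := by
  have hc : (compl w).eval x = 1 - w.eval x := eval_compl hw.2
  have h1 : (mn a (compl w)).eval x = min (a.eval x) (1 - w.eval x) := by
    rw [eval_mn ha.1 (by rw [hc]; linarith [hw.2]), hc]
  have h2 : (mn b w).eval x = min (b.eval x) (w.eval x) := eval_mn hb.1 hw.1
  have h3 : (mn a b).eval x = min (a.eval x) (b.eval x) := eval_mn ha.1 hb.1
  have h4 : (mx (mn a (compl w)) (mn b w)).eval x =
      max (min (a.eval x) (1 - w.eval x)) (min (b.eval x) (w.eval x)) := by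
    rw [eval_mx, h1, h2]
    · rw [h1]; exact (min_le_left _ _).trans ha.2
    · rw [h2]; exact (min_le_left _ _).trans hb.2
  rw [mix, eval_mx, h4, h3]
  · rw [h4]
    exact max_le ((min_le_left _ _).trans ha.2) ((min_le_left _ _).trans hb.2)
  · rw [h3]
    exact (min_le_left _ _).trans ha.2

theorem eval_mix_mem {w a b : PExp} (hw : 0 ≤ w.eval x ∧ w.eval x ≤ 1)
    (ha : 0 ≤ a.eval x ∧ a.eval x ≤ 1) (hb : 0 ≤ b.eval x ∧ b.eval x ≤ 1) :
    0 ≤ (mix w a b).eval x ∧ (mix w a b).eval x ≤ 1 := by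
  rw [eval_mix hw ha hb]
  exact ⟨(le_min ha.1 hb.1).trans (le_max_right _ _),
    max_le (max_le ((min_le_left _ _).trans ha.2) ((min_le_left _ _).trans hb.2))
      ((min_le_left _ _).trans ha.2)⟩

theorem eval_mix_zero {w a b : PExp} (hw : w.eval x = 0)
    (ha : 0 ≤ a.eval x ∧ a.eval x ≤ 1) (hb : 0 ≤ b.eval x ∧ b.eval x ≤ 1) :
    (mix w a b).eval x = a.eval x := by
  rw [eval_mix (by rw [hw]; exact ⟨le_rfl, zero_le_one⟩) ha hb, hw, sub_zero, min_eq_left ha.2,
    min_eq_right hb.1, max_eq_left ha.1, max_eq_left (min_le_left _ _)]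

theorem eval_mix_one {w a b : PExp} (hw : w.eval x = 1)
    (ha : 0 ≤ a.eval x ∧ a.eval x ≤ 1) (hb : 0 ≤ b.eval x ∧ b.eval x ≤ 1) :
    (mix w a b).eval x = b.eval x := by
  rw [eval_mix (by rw [hw]; exact ⟨zero_le_one, le_rfl⟩) ha hb, hw, sub_self, min_eq_right ha.1,
    min_eq_left hb.2, max_eq_right hb.1, max_eq_left (min_le_right _ _)]

theorem eval_mix_same {w a b : PExp} (hw : 0 ≤ w.eval x ∧ w.eval x ≤ 1)
    (ha : 0 ≤ a.eval x ∧ a.eval x ≤ 1) (hab : a.eval x = b.eval x) :
    (mix w a b).eval x = a.eval x := by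
  rw [eval_mix hw ha (by rw [← hab]; exact ha), ← hab, min_self]
  exact max_eq_right (max_le (min_le_left _ _) (min_le_left _ _))

theorem eval_sumL {l : List PExp} (hl : ∀ a ∈ l, 0 ≤ a.eval x) :
    (sumL l).eval x = min ((l.map fun a => a.eval x).sum) 1 := by
  induction l with
  | nil => simp [sumL, eval]
  | cons a l ih =>
    simp only [sumL, eval, List.map_cons, List.sum_cons]
    rw [ih fun b hb => hl b (List.mem_cons_of_mem _ hb)]
    have ha : 0 ≤ a.eval x := hl a List.mem_cons_self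
    rcases le_total ((l.map fun a => a.eval x).sum) 1 with h | h
    · rw [min_eq_left h]
    · rw [min_eq_right h, min_eq_right (by linarith), min_eq_right (by linarith)]

theorem eval_wsum {l : List (ℚ × PExp)} (hl : ∀ p ∈ l, 0 ≤ p.1 ∧ 0 ≤ p.2.eval x) :
    (wsum l).eval x = min ((l.map fun p => p.1 * p.2.eval x).sum) 1 := by
  rw [wsum, eval_sumL]
  · rw [List.map_map]
    rfl
  · intro a ha
    obtain ⟨b, hb, rfl⟩ := List.mem_map.1 ha
    exact mul_nonneg (hl b hb).1 (hl b hb).2

/-- the mean is exact -/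
theorem eval_avg {l : List PExp} (hl : ∀ a ∈ l, 0 ≤ a.eval x ∧ a.eval x ≤ 1) :
    (avg l).eval x = (l.map fun a => a.eval x).sum / l.length := by
  rcases l.eq_nil_or_concat with rfl | hne
  · simp [avg, sumL, eval]
  have hpos : (0 : ℚ) < l.length := by
    obtain ⟨l', b, rfl⟩ := hne
    simp only [List.concat_eq_append, List.length_append, List.length_singleton]
    positivity
  rw [avg, eval_sumL]
  · have h1 : ((l.map (PExp.scale (1 / (l.length : ℚ)))).map fun a => a.eval x).sum =
        (l.map fun a => a.eval x).sum / l.length := by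
      rw [List.map_map]
      have : ((fun a : PExp => a.eval x) ∘ PExp.scale (1 / (l.length : ℚ))) =
          fun a : PExp => (1 / (l.length : ℚ)) * a.eval x := rfl
      rw [this, List.sum_map_mul_left]
      ring
    rw [h1]
    refine min_eq_left ?_
    rw [div_le_one hpos]
    have : (l.map fun a => a.eval x).sum ≤ (l.map fun _ => (1 : ℚ)).sum :=
      List.sum_le_sum fun a ha => (hl a ha).2
    simpa using this
  · intro a ha
    obtain ⟨b, hb, rfl⟩ := List.mem_map.1 ha
    exact mul_nonneg (by positivity) (hl b hb).1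

/-- the mean of a family indexed by `Fin d` -/
theorem eval_avg_ofFn {d : ℕ} {f : Fin d → PExp} (hf : ∀ i, 0 ≤ (f i).eval x ∧ (f i).eval x ≤ 1) :
    (avg (List.ofFn f)).eval x = (∑ i, (f i).eval x) / d := by
  rw [eval_avg]
  · rw [List.map_ofFn, List.sum_ofFn, List.length_ofFn]
    rfl
  · intro a ha
    obtain ⟨i, rfl⟩ := (List.mem_ofFn' _ _).1 ha
    exact hf i

theorem eval_mxL_mem {l : List PExp} (hl : ∀ a ∈ l, 0 ≤ a.eval x ∧ a.eval x ≤ 1) :
    0 ≤ (mxL l).eval x ∧ (mxL l).eval x ≤ 1 := by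
  induction l with
  | nil => exact ⟨le_rfl, zero_le_one⟩
  | cons a l ih =>
    have h := ih fun b hb => hl b (List.mem_cons_of_mem _ hb)
    have ha := hl a List.mem_cons_self
    rw [mxL, eval_mx ha.2 h.2]
    exact ⟨h.1.trans (le_max_right _ _), max_le ha.2 h.2⟩

theorem le_eval_mxL {l : List PExp} (hl : ∀ a ∈ l, 0 ≤ a.eval x ∧ a.eval x ≤ 1) {a : PExp}
    (ha : a ∈ l) : a.eval x ≤ (mxL l).eval x := by
  induction l with
  | nil => simp at ha
  | cons b l ih =>
    have h := eval_mxL_mem fun c hc => hl c (List.mem_cons_of_mem _ hc)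
    have hb := hl b List.mem_cons_self
    rw [mxL, eval_mx hb.2 h.2]
    rcases List.mem_cons.1 ha with rfl | ha
    · exact le_max_left _ _
    · exact (ih (fun c hc => hl c (List.mem_cons_of_mem _ hc)) ha).trans (le_max_right _ _)

theorem eval_mxL_le {l : List PExp} (hl : ∀ a ∈ l, 0 ≤ a.eval x ∧ a.eval x ≤ 1) {c : ℚ}
    (hc : 0 ≤ c) (h : ∀ a ∈ l, a.eval x ≤ c) : (mxL l).eval x ≤ c := by
  induction l with
  | nil => exact hc
  | cons b l ih =>
    have h' := eval_mxL_mem fun c hc => hl c (List.mem_cons_of_mem _ hc)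
    have hb := hl b List.mem_cons_self
    rw [mxL, eval_mx hb.2 h'.2]
    exact max_le (h b List.mem_cons_self)
      (ih (fun c hc => hl c (List.mem_cons_of_mem _ hc)) fun c hc => h c (List.mem_cons_of_mem _ hc))

/-- some member is `1` -/
theorem eval_mxL_one {l : List PExp} (hl : ∀ a ∈ l, 0 ≤ a.eval x ∧ a.eval x ≤ 1) {a : PExp}
    (ha : a ∈ l) (h : a.eval x = 1) : (mxL l).eval x = 1 :=
  le_antisymm (eval_mxL_mem hl).2 (h ▸ le_eval_mxL hl ha)

/-- all members are `0` -/
theorem eval_mxL_zero {l : List PExp} (h : ∀ a ∈ l, a.eval x = 0) : (mxL l).eval x = 0 := by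
  have hl : ∀ a ∈ l, 0 ≤ a.eval x ∧ a.eval x ≤ 1 := fun a ha => by
    rw [h a ha]; exact ⟨le_rfl, zero_le_one⟩
  exact le_antisymm (eval_mxL_le hl le_rfl fun a ha => (h a ha).le) (eval_mxL_mem hl).1

theorem eval_mnL_mem {l : List PExp} (hl : ∀ a ∈ l, 0 ≤ a.eval x ∧ a.eval x ≤ 1) :
    0 ≤ (mnL l).eval x ∧ (mnL l).eval x ≤ 1 := by
  induction l with
  | nil => exact ⟨zero_le_one, le_rfl⟩
  | cons a l ih =>
    have h := ih fun b hb => hl b (List.mem_cons_of_mem _ hb)
    have ha := hl a List.mem_cons_self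
    rw [mnL, eval_mn ha.1 h.1]
    exact ⟨le_min ha.1 h.1, (min_le_left _ _).trans ha.2⟩

theorem eval_mnL_le {l : List PExp} (hl : ∀ a ∈ l, 0 ≤ a.eval x ∧ a.eval x ≤ 1) {a : PExp}
    (ha : a ∈ l) : (mnL l).eval x ≤ a.eval x := by
  induction l with
  | nil => simp at ha
  | cons b l ih =>
    have h := eval_mnL_mem fun c hc => hl c (List.mem_cons_of_mem _ hc)
    have hb := hl b List.mem_cons_self
    rw [mnL, eval_mn hb.1 h.1]
    rcases List.mem_cons.1 ha with rfl | ha
    · exact min_le_left _ _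
    · exact (min_le_right _ _).trans (ih (fun c hc => hl c (List.mem_cons_of_mem _ hc)) ha)

theorem le_eval_mnL {l : List PExp} (hl : ∀ a ∈ l, 0 ≤ a.eval x ∧ a.eval x ≤ 1) {c : ℚ}
    (hc : c ≤ 1) (h : ∀ a ∈ l, c ≤ a.eval x) : c ≤ (mnL l).eval x := by
  induction l with
  | nil => exact hc
  | cons b l ih =>
    have h' := eval_mnL_mem fun c hc => hl c (List.mem_cons_of_mem _ hc)
    have hb := hl b List.mem_cons_self
    rw [mnL, eval_mn hb.1 h'.1]
    exact le_min (h b List.mem_cons_self)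
      (ih (fun c hc => hl c (List.mem_cons_of_mem _ hc)) fun c hc => h c (List.mem_cons_of_mem _ hc))

/-- some member is `0` -/
theorem eval_mnL_zero {l : List PExp} (hl : ∀ a ∈ l, 0 ≤ a.eval x ∧ a.eval x ≤ 1) {a : PExp}
    (ha : a ∈ l) (h : a.eval x = 0) : (mnL l).eval x = 0 :=
  le_antisymm (h ▸ eval_mnL_le hl ha) (eval_mnL_mem hl).1

/-- all members are `1` -/
theorem eval_mnL_one {l : List PExp} (h : ∀ a ∈ l, a.eval x = 1) : (mnL l).eval x = 1 := by
  have hl : ∀ a ∈ l, 0 ≤ a.eval x ∧ a.eval x ≤ 1 := fun a ha => by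
    rw [h a ha]; exact ⟨zero_le_one, le_rfl⟩
  exact le_antisymm (eval_mnL_mem hl).2 (le_eval_mnL hl le_rfl fun a ha => (h a ha).ge)

end Crest.Agent.R289.PExp
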