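import Crest.Agent.R289.GkIdx_594
import Crest.Agent.R289.Gauss_115
import Crest.Agent.R289.SkewGrp_877

/-!
# R289, block E (E9b): the group `P = U hσ k 1` of 877 as PTF tables (helper480)
-/

set_option autoImplicit false
set_option linter.dupNamespace false
set_option linter.unusedSectionVars false

namespace Crest.Agent.R289.PTab480

open Crest.Agent.Lib.PT Crest.Agent.Lib.PT.Arith Crest.Agent.R288.PtDp115
open Crest.Agent.R289.Gauss115 Crest.Agent.R289.GkIdx594
open Crest.Agent.R289.SkewGrp877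
open Finset

section lists

variable {K : Type} [Field K]

/-- `σ^i` for an involution -/
def spw (σ : K →+* K) (i : ℕ) (x : K) : K := if i % 2 = 0 then x else σ x

theorem spw_eq {σ : K →+* K} (hσ : ∀ x, σ (σ x) = x) (i : ℕ) (x : K) : (σ ^ i) x = spw σ i x := by
  unfold spw
  split_ifs with h
  · exact spow_even hσ h x
  · exact spow_odd hσ (by omega) x

/-- digit list of an element -/
def toL {σ : K →+* K} {k : ℕ} (f : R σ k) : List K := tabK (k + 1) (c f)

/-- the element with a given digit list -/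
def ofL (σ : K →+* K) (k : ℕ) (l : List K) : R σ k := mk (getK l)

/-- product of digit lists -/
def lmul (σ : K →+* K) (k : ℕ) (l m : List K) : List K :=
  tabK (k + 1) fun n => ∑ i ∈ range (k + 1),
    if i ≤ n then getK l i * spw σ i (getK m (n - i)) else 0

/-- `conj` of a digit list -/
def lconj (σ : K →+* K) (k : ℕ) (l : List K) : List K :=
  tabK (k + 1) fun n => if n % 2 = 0 then σ (getK l n) else - getK l n

/-- the list of `1` -/
def lone (K : Type) [Field K] (k : ℕ) : List K := tabK (k + 1) fun n => if n = 0 then 1 else 0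

/-- powers -/
def lpow (σ : K →+* K) (k : ℕ) (l : List K) : ℕ → List K
  | 0 => lone K k
  | n + 1 => lmul σ k (lpow σ k l n) l

variable {σ : K →+* K} {k : ℕ}

@[simp] theorem length_toL (f : R σ k) : (toL f).length = k + 1 := length_tabK _ _
@[simp] theorem length_lmul (l m : List K) : (lmul σ k l m).length = k + 1 := length_tabK _ _
@[simp] theorem length_lconj (l : List K) : (lconj σ k l).length = k + 1 := length_tabK _ _
@[simp] theorem length_lone (k : ℕ) : (lone K k).length = k + 1 := length_tabK _ _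
@[simp] theorem length_lpow (l : List K) (n : ℕ) : (lpow σ k l n).length = k + 1 := by
  cases n <;> simp [lpow]

theorem getK_toL (f : R σ k) {n : ℕ} (hn : n ≤ k) : getK (toL f) n = c f n :=
  getK_tabK _ (by omega)

theorem list_ext {l m : List K} {N : ℕ} (hl : l.length = N) (hm : m.length = N)
    (h : ∀ n < N, getK l n = getK m n) : l = m := by
  refine List.ext_getElem (by rw [hl, hm]) fun n h1 h2 => ?_
  have := h n (by omega)
  unfold getK at this
  rwa [List.getD_eq_getElem _ _ h1, List.getD_eq_getElem _ _ h2] at this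

theorem ofL_toL (f : R σ k) : ofL σ k (toL f) = f := by
  refine ext' fun n hn => ?_
  unfold ofL
  rw [c_mk _ hn, getK_toL f hn]

theorem toL_ofL {l : List K} (hl : l.length = k + 1) : toL (ofL σ k l) = l := by
  refine list_ext (length_toL _) hl fun n hn => ?_
  rw [getK_toL _ (by omega)]
  unfold ofL
  rw [c_mk _ (by omega)]

theorem toL_injective : Function.Injective (toL : R σ k → List K) := fun f g h => by
  rw [← ofL_toL f, ← ofL_toL g, h]

theorem toL_one : toL (1 : R σ k) = lone K k := by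
  refine list_ext (length_toL _) (length_lone _) fun n hn => ?_
  rw [getK_toL _ (by omega), c_one (by omega), lone, getK_tabK _ hn]

theorem toL_mul (hσ : ∀ x, σ (σ x) = x) (f g : R σ k) :
    toL (f * g) = lmul σ k (toL f) (toL g) := by
  refine list_ext (length_toL _) (length_lmul _ _) fun n hn => ?_
  rw [getK_toL _ (by omega), c_mul _ _ (by omega), lmul, getK_tabK _ hn,
    Finset.Nat.sum_antidiagonal_eq_sum_range_succ_mk, ← Finset.sum_filter]
  have h1 : (range (k + 1)).filter (fun i => i ≤ n) = range n.succ := by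
    ext i
    simp only [mem_filter, mem_range]
    omega
  rw [h1]
  refine Finset.sum_congr rfl fun i hi => ?_
  rw [mem_range] at hi
  rw [getK_toL _ (by omega), getK_toL _ (by omega), spw_eq hσ]

theorem toL_conj (hσ : ∀ x, σ (σ x) = x) (f : R σ k) :
    toL (conj f) = lconj σ k (toL f) := by
  refine list_ext (length_toL _) (length_lconj _) fun n hn => ?_
  rw [getK_toL _ (by omega), c_conj _ (by omega), lconj, getK_tabK _ hn, getK_toL _ (by omega)]
  split_ifs with h
  · rw [spow_odd hσ (by omega), Even.neg_one_pow (Nat.even_iff.2 h), one_mul]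
  · rw [spow_even hσ (by omega), Odd.neg_one_pow (Nat.odd_iff.2 (by omega)), neg_one_mul]

theorem toL_pow (hσ : ∀ x, σ (σ x) = x) (f : R σ k) (n : ℕ) :
    toL (f ^ n) = lpow σ k (toL f) n := by
  induction n with
  | zero => rw [pow_zero, toL_one]; rfl
  | succ n ih => rw [pow_succ, toL_mul hσ, ih]; rfl

theorem ofL_lmul (hσ : ∀ x, σ (σ x) = x) {l m : List K} (hl : l.length = k + 1)
    (hm : m.length = k + 1) : ofL σ k (lmul σ k l m) = ofL σ k l * ofL σ k m := by
  apply toL_injective
  rw [toL_ofL (length_lmul _ _), toL_mul hσ, toL_ofL hl, toL_ofL hm]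

end lists

/-! ### normalisation: every `b = 1 + ..` gives an element of norm one -/

section norm

variable {K : Type} [Field K] {σ : K →+* K} {k : ℕ}

/-- elements fixed by `conj` have no odd coefficients and even coefficients fixed by `σ` -/
theorem fixed_coeff (h2 : (2 : K) ≠ 0) (hσ : ∀ x, σ (σ x) = x) {f : R σ k} (h : conj f = f)
    {n : ℕ} (hn : n ≤ k) : (n % 2 = 1 → c f n = 0) ∧ σ (c f n) = c f n := by
  have h1 : c (conj f) n = c f n := by rw [h]
  rw [c_conj _ hn] at h1
  rcases Nat.mod_two_eq_zero_or_one n with h0 | h0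
  · rw [spow_odd hσ (by omega), Even.neg_one_pow (Nat.even_iff.2 h0), one_mul] at h1
    exact ⟨fun h => by omega, h1⟩
  · rw [spow_even hσ (by omega), Odd.neg_one_pow (Nat.odd_iff.2 h0), neg_one_mul] at h1
    have h3 : c f n = 0 := by
      have : (2 : K) * c f n = 0 := by linear_combination -h1
      exact (mul_eq_zero.1 this).resolve_left h2
    exact ⟨fun _ => h3, by rw [h3, map_zero]⟩

/-- elements fixed by `conj` are central -/
theorem fixed_central (h2 : (2 : K) ≠ 0) (hσ : ∀ x, σ (σ x) = x) {f : R σ k} (h : conj f = f)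
    (g : R σ k) : f * g = g * f := by
  refine ext' fun n hn => ?_
  rw [c_mul _ _ hn, c_mul _ _ hn, ← Finset.Nat.sum_antidiagonal_swap]
  refine Finset.sum_congr rfl fun p hp => ?_
  rw [HasAntidiagonal.mem_antidiagonal] at hp
  simp only [Prod.fst_swap, Prod.snd_swap]
  obtain ⟨ho, he⟩ := fixed_coeff h2 hσ h (n := p.2) (by omega)
  rcases Nat.mod_two_eq_zero_or_one p.2 with h0 | h0
  · rw [spow_even hσ h0]
    rcases Nat.mod_two_eq_zero_or_one p.1 with h1 | h1
    · rw [spow_even hσ h1]; ring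
    · rw [spow_odd hσ h1, he]; ring
  · rw [ho h0, map_zero]; ring

theorem conj_pow_fixed (hσ : ∀ x, σ (σ x) = x) {f : R σ k} (h : conj f = f) (n : ℕ) :
    conj (f ^ n) = f ^ n := by
  induction n with
  | zero => rw [pow_zero, conj_one]
  | succ n ih => rw [pow_succ, conj_mul hσ, h, ih, ← pow_succ', pow_succ]

/-- `1 + τ R` is a group for multiplication -/
theorem J_one_mul {f g : R σ k} (hf : J 1 (f - 1)) (hg : J 1 (g - 1)) : J 1 (f * g - 1) := by
  have : f * g - 1 = (f - 1) * g + (g - 1) := by noncomm_ring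
  rw [this]
  exact (hf.mul_right _).add hg

theorem J_one_pow {f : R σ k} (hf : J 1 (f - 1)) (n : ℕ) : J 1 (f ^ n - 1) := by
  induction n with
  | zero => rw [pow_zero, sub_self]; exact fun n _ => c_zero n
  | succ n ih => rw [pow_succ]; exact J_one_mul ih hf

theorem J_one_conj {f : R σ k} (hf : J 1 (f - 1)) : J 1 (conj f - 1) := by
  have h : conj f - 1 = conj (f - 1) := by
    rw [sub_eq_add_neg, sub_eq_add_neg, conj_add, conj_neg, conj_one]
  rw [h]
  exact J_conj hf

theorem J_pow {f : R σ k} (hf : J 1 f) (n : ℕ) : J n (f ^ n) := by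
  induction n with
  | zero => exact J_zero _
  | succ n ih => rw [pow_succ]; exact ih.mul hf

/-- `(1 + g)^(p^r) = 1` for `g ∈ τ R`, `p^r > k` -/
theorem pow_char {p : ℕ} [Fact p.Prime] [CharP K p] {f : R σ k} (hf : J 1 (f - 1)) {r : ℕ}
    (hr : k < p ^ r) : f ^ p ^ r = 1 := by
  have hp : ((p : ℕ) : R σ k) = 0 := by
    have h1 : ∀ m : ℕ, ∀ n ≤ k, c ((m : ℕ) : R σ k) n = if n = 0 then (m : K) else 0 := by
      intro m
      induction m with
      | zero => intro n hn; rw [Nat.cast_zero, c_zero]; simp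
      | succ m ih =>
        intro n hn
        rw [Nat.cast_succ, c_add, ih n hn, c_one hn]
        split_ifs <;> simp
    refine ext' fun n hn => ?_
    rw [h1 p n hn, c_zero, CharP.cast_eq_zero K p]
    split_ifs <;> rfl
  by_cases hnt : Nontrivial (R σ k)
  · have hc : CharP (R σ k) p := by
      refine (CharP.charP_iff_prime_eq_zero (Fact.out : p.Prime)).2 hp
    have hcomm : Commute (f - 1) (1 : R σ k) := Commute.one_right _
    have h3 := add_pow_char_pow_of_commute (R := R σ k) p r hcomm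
    rw [sub_add_cancel, one_pow] at h3
    rw [h3, ((J_pow hf (p ^ r)).eq_zero hr), zero_add]
  · rw [not_nontrivial_iff_subsingleton] at hnt
    exact Subsingleton.elim _ _

/-- normalisation to norm one -/
def nrm (e : ℕ) (b : R σ k) : R σ k := b * (b * conj b) ^ e

theorem norm_fixed (hσ : ∀ x, σ (σ x) = x) (b : R σ k) : conj (b * conj b) = b * conj b := by
  rw [conj_mul hσ, conj_conj hσ]

theorem nrm_mul_conj (h2 : (2 : K) ≠ 0) (hσ : ∀ x, σ (σ x) = x) {p : ℕ} [Fact p.Prime]
    [CharP K p] {b : R σ k} (hb : J 1 (b - 1)) {r e : ℕ} (hr : k < p ^ r)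
    (he : 2 * e + 1 = p ^ r) : nrm e b * conj (nrm e b) = 1 := by
  have hN := norm_fixed hσ b
  have hJ : J 1 (b * conj b - 1) := J_one_mul hb (J_one_conj hb)
  have hc : ∀ g, (b * conj b) ^ e * g = g * (b * conj b) ^ e := fun g =>
    fixed_central h2 hσ (conj_pow_fixed hσ hN e) g
  unfold nrm
  rw [conj_mul hσ, conj_pow_fixed hσ hN]
  have : b * (b * conj b) ^ e * ((b * conj b) ^ e * conj b) = (b * conj b) ^ (2 * e + 1) := by
    rw [hc (conj b), mul_assoc b, ← mul_assoc _ (conj b), hc (conj b), ← mul_assoc, ← mul_assoc,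
      mul_assoc, ← pow_add, ← two_mul, pow_succ']
  rw [this, he]
  exact pow_char hJ hr

theorem J_one_nrm {b : R σ k} (hb : J 1 (b - 1)) (e : ℕ) : J 1 (nrm e b - 1) :=
  J_one_mul hb (J_one_pow (J_one_mul hb (J_one_conj hb)) e)

end norm

/-! ### the group as a set of digit lists -/

section grp

variable {K : Type} [Field K] [Finite K] {σ : K →+* K}

/-- digit list of a group element -/
def toP {σ : K →+* K} {hσ : ∀ x, σ (σ x) = x} {k : ℕ} (u : U hσ k 1) : List K :=
  toL ((u : (R σ k)ˣ) : R σ k)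

open Classical in
/-- membership test for digit lists -/
noncomputable def isP (σ : K →+* K) (k : ℕ) (l : List K) : Bool :=
  decide (l.length = k + 1 ∧ getK l 0 = 1 ∧ lmul σ k l (lconj σ k l) = lone K k)

open Classical in
theorem isP_iff {k : ℕ} {l : List K} : isP σ k l = true ↔
    l.length = k + 1 ∧ getK l 0 = 1 ∧ lmul σ k l (lconj σ k l) = lone K k := by
  unfold isP
  exact decide_eq_true_iff

variable (hσ : ∀ x, σ (σ x) = x) {k : ℕ}

include hσ

theorem toP_injective : Function.Injective (toP : U hσ k 1 → List K) := fun _ _ h =>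
  Subtype.ext (Units.ext (toL_injective h))

theorem isP_toP (u : U hσ k 1) : isP σ k (toP u) = true := by
  unfold toP
  obtain ⟨u, hu1, hu2⟩ := u
  rw [isP_iff]
  refine ⟨length_toL _, ?_, ?_⟩
  · rw [getK_toL _ (Nat.zero_le _)]
    have := hu2 0 (by omega)
    rw [c_sub, c_one (Nat.zero_le _), if_pos rfl] at this
    exact sub_eq_zero.1 this
  · rw [← toL_conj hσ, ← toL_mul hσ, ← toL_one]
    exact congrArg toL hu1

theorem exists_of_norm (f : R σ k) (h0 : c f 0 = 1) (h1 : f * conj f = 1) :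
    ∃ u : U hσ k 1, ((u : (R σ k)ˣ) : R σ k) = f := by
  have h2 : conj f * f = 1 := mul_eq_one_comm.1 h1
  refine ⟨⟨⟨f, conj f, h1, h2⟩, h1, ?_⟩, rfl⟩
  intro n hn
  have : n = 0 := by omega
  subst this
  rw [c_sub, c_one (Nat.zero_le _), if_pos rfl]
  exact sub_eq_zero.2 h0

theorem exists_of_isP {l : List K} (h : isP σ k l = true) : ∃ u : U hσ k 1, toP u = l := by
  rw [isP_iff] at h
  obtain ⟨h1, h2, h3⟩ := h
  obtain ⟨u, hu⟩ := exists_of_norm hσ (ofL σ k l) (by
      rw [← getK_toL _ (Nat.zero_le _), toL_ofL h1, h2]) (by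
      apply toL_injective
      rw [toL_mul hσ, toL_conj hσ, toL_ofL h1, h3, toL_one])
  exact ⟨u, by unfold toP; rw [hu, toL_ofL h1]⟩

theorem toP_mul (u v : U hσ k 1) : toP (u * v) = lmul σ k (toP u) (toP v) := toL_mul hσ _ _

theorem toP_one : toP (1 : U hσ k 1) = lone K k := toL_one

theorem toP_inv (u : U hσ k 1) : toP u⁻¹ = lconj σ k (toP u) := by
  unfold toP
  rw [← toL_conj hσ]
  congr 1
  have h : (((u : (R σ k)ˣ)) : R σ k) * conj ((u : (R σ k)ˣ) : R σ k) = 1 := u.2.1
  have h2 : (((u⁻¹ : U hσ k 1) : (R σ k)ˣ) : R σ k) * ((u : (R σ k)ˣ) : R σ k) = 1 := by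
    rw [← Units.val_mul]
    simp
  calc (((u⁻¹ : U hσ k 1) : (R σ k)ˣ) : R σ k)
      = (((u⁻¹ : U hσ k 1) : (R σ k)ˣ) : R σ k) * (((u : (R σ k)ˣ) : R σ k) *
        conj ((u : (R σ k)ˣ) : R σ k)) := by rw [h, mul_one]
    _ = _ := by rw [← mul_assoc, h2, one_mul]

theorem toP_pow (u : U hσ k 1) (n : ℕ) : toP (u ^ n) = lpow σ k (toP u) n := by
  unfold toP
  rw [← toL_pow hσ]
  simp

end grp

/-! ### enumeration -/

section enum

variable {K : Type} [Field K] [Finite K] [Inhabited K]

/-- the indices `i < Q^(k+1)` of digit lists of group elements -/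
noncomputable def pP (σ : K →+* K) (k i : ℕ) : Bool := isP σ k (digs K (k + 1) i)

/-- the order of the group -/
noncomputable def nP (σ : K →+* K) (k : ℕ) : ℕ := rnk (pP σ k) (qK K ^ (k + 1))

/-- digit list of the element with number `r` -/
noncomputable def elt (σ : K →+* K) (k r : ℕ) : List K :=
  digs K (k + 1) ((sel (qK K ^ (k + 1)) (pP σ k)).getD r 0)

/-- number of a digit list -/
noncomputable def ix (σ : K →+* K) (k : ℕ) (l : List K) : ℕ := rnk (pP σ k) (idx l)

/-- number of the product `(element r) * l` -/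
noncomputable def mulR (σ : K →+* K) (k r : ℕ) (l : List K) : ℕ := ix σ k (lmul σ k (elt σ k r) l)

/-- number of the product `l * (element r)` -/
noncomputable def mulL (σ : K →+* K) (k : ℕ) (l : List K) (r : ℕ) : ℕ :=
  ix σ k (lmul σ k l (elt σ k r))

variable {σ : K →+* K} {k : ℕ}

theorem isP_elt {r : ℕ} (hr : r < nP σ k) : isP σ k (elt σ k r) = true := by
  unfold nP at hr
  rw [← length_sel] at hr
  have hm : (sel (qK K ^ (k + 1)) (pP σ k)).getD r 0 ∈ sel (qK K ^ (k + 1)) (pP σ k) := by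
    rw [List.getD_eq_getElem _ _ hr]
    exact List.getElem_mem hr
  exact (mem_sel.1 hm).2

@[simp] theorem length_elt (r : ℕ) : (elt σ k r).length = k + 1 := by simp [elt]

theorem ix_elt {r : ℕ} (hr : r < nP σ k) : ix σ k (elt σ k r) = r := by
  unfold nP at hr
  rw [← length_sel] at hr
  have hm : (sel (qK K ^ (k + 1)) (pP σ k)).getD r 0 ∈ sel (qK K ^ (k + 1)) (pP σ k) := by
    rw [List.getD_eq_getElem _ _ hr]
    exact List.getElem_mem hr
  unfold ix elt
  rw [idx_digs (mem_sel.1 hm).1, rnk_sel_getD _ hr]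

theorem isP_length {l : List K} (h : isP σ k l = true) : l.length = k + 1 := (isP_iff.1 h).1

theorem elt_ix {l : List K} (h : isP σ k l = true) : elt σ k (ix σ k l) = l := by
  have hl := isP_length h
  have hi : idx l < qK K ^ (k + 1) := by rw [← hl]; exact idx_lt l
  have hd : digs K (k + 1) (idx l) = l := by rw [← hl]; exact digs_idx l
  have hp : pP σ k (idx l) = true := by unfold pP; rw [hd, h]
  unfold elt ix
  rw [sel_getD_rnk _ hi hp, hd]

theorem ix_lt {l : List K} (h : isP σ k l = true) : ix σ k l < nP σ k := by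
  have hl := isP_length h
  have hi : idx l < qK K ^ (k + 1) := by rw [← hl]; exact idx_lt l
  have hd : digs K (k + 1) (idx l) = l := by rw [← hl]; exact digs_idx l
  have hp : pP σ k (idx l) = true := by unfold pP; rw [hd, h]
  unfold nP ix
  rw [← length_sel]
  exact rnk_lt hi hp

variable (hσ : ∀ x, σ (σ x) = x)

/-- the numbering of the group -/
noncomputable def eP : U hσ k 1 ≃ Fin (nP σ k) :=
  Equiv.ofBijective (fun u => ⟨ix σ k (toP u), ix_lt (isP_toP hσ u)⟩) (by
    constructor
    · intro u v h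
      apply toP_injective hσ
      have h1 : ix σ k (toP u) = ix σ k (toP v) := congrArg Fin.val h
      rw [← elt_ix (isP_toP hσ u), h1, elt_ix (isP_toP hσ v)]
    · intro r
      obtain ⟨u, hu⟩ := exists_of_isP hσ (isP_elt r.2)
      refine ⟨u, Fin.ext ?_⟩
      change ix σ k (toP u) = r
      rw [hu, ix_elt r.2])

theorem eP_val (u : U hσ k 1) : (eP hσ u : ℕ) = ix σ k (toP u) := rfl

theorem elt_eP (u : U hσ k 1) : elt σ k (eP hσ u) = toP u := by
  rw [eP_val, elt_ix (isP_toP hσ u)]

theorem toP_eP_symm (r : Fin (nP σ k)) : toP ((eP hσ).symm r) = elt σ k r := by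
  rw [← elt_eP hσ, Equiv.apply_symm_apply]

theorem nP_eq_card : nP σ k = Nat.card (U hσ k 1) := by
  rw [Nat.card_congr (eP hσ), Nat.card_fin]

theorem eP_mul_right (u v : U hσ k 1) : (eP hσ (u * v) : ℕ) = mulR σ k (eP hσ u) (toP v) := by
  rw [eP_val, toP_mul, mulR, elt_eP]

theorem eP_mul_left (u v : U hσ k 1) : (eP hσ (u * v) : ℕ) = mulL σ k (toP u) (eP hσ v) := by
  rw [eP_val, toP_mul, mulL, elt_eP]

theorem eP_inv (u : U hσ k 1) : (eP hσ u⁻¹ : ℕ) = ix σ k (lconj σ k (elt σ k (eP hσ u))) := by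
  rw [eP_val, toP_inv, elt_eP]

theorem eP_one : (eP hσ (1 : U hσ k 1) : ℕ) = ix σ k (lone K k) := by
  rw [eP_val, toP_one]

end enum

/-! ### polynomial time -/

section pt

variable {K : Type} [Field K] [Finite K] [Inhabited K] [PTCode K]
variable {α : Type} [PTCode α] {σ : K →+* K} {k : α → ℕ}

theorem ptf_spw {i : α → ℕ} {x : α → K} (hi : PTF i) (hx : PTF x) :
    PTF (fun a => spw σ (i a) (x a)) := by
  unfold spw
  exact PTF.ite (PTPred.natEq (PTF.natMod hi (PTF.const 2)) (PTF.const 0)) hx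
    (PTF.comp (g := fun x : K => σ x) (PTF.of_finite _) hx)

theorem ptf_lmul (hk : PTU k) {l m : α → List K} (hl : PTF l) (hm : PTF m) :
    PTF (fun a => lmul σ (k a) (l a) (m a)) := by
  unfold lmul
  refine ptf_tabK (PTU.succ hk) ?_
  refine ptf_sumK (n := fun p : α × ℕ => k p.1 + 1)
    (f := fun (p : α × ℕ) (i : ℕ) => if i ≤ p.2 then getK (l p.1) i * spw σ i (getK (m p.1) (p.2 - i))
      else 0) (PTU.succ (PTU.comp (n := k) hk PTF.fst)) ?_
  have hl' : PTF (fun q : (α × ℕ) × ℕ => l q.1.1) := PTF.comp (g := l) hl (by fun_prop)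
  have hm' : PTF (fun q : (α × ℕ) × ℕ => m q.1.1) := PTF.comp (g := m) hm (by fun_prop)
  refine PTF.ite (PTPred.natLe (by fun_prop) (by fun_prop)) ?_ (PTF.const 0)
  exact ptf_kmul (ptf_getK hl' (by fun_prop)) (ptf_spw (by fun_prop)
    (ptf_getK hm' (PTF.natSub (by fun_prop) (by fun_prop))))

theorem ptf_lconj (hk : PTU k) {l : α → List K} (hl : PTF l) :
    PTF (fun a => lconj σ (k a) (l a)) := by
  unfold lconj
  refine ptf_tabK (f := fun (a : α) (n : ℕ) => if n % 2 = 0 then σ (getK (l a) n)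
    else - getK (l a) n) (PTU.succ hk) ?_
  have hl' : PTF (fun q : α × ℕ => l q.1) := PTF.comp (g := l) hl (by fun_prop)
  exact PTF.ite (PTPred.natEq (PTF.natMod (by fun_prop) (PTF.const 2)) (PTF.const 0))
    (PTF.comp (g := fun x : K => σ x) (PTF.of_finite _) (ptf_getK hl' (by fun_prop)))
    (ptf_kneg (ptf_getK hl' (by fun_prop)))

theorem ptf_lone (hk : PTU k) : PTF (fun a => lone K (k a)) := by
  unfold lone
  refine ptf_tabK (f := fun (_ : α) (n : ℕ) => if n = 0 then (1 : K) else 0) (PTU.succ hk) ?_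
  exact PTF.ite (PTPred.natEq (by fun_prop) (PTF.const 0)) (PTF.const 1) (PTF.const 0)

theorem ptf_lpow (hk : PTU k) {l : α → List K} {n : α → ℕ} (hl : PTF l) (hn : PTU n) :
    PTF (fun a => lpow σ (k a) (l a) (n a)) := by
  obtain ⟨C, hC⟩ := exists_sz_le K
  refine ptf_natRec (r := fun a i => lpow σ (k a) (l a) i) (s := fun a _ t => lmul σ (k a) t (l a))
    (b := fun a => lone K (k a)) hn (ptf_lone hk) ?_ (fun a => rfl) (fun a i _ => rfl)
    (B := fun a => (k a + 1) * (2 * C + 1)) ?_ (fun a i _ => ?_)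
  · exact ptf_lmul (k := fun p : α × ℕ × List K => k p.1) (PTU.comp (n := k) hk PTF.fst)
      (by fun_prop) (PTF.comp (g := l) hl (by fun_prop))
  · have h1 := hk.pb
    fun_prop
  · refine (sz_list_le (m := C) (fun x _ => hC x)).trans ?_
    rw [length_lpow]

theorem ptf_isP (hk : PTU k) {l : α → List K} (hl : PTF l) :
    PTF (fun a => isP σ (k a) (l a)) := by
  classical
  have h : PTPred (fun a => (l a).length = k a + 1 ∧ getK (l a) 0 = 1 ∧
      lmul σ (k a) (l a) (lconj σ (k a) (l a)) = lone K (k a)) :=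
    PTPred.and (PTU.eq (PTU.length hl) (PTU.succ hk))
      (PTPred.and (PTPred.eq (ptf_getK hl (PTF.const 0)) (PTF.const 1))
        (PTPred.eq (ptf_lmul hk hl (ptf_lconj hk hl)) (ptf_lone hk)))
  refine PTF.of_eq h.toPTF (fun a => ?_)
  unfold isP
  congr

theorem ptf_pP (hk : PTU k) {i : α → ℕ} (hi : PTF i) : PTF (fun a => pP σ (k a) (i a)) :=
  ptf_isP hk (ptf_digs (PTU.succ hk) hi)

theorem ptu_nP (hk : PTU k) (hN : PTU fun a => qK K ^ (k a + 1)) : PTU (fun a => nP σ (k a)) := by
  unfold nP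
  exact ptu_rnk (p := fun a => pP σ (k a)) hN
    (ptf_pP (k := fun q : α × ℕ => k q.1) (PTU.comp (n := k) hk PTF.fst) PTF.snd)

theorem ptf_elt (hk : PTU k) (hN : PTU fun a => qK K ^ (k a + 1)) {r : α → ℕ} (hr : PTF r) :
    PTF (fun a => elt σ (k a) (r a)) := by
  unfold elt
  refine ptf_digs (PTU.succ hk) (ptf_getB ?_ hr (PTF.const 0))
  exact ptf_sel (p := fun a => pP σ (k a)) hN
    (ptf_pP (k := fun q : α × ℕ => k q.1) (PTU.comp (n := k) hk PTF.fst) PTF.snd)

/-- the number of a digit list of length `k + 1` -/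
theorem ptf_ix (hk : PTU k) (hN : PTU fun a => qK K ^ (k a + 1)) {l : α → List K} (hl : PTF l)
    (hlen : ∀ a, (l a).length = k a + 1) : PTF (fun a => ix σ (k a) (l a)) := by
  unfold ix
  refine ptf_rnk (p := fun a => pP σ (k a)) hN (ptf_idx hl)
    (ptf_pP (k := fun q : α × ℕ => k q.1) (PTU.comp (n := k) hk PTF.fst) PTF.snd) (fun a => ?_)
  rw [← hlen a]
  exact (idx_lt (l a)).le

theorem ptf_mulR (hk : PTU k) (hN : PTU fun a => qK K ^ (k a + 1)) {r : α → ℕ} {l : α → List K}
    (hr : PTF r) (hl : PTF l) : PTF (fun a => mulR σ (k a) (r a) (l a)) :=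
  ptf_ix hk hN (ptf_lmul hk (ptf_elt hk hN hr) hl) (fun a => by simp)

theorem ptf_mulL (hk : PTU k) (hN : PTU fun a => qK K ^ (k a + 1)) {r : α → ℕ} {l : α → List K}
    (hl : PTF l) (hr : PTF r) : PTF (fun a => mulL σ (k a) (l a) (r a)) :=
  ptf_ix hk hN (ptf_lmul hk hl (ptf_elt hk hN hr)) (fun a => by simp)

end pt

end Crest.Agent.R289.PTab480
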