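import Crest.Agent.R289.AsmObj_12
import Crest.Agent.R289.Ham_613
import Crest.Agent.R289.Diam_309
import Crest.Agent.R289.TSide_492

/-!
# R289, T-side walk: a Hamiltonian path with steps of at most three letters, as a `TSide492.Path`

* `Num e S nb`: `nb` = left multiplication by the letters `S g`, on the numbers `e x`; the letters
  are closed under inverses and generate the group.
* `path H L hL : TSide492.Path T (Fin W) (Fin W × Fin W)`, `W = (d + 1) ^ 3`: `tt i` = element with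
  number `(ham N d nb)[i]`; `g1 w` = product of the letters of the word `w`,
  `g2 (w, w') = g1 w' * g1 w`.
-/

set_option autoImplicit false
set_option linter.unusedSectionVars false

namespace Crest.Agent.R289.PathT409

open Crest.Agent.Lib.PT Crest.Agent.R289.Tour594 Crest.Agent.R289.Ham613

/-! ### generic path -/

section gen
variable {T : Type} [Group T] {N d : ℕ}

/-- letter number `g` (`1` for `d ≤ g`) -/
def sg (S : Fin d → T) (g : ℕ) : T := if h : g < d then S ⟨g, h⟩ else 1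

/-- product of a word of letters, the first letter acts first -/
def pr (S : Fin d → T) (l : List ℕ) : T := l.foldl (fun x g => sg S g * x) 1

theorem foldl_mul (S : Fin d → T) (l : List ℕ) (x : T) :
    l.foldl (fun x g => sg S g * x) x = pr S l * x := by
  unfold pr
  induction l generalizing x with
  | nil => simp
  | cons g l ih =>
    simp only [List.foldl_cons]
    rw [ih, ih (sg S g * 1), mul_one, mul_assoc]

theorem pr_nil (S : Fin d → T) : pr S [] = 1 := rfl

theorem pr_cons (S : Fin d → T) (g : ℕ) (l : List ℕ) : pr S (g :: l) = pr S l * sg S g := by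
  rw [pr, List.foldl_cons, foldl_mul, mul_one]

/-- `nb` is left multiplication by the letters on numbers -/
structure Num (e : T ≃ Fin N) (S : Fin d → T) (nb : ℕ → ℕ → ℕ) : Prop where
  eq : ∀ (x : T) (g : Fin d), nb (e x) g = e (S g * x)
  inv : ∀ i, ∃ j, S j = (S i)⁻¹
  gen : Subgroup.closure (Set.range S) = ⊤

/-- the element of the word number `w` -/
def wel (S : Fin d → T) (w : Fin ((d + 1) ^ 3)) : T := pr S (wd d w)

namespace Num
variable {e : T ≃ Fin N} {S : Fin d → T} {nb : ℕ → ℕ → ℕ} (H : Num e S nb)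
include H

theorem pos : 0 < N := lt_of_le_of_lt (Nat.zero_le _) (e 1).2

theorem eq_sg (x : T) {g : ℕ} (hg : g < d) : nb (e x) g = e (sg S g * x) := by
  rw [sg, dif_pos hg]
  exact H.eq x ⟨g, hg⟩

theorem foldl_eq (l : List ℕ) (hl : ∀ g ∈ l, g < d) (x : T) :
    l.foldl nb (e x) = e (pr S l * x) := by
  induction l generalizing x with
  | nil => simp [pr_nil]
  | cons g l ih =>
    rw [List.foldl_cons, H.eq_sg x (hl g (by simp)), ih (fun a ha => hl a (by simp [ha])),
      pr_cons, mul_assoc]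

/-- composite neighbour = left multiplication by the element of the word -/
theorem nb3_eq (x : T) (w : Fin ((d + 1) ^ 3)) : nb3 d nb (e x) w = e (wel S w * x) :=
  H.foldl_eq _ (fun _ h => wd_lt h) x

theorem lt {v : ℕ} (hv : v < N) {g : ℕ} (hg : g < d) : nb v g < N := by
  have := H.eq_sg (e.symm ⟨v, hv⟩) hg
  rw [e.apply_symm_apply] at this
  rw [show nb v g = _ from this]
  exact (e _).2

theorem sym {v : ℕ} (hv : v < N) {g : ℕ} (hg : g < d) : ∃ g', g' < d ∧ nb (nb v g) g' = v := by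
  obtain ⟨j, hj⟩ := H.inv ⟨g, hg⟩
  refine ⟨j, j.2, ?_⟩
  have h1 := H.eq (e.symm ⟨v, hv⟩) ⟨g, hg⟩
  rw [e.apply_symm_apply] at h1
  have h1' : nb v g = e (S ⟨g, hg⟩ * e.symm ⟨v, hv⟩) := h1
  rw [h1', H.eq, hj, inv_mul_cancel_left, e.apply_symm_apply]

theorem conn (P : ℕ → Prop) (h0 : P 0) (hs : ∀ v, v < N → P v → ∀ g, g < d → P (nb v g)) :
    ∀ v, v < N → P v := by
  have hS : ∀ g : Fin d, ∀ x : T, P (e x) → P (e (S g * x)) := by
    intro g x hx
    have := hs (e x) (e x).2 hx g g.2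
    rwa [H.eq] at this
  have key : ∀ y ∈ Subgroup.closure (Set.range S),
      (∀ x : T, P (e x) → P (e (y * x))) ∧ ∀ x : T, P (e x) → P (e (y⁻¹ * x)) := by
    intro y hy
    refine Subgroup.closure_induction (p := fun y _ => (∀ x : T, P (e x) → P (e (y * x))) ∧
      ∀ x : T, P (e x) → P (e (y⁻¹ * x))) ?_ ?_ ?_ ?_ hy
    · rintro _ ⟨g, rfl⟩
      refine ⟨hS g, ?_⟩
      obtain ⟨j, hj⟩ := H.inv g
      rw [← hj]
      exact hS j
    · exact ⟨fun x hx => by rwa [one_mul], fun x hx => by rwa [inv_one, one_mul]⟩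
    · rintro y z _ _ ⟨hy, hy'⟩ ⟨hz, hz'⟩
      refine ⟨fun x hx => ?_, fun x hx => ?_⟩
      · rw [mul_assoc]; exact hy _ (hz _ hx)
      · rw [mul_inv_rev, mul_assoc]; exact hz' _ (hy' _ hx)
    · rintro y _ ⟨hy, hy'⟩
      exact ⟨hy', by rwa [inv_inv]⟩
  intro v hv
  have h := (key (e.symm ⟨v, hv⟩ * (e.symm ⟨0, H.pos⟩)⁻¹) (by rw [H.gen]; trivial)).1
    (e.symm ⟨0, H.pos⟩) (by rw [e.apply_symm_apply]; exact h0)
  rwa [inv_mul_cancel_right, e.apply_symm_apply] at h

theorem spec : (ham N d nb).length = N ∧ (ham N d nb).Nodup ∧ (ham N d nb).head? = some 0 ∧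
    (ham N d nb).IsChain (Adj ((d + 1) ^ 3) (nb3 d nb)) ∧ ∀ v, v ∈ ham N d nb ↔ v < N :=
  ham_spec H.pos (fun _ hv _ hg => H.lt hv hg) (fun _ hv _ hg => H.sym hv hg) H.conn

theorem ham_lt (i : ℕ) : (ham N d nb).getD i 0 < N := by
  obtain ⟨h1, -, -, -, h5⟩ := H.spec
  by_cases hi : i < (ham N d nb).length
  · rw [List.getD_eq_getElem _ _ hi]
    exact (h5 _).1 (List.getElem_mem hi)
  · rw [List.getD_eq_default _ _ (by omega)]
    exact H.pos

theorem ham_inj {i j : ℕ} (hi : i < N) (hj : j < N)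
    (h : (ham N d nb).getD i 0 = (ham N d nb).getD j 0) : i = j := by
  obtain ⟨h1, h2, -, -, -⟩ := H.spec
  rw [List.getD_eq_getElem _ _ (by omega), List.getD_eq_getElem _ _ (by omega)] at h
  exact (List.Nodup.getElem_inj_iff h2).1 h

end Num

theorem genOf_lt {W : ℕ} (hW : 0 < W) (nb : ℕ → ℕ → ℕ) (u v : ℕ) : genOf W nb u v < W := by
  unfold genOf
  cases hf : (List.range W).find? (fun g => decide (nb u g = v)) with
  | none => simpa using hW
  | some g =>
    have h := List.mem_of_find?_eq_some hf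
    simpa using h

/-- number of the step from position `i` to `i + 1` -/
def dn (N d : ℕ) (nb : ℕ → ℕ → ℕ) (i : ℕ) : ℕ :=
  genOf ((d + 1) ^ 3) (nb3 d nb) ((ham N d nb).getD i 0) ((ham N d nb).getD (i + 1) 0)

theorem dn_lt (N d : ℕ) (nb : ℕ → ℕ → ℕ) (i : ℕ) : dn N d nb i < (d + 1) ^ 3 :=
  genOf_lt (by positivity) _ _ _

section path
variable {e : T ≃ Fin N} {S : Fin d → T} {nb : ℕ → ℕ → ℕ} (H : Num e S nb)

/-- element at position `i` -/
def tt (i : ℕ) : T := e.symm ⟨(ham N d nb).getD i 0, H.ham_lt i⟩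

theorem tt_num (i : ℕ) : ((e (tt H i) : Fin N) : ℕ) = (ham N d nb).getD i 0 := by
  rw [tt, e.apply_symm_apply]

theorem tt_inj {i j : ℕ} (hi : i < N) (hj : j < N) (h : tt H i = tt H j) : i = j := by
  refine H.ham_inj hi hj ?_
  rw [← tt_num H i, ← tt_num H j, h]

theorem tt_step {i : ℕ} (hi : i + 1 < N) :
    tt H (i + 1) = wel S ⟨dn N d nb i, dn_lt N d nb i⟩ * tt H i := by
  apply e.injective
  apply Fin.ext
  rw [← H.nb3_eq, tt_num, tt_num]
  exact (ham_next H.pos (fun _ hv _ hg => H.lt hv hg) (fun _ hv _ hg => H.sym hv hg) H.conn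
    hi).2.symm

theorem exists_tt (x : T) : ∃ i, i < N ∧ tt H i = x := by
  obtain ⟨h1, -, -, -, h5⟩ := H.spec
  obtain ⟨i, hi, h⟩ := List.getElem_of_mem ((h5 (e x)).2 (e x).2)
  refine ⟨i, by omega, e.injective (Fin.ext ?_)⟩
  rw [tt_num, List.getD_eq_getElem _ _ hi, h]

/-- **the path** -/
def path (L : ℕ) (hL : L + 1 ≤ N) :
    TSide492.Path T (Fin ((d + 1) ^ 3)) (Fin ((d + 1) ^ 3) × Fin ((d + 1) ^ 3)) where
  L := L
  tt := tt H
  inj i j hi hj h := tt_inj H (by omega) (by omega) h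
  g1 := wel S
  d1 i := ⟨dn N d nb i, dn_lt N d nb i⟩
  st1 i hi := tt_step H (by omega)
  g2 w := wel S w.2 * wel S w.1
  d2 i := (⟨dn N d nb i, dn_lt N d nb i⟩, ⟨dn N d nb (i + 1), dn_lt N d nb (i + 1)⟩)
  st2 i hi := by
    rw [tt_step H (i := i + 1) (by omega), tt_step H (i := i) (by omega), mul_assoc]

@[simp] theorem path_L (L : ℕ) (hL : L + 1 ≤ N) : (path H L hL).L = L := rfl
@[simp] theorem path_tt (L : ℕ) (hL : L + 1 ≤ N) (i : ℕ) : (path H L hL).tt i = tt H i := rfl

end path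
end gen
end Crest.Agent.R289.PathT409
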