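import Mathlib

/-!
# Row 289, block C: the path of legal words of the one-compile machine (post 5756)

`CM` = content machine (partial inverse bijections `succ`, `pred`).  A legal state of the compiled
machine is (phase, clock `t ≤ L`, edge `a → b` of the content machine):
* phase 0: bank 1 = `a` with full certificate, bank 2 = `b` with the record up to `t`;
* phase 1: bank 2 = `b` with full certificate, bank 1 = `a` with the record up to `t`.
`N` = successor, `M` = predecessor (total maps, fixed point = blocked).
Then the transfer to words: `enc` injective, `W = range enc`.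
-/

set_option autoImplicit false
set_option linter.unusedVariables false

namespace Crest.Agent.R289.Path482

/-- content machine: mutually inverse partial maps -/
structure CM (S : Type*) where
  succ : S → Option S
  pred : S → Option S
  sp : ∀ a b, succ a = some b ↔ pred b = some a

/-- legal states of the compiled machine -/
structure St {S : Type*} (C : CM S) (L : ℕ) where
  /-- phase (`false` = 0, `true` = 1) -/
  ph : Bool
  /-- clock -/
  t : ℕ
  /-- source of the edge -/
  a : S
  /-- target of the edge -/
  b : S
  ht : t ≤ L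
  h : C.succ a = some b

variable {S : Type*} {C : CM S} {L : ℕ}

theorem St.ext' {x y : St C L} (h1 : x.ph = y.ph) (h2 : x.t = y.t) (h3 : x.a = y.a)
    (h4 : x.b = y.b) : x = y := by
  cases x; cases y; cases h1; cases h2; cases h3; cases h4; rfl

/-- successor -/
def St.N (x : St C L) : St C L :=
  if hp : x.ph = false then
    if ht : x.t < L then ⟨false, x.t + 1, x.a, x.b, ht, x.h⟩
    else ⟨true, x.t, x.a, x.b, x.ht, x.h⟩
  else if ht : 0 < x.t then ⟨true, x.t - 1, x.a, x.b, (Nat.sub_le _ _).trans x.ht, x.h⟩
  else match hc : C.succ x.b with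
    | some c => ⟨false, 0, x.b, c, Nat.zero_le _, hc⟩
    | none => x

/-- predecessor -/
def St.M (x : St C L) : St C L :=
  if hp : x.ph = true then
    if ht : x.t < L then ⟨true, x.t + 1, x.a, x.b, ht, x.h⟩
    else ⟨false, x.t, x.a, x.b, x.ht, x.h⟩
  else if ht : 0 < x.t then ⟨false, x.t - 1, x.a, x.b, (Nat.sub_le _ _).trans x.ht, x.h⟩
  else match hc : C.pred x.a with
    | some z => ⟨true, 0, z, x.a, Nat.zero_le _, (C.sp z x.a).2 hc⟩
    | none => x

theorem St.N_up {x : St C L} (hp : x.ph = false) (ht : x.t < L) :
    x.N = ⟨false, x.t + 1, x.a, x.b, ht, x.h⟩ := by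
  rw [St.N, dif_pos hp, dif_pos ht]

theorem St.N_turn {x : St C L} (hp : x.ph = false) (ht : x.t = L) :
    x.N = ⟨true, x.t, x.a, x.b, x.ht, x.h⟩ := by
  rw [St.N, dif_pos hp, dif_neg (by omega)]

theorem St.N_dn {x : St C L} (hp : x.ph = true) (ht : 0 < x.t) :
    x.N = ⟨true, x.t - 1, x.a, x.b, (Nat.sub_le _ _).trans x.ht, x.h⟩ := by
  rw [St.N, dif_neg (by simp [hp]), dif_pos ht]

theorem St.N_next {x : St C L} (hp : x.ph = true) (ht : x.t = 0) {c : S}
    (hc : C.succ x.b = some c) : x.N = ⟨false, 0, x.b, c, Nat.zero_le _, hc⟩ := by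
  rw [St.N, dif_neg (by simp [hp]), dif_neg (by omega)]
  split
  · rename_i c' hc'
    have : c' = c := by
      rw [hc] at hc'; exact (Option.some.inj hc').symm
    subst this; rfl
  · rename_i hc'
    rw [hc] at hc'; cases hc'

theorem St.N_end {x : St C L} (hp : x.ph = true) (ht : x.t = 0)
    (hc : C.succ x.b = none) : x.N = x := by
  rw [St.N, dif_neg (by simp [hp]), dif_neg (by omega)]
  split
  · rename_i c' hc'
    rw [hc] at hc'; cases hc'
  · rfl

theorem St.M_dn {x : St C L} (hp : x.ph = true) (ht : x.t < L) :
    x.M = ⟨true, x.t + 1, x.a, x.b, ht, x.h⟩ := by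
  rw [St.M, dif_pos hp, dif_pos ht]

theorem St.M_turn {x : St C L} (hp : x.ph = true) (ht : x.t = L) :
    x.M = ⟨false, x.t, x.a, x.b, x.ht, x.h⟩ := by
  rw [St.M, dif_pos hp, dif_neg (by omega)]

theorem St.M_up {x : St C L} (hp : x.ph = false) (ht : 0 < x.t) :
    x.M = ⟨false, x.t - 1, x.a, x.b, (Nat.sub_le _ _).trans x.ht, x.h⟩ := by
  rw [St.M, dif_neg (by simp [hp]), dif_pos ht]

theorem St.M_prev {x : St C L} (hp : x.ph = false) (ht : x.t = 0) {z : S}
    (hc : C.pred x.a = some z) :
    x.M = ⟨true, 0, z, x.a, Nat.zero_le _, (C.sp z x.a).2 hc⟩ := by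
  rw [St.M, dif_neg (by simp [hp]), dif_neg (by omega)]
  split
  · rename_i c' hc'
    have : c' = z := by
      rw [hc] at hc'; exact (Option.some.inj hc').symm
    subst this; rfl
  · rename_i hc'
    rw [hc] at hc'; cases hc'

theorem St.M_end {x : St C L} (hp : x.ph = false) (ht : x.t = 0)
    (hc : C.pred x.a = none) : x.M = x := by
  rw [St.M, dif_neg (by simp [hp]), dif_neg (by omega)]
  split
  · rename_i c' hc'
    rw [hc] at hc'; cases hc'
  · rfl

/-- blocked forward = phase 1, clock 0, target without successor -/
theorem St.N_eq_iff (x : St C L) :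
    x.N = x ↔ x.ph = true ∧ x.t = 0 ∧ C.succ x.b = none := by
  constructor
  · intro h
    by_cases hp : x.ph = false
    · by_cases ht : x.t < L
      · rw [St.N_up hp ht] at h
        have := congrArg St.t h
        simp at this
      · rw [St.N_turn hp (le_antisymm x.ht (not_lt.1 ht))] at h
        have := congrArg St.ph h
        simp [hp] at this
    · have hp' : x.ph = true := by simpa using hp
      by_cases ht : 0 < x.t
      · rw [St.N_dn hp' ht] at h
        have := congrArg St.t h
        simp only at this
        omega
      · have ht' : x.t = 0 := by omega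
        refine ⟨hp', ht', ?_⟩
        cases hc : C.succ x.b with
        | none => rfl
        | some c =>
          rw [St.N_next hp' ht' hc] at h
          have := congrArg St.ph h
          simp [hp'] at this
  · rintro ⟨hp, ht, hc⟩
    exact St.N_end hp ht hc

/-- blocked backward = phase 0, clock 0, source without predecessor -/
theorem St.M_eq_iff (x : St C L) :
    x.M = x ↔ x.ph = false ∧ x.t = 0 ∧ C.pred x.a = none := by
  constructor
  · intro h
    by_cases hp : x.ph = true
    · by_cases ht : x.t < L
      · rw [St.M_dn hp ht] at h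
        have := congrArg St.t h
        simp at this
      · rw [St.M_turn hp (le_antisymm x.ht (not_lt.1 ht))] at h
        have := congrArg St.ph h
        simp [hp] at this
    · have hp' : x.ph = false := by simpa using hp
      by_cases ht : 0 < x.t
      · rw [St.M_up hp' ht] at h
        have := congrArg St.t h
        simp only at this
        omega
      · have ht' : x.t = 0 := by omega
        refine ⟨hp', ht', ?_⟩
        cases hc : C.pred x.a with
        | none => rfl
        | some c =>
          rw [St.M_prev hp' ht' hc] at h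
          have := congrArg St.ph h
          simp [hp'] at this
  · rintro ⟨hp, ht, hc⟩
    exact St.M_end hp ht hc

theorem St.MN (x : St C L) (h : x.N ≠ x) : x.N.M = x := by
  by_cases hp : x.ph = false
  · by_cases ht : x.t < L
    · rw [St.N_up hp ht, St.M_up rfl (Nat.succ_pos _)]
      exact St.ext' hp.symm (by simp) rfl rfl
    · have ht' : x.t = L := le_antisymm x.ht (not_lt.1 ht)
      rw [St.N_turn hp ht', St.M_turn (x := ⟨true, x.t, x.a, x.b, x.ht, x.h⟩) rfl ht']
      exact St.ext' hp.symm rfl rfl rfl
  · have hp' : x.ph = true := by simpa using hp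
    by_cases ht : 0 < x.t
    · rw [St.N_dn hp' ht, St.M_dn rfl (by have := x.ht; simp only; omega)]
      exact St.ext' hp'.symm (by simp only; omega) rfl rfl
    · have ht' : x.t = 0 := by omega
      cases hc : C.succ x.b with
      | none => exact absurd (St.N_end hp' ht' hc) h
      | some c =>
        rw [St.N_next hp' ht' hc, St.M_prev rfl rfl (z := x.a) ((C.sp _ _).1 x.h)]
        exact St.ext' hp'.symm ht'.symm rfl rfl

theorem St.NM (x : St C L) (h : x.M ≠ x) : x.M.N = x := by
  by_cases hp : x.ph = true
  · by_cases ht : x.t < L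
    · rw [St.M_dn hp ht, St.N_dn rfl (Nat.succ_pos _)]
      exact St.ext' hp.symm (by simp) rfl rfl
    · have ht' : x.t = L := le_antisymm x.ht (not_lt.1 ht)
      rw [St.M_turn hp ht', St.N_turn (x := ⟨false, x.t, x.a, x.b, x.ht, x.h⟩) rfl ht']
      exact St.ext' hp.symm rfl rfl rfl
  · have hp' : x.ph = false := by simpa using hp
    by_cases ht : 0 < x.t
    · rw [St.M_up hp' ht, St.N_up rfl (by have := x.ht; simp only; omega)]
      exact St.ext' hp'.symm (by simp only; omega) rfl rfl
    · have ht' : x.t = 0 := by omega
      cases hc : C.pred x.a with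
      | none => exact absurd (St.M_end hp' ht' hc) h
      | some z =>
        rw [St.M_prev hp' ht' hc, St.N_next rfl rfl (c := x.b) x.h]
        exact St.ext' hp'.symm ht'.symm rfl rfl

/-- the start state: the edge leaving a content state without predecessor -/
def start (a0 b0 : S) (h : C.succ a0 = some b0) : St C L := ⟨false, 0, a0, b0, Nat.zero_le _, h⟩

theorem M_start {a0 b0 : S} (h : C.succ a0 = some b0) (hp : C.pred a0 = none) :
    (start (L := L) a0 b0 h).M = start a0 b0 h := St.M_end rfl rfl hp

theorem N_start_ne {a0 b0 : S} (h : C.succ a0 = some b0) :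
    (start (L := L) a0 b0 h).N ≠ start a0 b0 h := by
  rw [Ne, St.N_eq_iff]
  rintro ⟨h1, _⟩
  exact absurd h1 (by simp [start])

/-! ### transfer to words -/

section words
variable {X : Type*} {Q : Type*} (enc : Q → X) (f : Q → Q)

open Classical in
/-- the total map on words induced by a map on states (identity outside the legal words) -/
noncomputable def ext (w : X) : X := if h : ∃ s, enc s = w then enc (f h.choose) else w

variable {enc}

theorem ext_enc (he : Function.Injective enc) (s : Q) : ext enc f (enc s) = enc (f s) := by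
  have h : ∃ r, enc r = enc s := ⟨s, rfl⟩
  rw [ext, dif_pos h, he h.choose_spec]

theorem ext_mem (he : Function.Injective enc) {w : X} (hw : w ∈ Set.range enc) :
    ext enc f w ∈ Set.range enc := by
  obtain ⟨s, rfl⟩ := hw
  rw [ext_enc f he]
  exact ⟨_, rfl⟩

variable {f}

theorem ext_inv (he : Function.Injective enc) {g : Q → Q} (h : ∀ s, f s ≠ s → g (f s) = s)
    {w : X} (hw : w ∈ Set.range enc) (hf : ext enc f w ≠ w) : ext enc g (ext enc f w) = w := by
  obtain ⟨s, rfl⟩ := hw
  rw [ext_enc f he] at hf ⊢
  rw [ext_enc g he, h s fun h' => hf (by rw [h'])]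

theorem ext_eq_iff (he : Function.Injective enc) (s : Q) :
    ext enc f (enc s) = enc s ↔ f s = s := by
  rw [ext_enc f he]
  exact he.eq_iff

end words

/-- **The blocked legal words of the compiled machine**: blocked forward and legal: the word of an
edge `a → b` where `b` has no successor; blocked backward: an edge `a → b` where `a` has no
predecessor. -/
theorem blocked_forward {X : Type*} {enc : St C L → X} (he : Function.Injective enc) {w : X}
    (hw : w ∈ Set.range enc) (h : ext enc St.N w = w) :
    ∃ x : St C L, enc x = w ∧ x.ph = true ∧ x.t = 0 ∧ C.succ x.b = none := by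
  obtain ⟨x, rfl⟩ := hw
  exact ⟨x, rfl, (St.N_eq_iff x).1 ((ext_eq_iff he x).1 h)⟩

theorem blocked_backward {X : Type*} {enc : St C L → X} (he : Function.Injective enc) {w : X}
    (hw : w ∈ Set.range enc) (h : ext enc St.M w = w) :
    ∃ x : St C L, enc x = w ∧ x.ph = false ∧ x.t = 0 ∧ C.pred x.a = none := by
  obtain ⟨x, rfl⟩ := hw
  exact ⟨x, rfl, (St.M_eq_iff x).1 ((ext_eq_iff he x).1 h)⟩

end Crest.Agent.R289.Path482
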