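import Mathlib
import Crest.Agent.Lib.PT.ListFns2
import Crest.Agent.Lib.PT.ArithMore
import Crest.Agent.R289.BenesX_873
import Crest.Agent.R289.Konig_851

/-!
# Routing on a `p`-ary tower (row 289, block C), `p` arbitrary

A level is a cyclic successor `nx` of period `p` (in the group picture `x ↦ h x`, or
`x ↦ h ^ (-(p-1)) x` on the last digit) with a digit `dg` which grows by one (mod `p`) under `nx`;
`nx` keeps the digits of the levels above.  A row is an orbit of `nx`.  Every permutation is a
product of `2 r` permutations, each of which preserves the rows of one level.  The colours come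
from the Koenig edge colouring of `Konig_851`.
-/

set_option autoImplicit false
set_option linter.dupNamespace false
set_option linter.unusedSectionVars false

namespace Crest.Agent.R289.RouteP873

open Crest.Agent.Lib.PT Crest.Agent.R289.Benes873 Crest.Agent.R289.Konig851

/-- a level as functions -/
structure Lv where
  /-- cyclic successor in the row -/
  nx : ℕ → ℕ
  /-- digit -/
  dg : ℕ → ℕ

/-- a level which keeps the functions of `U` -/
structure LvOK (n p : ℕ) (U : List (ℕ → ℕ)) (L : Lv) : Prop where
  lt : ∀ x < n, L.nx x < n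
  dlt : ∀ x < n, L.dg x < p
  dnx : ∀ x < n, L.dg (L.nx x) = (L.dg x + 1) % p
  cyc : ∀ x < n, L.nx^[p] x = x
  up : ∀ u ∈ U, ∀ x < n, u (L.nx x) = u x

/-- number of steps from digit `d` to digit `c` -/
def cnt (p c d : ℕ) : ℕ := min ((c + (p - d)) % p) p

/-- the element with digit `c` in the row of `x` -/
def at' (p : ℕ) (L : Lv) (x c : ℕ) : ℕ := L.nx^[cnt p c (L.dg x)] x

/-- name of the row of `x` -/
def row (p : ℕ) (L : Lv) (x : ℕ) : ℕ := at' p L x 0

section level

variable {n p : ℕ} {U : List (ℕ → ℕ)} {L : Lv} (hp : 0 < p) (h : LvOK n p U L)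

include h in
theorem iter_lt (k : ℕ) : ∀ x < n, L.nx^[k] x < n := by
  induction k with
  | zero => intro x hx; exact hx
  | succ k ih => intro x hx; rw [Function.iterate_succ_apply']; exact h.lt _ (ih x hx)

include h in
theorem iter_up {u : ℕ → ℕ} (hu : u ∈ U) (k : ℕ) : ∀ x < n, u (L.nx^[k] x) = u x := by
  induction k with
  | zero => intro x hx; rfl
  | succ k ih =>
    intro x hx
    rw [Function.iterate_succ_apply', h.up u hu _ (iter_lt h k x hx), ih x hx]

include hp h in
theorem dg_iter (k : ℕ) : ∀ x < n, L.dg (L.nx^[k] x) = (L.dg x + k) % p := by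
  induction k with
  | zero => intro x hx; simp [Nat.mod_eq_of_lt (h.dlt x hx)]
  | succ k ih =>
    intro x hx
    rw [Function.iterate_succ_apply', h.dnx _ (iter_lt h k x hx), ih x hx, Nat.mod_add_mod,
      Nat.add_assoc]

include h in
theorem iter_mul (m : ℕ) : ∀ x < n, L.nx^[p * m] x = x := by
  induction m with
  | zero => intro x hx; simp
  | succ m ih =>
    intro x hx
    rw [Nat.mul_succ, Function.iterate_add_apply, h.cyc x hx, ih x hx]

include h in
theorem iter_mod (k : ℕ) : ∀ x < n, L.nx^[k] x = L.nx^[k % p] x := by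
  intro x hx
  conv_lhs => rw [← Nat.mod_add_div k p]
  rw [Function.iterate_add_apply, iter_mul h _ x hx]

include h in
theorem iter_congr {k l : ℕ} (e : k ≡ l [MOD p]) {x : ℕ} (hx : x < n) :
    L.nx^[k] x = L.nx^[l] x := by
  rw [iter_mod h k x hx, iter_mod h l x hx, e]

include hp in
theorem cnt_eq (c d : ℕ) : cnt p c d = (c + (p - d)) % p :=
  Nat.min_eq_left (Nat.mod_lt _ hp).le

include hp h

theorem at_lt {x c : ℕ} (hx : x < n) : at' p L x c < n := iter_lt h _ x hx

theorem dg_at {x c : ℕ} (hx : x < n) (hc : c < p) : L.dg (at' p L x c) = c := by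
  unfold at'
  rw [dg_iter hp h _ x hx, cnt_eq hp, Nat.add_mod_mod]
  have := h.dlt x hx
  have e : L.dg x + (c + (p - L.dg x)) = c + p := by omega
  rw [e, Nat.add_mod_right, Nat.mod_eq_of_lt hc]

theorem at_dg {x : ℕ} (hx : x < n) : at' p L x (L.dg x) = x := by
  unfold at'
  rw [cnt_eq hp]
  have := h.dlt x hx
  have e : L.dg x + (p - L.dg x) = p := by omega
  rw [e, Nat.mod_self]
  rfl

theorem at_iter {x c : ℕ} (hx : x < n) (k : ℕ) : at' p L (L.nx^[k] x) c = at' p L x c := by
  unfold at'
  rw [← Function.iterate_add_apply]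
  apply iter_congr h _ hx
  rw [cnt_eq hp, cnt_eq hp, dg_iter hp h k x hx]
  have hd := h.dlt x hx
  have hm : (L.dg x + k) % p < p := Nat.mod_lt _ hp
  unfold Nat.ModEq
  rw [Nat.mod_add_mod, Nat.mod_mod]
  -- add `(dg x + k) % p` on both sides
  have key : (c + (p - (L.dg x + k) % p) + k) + (L.dg x + k) % p ≡
      (c + (p - L.dg x)) + (L.dg x + k) % p [MOD p] := by
    have e1 : (c + (p - (L.dg x + k) % p) + k) + (L.dg x + k) % p = c + k + p := by omega
    have e2 : (c + (p - L.dg x)) + (L.dg x + k) % p ≡ (c + (p - L.dg x)) + (L.dg x + k) [MOD p] :=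
      Nat.ModEq.add_left _ (Nat.mod_modEq _ _)
    have e3 : (c + (p - L.dg x)) + (L.dg x + k) = c + k + p := by omega
    rw [e1, ← e3]
    exact e2.symm
  exact Nat.ModEq.add_right_cancel' _ key

theorem at_at {x c d : ℕ} (hx : x < n) : at' p L (at' p L x c) d = at' p L x d :=
  at_iter hp h hx _

theorem row_at {x c : ℕ} (hx : x < n) : row p L (at' p L x c) = row p L x := at_at hp h hx

theorem at_row {x c : ℕ} (hx : x < n) : at' p L (row p L x) c = at' p L x c := at_at hp h hx

theorem eq_of_row {x y : ℕ} (hx : x < n) (hy : y < n) (e : row p L x = row p L y)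
    (ed : L.dg x = L.dg y) : x = y := by
  rw [← at_dg hp h hx, ← at_row hp h hx, e, at_row hp h hy, ed, at_dg hp h hy]

theorem at_eq_of_row {x y c : ℕ} (hx : x < n) (hy : y < n) (e : row p L x = row p L y) :
    at' p L x c = at' p L y c := by
  rw [← at_row hp h hx, e, at_row hp h hy]

theorem at_up {u : ℕ → ℕ} (hu : u ∈ U) {x c : ℕ} (hx : x < n) : u (at' p L x c) = u x :=
  iter_up h hu _ x hx

end level

/-! ### tables -/

/-- a level given by tables: (number of digits, successor table, digit table) -/
abbrev TLv := ℕ × List ℕ × List ℕ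

/-- number of digits, cut at `n` -/
def fl (n : ℕ) (L : TLv) : ℕ := min L.1 n

/-- functions of a table level (digits are cut) -/
def lv (n : ℕ) (L : TLv) : Lv := ⟨look n L.2.1, look n L.2.2⟩

/-- table of the inverse permutation -/
def invT (n : ℕ) (t : List ℕ) : List ℕ :=
  tabN n fun y => ((List.range n).find? fun x => look n t x == y).getD 0

theorem isPerm_invT {n : ℕ} {t : List ℕ} (h1 : ∀ x < n, look n t x < n)
    (h2 : ∀ x < n, ∀ y < n, look n t x = look n t y → x = y) :
    IsPerm n (look n t) (look n (invT n t)) := by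
  have hs : Set.SurjOn (look n t) (Finset.range n : Set ℕ) (Finset.range n : Set ℕ) := by
    apply Finset.surjOn_of_injOn_of_card_le
    · intro x hx
      simp only [Finset.coe_range, Set.mem_Iio] at hx ⊢
      exact h1 x hx
    · intro x hx y hy e
      simp only [Finset.coe_range, Set.mem_Iio] at hx hy
      exact h2 x hx y hy e
    · exact le_rfl
  have key : ∀ y < n, look n (invT n t) y < n ∧ look n t (look n (invT n t) y) = y := by
    intro y hy
    obtain ⟨x, hx, e⟩ := hs (show y ∈ (Finset.range n : Set ℕ) by simpa using hy)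
    simp only [Finset.coe_range, Set.mem_Iio] at hx
    cases hf : (List.range n).find? fun x => look n t x == y with
    | none =>
      have := List.find?_eq_none.1 hf x (by simpa using hx)
      simp [e] at this
    | some z =>
      have a1 := List.find?_some hf
      have a2 := List.mem_of_find?_eq_some hf
      simp only [beq_iff_eq, List.mem_range] at a1 a2
      have a3 : look n (invT n t) y = z := by
        unfold invT
        rw [look_tabN hy (by rw [hf]; simpa using a2.le), hf]
        rfl
      rw [a3]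
      exact ⟨a2, a1⟩
  exact ⟨h1, fun y hy => (key y hy).1,
    fun x hx => h2 _ (key _ (h1 x hx)).1 _ hx (key _ (h1 x hx)).2, fun y hy => (key y hy).2⟩

/-- the edges: row of `x` - row of its target -/
def edges (n : ℕ) (L : TLv) (tp : List ℕ) : List (ℕ × ℕ) :=
  (List.range n).map fun x => (row (fl n L) (lv n L) x, row (fl n L) (lv n L) (look n tp x))

/-- the colours -/
def colT (n : ℕ) (L : TLv) (tp : List ℕ) : List ℕ := ecol (edges n L tp)

/-- colour of `x` -/
def colF (n : ℕ) (L : TLv) (tp : List ℕ) (x : ℕ) : ℕ := (colT n L tp).getD (min x n) 0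

/-- first row permutation -/
def aP (n : ℕ) (L : TLv) (tp : List ℕ) : List ℕ :=
  tabN n fun x => at' (fl n L) (lv n L) x (colF n L tp x)

/-- inverse of the second row permutation -/
def bP (n : ℕ) (L : TLv) (tp ti : List ℕ) : List ℕ :=
  tabN n fun y => at' (fl n L) (lv n L) y (colF n L tp (look n ti y))

/-- composition of three tables -/
def comp3 (n : ℕ) (a b c : List ℕ) : List ℕ := tabN n fun z => look n a (look n b (look n c z))

/-- the routing: for every level two tables of row permutations -/
def routeP (n : ℕ) : List TLv → List ℕ → List ℕ → List (List ℕ × List ℕ)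
  | [], _, _ => []
  | L :: ls, tp, ti =>
    (aP n L tp, invT n (bP n L tp ti)) ::
      routeP n ls (comp3 n (bP n L tp ti) tp (invT n (aP n L tp)))
        (comp3 n (aP n L tp) ti (invT n (bP n L tp ti)))

/-- the network -/
def runP (n : ℕ) : List (List ℕ × List ℕ) → ℕ → ℕ
  | [], x => x
  | AB :: r, x => look n AB.2 (runP n r (look n AB.1 x))

/-- a tower -/
def TowerP (n : ℕ) : List (ℕ → ℕ) → List TLv → Prop
  | U, [] => ∀ x < n, ∀ y < n, (∀ u ∈ U, u x = u y) → x = y
  | U, L :: ls => 0 < fl n L ∧ LvOK n (fl n L) U (lv n L) ∧ TowerP n ((lv n L).dg :: U) ls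

/-- a table of a permutation preserving the rows of a level -/
structure RowPerm (n p : ℕ) (L : Lv) (t : List ℕ) : Prop where
  lt : ∀ x < n, look n t x < n
  inj : ∀ x < n, ∀ y < n, look n t x = look n t y → x = y
  row : ∀ x < n, row p L (look n t x) = row p L x

section step

variable {n : ℕ} {U : List (ℕ → ℕ)} {L : TLv} {tp ti : List ℕ} (hp : 0 < fl n L)
  (h : LvOK n (fl n L) U (lv n L)) (hπ : IsPerm n (look n tp) (look n ti))

theorem edges_getD {x : ℕ} (hx : x < n) : (edges n L tp).getD x (0, 0) =
    (row (fl n L) (lv n L) x, row (fl n L) (lv n L) (look n tp x)) := by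
  unfold edges
  rw [List.getD_eq_getElem?_getD]
  simp [hx]

theorem card_filter_le {n p : ℕ} (f : ℕ → ℕ) (c : ℕ → Bool)
    (hf : ∀ x < n, f x < p) (hi : ∀ x < n, ∀ y < n, c x = true → c y = true → f x = f y → x = y) :
    ((List.range n).filter c).length ≤ p := by
  have h1 : (((List.range n).filter c).map f).Nodup := by
    apply List.Nodup.map_on _ (List.nodup_range.filter _)
    intro x hx y hy e
    simp only [List.mem_filter, List.mem_range] at hx hy
    exact hi x hx.1 y hy.1 hx.2 hy.2 e
  have h2 : ((List.range n).filter c).map f ⊆ List.range p := by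
    intro z hz
    simp only [List.mem_map, List.mem_filter, List.mem_range] at hz ⊢
    obtain ⟨x, hx, rfl⟩ := hz
    exact hf x hx.1
  have h3 := (List.subperm_of_subset h1 h2).length_le
  simpa using h3

include hp h hπ

theorem col_spec : (colT n L tp).length = n ∧ (∀ x < n, colF n L tp x < fl n L) ∧
    ∀ x < n, ∀ y < n, x ≠ y → (row (fl n L) (lv n L) x = row (fl n L) (lv n L) y ∨
      row (fl n L) (lv n L) (look n tp x) = row (fl n L) (lv n L) (look n tp y)) →
      colF n L tp x ≠ colF n L tp y := by
  have hlen : (edges n L tp).length = n := by simp [edges]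
  have hl : ∀ u, ((edges n L tp).filter (fun e => decide (e.1 = u))).length ≤ fl n L := by
    intro u
    unfold edges
    rw [List.filter_map, List.length_map]
    refine card_filter_le (lv n L).dg _ h.dlt (fun x hx y hy ex ey e => ?_)
    simp only [Function.comp_apply, decide_eq_true_eq] at ex ey
    exact eq_of_row hp h hx hy (ex.trans ey.symm) e
  have hr : ∀ v, ((edges n L tp).filter (fun e => decide (e.2 = v))).length ≤ fl n L := by
    intro v
    unfold edges
    rw [List.filter_map, List.length_map]
    refine card_filter_le (fun x => (lv n L).dg (look n tp x)) _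
      (fun x hx => h.dlt _ (hπ.lt x hx)) (fun x hx y hy ex ey e => ?_)
    simp only [Function.comp_apply, decide_eq_true_eq] at ex ey
    have := eq_of_row hp h (hπ.lt x hx) (hπ.lt y hy) (ex.trans ey.symm) e
    rw [← hπ.left x hx, this, hπ.left y hy]
  obtain ⟨s1, s2, s3⟩ := ecol_spec hl hr
  have l1 : (colT n L tp).length = n := s1.trans hlen
  have cf : ∀ x < n, colF n L tp x = (ecol (edges n L tp)).getD x 0 := by
    intro x hx
    unfold colF colT
    rw [Nat.min_eq_left hx.le]
  refine ⟨l1, fun x hx => ?_, fun x hx y hy hxy hs => ?_⟩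
  · rw [cf x hx]
    apply s2
    have hx' : x < (ecol (edges n L tp)).length := by
      have : (ecol (edges n L tp)).length = n := l1
      omega
    rw [List.getD_eq_getElem _ _ hx']
    exact List.getElem_mem hx'
  · rw [cf x hx, cf y hy]
    apply s3 x y (by omega) (by omega) hxy
    rw [edges_getD hx, edges_getD hy]
    exact hs

theorem look_aP {x : ℕ} (hx : x < n) :
    look n (aP n L tp) x = at' (fl n L) (lv n L) x (colF n L tp x) :=
  look_tabN hx (at_lt hp h hx).le

theorem look_bP {y : ℕ} (hy : y < n) :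
    look n (bP n L tp ti) y = at' (fl n L) (lv n L) y (colF n L tp (look n ti y)) :=
  look_tabN hy (at_lt hp h hy).le

theorem rowPerm_aP : RowPerm n (fl n L) (lv n L) (aP n L tp) := by
  obtain ⟨_, c1, c2⟩ := col_spec hp h hπ
  refine ⟨fun x hx => ?_, fun x hx y hy e => ?_, fun x hx => ?_⟩
  · rw [look_aP hp h hπ hx]; exact at_lt hp h hx
  · rw [look_aP hp h hπ hx, look_aP hp h hπ hy] at e
    by_contra hxy
    have er : row (fl n L) (lv n L) x = row (fl n L) (lv n L) y := by
      rw [← row_at hp h (c := colF n L tp x) hx, e, row_at hp h hy]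
    have ed := congrArg (lv n L).dg e
    rw [dg_at hp h hx (c1 x hx), dg_at hp h hy (c1 y hy)] at ed
    exact c2 x hx y hy hxy (.inl er) ed
  · rw [look_aP hp h hπ hx]; exact row_at hp h hx

theorem rowPerm_bP : RowPerm n (fl n L) (lv n L) (bP n L tp ti) := by
  obtain ⟨_, c1, c2⟩ := col_spec hp h hπ
  refine ⟨fun x hx => ?_, fun x hx y hy e => ?_, fun x hx => ?_⟩
  · rw [look_bP hp h hπ hx]; exact at_lt hp h hx
  · rw [look_bP hp h hπ hx, look_bP hp h hπ hy] at e
    by_contra hxy
    have er : row (fl n L) (lv n L) x = row (fl n L) (lv n L) y := by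
      rw [← row_at hp h (c := colF n L tp (look n ti x)) hx, e, row_at hp h hy]
    have ed := congrArg (lv n L).dg e
    rw [dg_at hp h hx (c1 _ (hπ.lt' x hx)), dg_at hp h hy (c1 _ (hπ.lt' y hy))] at ed
    have hne : look n ti x ≠ look n ti y := by
      intro e'
      apply hxy
      rw [← hπ.right x hx, e', hπ.right y hy]
    refine c2 _ (hπ.lt' x hx) _ (hπ.lt' y hy) hne (.inr ?_) ed
    rw [hπ.right x hx, hπ.right y hy]
    exact er
  · rw [look_bP hp h hπ hx]; exact row_at hp h hx

omit hp h hπ in
theorem look_comp3 {a b c : List ℕ} {z : ℕ} (hz : z < n) :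
    look n (comp3 n a b c) z = look n a (look n b (look n c z)) :=
  look_tabN hz (look_le _ _ _)

omit hp h hπ in
theorem RowPerm.isPerm {p : ℕ} {L : Lv} {t : List ℕ} (ht : RowPerm n p L t) :
    IsPerm n (look n t) (look n (invT n t)) := isPerm_invT ht.lt ht.inj

omit hp h hπ in
theorem isPerm_comp3 {a b c a' b' c' : List ℕ} (ha : IsPerm n (look n a) (look n a'))
    (hb : IsPerm n (look n b) (look n b')) (hc : IsPerm n (look n c) (look n c')) :
    IsPerm n (look n (comp3 n a b c)) (look n (comp3 n c' b' a')) := by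
  refine ⟨fun x hx => ?_, fun x hx => ?_, fun x hx => ?_, fun x hx => ?_⟩
  · rw [look_comp3 hx]; exact ha.lt _ (hb.lt _ (hc.lt _ hx))
  · rw [look_comp3 hx]; exact hc.lt' _ (hb.lt' _ (ha.lt' _ hx))
  · rw [look_comp3 hx, look_comp3 (ha.lt _ (hb.lt _ (hc.lt _ hx))),
      ha.left _ (hb.lt _ (hc.lt _ hx)), hb.left _ (hc.lt _ hx), hc.left _ hx]
  · rw [look_comp3 hx, look_comp3 (hc.lt' _ (hb.lt' _ (ha.lt' _ hx))),
      hc.right _ (hb.lt' _ (ha.lt' _ hx)), hb.right _ (ha.lt' _ hx), ha.right _ hx]

omit hp h hπ in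
theorem isPerm_symm {f g : ℕ → ℕ} (hf : IsPerm n f g) : IsPerm n g f :=
  ⟨hf.lt', hf.lt, hf.right, hf.left⟩

theorem rowPerm_invT {t : List ℕ} (ht : RowPerm n (fl n L) (lv n L) t) :
    RowPerm n (fl n L) (lv n L) (invT n t) := by
  have hP := ht.isPerm
  refine ⟨hP.lt', fun x hx y hy e => ?_, fun x hx => ?_⟩
  · rw [← hP.right x hx, e, hP.right y hy]
  · have := ht.row _ (hP.lt' x hx)
    rw [hP.right x hx] at this
    exact this.symm

/-- what is left to be routed keeps the digit -/
theorem dg_left {z : ℕ} (hz : z < n) :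
    (lv n L).dg (look n (comp3 n (bP n L tp ti) tp (invT n (aP n L tp))) z) =
      (lv n L).dg z := by
  obtain ⟨_, c1, c2⟩ := col_spec hp h hπ
  have hA := (rowPerm_aP hp h hπ).isPerm
  rw [look_comp3 hz]
  have hx := hA.lt' z hz
  have e := hA.right z hz
  generalize look n (invT n (aP n L tp)) z = x at hx e
  rw [look_bP hp h hπ (hπ.lt x hx), hπ.left x hx, dg_at hp h (hπ.lt x hx) (c1 x hx), ← e,
    look_aP hp h hπ hx, dg_at hp h hx (c1 x hx)]

end step

/-- **Routing on a `p`-ary tower.** -/
theorem runP_routeP {n : ℕ} (ls : List TLv) :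
    ∀ (U : List (ℕ → ℕ)) (tp ti : List ℕ),
    TowerP n U ls → IsPerm n (look n tp) (look n ti) →
    (∀ u ∈ U, ∀ x < n, u (look n tp x) = u x) →
    ∀ x < n, runP n (routeP n ls tp ti) x = look n tp x := by
  induction ls with
  | nil =>
    intro U tp ti hT hπ hU x hx
    exact hT x hx _ (hπ.lt x hx) (fun u hu => (hU u hu x hx).symm)
  | cons L ls ih =>
    intro U tp ti hT hπ hU x hx
    obtain ⟨hp, h, hT⟩ := hT
    have hA := rowPerm_aP hp h hπ
    have hB := rowPerm_bP hp h hπ
    have hAP := hA.isPerm
    have hBP := hB.isPerm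
    have hx1 := hAP.lt x hx
    have key := ih ((lv n L).dg :: U) _ _ hT (isPerm_comp3 hBP hπ (isPerm_symm hAP)) (by
      intro u hu z hz
      rcases List.mem_cons.1 hu with rfl | hu
      · exact dg_left hp h hπ hz
      · rw [look_comp3 hz]
        have hz1 := hAP.lt' z hz
        rw [look_bP hp h hπ (hπ.lt _ hz1), at_up hp h hu (hπ.lt _ hz1), hU u hu _ hz1]
        have e := hAP.right z hz
        rw [look_aP hp h hπ hz1] at e
        rw [← at_up hp h (c := colF n L tp (look n (invT n (aP n L tp)) z)) hu hz1, e])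
      (look n (aP n L tp) x) hx1
    show look n (invT n (bP n L tp ti)) (runP n (routeP n ls _ _) (look n (aP n L tp) x)) = _
    rw [key, look_comp3 hx1, hAP.left x hx, hBP.left _ (hπ.lt x hx)]

/-- every output table preserves the rows of its level -/
theorem routeP_rows {n : ℕ} (ls : List TLv) :
    ∀ (U : List (ℕ → ℕ)) (tp ti : List ℕ),
    TowerP n U ls → IsPerm n (look n tp) (look n ti) →
    List.Forall₂ (fun L AB => RowPerm n (fl n L) (lv n L) AB.1 ∧ RowPerm n (fl n L) (lv n L) AB.2) ls
      (routeP n ls tp ti) := by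
  induction ls with
  | nil => intro U tp ti _ _; exact .nil
  | cons L ls ih =>
    intro U tp ti hT hπ
    obtain ⟨hp, h, hT⟩ := hT
    have hA := rowPerm_aP hp h hπ
    have hB := rowPerm_bP hp h hπ
    exact .cons ⟨hA, rowPerm_invT hp h hπ hB⟩
      (ih _ _ _ hT (isPerm_comp3 hB.isPerm hπ (isPerm_symm hA.isPerm)))

theorem routeP_length (n : ℕ) (ls : List TLv) : ∀ (tp ti : List ℕ),
    (routeP n ls tp ti).length = ls.length := by
  induction ls with
  | nil => intro _ _; rfl
  | cons L ls ih => intro tp ti; simp [routeP, ih]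

/-! ### wires, flat form -/

/-- the flat list of the tables: down with the first components, up with the second ones -/
def flatP : List (List ℕ × List ℕ) → List (List ℕ)
  | [] => []
  | AB :: r => AB.1 :: (flatP r ++ [AB.2])

/-- the list of tables for the wires `ws` -/
def routeWP (n : ℕ) (ls : List TLv) (ws : List (ℕ × ℕ)) : List (List ℕ) :=
  flatP (routeP n ls (permT n ws) (invpT n ws))

/-- position of `x` after `j` tables -/
def posP (n : ℕ) (ts : List (List ℕ)) (j : ℕ) (x : ℕ) : ℕ :=
  (ts.take j).foldl (fun y t => look n t y) x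

@[simp] theorem posP_zero (n : ℕ) (ts : List (List ℕ)) (x : ℕ) : posP n ts 0 x = x := rfl

theorem posP_succ (n : ℕ) (ts : List (List ℕ)) {j : ℕ} (hj : j < ts.length) (x : ℕ) :
    posP n ts (j + 1) x = look n (ts[j]) (posP n ts j x) := by
  unfold posP
  rw [List.take_succ_eq_append_getElem hj, List.foldl_append]
  rfl

theorem flatP_length (AB : List (List ℕ × List ℕ)) : (flatP AB).length = 2 * AB.length := by
  induction AB with
  | nil => rfl
  | cons ab r ih =>
    simp only [flatP, List.length_cons, List.length_append, List.length_nil, ih]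
    omega

theorem foldl_flatP (n : ℕ) (AB : List (List ℕ × List ℕ)) : ∀ x,
    (flatP AB).foldl (fun y t => look n t y) x = runP n AB x := by
  induction AB with
  | nil => intro x; rfl
  | cons ab r ih =>
    intro x
    simp only [flatP, List.foldl_cons, List.foldl_append, List.foldl_nil, ih, runP]

/-- the levels of the flat list -/
def flatL : List TLv → List TLv
  | [] => []
  | L :: ls => L :: (flatL ls ++ [L])

theorem flatL_length (ls : List TLv) : (flatL ls).length = 2 * ls.length := by
  induction ls with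
  | nil => rfl
  | cons L ls ih =>
    simp only [flatL, List.length_cons, List.length_append, List.length_nil, ih]
    omega

theorem flat_forall {R : TLv → List ℕ → Prop} {ls : List TLv} {AB : List (List ℕ × List ℕ)}
    (h : List.Forall₂ (fun L AB => R L AB.1 ∧ R L AB.2) ls AB) :
    List.Forall₂ R (flatL ls) (flatP AB) := by
  induction h with
  | nil => exact .nil
  | cons h1 _ ih => exact .cons h1.1 (List.rel_append ih (.cons h1.2 .nil))

/-- **Routing of wires, flat form.**  `2 r` tables of row permutations (the row structure of the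
`j`-th table is that of level `flatL ls [j]`); the packet of every wire ends at its target. -/
theorem routeWP_spec {n : ℕ} {ls : List TLv} {ws : List (ℕ × ℕ)} (hT : TowerP n [] ls)
    (h : PInj n ws) :
    (routeWP n ls ws).length = 2 * ls.length ∧
    List.Forall₂ (fun L t => RowPerm n (fl n L) (lv n L) t) (flatL ls) (routeWP n ls ws) ∧
    ∀ x y, (x, y) ∈ ws → posP n (routeWP n ls ws) (2 * ls.length) x = y := by
  have hl : (routeWP n ls ws).length = 2 * ls.length := by
    unfold routeWP
    rw [flatP_length, routeP_length]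
  refine ⟨hl, flat_forall (routeP_rows ls [] _ _ hT (isPerm_permT h)), fun x y hxy => ?_⟩
  unfold posP
  rw [← hl, List.take_length]
  unfold routeWP
  rw [foldl_flatP, runP_routeP ls [] _ _ hT (isPerm_permT h) (by simp) x (h.lt1 _ hxy)]
  exact permT_eq h hxy

theorem posP_lt {n : ℕ} {ts : List (List ℕ)} (h : ∀ t ∈ ts, ∀ x < n, look n t x < n) {j : ℕ}
    (hj : j ≤ ts.length) {x : ℕ} (hx : x < n) : posP n ts j x < n := by
  induction j with
  | zero => exact hx
  | succ j ih =>
    rw [posP_succ n ts (by omega)]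
    exact h _ (List.getElem_mem _) _ (ih (by omega))

theorem posP_inj {n : ℕ} {ts : List (List ℕ)} (h : ∀ t ∈ ts, ∀ x < n, look n t x < n)
    (h' : ∀ t ∈ ts, ∀ x < n, ∀ y < n, look n t x = look n t y → x = y) {j : ℕ}
    (hj : j ≤ ts.length) {x y : ℕ} (hx : x < n) (hy : y < n)
    (e : posP n ts j x = posP n ts j y) : x = y := by
  induction j with
  | zero => exact e
  | succ j ih =>
    rw [posP_succ n ts (by omega), posP_succ n ts (by omega)] at e
    exact ih (by omega) (h' _ (List.getElem_mem _) _ (posP_lt h (by omega) hx) _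
      (posP_lt h (by omega) hy) e)

/-! ### levels from next / previous functions -/

/-- cyclic successor from next / previous functions on digits -/
def cycl (f : ℕ) (dg s t : ℕ → ℕ) (x : ℕ) : ℕ := if dg x + 1 < f then s x else t^[f - 1] x

/-- hypotheses in next / previous form -/
structure STOK (n f : ℕ) (U : List (ℕ → ℕ)) (dg s t : ℕ → ℕ) : Prop where
  pos : 0 < f
  dlt : ∀ x < n, dg x < f
  s_lt : ∀ x < n, dg x + 1 < f → s x < n
  t_lt : ∀ x < n, 0 < dg x → t x < n
  s_dg : ∀ x < n, dg x + 1 < f → dg (s x) = dg x + 1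
  t_dg : ∀ x < n, 0 < dg x → dg (t x) = dg x - 1
  ts : ∀ x < n, dg x + 1 < f → t (s x) = x
  st : ∀ x < n, 0 < dg x → s (t x) = x
  s_up : ∀ u ∈ U, ∀ x < n, dg x + 1 < f → u (s x) = u x
  t_up : ∀ u ∈ U, ∀ x < n, 0 < dg x → u (t x) = u x

theorem STOK.t_iter {n f : ℕ} {U : List (ℕ → ℕ)} {dg s t : ℕ → ℕ} (h : STOK n f U dg s t)
    (k : ℕ) : ∀ x < n, k ≤ dg x → t^[k] x < n ∧ dg (t^[k] x) = dg x - k ∧
      (∀ u ∈ U, u (t^[k] x) = u x) ∧ s^[k] (t^[k] x) = x := by
  induction k with
  | zero => intro x hx _; exact ⟨hx, by simp, fun _ _ => rfl, rfl⟩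
  | succ k ih =>
    intro x hx hk
    obtain ⟨a, b, c, d⟩ := ih x hx (by omega)
    rw [Function.iterate_succ_apply']
    refine ⟨h.t_lt _ a (by omega), by rw [h.t_dg _ a (by omega), b]; omega,
      fun u hu => by rw [h.t_up u hu _ a (by omega), c u hu], ?_⟩
    rw [Function.iterate_succ_apply, h.st _ a (by omega), d]

theorem STOK.s_iter {n f : ℕ} {U : List (ℕ → ℕ)} {dg s t : ℕ → ℕ} (h : STOK n f U dg s t)
    (k : ℕ) : ∀ x < n, dg x + k < f → s^[k] x < n ∧ dg (s^[k] x) = dg x + k ∧
      (cycl f dg s t)^[k] x = s^[k] x := by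
  induction k with
  | zero => intro x hx _; exact ⟨hx, rfl, rfl⟩
  | succ k ih =>
    intro x hx hk
    obtain ⟨a, b, c⟩ := ih x hx (by omega)
    rw [Function.iterate_succ_apply', Function.iterate_succ_apply', c]
    refine ⟨h.s_lt _ a (by omega), by rw [h.s_dg _ a (by omega), b]; omega, ?_⟩
    unfold cycl
    rw [if_pos (by omega)]

/-- **a level in next / previous form is a level** -/
theorem STOK.lvOK {n f : ℕ} {U : List (ℕ → ℕ)} {dg s t : ℕ → ℕ} (h : STOK n f U dg s t) :
    LvOK n f U ⟨cycl f dg s t, dg⟩ := by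
  have hp := h.pos
  have last : ∀ x < n, ¬ dg x + 1 < f → dg x = f - 1 := fun x hx hl => by
    have := h.dlt x hx
    omega
  refine ⟨fun x hx => ?_, h.dlt, fun x hx => ?_, fun x hx => ?_, fun u hu x hx => ?_⟩
  · show cycl f dg s t x < n
    unfold cycl
    split
    · rename_i hl; exact h.s_lt x hx hl
    · rename_i hl; exact (h.t_iter _ x hx (by have := last x hx hl; omega)).1
  · show dg (cycl f dg s t x) = (dg x + 1) % f
    unfold cycl
    split
    · rename_i hl; rw [h.s_dg x hx hl, Nat.mod_eq_of_lt hl]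
    · rename_i hl
      have e := last x hx hl
      rw [(h.t_iter _ x hx (by omega)).2.1, e]
      have : f - 1 + 1 = f := by omega
      rw [this, Nat.mod_self, Nat.sub_self]
  · show (cycl f dg s t)^[f] x = x
    -- go to the last digit, wrap, go up again
    have hd := h.dlt x hx
    obtain ⟨a1, a2, a3⟩ := h.s_iter (f - 1 - dg x) x hx (by omega)
    have e1 : f = dg x + (1 + (f - 1 - dg x)) := by omega
    have e0 : (cycl f dg s t)^[f] x = (cycl f dg s t)^[dg x + (1 + (f - 1 - dg x))] x :=
      congrArg (fun k => (cycl f dg s t)^[k] x) e1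
    rw [e0, Function.iterate_add_apply, Function.iterate_add_apply, a3, Function.iterate_one]
    have e2 : cycl f dg s t (s^[f - 1 - dg x] x) = t^[f - 1] (s^[f - 1 - dg x] x) := by
      unfold cycl
      rw [if_neg (by omega)]
    rw [e2]
    -- `t^[f-1] (s^[f-1-dg x] x) = t^[dg x] x`
    have e3 : ∀ k, ∀ x < n, dg x + k < f → t^[k] (s^[k] x) = x := by
      intro k
      induction k with
      | zero => intro x _ _; rfl
      | succ k ih =>
        intro x hx hk
        obtain ⟨b1, b2, _⟩ := h.s_iter k x hx (by omega)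
        rw [Function.iterate_succ_apply' s, Function.iterate_succ_apply, h.ts _ b1 (by omega)]
        exact ih x hx (by omega)
    have e4 : f - 1 = dg x + (f - 1 - dg x) := by omega
    have e6 : t^[f - 1] (s^[f - 1 - dg x] x) = t^[dg x + (f - 1 - dg x)] (s^[f - 1 - dg x] x) :=
      congrArg (fun k => t^[k] (s^[f - 1 - dg x] x)) e4
    rw [e6, Function.iterate_add_apply t, e3 _ x hx (by omega)]
    obtain ⟨c1, c2, _, c4⟩ := h.t_iter (dg x) x hx le_rfl
    rw [(h.s_iter (dg x) _ c1 (by omega)).2.2, c4]
  · show u (cycl f dg s t x) = u x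
    unfold cycl
    split
    · rename_i hl; exact h.s_up u hu x hx hl
    · rename_i hl; exact (h.t_iter _ x hx (by have := last x hx hl; omega)).2.2.1 u hu

end Crest.Agent.R289.RouteP873
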