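import Mathlib
import Crest.Agent.R289.RouteP_873

/-!
# The path system of the wires (row 289, block C, R3)

`pathsP n gs Ls ws`: for every wire of the partial injection `ws` a walk in the graph with the moves
`gs`, from the source to the target, of length `≤ 2 r lw + 1`, such that every address is on at most
`2 r F ^ 2 lw + 1` of the walks.
-/

set_option autoImplicit false
set_option linter.unusedVariables false
set_option linter.unusedSectionVars false

namespace Crest.Agent.R289.Paths992

open Crest.Agent.Lib.PT Crest.Agent.R289.Benes873 Crest.Agent.R289.Konig851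
open Crest.Agent.R289.RouteP873

/-! ### definitions -/

/-- table of words: digit of the source, digit of the target -/
abbrev Wd := List (List (List ℕ))

/-- the word from digit `c` to digit `d` -/
def wdT (W : Wd) (c d : ℕ) : List ℕ := (W.getD c []).getD d []

/-- the move `a` -/
def mvF (n : ℕ) (gs : List (List ℕ)) (a x : ℕ) : ℕ := look n (gs.getD a []) x

/-- one move; state = (position, walk so far) -/
def mv (n : ℕ) (gs : List (List ℕ)) (s : ℕ × List ℕ) (a : ℕ) : ℕ × List ℕ :=
  (mvF n gs a s.1, s.2 ++ [mvF n gs a s.1])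

/-- the walk along the word `w` from `x` -/
def walkW (n : ℕ) (gs : List (List ℕ)) (x : ℕ) (w : List ℕ) : List ℕ :=
  (w.foldl (mv n gs) (x, [x])).2

/-- one row permutation; state = (position, word so far) -/
def ls1 (n : ℕ) (s : ℕ × List ℕ) (p : (TLv × Wd) × List ℕ) : ℕ × List ℕ :=
  (look n p.2 s.1, s.2 ++ wdT p.1.2 (look n p.1.1.2.2 s.1) (look n p.1.1.2.2 (look n p.2 s.1)))

/-- the word of the packet which starts at `x` -/
def letters (n : ℕ) (S : List ((TLv × Wd) × List ℕ)) (x : ℕ) : List ℕ :=
  (S.foldl (ls1 n) (x, [])).2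

/-- the levels (down and up) with the row permutations -/
def stepsP (Ls : List (TLv × Wd)) (ts : List (List ℕ)) : List ((TLv × Wd) × List ℕ) :=
  (Ls ++ Ls.reverse).zip ts

/-- the walks of the wires -/
def pathsP (n : ℕ) (gs : List (List ℕ)) (Ls : List (TLv × Wd)) (ws : List (ℕ × ℕ)) :
    List (List ℕ) :=
  ws.map fun w => walkW n gs w.1
    (letters n (stepsP Ls (routeWP n (Ls.map Prod.fst) ws)) w.1)

/-! ### moves -/

/-- end of the walk -/
def fol (n : ℕ) (gs : List (List ℕ)) (w : List ℕ) (x : ℕ) : ℕ :=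
  w.foldl (fun y a => mvF n gs a y) x

/-- vertices of the walk after the start -/
def trk (n : ℕ) (gs : List (List ℕ)) : List ℕ → ℕ → List ℕ
  | [], _ => []
  | a :: w, x => mvF n gs a x :: trk n gs w (mvF n gs a x)

/-- the steps of the graph -/
def Stp (n : ℕ) (gs : List (List ℕ)) (x y : ℕ) : Prop := ∃ a < gs.length, mvF n gs a x = y

section moves

variable {n : ℕ} {gs : List (List ℕ)}

theorem foldl_mv (w : List ℕ) : ∀ (x : ℕ) (out : List ℕ),
    w.foldl (mv n gs) (x, out) = (fol n gs w x, out ++ trk n gs w x) := by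
  induction w with
  | nil => intro x out; simp [fol, trk]
  | cons a w ih =>
    intro x out
    rw [List.foldl_cons]
    show List.foldl (mv n gs) (mvF n gs a x, out ++ [mvF n gs a x]) w = _
    rw [ih]
    simp [fol, trk]

theorem walkW_eq (x : ℕ) (w : List ℕ) : walkW n gs x w = x :: trk n gs w x := by
  unfold walkW
  rw [foldl_mv]
  rfl

theorem trk_length (w : List ℕ) : ∀ x, (trk n gs w x).length = w.length := by
  induction w with
  | nil => intro x; rfl
  | cons a w ih => intro x; simp [trk, ih]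

theorem trk_append (w w' : List ℕ) : ∀ x,
    trk n gs (w ++ w') x = trk n gs w x ++ trk n gs w' (fol n gs w x) := by
  induction w with
  | nil => intro x; rfl
  | cons a w ih => intro x; simp only [List.cons_append, trk, ih]; rfl

theorem fol_append (w w' : List ℕ) (x : ℕ) :
    fol n gs (w ++ w') x = fol n gs w' (fol n gs w x) := by
  unfold fol; rw [List.foldl_append]

theorem trk_last (w : List ℕ) : ∀ x, (x :: trk n gs w x).getLast? = some (fol n gs w x) := by
  induction w with
  | nil => intro x; rfl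
  | cons a w ih => intro x; simp only [trk, List.getLast?_cons_cons]; exact ih _

theorem trk_chain (w : List ℕ) : ∀ x, (∀ a ∈ w, a < gs.length) →
    (x :: trk n gs w x).IsChain (Stp n gs) := by
  induction w with
  | nil => intro x _; simp [trk]
  | cons a w ih =>
    intro x h
    simp only [trk, List.isChain_cons_cons]
    exact ⟨⟨a, h a (by simp), rfl⟩, ih _ (fun b hb => h b (by simp [hb]))⟩

theorem mem_trk (w : List ℕ) : ∀ x v, v ∈ trk n gs w x →
    ∃ j < w.length, fol n gs (w.take (j + 1)) x = v := by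
  induction w with
  | nil => intro x v h; simp [trk] at h
  | cons a w ih =>
    intro x v h
    simp only [trk, List.mem_cons] at h
    rcases h with rfl | h
    · exact ⟨0, by simp, by simp [fol]⟩
    · obtain ⟨j, hj, e⟩ := ih _ _ h
      exact ⟨j + 1, by simpa using hj, by simpa [fol] using e⟩

variable (hlt : ∀ g ∈ gs, ∀ x < n, look n g x < n)
include hlt

theorem mvF_lt {a : ℕ} (ha : a < gs.length) {x : ℕ} (hx : x < n) : mvF n gs a x < n := by
  unfold mvF
  rw [List.getD_eq_getElem _ _ ha]
  exact hlt _ (List.getElem_mem _) x hx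

theorem fol_lt (w : List ℕ) : ∀ x < n, (∀ a ∈ w, a < gs.length) → fol n gs w x < n := by
  induction w with
  | nil => intro x hx _; exact hx
  | cons a w ih =>
    intro x hx h
    exact ih _ (mvF_lt hlt (h a (by simp)) hx) (fun b hb => h b (by simp [hb]))

theorem trk_lt (w : List ℕ) : ∀ x < n, (∀ a ∈ w, a < gs.length) → ∀ v ∈ trk n gs w x, v < n := by
  intro x hx h v hv
  obtain ⟨j, hj, rfl⟩ := mem_trk w x v hv
  exact fol_lt hlt _ x hx (fun a ha => h a (List.mem_of_mem_take ha))

variable (hinj : ∀ g ∈ gs, ∀ x < n, ∀ y < n, look n g x = look n g y → x = y)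
include hinj

theorem fol_inj (w : List ℕ) : ∀ x < n, ∀ y < n, (∀ a ∈ w, a < gs.length) →
    fol n gs w x = fol n gs w y → x = y := by
  induction w with
  | nil => intro x _ y _ _ e; exact e
  | cons a w ih =>
    intro x hx y hy h e
    have ha := h a (by simp)
    have h1 := ih _ (mvF_lt hlt ha hx) _ (mvF_lt hlt ha hy) (fun b hb => h b (by simp [hb])) e
    unfold mvF at h1
    rw [List.getD_eq_getElem _ _ ha] at h1
    exact hinj _ (List.getElem_mem _) x hx y hy h1

end moves

/-! ### words -/

/-- the word of the packet which starts at `x`, recursively -/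
def lets (n : ℕ) : List ((TLv × Wd) × List ℕ) → ℕ → List ℕ
  | [], _ => []
  | p :: S, x =>
    wdT p.1.2 (look n p.1.1.2.2 x) (look n p.1.1.2.2 (look n p.2 x)) ++ lets n S (look n p.2 x)

theorem foldl_ls1 {n : ℕ} (S : List ((TLv × Wd) × List ℕ)) : ∀ (x : ℕ) (out : List ℕ),
    (S.foldl (ls1 n) (x, out)).2 = out ++ lets n S x := by
  induction S with
  | nil => intro x out; simp [lets]
  | cons p S ih =>
    intro x out
    rw [List.foldl_cons]
    show (List.foldl (ls1 n) (look n p.2 x, out ++ _) S).2 = _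
    rw [ih]
    simp [lets]

theorem letters_eq {n : ℕ} (S : List ((TLv × Wd) × List ℕ)) (x : ℕ) :
    letters n S x = lets n S x := by
  unfold letters; rw [foldl_ls1]; rfl

/-- hypotheses on one level with words -/
structure WL (n : ℕ) (gs : List (List ℕ)) (F lw : ℕ) (L : TLv × Wd) : Prop where
  pos : 0 < fl n L.1
  ok : LvOK n (fl n L.1) [] (lv n L.1)
  fle : fl n L.1 ≤ F
  wlt : ∀ c < fl n L.1, ∀ d < fl n L.1, ∀ a ∈ wdT L.2 c d, a < gs.length
  wlen : ∀ c < fl n L.1, ∀ d < fl n L.1, (wdT L.2 c d).length ≤ lw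
  wto : ∀ x < n, ∀ d < fl n L.1,
    fol n gs (wdT L.2 ((lv n L.1).dg x) d) x = at' (fl n L.1) (lv n L.1) x d

/-- hypotheses on one step -/
def WS (n : ℕ) (gs : List (List ℕ)) (F lw : ℕ) (p : (TLv × Wd) × List ℕ) : Prop :=
  WL n gs F lw p.1 ∧ RowPerm n (fl n p.1.1) (lv n p.1.1) p.2

section word

variable {n : ℕ} {gs : List (List ℕ)} {F lw : ℕ}

theorem WS.fol {p : (TLv × Wd) × List ℕ} (h : WS n gs F lw p) {x : ℕ} (hx : x < n) :
    Paths992.fol n gs (wdT p.1.2 (look n p.1.1.2.2 x) (look n p.1.1.2.2 (look n p.2 x))) x =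
      look n p.2 x := by
  obtain ⟨h1, h2⟩ := h
  have hy := h2.lt x hx
  have e1 := h1.wto x hx _ (h1.ok.dlt _ hy)
  refine e1.trans ?_
  rw [at_eq_of_row h1.pos h1.ok hx hy (h2.row x hx).symm, at_dg h1.pos h1.ok hy]

theorem WS.wlt {p : (TLv × Wd) × List ℕ} (h : WS n gs F lw p) {x : ℕ} (hx : x < n) :
    ∀ a ∈ wdT p.1.2 (look n p.1.1.2.2 x) (look n p.1.1.2.2 (look n p.2 x)), a < gs.length :=
  h.1.wlt _ (h.1.ok.dlt x hx) _ (h.1.ok.dlt _ (h.2.lt x hx))

theorem WS.wlen {p : (TLv × Wd) × List ℕ} (h : WS n gs F lw p) {x : ℕ} (hx : x < n) :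
    (wdT p.1.2 (look n p.1.1.2.2 x) (look n p.1.1.2.2 (look n p.2 x))).length ≤ lw :=
  h.1.wlen _ (h.1.ok.dlt x hx) _ (h.1.ok.dlt _ (h.2.lt x hx))

theorem lets_fol (S : List ((TLv × Wd) × List ℕ)) : (∀ p ∈ S, WS n gs F lw p) → ∀ x < n,
    fol n gs (lets n S x) x = (S.map Prod.snd).foldl (fun y t => look n t y) x := by
  induction S with
  | nil => intro _ x _; rfl
  | cons p S ih =>
    intro h x hx
    have hp := h p (by simp)
    simp only [lets, fol_append, hp.fol hx, List.map_cons, List.foldl_cons]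
    exact ih (fun q hq => h q (by simp [hq])) _ (hp.2.lt x hx)

theorem lets_lt (S : List ((TLv × Wd) × List ℕ)) : (∀ p ∈ S, WS n gs F lw p) → ∀ x < n,
    ∀ a ∈ lets n S x, a < gs.length := by
  induction S with
  | nil => intro _ x _ a ha; simp [lets] at ha
  | cons p S ih =>
    intro h x hx a ha
    have hp := h p (by simp)
    simp only [lets, List.mem_append] at ha
    rcases ha with ha | ha
    · exact hp.wlt hx a ha
    · exact ih (fun q hq => h q (by simp [hq])) _ (hp.2.lt x hx) a ha

theorem lets_len (S : List ((TLv × Wd) × List ℕ)) : (∀ p ∈ S, WS n gs F lw p) → ∀ x < n,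
    (lets n S x).length ≤ S.length * lw := by
  induction S with
  | nil => intro _ x _; simp [lets]
  | cons p S ih =>
    intro h x hx
    have hp := h p (by simp)
    have h1 := hp.wlen hx
    have h2 := ih (fun q hq => h q (by simp [hq])) _ (hp.2.lt x hx)
    simp only [lets, List.length_append, List.length_cons, Nat.add_mul, Nat.one_mul]
    omega

variable (hlt : ∀ g ∈ gs, ∀ x < n, look n g x < n)
  (hinj : ∀ g ∈ gs, ∀ x < n, ∀ y < n, look n g x = look n g y → x = y)
include hlt hinj

/-- packets which meet `v` during one step -/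
theorem card_step {p : (TLv × Wd) × List ℕ} (h : WS n gs F lw p) (v : ℕ) :
    ((Finset.range n).filter fun x =>
      v ∈ trk n gs (wdT p.1.2 (look n p.1.1.2.2 x) (look n p.1.1.2.2 (look n p.2 x))) x).card ≤
      F * F * lw := by
  classical
  set I : Finset (ℕ × ℕ × ℕ) :=
    Finset.range (fl n p.1.1) ×ˢ Finset.range (fl n p.1.1) ×ˢ Finset.range lw with hI
  have hcard : I.card ≤ F * F * lw := by
    rw [hI, Finset.card_product, Finset.card_product, Finset.card_range, Finset.card_range,
      ← Nat.mul_assoc]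
    exact Nat.mul_le_mul_right _ (Nat.mul_le_mul h.1.fle h.1.fle)
  refine le_trans ?_ hcard
  have hsub : ((Finset.range n).filter fun x =>
      v ∈ trk n gs (wdT p.1.2 (look n p.1.1.2.2 x) (look n p.1.1.2.2 (look n p.2 x))) x) ⊆
      I.biUnion fun i => (Finset.range n).filter fun x =>
        i.2.2 < (wdT p.1.2 i.1 i.2.1).length ∧ i.1 < fl n p.1.1 ∧ i.2.1 < fl n p.1.1 ∧
        fol n gs ((wdT p.1.2 i.1 i.2.1).take (i.2.2 + 1)) x = v := by
    intro x hx
    simp only [Finset.mem_filter, Finset.mem_range] at hx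
    obtain ⟨hx, hv⟩ := hx
    obtain ⟨j, hj, e⟩ := mem_trk _ _ _ hv
    have hj' := lt_of_lt_of_le hj (h.wlen hx)
    have d1 := h.1.ok.dlt x hx
    have d2 := h.1.ok.dlt _ (h.2.lt x hx)
    simp only [Finset.mem_biUnion, Finset.mem_filter, Finset.mem_range]
    refine ⟨(look n p.1.1.2.2 x, look n p.1.1.2.2 (look n p.2 x), j), ?_, hx, hj, d1, d2, e⟩
    rw [hI]
    exact Finset.mem_product.2 ⟨Finset.mem_range.2 d1,
      Finset.mem_product.2 ⟨Finset.mem_range.2 d2, Finset.mem_range.2 hj'⟩⟩
  refine (Finset.card_le_card hsub).trans ?_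
  refine (Finset.card_biUnion_le_card_mul _ _ 1 ?_).trans (by simp)
  intro i hi
  rw [Finset.card_le_one]
  intro x hx y hy
  simp only [Finset.mem_filter, Finset.mem_range] at hx hy
  exact fol_inj hlt hinj _ x hx.1 y hy.1
    (fun a ha => h.1.wlt _ hx.2.2.1 _ hx.2.2.2.1 a (List.mem_of_mem_take ha))
    (hx.2.2.2.2.trans hy.2.2.2.2.symm)

theorem card_lets (S : List ((TLv × Wd) × List ℕ)) (v : ℕ) : (∀ p ∈ S, WS n gs F lw p) →
    ((Finset.range n).filter fun x => v ∈ trk n gs (lets n S x) x).card ≤
      S.length * (F * F * lw) := by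
  classical
  induction S with
  | nil => intro _; simp [lets, trk]
  | cons p S ih =>
    intro h
    have hp := h p (by simp)
    have h2 := ih (fun q hq => h q (by simp [hq]))
    have hsub : ((Finset.range n).filter fun x => v ∈ trk n gs (lets n (p :: S) x) x) ⊆
        ((Finset.range n).filter fun x =>
          v ∈ trk n gs (wdT p.1.2 (look n p.1.1.2.2 x) (look n p.1.1.2.2 (look n p.2 x))) x) ∪
        ((Finset.range n).filter fun x => v ∈ trk n gs (lets n S (look n p.2 x)) (look n p.2 x)) := by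
      intro x hx
      simp only [Finset.mem_filter, Finset.mem_range, lets, trk_append, List.mem_append] at hx
      rw [hp.fol hx.1] at hx
      simp only [Finset.mem_union, Finset.mem_filter, Finset.mem_range]
      rcases hx.2 with h | h
      · exact .inl ⟨hx.1, h⟩
      · exact .inr ⟨hx.1, h⟩
    have h3 : ((Finset.range n).filter fun x =>
        v ∈ trk n gs (lets n S (look n p.2 x)) (look n p.2 x)).card ≤
        ((Finset.range n).filter fun x => v ∈ trk n gs (lets n S x) x).card := by
      refine Finset.card_le_card_of_injOn (look n p.2) ?_ ?_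
      · intro x hx
        simp only [Finset.coe_filter, Finset.mem_range, Set.mem_ofPred_eq] at hx ⊢
        exact ⟨hp.2.lt x hx.1, hx.2⟩
      · intro x hx y hy e
        simp only [Finset.coe_filter, Finset.mem_range, Set.mem_ofPred_eq] at hx hy
        exact hp.2.inj x hx.1 y hy.1 e
    have h4 := card_step hlt hinj hp v
    refine (Finset.card_le_card hsub).trans ((Finset.card_union_le _ _).trans ?_)
    rw [List.length_cons, Nat.add_mul, Nat.one_mul]
    omega

end word

/-! ### the path system -/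

/-- hypotheses on moves, tower and words -/
structure WOK (n : ℕ) (gs : List (List ℕ)) (F lw : ℕ) (Ls : List (TLv × Wd)) : Prop where
  tower : TowerP n [] (Ls.map Prod.fst)
  glt : ∀ g ∈ gs, ∀ x < n, look n g x < n
  ginj : ∀ g ∈ gs, ∀ x < n, ∀ y < n, look n g x = look n g y → x = y
  fle : ∀ L ∈ Ls, fl n L.1 ≤ F
  wlt : ∀ L ∈ Ls, ∀ c < fl n L.1, ∀ d < fl n L.1, ∀ a ∈ wdT L.2 c d, a < gs.length
  wlen : ∀ L ∈ Ls, ∀ c < fl n L.1, ∀ d < fl n L.1, (wdT L.2 c d).length ≤ lw
  wto : ∀ L ∈ Ls, ∀ x < n, ∀ d < fl n L.1,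
    fol n gs (wdT L.2 ((lv n L.1).dg x) d) x = at' (fl n L.1) (lv n L.1) x d

theorem tower_lvOK {n : ℕ} : ∀ (ls : List TLv) (U : List (ℕ → ℕ)), TowerP n U ls → ∀ L ∈ ls,
    0 < fl n L ∧ LvOK n (fl n L) [] (lv n L) := by
  intro ls
  induction ls with
  | nil => intro U _ L hL; simp at hL
  | cons L0 ls ih =>
    intro U h L hL
    rcases List.mem_cons.1 hL with rfl | hL
    · exact ⟨h.1, ⟨h.2.1.lt, h.2.1.dlt, h.2.1.dnx, h.2.1.cyc, by simp⟩⟩
    · exact ih _ h.2.2 L hL

theorem flatL_eq (ls : List TLv) : flatL ls = ls ++ ls.reverse := by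
  induction ls with
  | nil => rfl
  | cons L ls ih => simp [flatL, ih]

section main

variable {n : ℕ} {gs : List (List ℕ)} {F lw : ℕ} {Ls : List (TLv × Wd)} {ws : List (ℕ × ℕ)}

theorem WOK.wl (h : WOK n gs F lw Ls) : ∀ L ∈ Ls, WL n gs F lw L := by
  intro L hL
  obtain ⟨h1, h2⟩ := tower_lvOK _ _ h.tower L.1 (List.mem_map.2 ⟨L, hL, rfl⟩)
  exact ⟨h1, h2, h.fle L hL, h.wlt L hL, h.wlen L hL, h.wto L hL⟩

theorem stepsP_ok (h : WOK n gs F lw Ls) (hw : PInj n ws) :
    (∀ p ∈ stepsP Ls (routeWP n (Ls.map Prod.fst) ws), WS n gs F lw p) ∧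
    (stepsP Ls (routeWP n (Ls.map Prod.fst) ws)).map Prod.snd = routeWP n (Ls.map Prod.fst) ws ∧
    (stepsP Ls (routeWP n (Ls.map Prod.fst) ws)).length = 2 * Ls.length := by
  obtain ⟨h1, h2, h3⟩ := routeWP_spec h.tower hw
  have hl : (Ls ++ Ls.reverse).length = (routeWP n (Ls.map Prod.fst) ws).length := by
    rw [h1]; simp; omega
  refine ⟨?_, ?_, ?_⟩
  · intro p hp
    unfold stepsP at hp
    refine ⟨?_, ?_⟩
    · have := List.of_mem_zip (a := p.1) (b := p.2) hp
      apply h.wl
      have h4 := this.1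
      simpa using h4
    · rw [flatL_eq] at h2
      have e : (Ls.map Prod.fst) ++ (Ls.map Prod.fst).reverse = (Ls ++ Ls.reverse).map Prod.fst := by
        simp
      rw [e, List.forall₂_map_left_iff] at h2
      obtain ⟨_, h5⟩ := List.forall₂_iff_zip.1 h2
      exact h5 (a := p.1) (b := p.2) hp
  · unfold stepsP
    exact List.map_snd_zip hl.ge
  · unfold stepsP
    rw [List.length_zip, ← hl, min_self]
    simp; omega

/-- **The path system.** -/
theorem pathsP_spec (h : WOK n gs F lw Ls) (hw : PInj n ws) :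
    List.Forall₂ (fun w p => p.head? = some w.1 ∧ p.getLast? = some w.2) ws
      (pathsP n gs Ls ws) ∧
    (∀ p ∈ pathsP n gs Ls ws, p.IsChain (Stp n gs) ∧ (∀ v ∈ p, v < n) ∧
      p.length ≤ 2 * Ls.length * lw + 1) ∧
    ∀ v, ((pathsP n gs Ls ws).filter fun p => decide (v ∈ p)).length ≤
      2 * Ls.length * (F * F * lw) + 1 := by
  classical
  obtain ⟨s1, s2, s3⟩ := stepsP_ok h hw
  obtain ⟨r1, r2, r3⟩ := routeWP_spec h.tower hw
  set S := stepsP Ls (routeWP n (Ls.map Prod.fst) ws) with hS
  have hP : pathsP n gs Ls ws = ws.map fun w => w.1 :: trk n gs (lets n S w.1) w.1 := by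
    unfold pathsP
    apply List.map_congr_left
    intro w _
    rw [walkW_eq, letters_eq]
  refine ⟨?_, ?_, ?_⟩
  · rw [hP, List.forall₂_map_right_iff, List.forall₂_same]
    intro w hww
    refine ⟨rfl, ?_⟩
    rw [trk_last, lets_fol S s1 _ (hw.lt1 w hww), s2]
    have := r3 w.1 w.2 hww
    unfold posP at this
    have e : (routeWP n (Ls.map Prod.fst) ws).take (2 * (Ls.map Prod.fst).length) =
        routeWP n (Ls.map Prod.fst) ws := by rw [← r1, List.take_length]
    rw [e] at this
    rw [this]
  · intro p hp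
    rw [hP, List.mem_map] at hp
    obtain ⟨w, hww, rfl⟩ := hp
    have hx := hw.lt1 w hww
    have hl := lets_lt S s1 _ hx
    refine ⟨trk_chain _ _ hl, ?_, ?_⟩
    · intro v hv
      rcases List.mem_cons.1 hv with rfl | hv
      · exact hx
      · exact trk_lt h.glt _ _ hx hl v hv
    · have := lets_len S s1 _ hx
      rw [List.length_cons, trk_length, ← s3]
      omega
  · intro v
    have h1 := card_lets h.glt h.ginj S v s1
    rw [s3] at h1
    rw [hP, List.filter_map, List.length_map]
    -- sources are different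
    set A := ws.filter ((fun p => decide (v ∈ p)) ∘ fun w =>
      w.1 :: trk n gs (lets n S w.1) w.1) with hA
    have hnd : (A.map Prod.fst).Nodup :=
      hw.nd1.sublist (List.Sublist.map _ List.filter_sublist)
    have h2 : (A.map Prod.fst).toFinset ⊆
        insert v ((Finset.range n).filter fun x => v ∈ trk n gs (lets n S x) x) := by
      intro x hx
      simp only [List.mem_toFinset, List.mem_map, hA, List.mem_filter, Function.comp_apply,
        decide_eq_true_eq, List.mem_cons] at hx
      obtain ⟨w, ⟨hww, hv⟩, rfl⟩ := hx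
      simp only [Finset.mem_insert, Finset.mem_filter, Finset.mem_range]
      rcases hv with hv | hv
      · exact .inl hv.symm
      · exact .inr ⟨hw.lt1 w hww, hv⟩
    have h3 := Finset.card_le_card h2
    rw [List.toFinset_card_of_nodup hnd, List.length_map] at h3
    have h4 := Finset.card_insert_le v
      ((Finset.range n).filter fun x => v ∈ trk n gs (lets n S x) x)
    omega

end main

end Crest.Agent.R289.Paths992
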