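import Crest.Agent.R289.Mem_12
import Crest.Agent.R289.PubBits_92

/-!
# Row 289, block E: tables of the clock words (helper234)

* `clN p m ρ t w` : symbol at the position `t` of the unit number `w` (`m` positions, public
  coordinate `< ρ`); `clN_spec`, `ptf_clN` (`m`, `t` unary);
* `tab_clk` : relative table of `Clock311.clk (t i) (e i u)` for any family of clock coordinates
  which comes from the numbering of the units;
* for members `mem i : Mem h W c0` of `Mem_12`: **`tabF_cw`** (clock word of a value `t i ≤ L`),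
  **`tabF_pc`** : the public symbols `(cw 0 u, cw L u)` (`Pc = ZMod 3 × ZMod 3`).
-/

set_option autoImplicit false
set_option linter.unusedSectionVars false

namespace Crest.Agent.R289.PcTab234

open Crest.Agent.Lib.PT Crest.Agent.R289.GkIdx594 Crest.Agent.R289.YIdx901
open Crest.Agent.R289.ClockPT484 Crest.Agent.R289.PubBits92

section num

variable {p : ℕ} [NeZero p]

/-- clock symbol at the position `t` of the unit number `w` -/
noncomputable def clN (p : ℕ) [NeZero p] (m ρ t w : ℕ) : ZMod p :=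
  (digs (ZMod p) m (cX (qK (ZMod p) ^ m) ρ w)).getD t 0

theorem clN_eC {m ρ : ℕ} (t : Fin m) (v : Clock311.U p m (Fin ρ)) :
    clN p m ρ (t : ℕ) (eC (ZMod p) m (Equiv.refl (Fin ρ)) v : Fin _) = Clock311.clk t v := by
  unfold clN
  rw [cX_eC]
  unfold iV
  rw [digs_eY, List.getD_eq_getElem _ _ (by simp)]
  simp [Clock311.clk]

theorem ptf_clN {α : Type} [PTCode α] [PTCode (ZMod p)] {m ρ t w : α → ℕ} (hm : PTU m)
    (hρ : PTF ρ) (ht : PTU t) (hw : PTF w) : PTF (fun a => clN p (m a) (ρ a) (t a) (w a)) := by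
  unfold clN
  exact PTF.getD ht (ptf_digs hm (ptf_cX (ptf_pw (ZMod p) hm) hρ hw)) (PTF.const 0)

end num

section family

variable {ι α : Type} [PTCode α] {raw : ι → α} {p : ℕ} [NeZero p] {U : ι → Type} {N : α → ℕ}
  {e : ∀ i, U i ≃ Fin (N (raw i))}

/-- **table of the clock symbol at a position** -/
theorem tab_clk [PTCode (ZMod p)] {nn ρ : ι → ℕ}
    {ee : ∀ i, U i ≃ Clock311.U p (nn i) (Fin (ρ i))}
    (hv : ∀ i u, ((e i u : Fin _) : ℕ) =
      (eC (ZMod p) (nn i) (Equiv.refl (Fin (ρ i))) (ee i u) : Fin _))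
    {mN ρN tN : α → ℕ} (hm : PTU mN) (hmN : ∀ i, mN (raw i) = nn i) (hρ : PTF ρN)
    (hρN : ∀ i, ρN (raw i) = ρ i) (ht : PTU tN) {t : ∀ i, Fin (nn i)}
    (htN : ∀ i, tN (raw i) = (t i : ℕ)) :
    Tab raw e (fun i u => Clock311.clk (t i) (ee i u)) := by
  refine ⟨fun a w => clN p (mN a) (ρN a) (tN a) w, ?_, fun i u => ?_⟩
  · exact ptf_clN (m := fun q : α × ℕ => mN q.1) (ρ := fun q => ρN q.1) (t := fun q => tN q.1)
      (PTU.comp hm PTF.fst) (PTF.comp hρ PTF.fst) (PTU.comp ht PTF.fst) PTF.snd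
  · show clN p (mN (raw i)) (ρN (raw i)) (tN (raw i)) _ = _
    rw [hmN, hρN, htN, hv]
    exact clN_eC (t i) (ee i u)

end family

section member

open Crest.Agent.R289.Mem12 Crest.Agent.R289.Asm12 Crest.Agent.R289.ClockE698

variable {D : Obj} {M0 : ℕ} {lam0 Kr : ℝ} {h : D.OK M0 lam0 Kr} {W c0 : ℕ}
  {ι α : Type} [PTCode α] {raw : ι → α} {N : α → ℕ}

/-- the clock coordinates and the numbering of the units -/
theorem ee_val (i : Mem h W c0) (u : i.I.U) :
    ((ixU i.siz (D.ix i.kP) (D.ix i.kR) (D.ix i.kT) u : Fin _) : ℕ) =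
      (eC (ZMod 3) (i.I.L + 1) (Equiv.refl (Fin i.siz.rho)) (i.e u) : Fin _) :=
  (recode_val (ZMod 3) (i.P.L + 1) i.siz.nU_eq
    (ixU i.siz (D.ix i.kP) (D.ix i.kR) (D.ix i.kT)) u).symm

/-- **table of the clock word of a value** -/
theorem tabF_cw (mem : ι → Mem h W c0) {e : ∀ i, (mem i).I.U ≃ Fin (N (raw i))}
    (he : ∀ i u, ((e i u : Fin _) : ℕ) = (ixU (mem i).siz (D.ix (mem i).kP) (D.ix (mem i).kR)
      (D.ix (mem i).kT) u : Fin _))
    {LN ρN tN : α → ℕ} (hL : PTU LN) (hLN : ∀ i, LN (raw i) = (mem i).I.L) (hρ : PTF ρN)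
    (hρN : ∀ i, ρN (raw i) = (mem i).siz.rho) {t : ι → ℕ} (ht : PTU tN)
    (htN : ∀ i, tN (raw i) = t i) (htL : ∀ i, t i ≤ (mem i).I.L) :
    TabF raw e (fun i u => (mem i).cw (t i) u) := by
  let _ : PTCode (ZMod 3) := cd (ZMod 3)
  refine TabF.ofTab ?_
  refine tab_clk (p := 3) (nn := fun i => (mem i).I.L + 1) (ρ := fun i => (mem i).siz.rho)
    (ee := fun i => (mem i).e) (fun i u => (he i u).trans (ee_val (mem i) u))
    (mN := fun a => LN a + 1) (PTU.add hL (PTU.const 1)) (fun i => by rw [hLN]) hρ hρN ht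
    (t := fun i => ClkTD766.pos (mem i).I.L (t i)) fun i => ?_
  rw [htN, ClkTD766.pos_val (htL i)]

/-- **table of the public clock symbols** -/
theorem tabF_pc (mem : ι → Mem h W c0) {e : ∀ i, (mem i).I.U ≃ Fin (N (raw i))}
    (he : ∀ i u, ((e i u : Fin _) : ℕ) = (ixU (mem i).siz (D.ix (mem i).kP) (D.ix (mem i).kR)
      (D.ix (mem i).kT) u : Fin _))
    {LN ρN : α → ℕ} (hL : PTU LN) (hLN : ∀ i, LN (raw i) = (mem i).I.L) (hρ : PTF ρN)
    (hρN : ∀ i, ρN (raw i) = (mem i).siz.rho) :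
    TabF raw e (fun i u => ((mem i).cw 0 u, (mem i).cw (mem i).I.L u)) :=
  (tabF_cw mem he hL hLN hρ hρN (t := fun _ => 0) (PTU.const 0) (fun _ => rfl)
    fun _ => Nat.zero_le _).pair
  (tabF_cw mem he hL hLN hρ hρN (t := fun i => (mem i).I.L) hL hLN fun _ => le_rfl)

/-- the value `rho` from the exponents -/
theorem ptf_rho {a b t LN : α → ℕ} (ha : PTU a) (hb : PTU b) (ht : PTU t) (hL : PTU LN) :
    PTF (fun x => 3 ^ (a x - 3 * (LN x + 1)) * 3 ^ b x * 3 ^ t x) :=
  PTF.natMul (PTF.natMul (PTF.natPow (PTF.const _) (PTU.sub ha (PTU.mul (PTU.const 3)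
    (PTU.add hL (PTU.const 1))))) (PTF.natPow (PTF.const _) hb)) (PTF.natPow (PTF.const _) ht)

end member

end Crest.Agent.R289.PcTab234
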