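import Mathlib

/-!
Row 289, block A (helper898): the scaling sum of helper605's rank-one formula (post 5993 (2),
6164 (1)).  `K` finite, `card K = q^2`.  For affine forms `L`, `M` in `c, c^q, d, d^q`
`∑ c, ∑ d, (c d L M)^(q-1) = (l2 m4 - l4 m2)^(q-1)`.
-/

set_option autoImplicit false

namespace Crest.Agent.R289.PhiSum898

open Finset

variable {K : Type*} [Field K]

/-- monomials in `c, c^q, d, d^q` -/
def mo (q i j k l : ℕ) : K → K → K := fun c d => c ^ i * (c ^ q) ^ j * d ^ k * (d ^ q) ^ l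

/-- degree at most `n` -/
def Dg (K : Type*) [Field K] (q n : ℕ) : Submodule K (K → K → K) :=
  Submodule.span K {f | ∃ i j k l, i + j + k + l ≤ n ∧ f = mo q i j k l}

/-- degree at most `n`, and smaller than `n` or a positive power of `c` or `d` -/
def Bd (K : Type*) [Field K] (q n : ℕ) : Submodule K (K → K → K) :=
  Submodule.span K {f | ∃ i j k l, i + j + k + l ≤ n ∧ (i + j + k + l < n ∨ 0 < i ∨ 0 < k) ∧
    f = mo q i j k l}

theorem mo_mul (q i j k l i' j' k' l' : ℕ) :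
    (mo q i j k l : K → K → K) * mo q i' j' k' l' = mo q (i + i') (j + j') (k + k') (l + l') := by
  funext c d
  simp only [Pi.mul_apply, mo, pow_add]
  ring

theorem Dg_mul {q a b : ℕ} {f g : K → K → K} (hf : f ∈ Dg K q a) (hg : g ∈ Dg K q b) :
    f * g ∈ Dg K q (a + b) := by
  have h : f * g ∈ Dg K q a * Dg K q b := Submodule.mul_mem_mul hf hg
  revert h
  apply SetLike.le_def.1
  unfold Dg
  rw [Submodule.span_mul_span]
  refine Submodule.span_mono ?_
  rintro _ ⟨_, ⟨i, j, k, l, h1, rfl⟩, _, ⟨i', j', k', l', h2, rfl⟩, rfl⟩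
  exact ⟨_, _, _, _, by omega, mo_mul q i j k l i' j' k' l'⟩

theorem Bd_mul {q a b : ℕ} {f g : K → K → K} (hf : f ∈ Bd K q a) (hg : g ∈ Dg K q b) :
    f * g ∈ Bd K q (a + b) := by
  have h : f * g ∈ Bd K q a * Dg K q b := Submodule.mul_mem_mul hf hg
  revert h
  apply SetLike.le_def.1
  unfold Bd Dg
  rw [Submodule.span_mul_span]
  refine Submodule.span_mono ?_
  rintro _ ⟨_, ⟨i, j, k, l, h1, h1', rfl⟩, _, ⟨i', j', k', l', h2, rfl⟩, rfl⟩
  exact ⟨_, _, _, _, by omega, by omega, mo_mul q i j k l i' j' k' l'⟩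

theorem Bd_le_Dg (q n : ℕ) : Bd K q n ≤ Dg K q n := by
  unfold Bd Dg
  refine Submodule.span_mono ?_
  rintro _ ⟨i, j, k, l, h1, -, rfl⟩
  exact ⟨i, j, k, l, h1, rfl⟩

theorem one_mem_Dg (q : ℕ) : (1 : K → K → K) ∈ Dg K q 0 :=
  Submodule.subset_span ⟨0, 0, 0, 0, by omega, by funext c d; simp [mo]⟩

theorem pow_mem_Dg {q a : ℕ} {f : K → K → K} (hf : f ∈ Dg K q a) (n : ℕ) :
    f ^ n ∈ Dg K q (n * a) := by
  induction n with
  | zero => simpa using one_mem_Dg q
  | succ n ih =>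
    have := Dg_mul ih hf
    rw [pow_succ, show (n + 1) * a = n * a + a by ring]
    exact this

/-- changing a factor by a bad element changes a power by a bad element -/
theorem pow_sub_pow_mem {q a : ℕ} {f g : K → K → K} (hf : f ∈ Dg K q a) (hg : g ∈ Dg K q a)
    (hfg : f - g ∈ Bd K q a) (n : ℕ) (hn : 0 < n) : f ^ n - g ^ n ∈ Bd K q (n * a) := by
  rw [← (Commute.all f g).mul_geom_sum₂ n]
  have h1 : ∑ i ∈ range n, f ^ i * g ^ (n - 1 - i) ∈ Dg K q ((n - 1) * a) := by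
    refine Submodule.sum_mem _ fun i hi => ?_
    have hi := Finset.mem_range.1 hi
    have := Dg_mul (pow_mem_Dg hf i) (pow_mem_Dg hg (n - 1 - i))
    rw [← Nat.add_mul, show i + (n - 1 - i) = n - 1 by omega] at this
    exact this
  have := Bd_mul hfg h1
  rw [show a + (n - 1) * a = n * a by
    obtain ⟨m, rfl⟩ : ∃ m, n = m + 1 := ⟨n - 1, by omega⟩
    simp; ring] at this
  exact this

/-- arithmetic core -/
theorem arith (r i j : ℕ) (hr : 0 < r) (hij : i + j ≤ 2 * r)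
    (hd : r * (r + 2) ∣ r + i + (r + 1) * j) : r ≤ i + j ∧ (i + j = r → i = 0 ∧ j = r) := by
  obtain ⟨k, hk⟩ := hd
  have h1 : r ∣ i + j := by
    have h2 : (i + j) + r * (1 + j) = r * ((r + 2) * k) := by
      have : r + i + (r + 1) * j = (i + j) + r * (1 + j) := by ring
      rw [← this, hk]; ring
    exact (Nat.dvd_add_iff_left (Dvd.intro _ rfl)).2 ⟨_, h2⟩
  have hk0 : 0 < k := by
    rcases Nat.eq_zero_or_pos k with h0 | h0
    · subst h0
      simp at hk
      omega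
    · exact h0
  obtain ⟨c, hc⟩ := h1
  have hc0 : c ≠ 0 := by
    rintro rfl
    have h3 : i = 0 := by simp at hc; exact hc.1
    have h4 : j = 0 := by simp at hc; exact hc.2
    subst h3 h4
    have : r * 1 = r * ((r + 2) * k) := by
      have : r + 0 + (r + 1) * 0 = r * 1 := by ring
      rw [← this, hk]; ring
    have h5 : 1 = (r + 2) * k := Nat.eq_of_mul_eq_mul_left hr this
    have : (r + 2) * 1 ≤ (r + 2) * k := Nat.mul_le_mul_left _ hk0
    omega
  refine ⟨?_, ?_⟩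
  · rw [hc]
    exact Nat.le_mul_of_pos_right r (Nat.pos_of_ne_zero hc0)
  · intro hir
    have h3 : r * (2 + j) = r * ((r + 2) * k) := by
      have : r + i + (r + 1) * j = r * (2 + j) := by
        have h4 : i = r - j := by omega
        have h5 : j ≤ r := by omega
        have : r + i + (r + 1) * j = r + (i + j) + r * j := by ring
        rw [this, hir]; ring
      rw [← this, hk]; ring
    have h5 : 2 + j = (r + 2) * k := Nat.eq_of_mul_eq_mul_left hr h3
    have : (r + 2) * 1 ≤ (r + 2) * k := Nat.mul_le_mul_left _ hk0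
    omega

section fin

variable [Fintype K]

theorem sum_pow_of_not_dvd (N : ℕ) (hN : ¬ (Fintype.card K - 1 ∣ N)) :
    ∑ a : K, a ^ N = 0 := by
  classical
  have hN0 : N ≠ 0 := fun h => hN (h ▸ dvd_zero _)
  have h1 := FiniteField.sum_pow_units K N
  rw [if_neg hN] at h1
  have h2 : ∑ a : K, a ^ N = ∑ a ∈ univ.filter (fun a : K => a ≠ 0), a ^ N := by
    rw [Finset.sum_filter]
    refine Finset.sum_congr rfl fun a _ => ?_
    by_cases ha : a = 0
    · simp [ha, hN0]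
    · simp [ha]
  refine h2.trans (Eq.trans ?_ h1)
  symm
  refine Finset.sum_bij (fun (u : Kˣ) _ => (u : K)) ?_ ?_ ?_ ?_
  · intro u _; simp
  · intro u _ v _ h; exact Units.ext h
  · intro b hb
    simp only [mem_filter, mem_univ, true_and] at hb
    exact ⟨Units.mk0 b hb, mem_univ _, rfl⟩
  · intro u _; simp

theorem sum_pow_card_sub_one : ∑ a : K, a ^ (Fintype.card K - 1) = -1 := by
  classical
  have h : ∀ a : K, a ^ (Fintype.card K - 1) = if a = 0 then 0 else 1 := by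
    intro a
    by_cases ha : a = 0
    · subst ha
      rw [if_pos rfl, zero_pow]
      have := Fintype.one_lt_card (α := K)
      omega
    · rw [if_neg ha, FiniteField.pow_card_sub_one_eq_one a ha]
  simp only [h]
  have : ∀ a : K, (if a = 0 then (0 : K) else 1) = 1 - if a = 0 then 1 else 0 := by
    intro a
    by_cases ha : a = 0 <;> simp [ha]
  simp only [this, Finset.sum_sub_distrib, Finset.sum_ite_eq', Finset.mem_univ, if_true,
    Finset.sum_const, Finset.card_univ, nsmul_eq_mul, mul_one, FiniteField.cast_card_eq_zero,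
    zero_sub]

/-- the functional -/
def T (K : Type*) [Field K] [Fintype K] (q : ℕ) : (K → K → K) →ₗ[K] K where
  toFun f := ∑ c : K, ∑ d : K, (c * d) ^ (q - 1) * f c d
  map_add' f g := by
    simp only [Pi.add_apply, mul_add, Finset.sum_add_distrib]
  map_smul' a f := by
    simp only [Pi.smul_apply, smul_eq_mul, RingHom.id_apply, Finset.mul_sum]
    refine Finset.sum_congr rfl fun c _ => Finset.sum_congr rfl fun d _ => ?_
    ring

theorem T_mo (q i j k l : ℕ) : T K q (mo q i j k l)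
    = (∑ c : K, c ^ (q - 1 + i + q * j)) * ∑ d : K, d ^ (q - 1 + k + q * l) := by
  rw [Finset.sum_mul_sum]
  refine Finset.sum_congr rfl fun c _ => Finset.sum_congr rfl fun d _ => ?_
  simp only [mo, mul_pow, pow_add, pow_mul]
  ring

theorem T_mo_zero {q i j k l : ℕ} (hq : 2 ≤ q) (hK : Fintype.card K = q ^ 2)
    (h : i + j + k + l ≤ 2 * (q - 1))
    (hne : ¬ (i = 0 ∧ j = q - 1 ∧ k = 0 ∧ l = q - 1)) : T K q (mo q i j k l) = 0 := by
  obtain ⟨r, rfl⟩ : ∃ r, q = r + 1 := ⟨q - 1, by omega⟩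
  have hc : Fintype.card K - 1 = r * (r + 2) := by
    rw [hK]
    have : (r + 1) ^ 2 = r * (r + 2) + 1 := by ring
    omega
  rw [T_mo]
  simp only [Nat.add_sub_cancel] at h hne ⊢
  by_cases h1 : Fintype.card K - 1 ∣ r + i + (r + 1) * j
  · by_cases h2 : Fintype.card K - 1 ∣ r + k + (r + 1) * l
    · exfalso
      rw [hc] at h1 h2
      have a1 := arith r i j (by omega) (by omega) h1
      have a2 := arith r k l (by omega) (by omega) h2
      have e1 : i + j = r := by omega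
      have e2 : k + l = r := by omega
      have b1 := a1.2 e1
      have b2 := a2.2 e2
      exact hne ⟨b1.1, b1.2, b2.1, b2.2⟩
    · rw [sum_pow_of_not_dvd _ h2, mul_zero]
  · rw [sum_pow_of_not_dvd _ h1, zero_mul]

theorem T_mo_top {q : ℕ} (hq : 2 ≤ q) (hK : Fintype.card K = q ^ 2) :
    T K q (mo q 0 (q - 1) 0 (q - 1)) = 1 := by
  rw [T_mo]
  have : q - 1 + 0 + q * (q - 1) = Fintype.card K - 1 := by
    rw [hK]
    obtain ⟨r, rfl⟩ : ∃ r, q = r + 1 := ⟨q - 1, by omega⟩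
    have : (r + 1) ^ 2 = (r + 1 - 1 + 0 + (r + 1) * (r + 1 - 1)) + 1 := by
      simp only [Nat.add_sub_cancel]
      ring
    omega
  rw [this, sum_pow_card_sub_one]
  ring

theorem T_bad {q : ℕ} (hq : 2 ≤ q) (hK : Fintype.card K = q ^ 2) {f : K → K → K}
    (hf : f ∈ Bd K q (2 * (q - 1))) : T K q f = 0 := by
  unfold Bd at hf
  induction hf using Submodule.span_induction with
  | mem f hf =>
    obtain ⟨i, j, k, l, h1, h2, rfl⟩ := hf
    exact T_mo_zero hq hK h1 (by omega)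
  | zero => exact map_zero _
  | add f g _ _ h1 h2 => rw [map_add, h1, h2, add_zero]
  | smul a f _ h1 => rw [map_smul, h1, smul_zero]

end fin

/-- `(a-b)^(q-1) = ∑ a^i b^(q-1-i)` -/
theorem sub_pow_pred {q : ℕ} (hq : 2 ≤ q) (hq0 : (q : K) = 0)
    (hfr : ∀ a b : K, (a - b) ^ q = a ^ q - b ^ q) (a b : K) :
    (a - b) ^ (q - 1) = ∑ i ∈ range q, a ^ i * b ^ (q - 1 - i) := by
  by_cases hab : a = b
  · subst hab
    have h1 : ∀ i ∈ range q, a ^ i * a ^ (q - 1 - i) = a ^ (q - 1) := by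
      intro i hi
      rw [← pow_add]
      congr 1
      have := Finset.mem_range.1 hi
      omega
    rw [Finset.sum_congr rfl h1, Finset.sum_const, card_range, nsmul_eq_mul, sub_self, hq0,
      zero_mul, zero_pow (by omega)]
  · have h := (Commute.all a b).mul_geom_sum₂ q
    have h2 : (a - b) * (a - b) ^ (q - 1) = a ^ q - b ^ q := by
      rw [← hfr, ← pow_succ', Nat.sub_add_cancel (by omega : 1 ≤ q)]
    exact mul_left_cancel₀ (sub_ne_zero.2 hab) (h2.trans h.symm)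

/-- `(-1)^(q-1) = 1` -/
theorem neg_one_pow_pred {q : ℕ} (hq : 2 ≤ q) (hfr : ∀ a b : K, (a - b) ^ q = a ^ q - b ^ q) :
    (-1 : K) ^ (q - 1) = 1 := by
  have h := hfr 0 1
  rw [zero_sub, zero_pow (by omega), zero_sub, one_pow] at h
  have h2 : (-1 : K) ^ q = (-1) * (-1) ^ (q - 1) := by
    rw [← pow_succ', Nat.sub_add_cancel (by omega : 1 ≤ q)]
  rw [h2] at h
  have h3 : (-1 : K) * (-1) ^ (q - 1) = (-1) * 1 := by rw [h, mul_one]
  exact mul_left_cancel₀ (neg_ne_zero.2 one_ne_zero) h3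

/-- an affine form -/
def aff (q : ℕ) (l0 l1 l2 l3 l4 : K) : K → K → K :=
  fun c d => l0 + l1 * c + l2 * c ^ q + l3 * d + l4 * d ^ q

theorem mo_mem_Dg {q i j k l n : ℕ} (h : i + j + k + l ≤ n) :
    (mo q i j k l : K → K → K) ∈ Dg K q n := Submodule.subset_span ⟨i, j, k, l, h, rfl⟩

theorem mo_mem_Bd {q i j k l n : ℕ} (h : i + j + k + l ≤ n)
    (h' : i + j + k + l < n ∨ 0 < i ∨ 0 < k) :
    (mo q i j k l : K → K → K) ∈ Bd K q n := Submodule.subset_span ⟨i, j, k, l, h, h', rfl⟩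

theorem aff_eq (q : ℕ) (l0 l1 l2 l3 l4 : K) : aff q l0 l1 l2 l3 l4
    = l0 • mo q 0 0 0 0 + l1 • mo q 1 0 0 0 + l2 • mo q 0 1 0 0 + l3 • mo q 0 0 1 0
      + l4 • mo q 0 0 0 1 := by
  funext c d
  simp [aff, mo]

theorem aff_mem (q : ℕ) (l0 l1 l2 l3 l4 : K) : aff q l0 l1 l2 l3 l4 ∈ Dg K q 1 := by
  rw [aff_eq]
  refine Submodule.add_mem _ (Submodule.add_mem _ (Submodule.add_mem _ (Submodule.add_mem _
    ?_ ?_) ?_) ?_) ?_ <;> exact Submodule.smul_mem _ _ (mo_mem_Dg (by omega))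

theorem aff_sub_mem (q : ℕ) (l0 l1 l2 l3 l4 : K) :
    aff q l0 l1 l2 l3 l4 - aff q 0 0 l2 0 l4 ∈ Bd K q 1 := by
  have : aff q l0 l1 l2 l3 l4 - aff q 0 0 l2 0 l4
      = l0 • mo q 0 0 0 0 + l1 • mo q 1 0 0 0 + l3 • mo q 0 0 1 0 := by
    funext c d
    simp [aff, mo]
    ring
  rw [this]
  refine Submodule.add_mem _ (Submodule.add_mem _ ?_ ?_) ?_ <;>
    exact Submodule.smul_mem _ _ (mo_mem_Bd (by omega) (by omega))

variable [Fintype K]

/-- **The scaling sum.** -/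
theorem phi_sum {q : ℕ} (hq : 2 ≤ q) (hK : Fintype.card K = q ^ 2) (hq0 : (q : K) = 0)
    (hfr : ∀ a b : K, (a - b) ^ q = a ^ q - b ^ q)
    (l0 l1 l2 l3 l4 m0 m1 m2 m3 m4 : K) :
    ∑ c : K, ∑ d : K, (c * d * ((l0 + l1 * c + l2 * c ^ q + l3 * d + l4 * d ^ q)
      * (m0 + m1 * c + m2 * c ^ q + m3 * d + m4 * d ^ q))) ^ (q - 1)
      = (l2 * m4 - l4 * m2) ^ (q - 1) := by
  have h0 : ∑ c : K, ∑ d : K, (c * d * ((l0 + l1 * c + l2 * c ^ q + l3 * d + l4 * d ^ q)
      * (m0 + m1 * c + m2 * c ^ q + m3 * d + m4 * d ^ q))) ^ (q - 1)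
      = T K q (aff q l0 l1 l2 l3 l4 ^ (q - 1) * aff q m0 m1 m2 m3 m4 ^ (q - 1)) := by
    refine Finset.sum_congr rfl fun c _ => Finset.sum_congr rfl fun d _ => ?_
    simp only [Pi.mul_apply, Pi.pow_apply, aff, mul_pow]
  -- reduce to the `c^q, d^q` part
  have h1 : T K q (aff q l0 l1 l2 l3 l4 ^ (q - 1) * aff q m0 m1 m2 m3 m4 ^ (q - 1))
      = T K q (aff q 0 0 l2 0 l4 ^ (q - 1) * aff q 0 0 m2 0 m4 ^ (q - 1)) := by
    rw [← sub_eq_zero, ← map_sub]
    apply T_bad hq hK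
    have e : aff q l0 l1 l2 l3 l4 ^ (q - 1) * aff q m0 m1 m2 m3 m4 ^ (q - 1)
        - aff q 0 0 l2 0 l4 ^ (q - 1) * aff q 0 0 m2 0 m4 ^ (q - 1)
        = (aff q l0 l1 l2 l3 l4 ^ (q - 1) - aff q 0 0 l2 0 l4 ^ (q - 1))
            * aff q m0 m1 m2 m3 m4 ^ (q - 1)
          + (aff q m0 m1 m2 m3 m4 ^ (q - 1) - aff q 0 0 m2 0 m4 ^ (q - 1))
            * aff q 0 0 l2 0 l4 ^ (q - 1) := by ring
    have d1 := pow_sub_pow_mem (aff_mem q l0 l1 l2 l3 l4) (aff_mem q 0 0 l2 0 l4)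
      (aff_sub_mem q l0 l1 l2 l3 l4) (q - 1) (by omega)
    have d2 := pow_sub_pow_mem (aff_mem q m0 m1 m2 m3 m4) (aff_mem q 0 0 m2 0 m4)
      (aff_sub_mem q m0 m1 m2 m3 m4) (q - 1) (by omega)
    have g1 := Bd_mul d1 (pow_mem_Dg (aff_mem q m0 m1 m2 m3 m4) (q - 1))
    have g2 := Bd_mul d2 (pow_mem_Dg (aff_mem q 0 0 l2 0 l4) (q - 1))
    have e2 : (q - 1) * 1 + (q - 1) * 1 = 2 * (q - 1) := by ring
    rw [e2] at g1 g2
    rw [e]
    exact Submodule.add_mem _ g1 g2
  rw [h0, h1]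
  -- expand
  have ex : ∀ a b : K, aff q 0 0 a 0 b ^ (q - 1)
      = ∑ i ∈ range q, (a ^ i * (-b) ^ (q - 1 - i)) • (mo q 0 i 0 (q - 1 - i) : K → K → K) := by
    intro a b
    funext c d
    have := sub_pow_pred hq hq0 hfr (a * c ^ q) ((-b) * d ^ q)
    rw [Finset.sum_apply, Finset.sum_apply]
    simp only [Pi.pow_apply, aff, Pi.smul_apply, smul_eq_mul, mo]
    rw [show (0 + 0 * c + a * c ^ q + 0 * d + b * d ^ q : K) = a * c ^ q - (-b) * d ^ q by ring,
      this]
    refine Finset.sum_congr rfl fun i _ => ?_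
    rw [mul_pow, mul_pow]
    ring
  rw [ex l2 l4, ex m2 m4, Finset.sum_mul, map_sum]
  have inner : ∀ i ∈ range q,
      T K q ((l2 ^ i * (-l4) ^ (q - 1 - i)) • (mo q 0 i 0 (q - 1 - i) : K → K → K)
        * ∑ j ∈ range q, (m2 ^ j * (-m4) ^ (q - 1 - j)) • (mo q 0 j 0 (q - 1 - j) : K → K → K))
      = (l2 * m4) ^ i * (l4 * m2) ^ (q - 1 - i) := by
    intro i hi
    have hi := Finset.mem_range.1 hi
    rw [Finset.mul_sum, map_sum, Finset.sum_eq_single (q - 1 - i)]
    · rw [smul_mul_smul_comm, mo_mul, map_smul, Nat.add_zero,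
        show i + (q - 1 - i) = q - 1 by omega,
        show q - 1 - i + (q - 1 - (q - 1 - i)) = q - 1 by omega, T_mo_top hq hK, smul_eq_mul,
        mul_one, show q - 1 - (q - 1 - i) = i by omega]
      have hneg : ((-1 : K)) ^ (q - 1 - i) * (-1) ^ i = 1 := by
        rw [← pow_add, show q - 1 - i + i = q - 1 by omega]
        exact neg_one_pow_pred hq hfr
      calc l2 ^ i * (-l4) ^ (q - 1 - i) * (m2 ^ (q - 1 - i) * (-m4) ^ i)
          = ((-1) ^ (q - 1 - i) * (-1) ^ i) * ((l2 * m4) ^ i * (l4 * m2) ^ (q - 1 - i)) := by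
            rw [neg_pow l4, neg_pow m4, mul_pow, mul_pow]
            ring
        _ = _ := by rw [hneg, one_mul]
    · intro j hj hji
      have hj := Finset.mem_range.1 hj
      rw [smul_mul_smul_comm, mo_mul, map_smul, T_mo_zero hq hK (by omega) (by omega),
        smul_zero]
    · intro h
      exact absurd (Finset.mem_range.2 (by omega)) h
  rw [Finset.sum_congr rfl inner, sub_pow_pred hq hq0 hfr]

end Crest.Agent.R289.PhiSum898
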