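import Mathlib

/-!
Row 289, block C, content level (helper794): the VERIFIED POINTER (C2a of post 5496).

`vis 0, .., vis L` are distinct visits of a walk.  `D` = delta of the current visit, `M` = prefix
(visits before the current one).  The static relations (all of degree <= 2, all local along the
walk) hold iff `(D, M)` is the state of a unique time `t <= L`; one step of the pointer, forward
and backward, is given by sums over the local steps.
-/

set_option autoImplicit false

namespace Crest.Agent.R289.Pointer794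

open Classical

variable {V K : Type*} [Field K]

/-- the delta at time `t` -/
noncomputable def del (vis : ℕ → V) (t : ℕ) : V → K := fun v => if v = vis t then 1 else 0

/-- the prefix at time `t` -/
noncomputable def pre (vis : ℕ → V) (t : ℕ) : V → K := fun v => if ∃ s, s < t ∧ v = vis s then 1 else 0

/-- injectivity of the visits -/
def Inj (L : ℕ) (vis : ℕ → V) : Prop := ∀ s t, s ≤ L → t ≤ L → vis s = vis t → s = t

/-- the static relations -/
structure Rel (L : ℕ) (vis : ℕ → V) (D M : V → K) : Prop where
  hD : ∀ v, D v * D v = D v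
  hM : ∀ v, M v * M v = M v
  hDM : ∀ v, D v * M v = 0
  offD : ∀ v, (¬ ∃ s, s ≤ L ∧ v = vis s) → D v = 0
  offM : ∀ v, (¬ ∃ s, s ≤ L ∧ v = vis s) → M v = 0
  first : M (vis 0) + D (vis 0) = 1
  last : M (vis L) = 0
  step : ∀ s, s < L → M (vis s) = M (vis (s + 1)) + D (vis (s + 1))

theorem del_vis {L : ℕ} {vis : ℕ → V} (hi : Inj L vis) {s t : ℕ} (hs : s ≤ L) (ht : t ≤ L) :
    (del vis t (vis s) : K) = if s = t then 1 else 0 := by
  unfold del
  by_cases h : s = t
  · subst h; simp
  · rw [if_neg h, if_neg]
    intro h'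
    exact h (hi s t hs ht h')

theorem pre_vis {L : ℕ} {vis : ℕ → V} (hi : Inj L vis) {s t : ℕ} (hs : s ≤ L) (ht : t ≤ L) :
    (pre vis t (vis s) : K) = if s < t then 1 else 0 := by
  unfold pre
  by_cases h : s < t
  · rw [if_pos h, if_pos ⟨s, h, rfl⟩]
  · rw [if_neg h, if_neg]
    rintro ⟨r, hr, h'⟩
    exact h (by rw [hi s r hs (by omega) h']; exact hr)

theorem del_off {L : ℕ} {vis : ℕ → V} {t : ℕ} (ht : t ≤ L) {v : V}
    (hv : ¬ ∃ s, s ≤ L ∧ v = vis s) : (del vis t v : K) = 0 := by
  unfold del
  rw [if_neg]
  rintro rfl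
  exact hv ⟨t, ht, rfl⟩

theorem pre_off {L : ℕ} {vis : ℕ → V} {t : ℕ} (ht : t ≤ L) {v : V}
    (hv : ¬ ∃ s, s ≤ L ∧ v = vis s) : (pre vis t v : K) = 0 := by
  unfold pre
  rw [if_neg]
  rintro ⟨s, hs, rfl⟩
  exact hv ⟨s, by omega, rfl⟩

/-- every state satisfies the relations -/
theorem rel_state {L : ℕ} {vis : ℕ → V} (hi : Inj L vis) {t : ℕ} (ht : t ≤ L) :
    Rel L vis (del vis t : V → K) (pre vis t) where
  hD := fun v => by unfold del; split_ifs <;> simp
  hM := fun v => by unfold pre; split_ifs <;> simp
  hDM := fun v => by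
    unfold del pre
    split_ifs with h1 h2
    · exfalso
      obtain ⟨s, hs, h⟩ := h2
      have := hi t s ht (by omega) (h1 ▸ h)
      omega
    · simp
    · simp
    · simp
  offD := fun v hv => del_off ht hv
  offM := fun v hv => pre_off ht hv
  first := by
    rw [pre_vis hi (Nat.zero_le _) ht, del_vis hi (Nat.zero_le _) ht]
    by_cases h : t = 0
    · subst h; simp
    · rw [if_pos (by omega), if_neg (by omega)]; simp
  last := by
    rw [pre_vis hi le_rfl ht, if_neg (by omega)]
  step := fun s hs => by
    rw [pre_vis hi (by omega) ht, pre_vis hi (by omega) ht, del_vis hi (by omega) ht]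
    by_cases h1 : s + 1 < t
    · rw [if_pos (by omega), if_pos h1, if_neg (by omega)]; simp
    · by_cases h2 : s + 1 = t
      · rw [if_pos (by omega), if_neg h1, if_pos h2]; simp
      · rw [if_neg (by omega), if_neg h1, if_neg h2]; simp

/-- **C2a.** the relations hold iff `(D, M)` is the state of a time `t <= L` -/
theorem rel_iff {L : ℕ} {vis : ℕ → V} (hi : Inj L vis) (D M : V → K) :
    Rel L vis D M ↔ ∃ t, t ≤ L ∧ D = del vis t ∧ M = pre vis t := by
  constructor
  · intro h
    have bD : ∀ v, D v = 0 ∨ D v = 1 := fun v => by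
      have := h.hD v
      rcases mul_eq_zero.1 (show D v * (D v - 1) = 0 by rw [mul_sub, this]; ring) with h0 | h0
      · exact Or.inl h0
      · exact Or.inr (sub_eq_zero.1 h0)
    have bM : ∀ v, M v = 0 ∨ M v = 1 := fun v => by
      have := h.hM v
      rcases mul_eq_zero.1 (show M v * (M v - 1) = 0 by rw [mul_sub, this]; ring) with h0 | h0
      · exact Or.inl h0
      · exact Or.inr (sub_eq_zero.1 h0)
    -- once `M = 0`, everything after is `0`
    have dead1 : ∀ s, s < L → M (vis s) = 0 → M (vis (s + 1)) = 0 ∧ D (vis (s + 1)) = 0 := by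
      intro s hs h0
      have e := h.step s hs
      rw [h0] at e
      have dm := h.hDM (vis (s + 1))
      rcases bM (vis (s + 1)) with hm | hm
      · rw [hm, zero_add] at e
        exact ⟨hm, e.symm⟩
      · exfalso
        rw [hm, mul_one] at dm
        rw [hm, dm] at e
        simp at e
    have dead : ∀ k s, s + k ≤ L → M (vis s) = 0 →
        M (vis (s + k)) = 0 ∧ (0 < k → D (vis (s + k)) = 0) := by
      intro k
      induction k with
      | zero => intro s _ h0; exact ⟨h0, fun hk => absurd hk (lt_irrefl 0)⟩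
      | succ k ih =>
        intro s hs h0
        have h1 := (ih s (by omega) h0).1
        have h2 := dead1 (s + k) (by omega) h1
        exact ⟨h2.1, fun _ => h2.2⟩
    -- the first time at which `M = 0`
    have hex : ∃ s, s ≤ L ∧ M (vis s) = 0 := ⟨L, le_rfl, h.last⟩
    obtain ⟨t, ⟨htL, ht0⟩, htmin⟩ : ∃ t, (t ≤ L ∧ M (vis t) = 0) ∧ ∀ s, s < t → M (vis s) = 1 := by
      refine ⟨Nat.find hex, Nat.find_spec hex, fun s hs => ?_⟩
      have hn := Nat.find_min hex hs
      have hsL : s ≤ L := le_trans hs.le (Nat.find_spec hex).1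
      rcases bM (vis s) with h0 | h0
      · exact absurd ⟨hsL, h0⟩ hn
      · exact h0
    have hDt : D (vis t) = 1 := by
      cases t with
      | zero => have := h.first; rw [ht0, zero_add] at this; exact this
      | succ t =>
        have e := h.step t (by omega)
        rw [htmin t (by omega), ht0, zero_add] at e
        exact e.symm
    have hDlt : ∀ s, s < t → D (vis s) = 0 := by
      intro s hs
      have := h.hDM (vis s)
      rw [htmin s hs, mul_one] at this
      exact this
    refine ⟨t, htL, ?_, ?_⟩
    · funext v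
      by_cases hv : ∃ s, s ≤ L ∧ v = vis s
      · obtain ⟨s, hs, rfl⟩ := hv
        rw [del_vis hi hs htL]
        rcases lt_trichotomy s t with h1 | h1 | h1
        · rw [if_neg (by omega), hDlt s h1]
        · rw [if_pos h1, h1, hDt]
        · rw [if_neg (by omega)]
          have := (dead (s - t) t (by omega) ht0).2 (by omega)
          rwa [show t + (s - t) = s by omega] at this
      · rw [h.offD v hv, del_off htL hv]
    · funext v
      by_cases hv : ∃ s, s ≤ L ∧ v = vis s
      · obtain ⟨s, hs, rfl⟩ := hv
        rw [pre_vis hi hs htL]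
        by_cases h1 : s < t
        · rw [if_pos h1, htmin s h1]
        · rw [if_neg h1]
          have := (dead (s - t) t (by omega) ht0).1
          rwa [show t + (s - t) = s by omega] at this
      · rw [h.offM v hv, pre_off htL hv]
  · rintro ⟨t, ht, rfl, rfl⟩
    exact rel_state hi ht

/-- the time is unique -/
theorem del_inj {L : ℕ} {vis : ℕ → V} (hi : Inj L vis) {s t : ℕ} (hs : s ≤ L) (ht : t ≤ L)
    (h : (del vis s : V → K) = del vis t) : s = t := by
  have := congrFun h (vis s)
  rw [del_vis hi hs hs, del_vis hi hs ht] at this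
  by_contra hn
  simp [hn] at this

/-- the sum over the steps: `E v v' = 1` iff `v → v'` is a step of the walk -/
noncomputable def E (L : ℕ) (vis : ℕ → V) (v v' : V) : K :=
  if ∃ s, s < L ∧ v = vis s ∧ v' = vis (s + 1) then 1 else 0

/-- forward step of the delta -/
theorem del_succ [Fintype V] {L : ℕ} {vis : ℕ → V} (hi : Inj L vis) {t : ℕ} (ht : t < L) (v' : V) :
    (del vis (t + 1) v' : K) = ∑ v, E L vis v v' * del vis t v := by
  rw [Finset.sum_eq_single (vis t)]
  · rw [del_vis hi (by omega) (by omega), if_pos rfl, mul_one]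
    unfold del E
    by_cases h : v' = vis (t + 1)
    · rw [if_pos h, if_pos ⟨t, ht, rfl, h⟩]
    · rw [if_neg h, if_neg]
      rintro ⟨s, hs, h1, h2⟩
      have := hi t s (by omega) (by omega) h1
      subst this
      exact h h2
  · intro v _ hv
    unfold del
    rw [if_neg hv, mul_zero]
  · intro h; exact absurd (Finset.mem_univ _) h

/-- backward step of the delta -/
theorem del_pred [Fintype V] {L : ℕ} {vis : ℕ → V} (hi : Inj L vis) {t : ℕ} (ht : t < L) (v : V) :
    (del vis t v : K) = ∑ v', E L vis v v' * del vis (t + 1) v' := by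
  rw [Finset.sum_eq_single (vis (t + 1))]
  · rw [del_vis hi (by omega) (by omega), if_pos rfl, mul_one]
    unfold del E
    by_cases h : v = vis t
    · rw [if_pos h, if_pos ⟨t, ht, h, rfl⟩]
    · rw [if_neg h, if_neg]
      rintro ⟨s, hs, h1, h2⟩
      have := hi (t + 1) (s + 1) (by omega) (by omega) h2
      have hst : s = t := by omega
      subst hst
      exact h h1
  · intro v' _ hv
    unfold del
    rw [if_neg hv, mul_zero]
  · intro h; exact absurd (Finset.mem_univ _) h

/-- step of the prefix -/
theorem pre_succ {L : ℕ} {vis : ℕ → V} (hi : Inj L vis) {t : ℕ} (ht : t ≤ L) (v : V) :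
    (pre vis (t + 1) v : K) = pre vis t v + del vis t v := by
  unfold pre del
  by_cases h : v = vis t
  · rw [if_pos ⟨t, by omega, h⟩, if_pos h, if_neg]
    · simp
    · rintro ⟨s, hs, h'⟩
      have := hi t s ht (by omega) (h ▸ h')
      omega
  · rw [if_neg h, add_zero]
    by_cases h1 : ∃ s, s < t ∧ v = vis s
    · obtain ⟨s, hs, h'⟩ := h1
      rw [if_pos ⟨s, by omega, h'⟩, if_pos ⟨s, hs, h'⟩]
    · rw [if_neg h1, if_neg]
      rintro ⟨s, hs, h'⟩
      rcases Nat.lt_succ_iff_lt_or_eq.1 hs with h2 | h2
      · exact h1 ⟨s, h2, h'⟩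
      · exact h (h2 ▸ h')

end Crest.Agent.R289.Pointer794
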