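import Crest.Agent.R289.DefD_721

/-!
# Row 289, UL2 glue: contraction of local correction maps on product unit sets

`U = A × B`.  `cB` corrects every row, `cA` every column, both by a factor `θ` as long as the
fraction of errors is at most `r`.  If the errors of `X` have density at most `r² / 2`, then
`cA ∘ cB` multiplies the density by at most `3 θ / r + θ²`, which is `≤ 1 / 4` for `θ ≤ r / 16`.
No linearity, no product structure of the error set.
-/

set_option autoImplicit false

namespace Crest.Agent.R289.ProdCorr782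

open Finset Crest.Agent.R289.DefD

section frac
variable {U : Type} [Fintype U]

theorem frac_nonneg (p : U → Prop) : 0 ≤ frac p := by
  unfold frac; positivity

theorem frac_eq (p : U → Prop) [DecidablePred p] :
    frac p = ((univ.filter p).card : ℝ) / (Fintype.card U : ℝ) := by
  unfold frac
  congr!

theorem frac_le_one (p : U → Prop) : frac p ≤ 1 := by
  classical
  unfold frac
  rcases Nat.eq_zero_or_pos (Fintype.card U) with h | h
  · simp [h]
  · rw [div_le_one (by exact_mod_cast h)]
    exact_mod_cast (card_le_univ _)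

theorem frac_mono {p q : U → Prop} (h : ∀ u, p u → q u) : frac p ≤ frac q := by
  classical
  unfold frac
  apply div_le_div_of_nonneg_right _ (by positivity)
  have : (univ.filter p).card ≤ (univ.filter q).card :=
    card_le_card (fun u hu => by
      simp only [mem_filter, mem_univ, true_and] at hu ⊢
      exact h u hu)
  exact_mod_cast this

theorem frac_or_le (p q : U → Prop) : frac (fun u => p u ∨ q u) ≤ frac p + frac q := by
  classical
  rw [frac_eq, frac_eq, frac_eq, ← add_div]
  apply div_le_div_of_nonneg_right _ (by positivity)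
  have : (univ.filter fun u => p u ∨ q u).card ≤ (univ.filter p).card + (univ.filter q).card := by
    rw [filter_or]
    exact card_union_le _ _
  exact_mod_cast this

/-- Markov -/
theorem frac_gt_le (f : U → ℝ) (hf : ∀ u, 0 ≤ f u) (r : ℝ) (hr : 0 < r) :
    frac (fun u => r < f u) ≤ ((∑ u, f u) / (Fintype.card U : ℝ)) / r := by
  classical
  unfold frac
  rw [div_div, mul_comm, ← div_div]
  apply div_le_div_of_nonneg_right _ (by positivity)
  rw [le_div_iff₀ hr]
  calc ((univ.filter fun u => r < f u).card : ℝ) * r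
      = ∑ u ∈ univ.filter (fun u => r < f u), r := by rw [sum_const, nsmul_eq_mul]
    _ ≤ ∑ u ∈ univ.filter (fun u => r < f u), f u := by
        apply sum_le_sum
        intro u hu
        simp only [mem_filter, mem_univ, true_and] at hu
        exact hu.le
    _ ≤ ∑ u, f u := sum_le_sum_of_subset_of_nonneg (filter_subset _ _) (fun u _ _ => hf u)

end frac

section prod
variable {A B Γ : Type} [Fintype A] [Fintype B]

/-- a fraction over a product is the mean of the fractions of the rows -/
theorem frac_prod (p : A × B → Prop) :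
    frac p = (∑ a, frac (fun b => p (a, b))) / (Fintype.card A : ℝ) := by
  classical
  unfold frac
  rw [← sum_div, div_div, Fintype.card_prod]
  congr 1
  · rw [← Nat.cast_sum]
    congr 1
    simp only [card_filter]
    rw [Fintype.sum_prod_type]
  · push_cast; ring

/-- the same by columns -/
theorem frac_prod' (p : A × B → Prop) :
    frac p = (∑ b, frac (fun a => p (a, b))) / (Fintype.card B : ℝ) := by
  classical
  unfold frac
  rw [← sum_div, div_div, Fintype.card_prod]
  congr 1
  · rw [← Nat.cast_sum]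
    congr 1
    simp only [card_filter]
    rw [Fintype.sum_prod_type_right]
  · push_cast; ring

theorem dist_nonneg (X : A → Option Γ) (w : A → Γ) : 0 ≤ dist X w := frac_nonneg _

theorem dist_le_one (X : A → Option Γ) (w : A → Γ) : dist X w ≤ 1 := frac_le_one _

/-- **iteration of a contraction** -/
theorem iterate_contract (c : (A → Option Γ) → (A → Option Γ)) (w : A → Γ) (r θ : ℝ)
    (h0 : 0 ≤ θ) (h1 : θ ≤ 1) (h : ∀ Y, dist Y w ≤ r → dist (c Y) w ≤ θ * dist Y w) (m : ℕ)
    (Y : A → Option Γ) (hY : dist Y w ≤ r) : dist (c^[m] Y) w ≤ θ ^ m * dist Y w := by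
  induction m with
  | zero => simp
  | succ m ih =>
    rw [Function.iterate_succ', Function.comp_apply]
    have h2 : dist (c^[m] Y) w ≤ r := by
      refine ih.trans ?_
      have : θ ^ m ≤ 1 := pow_le_one₀ h0 h1
      nlinarith [dist_nonneg Y w]
    refine (h _ h2).trans ?_
    rw [pow_succ]
    nlinarith

/-- the product correction: first every row, then every column -/
def prodCorr (cA : B → (A → Option Γ) → (A → Option Γ))
    (cB : A → (B → Option Γ) → (B → Option Γ)) (X : A × B → Option Γ) : A × B → Option Γ :=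
  fun p => cA p.2 (fun a => cB a (fun b => X (a, b)) p.2) p.1

/-- **product contraction** -/
theorem prod_contract (cA : B → (A → Option Γ) → (A → Option Γ))
    (cB : A → (B → Option Γ) → (B → Option Γ)) (w : A × B → Γ) (r θ : ℝ)
    (hr0 : 0 < r) (hθ : 0 ≤ θ)
    (hB : ∀ a Y, dist Y (fun b => w (a, b)) ≤ r →
      dist (cB a Y) (fun b => w (a, b)) ≤ θ * dist Y (fun b => w (a, b)))
    (hA : ∀ b Y, dist Y (fun a => w (a, b)) ≤ r →
      dist (cA b Y) (fun a => w (a, b)) ≤ θ * dist Y (fun a => w (a, b)))
    (X : A × B → Option Γ) (hX : dist X w ≤ r ^ 2 / 2) :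
    dist (prodCorr cA cB X) w ≤ (3 * θ / r + θ ^ 2) * dist X w := by
  classical
  set e : ℝ := dist X w with he
  have he0 : 0 ≤ e := dist_nonneg _ _
  -- row errors
  set ρ : A → ℝ := fun a => dist (fun b => X (a, b)) (fun b => w (a, b)) with hρ
  have hρ0 : ∀ a, 0 ≤ ρ a := fun a => dist_nonneg _ _
  have hρs : (∑ a, ρ a) / (Fintype.card A : ℝ) = e := by
    rw [he]; unfold DefD.dist; rw [frac_prod]; rfl
  -- bad rows
  have hbad : frac (fun a => r < ρ a) ≤ e / r := by
    have := frac_gt_le ρ hρ0 r hr0
    rwa [hρs] at this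
  -- the row-corrected array
  set Y : A × B → Option Γ := fun p => cB p.1 (fun b => X (p.1, b)) p.2 with hY
  set σ : B → ℝ := fun b => frac (fun a => ¬ r < ρ a ∧ Y (a, b) ≠ some (w (a, b))) with hσ
  have hσ0 : ∀ b, 0 ≤ σ b := fun b => frac_nonneg _
  have hσs : (∑ b, σ b) / (Fintype.card B : ℝ) ≤ θ * e := by
    have h1 : (∑ b, σ b) / (Fintype.card B : ℝ) =
        frac (fun p : A × B => ¬ r < ρ p.1 ∧ Y p ≠ some (w p)) := by
      rw [frac_prod']
    rw [h1, frac_prod, ← hρs, ← mul_div_assoc, mul_sum]
    apply div_le_div_of_nonneg_right _ (by positivity)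
    apply sum_le_sum
    intro a _
    by_cases ha : r < ρ a
    · have : frac (fun b => ¬ r < ρ (a, b).1 ∧ Y (a, b) ≠ some (w (a, b))) ≤ 0 := by
        rw [frac_eq]
        have h2 : (univ.filter fun b : B => ¬ r < ρ (a, b).1 ∧ Y (a, b) ≠ some (w (a, b))) = ∅ := by
          apply filter_eq_empty_iff.2
          intro b _ hb
          exact hb.1 ha
        rw [h2]; simp
      exact this.trans (mul_nonneg hθ (hρ0 a))
    · have h2 := hB a (fun b => X (a, b)) (not_lt.1 ha)
      refine le_trans ?_ h2
      unfold DefD.dist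
      apply frac_mono
      intro b hb
      exact hb.2
  -- columns
  have hcol : ∀ b, dist (fun a => Y (a, b)) (fun a => w (a, b)) ≤ e / r + σ b := by
    intro b
    unfold DefD.dist
    refine le_trans ?_ ((frac_or_le (fun a => r < ρ a)
      (fun a => ¬ r < ρ a ∧ Y (a, b) ≠ some (w (a, b)))).trans (add_le_add hbad le_rfl))
    apply frac_mono
    intro a ha
    by_cases h : r < ρ a
    · exact Or.inl h
    · exact Or.inr ⟨h, ha⟩
  have hres : ∀ b, dist (cA b (fun a => Y (a, b))) (fun a => w (a, b)) ≤
      θ * (e / r + σ b) + 2 * σ b / r := by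
    intro b
    by_cases h : dist (fun a => Y (a, b)) (fun a => w (a, b)) ≤ r
    · refine (hA b _ h).trans ?_
      have h1 : θ * dist (fun a => Y (a, b)) (fun a => w (a, b)) ≤ θ * (e / r + σ b) :=
        mul_le_mul_of_nonneg_left (hcol b) hθ
      have h2 : 0 ≤ 2 * σ b / r := by have := hσ0 b; positivity
      linarith
    · have h1 : r < e / r + σ b := lt_of_lt_of_le (not_le.1 h) (hcol b)
      have h2 : e / r ≤ r / 2 := by
        rw [div_le_iff₀ hr0]
        nlinarith
      have h3 : 1 ≤ 2 * σ b / r := by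
        rw [le_div_iff₀ hr0]
        linarith
      have h4 : 0 ≤ θ * (e / r + σ b) := by
        have := hσ0 b
        positivity
      have h5 := dist_le_one (cA b (fun a => Y (a, b))) (fun a => w (a, b))
      linarith
  -- sum up
  have hfin : dist (prodCorr cA cB X) w =
      (∑ b, dist (cA b (fun a => Y (a, b))) (fun a => w (a, b))) / (Fintype.card B : ℝ) := by
    unfold DefD.dist
    rw [frac_prod']
    rfl
  rw [hfin]
  have hB1 : (∑ b : B, (1 : ℝ)) / (Fintype.card B : ℝ) ≤ 1 := by
    simp only [sum_const, card_univ, nsmul_eq_mul, mul_one]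
    exact div_self_le_one _
  calc (∑ b, dist (cA b (fun a => Y (a, b))) (fun a => w (a, b))) / (Fintype.card B : ℝ)
      ≤ (∑ b, (θ * (e / r + σ b) + 2 * σ b / r)) / (Fintype.card B : ℝ) := by
        apply div_le_div_of_nonneg_right _ (by positivity)
        exact sum_le_sum fun b _ => hres b
    _ = θ * (e / r) * ((∑ b : B, (1 : ℝ)) / (Fintype.card B : ℝ)) +
          (θ + 2 / r) * ((∑ b, σ b) / (Fintype.card B : ℝ)) := by
        rw [show (∑ b, (θ * (e / r + σ b) + 2 * σ b / r)) =
          θ * (e / r) * (∑ b : B, (1 : ℝ)) + (θ + 2 / r) * ∑ b, σ b from ?_]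
        · ring
        · rw [mul_sum, mul_sum, ← sum_add_distrib]
          apply sum_congr rfl
          intro b _
          ring
    _ ≤ θ * (e / r) * 1 + (θ + 2 / r) * (θ * e) := by
        apply add_le_add
        · apply mul_le_mul_of_nonneg_left hB1
          positivity
        · apply mul_le_mul_of_nonneg_left hσs
          positivity
    _ = (3 * θ / r + θ ^ 2) * e := by ring

/-- product contraction by `1 / 4` -/
theorem prod_contract_quarter (cA : B → (A → Option Γ) → (A → Option Γ))
    (cB : A → (B → Option Γ) → (B → Option Γ)) (w : A × B → Γ) (r θ : ℝ)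
    (hr0 : 0 < r) (hr1 : r ≤ 1) (hθ : 0 ≤ θ) (hθr : θ ≤ r / 16)
    (hB : ∀ a Y, dist Y (fun b => w (a, b)) ≤ r →
      dist (cB a Y) (fun b => w (a, b)) ≤ θ * dist Y (fun b => w (a, b)))
    (hA : ∀ b Y, dist Y (fun a => w (a, b)) ≤ r →
      dist (cA b Y) (fun a => w (a, b)) ≤ θ * dist Y (fun a => w (a, b)))
    (X : A × B → Option Γ) (hX : dist X w ≤ r ^ 2 / 2) :
    dist (prodCorr cA cB X) w ≤ dist X w / 4 := by
  refine (prod_contract cA cB w r θ hr0 hθ hB hA X hX).trans ?_
  have h1 : 3 * θ / r ≤ 3 / 16 := by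
    rw [div_le_iff₀ hr0]
    linarith
  have h2 : θ ^ 2 ≤ 1 / 256 := by
    have : θ ≤ 1 / 16 := by linarith
    nlinarith
  have h3 := dist_nonneg X w
  nlinarith

/-- two contractions with factor `≤ 1/4` each, iterated `m` times in every direction, give a
contraction with factor `θ` in the product, as soon as `4 (1/4)^m ≤ θ r`. -/
theorem prod_contract_iter (cA : B → (A → Option Γ) → (A → Option Γ))
    (cB : A → (B → Option Γ) → (B → Option Γ)) (w : A × B → Γ) (r θ : ℝ) (m : ℕ)
    (hr0 : 0 < r) (hr1 : r ≤ 1) (hm : 4 * (1 / 4 : ℝ) ^ m ≤ θ * r)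
    (hB : ∀ a Y, dist Y (fun b => w (a, b)) ≤ r →
      dist (cB a Y) (fun b => w (a, b)) ≤ dist Y (fun b => w (a, b)) / 4)
    (hA : ∀ b Y, dist Y (fun a => w (a, b)) ≤ r →
      dist (cA b Y) (fun a => w (a, b)) ≤ dist Y (fun a => w (a, b)) / 4)
    (X : A × B → Option Γ) (hX : dist X w ≤ r ^ 2 / 2) :
    dist (prodCorr (fun b => (cA b)^[m]) (fun a => (cB a)^[m]) X) w ≤ θ * dist X w := by
  have hm0 : (0 : ℝ) ≤ (1 / 4 : ℝ) ^ m := by positivity
  have hm1 : (1 / 4 : ℝ) ^ m ≤ 1 := pow_le_one₀ (by norm_num) (by norm_num)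
  refine (prod_contract (fun b => (cA b)^[m]) (fun a => (cB a)^[m]) w r ((1 / 4 : ℝ) ^ m) hr0 hm0
    (fun a Y hY => iterate_contract (cB a) _ r (1 / 4) (by norm_num) (by norm_num)
      (fun Y' hY' => (hB a Y' hY').trans (by linarith)) m Y hY)
    (fun b Y hY => iterate_contract (cA b) _ r (1 / 4) (by norm_num) (by norm_num)
      (fun Y' hY' => (hA b Y' hY').trans (by linarith)) m Y hY) X hX).trans ?_
  apply mul_le_mul_of_nonneg_right _ (dist_nonneg X w)
  have h1 : 3 * (1 / 4 : ℝ) ^ m / r ≤ 3 / 4 * θ := by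
    rw [div_le_iff₀ hr0]
    nlinarith
  have h2 : ((1 / 4 : ℝ) ^ m) ^ 2 ≤ θ / 4 := by
    have h3 : (1 / 4 : ℝ) ^ m ≤ θ / 4 := by
      have hθ : 0 ≤ θ := by
        by_contra hneg
        have hneg' := not_le.1 hneg
        nlinarith
      nlinarith
    nlinarith
  linarith

end prod

end Crest.Agent.R289.ProdCorr782
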