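import Crest.Agent.R289.Contr_248

/-!
# Row 289: promise testability of one-sided (R-word / L-word) layers

One-sided words of an expander code are not locally testable, but *inside the decoding radius of a
known word* the one-sided checks are robust tests.  Hence a chain of layers, each a local function of
the previous ones, whose first layer is near a known word, can be stored as tested memory, with one
and the same bad set for all layers and no loss per layer.

* `Good G C0 C1 y g`: the even view at `g` and all odd views through `g` are readable code words.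
* `round_of_good`: decoding changes nothing there.
* `promise`: `#wrong y ≤ ρ|X| → #wrong y ≤ 2 #viol y` (`θ² ≤ 1/2`).
* `chain`: the layered theorem (window `w`, `m` neighbours per layer).
* `chain_eq`: the form with relations `y (j+1) g = Φ j (views) ` outside the bad set.
-/

set_option autoImplicit false

namespace Crest.Agent.R289.Promise933

open Finset Contr248

variable {X Y I A : Type*} [Fintype X] [Fintype Y] [Fintype I]
variable {G : BG X Y I}

/-- the local test at the even vertex `g`: readable even view in `C0`, all odd views through `g` are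
readable and in `C1` -/
def Good (G : BG X Y I) (C0 C1 : Set (I → A)) (y : Lab X I A) (g : X) : Prop :=
  (∃ l ∈ C0, y g = some l) ∧
    ∀ z, ∃ u ∈ C1, ∀ z', (y (G.nx (G.ny g z) z')).map (fun l => l z') = some (u z')

open Classical in
/-- violated vertices -/
noncomputable def viol (G : BG X Y I) (C0 C1 : Set (I → A)) (y : Lab X I A) : Finset X :=
  univ.filter fun g => ¬ Good G C0 C1 y g

omit [Fintype Y] [Fintype I] in
theorem mem_viol {C0 C1 : Set (I → A)} {y : Lab X I A} {g : X} :
    g ∈ viol G C0 C1 y ↔ ¬ Good G C0 C1 y g := by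
  classical
  simp [viol]

omit [Fintype X] [Fintype Y] in
/-- decoding does nothing where the tests pass -/
theorem round_of_good {C0 C1 : Set (I → A)} {t0 t1 d0 d1 : ℕ} (hd0 : MinDist C0 d0)
    (hd1 : MinDist C1 d1) (h20 : 2 * t0 ≤ d0 + 1) (h21 : 2 * t1 ≤ d1 + 1) (ht0 : 0 < t0)
    (ht1 : 0 < t1) {y : Lab X I A} {g : X} (hg : Good G C0 C1 y g) :
    round G C0 C1 t0 t1 y g = y g := by
  obtain ⟨⟨l, hl, hyl⟩, hodd⟩ := hg
  rw [hyl]
  refine dec_eq hd0 h20 hl (D := ∅) ?_ (by simpa using ht0)
  intro z hz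
  exfalso
  apply hz
  obtain ⟨u, hu, hu'⟩ := hodd z
  have h1 : oddDec G C1 t1 y (G.ny g z) = some u := by
    refine dec_eq hd1 h21 hu (D := ∅) ?_ (by simpa using ht1)
    intro z' hz'
    exact absurd (hu' z') hz'
  have h2 := hu' z
  rw [G.nx_ny, hyl, Option.map_some] at h2
  rw [h1, Option.map_some, h2]

/-- **promise lemma** -/
theorem promise_aux {C0 C1 : Set (I → A)} {t0 t1 : ℕ} {lam rho th : ℝ}
    (hp : Par G C0 C1 t0 t1 lam rho th) (hth0 : 0 ≤ th) (hrho : 0 ≤ rho) {c : X → I → A}
    (hc : IsWord G C0 C1 c) (y : Lab X I A)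
    (hE : ((wrong y c).card : ℝ) ≤ rho * Fintype.card X) :
    (1 - th ^ 2) * ((wrong y c).card : ℝ) ≤ ((viol G C0 C1 y).card : ℝ) := by
  classical
  obtain ⟨d0, d1, hd0, hd1, h20, h21⟩ := hp.dist
  have ht0 : 0 < t0 := by
    have h1 : (0 : ℝ) < t0 := lt_of_le_of_lt (mul_nonneg hrho (Nat.cast_nonneg _)) hp.gap0
    exact_mod_cast h1
  have ht1 : 0 < t1 := by
    have h1 : (0 : ℝ) < t1 := lt_of_le_of_lt (mul_nonneg hrho (Nat.cast_nonneg _)) hp.gap1
    exact_mod_cast h1
  have hsub : wrong y c ⊆ viol G C0 C1 y ∪ wrong (round G C0 C1 t0 t1 y) c := by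
    intro g hg
    rw [Finset.mem_union]
    by_contra hcon
    push Not at hcon
    have hgood : Good G C0 C1 y g := by
      by_contra hh
      exact hcon.1 (mem_viol.2 hh)
    apply hcon.2
    rw [mem_wrong, round_of_good hd0 hd1 h20 h21 ht0 ht1 hgood]
    exact mem_wrong.1 hg
  have h1 : ((wrong y c).card : ℝ) ≤
      (viol G C0 C1 y).card + (wrong (round G C0 C1 t0 t1 y) c).card := by
    have := (Finset.card_le_card hsub).trans (Finset.card_union_le _ _)
    exact_mod_cast this
  have h2 := round_le hp hth0 hc y hE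
  linarith

/-- **promise lemma**: near a known word the one-sided checks are robust tests -/
theorem promise {C0 C1 : Set (I → A)} {t0 t1 : ℕ} {lam rho th : ℝ}
    (hp : Par G C0 C1 t0 t1 lam rho th) (hth0 : 0 ≤ th) (hth2 : th ^ 2 ≤ 1 / 2) (hrho : 0 ≤ rho)
    {c : X → I → A} (hc : IsWord G C0 C1 c) (y : Lab X I A)
    (hE : ((wrong y c).card : ℝ) ≤ rho * Fintype.card X) :
    ((wrong y c).card : ℝ) ≤ 2 * (viol G C0 C1 y).card := by
  have h := promise_aux hp hth0 hrho hc y hE
  have h0 : (0 : ℝ) ≤ (wrong y c).card := Nat.cast_nonneg _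
  nlinarith

/-! ## chains of layers -/

open Classical in
/-- counting: `g` is bad, or one of the `w * m` neighbours (layer `j' ∈ J`, neighbour `σ i g`) is
wrong -/
theorem card_step {ι : Type*} [Fintype ι] (σ : ι → X → X) (hσ : ∀ i, Function.Injective (σ i))
    (Bad : Finset X) (J : Finset ℕ) (E : ℕ → Finset X) (N : Finset X)
    (hN : ∀ g ∈ N, g ∈ Bad ∨ ∃ j ∈ J, ∃ i, σ i g ∈ E j) :
    N.card ≤ Bad.card + ∑ j ∈ J, Fintype.card ι * (E j).card := by
  have hsub : N ⊆ Bad ∪ J.biUnion fun j => univ.biUnion fun i : ι =>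
      univ.filter fun g => σ i g ∈ E j := by
    intro g hg
    rw [Finset.mem_union]
    rcases hN g hg with h | ⟨j, hj, i, hi⟩
    · exact Or.inl h
    · right
      rw [Finset.mem_biUnion]
      refine ⟨j, hj, ?_⟩
      rw [Finset.mem_biUnion]
      exact ⟨i, Finset.mem_univ _, by rw [Finset.mem_filter]; exact ⟨Finset.mem_univ _, hi⟩⟩
  refine (Finset.card_le_card hsub).trans ((Finset.card_union_le _ _).trans ?_)
  refine Nat.add_le_add_left (Finset.card_biUnion_le.trans (Finset.sum_le_sum fun j _ => ?_)) _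
  refine Finset.card_biUnion_le.trans ?_
  calc ∑ i : ι, (univ.filter fun g => σ i g ∈ E j).card ≤ ∑ _i : ι, (E j).card := by
        refine Finset.sum_le_sum fun i _ => ?_
        refine Finset.card_le_card_of_injOn (σ i) ?_ (hσ i).injOn
        intro g hg
        simpa using hg
    _ = _ := by rw [Finset.sum_const, Finset.card_univ, smul_eq_mul]

/-- **chain theorem**: layers `y 0, …, y L`, exact words `c 0, …, c L`; outside one set `Bad`
(i) if the labels of the last `w` layers are right at the `m = #ι` neighbours of `g` then the next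
layer is right at `g`, (ii) the one-sided tests of every layer pass at `g`.  Then all layers are right
up to `2B` labels; there is no growth with `L`. -/
theorem chain {ι : Type*} [Fintype ι] (σ : ι → X → X) (hσ : ∀ i, Function.Injective (σ i))
    {C0 C1 : Set (I → A)} {t0 t1 : ℕ} {lam rho th : ℝ}
    (hp : Par G C0 C1 t0 t1 lam rho th) (hth0 : 0 ≤ th) (hth2 : th ^ 2 ≤ 1 / 2) (hrho : 0 ≤ rho)
    (w L : ℕ) (c : ℕ → X → I → A) (y : ℕ → Lab X I A) (Bad : Finset X) (B : ℝ)
    (hB : (Bad.card : ℝ) ≤ B)
    (hword : ∀ j ≤ L, IsWord G C0 C1 (c j))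
    (h0 : ((wrong (y 0) (c 0)).card : ℝ) ≤ 2 * B)
    (hrel : ∀ j < L, ∀ g ∉ Bad,
      (∀ j' ≤ j, j < j' + w → ∀ i, σ i g ∉ wrong (y j') (c j')) →
        g ∉ wrong (y (j + 1)) (c (j + 1)))
    (hgood : ∀ j < L, ∀ g ∉ Bad, Good G C0 C1 (y (j + 1)) g)
    (hconst : (1 + 2 * w * Fintype.card ι) * B ≤ rho * Fintype.card X) :
    ∀ j ≤ L, ((wrong (y j) (c j)).card : ℝ) ≤ 2 * B := by
  classical
  intro j
  induction j using Nat.strong_induction_on with
  | _ j ih =>
    intro hj
    rcases Nat.eq_zero_or_pos j with rfl | hpos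
    · exact h0
    obtain ⟨j, rfl⟩ : ∃ k, j = k + 1 := ⟨j - 1, by omega⟩
    have hBn : 0 ≤ B := le_trans (Nat.cast_nonneg _) hB
    let J : Finset ℕ := (Finset.range (j + 1)).filter fun j' => j < j' + w
    have hJ : J.card ≤ w := by
      have : J ⊆ Finset.Ico (j + 1 - w) (j + 1) := by
        intro a ha
        simp only [J, Finset.mem_filter, Finset.mem_range] at ha
        rw [Finset.mem_Ico]; omega
      have h2 := Finset.card_le_card this
      rw [Nat.card_Ico] at h2
      omega
    have h1 : ∀ g ∈ wrong (y (j + 1)) (c (j + 1)),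
        g ∈ Bad ∨ ∃ j' ∈ J, ∃ i, σ i g ∈ wrong (y j') (c j') := by
      intro g hg
      by_contra hcon
      push Not at hcon
      refine hrel j (by omega) g hcon.1 ?_ hg
      intro j' hj' hj'' i
      exact hcon.2 j' (by simp only [J, Finset.mem_filter, Finset.mem_range]; omega) i
    have h2 := card_step σ hσ Bad J (fun j' => wrong (y j') (c j')) _ h1
    have h3 : ((wrong (y (j + 1)) (c (j + 1))).card : ℝ) ≤
        Bad.card + ∑ j' ∈ J, (Fintype.card ι : ℝ) * ((wrong (y j') (c j')).card : ℝ) := by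
      exact_mod_cast h2
    have h4 : ∑ j' ∈ J, (Fintype.card ι : ℝ) * ((wrong (y j') (c j')).card : ℝ) ≤
        (w : ℝ) * (Fintype.card ι * (2 * B)) := by
      calc ∑ j' ∈ J, (Fintype.card ι : ℝ) * ((wrong (y j') (c j')).card : ℝ)
          ≤ ∑ _j' ∈ J, (Fintype.card ι : ℝ) * (2 * B) := by
            refine Finset.sum_le_sum fun j' hj' => ?_
            refine mul_le_mul_of_nonneg_left ?_ (Nat.cast_nonneg _)
            simp only [J, Finset.mem_filter, Finset.mem_range] at hj'
            exact ih j' (by omega) (by omega)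
        _ = (J.card : ℝ) * (Fintype.card ι * (2 * B)) := by
            rw [Finset.sum_const, nsmul_eq_mul]
        _ ≤ _ := by
            refine mul_le_mul_of_nonneg_right (by exact_mod_cast hJ) ?_
            positivity
    have h5 : ((wrong (y (j + 1)) (c (j + 1))).card : ℝ) ≤ rho * Fintype.card X := by
      calc ((wrong (y (j + 1)) (c (j + 1))).card : ℝ) ≤ B + (w : ℝ) * (Fintype.card ι * (2 * B)) := by
            linarith
        _ = (1 + 2 * w * Fintype.card ι) * B := by ring
        _ ≤ _ := hconst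
    have h6 := promise hp hth0 hth2 hrho (hword (j + 1) hj) (y (j + 1)) h5
    have h7 : viol G C0 C1 (y (j + 1)) ⊆ Bad := by
      intro g hg
      by_contra hh
      exact mem_viol.1 hg (hgood j (by omega) g hh)
    have h8 : ((viol G C0 C1 (y (j + 1))).card : ℝ) ≤ Bad.card := by
      exact_mod_cast Finset.card_le_card h7
    linarith

/-- the chain theorem with equations: outside `Bad` layer `j+1` is the local function `Φ j` of layer
`j` at the neighbours `σ i g`; the exact words satisfy the same equations everywhere -/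
theorem chain_eq {ι : Type*} [Fintype ι] (σ : ι → X → X) (hσ : ∀ i, Function.Injective (σ i))
    {C0 C1 : Set (I → A)} {t0 t1 : ℕ} {lam rho th : ℝ}
    (hp : Par G C0 C1 t0 t1 lam rho th) (hth0 : 0 ≤ th) (hth2 : th ^ 2 ≤ 1 / 2) (hrho : 0 ≤ rho)
    (L : ℕ) (c : ℕ → X → I → A) (y : ℕ → Lab X I A) (Bad : Finset X) (B : ℝ)
    (hB : (Bad.card : ℝ) ≤ B)
    (Φ : ℕ → X → (ι → Option (I → A)) → Option (I → A))
    (hword : ∀ j ≤ L, IsWord G C0 C1 (c j))
    (hc : ∀ j < L, ∀ g, Φ j g (fun i => some (c j (σ i g))) = some (c (j + 1) g))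
    (h0 : ((wrong (y 0) (c 0)).card : ℝ) ≤ 2 * B)
    (hrel : ∀ j < L, ∀ g ∉ Bad, y (j + 1) g = Φ j g fun i => y j (σ i g))
    (hgood : ∀ j < L, ∀ g ∉ Bad, Good G C0 C1 (y (j + 1)) g)
    (hconst : (1 + 2 * Fintype.card ι) * B ≤ rho * Fintype.card X) :
    ∀ j ≤ L, ((wrong (y j) (c j)).card : ℝ) ≤ 2 * B := by
  classical
  refine chain σ hσ hp hth0 hth2 hrho 1 L c y Bad B hB hword h0 ?_ hgood (by simpa using hconst)
  intro j hj g hg hn
  rw [mem_wrong, not_not, hrel j hj g hg, ← hc j hj g]
  congr 1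
  funext i
  have := hn j le_rfl (by omega) i
  rw [mem_wrong, not_not] at this
  exact this

/-- two-step recursion `y (j+2) = Φ j (y (j+1), y j)` -/
theorem chain_eq2 {ι : Type*} [Fintype ι] (σ : ι → X → X) (hσ : ∀ i, Function.Injective (σ i))
    {C0 C1 : Set (I → A)} {t0 t1 : ℕ} {lam rho th : ℝ}
    (hp : Par G C0 C1 t0 t1 lam rho th) (hth0 : 0 ≤ th) (hth2 : th ^ 2 ≤ 1 / 2) (hrho : 0 ≤ rho)
    (L : ℕ) (c : ℕ → X → I → A) (y : ℕ → Lab X I A) (Bad : Finset X) (B : ℝ)
    (hB : (Bad.card : ℝ) ≤ B)
    (Φ : ℕ → X → (ι → Option (I → A)) → (ι → Option (I → A)) → Option (I → A))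
    (hword : ∀ j ≤ L + 1, IsWord G C0 C1 (c j))
    (hc : ∀ j < L, ∀ g, Φ j g (fun i => some (c (j + 1) (σ i g))) (fun i => some (c j (σ i g)))
      = some (c (j + 2) g))
    (h0 : ((wrong (y 0) (c 0)).card : ℝ) ≤ 2 * B) (h1 : ((wrong (y 1) (c 1)).card : ℝ) ≤ 2 * B)
    (hrel : ∀ j < L, ∀ g ∉ Bad,
      y (j + 2) g = Φ j g (fun i => y (j + 1) (σ i g)) fun i => y j (σ i g))
    (hgood : ∀ j < L, ∀ g ∉ Bad, Good G C0 C1 (y (j + 2)) g)
    (hconst : (1 + 4 * Fintype.card ι) * B ≤ rho * Fintype.card X) :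
    ∀ j ≤ L + 1, ((wrong (y j) (c j)).card : ℝ) ≤ 2 * B := by
  classical
  intro j
  induction j using Nat.strong_induction_on with
  | _ j ih =>
    intro hj
    match j, ih, hj with
    | 0, _, _ => exact h0
    | 1, _, _ => exact h1
    | j + 2, ih, hj =>
      have hBn : 0 ≤ B := le_trans (Nat.cast_nonneg _) hB
      have hN : ∀ g ∈ wrong (y (j + 2)) (c (j + 2)),
          g ∈ Bad ∨ ∃ j' ∈ ({j, j + 1} : Finset ℕ), ∃ i, σ i g ∈ wrong (y j') (c j') := by
        intro g hg
        by_contra hcon
        push Not at hcon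
        refine mem_wrong.1 hg ?_
        rw [hrel j (by omega) g hcon.1, ← hc j (by omega) g]
        congr 1
        · funext i
          have := hcon.2 (j + 1) (by simp) i
          rw [mem_wrong, not_not] at this
          exact this
        · funext i
          have := hcon.2 j (by simp) i
          rw [mem_wrong, not_not] at this
          exact this
      have h2 := card_step σ hσ Bad {j, j + 1} (fun j' => wrong (y j') (c j')) _ hN
      rw [Finset.sum_pair (by omega)] at h2
      have h3 : ((wrong (y (j + 2)) (c (j + 2))).card : ℝ) ≤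
          Bad.card + ((Fintype.card ι : ℝ) * ((wrong (y j) (c j)).card : ℝ) +
            (Fintype.card ι : ℝ) * ((wrong (y (j + 1)) (c (j + 1))).card : ℝ)) := by
        exact_mod_cast h2
      have h4 := mul_le_mul_of_nonneg_left (ih j (by omega) (by omega))
        (Nat.cast_nonneg (α := ℝ) (Fintype.card ι))
      have h5 := mul_le_mul_of_nonneg_left (ih (j + 1) (by omega) (by omega))
        (Nat.cast_nonneg (α := ℝ) (Fintype.card ι))
      have h6 : ((wrong (y (j + 2)) (c (j + 2))).card : ℝ) ≤ rho * Fintype.card X := by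
        refine le_trans ?_ hconst
        linarith
      have h7 := promise hp hth0 hth2 hrho (hword (j + 2) hj) (y (j + 2)) h6
      have h8 : viol G C0 C1 (y (j + 2)) ⊆ Bad := by
        intro g hg
        by_contra hh
        exact mem_viol.1 hg (hgood j (by omega) g hh)
      have h9 : ((viol G C0 C1 (y (j + 2))).card : ℝ) ≤ Bad.card := by
        exact_mod_cast Finset.card_le_card h8
      linarith

/-- final zero test: if the tested zero condition `Z (y g)` holds outside `Bad`, the exact layer
satisfies it outside at most `3B` vertices -/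
theorem final_zero {c : X → I → A} {y : Lab X I A} (Bad : Finset X) (B : ℝ)
    (hB : (Bad.card : ℝ) ≤ B) (hw : ((wrong y c).card : ℝ) ≤ 2 * B) (Z : (I → A) → Prop)
    (hZ : ∀ g ∉ Bad, ∀ l, y g = some l → Z l) (N : Finset X) (hN : ∀ g ∈ N, ¬ Z (c g)) :
    (N.card : ℝ) ≤ 3 * B := by
  classical
  have hsub : N ⊆ Bad ∪ wrong y c := by
    intro g hg
    rw [Finset.mem_union]
    by_contra hcon
    push Not at hcon
    have h1 := hcon.2
    rw [mem_wrong, not_not] at h1
    exact hN g hg (hZ g hcon.1 _ h1)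
  have h2 := (Finset.card_le_card hsub).trans (Finset.card_union_le _ _)
  have h3 : (N.card : ℝ) ≤ Bad.card + (wrong y c).card := by exact_mod_cast h2
  linarith

end Crest.Agent.R289.Promise933
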