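import Mathlib

/-!
Row 289, block C, leaf C_PTR (helper490): the pointer of the content machine (#5912, P0-P2, P4).

`Walk` = injective sequence of visits `vis s = (address, visit index)`, `s ≤ L`, with steps
`dir s`.  Masks `Vis, E, Fi, La, Full, W`.  Pointer words: `del t` (one hot at visit `t`),
`pre t` (visits before `t`).

* `p2a`      : the relations (c1)-(c3) hold iff `D = del t`, `M = pre t` for a `t ≤ L`
               (`del_inj`: `t` is unique); every domain.
* `guardF`, `guardB` : the zero claims of a label name the step.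
* `guardW_some`, `guardW_none`, `guardArg` : instruction and argument claims.
* `up_M`, `up_D`, `dn_M`, `dn_D`, `old_D` : updates.
-/

set_option autoImplicit false
set_option linter.unusedSectionVars false

namespace Crest.Agent.R289.Ptr490

open Classical

/-- an injective walk with visit numbers -/
structure Walk (Γ G J : Type*) where
  L : ℕ
  act : G → Equiv.Perm Γ
  vis : ℕ → Γ × J
  dir : ℕ → G
  inj : ∀ s, s ≤ L → ∀ s', s' ≤ L → vis s = vis s' → s = s'
  step : ∀ s, s < L → (vis (s + 1)).1 = act (dir s) (vis s).1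

namespace Walk

variable {Γ G J : Type*} (w : Walk Γ G J)
variable (K : Type*) [CommRing K] [IsDomain K]

/-- all visited pairs -/
noncomputable def Vis (j : J) (x : Γ) : K := if ∃ s, s ≤ w.L ∧ w.vis s = (x, j) then 1 else 0

/-- the step mask -/
noncomputable def E (j : J) (g : G) (j' : J) (x : Γ) : K :=
  if ∃ s, s < w.L ∧ w.vis s = (x, j) ∧ w.dir s = g ∧ (w.vis (s + 1)).2 = j' then 1 else 0

/-- first visit -/
noncomputable def Fi (j : J) (x : Γ) : K := if w.vis 0 = (x, j) then 1 else 0

/-- last visit -/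
noncomputable def La (j : J) (x : Γ) : K := if w.vis w.L = (x, j) then 1 else 0

/-- visits `s < L` -/
noncomputable def Full (j : J) (x : Γ) : K := if ∃ s, s < w.L ∧ w.vis s = (x, j) then 1 else 0

/-- pointer word at time `t` -/
noncomputable def del (t : ℕ) (j : J) (x : Γ) : K := if w.vis t = (x, j) then 1 else 0

/-- prefix word at time `t` -/
noncomputable def pre (t : ℕ) (j : J) (x : Γ) : K :=
  if ∃ s, s < t ∧ s ≤ w.L ∧ w.vis s = (x, j) then 1 else 0

/-- instruction mask for the instruction `i` (a lane and an operation) -/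
noncomputable def W {I : Type*} (ins : ℕ → Option I) (j : J) (i : I) (x : Γ) : K :=
  if ∃ s, s < w.L ∧ w.vis s = (x, j) ∧ ins s = some i then 1 else 0

theorem Fi_eq : w.Fi K = w.del K 0 := rfl

theorem La_eq : w.La K = w.del K w.L := rfl

theorem Full_eq : w.Full K = w.pre K w.L := by
  funext j x
  unfold Full pre
  refine if_congr ⟨fun ⟨s, h1, h2⟩ => ⟨s, h1, h1.le, h2⟩, fun ⟨s, h1, _, h2⟩ => ⟨s, h1, h2⟩⟩ rfl rfl

theorem pre_zero : w.pre K 0 = fun _ _ => 0 := by
  funext j x
  unfold pre
  rw [if_neg]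
  rintro ⟨s, h, _⟩
  omega

variable {K}

/-! ### values at the visits -/

theorem del_at {t s : ℕ} (ht : t ≤ w.L) (hs : s ≤ w.L) :
    w.del K t (w.vis s).2 (w.vis s).1 = if s = t then 1 else 0 := by
  unfold del
  refine if_congr ⟨fun h => ?_, fun h => ?_⟩ rfl rfl
  · exact (w.inj t ht s hs (by simpa using h)).symm
  · rw [h]

theorem pre_at {t s : ℕ} (hs : s ≤ w.L) :
    w.pre K t (w.vis s).2 (w.vis s).1 = if s < t then 1 else 0 := by
  unfold pre
  refine if_congr ⟨fun ⟨r, h1, h2, h3⟩ => ?_, fun h => ⟨s, h, hs, by simp⟩⟩ rfl rfl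
  have := w.inj r h2 s hs (by simpa using h3)
  omega

theorem del_self (t : ℕ) : w.del K t (w.vis t).2 (w.vis t).1 = 1 := by
  unfold del
  rw [if_pos (by simp)]

theorem del_ne {t : ℕ} {j : J} (h : j ≠ (w.vis t).2) (x : Γ) : w.del K t j x = 0 := by
  unfold del
  rw [if_neg]
  intro h'
  exact h (by rw [h'])

theorem del_inj {t t' : ℕ} (ht : t ≤ w.L) (ht' : t' ≤ w.L) (h : w.del K t = w.del K t') :
    t = t' := by
  have h1 := w.del_at (K := K) ht ht
  rw [h, w.del_at (K := K) ht' ht] at h1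
  by_contra hne
  simp [hne] at h1

/-! ### P2a -/

/-- relations (c1)-(c3) -/
structure Rel (D M : J → Γ → K) : Prop where
  boolD : ∀ j x, D j x ^ 2 - D j x = 0
  boolM : ∀ j x, M j x ^ 2 - M j x = 0
  excl : ∀ j x, D j x * M j x = 0
  offD : ∀ j x, (1 - w.Vis K j x) * D j x = 0
  offM : ∀ j x, (1 - w.Vis K j x) * M j x = 0
  next : ∀ j g j' x, w.E K j g j' x * (M j x - M j' (w.act g x) - D j' (w.act g x)) = 0
  first : ∀ j x, w.Fi K j x * (M j x + D j x - 1) = 0
  last : ∀ j x, w.La K j x * M j x = 0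

theorem zero_or_one {a : K} (h : a ^ 2 - a = 0) : a = 0 ∨ a = 1 := by
  have : a * (a - 1) = 0 := by linear_combination h
  rcases mul_eq_zero.1 this with h | h
  · exact Or.inl h
  · exact Or.inr (by linear_combination h)

variable {w}

theorem Rel.link {D M : J → Γ → K} (h : w.Rel D M) {s : ℕ} (hs : s < w.L) :
    M (w.vis s).2 (w.vis s).1 =
      M (w.vis (s + 1)).2 (w.vis (s + 1)).1 + D (w.vis (s + 1)).2 (w.vis (s + 1)).1 := by
  have h1 := h.next (w.vis s).2 (w.dir s) (w.vis (s + 1)).2 (w.vis s).1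
  rw [← w.step s hs] at h1
  have hE : w.E K (w.vis s).2 (w.dir s) (w.vis (s + 1)).2 (w.vis s).1 = 1 := by
    unfold E
    rw [if_pos ⟨s, hs, by simp, rfl, rfl⟩]
  rw [hE, one_mul] at h1
  linear_combination h1

variable (w)

theorem rel_of {t : ℕ} (ht : t ≤ w.L) : w.Rel (w.del K t) (w.pre K t) where
  boolD j x := by unfold del; split_ifs <;> simp
  boolM j x := by unfold pre; split_ifs <;> simp
  excl j x := by
    unfold del pre
    split_ifs with h1 h2
    · obtain ⟨s, h3, h4, h5⟩ := h2
      have := w.inj s h4 t ht (h5.trans h1.symm)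
      omega
    · simp
    · simp
    · simp
  offD j x := by
    unfold del Vis
    by_cases h1 : ∃ s, s ≤ w.L ∧ w.vis s = (x, j)
    · rw [if_pos h1]; simp
    · rw [if_neg (fun h2 => h1 ⟨t, ht, h2⟩)]; simp
  offM j x := by
    unfold pre Vis
    by_cases h1 : ∃ s, s ≤ w.L ∧ w.vis s = (x, j)
    · rw [if_pos h1]; simp
    · have h2 : ¬ ∃ s, s < t ∧ s ≤ w.L ∧ w.vis s = (x, j) :=
        fun ⟨s, _, h4, h5⟩ => h1 ⟨s, h4, h5⟩
      rw [if_neg h2, mul_zero]
  next j g j' x := by
    unfold E
    split_ifs with h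
    · obtain ⟨s, hs, hv, hg, hj⟩ := h
      have h1 : w.act g x = (w.vis (s + 1)).1 := by rw [w.step s hs, hg, hv]
      have hx : x = (w.vis s).1 := by rw [hv]
      have hj0 : j = (w.vis s).2 := by rw [hv]
      rw [h1, ← hj]
      subst hx
      subst hj0
      rw [w.pre_at (by omega), w.pre_at (by omega), w.del_at ht (by omega)]
      split_ifs <;> first | omega | simp
    · simp
  first j x := by
    unfold Fi
    split_ifs with h
    · have hx : x = (w.vis 0).1 := by rw [h]
      have hj0 : j = (w.vis 0).2 := by rw [h]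
      subst hx
      subst hj0
      rw [w.pre_at (by omega), w.del_at ht (by omega)]
      split_ifs <;> first | omega | simp
    · simp
  last j x := by
    unfold La
    split_ifs with h
    · have hx : x = (w.vis w.L).1 := by rw [h]
      have hj0 : j = (w.vis w.L).2 := by rw [h]
      subst hx
      subst hj0
      rw [w.pre_at le_rfl]
      split_ifs <;> first | omega | simp
    · simp

theorem ext_of_rel {D M : J → Γ → K} (h : w.Rel D M) {t : ℕ} (ht : t ≤ w.L)
    (hD : ∀ s, s ≤ w.L → D (w.vis s).2 (w.vis s).1 = if s = t then 1 else 0)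
    (hM : ∀ s, s ≤ w.L → M (w.vis s).2 (w.vis s).1 = if s < t then 1 else 0) :
    D = w.del K t ∧ M = w.pre K t := by
  constructor
  · funext j x
    by_cases hv : ∃ s, s ≤ w.L ∧ w.vis s = (x, j)
    · obtain ⟨s, hs, hv⟩ := hv
      have hx : x = (w.vis s).1 := by rw [hv]
      have hj0 : j = (w.vis s).2 := by rw [hv]
      subst hx
      subst hj0
      rw [hD s hs, w.del_at ht hs]
    · have h1 := h.offD j x
      unfold Vis at h1
      rw [if_neg hv] at h1
      unfold del
      rw [if_neg (fun h' => hv ⟨t, ht, h'⟩)]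
      linear_combination h1
  · funext j x
    by_cases hv : ∃ s, s ≤ w.L ∧ w.vis s = (x, j)
    · obtain ⟨s, hs, hv⟩ := hv
      have hx : x = (w.vis s).1 := by rw [hv]
      have hj0 : j = (w.vis s).2 := by rw [hv]
      subst hx
      subst hj0
      rw [hM s hs, w.pre_at hs]
    · have h1 := h.offM j x
      unfold Vis at h1
      rw [if_neg hv] at h1
      unfold pre
      rw [if_neg (fun ⟨s, _, h2, h3⟩ => hv ⟨s, h2, h3⟩)]
      linear_combination h1

/-- LEMMA P2a -/
theorem p2a (D M : J → Γ → K) :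
    w.Rel D M ↔ ∃ t, t ≤ w.L ∧ D = w.del K t ∧ M = w.pre K t := by
  constructor
  · intro h
    -- `m s + d s` is `1` up to `t` and `0` afterwards
    set m : ℕ → K := fun s => M (w.vis s).2 (w.vis s).1 with hm
    set d : ℕ → K := fun s => D (w.vis s).2 (w.vis s).1 with hd
    have m01 : ∀ s, m s = 0 ∨ m s = 1 := fun s => zero_or_one (h.boolM _ _)
    have d01 : ∀ s, d s = 0 ∨ d s = 1 := fun s => zero_or_one (h.boolD _ _)
    have md : ∀ s, d s * m s = 0 := fun s => h.excl _ _
    have hlink : ∀ s, s < w.L → m s = m (s + 1) + d (s + 1) := fun s hs => h.link hs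
    have h0 : m 0 + d 0 = 1 := by
      have h1 := h.first (w.vis 0).2 (w.vis 0).1
      have hF : w.Fi K (w.vis 0).2 (w.vis 0).1 = 1 := by
        unfold Fi
        rw [if_pos (by simp)]
      rw [hF, one_mul] at h1
      simp only [hm, hd]
      linear_combination h1
    have hL : m w.L = 0 := by
      have h1 := h.last (w.vis w.L).2 (w.vis w.L).1
      have hF : w.La K (w.vis w.L).2 (w.vis w.L).1 = 1 := by
        unfold La
        rw [if_pos (by simp)]
      rw [hF, one_mul] at h1
      simpa [hm] using h1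
    -- zero stays zero
    have hzero : ∀ s, m s = 0 → ∀ r, s + r + 1 ≤ w.L → m (s + r + 1) = 0 ∧ d (s + r + 1) = 0 := by
      intro s hs r
      induction r with
      | zero =>
        intro hr
        have h1 := hlink s (by omega)
        rw [hs] at h1
        have h2 := md (s + 1)
        rcases m01 (s + 1) with h3 | h3
        · refine ⟨h3, ?_⟩
          rw [h3, zero_add] at h1
          exact h1.symm
        · rw [h3, mul_one] at h2
          rw [h3, h2] at h1
          simp at h1
      | succ r ih =>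
        intro hr
        have h0' := (ih (by omega)).1
        have h1 := hlink (s + r + 1) (by omega)
        rw [h0'] at h1
        have h2 := md (s + r + 1 + 1)
        rcases m01 (s + r + 1 + 1) with h3 | h3
        · refine ⟨h3, ?_⟩
          rw [h3, zero_add] at h1
          exact h1.symm
        · rw [h3, mul_one] at h2
          rw [h3, h2] at h1
          simp at h1
    -- the first `t` with `m t = 0`
    have hex : ∃ t, m t = 0 := ⟨w.L, hL⟩
    set t := Nat.find hex with ht
    have htm : m t = 0 := Nat.find_spec hex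
    have htL : t ≤ w.L := Nat.find_le hL
    have hlt : ∀ s, s < t → m s = 1 := by
      intro s hs
      rcases m01 s with h1 | h1
      · exact absurd h1 (Nat.find_min hex hs)
      · exact h1
    have hdt : d t = 1 := by
      rcases Nat.eq_zero_or_pos t with h1 | h1
      · rw [h1] at htm ⊢
        rw [htm, zero_add] at h0
        exact h0
      · have h2 := hlink (t - 1) (by omega)
        rw [show t - 1 + 1 = t by omega, htm, hlt (t - 1) (by omega), zero_add] at h2
        exact h2.symm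
    refine ⟨t, htL, w.ext_of_rel h htL ?_ ?_⟩
    · intro s hs
      change d s = _
      rcases lt_trichotomy s t with h1 | h1 | h1
      · have h2 := md s
        rw [hlt s h1, mul_one] at h2
        rw [h2, if_neg (by omega)]
      · rw [h1, if_pos rfl]
        exact hdt
      · have h2 := (hzero t htm (s - t - 1) (by omega)).2
        rw [show t + (s - t - 1) + 1 = s by omega] at h2
        rw [h2, if_neg (by omega)]
    · intro s hs
      change m s = _
      rcases lt_trichotomy s t with h1 | h1 | h1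
      · rw [hlt s h1, if_pos h1]
      · rw [h1, if_neg (lt_irrefl _)]
        exact htm
      · have h2 := (hzero t htm (s - t - 1) (by omega)).1
        rw [show t + (s - t - 1) + 1 = s by omega] at h2
        rw [h2, if_neg (by omega)]
  · rintro ⟨t, ht, rfl, rfl⟩
    exact w.rel_of ht

/-! ### guards -/

theorem only_iff (t : ℕ) (j : J) :
    (∀ i, i ≠ j → ∀ x, w.del K t i x = 0) ↔ (w.vis t).2 = j := by
  constructor
  · intro h
    by_contra hne
    have h1 := h _ hne (w.vis t).1
    rw [w.del_self] at h1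
    exact one_ne_zero h1
  · intro h i hi x
    exact w.del_ne (by rw [h]; exact hi) x

/-- any zero claim `f · D_j` at the pointer is a claim at the visited address -/
theorem claim_iff {t : ℕ} {j : J} (hj : (w.vis t).2 = j) (f : Γ → K) :
    (∀ x, f x * w.del K t j x = 0) ↔ f (w.vis t).1 = 0 := by
  subst hj
  constructor
  · intro h
    have h1 := h (w.vis t).1
    rwa [w.del_self, mul_one] at h1
  · intro h x
    unfold del
    split_ifs with h1
    · have hx : x = (w.vis t).1 := by rw [h1]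
      rw [hx, h, zero_mul]
    · rw [mul_zero]

theorem E_at {t : ℕ} (ht : t ≤ w.L) (g : G) (j' : J) :
    w.E K (w.vis t).2 g j' (w.vis t).1 =
      if t < w.L ∧ w.dir t = g ∧ (w.vis (t + 1)).2 = j' then 1 else 0 := by
  unfold E
  refine if_congr ⟨fun ⟨s, h1, h2, h3, h4⟩ => ?_, fun ⟨h1, h2, h3⟩ => ⟨t, h1, by simp, h2, h3⟩⟩
    rfl rfl
  have := w.inj s h1.le t ht (by simpa using h2)
  subst this
  exact ⟨h1, h3, h4⟩

/-- forward guard: the label `(j, g, j')` names the step at `t` -/
theorem guardF {t : ℕ} (ht : t ≤ w.L) (j : J) (g : G) (j' : J) :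
    ((∀ i, i ≠ j → ∀ x, w.del K t i x = 0) ∧
      (∀ x, (1 - w.E K j g j' x) * w.del K t j x = 0)) ↔
    (t < w.L ∧ (w.vis t).2 = j ∧ w.dir t = g ∧ (w.vis (t + 1)).2 = j') := by
  rw [w.only_iff]
  constructor
  · rintro ⟨h1, h2⟩
    rw [w.claim_iff h1 (fun x => 1 - w.E K j g j' x)] at h2
    subst h1
    rw [w.E_at ht] at h2
    by_cases h : t < w.L ∧ w.dir t = g ∧ (w.vis (t + 1)).2 = j'
    · exact ⟨h.1, rfl, h.2.1, h.2.2⟩
    · rw [if_neg h] at h2
      simp at h2
  · rintro ⟨h1, h2, h3, h4⟩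
    refine ⟨h2, ?_⟩
    rw [w.claim_iff h2 (fun x => 1 - w.E K j g j' x)]
    subst h2
    rw [w.E_at ht, if_pos ⟨h1, h3, h4⟩, sub_self]

/-- the old pointer word, read at the new one -/
theorem old_D {t : ℕ} (ht : t < w.L) :
    (fun x => w.del K (t + 1) (w.vis (t + 1)).2 (w.act (w.dir t) x)) =
      w.del K t (w.vis t).2 := by
  funext x
  unfold del
  refine if_congr ⟨fun h => ?_, fun h => ?_⟩ rfl rfl
  · have h1 : (w.vis (t + 1)).1 = w.act (w.dir t) x := by rw [h]
    rw [w.step t ht] at h1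
    have h2 := (w.act (w.dir t)).injective h1
    rw [← h2]
  · have h1 : x = (w.vis t).1 := by rw [h]
    rw [h1, ← w.step t ht]

/-- backward guard -/
theorem guardB {t' : ℕ} (ht : t' ≤ w.L) (j : J) (g : G) (j' : J) :
    ((∀ i, i ≠ j' → ∀ x, w.del K t' i x = 0) ∧
      (∀ x, (1 - w.E K j g j' x) * w.del K t' j' (w.act g x) = 0)) ↔
    (∃ t, t' = t + 1 ∧ (w.vis t).2 = j ∧ w.dir t = g ∧ (w.vis t').2 = j') := by
  rw [w.only_iff]
  constructor
  · rintro ⟨h1, h2⟩
    subst h1
    have h3 := h2 ((w.act g).symm (w.vis t').1)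
    rw [Equiv.apply_symm_apply, w.del_self, mul_one] at h3
    unfold E at h3
    split_ifs at h3 with h
    · obtain ⟨s, hs, hv, hg, hj⟩ := h
      have h4 : w.vis (s + 1) = w.vis t' := by
        refine Prod.ext ?_ hj
        rw [w.step s hs, hg, hv]
        simp
      have h5 := w.inj (s + 1) hs t' ht h4
      refine ⟨s, h5.symm, ?_, hg, rfl⟩
      rw [hv]
    · simp at h3
  · rintro ⟨t, rfl, h1, h2, h3⟩
    refine ⟨h3, ?_⟩
    intro x
    subst h1
    subst h2
    subst h3
    have h4 := congrFun (w.old_D (K := K) (t := t) (by omega)) x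
    rw [h4]
    have := (w.claim_iff (K := K) (t := t) rfl
      (fun x => 1 - w.E K (w.vis t).2 (w.dir t) (w.vis (t + 1)).2 x)).2 (by
        rw [w.E_at (by omega), if_pos ⟨by omega, rfl, rfl⟩, sub_self]) x
    exact this

theorem W_at {I : Type*} (ins : ℕ → Option I) {t : ℕ} (ht : t ≤ w.L) (i : I) :
    w.W K ins (w.vis t).2 i (w.vis t).1 = if t < w.L ∧ ins t = some i then 1 else 0 := by
  unfold W
  refine if_congr ⟨fun ⟨s, h1, h2, h3⟩ => ?_, fun ⟨h1, h2⟩ => ⟨t, h1, by simp, h2⟩⟩ rfl rfl
  have := w.inj s h1.le t ht (by simpa using h2)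
  subst this
  exact ⟨h1, h3⟩

/-- instruction claim, the instruction is `i` -/
theorem guardW_some {I : Type*} (ins : ℕ → Option I) {t : ℕ} (ht : t < w.L) (i : I) :
    (∀ x, (1 - w.W K ins (w.vis t).2 i x) * w.del K t (w.vis t).2 x = 0) ↔ ins t = some i := by
  rw [w.claim_iff rfl (fun x => 1 - w.W K ins (w.vis t).2 i x), w.W_at ins ht.le]
  constructor
  · intro h
    by_contra hne
    rw [if_neg (fun h' => hne h'.2)] at h
    simp at h
  · intro h
    rw [if_pos ⟨ht, h⟩, sub_self]

theorem sum_W {I : Type*} [Fintype I] (ins : ℕ → Option I) {t : ℕ} (ht : t ≤ w.L) :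
    ∑ i, w.W K ins (w.vis t).2 i (w.vis t).1 = if t < w.L ∧ ins t ≠ none then 1 else 0 := by
  simp only [w.W_at ins ht]
  by_cases h : t < w.L ∧ ins t ≠ none
  · rw [if_pos h]
    obtain ⟨i, hi⟩ := Option.ne_none_iff_exists'.1 h.2
    rw [Finset.sum_eq_single i]
    · rw [if_pos ⟨h.1, hi⟩]
    · intro b _ hb
      rw [if_neg]
      rintro ⟨_, h2⟩
      rw [hi] at h2
      exact hb (Option.some.inj h2).symm
    · intro h'
      exact absurd (Finset.mem_univ _) h'
  · rw [if_neg h]
    refine Finset.sum_eq_zero fun i _ => ?_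
    rw [if_neg]
    rintro ⟨h1, h2⟩
    exact h ⟨h1, by rw [h2]; simp⟩

/-- instruction claim, no instruction -/
theorem guardW_none {I : Type*} [Fintype I] (ins : ℕ → Option I) {t : ℕ} (ht : t < w.L) :
    (∀ x, (∑ i, w.W K ins (w.vis t).2 i x) * w.del K t (w.vis t).2 x = 0) ↔ ins t = none := by
  rw [w.claim_iff rfl (fun x => ∑ i, w.W K ins (w.vis t).2 i x), w.sum_W ins ht.le]
  constructor
  · intro h
    by_contra hne
    rw [if_pos ⟨ht, hne⟩] at h
    exact one_ne_zero h
  · intro h
    rw [if_neg (fun h' => h'.2 h)]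

/-- argument claim -/
theorem guardArg {t : ℕ} (f : Γ → K) (b : K) :
    (∀ x, (f x - b) * w.del K t (w.vis t).2 x = 0) ↔ f (w.vis t).1 = b := by
  rw [w.claim_iff rfl (fun x => f x - b), sub_eq_zero]

theorem del_eq_D0 {t : ℕ} (ht : t ≤ w.L) : w.del K t = w.Fi K ↔ t = 0 :=
  ⟨fun h => w.del_inj ht (Nat.zero_le _) h, fun h => by rw [h]; rfl⟩

theorem del_eq_DL {t : ℕ} (ht : t ≤ w.L) : w.del K t = w.La K ↔ t = w.L :=
  ⟨fun h => w.del_inj ht le_rfl h, fun h => by rw [h]; rfl⟩

/-! ### updates -/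

theorem pre_succ {t : ℕ} (ht : t ≤ w.L) (j : J) (x : Γ) :
    w.pre K (t + 1) j x = w.pre K t j x + w.del K t j x := by
  unfold pre del
  by_cases h : w.vis t = (x, j)
  · rw [if_pos ⟨t, by omega, ht, h⟩, if_neg, if_pos h, zero_add]
    rintro ⟨s, h1, h2, h3⟩
    have := w.inj s h2 t ht (h3.trans h.symm)
    omega
  · rw [if_neg h, add_zero]
    refine if_congr ⟨fun ⟨s, h1, h2, h3⟩ => ⟨s, ?_, h2, h3⟩,
      fun ⟨s, h1, h2, h3⟩ => ⟨s, by omega, h2, h3⟩⟩ rfl rfl
    rcases Nat.lt_succ_iff_lt_or_eq.1 h1 with h4 | h4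
    · exact h4
    · rw [h4] at h3
      exact absurd h3 h

/-- `M_j += D_j` at the label's `j` only -/
theorem up_M {t : ℕ} (ht : t ≤ w.L) :
    (fun i x => if i = (w.vis t).2 then w.pre K t i x + w.del K t i x else w.pre K t i x) =
      w.pre K (t + 1) := by
  funext i x
  rw [w.pre_succ ht]
  split_ifs with h
  · rfl
  · rw [w.del_ne h, add_zero]

/-- `M_j -= D_j` -/
theorem dn_M {t : ℕ} (ht : t ≤ w.L) :
    (fun i x => if i = (w.vis t).2 then w.pre K (t + 1) i x - w.del K t i x
      else w.pre K (t + 1) i x) = w.pre K t := by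
  funext i x
  rw [w.pre_succ ht]
  split_ifs with h
  · ring
  · rw [w.del_ne h, add_zero]

/-- new pointer word -/
theorem up_D {t : ℕ} (ht : t < w.L) :
    (fun i x => if i = (w.vis (t + 1)).2 then
      w.del K t (w.vis t).2 ((w.act (w.dir t)).symm x) else 0) = w.del K (t + 1) := by
  funext i x
  split_ifs with h
  · subst h
    have h4 := congrFun (w.old_D (K := K) ht) ((w.act (w.dir t)).symm x)
    simp only [Equiv.apply_symm_apply] at h4
    rw [← h4]
  · rw [w.del_ne h]

/-- old pointer word -/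
theorem dn_D {t : ℕ} (ht : t < w.L) :
    (fun i x => if i = (w.vis t).2 then
      w.del K (t + 1) (w.vis (t + 1)).2 (w.act (w.dir t) x) else 0) = w.del K t := by
  funext i x
  have h4 := congrFun (w.old_D (K := K) ht) x
  rw [h4]
  split_ifs with h
  · rw [h]
  · rw [w.del_ne h]

/-- the label of the step is unique, and at `t = L` there is none -/
theorem label_unique {t : ℕ} (ht : t ≤ w.L) {j j₂ : J} {g g₂ : G} {j' j₂' : J}
    (h : (∀ i, i ≠ j → ∀ x, w.del K t i x = 0) ∧
      (∀ x, (1 - w.E K j g j' x) * w.del K t j x = 0))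
    (h₂ : (∀ i, i ≠ j₂ → ∀ x, w.del K t i x = 0) ∧
      (∀ x, (1 - w.E K j₂ g₂ j₂' x) * w.del K t j₂ x = 0)) :
    j = j₂ ∧ g = g₂ ∧ j' = j₂' := by
  rw [w.guardF ht] at h h₂
  exact ⟨h.2.1.symm.trans h₂.2.1, h.2.2.1.symm.trans h₂.2.2.1, h.2.2.2.symm.trans h₂.2.2.2⟩

theorem labelB_unique {t' : ℕ} (ht : t' ≤ w.L) {j j₂ : J} {g g₂ : G} {j' j₂' : J}
    (h : (∀ i, i ≠ j' → ∀ x, w.del K t' i x = 0) ∧
      (∀ x, (1 - w.E K j g j' x) * w.del K t' j' (w.act g x) = 0))
    (h₂ : (∀ i, i ≠ j₂' → ∀ x, w.del K t' i x = 0) ∧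
      (∀ x, (1 - w.E K j₂ g₂ j₂' x) * w.del K t' j₂' (w.act g₂ x) = 0)) :
    j = j₂ ∧ g = g₂ ∧ j' = j₂' := by
  rw [w.guardB ht] at h h₂
  obtain ⟨t, h1, h2, h3, h4⟩ := h
  obtain ⟨r, h5, h6, h7, h8⟩ := h₂
  obtain rfl : t = r := by omega
  exact ⟨h2.symm.trans h6, h3.symm.trans h7, h4.symm.trans h8⟩

end Walk

end Crest.Agent.R289.Ptr490
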