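import Crest.Agent.R289.DefC_143
import Crest.Agent.R289.Ptr_490

/-!
Row 289, block C (helper490): the pointer of the machine of `DefC_143`, literal form.

* `walk hP` : the `Walk` of a layout.
* `ptr_of` : the pointer components of `mach` vanish ⇒ `D`, `M` are the encoded ones for a `t ≤ L`.
* `ptr_to` : converse.
* `ptr_iff`, `t_unique`.
-/

set_option autoImplicit false
set_option linter.unusedSectionVars false
set_option linter.unusedSimpArgs false

namespace Crest.Agent.R289.PtrC490

open DefC Ptr490 Classical

variable {Γ G Λ : Type} {J : ℕ} {act : G → Equiv.Perm Γ} {out : Λ} {P : Layout Γ G Λ J}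

/-- the walk of a layout -/
def walk (hP : P.OK act out) : Walk Γ G (Fin J) where
  L := P.L
  act := act
  vis := P.vis
  dir := P.dir
  inj s hs t ht h := hP.inj s t hs ht h
  step := hP.step

variable {K : Type} [CommRing K] [IsDomain K]

/-- the pointer components vanish -/
structure PRel (act : G → Equiv.Perm Γ) (P : Layout Γ G Λ J) (r : Rg Λ J → Γ → K) : Prop where
  boolD : ∀ (j : Fin J) x, (cex (K := K) (G := G) (Λ := Λ) (.bool (.D j))).evalC act (pubC P K) r x = 0
  boolM : ∀ (j : Fin J) x, (cex (K := K) (G := G) (Λ := Λ) (.bool (.M j))).evalC act (pubC P K) r x = 0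
  dm : ∀ (j : Fin J) x, (cex (K := K) (G := G) (Λ := Λ) (.dm j)).evalC act (pubC P K) r x = 0
  visD : ∀ (j : Fin J) x, (cex (K := K) (G := G) (Λ := Λ) (.visD j)).evalC act (pubC P K) r x = 0
  visM : ∀ (j : Fin J) x, (cex (K := K) (G := G) (Λ := Λ) (.visM j)).evalC act (pubC P K) r x = 0
  step : ∀ (j : Fin J) (g : G) (j' : Fin J) x,
    (cex (K := K) (G := G) (Λ := Λ) (.step j g j')).evalC act (pubC P K) r x = 0
  fi : ∀ (j : Fin J) x, (cex (K := K) (G := G) (Λ := Λ) (.fi j)).evalC act (pubC P K) r x = 0
  la : ∀ (j : Fin J) x, (cex (K := K) (G := G) (Λ := Λ) (.la j)).evalC act (pubC P K) r x = 0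

theorem ite_eq_ite' {p q : Prop} (i : Decidable p) (j : Decidable q) (h : p ↔ q) :
    (@ite K p i 1 0) = @ite K q j 1 0 := by
  by_cases hp : p
  · rw [if_pos hp, if_pos (h.1 hp)]
  · rw [if_neg hp, if_neg (fun hq => hp (h.2 hq))]

theorem pU (x : Γ) : pubC (J := J) P K .U x = 1 := rfl

theorem Vis_eq (hP : P.OK act out) (j : Fin J) (x : Γ) :
    (walk hP).Vis K j x = pubC P K (.Vis j) x := by
  unfold Walk.Vis pubC
  exact ite_eq_ite' _ _ Iff.rfl

theorem E_eq (hP : P.OK act out) (j : Fin J) (g : G) (j' : Fin J) (x : Γ) :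
    (walk hP).E K j g j' x = pubC P K (.E j g j') x := by
  unfold Walk.E pubC
  exact ite_eq_ite' _ _ Iff.rfl

theorem Fi_eq (hP : P.OK act out) (j : Fin J) (x : Γ) :
    (walk hP).Fi K j x = pubC P K (.Fi j) x := by
  unfold Walk.Fi pubC
  exact ite_eq_ite' _ _ Iff.rfl

theorem La_eq (hP : P.OK act out) (j : Fin J) (x : Γ) :
    (walk hP).La K j x = pubC P K (.La j) x := by
  unfold Walk.La pubC
  exact ite_eq_ite' _ _ Iff.rfl

theorem prel_iff (hP : P.OK act out) (r : Rg Λ J → Γ → K) :
    PRel act P r ↔ (walk hP).Rel (fun j => r (.D j)) (fun j => r (.M j)) := by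
  constructor
  · intro h
    refine ⟨?_, ?_, ?_, ?_, ?_, ?_, ?_, ?_⟩
    · intro j x
      have := h.boolD j x
      simp only [cex, PE.sub, PE.evalC, u, pU] at this
      linear_combination this
    · intro j x
      have := h.boolM j x
      simp only [cex, PE.sub, PE.evalC, u, pU] at this
      linear_combination this
    · intro j x
      have := h.dm j x
      simp only [cex, PE.sub, PE.evalC, u, pU] at this
      linear_combination this
    · intro j x
      have := h.visD j x
      simp only [cex, PE.sub, PE.evalC, u, pU] at this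
      rw [Vis_eq hP]
      linear_combination this
    · intro j x
      have := h.visM j x
      simp only [cex, PE.sub, PE.evalC, u, pU] at this
      rw [Vis_eq hP]
      linear_combination this
    · intro j g j' x
      have := h.step j g j' x
      simp only [cex, PE.sub, PE.evalC, u, pU] at this
      rw [E_eq hP]
      change _ * (_ - r (.M j') (act g x) - r (.D j') (act g x)) = 0
      linear_combination this
    · intro j x
      have := h.fi j x
      simp only [cex, PE.sub, PE.evalC, u, pU] at this
      rw [Fi_eq hP]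
      linear_combination this
    · intro j x
      have := h.la j x
      simp only [cex, PE.sub, PE.evalC, u, pU] at this
      rw [La_eq hP]
      linear_combination this
  · intro h
    refine ⟨?_, ?_, ?_, ?_, ?_, ?_, ?_, ?_⟩
    · intro j x
      have := h.boolD j x
      simp only [cex, PE.sub, PE.evalC, u, pU]
      linear_combination this
    · intro j x
      have := h.boolM j x
      simp only [cex, PE.sub, PE.evalC, u, pU]
      linear_combination this
    · intro j x
      have := h.excl j x
      simp only [cex, PE.sub, PE.evalC, u, pU]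
      linear_combination this
    · intro j x
      have := h.offD j x
      rw [Vis_eq hP] at this
      simp only [cex, PE.sub, PE.evalC, u, pU]
      linear_combination this
    · intro j x
      have := h.offM j x
      rw [Vis_eq hP] at this
      simp only [cex, PE.sub, PE.evalC, u, pU]
      linear_combination this
    · intro j g j' x
      have := h.next j g j' x
      rw [E_eq hP] at this
      change _ * (_ - r (.M j') (act g x) - r (.D j') (act g x)) = 0 at this
      simp only [cex, PE.sub, PE.evalC, u, pU]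
      linear_combination this
    · intro j x
      have := h.first j x
      rw [Fi_eq hP] at this
      simp only [cex, PE.sub, PE.evalC, u, pU]
      linear_combination this
    · intro j x
      have := h.last j x
      rw [La_eq hP] at this
      simp only [cex, PE.sub, PE.evalC, u, pU]
      linear_combination this

theorem del_eq (hP : P.OK act out) (t : ℕ) (j : Fin J) (a : Γ)
    (i : Decidable (P.vis t = (a, j))) :
    (walk hP).del K t j a = @ite K (P.vis t = (a, j)) i 1 0 := by
  unfold Walk.del
  exact ite_eq_ite' _ _ Iff.rfl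

theorem pre_eq (hP : P.OK act out) {t : ℕ} (ht : t ≤ P.L) (j : Fin J) (a : Γ)
    (i : Decidable (∃ s' < t, P.vis s' = (a, j))) :
    (walk hP).pre K t j a = @ite K (∃ s' < t, P.vis s' = (a, j)) i 1 0 := by
  unfold Walk.pre
  refine ite_eq_ite' _ _ ⟨fun ⟨s, h1, _, h3⟩ => ⟨s, h1, h3⟩, fun ⟨s, h1, h3⟩ => ⟨s, h1, ?_, h3⟩⟩
  change s ≤ P.L
  omega

section enc
variable [DecidableEq Γ] [DecidableEq Λ]

theorem encC_D (hP : P.OK act out) (s : Sg) (t : ℕ) (v : Fin P.n → Bool) (j : Fin J) :
    encC act out P K s t v (.D j) = (walk hP).del K t j := by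
  funext a
  rw [del_eq hP t j a (by infer_instance)]
  unfold encC
  exact ite_eq_ite' _ _ Iff.rfl

theorem encC_M (hP : P.OK act out) (s : Sg) {t : ℕ} (ht : t ≤ P.L) (v : Fin P.n → Bool)
    (j : Fin J) : encC act out P K s t v (.M j) = (walk hP).pre K t j := by
  funext a
  rw [pre_eq hP ht j a (Classical.propDecidable _)]
  unfold encC
  exact ite_eq_ite' _ _ Iff.rfl

/-- LEMMA P2a, literal: the pointer components vanish iff `D`, `M` are the encoded words of a
`t ≤ L` (which do not depend on the stage and on the name) -/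
theorem ptr_iff (hP : P.OK act out) (r : Rg Λ J → Γ → K) (s : Sg) (v : Fin P.n → Bool) :
    PRel act P r ↔ ∃ t ≤ P.L,
      (∀ j, r (.D j) = encC act out P K s t v (.D j)) ∧
      (∀ j, r (.M j) = encC act out P K s t v (.M j)) := by
  rw [prel_iff hP, Walk.p2a]
  constructor
  · rintro ⟨t, ht, h1, h2⟩
    refine ⟨t, ht, ?_, ?_⟩
    · intro j
      rw [encC_D hP, ← h1]
    · intro j
      rw [encC_M hP s ht, ← h2]
  · rintro ⟨t, ht, h1, h2⟩
    refine ⟨t, ht, ?_, ?_⟩
    · funext j a
      rw [h1, encC_D hP]
    · funext j a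
      rw [h2, encC_M hP s ht]

/-- the pointer part of legality, for any stage and any name -/
theorem ptr_of_legal (hP : P.OK act out) (s : Sg) (r : Rg Λ J → Γ → K)
    (h : (mach (K := K) (G := G) (J := J) out).Legal act (pubC P K) s r) :
    ∃ t ≤ P.L, ∀ s' (v : Fin P.n → Bool),
      (∀ j, r (.D j) = encC act out P K s' t v (.D j)) ∧
      (∀ j, r (.M j) = encC act out P K s' t v (.M j)) := by
  have hc := h.1
  have hr : PRel act P r := by
    refine ⟨fun j => hc (.bool (.D j)) ?_, fun j => hc (.bool (.M j)) ?_, fun j => hc (.dm j) ?_,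
      fun j => hc (.visD j) ?_, fun j => hc (.visM j) ?_, fun j g j' => hc (.step j g j') ?_,
      fun j => hc (.fi j) ?_, fun j => hc (.la j) ?_⟩ <;> cases s <;> exact trivial
  obtain ⟨t, ht, h1, h2⟩ := (ptr_iff hP r s (fun _ => false)).1 hr
  refine ⟨t, ht, fun s' v => ⟨fun j => ?_, fun j => ?_⟩⟩
  · rw [h1, encC_D hP, encC_D hP]
  · rw [h2, encC_M hP _ ht, encC_M hP _ ht]

/-- converse: the pointer components vanish on encoded words -/
theorem prel_enc (hP : P.OK act out) (s : Sg) {t : ℕ} (ht : t ≤ P.L) (v : Fin P.n → Bool) :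
    PRel act P (encC act out P K s t v) :=
  (ptr_iff hP _ s v).2 ⟨t, ht, fun _ => rfl, fun _ => rfl⟩

end enc

/-- the time is unique -/
theorem t_unique (hP : P.OK act out) {t t' : ℕ} (ht : t ≤ P.L) (ht' : t' ≤ P.L)
    (h : P.vis t = P.vis t') : t = t' := hP.inj t t' ht ht' h

end Crest.Agent.R289.PtrC490
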