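import Crest.Agent.R289.PubC_965
import Crest.Agent.R289.PubBits_92

/-!
# Row 289, leaf E20: contents of the public words of `DefC_143` as tables, RELATIVE form

Instances `i : ι` with code `raw i : α`; the layout `P i` exists only for instances.  `LayPTR` = tables which
are polynomial-time on all of `α` and describe `P i` at `raw i`.  `LayPTR.bit`, `LayPTR.pub`,
`LayPTR.tab` (the form `Tab` of `PubBits_92`), `exists_layPTR_of_num`, `LayPTR.ofAbs`.
-/

set_option autoImplicit false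
set_option linter.unusedSectionVars false

namespace Crest.Agent.R289.PubCR965

open Crest.Agent.Lib.PT Crest.Agent.Lib.PT.Arith Crest.Agent.R289.DefC
open Crest.Agent.R289.PubC965 (bitP pubC_eq)

section fam

variable {α ι : Type} [PTCode α] {G Λ : Type} {J : ℕ}

/-- a relation between instances and times `≤ L` is decided in polynomial time -/
def OnLR (raw : ι → α) (L : ι → ℕ) (R : ι → ℕ → Prop) : Prop :=
  ∃ q : α × ℕ → Prop, PTPred q ∧ ∀ i s, s ≤ L i → (q (raw i, s) ↔ R i s)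

/-- polynomial-time data of a family of layouts, relative form -/
structure LayPTR (raw : ι → α) (Γ : ι → Type) (N : α → ℕ) (e : ∀ i, Γ i ≃ Fin (N (raw i)))
    (P : ∀ i, Layout (Γ i) G Λ J) where
  /-- length -/
  Ln : α → ℕ
  hL : PTU Ln
  L_eq : ∀ i, Ln (raw i) = (P i).L
  /-- number of name positions -/
  nn : α → ℕ
  hn : PTU nn
  n_eq : ∀ i, nn (raw i) = (P i).n
  /-- address number of the visit `s ≤ L` -/
  va : α → ℕ → ℕ
  hva : PTF (fun p : α × ℕ => va p.1 p.2)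
  va_eq : ∀ i s, s ≤ (P i).L → va (raw i) s = (e i ((P i).vis s).1 : ℕ)
  /-- address number of the name position -/
  al : α → ℕ → ℕ
  hal : PTF (fun p : α × ℕ => al p.1 p.2)
  al_eq : ∀ i (m : Fin (P i).n), al (raw i) m = (e i ((P i).al m) : ℕ)
  lane : ∀ j : Fin J, OnLR raw (fun i => (P i).L) (fun i s => ((P i).vis s).2 = j)
  dir : ∀ g : G, OnLR raw (fun i => (P i).L) (fun i s => s < (P i).L → (P i).dir s = g)
  ins : ∀ (c : Bool) (l : Λ) (k : Op G Λ),
    OnLR raw (fun i => (P i).L) (fun i s => s < (P i).L → (P i).ins c s = some (l, k))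
  emp : ∀ c : Bool,
    OnLR raw (fun i => (P i).L) (fun i s => s < (P i).L → (P i).ins c s = none)
  wrt : ∀ (c : Bool) (l : Λ),
    OnLR raw (fun i => (P i).L) (fun i s => s < (P i).L → ∃ k, (P i).ins c s = some (l, k))

variable {raw : ι → α} {Γ : ι → Type} {N : α → ℕ} {e : ∀ i, Γ i ≃ Fin (N (raw i))}
  {P : ∀ i, Layout (Γ i) G Λ J}

theorem num_eq_iff (i : ι) {x y : Γ i} : ((e i x : ℕ) = (e i y : ℕ)) ↔ x = y := by
  rw [Fin.val_inj, (e i).apply_eq_iff_eq]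

theorem vis_iff (H : LayPTR raw Γ N e P) (i : ι) {s : ℕ} (hs : s ≤ (P i).L) (x : Γ i)
    (j : Fin J) : (P i).vis s = (x, j) ↔
      H.va (raw i) s = (e i x : ℕ) ∧ ((P i).vis s).2 = j := by
  rw [H.va_eq i s hs, num_eq_iff, Prod.ext_iff]

/-- bounded search over the times `s < L` -/
theorem ex_lt (H : LayPTR raw Γ N e P) {R : α × ℕ → ℕ → Prop}
    (hR : PTPred (fun p : (α × ℕ) × ℕ => R p.1 p.2)) :
    PTPred (fun p : α × ℕ => ∃ s < H.Ln p.1, R p s) :=
  PTPred.exists_lt (n := fun p : α × ℕ => H.Ln p.1) (PTU.comp (n := H.Ln) H.hL PTF.fst) hR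

theorem ex_le (H : LayPTR raw Γ N e P) {R : α × ℕ → ℕ → Prop}
    (hR : PTPred (fun p : (α × ℕ) × ℕ => R p.1 p.2)) :
    PTPred (fun p : α × ℕ => ∃ s ≤ H.Ln p.1, R p s) := by
  have h := PTPred.exists_lt (n := fun p : α × ℕ => H.Ln p.1 + 1)
    (PTU.add (PTU.comp (n := H.Ln) H.hL PTF.fst) (PTU.const 1)) hR
  refine h.of_iff fun p => ?_
  simp only [Nat.lt_succ_iff]

theorem ptf_vaq (H : LayPTR raw Γ N e P) :
    PTF (fun q : (α × ℕ) × ℕ => H.va q.1.1 q.2) :=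
  PTF.comp (g := fun p : α × ℕ => H.va p.1 p.2) (f := fun q : (α × ℕ) × ℕ => (q.1.1, q.2))
    H.hva (by fun_prop)

theorem pt_vaEq (H : LayPTR raw Γ N e P) :
    PTPred (fun q : (α × ℕ) × ℕ => H.va q.1.1 q.2 = q.1.2) :=
  PTPred.natEq (ptf_vaq H) (by fun_prop)

theorem pt_q {q : α × ℕ → Prop} (hq : PTPred q) :
    PTPred (fun p : (α × ℕ) × ℕ => q (p.1.1, p.2)) :=
  hq.comp (f := fun p : (α × ℕ) × ℕ => (p.1.1, p.2)) (by fun_prop)

theorem pt_q1 {q : α × ℕ → Prop} (hq : PTPred q) :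
    PTPred (fun p : (α × ℕ) × ℕ => q (p.1.1, p.2 + 1)) :=
  hq.comp (f := fun p : (α × ℕ) × ℕ => (p.1.1, p.2 + 1)) (by fun_prop)

/-- **content bits of all public words are polynomial-time** -/
theorem LayPTR.bit (H : LayPTR raw Γ N e P) (pb : Pb G Λ J) :
    ∃ q : α × ℕ → Prop, PTPred q ∧
      ∀ i (x : Γ i), q (raw i, (e i x : ℕ)) ↔ bitP (P i) pb x := by
  have hva0 : PTF (fun p : α × ℕ => H.va p.1 0) :=
    PTF.comp (g := fun p : α × ℕ => H.va p.1 p.2) (f := fun p : α × ℕ => (p.1, 0)) H.hva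
      (by fun_prop)
  have hLf : PTF (fun p : α × ℕ => H.Ln p.1) :=
    (PTU.comp (n := H.Ln) H.hL (PTF.fst (α := α) (β := ℕ))).toPTF
  have hvaL : PTF (fun p : α × ℕ => H.va p.1 (H.Ln p.1)) :=
    PTF.comp (g := fun p : α × ℕ => H.va p.1 p.2) (f := fun p : α × ℕ => (p.1, H.Ln p.1)) H.hva
      (by fun_prop)
  cases pb with
  | U => exact ⟨fun _ => True, PTPred.const True, fun i x => Iff.rfl⟩
  | IN =>
    refine ⟨fun p => ∃ m < H.nn p.1, H.al p.1 m = p.2, ?_, fun i x => ?_⟩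
    · refine PTPred.exists_lt (n := fun p : α × ℕ => H.nn p.1)
        (PTU.comp (n := H.nn) H.hn PTF.fst) (PTPred.natEq ?_ (by fun_prop))
      exact PTF.comp (g := fun p : α × ℕ => H.al p.1 p.2)
        (f := fun q : (α × ℕ) × ℕ => (q.1.1, q.2)) H.hal (by fun_prop)
    · constructor
      · rintro ⟨m, hm, h⟩
        have hm' : m < (P i).n := by rw [← H.n_eq i]; exact hm
        refine ⟨⟨m, hm'⟩, ?_⟩
        rw [← num_eq_iff (e := e) i, ← H.al_eq i ⟨m, hm'⟩]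
        exact h
      · rintro ⟨m, rfl⟩
        exact ⟨m, by rw [H.n_eq i]; exact m.2, H.al_eq i m⟩
  | Vis j =>
    obtain ⟨ql, hql, hl⟩ := H.lane j
    refine ⟨fun p => ∃ s ≤ H.Ln p.1, H.va p.1 s = p.2 ∧ ql (p.1, s), ?_, fun i x => ?_⟩
    · exact ex_le H ((pt_vaEq H).and (pt_q hql))
    · constructor
      · rintro ⟨s, hs, h1, h2⟩
        have hs : s ≤ (P i).L := by rw [← H.L_eq i]; exact hs
        exact ⟨s, hs, (vis_iff H i hs x j).2 ⟨h1, (hl i s hs).1 h2⟩⟩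
      · rintro ⟨s, hs, h⟩
        have h' := (vis_iff H i hs x j).1 h
        exact ⟨s, by rw [H.L_eq i]; exact hs, h'.1, (hl i s hs).2 h'.2⟩
  | E j g j' =>
    obtain ⟨ql, hql, hl⟩ := H.lane j
    obtain ⟨qm, hqm, hm⟩ := H.lane j'
    obtain ⟨qd, hqd, hd⟩ := H.dir g
    refine ⟨fun p => ∃ s < H.Ln p.1, (H.va p.1 s = p.2 ∧ ql (p.1, s)) ∧
      (qd (p.1, s) ∧ qm (p.1, s + 1)), ?_, fun i x => ?_⟩
    · exact ex_lt H (((pt_vaEq H).and (pt_q hql)).and ((pt_q hqd).and (pt_q1 hqm)))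
    · constructor
      · rintro ⟨s, hs, ⟨h1, h2⟩, h3, h4⟩
        have hs : s < (P i).L := by rw [← H.L_eq i]; exact hs
        exact ⟨s, hs, (vis_iff H i hs.le x j).2 ⟨h1, (hl i s hs.le).1 h2⟩,
          (hd i s hs.le).1 h3 hs, (hm i (s + 1) hs).1 h4⟩
      · rintro ⟨s, hs, h, h3, h4⟩
        have h' := (vis_iff H i hs.le x j).1 h
        exact ⟨s, by rw [H.L_eq i]; exact hs, ⟨h'.1, (hl i s hs.le).2 h'.2⟩,
          (hd i s hs.le).2 fun _ => h3, (hm i (s + 1) hs).2 h4⟩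
  | Fi j =>
    obtain ⟨ql, hql, hl⟩ := H.lane j
    refine ⟨fun p => H.va p.1 0 = p.2 ∧ ql (p.1, 0), ?_, fun i x => ?_⟩
    · exact (PTPred.natEq hva0 (by fun_prop)).and
        (hql.comp (f := fun p : α × ℕ => (p.1, 0)) (by fun_prop))
    · change _ ↔ (P i).vis 0 = (x, j)
      exact (and_congr Iff.rfl (hl i 0 (Nat.zero_le _))).trans
        (vis_iff H i (Nat.zero_le _) x j).symm
  | La j =>
    obtain ⟨ql, hql, hl⟩ := H.lane j
    refine ⟨fun p => H.va p.1 (H.Ln p.1) = p.2 ∧ ql (p.1, H.Ln p.1), ?_, fun i x => ?_⟩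
    · exact (PTPred.natEq hvaL (by fun_prop)).and
        (hql.comp (f := fun p : α × ℕ => (p.1, H.Ln p.1)) (by fun_prop))
    · change (H.va (raw i) (H.Ln (raw i)) = _ ∧ ql (raw i, H.Ln (raw i))) ↔
        (P i).vis (P i).L = (x, j)
      rw [H.L_eq i]
      exact (and_congr Iff.rfl (hl i _ le_rfl)).trans (vis_iff H i le_rfl x j).symm
  | W c j l k =>
    obtain ⟨ql, hql, hl⟩ := H.lane j
    obtain ⟨qi, hqi, hi⟩ := H.ins c l k
    refine ⟨fun p => ∃ s < H.Ln p.1, (H.va p.1 s = p.2 ∧ ql (p.1, s)) ∧ qi (p.1, s), ?_,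
      fun i x => ?_⟩
    · exact ex_lt H (((pt_vaEq H).and (pt_q hql)).and (pt_q hqi))
    · constructor
      · rintro ⟨s, hs, ⟨h1, h2⟩, h3⟩
        have hs : s < (P i).L := by rw [← H.L_eq i]; exact hs
        exact ⟨s, hs, (vis_iff H i hs.le x j).2 ⟨h1, (hl i s hs.le).1 h2⟩,
          (hi i s hs.le).1 h3 hs⟩
      · rintro ⟨s, hs, h, h3⟩
        have h' := (vis_iff H i hs.le x j).1 h
        exact ⟨s, by rw [H.L_eq i]; exact hs, ⟨h'.1, (hl i s hs.le).2 h'.2⟩,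
          (hi i s hs.le).2 fun _ => h3⟩
  | Wa c j =>
    obtain ⟨ql, hql, hl⟩ := H.lane j
    obtain ⟨qi, hqi, hi⟩ := H.emp c
    refine ⟨fun p => ∃ s < H.Ln p.1, (H.va p.1 s = p.2 ∧ ql (p.1, s)) ∧ ¬ qi (p.1, s), ?_,
      fun i x => ?_⟩
    · exact ex_lt H (((pt_vaEq H).and (pt_q hql)).and (pt_q hqi).not)
    · constructor
      · rintro ⟨s, hs, ⟨h1, h2⟩, h3⟩
        have hs : s < (P i).L := by rw [← H.L_eq i]; exact hs
        exact ⟨s, hs, (vis_iff H i hs.le x j).2 ⟨h1, (hl i s hs.le).1 h2⟩,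
          fun h => h3 ((hi i s hs.le).2 fun _ => h)⟩
      · rintro ⟨s, hs, h, h3⟩
        have h' := (vis_iff H i hs.le x j).1 h
        exact ⟨s, by rw [H.L_eq i]; exact hs, ⟨h'.1, (hl i s hs.le).2 h'.2⟩,
          fun h4 => h3 ((hi i s hs.le).1 h4 hs)⟩
  | Wc c l =>
    obtain ⟨qi, hqi, hi⟩ := H.wrt c l
    refine ⟨fun p => ∃ s < H.Ln p.1, H.va p.1 s = p.2 ∧ qi (p.1, s), ?_, fun i x => ?_⟩
    · exact ex_lt H ((pt_vaEq H).and (pt_q hqi))
    · constructor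
      · rintro ⟨s, hs, h1, h3⟩
        have hs : s < (P i).L := by rw [← H.L_eq i]; exact hs
        refine ⟨s, hs, ?_, (hi i s hs.le).1 h3 hs⟩
        rw [← num_eq_iff (e := e) i, ← H.va_eq i s hs.le]
        exact h1
      · rintro ⟨s, hs, rfl, h3⟩
        exact ⟨s, by rw [H.L_eq i]; exact hs, H.va_eq i s hs.le, (hi i s hs.le).2 fun _ => h3⟩
  | D0 j =>
    obtain ⟨ql, hql, hl⟩ := H.lane j
    refine ⟨fun p => H.va p.1 0 = p.2 ∧ ql (p.1, 0), ?_, fun i x => ?_⟩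
    · exact (PTPred.natEq hva0 (by fun_prop)).and
        (hql.comp (f := fun p : α × ℕ => (p.1, 0)) (by fun_prop))
    · change _ ↔ (P i).vis 0 = (x, j)
      exact (and_congr Iff.rfl (hl i 0 (Nat.zero_le _))).trans
        (vis_iff H i (Nat.zero_le _) x j).symm
  | DL j =>
    obtain ⟨ql, hql, hl⟩ := H.lane j
    refine ⟨fun p => H.va p.1 (H.Ln p.1) = p.2 ∧ ql (p.1, H.Ln p.1), ?_, fun i x => ?_⟩
    · exact (PTPred.natEq hvaL (by fun_prop)).and
        (hql.comp (f := fun p : α × ℕ => (p.1, H.Ln p.1)) (by fun_prop))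
    · change (H.va (raw i) (H.Ln (raw i)) = _ ∧ ql (raw i, H.Ln (raw i))) ↔
        (P i).vis (P i).L = (x, j)
      rw [H.L_eq i]
      exact (and_congr Iff.rfl (hl i _ le_rfl)).trans (vis_iff H i le_rfl x j).symm
  | Full j =>
    obtain ⟨ql, hql, hl⟩ := H.lane j
    refine ⟨fun p => ∃ s < H.Ln p.1, H.va p.1 s = p.2 ∧ ql (p.1, s), ?_, fun i x => ?_⟩
    · exact ex_lt H ((pt_vaEq H).and (pt_q hql))
    · constructor
      · rintro ⟨s, hs, h1, h2⟩
        have hs : s < (P i).L := by rw [← H.L_eq i]; exact hs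
        exact ⟨s, hs, (vis_iff H i hs.le x j).2 ⟨h1, (hl i s hs.le).1 h2⟩⟩
      · rintro ⟨s, hs, h⟩
        have h' := (vis_iff H i hs.le x j).1 h
        exact ⟨s, by rw [H.L_eq i]; exact hs, h'.1, (hl i s hs.le).2 h'.2⟩

/-- the content of a public word as a polynomial-time table with values in `K` -/
theorem LayPTR.pub (H : LayPTR raw Γ N e P) {K : Type} [CommRing K] [PTCode K]
    (pb : Pb G Λ J) :
    ∃ T : α → ℕ → K, PTF (fun p : α × ℕ => T p.1 p.2) ∧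
      ∀ i (x : Γ i), T (raw i) (e i x : ℕ) = pubC (P i) K pb x := by
  classical
  obtain ⟨q, hq, h⟩ := H.bit pb
  refine ⟨fun a n => if q (a, n) then 1 else 0, ?_, fun i x => ?_⟩
  · exact PTF.ite (p := fun p : α × ℕ => q (p.1, p.2))
      (hq.comp (f := fun p : α × ℕ => (p.1, p.2)) (by fun_prop)) (PTF.const 1) (PTF.const 0)
  · rw [pubC_eq]
    simp only [h i x]

/-- the same in the vocabulary of `PubBits_92` -/
theorem LayPTR.tab (H : LayPTR raw Γ N e P) {K : Type} [CommRing K] [PTCode K]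
    (pb : Pb G Λ J) : PubBits92.Tab raw e (fun i x => pubC (P i) K pb x) := H.pub pb

/-- a predicate form for finite value types -/
theorem LayPTR.tabBool (H : LayPTR raw Γ N e P) (pb : Pb G Λ J) :
    ∃ T : α → ℕ → Bool, PTF (fun p : α × ℕ => T p.1 p.2) ∧
      ∀ i (x : Γ i), (T (raw i) (e i x : ℕ) = true ↔ bitP (P i) pb x) := by
  classical
  obtain ⟨q, hq, h⟩ := H.bit pb
  refine ⟨fun a n => decide (q (a, n)), ?_, fun i x => ?_⟩
  · exact PTPred.toPTF (p := fun p : α × ℕ => q (p.1, p.2))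
      (hq.comp (f := fun p : α × ℕ => (p.1, p.2)) (by fun_prop))
  · rw [decide_eq_true_iff]
    exact h i x

/-- layouts whose visits, directions and instructions are given by numbers, relative form -/
theorem exists_layPTR_of_num [Finite G] [Finite Λ] (eG : G → ℕ) (hG : Function.Injective eG)
    (eI : Option (Λ × Op G Λ) → ℕ) (hI : Function.Injective eI)
    (Ln nn : α → ℕ) (hL : PTU Ln) (L_eq : ∀ i, Ln (raw i) = (P i).L) (hn : PTU nn)
    (n_eq : ∀ i, nn (raw i) = (P i).n)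
    (va vl dg : α → ℕ → ℕ) (ic : Bool → α → ℕ → ℕ) (al : α → ℕ → ℕ)
    (hva : PTF (fun p : α × ℕ => va p.1 p.2)) (hvl : PTF (fun p : α × ℕ => vl p.1 p.2))
    (hdg : PTF (fun p : α × ℕ => dg p.1 p.2)) (hic : ∀ c, PTF (fun p : α × ℕ => ic c p.1 p.2))
    (hal : PTF (fun p : α × ℕ => al p.1 p.2))
    (va_eq : ∀ i s, s ≤ (P i).L → va (raw i) s = (e i ((P i).vis s).1 : ℕ))
    (vl_eq : ∀ i s, s ≤ (P i).L → vl (raw i) s = (((P i).vis s).2 : ℕ))
    (dg_eq : ∀ i s, s < (P i).L → dg (raw i) s = eG ((P i).dir s))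
    (ic_eq : ∀ c i s, s < (P i).L → ic c (raw i) s = eI ((P i).ins c s))
    (al_eq : ∀ i (m : Fin (P i).n), al (raw i) m = (e i ((P i).al m) : ℕ)) :
    Nonempty (LayPTR raw Γ N e P) := by
  have key : ∀ {f : α → ℕ → ℕ}, PTF (fun p : α × ℕ => f p.1 p.2) → ∀ m : ℕ,
      PTPred (fun p : α × ℕ => (p.2 < Ln p.1 → f p.1 p.2 = m)) := by
    intro f hf m
    refine (PTPred.natLt (by fun_prop) ?_).imp (PTPred.natEq hf (PTF.const m))
    exact (PTU.comp (n := Ln) hL (PTF.fst (α := α) (β := ℕ))).toPTF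
  have hlt : ∀ i s {Q R : Prop}, ((s < (P i).L → Q) ↔ R) → ((s < Ln (raw i) → Q) ↔ R) := by
    intro i s Q R h
    rw [L_eq i]
    exact h
  refine ⟨{ Ln := Ln, hL := hL, L_eq := L_eq, nn := nn, hn := hn, n_eq := n_eq, va := va,
            hva := hva, va_eq := va_eq, al := al, hal := hal,
            al_eq := al_eq, lane := fun j => ?_, dir := fun g => ?_, ins := fun c l k => ?_,
            emp := fun c => ?_, wrt := fun c l => ?_ }⟩
  · refine ⟨fun p => vl p.1 p.2 = (j : ℕ), PTPred.natEq hvl (PTF.const _), fun i s hs => ?_⟩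
    change vl (raw i) s = (j : ℕ) ↔ ((P i).vis s).2 = j
    rw [vl_eq i s hs, Fin.val_inj]
  · refine ⟨fun p => (p.2 < Ln p.1 → dg p.1 p.2 = eG g), key hdg _, fun i s hs => ?_⟩
    refine hlt i s (forall_congr' fun h => ?_)
    change dg (raw i) s = eG g ↔ (P i).dir s = g
    rw [dg_eq i s h, hG.eq_iff]
  · refine ⟨fun p => (p.2 < Ln p.1 → ic c p.1 p.2 = eI (some (l, k))), key (hic c) _,
      fun i s hs => ?_⟩
    refine hlt i s (forall_congr' fun h => ?_)
    change ic c (raw i) s = _ ↔ (P i).ins c s = some (l, k)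
    rw [ic_eq c i s h, hI.eq_iff]
  · refine ⟨fun p => (p.2 < Ln p.1 → ic c p.1 p.2 = eI none), key (hic c) _,
      fun i s hs => ?_⟩
    refine hlt i s (forall_congr' fun h => ?_)
    change ic c (raw i) s = _ ↔ (P i).ins c s = none
    rw [ic_eq c i s h, hI.eq_iff]
  · classical
    obtain ⟨S, hS⟩ := (Set.toFinite {m : ℕ | ∃ k : Op G Λ, eI (some (l, k)) = m}).exists_finset
    refine ⟨fun p => (p.2 < Ln p.1 → ic c p.1 p.2 ∈ S.toList), ?_, fun i s hs => ?_⟩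
    · refine (PTPred.natLt (by fun_prop) ?_).imp (PTPred.mem (hic c) (PTF.const S.toList))
      exact (PTU.comp (n := Ln) hL (PTF.fst (α := α) (β := ℕ))).toPTF
    · refine hlt i s (forall_congr' fun h => ?_)
      change ic c (raw i) s ∈ S.toList ↔ ∃ k, (P i).ins c s = some (l, k)
      rw [Finset.mem_toList, hS, ic_eq c i s h]
      constructor
      · rintro ⟨k, hk⟩
        exact ⟨k, (hI hk).symm⟩
      · rintro ⟨k, hk⟩
        exact ⟨k, by rw [hk]⟩

/-- an absolute family gives a relative one -/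
def LayPTR.ofAbs {Γ : α → Type} {N : α → ℕ} {e : ∀ a, Γ a ≃ Fin (N a)}
    {P : ∀ a, Layout (Γ a) G Λ J} (H : PubC965.LayPT Γ N e P) (raw : ι → α) :
    LayPTR raw (fun i => Γ (raw i)) N (fun i => e (raw i)) (fun i => P (raw i)) where
  Ln := fun a => (P a).L
  hL := H.hL
  L_eq _ := rfl
  nn := fun a => (P a).n
  hn := H.hn
  n_eq _ := rfl
  va := H.va
  hva := H.hva
  va_eq i := H.va_eq (raw i)
  al := H.al
  hal := H.hal
  al_eq i := H.al_eq (raw i)
  lane j := (H.lane j).imp fun _ h => ⟨h.1, fun i => h.2 (raw i)⟩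
  dir g := (H.dir g).imp fun _ h => ⟨h.1, fun i => h.2 (raw i)⟩
  ins c l k := (H.ins c l k).imp fun _ h => ⟨h.1, fun i => h.2 (raw i)⟩
  emp c := (H.emp c).imp fun _ h => ⟨h.1, fun i => h.2 (raw i)⟩
  wrt c l := (H.wrt c l).imp fun _ h => ⟨h.1, fun i => h.2 (raw i)⟩

end fam

end Crest.Agent.R289.PubCR965
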