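import Crest.Agent.R289.LayFamPT_328

/-!
# R289: contents of the public words, relative polynomial-time form (helper328)

Instances `i : ι` with codes `raw i : α`; tables are polynomial time on all of `α` and specified at
instances only.

* `RLay raw Γ N e P` : numbers of a family of layouts `P i`, `e i : Γ i ≃ Fin (N (raw i))`.
* `RLay.bit`, **`RLay.pub`** : `∃ T : α → ℕ → K, PTF ∧ ∀ i x, T (raw i) (e i x) = pubC (P i) K pb x`.
* `rlay` : the layouts `LayCv338.lay` on `P × R` with the steps of `LayNet896`.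
-/

set_option autoImplicit false
set_option linter.unusedSectionVars false

namespace Crest.Agent.R289.PubR328

open Crest.Agent.Lib.PT Crest.Agent.Lib.PT.Arith Crest.Agent.R289.DefC
open Crest.Agent.R289.PubC965 (bitP)
open Crest.Agent.R289.Layout109 (Stp2)
open Crest.Agent.R289.ToCL328 Crest.Agent.R289.LayFamPT328

section rel

variable {ι α : Type} [PTCode α] {G Λ : Type} {J : ℕ}

/-- numbers of a family of layouts, relative form -/
structure RLay (raw : ι → α) (Γ : ι → Type) (N : α → ℕ) (e : ∀ i, Γ i ≃ Fin (N (raw i)))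
    (P : ∀ i, Layout (Γ i) G Λ J) (eG : G → ℕ) (eI : Option (Λ × Op G Λ) → ℕ) where
  L : α → ℕ
  hL : PTU L
  L_eq : ∀ i, L (raw i) = (P i).L
  n : α → ℕ
  hn : PTU n
  n_eq : ∀ i, n (raw i) = (P i).n
  va : α → ℕ → ℕ
  hva : PTF (fun p : α × ℕ => va p.1 p.2)
  va_eq : ∀ i s, s ≤ (P i).L → va (raw i) s = (e i ((P i).vis s).1 : ℕ)
  vl : α → ℕ → ℕ
  hvl : PTF (fun p : α × ℕ => vl p.1 p.2)
  vl_eq : ∀ i s, s ≤ (P i).L → vl (raw i) s = (((P i).vis s).2 : ℕ)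
  dg : α → ℕ → ℕ
  hdg : PTF (fun p : α × ℕ => dg p.1 p.2)
  dg_eq : ∀ i s, s < (P i).L → dg (raw i) s = eG ((P i).dir s)
  ic : Bool → α → ℕ → ℕ
  hic : ∀ c, PTF (fun p : α × ℕ => ic c p.1 p.2)
  ic_eq : ∀ c i s, s < (P i).L → ic c (raw i) s = eI ((P i).ins c s)
  al : α → ℕ → ℕ
  hal : PTF (fun p : α × ℕ => al p.1 p.2)
  al_eq : ∀ i (k : Fin (P i).n), al (raw i) k = (e i ((P i).al k) : ℕ)

variable {raw : ι → α} {Γ : ι → Type} {N : α → ℕ} {e : ∀ i, Γ i ≃ Fin (N (raw i))}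
  {P : ∀ i, Layout (Γ i) G Λ J} {eG : G → ℕ} {eI : Option (Λ × Op G Λ) → ℕ}

namespace RLay

variable (H : RLay raw Γ N e P eG eI)
include H

theorem at_iff (i : ι) {s : ℕ} (hs : s ≤ (P i).L) (x : Γ i) (j : Fin J) :
    (P i).vis s = (x, j) ↔ H.va (raw i) s = (e i x : ℕ) ∧ H.vl (raw i) s = (j : ℕ) := by
  rw [H.va_eq i s hs, H.vl_eq i s hs, Fin.val_inj, Fin.val_inj, (e i).apply_eq_iff_eq,
    Prod.ext_iff]

theorem ptVa : PTPred (fun q : (α × ℕ) × ℕ => H.va q.1.1 q.2 = q.1.2) :=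
  PTPred.natEq (PTF.comp (g := fun p : α × ℕ => H.va p.1 p.2)
    (f := fun q : (α × ℕ) × ℕ => (q.1.1, q.2)) H.hva (by fun_prop)) (by fun_prop)

theorem ptVl (m : ℕ) : PTPred (fun q : (α × ℕ) × ℕ => H.vl q.1.1 q.2 = m) :=
  PTPred.natEq (PTF.comp (g := fun p : α × ℕ => H.vl p.1 p.2)
    (f := fun q : (α × ℕ) × ℕ => (q.1.1, q.2)) H.hvl (by fun_prop)) (PTF.const m)

theorem ptVl1 (m : ℕ) : PTPred (fun q : (α × ℕ) × ℕ => H.vl q.1.1 (q.2 + 1) = m) :=
  PTPred.natEq (PTF.comp (g := fun p : α × ℕ => H.vl p.1 p.2)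
    (f := fun q : (α × ℕ) × ℕ => (q.1.1, q.2 + 1)) H.hvl (by fun_prop)) (PTF.const m)

theorem ptDg (m : ℕ) : PTPred (fun q : (α × ℕ) × ℕ => H.dg q.1.1 q.2 = m) :=
  PTPred.natEq (PTF.comp (g := fun p : α × ℕ => H.dg p.1 p.2)
    (f := fun q : (α × ℕ) × ℕ => (q.1.1, q.2)) H.hdg (by fun_prop)) (PTF.const m)

theorem ptfIc (c : Bool) : PTF (fun q : (α × ℕ) × ℕ => H.ic c q.1.1 q.2) :=
  PTF.comp (g := fun p : α × ℕ => H.ic c p.1 p.2)
    (f := fun q : (α × ℕ) × ℕ => (q.1.1, q.2)) (H.hic c) (by fun_prop)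

theorem ptIc (c : Bool) (m : ℕ) : PTPred (fun q : (α × ℕ) × ℕ => H.ic c q.1.1 q.2 = m) :=
  PTPred.natEq (H.ptfIc c) (PTF.const m)

theorem ex_lt {R : α × ℕ → ℕ → Prop} (hR : PTPred (fun p : (α × ℕ) × ℕ => R p.1 p.2)) :
    PTPred (fun p : α × ℕ => ∃ s < H.L p.1, R p s) :=
  PTPred.exists_lt (n := fun p : α × ℕ => H.L p.1) (PTU.comp (n := H.L) H.hL PTF.fst) hR

theorem ex_le {R : α × ℕ → ℕ → Prop} (hR : PTPred (fun p : (α × ℕ) × ℕ => R p.1 p.2)) :
    PTPred (fun p : α × ℕ => ∃ s ≤ H.L p.1, R p s) := by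
  have h := PTPred.exists_lt (n := fun p : α × ℕ => H.L p.1 + 1)
    (PTU.add (PTU.comp (n := H.L) H.hL PTF.fst) (PTU.const 1)) hR
  refine h.of_iff fun p => ?_
  simp only [Nat.lt_succ_iff]

theorem bit_Fi (j : Fin J) : ∃ q : α × ℕ → Prop, PTPred q ∧
    ∀ i (x : Γ i), q (raw i, (e i x : ℕ)) ↔ (P i).vis 0 = (x, j) := by
  refine ⟨fun p => H.va p.1 0 = p.2 ∧ H.vl p.1 0 = (j : ℕ), ?_, fun i x => ?_⟩
  · exact (H.ptVa.comp (f := fun p : α × ℕ => (p, 0)) (by fun_prop)).and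
      ((H.ptVl j).comp (f := fun p : α × ℕ => (p, 0)) (by fun_prop))
  · exact (H.at_iff i (Nat.zero_le _) x j).symm

theorem bit_La (j : Fin J) : ∃ q : α × ℕ → Prop, PTPred q ∧
    ∀ i (x : Γ i), q (raw i, (e i x : ℕ)) ↔ (P i).vis (P i).L = (x, j) := by
  have hLf : PTF (fun p : α × ℕ => (p, H.L p.1)) :=
    PTF.prodMk PTF.id (PTU.comp (n := H.L) H.hL (PTF.fst (α := α) (β := ℕ))).toPTF
  refine ⟨fun p => H.va p.1 (H.L p.1) = p.2 ∧ H.vl p.1 (H.L p.1) = (j : ℕ), ?_, fun i x => ?_⟩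
  · exact (H.ptVa.comp (f := fun p : α × ℕ => (p, H.L p.1)) hLf).and
      ((H.ptVl j).comp (f := fun p : α × ℕ => (p, H.L p.1)) hLf)
  · have := (H.at_iff i le_rfl x j).symm
    rw [← H.L_eq i] at this ⊢
    exact this

theorem bit_ex (j : Fin J) {Rn : α × ℕ → ℕ → Prop}
    (hRn : PTPred (fun p : (α × ℕ) × ℕ => Rn p.1 p.2)) {R : ι → ℕ → Prop}
    (hR : ∀ i s (x : Γ i), s < (P i).L → (Rn (raw i, (e i x : ℕ)) s ↔ R i s)) :
    ∃ q : α × ℕ → Prop, PTPred q ∧ ∀ i (x : Γ i), q (raw i, (e i x : ℕ)) ↔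
      ∃ s < (P i).L, (P i).vis s = (x, j) ∧ R i s := by
  refine ⟨fun p => ∃ s < H.L p.1, (H.va p.1 s = p.2 ∧ H.vl p.1 s = (j : ℕ)) ∧ Rn p s, ?_,
    fun i x => ?_⟩
  · exact H.ex_lt ((H.ptVa.and (H.ptVl j)).and hRn)
  · constructor
    · rintro ⟨s, hs, h1, h2⟩
      have hs' : s < (P i).L := by rw [← H.L_eq i]; exact hs
      exact ⟨s, hs', (H.at_iff i hs'.le x j).2 h1, (hR i s x hs').1 h2⟩
    · rintro ⟨s, hs, h1, h2⟩
      exact ⟨s, by rw [H.L_eq i]; exact hs, (H.at_iff i hs.le x j).1 h1, (hR i s x hs).2 h2⟩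

/-- **content bits of all public words are polynomial-time** -/
theorem bit [Finite G] [Finite Λ] (hG : Function.Injective eG) (hI : Function.Injective eI)
    (pb : Pb G Λ J) :
    ∃ q : α × ℕ → Prop, PTPred q ∧ ∀ i (x : Γ i), q (raw i, (e i x : ℕ)) ↔ bitP (P i) pb x := by
  cases pb with
  | U => exact ⟨fun _ => True, PTPred.const True, fun a x => Iff.rfl⟩
  | IN =>
    refine ⟨fun p => ∃ k < H.n p.1, H.al p.1 k = p.2, ?_, fun i x => ?_⟩
    · refine PTPred.exists_lt (n := fun p : α × ℕ => H.n p.1)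
        (PTU.comp (n := H.n) H.hn PTF.fst) (PTPred.natEq ?_ (by fun_prop))
      exact PTF.comp (g := fun p : α × ℕ => H.al p.1 p.2)
        (f := fun q : (α × ℕ) × ℕ => (q.1.1, q.2)) H.hal (by fun_prop)
    · constructor
      · rintro ⟨k, hk, h⟩
        have hk' : k < (P i).n := by rw [← H.n_eq i]; exact hk
        refine ⟨⟨k, hk'⟩, ?_⟩
        have h2 := H.al_eq i ⟨k, hk'⟩
        simp only at h h2
        rw [h] at h2
        exact (e i).injective (Fin.ext h2.symm)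
      · rintro ⟨k, rfl⟩
        exact ⟨k, by rw [H.n_eq i]; exact k.2, H.al_eq i k⟩
  | Vis j =>
    refine ⟨fun p => ∃ s ≤ H.L p.1, H.va p.1 s = p.2 ∧ H.vl p.1 s = (j : ℕ), ?_, fun i x => ?_⟩
    · exact H.ex_le (H.ptVa.and (H.ptVl j))
    · constructor
      · rintro ⟨s, hs, h1⟩
        have hs' : s ≤ (P i).L := by rw [← H.L_eq i]; exact hs
        exact ⟨s, hs', (H.at_iff i hs' x j).2 h1⟩
      · rintro ⟨s, hs, h1⟩
        exact ⟨s, by rw [H.L_eq i]; exact hs, (H.at_iff i hs x j).1 h1⟩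
  | E j g j' =>
    refine H.bit_ex j (Rn := fun p s => H.dg p.1 s = eG g ∧ H.vl p.1 (s + 1) = (j' : ℕ))
      ((H.ptDg _).and (H.ptVl1 _)) (R := fun i s => (P i).dir s = g ∧ ((P i).vis (s + 1)).2 = j')
      (fun i s x hs => ?_)
    show H.dg (raw i) s = eG g ∧ H.vl (raw i) (s + 1) = (j' : ℕ) ↔ _
    rw [H.dg_eq i s hs, H.vl_eq i (s + 1) hs, hG.eq_iff, Fin.val_inj]
  | Fi j => exact H.bit_Fi j
  | La j => exact H.bit_La j
  | W c j l k =>
    refine H.bit_ex j (Rn := fun p s => H.ic c p.1 s = eI (some (l, k))) (H.ptIc c _)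
      (R := fun i s => (P i).ins c s = some (l, k)) (fun i s x hs => ?_)
    show H.ic c (raw i) s = eI (some (l, k)) ↔ _
    rw [H.ic_eq c i s hs, hI.eq_iff]
  | Wa c j =>
    refine H.bit_ex j (Rn := fun p s => ¬ H.ic c p.1 s = eI none) (H.ptIc c _).not
      (R := fun i s => (P i).ins c s ≠ none) (fun i s x hs => ?_)
    show ¬ H.ic c (raw i) s = eI none ↔ _
    rw [H.ic_eq c i s hs, hI.eq_iff]
  | Wc c l =>
    classical
    obtain ⟨S, hS⟩ := (Set.toFinite {m : ℕ | ∃ k : Op G Λ, eI (some (l, k)) = m}).exists_finset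
    refine ⟨fun p => ∃ s < H.L p.1, H.va p.1 s = p.2 ∧ H.ic c p.1 s ∈ S.toList, ?_,
      fun i x => ?_⟩
    · exact H.ex_lt (H.ptVa.and (PTPred.mem (H.ptfIc c) (PTF.const S.toList)))
    · have key : ∀ s < (P i).L, H.ic c (raw i) s ∈ S.toList ↔ ∃ k, (P i).ins c s = some (l, k) := by
        intro s hs
        rw [Finset.mem_toList, hS, H.ic_eq c i s hs]
        constructor
        · rintro ⟨k, hk⟩
          exact ⟨k, (hI hk).symm⟩
        · rintro ⟨k, hk⟩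
          exact ⟨k, by rw [hk]⟩
      have key2 : ∀ s < (P i).L, H.va (raw i) s = (e i x : ℕ) ↔ ((P i).vis s).1 = x := by
        intro s hs
        rw [H.va_eq i s hs.le, Fin.val_inj, (e i).apply_eq_iff_eq]
      constructor
      · rintro ⟨s, hs, h1, h2⟩
        have hs' : s < (P i).L := by rw [← H.L_eq i]; exact hs
        exact ⟨s, hs', (key2 s hs').1 h1, (key s hs').1 h2⟩
      · rintro ⟨s, hs, h1, h2⟩
        exact ⟨s, by rw [H.L_eq i]; exact hs, (key2 s hs).2 h1, (key s hs).2 h2⟩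
  | D0 j => exact H.bit_Fi j
  | DL j => exact H.bit_La j
  | Full j =>
    obtain ⟨q, hq, h⟩ := H.bit_ex j (Rn := fun _ _ => True) (PTPred.const True)
      (R := fun _ _ => True) (fun _ _ _ _ => Iff.rfl)
    refine ⟨q, hq, fun i x => (h i x).trans ?_⟩
    constructor
    · rintro ⟨s, hs, h1, -⟩
      exact ⟨s, hs, h1⟩
    · rintro ⟨s, hs, h1⟩
      exact ⟨s, hs, h1, trivial⟩

/-- **contents of the public words as tables with values in `K`** -/
theorem pub [Finite G] [Finite Λ] (hG : Function.Injective eG) (hI : Function.Injective eI)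
    {K : Type} [CommRing K] [PTCode K] (pb : Pb G Λ J) :
    ∃ T : α → ℕ → K, PTF (fun p : α × ℕ => T p.1 p.2) ∧
      ∀ i (x : Γ i), T (raw i) (e i x : ℕ) = pubC (P i) K pb x := by
  classical
  obtain ⟨q, hq, h⟩ := H.bit hG hI pb
  refine ⟨fun a m => if q (a, m) then 1 else 0, ?_, fun i x => ?_⟩
  · exact PTF.ite (p := fun p : α × ℕ => q (p.1, p.2))
      (hq.comp (f := fun p : α × ℕ => (p.1, p.2)) (by fun_prop)) (PTF.const 1) (PTF.const 0)
  · rw [PubC965.pubC_eq]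
    simp only [h i x]

end RLay

end rel

/-! ### the layouts of `LayCv338` -/

section lay

variable {ι α : Type} [PTCode α] {G : Type} [Finite G] {raw : ι → α} {Γ : ι → Type}
  [∀ i, DecidableEq (Γ i)] {N : α → ℕ} {e : ∀ i, Γ i ≃ Fin (N (raw i))}

/-- **numbers of a family of layouts `LayCv338.lay`** -/
theorem rlay {act : ∀ i, G → Equiv.Perm (Γ i)} {gs : List G} {g0 : G} {ev : ∀ i, ℕ → Γ i}
    (hev : ∀ i, ∀ A < N (raw i), (e i (ev i A) : ℕ) = A) {nb : α → ℕ → ℕ → ℕ}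
    (hnb : PTF (fun p : α × ℕ × ℕ => nb p.1 p.2.1 p.2.2))
    (hnbe : ∀ i (k : ℕ) (hk : k < gs.length) (x : Γ i),
      nb (raw i) k (e i x) = e i (act i gs[k] x))
    {L2 : α → List Stp2} (hL2 : PTF L2) {fin n : α → ℕ} (hfin : PTF fin) (hn : PTU n)
    {al : α → ℕ → ℕ} (hal : PTF (fun p : α × ℕ => al p.1 p.2)) {near : ι → ℕ → ℕ → Prop}
    (h : ∀ i, LayCv338.LyN (near i) (N (raw i)) (L2 (raw i)) (fin (raw i)) (n (raw i))
      (al (raw i))) (eG : G → ℕ) (eI : Option (Fin 28 × Op G (Fin 28)) → ℕ) :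
    Nonempty (RLay raw Γ N e (fun i => LayCv338.lay (act i) gs g0 (ev i) (L2 (raw i))
      (fin (raw i)) (n (raw i)) (al (raw i))) eG eI) := by
  have hfi : ∀ i, Function.Injective (fun x : Γ i => ((e i x : Fin (N (raw i))) : ℕ)) :=
    fun i x y h => (e i).injective (Fin.ext h)
  have hIn : ∀ i, ∀ s ∈ L2 (raw i), InS (N (raw i)) s := fun i => inS_of_lyN (h i)
  have hlt : ∀ i, ∀ s ∈ L2 (raw i), s.1 < N (raw i) := fun i s hs => (hIn i s hs).1
  have hfN : ∀ i, fin (raw i) < N (raw i) := fun i =>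
    (h i).lt _ (List.mem_append_right _ List.mem_cons_self)
  have hL2' : PTF (fun p : α × ℕ => L2 p.1) := PTF.comp hL2 PTF.fst
  have hfin' : PTF (fun p : α × ℕ => fin p.1) := PTF.comp hfin PTF.fst
  have hnb' : PTF (fun p : (α × ℕ) × ℕ × ℕ => nb p.1.1 p.2.1 p.2.2) :=
    PTF.comp (g := fun p : α × ℕ × ℕ => nb p.1 p.2.1 p.2.2)
      (f := fun p : (α × ℕ) × ℕ × ℕ => (p.1.1, p.2)) hnb (by fun_prop)
  have hL : ∀ i, (LayCv338.lay (act i) gs g0 (ev i) (L2 (raw i)) (fin (raw i)) (n (raw i))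
      (al (raw i))).L = (L2 (raw i)).length := fun i => List.length_map _
  exact ⟨{
    L := fun a => (L2 a).length
    hL := PTU.length hL2
    L_eq := fun i => (hL i).symm
    n := n
    hn := hn
    n_eq := fun i => rfl
    va := fun a s => vaN (L2 a) (fin a) s
    hva := ptf_vaN hL2' hfin' PTF.snd
    va_eq := fun i s _ => va_eq (f := fun x : Γ i => ((e i x : Fin (N (raw i))) : ℕ)) (hev i)
      (hlt i) (hfN i) s
    vl := fun a s => vlN 127 (L2 a) (fin a) s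
    hvl := ptf_vlN 127 hL2' hfin' PTF.snd
    vl_eq := fun i s _ => vl_eq (f := fun x : Γ i => ((e i x : Fin (N (raw i))) : ℕ)) (hev i)
      (hfi i) (hlt i) (hfN i) s
    dg := fun a s => dgN (nb a) gs g0 eG (L2 a) (fin a) s
    hdg := ptf_dgN gs g0 eG hnb' hL2' hfin' PTF.snd
    dg_eq := fun i s _ => dg_eq (f := fun x : Γ i => ((e i x : Fin (N (raw i))) : ℕ)) (hev i)
      (hfi i) (hnbe i) (hlt i) (hfN i) eG s
    ic := fun c a s => icN (nb a) gs g0 eI c (L2 a) s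
    hic := fun c => ptf_icN gs g0 eI c hnb' hL2' PTF.snd
    ic_eq := fun c i s hs => ic_eq (f := fun x : Γ i => ((e i x : Fin (N (raw i))) : ℕ))
      (hev i) (hfi i) (hnbe i) (hIn i) eI c ((hL i).symm ▸ hs : s < (L2 (raw i)).length)
    al := al
    hal := hal
    al_eq := fun i k => (hev i _ ((h i).al_lt k k.2)).symm }⟩

/-- **content tables of the public words of the layouts `LayCv338.lay`** -/
theorem pub_lay {act : ∀ i, G → Equiv.Perm (Γ i)} {gs : List G} {g0 : G} {ev : ∀ i, ℕ → Γ i}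
    (hev : ∀ i, ∀ A < N (raw i), (e i (ev i A) : ℕ) = A) {nb : α → ℕ → ℕ → ℕ}
    (hnb : PTF (fun p : α × ℕ × ℕ => nb p.1 p.2.1 p.2.2))
    (hnbe : ∀ i (k : ℕ) (hk : k < gs.length) (x : Γ i),
      nb (raw i) k (e i x) = e i (act i gs[k] x))
    {L2 : α → List Stp2} (hL2 : PTF L2) {fin n : α → ℕ} (hfin : PTF fin) (hn : PTU n)
    {al : α → ℕ → ℕ} (hal : PTF (fun p : α × ℕ => al p.1 p.2)) {near : ι → ℕ → ℕ → Prop}
    (h : ∀ i, LayCv338.LyN (near i) (N (raw i)) (L2 (raw i)) (fin (raw i)) (n (raw i))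
      (al (raw i))) {K : Type} [CommRing K] [PTCode K] (pb : Pb G (Fin 28) 128) :
    ∃ T : α → ℕ → K, PTF (fun p : α × ℕ => T p.1 p.2) ∧ ∀ i (x : Γ i),
      T (raw i) (e i x : ℕ) = pubC (LayCv338.lay (act i) gs g0 (ev i) (L2 (raw i))
        (fin (raw i)) (n (raw i)) (al (raw i))) K pb x := by
  obtain ⟨eG, hG⟩ := exists_injective_nat G
  obtain ⟨eI, hI⟩ := exists_injective_nat (Option (Fin 28 × Op G (Fin 28)))
  obtain ⟨H⟩ := rlay (e := e) (g0 := g0) hev hnb hnbe hL2 hfin hn hal h eG eI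
  exact H.pub hG hI pb

end lay

/-! ### the layouts on `P × R` -/

section net

variable {ι α : Type} [PTCode α] {raw : ι → α} {P R : ι → Type} [∀ i, Group (P i)]
  [∀ i, Group (R i)] [∀ i, DecidableEq (P i)] [∀ i, DecidableEq (R i)] {n1 n2 : α → ℕ}
  (e1 : ∀ i, P i ≃ Fin (n1 (raw i))) (e2 : ∀ i, R i ≃ Fin (n2 (raw i)))
  {S1 : ∀ i, ℕ → P i} {S2 : ∀ i, ℕ → R i} {nb1 nb2 : α → ℕ → ℕ → ℕ} {d : ℕ}

/-- **content tables of the public words of the layouts on `P × R`** with the steps of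
`LayNet896` -/
theorem pub_net
    (h1 : ∀ i, ∀ g < d, ∀ x : P i, nb1 (raw i) (e1 i x) g = e1 i (S1 i g * x))
    (h2 : ∀ i, ∀ g < d, ∀ x : R i, nb2 (raw i) (e2 i x) g = e2 i (S2 i g * x))
    (hn2 : PTF n2) (hnb1 : PTF (fun p : α × ℕ × ℕ => nb1 p.1 p.2.1 p.2.2))
    (hnb2 : PTF (fun p : α × ℕ × ℕ => nb2 p.1 p.2.1 p.2.2))
    {L2 : α → List Stp2} (hL2 : PTF L2) {fin n : α → ℕ} (hfin : PTF fin) (hn : PTU n)
    {al : α → ℕ → ℕ} (hal : PTF (fun p : α × ℕ => al p.1 p.2)) {near : ι → ℕ → ℕ → Prop}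
    (h : ∀ i, LayCv338.LyN (near i) (n1 (raw i) * n2 (raw i)) (L2 (raw i)) (fin (raw i))
      (n (raw i)) (al (raw i))) {K : Type} [CommRing K] [PTCode K]
    (pb : Pb (LayNet896.Nm d) (Fin 28) 128) :
    ∃ T : α → ℕ → K, PTF (fun p : α × ℕ => T p.1 p.2) ∧ ∀ i (x : P i × R i),
      T (raw i) (LayNet896.num (e1 i) (e2 i) x) =
        pubC (LayCv338.lay (LayNet896.act (S1 i) (S2 i) d) (nms d) default
          (LayNet896.adr (e1 i) (e2 i)) (L2 (raw i)) (fin (raw i)) (n (raw i))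
          (al (raw i))) K pb x := by
  have H := pub_lay (raw := raw) (Γ := fun i => P i × R i)
    (N := fun a => n1 a * n2 a) (e := fun i => numE (e1 i) (e2 i))
    (act := fun i => LayNet896.act (S1 i) (S2 i) d) (gs := nms d) (g0 := default)
    (ev := fun i => LayNet896.adr (e1 i) (e2 i))
    (fun i A hA => LayNet896.num_adr (e1 i) (e2 i) hA)
    (nb := fun a => stpN d (n2 a) (nb1 a) (nb2 a)) (ptf_stpN d hn2 hnb1 hnb2)
    (fun i k hk x => stpN_num (e1 i) (e2 i) (h1 i) (h2 i) k hk x) hL2 hfin hn hal h (K := K) pb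
  exact H

end net

end Crest.Agent.R289.PubR328
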