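import Crest.Agent.R289.Gauss_115

/-!
# R289, block E: public words in polynomial time (helper576)

`K` a finite field with a code.

* `lin x e`, `Sat E x` : sparse linear equations `(e, b)` with `e : List (K × ℕ)`.
* `solveE n E` : THE solution on the positions `< n` when it is unique (`solveE_eq`), `ptf_solveE`.
* `exists_dual` : a submodule of `Fin J → K` is cut out by finitely many rows; `rowsOf C`.
* `enc C N vs pos c` : the word with local views in the codes `C` (vertex list
  `vs : List (τ × List (K × ℕ))`: type, `J` weighted positions) and content `c` at the positions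
  `pos`; `enc_spec`, `ptf_enc`.
* `tabS e X`, `enc_spec_fin` : the same for a code on a finite type `S ≃ Fin N`.
-/

set_option autoImplicit false
set_option linter.dupNamespace false
set_option linter.unusedSectionVars false

namespace Crest.Agent.R289.PubW576

open Crest.Agent.Lib.PT Crest.Agent.Lib.PT.Arith Crest.Agent.R288.PtDp115
open Crest.Agent.R289.Gauss115

section basic

variable {K : Type} [Field K]

/-- value of a sparse linear form -/
def lin (x : ℕ → K) (e : List (K × ℕ)) : K := (e.map fun p => p.1 * x p.2).sum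

/-- coefficient of `x j` in a sparse linear form -/
def coef (e : List (K × ℕ)) (j : ℕ) : K := (e.map fun p => if p.2 = j then p.1 else 0).sum

@[simp] theorem lin_nil (x : ℕ → K) : lin x [] = 0 := rfl

@[simp] theorem lin_cons (x : ℕ → K) (p : K × ℕ) (e : List (K × ℕ)) :
    lin x (p :: e) = p.1 * x p.2 + lin x e := by simp [lin]

theorem coef_cons (p : K × ℕ) (e : List (K × ℕ)) (j : ℕ) :
    coef (p :: e) j = (if p.2 = j then p.1 else 0) + coef e j := by simp [coef]

theorem sum_coef {n : ℕ} (x : ℕ → K) (e : List (K × ℕ)) (h : ∀ p ∈ e, p.2 < n) :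
    ∑ j ∈ Finset.range n, coef e j * x j = lin x e := by
  induction e with
  | nil => simp [coef]
  | cons p e ih =>
    have h1 : p.2 < n := h p (by simp)
    have h2 := ih (fun r hr => h r (by simp [hr]))
    simp only [coef_cons, add_mul, Finset.sum_add_distrib, h2, lin_cons]
    congr 1
    rw [Finset.sum_eq_single p.2]
    · simp
    · intro b _ hb
      rw [if_neg (Ne.symm hb), zero_mul]
    · intro hh
      exact absurd (Finset.mem_range.2 h1) hh

theorem lin_congr {n : ℕ} {x y : ℕ → K} {e : List (K × ℕ)} (h : ∀ p ∈ e, p.2 < n)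
    (hxy : ∀ j, j < n → x j = y j) : lin x e = lin y e := by
  induction e with
  | nil => rfl
  | cons p e ih =>
    rw [lin_cons, lin_cons, hxy _ (h p (by simp)), ih (fun r hr => h r (by simp [hr]))]

/-- `x` satisfies all equations -/
def Sat (E : List (List (K × ℕ) × K)) (x : ℕ → K) : Prop := ∀ e ∈ E, lin x e.1 = e.2

/-- the solution of a sparse system on the positions `< n` -/
noncomputable def solveE (n : ℕ) (E : List (List (K × ℕ) × K)) : List K :=
  tabK n (getK (solve n E.length (fun c j => coef (E.getD c ([], 0)).1 j)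
    (fun c => (E.getD c ([], 0)).2)))

theorem length_solveE (n : ℕ) (E : List (List (K × ℕ) × K)) : (solveE n E).length = n :=
  length_tabK _ _

theorem sat_solveE {n : ℕ} {E : List (List (K × ℕ) × K)} (hE : ∀ e ∈ E, ∀ p ∈ e.1, p.2 < n)
    {x : ℕ → K} (hx : Sat E x) : Sat E (getK (solveE n E)) := by
  classical
  have hget : ∀ c, c < E.length → E.getD c ([], 0) ∈ E := by
    intro c hc
    rw [List.getD_eq_getElem _ _ hc]
    exact List.getElem_mem hc
  have h := solve_spec (n := n) (m := E.length) (A := fun c j => coef (E.getD c ([], 0)).1 j)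
    (b := fun c => (E.getD c ([], 0)).2) (x := x) (fun c hc => by
      rw [sum_coef x _ (hE _ (hget c hc))]
      exact hx _ (hget c hc))
  intro e he
  obtain ⟨c, hc, rfl⟩ := List.getElem_of_mem he
  have h1 := h c hc
  rw [sum_coef _ _ (hE _ (hget c hc)), List.getD_eq_getElem _ _ hc] at h1
  rw [← h1]
  refine lin_congr (n := n) (hE _ (List.getElem_mem hc)) (fun j hj => ?_)
  exact getK_tabK _ hj

theorem solveE_eq {n : ℕ} {E : List (List (K × ℕ) × K)} (hE : ∀ e ∈ E, ∀ p ∈ e.1, p.2 < n)
    {x : ℕ → K} (hx : Sat E x) (hu : ∀ y, Sat E y → ∀ j, j < n → y j = x j) :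
    solveE n E = tabK n x := by
  have h := hu _ (sat_solveE hE hx)
  refine List.ext_getElem (by rw [length_solveE, length_tabK]) (fun j h1 h2 => ?_)
  have hj : j < n := by simpa [length_solveE] using h1
  have h3 := h j hj
  have h4 : getK (tabK n x) j = x j := getK_tabK x hj
  simp only [getK, List.getD_eq_getElem _ _ h1] at h3
  simp only [getK, List.getD_eq_getElem _ _ h2] at h4
  rw [h3, h4]

end basic

section dual

variable {K : Type} [Field K] [Finite K]

theorem exists_dual {J : ℕ} (C : Submodule K (Fin J → K)) :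
    ∃ rows : List (Fin J → K), ∀ f : Fin J → K, f ∈ C ↔ ∀ r ∈ rows, ∑ i, r i * f i = 0 := by
  classical
  let _ := Fintype.ofFinite K
  refine ⟨(Finset.univ.filter (fun r : Fin J → K => ∀ f ∈ C, ∑ i, r i * f i = 0)).toList,
    fun f => ⟨fun hf r hr => ?_, fun h => ?_⟩⟩
  · rw [Finset.mem_toList, Finset.mem_filter] at hr
    exact hr.2 f hf
  · rw [← Subspace.forall_mem_dualAnnihilator_apply_eq_zero_iff C f]
    intro φ hφ
    have hform : ∀ g : Fin J → K, φ g = ∑ i, (φ (Pi.single i 1)) * g i := by
      intro g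
      rw [LinearMap.pi_apply_eq_sum_univ φ g]
      refine Finset.sum_congr rfl (fun i _ => ?_)
      rw [smul_eq_mul, mul_comm]
      congr 2
      ext j
      simp [Pi.single_apply, eq_comm]
    rw [hform f]
    refine h _ ?_
    rw [Finset.mem_toList, Finset.mem_filter]
    refine ⟨Finset.mem_univ _, fun g hg => ?_⟩
    rw [← hform g]
    exact (Submodule.mem_dualAnnihilator φ).1 hφ g hg

/-- finitely many rows cutting out `C`, as lists -/
noncomputable def rowsOf {J : ℕ} (C : Submodule K (Fin J → K)) : List (List K) :=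
  (exists_dual C).choose.map List.ofFn

theorem mem_rowsOf {J : ℕ} (C : Submodule K (Fin J → K)) (f : Fin J → K) :
    f ∈ C ↔ ∀ r ∈ rowsOf C, ∃ g : Fin J → K, r = List.ofFn g ∧ ∑ i, g i * f i = 0 := by
  rw [(exists_dual C).choose_spec f]
  simp only [rowsOf, List.mem_map]
  constructor
  · rintro h r ⟨g, hg, rfl⟩
    exact ⟨g, rfl, h g hg⟩
  · intro h g hg
    obtain ⟨g', h1, h2⟩ := h _ ⟨g, hg, rfl⟩
    rwa [List.ofFn_injective h1]

end dual

section encoder

variable {K : Type} [Field K] [Finite K] {τ : Type} {J : ℕ}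

/-- the view of `x` at a vertex -/
def view (J : ℕ) (x : ℕ → K) (pts : List (K × ℕ)) : Fin J → K :=
  fun i => (pts.getD i (0, 0)).1 * x (pts.getD i (0, 0)).2

/-- all checks of a vertex list -/
noncomputable def checks (C : τ → Submodule K (Fin J → K)) (vs : List (τ × List (K × ℕ))) :
    List (List (K × ℕ) × K) :=
  vs.flatMap fun v => (rowsOf (C v.1)).map fun r =>
    (List.zipWith (fun (a : K) (p : K × ℕ) => (a * p.1, p.2)) r v.2, 0)

/-- the equations `x pos = c` -/
def conts (pos : List ℕ) (c : List K) : List (List (K × ℕ) × K) :=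
  List.zipWith (fun (p : ℕ) (a : K) => ([((1 : K), p)], a)) pos c

/-- **the encoder** -/
noncomputable def enc (C : τ → Submodule K (Fin J → K)) (N : ℕ)
    (vs : List (τ × List (K × ℕ))) (pos : List ℕ) (c : List K) : List K :=
  solveE N (checks C vs ++ conts pos c)

theorem lin_zipWith (x : ℕ → K) (g : Fin J → K) {pts : List (K × ℕ)} (h : pts.length = J) :
    lin x (List.zipWith (fun (a : K) (p : K × ℕ) => (a * p.1, p.2)) (List.ofFn g) pts)
      = ∑ i, g i * view J x pts i := by
  subst h
  have h1 : List.zipWith (fun (a : K) (p : K × ℕ) => (a * p.1, p.2)) (List.ofFn g) pts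
      = List.ofFn (fun i : Fin pts.length => (g i * (pts.get i).1, (pts.get i).2)) := by
    refine List.ext_getElem (by simp) (fun j h1 h2 => ?_)
    simp
  rw [h1, lin, List.map_ofFn, List.sum_ofFn]
  refine Finset.sum_congr rfl (fun i _ => ?_)
  simp only [Function.comp_apply, view, List.getD_eq_getElem _ _ i.2, List.get_eq_getElem]
  ring

theorem sat_checks (C : τ → Submodule K (Fin J → K)) {vs : List (τ × List (K × ℕ))}
    (hl : ∀ v ∈ vs, v.2.length = J) (x : ℕ → K) :
    Sat (checks C vs) x ↔ ∀ v ∈ vs, view J x v.2 ∈ C v.1 := by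
  constructor
  · intro h v hv
    rw [mem_rowsOf]
    intro r hr
    have hr' := hr
    simp only [rowsOf, List.mem_map] at hr
    obtain ⟨g, _, rfl⟩ := hr
    refine ⟨g, rfl, ?_⟩
    rw [← lin_zipWith x g (hl v hv)]
    refine h (_, 0) ?_
    simp only [checks, List.mem_flatMap, List.mem_map]
    exact ⟨v, hv, _, hr', rfl⟩
  · rintro h e he
    simp only [checks, List.mem_flatMap, List.mem_map] at he
    obtain ⟨v, hv, r, hr, rfl⟩ := he
    obtain ⟨g, rfl, hg⟩ := (mem_rowsOf (C v.1) (view J x v.2)).1 (h v hv) r hr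
    rw [lin_zipWith x g (hl v hv)]
    exact hg

theorem sat_conts (pos : List ℕ) (c : List K) (hlen : pos.length = c.length) (x : ℕ → K) :
    Sat (conts pos c) x ↔ pos.map x = c := by
  induction pos generalizing c with
  | nil =>
    cases c with
    | nil => simp [conts, Sat]
    | cons a c => simp at hlen
  | cons p pos ih =>
    cases c with
    | nil => simp at hlen
    | cons a c =>
      have := ih c (by simpa using hlen)
      simp only [conts, List.zipWith_cons_cons, Sat, List.mem_cons, forall_eq_or_imp,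
        List.map_cons, List.cons.injEq]
      rw [← this]
      simp [Sat, conts]

theorem sat_append (E F : List (List (K × ℕ) × K)) (x : ℕ → K) :
    Sat (E ++ F) x ↔ Sat E x ∧ Sat F x := by
  simp only [Sat, List.mem_append]
  exact ⟨fun h => ⟨fun e he => h e (Or.inl he), fun e he => h e (Or.inr he)⟩,
    fun h e he => he.elim (h.1 e) (h.2 e)⟩

theorem length_enc (C : τ → Submodule K (Fin J → K)) (N : ℕ) (vs : List (τ × List (K × ℕ)))
    (pos : List ℕ) (c : List K) : (enc C N vs pos c).length = N := length_solveE _ _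

/-- **the encoder returns the unique word with the given content** -/
theorem enc_spec (C : τ → Submodule K (Fin J → K)) {N : ℕ} {vs : List (τ × List (K × ℕ))}
    {pos : List ℕ} {x : ℕ → K} (hl : ∀ v ∈ vs, v.2.length = J)
    (hlt : ∀ v ∈ vs, ∀ p ∈ v.2, p.2 < N) (hpos : ∀ p ∈ pos, p < N)
    (hx : ∀ v ∈ vs, view J x v.2 ∈ C v.1)
    (hu : ∀ y : ℕ → K, (∀ v ∈ vs, view J y v.2 ∈ C v.1) → (∀ p ∈ pos, y p = x p) →
      ∀ j, j < N → y j = x j) :
    enc C N vs pos (pos.map x) = tabK N x := by
  refine solveE_eq ?_ ?_ ?_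
  · intro e he p hp
    rcases List.mem_append.1 he with he | he
    · simp only [checks, List.mem_flatMap, List.mem_map] at he
      obtain ⟨v, hv, r, hr, rfl⟩ := he
      obtain ⟨i, hi, rfl⟩ := List.getElem_of_mem hp
      simp only [List.getElem_zipWith]
      exact hlt v hv _ (List.getElem_mem _)
    · simp only [conts] at he
      obtain ⟨i, hi, rfl⟩ := List.getElem_of_mem he
      simp only [List.getElem_zipWith, List.mem_singleton] at hp
      subst hp
      exact hpos _ (List.getElem_mem _)
  · rw [sat_append, sat_checks C hl, sat_conts _ _ (by simp)]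
    exact ⟨hx, rfl⟩
  · intro y hy
    rw [sat_append, sat_checks C hl, sat_conts _ _ (by simp)] at hy
    exact hu y hy.1 (fun p hp => (List.map_inj_left.1 hy.2) p hp)

end encoder

section ptf

variable {K : Type} [Field K] [Finite K] [PTCode K] {τ : Type} [Finite τ] [PTCode τ] {J : ℕ}
variable {α : Type} [PTCode α]

theorem ptf_listSumK {l : α → List K} (hl : PTF l) : PTF (fun a => (l a).sum) := by
  have h : ∀ a, ∑ i ∈ Finset.range (l a).length, getK (l a) i = (l a).sum := by
    intro a
    have : ∀ t : List K, ∑ i ∈ Finset.range t.length, getK t i = t.sum := by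
      intro t
      induction t with
      | nil => simp
      | cons b t ih =>
        rw [List.length_cons, Finset.sum_range_succ', List.sum_cons, ← ih, add_comm]
        simp [getK]
    exact this _
  refine PTF.of_eq (f := fun a => ∑ i ∈ Finset.range (l a).length, getK (l a) i) ?_ h
  exact ptf_sumK (PTU.length hl) (ptf_getK (PTF.comp (g := l) hl PTF.fst) PTF.snd)

theorem ptf_coef {e : α → List (K × ℕ)} {j : α → ℕ} (he : PTF e) (hj : PTF j) :
    PTF (fun a => coef (e a) (j a)) := by
  unfold coef
  refine ptf_listSumK (PTF.map he ?_)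
  show PTF (fun p : α × (K × ℕ) => if p.2.2 = j p.1 then p.2.1 else 0)
  exact PTF.ite (PTPred.natEq (by fun_prop) (PTF.comp (g := j) hj PTF.fst)) (by fun_prop)
    (PTF.const 0)

theorem ptf_solveE {n : α → ℕ} {E : α → List (List (K × ℕ) × K)} (hn : PTU n) (hE : PTF E) :
    PTF (fun a => solveE (n a) (E a)) := by
  unfold solveE
  have hs : PTF (fun a => solve (n a) (E a).length (fun c j => coef ((E a).getD c ([], 0)).1 j)
      (fun c => ((E a).getD c ([], 0)).2)) := by
    refine ptf_solve (m := fun a => (E a).length)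
      (A := fun a c j => coef ((E a).getD c ([], 0)).1 j)
      (b := fun a c => ((E a).getD c ([], 0)).2) hn (PTU.length hE) ?_ ?_
    · refine ptf_coef ?_ (by fun_prop)
      exact PTF.comp (g := fun q : List (K × ℕ) × K => q.1) PTF.fst
        (ptf_getB (l := fun p : α × ℕ × ℕ => E p.1) (i := fun p => p.2.1) (PTF.comp (g := E) hE PTF.fst)
          (by fun_prop) (PTF.const _))
    · exact PTF.comp (g := fun q : List (K × ℕ) × K => q.2) PTF.snd
        (ptf_getB (l := fun p : α × ℕ => E p.1) (i := fun p => p.2) (PTF.comp (g := E) hE PTF.fst)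
          (by fun_prop) (PTF.const _))
  exact ptf_tabK hn (ptf_getK (PTF.comp (g := fun a => solve (n a) (E a).length
    (fun c j => coef ((E a).getD c ([], 0)).1 j) (fun c => ((E a).getD c ([], 0)).2)) hs PTF.fst)
    PTF.snd)

theorem ptf_checks (C : τ → Submodule K (Fin J → K)) {vs : α → List (τ × List (K × ℕ))}
    (hvs : PTF vs) : PTF (fun a => checks C (vs a)) := by
  unfold checks
  refine PTF.flatMap hvs ?_
  show PTF (fun p : α × (τ × List (K × ℕ)) => (rowsOf (C p.2.1)).map fun r =>
    (List.zipWith (fun (a : K) (q : K × ℕ) => (a * q.1, q.2)) r p.2.2, (0 : K)))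
  have hr : PTF (fun p : α × (τ × List (K × ℕ)) => rowsOf (C p.2.1)) :=
    PTF.comp (g := fun t : τ => rowsOf (C t)) (PTF.of_finite _) (by fun_prop)
  refine PTF.map hr ?_
  show PTF (fun p : (α × (τ × List (K × ℕ))) × List K =>
    (List.zipWith (fun (a : K) (q : K × ℕ) => (a * q.1, q.2)) p.2 p.1.2.2, (0 : K)))
  refine PTF.prodMk (PTF.zipWith (by fun_prop) (by fun_prop) ?_) (PTF.const 0)
  exact PTF.prodMk (ptf_kmul (by fun_prop) (by fun_prop)) (by fun_prop)

theorem ptf_conts {pos : α → List ℕ} {c : α → List K} (hpos : PTF pos) (hc : PTF c) :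
    PTF (fun a => conts (pos a) (c a)) := by
  unfold conts
  refine PTF.zipWith hpos hc ?_
  exact PTF.prodMk (PTF.listCons (PTF.prodMk (PTF.const 1) (by fun_prop)) (PTF.const []))
    (by fun_prop)

theorem ptf_enc (C : τ → Submodule K (Fin J → K)) {N : α → ℕ}
    {vs : α → List (τ × List (K × ℕ))} {pos : α → List ℕ} {c : α → List K} (hN : PTU N)
    (hvs : PTF vs) (hpos : PTF pos) (hc : PTF c) :
    PTF (fun a => enc C (N a) (vs a) (pos a) (c a)) :=
  ptf_solveE hN (PTF.append (ptf_checks C hvs) (ptf_conts hpos hc))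

end ptf

/-! ### words on a finite type -/

section fin

variable {K : Type} [Field K] [Finite K] {τ S : Type} {J N : ℕ}

/-- the table of a word on `S ≃ Fin N` -/
def tabS (e : S ≃ Fin N) (X : S → K) : List K := List.ofFn fun j => X (e.symm j)

/-- reading as a function of numbers -/
def natS (e : S ≃ Fin N) (X : S → K) : ℕ → K := fun j => if h : j < N then X (e.symm ⟨j, h⟩) else 0

/-- a vertex list of a finite complex as tables -/
def vsS (e : S ≃ Fin N) (V : List (τ × (Fin J → K × S))) : List (τ × List (K × ℕ)) :=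
  V.map fun v => (v.1, List.ofFn fun i => ((v.2 i).1, ((e (v.2 i).2 : Fin N) : ℕ)))

theorem natS_apply (e : S ≃ Fin N) (X : S → K) (s : S) : natS e X (e s : Fin N) = X s := by
  simp [natS]

theorem tabK_natS (e : S ≃ Fin N) (X : S → K) : tabK N (natS e X) = tabS e X := by
  refine List.ext_getElem (by simp [length_tabK, tabS]) (fun j h1 h2 => ?_)
  have hj : j < N := by simpa [length_tabK] using h1
  simp [tabK, tabS, natS, hj]

theorem getK_tabS (e : S ≃ Fin N) (X : S → K) (s : S) : getK (tabS e X) (e s : Fin N) = X s := by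
  rw [← tabK_natS, getK_tabK _ (e s).2, natS_apply]

theorem view_vsS (e : S ≃ Fin N) (x : ℕ → K) (f : Fin J → K × S) :
    view J x (List.ofFn fun i => ((f i).1, ((e (f i).2 : Fin N) : ℕ)))
      = fun i => (f i).1 * x (e (f i).2 : Fin N) := by
  funext i
  simp only [view]
  rw [List.getD_eq_getElem _ _ (by simp)]
  simp

/-- **encoder for a code on a finite type**: `V` = list of vertices (type, `J` weighted points),
`pts` = content points -/
theorem enc_spec_fin (C : τ → Submodule K (Fin J → K)) (e : S ≃ Fin N)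
    (V : List (τ × (Fin J → K × S))) (pts : List S) (X : S → K)
    (hX : ∀ v ∈ V, (fun i => (v.2 i).1 * X (v.2 i).2) ∈ C v.1)
    (hu : ∀ Y : S → K, (∀ v ∈ V, (fun i => (v.2 i).1 * Y (v.2 i).2) ∈ C v.1) →
      (∀ p ∈ pts, Y p = X p) → Y = X) :
    enc C N (vsS e V) (pts.map fun p => ((e p : Fin N) : ℕ)) (pts.map X) = tabS e X := by
  have h1 : pts.map X = (pts.map fun p => ((e p : Fin N) : ℕ)).map (natS e X) := by
    rw [List.map_map]
    refine List.map_congr_left (fun p _ => ?_)
    simp only [Function.comp_apply, natS_apply]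
  rw [h1, ← tabK_natS]
  have hmem : ∀ v ∈ vsS e V, ∃ w ∈ V, v = (w.1, List.ofFn fun i =>
      ((w.2 i).1, ((e (w.2 i).2 : Fin N) : ℕ))) := by
    intro v hv
    obtain ⟨w, hw, rfl⟩ := List.mem_map.1 hv
    exact ⟨w, hw, rfl⟩
  refine enc_spec C ?_ ?_ ?_ ?_ ?_
  · intro v hv
    obtain ⟨w, _, rfl⟩ := hmem v hv
    simp
  · intro v hv p hp
    obtain ⟨w, _, rfl⟩ := hmem v hv
    obtain ⟨i, hi, rfl⟩ := List.getElem_of_mem hp
    simp
  · intro p hp
    obtain ⟨s, _, rfl⟩ := List.mem_map.1 hp
    exact (e s).2
  · intro v hv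
    obtain ⟨w, hw, rfl⟩ := hmem v hv
    simp only [view_vsS, natS_apply]
    exact hX w hw
  · intro y hy hc j hj
    have h2 := hu (fun s => y (e s : Fin N)) (fun w hw => by
      have := hy _ (List.mem_map.2 ⟨w, hw, rfl⟩)
      simpa only [view_vsS] using this) (fun p hp => by
      have := hc _ (List.mem_map.2 ⟨p, hp, rfl⟩)
      simpa only [natS_apply] using this)
    have h3 := congrFun h2 (e.symm ⟨j, hj⟩)
    simp only [Equiv.apply_symm_apply] at h3
    rw [h3, natS, dif_pos hj]

end fin

end Crest.Agent.R289.PubW576
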