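import Crest.Agent.R289.Gauss_115
import Crest.Agent.R289.Tab_858

/-!
# R289, leaf E19: polynomial-time computation of public words (helper654)

`K` a finite field with any code.

* `ptf_unique` : the unique solution of a `K`-linear system given by polynomial-time tables is a
  polynomial-time function.
* `ann C` : the linear equations satisfied by a subspace `C ≤ (X → K)`; `mem_iff_ann`.
* `ptf_word` : words `w a : ℕ → X → K` (group elements are numbers `< n a`), finitely many
  conditions `(fun x => w a (nb a c x h) x) ∈ C c` for all `h < n a`, prescribed content at `x0`,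
  uniqueness: then `(a, g) ↦ w a g x` is polynomial-time for every `x`.
* `ptf_word_group` : the same for words `f a : P a → X → K` on groups numbered by `e a`.
* `ptf_sum_word` : sums of products of words.
-/

set_option autoImplicit false
set_option linter.dupNamespace false

namespace Crest.Agent.R289.Pub654

open Crest.Agent.Lib.PT Crest.Agent.Lib.PT.Arith Crest.Agent.R288.PtDp115 Crest.Agent.R289
open Crest.Agent.R289.Gauss115 Crest.Agent.R289.Tab858

section field

variable {K : Type} [Field K] [Finite K] [PTCode K]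
variable {α β : Type} [PTCode α] [PTCode β]

/-! ### unique solutions of linear systems -/

omit [Finite K] [PTCode K] [PTCode α] in
theorem getK_solve_eq {n m : α → ℕ} {A : α → ℕ → ℕ → K} {b : α → ℕ → K} {x : α → ℕ → K}
    (hx : ∀ a c, c < m a → ∑ j ∈ Finset.range (n a), A a c j * x a j = b a c)
    (hu : ∀ a (y : ℕ → K), (∀ c, c < m a → ∑ j ∈ Finset.range (n a), A a c j * y j = 0) →
      ∀ j, j < n a → y j = 0) (a : α) {j : ℕ} (hj : j < n a) :
    getK (solve (n a) (m a) (A a) (b a)) j = x a j := by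
  have hs := solve_spec (n := n a) (m := m a) (A := A a) (b := b a) (x := x a) (hx a)
  have h0 := hu a (fun j => getK (solve (n a) (m a) (A a) (b a)) j - x a j) (fun c hc => by
    simp only [mul_sub, Finset.sum_sub_distrib]
    rw [hs c hc, hx a c hc, sub_self]) j hj
  exact sub_eq_zero.1 h0

/-- the unique solution of a linear system given by polynomial-time tables -/
theorem ptf_unique {n m : α → ℕ} {A : α → ℕ → ℕ → K} {b : α → ℕ → K} {x : α → ℕ → K}
    (hn : PTU n) (hm : PTU m) (hA : PTF (fun p : α × ℕ × ℕ => A p.1 p.2.1 p.2.2))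
    (hb : PTF (fun p : α × ℕ => b p.1 p.2))
    (hx : ∀ a c, c < m a → ∑ j ∈ Finset.range (n a), A a c j * x a j = b a c)
    (hu : ∀ a (y : ℕ → K), (∀ c, c < m a → ∑ j ∈ Finset.range (n a), A a c j * y j = 0) →
      ∀ j, j < n a → y j = 0) :
    PTF (fun p : α × ℕ => if p.2 < n p.1 then x p.1 p.2 else 0) := by
  have h1 : PTF (fun p : α × ℕ => solve (n p.1) (m p.1) (A p.1) (b p.1)) :=
    PTF.comp (g := fun a => solve (n a) (m a) (A a) (b a)) (ptf_solve hn hm hA hb) PTF.fst
  have h2 : PTF (fun p : α × ℕ => n p.1) := PTF.comp (g := n) hn.toPTF PTF.fst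
  refine PTF.of_eq (PTF.ite (p := fun p : α × ℕ => p.2 < n p.1) (PTPred.natLt PTF.snd h2)
    (ptf_getK h1 PTF.snd) (PTF.const 0)) fun p => ?_
  by_cases h : p.2 < n p.1
  · simp only [h, if_true]
    exact getK_solve_eq hx hu p.1 h
  · simp [h]

/-! ### equations of a subspace -/

omit [Finite K] [PTCode K] in
/-- the linear equations satisfied by a subspace -/
def ann {X : Type} [Fintype X] (C : Submodule K (X → K)) : Set (X → K) :=
  {φ | ∀ u ∈ C, ∑ x, φ x * u x = 0}

omit [Finite K] [PTCode K] in
theorem mem_iff_ann {X : Type} [Fintype X] (C : Submodule K (X → K)) (v : X → K) :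
    v ∈ C ↔ ∀ φ ∈ ann C, ∑ x, φ x * v x = 0 := by
  classical
  refine ⟨fun h φ hφ => hφ v h, fun h => ?_⟩
  by_contra hv
  obtain ⟨f, hf, hp⟩ := Submodule.exists_le_ker_of_notMem hv
  have key : ∀ u : X → K, f u = ∑ x, f (Pi.single x 1) * u x := by
    intro u
    conv_lhs => rw [← Finset.univ_sum_single u, map_sum]
    refine Finset.sum_congr rfl fun x _ => ?_
    have : (Pi.single x (u x) : X → K) = u x • Pi.single x 1 := by
      rw [← Pi.single_smul, smul_eq_mul, mul_one]
    rw [this, map_smul, smul_eq_mul, mul_comm]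
  refine hf ((key v).trans (h (fun x => f (Pi.single x 1)) fun u hu => ?_))
  rw [← key u]
  exact hp hu

/-! ### numbering of a finite type -/

omit [Field K] [Finite K] [PTCode K] in
/-- decoding of numbers below the cardinality -/
noncomputable def dec {X : Type} [Fintype X] (x0 : X) (j : ℕ) : X :=
  if h : j < Fintype.card X then (Fintype.equivFin X).symm ⟨j, h⟩ else x0

/-- number of an element -/
noncomputable def num {X : Type} [Fintype X] (x : X) : ℕ := (Fintype.equivFin X x : ℕ)

omit [Field K] [Finite K] [PTCode K] in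
theorem num_lt {X : Type} [Fintype X] (x : X) : num x < Fintype.card X :=
  (Fintype.equivFin X x).2

omit [Field K] [Finite K] [PTCode K] in
theorem dec_num {X : Type} [Fintype X] (x0 x : X) : dec x0 (num x) = x := by
  unfold dec num
  rw [dif_pos (Fintype.equivFin X x).2]
  simp

omit [Field K] [Finite K] [PTCode K] in
theorem num_dec {X : Type} [Fintype X] (x0 : X) {j : ℕ} (hj : j < Fintype.card X) :
    num (dec x0 j) = j := by
  unfold dec num
  rw [dif_pos hj]
  simp

omit [Field K] [Finite K] [PTCode K] in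
theorem sum_range_mul_card {M : Type} [AddCommMonoid M] {X : Type} [Fintype X] (x0 : X) (n : ℕ)
    (F : ℕ → X → M) :
    ∑ j ∈ Finset.range (n * Fintype.card X),
      F (j / Fintype.card X) (dec x0 (j % Fintype.card X))
      = ∑ g ∈ Finset.range n, ∑ x, F g x := by
  have hq : 0 < Fintype.card X := Fintype.card_pos_iff.2 ⟨x0⟩
  rw [← Finset.sum_product']
  refine Finset.sum_nbij' (i := fun j => (j / Fintype.card X, dec x0 (j % Fintype.card X)))
    (j := fun p => p.1 * Fintype.card X + num p.2) ?_ ?_ ?_ ?_ ?_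
  · intro j hj
    simp only [Finset.mem_range] at hj
    simp only [Finset.mem_product, Finset.mem_range, Finset.mem_univ, and_true]
    exact Nat.div_lt_of_lt_mul (by rwa [mul_comm] at hj)
  · intro p hp
    simp only [Finset.mem_product, Finset.mem_range, Finset.mem_univ, and_true] at hp
    exact Finset.mem_range.2 (idx_lt hp (num_lt p.2))
  · intro j _
    show j / Fintype.card X * Fintype.card X + num (dec x0 (j % Fintype.card X)) = j
    rw [num_dec x0 (Nat.mod_lt _ hq), mul_comm]
    exact Nat.div_add_mod _ _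
  · intro p _
    show ((p.1 * Fintype.card X + num p.2) / Fintype.card X,
      dec x0 ((p.1 * Fintype.card X + num p.2) % Fintype.card X)) = p
    rw [idx_div (num_lt p.2), idx_mod (num_lt p.2), dec_num]
  · intro j _
    rfl

/-! ### words with local conditions -/

section word

variable {X ι : Type} [Fintype X] [Fintype ι]

open Classical in
/-- coefficient of the square `(g, x)` in the equation `(h, ρ)` -/
noncomputable def cf (C : ι → Submodule K (X → K)) (x0 : X) (nb : ι → X → ℕ → ℕ) (h : ℕ)
    (ρ : Option (ι × (X → K))) (g : ℕ) (x : X) : K :=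
  match ρ with
  | some r => if r.2 ∈ ann (C r.1) ∧ nb r.1 x h = g then r.2 x else 0
  | none => if x = x0 ∧ h = g then 1 else 0

/-- right side of the equation `(h, ρ)` -/
noncomputable def rhs (content : ℕ → K) (h : ℕ) (ρ : Option (ι × (X → K))) : K :=
  match ρ with
  | some _ => 0
  | none => content h

open Classical in
omit [Finite K] [PTCode K] [Fintype ι] in
theorem sum_cf_some (C : ι → Submodule K (X → K)) (x0 : X) (nb : ι → X → ℕ → ℕ) {n h : ℕ}
    (hlt : ∀ c x, nb c x h < n) (c : ι) (φ : X → K) (v : ℕ → X → K) :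
    ∑ g ∈ Finset.range n, ∑ x, cf C x0 nb h (some (c, φ)) g x * v g x
      = if φ ∈ ann (C c) then ∑ x, φ x * v (nb c x h) x else 0 := by
  classical
  by_cases hφ : φ ∈ ann (C c)
  · rw [if_pos hφ, Finset.sum_comm]
    refine Finset.sum_congr rfl fun x _ => ?_
    have : ∀ g ∈ Finset.range n, cf C x0 nb h (some (c, φ)) g x * v g x
        = if nb c x h = g then φ x * v g x else 0 := by
      intro g _
      by_cases hg : nb c x h = g
      · simp [cf, hφ, hg]
      · simp [cf, hg]
    rw [Finset.sum_congr rfl this, Finset.sum_ite_eq, if_pos (Finset.mem_range.2 (hlt c x))]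
  · rw [if_neg hφ]
    refine Finset.sum_eq_zero fun g _ => Finset.sum_eq_zero fun x _ => ?_
    simp [cf, hφ]

omit [Finite K] [PTCode K] [Fintype ι] in
theorem sum_cf_none (C : ι → Submodule K (X → K)) (x0 : X) (nb : ι → X → ℕ → ℕ) {n h : ℕ}
    (hh : h < n) (v : ℕ → X → K) :
    ∑ g ∈ Finset.range n, ∑ x, cf C x0 nb h none g x * v g x = v h x0 := by
  classical
  have : ∀ g ∈ Finset.range n, ∑ x, cf C x0 nb h none g x * v g x
      = if h = g then v g x0 else 0 := by
    intro g _
    by_cases hg : h = g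
    · rw [if_pos hg, Finset.sum_eq_single x0]
      · simp [cf, hg]
      · intro x _ hx
        simp [cf, hx]
      · intro hx
        exact absurd (Finset.mem_univ _) hx
    · rw [if_neg hg]
      refine Finset.sum_eq_zero fun x _ => ?_
      simp [cf, hg]
  rw [Finset.sum_congr rfl this, Finset.sum_ite_eq, if_pos (Finset.mem_range.2 hh)]

/-- **words with local conditions and prescribed content are polynomial-time computable** -/
theorem ptf_word (C : ι → Submodule K (X → K)) (x0 : X) {n : α → ℕ}
    {nb : α → ι → X → ℕ → ℕ} {content : α → ℕ → K} {w : α → ℕ → X → K}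
    (hn : PTU n) (hnb : ∀ c x, PTF (fun p : α × ℕ => nb p.1 c x p.2))
    (hlt : ∀ a c x h, h < n a → nb a c x h < n a)
    (hcont : PTF (fun p : α × ℕ => content p.1 p.2))
    (hw : ∀ a c h, h < n a → (fun x => w a (nb a c x h) x) ∈ C c)
    (hwc : ∀ a g, g < n a → w a g x0 = content a g)
    (huniq : ∀ a (v : ℕ → X → K), (∀ c h, h < n a → (fun x => v (nb a c x h) x) ∈ C c) →
      (∀ g, g < n a → v g x0 = 0) → ∀ g, g < n a → ∀ x, v g x = 0) (x : X) :
    PTF (fun p : α × ℕ => if p.2 < n p.1 then w p.1 p.2 x else 0) := by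
  classical
  have _ : Fintype K := Fintype.ofFinite K
  set q := Fintype.card X with hq
  set r := Fintype.card (Option (ι × (X → K))) with hr
  have hq0 : 0 < q := Fintype.card_pos_iff.2 ⟨x0⟩
  have hr0 : 0 < r := Fintype.card_pos_iff.2 ⟨none⟩
  -- the system
  have hA : PTF (fun p : α × ℕ × ℕ => cf C x0 (nb p.1) (p.2.1 / r) (dec none (p.2.1 % r))
      (p.2.2 / q) (dec x0 (p.2.2 % q))) := by
    have hG : ∀ s t : ℕ, PTF (fun p : α × ℕ × ℕ => cf C x0 (nb p.1) (p.2.1 / r)
        (dec none s) (p.2.2 / q) (dec x0 t)) := by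
      intro s t
      have hh : PTF (fun p : α × ℕ × ℕ => p.2.1 / r) :=
        PTF.natDiv (PTF.comp PTF.fst PTF.snd) (PTF.const r)
      have hg : PTF (fun p : α × ℕ × ℕ => p.2.2 / q) :=
        PTF.natDiv (PTF.comp PTF.snd PTF.snd) (PTF.const q)
      cases hρ : (dec none s : Option (ι × (X → K))) with
      | none =>
        by_cases hx : dec x0 t = x0
        · refine PTF.of_eq (PTF.ite (p := fun p : α × ℕ × ℕ => p.2.1 / r = p.2.2 / q)
            (PTPred.eq hh hg) (PTF.const (1 : K)) (PTF.const 0)) fun p => ?_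
          simp [cf, hx]
        · refine PTF.of_eq (PTF.const (0 : K)) fun p => ?_
          simp [cf, hx]
      | some ρ =>
        have hnb' : PTF (fun p : α × ℕ × ℕ => nb p.1 ρ.1 (dec x0 t) (p.2.1 / r)) :=
          PTF.comp (g := fun p : α × ℕ => nb p.1 ρ.1 (dec x0 t) p.2)
            (f := fun p : α × ℕ × ℕ => (p.1, p.2.1 / r)) (hnb _ _) (PTF.prodMk PTF.fst hh)
        by_cases hφ : ρ.2 ∈ ann (C ρ.1)
        · refine PTF.of_eq (PTF.ite
            (p := fun p : α × ℕ × ℕ => nb p.1 ρ.1 (dec x0 t) (p.2.1 / r) = p.2.2 / q)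
            (PTPred.eq hnb' hg) (PTF.const (ρ.2 (dec x0 t))) (PTF.const 0)) fun p => ?_
          simp [cf, hφ]
        · refine PTF.of_eq (PTF.const (0 : K)) fun p => ?_
          simp [cf, hφ]
    have h1 : PTF (fun p : α × ℕ × ℕ => if p.2.1 % r < r then (if p.2.2 % q < q then
        cf C x0 (nb p.1) (p.2.1 / r) (dec none (p.2.1 % r)) (p.2.2 / q) (dec x0 (p.2.2 % q))
        else 0) else 0) := by
      refine ptf_upto r (f := fun s p => if p.2.2 % q < q then
        cf C x0 (nb p.1) (p.2.1 / r) (dec none s) (p.2.2 / q) (dec x0 (p.2.2 % q)) else 0)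
        (d := fun _ : α × ℕ × ℕ => (0 : K)) (fun s _ => ?_) (PTF.const 0)
        (PTF.natMod (PTF.comp PTF.fst PTF.snd) (PTF.const r))
      exact ptf_upto q (f := fun t p => cf C x0 (nb p.1) (p.2.1 / r) (dec none s) (p.2.2 / q)
        (dec x0 t)) (d := fun _ : α × ℕ × ℕ => (0 : K)) (fun t _ => hG s t) (PTF.const 0)
        (PTF.natMod (PTF.comp PTF.snd PTF.snd) (PTF.const q))
    refine PTF.of_eq h1 fun p => ?_
    rw [if_pos (Nat.mod_lt _ hr0), if_pos (Nat.mod_lt _ hq0)]
  have hb : PTF (fun p : α × ℕ => rhs (X := X) (ι := ι) (content p.1) (p.2 / r)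
      (dec none (p.2 % r))) := by
    have hG : ∀ s : ℕ, PTF (fun p : α × ℕ => rhs (X := X) (ι := ι) (content p.1) (p.2 / r)
        (dec none s)) := by
      intro s
      cases hρ : (dec none s : Option (ι × (X → K))) with
      | none =>
        exact PTF.comp (g := fun p : α × ℕ => content p.1 p.2)
          (f := fun p : α × ℕ => (p.1, p.2 / r)) hcont
          (PTF.prodMk PTF.fst (PTF.natDiv PTF.snd (PTF.const r)))
      | some ρ => exact PTF.const 0
    refine PTF.of_eq (ptf_upto r (f := fun s p => rhs (X := X) (ι := ι) (content p.1) (p.2 / r)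
        (dec none s)) (d := fun _ : α × ℕ => (0 : K)) (fun s _ => hG s) (PTF.const 0)
        (PTF.natMod PTF.snd (PTF.const r))) fun p => ?_
    rw [if_pos (Nat.mod_lt _ hr0)]
  have hmain := ptf_unique (n := fun a => n a * q) (m := fun a => n a * r)
    (A := fun a row col => cf C x0 (nb a) (row / r) (dec none (row % r)) (col / q)
      (dec x0 (col % q)))
    (b := fun a row => rhs (content a) (row / r) (dec none (row % r)))
    (x := fun a j => w a (j / q) (dec x0 (j % q)))
    (PTU.mul hn (PTU.const q)) (PTU.mul hn (PTU.const r)) hA hb ?_ ?_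
  · -- read off
    have hc : PTF (fun p : α × ℕ => (p.1, p.2 * q + num x)) :=
      PTF.prodMk PTF.fst (PTF.natAdd (PTF.natMul PTF.snd (PTF.const q)) (PTF.const (num x)))
    have h2 := PTF.comp (g := fun p : α × ℕ => if p.2 < n p.1 * q then
      w p.1 (p.2 / q) (dec x0 (p.2 % q)) else 0) (f := fun p : α × ℕ => (p.1, p.2 * q + num x))
      hmain hc
    refine PTF.of_eq h2 fun p => ?_
    simp only
    by_cases h : p.2 < n p.1
    · rw [if_pos (idx_lt h (num_lt x)), if_pos h, idx_div (num_lt x), idx_mod (num_lt x), dec_num]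
    · rw [if_neg h, if_neg]
      intro hcon
      apply h
      have : p.2 * q < n p.1 * q := by omega
      exact Nat.lt_of_mul_lt_mul_right this
  · intro a row hrow
    have hh : row / r < n a := Nat.div_lt_of_lt_mul (by rwa [mul_comm] at hrow)
    have e := sum_range_mul_card x0 (n a) (fun g x => cf C x0 (nb a) (row / r)
      (dec none (row % r)) g x * w a g x)
    rw [← hq] at e
    rw [e]
    cases hρ : (dec none (row % r) : Option (ι × (X → K))) with
    | none =>
      rw [sum_cf_none C x0 (nb a) hh, hwc a _ hh]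
      rfl
    | some ρ =>
      obtain ⟨c, φ⟩ := ρ
      rw [sum_cf_some C x0 (nb a) (fun c x => hlt a c x _ hh)]
      by_cases hφ : φ ∈ ann (C c)
      · rw [if_pos hφ]
        exact hφ _ (hw a c _ hh)
      · rw [if_neg hφ]
        rfl
  · intro a y hy j hj
    have key := huniq a (fun g x => y (g * q + num x)) ?_ ?_ (j / q)
      (Nat.div_lt_of_lt_mul (by rwa [mul_comm] at hj)) (dec x0 (j % q))
    · have key' : y (j / q * q + num (dec x0 (j % q))) = 0 := key
      rw [num_dec x0 (Nat.mod_lt _ hq0), mul_comm, Nat.div_add_mod] at key'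
      exact key'
    · intro c h hh
      rw [mem_iff_ann]
      intro φ hφ
      have h1 := hy (h * r + num (some (c, φ))) (idx_lt hh (num_lt _))
      have e := sum_range_mul_card x0 (n a) (fun g x => cf C x0 (nb a) h
        (some (c, φ)) g x * y (g * q + num x))
      rw [← hq] at e
      rw [sum_cf_some C x0 (nb a) (fun c x => hlt a c x _ hh), if_pos hφ] at e
      rw [← e, ← h1]
      refine Finset.sum_congr rfl fun j _ => ?_
      rw [idx_div (num_lt _), idx_mod (num_lt _), dec_num, num_dec x0 (Nat.mod_lt _ hq0),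
        mul_comm (j / q) q, Nat.div_add_mod]
    · intro g hg
      have h1 := hy (g * r + num (none : Option (ι × (X → K)))) (idx_lt hg (num_lt _))
      have e := sum_range_mul_card x0 (n a) (fun g' x => cf C x0 (nb a) g
        (none : Option (ι × (X → K))) g' x * y (g' * q + num x))
      rw [← hq] at e
      rw [sum_cf_none C x0 (nb a) hg] at e
      rw [← e, ← h1]
      refine Finset.sum_congr rfl fun j _ => ?_
      rw [idx_div (num_lt _), idx_mod (num_lt _), dec_num, num_dec x0 (Nat.mod_lt _ hq0),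
        mul_comm (j / q) q, Nat.div_add_mod]

/-- the same for words on numbered finite groups (or any numbered sets): `nbr a c x h` is the group
element at which condition `(c, h)` reads the square `x`, e.g. `h * (r a c x)⁻¹` -/
theorem ptf_word_fam (C : ι → Submodule K (X → K)) (x0 : X) {n : α → ℕ} {P : α → Type}
    (e : ∀ a, P a ≃ Fin (n a)) (nbr : ∀ a, ι → X → P a → P a) {f : ∀ a, P a → X → K}
    (hn : PTU n)
    (hnb : ∀ c x, PTF (fun p : α × ℕ => if h : p.2 < n p.1 then
      ((e p.1 (nbr p.1 c x ((e p.1).symm ⟨p.2, h⟩)) : Fin (n p.1)) : ℕ) else 0))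
    (hcont : PTF (fun p : α × ℕ => if h : p.2 < n p.1 then
      f p.1 ((e p.1).symm ⟨p.2, h⟩) x0 else 0))
    (hf : ∀ a c h, (fun x => f a (nbr a c x h) x) ∈ C c)
    (huniq : ∀ a (v : P a → X → K), (∀ c h, (fun x => v (nbr a c x h) x) ∈ C c) →
      (∀ g, v g x0 = 0) → ∀ g x, v g x = 0) (x : X) :
    PTF (fun p : α × ℕ => if h : p.2 < n p.1 then f p.1 ((e p.1).symm ⟨p.2, h⟩) x else 0) := by
  have key := ptf_word (K := K) (n := n) (nb := fun a c x h => if hh : h < n a then
      ((e a (nbr a c x ((e a).symm ⟨h, hh⟩)) : Fin (n a)) : ℕ) else 0)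
    (content := fun a g => if h : g < n a then f a ((e a).symm ⟨g, h⟩) x0 else 0)
    (w := fun a g x => if h : g < n a then f a ((e a).symm ⟨g, h⟩) x else 0)
    C x0 hn hnb ?_ hcont ?_ ?_ ?_ x
  · refine PTF.of_eq key fun p => ?_
    by_cases h : p.2 < n p.1
    · simp [h]
    · simp [h]
  · intro a c x h hh
    simp only [hh, dif_pos]
    exact Fin.isLt _
  · intro a c h hh
    have h1 := hf a c ((e a).symm ⟨h, hh⟩)
    have h2 : (fun x => (fun (g : ℕ) (x : X) => if h : g < n a then
        f a ((e a).symm ⟨g, h⟩) x else 0) (if hh : h < n a then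
        ((e a (nbr a c x ((e a).symm ⟨h, hh⟩)) : Fin (n a)) : ℕ) else 0) x)
        = fun x => f a (nbr a c x ((e a).symm ⟨h, hh⟩)) x := by
      funext x
      simp [hh]
    rw [← h2] at h1
    exact h1
  · intro a g hg
    simp [hg]
  · intro a v hv h0 g hg x
    have h1 := huniq a (fun g x => v (e a g) x) (fun c h => ?_) (fun g => h0 _ (e a g).2)
      ((e a).symm ⟨g, hg⟩) x
    · simpa using h1
    · have h2 := hv c (e a h) (e a h).2
      simpa using h2

/-- words on numbered groups, conditions read at `h * (r a c x)⁻¹` -/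
theorem ptf_word_group (C : ι → Submodule K (X → K)) (x0 : X) {n : α → ℕ} {P : α → Type}
    [∀ a, Group (P a)] (e : ∀ a, P a ≃ Fin (n a)) (r : ∀ a, ι → X → P a)
    {f : ∀ a, P a → X → K} (hn : PTU n)
    (hnb : ∀ c x, PTF (fun p : α × ℕ => if h : p.2 < n p.1 then
      ((e p.1 ((e p.1).symm ⟨p.2, h⟩ * (r p.1 c x)⁻¹) : Fin (n p.1)) : ℕ) else 0))
    (hcont : PTF (fun p : α × ℕ => if h : p.2 < n p.1 then
      f p.1 ((e p.1).symm ⟨p.2, h⟩) x0 else 0))
    (hf : ∀ a c h, (fun x => f a (h * (r a c x)⁻¹) x) ∈ C c)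
    (huniq : ∀ a (v : P a → X → K), (∀ c h, (fun x => v (h * (r a c x)⁻¹) x) ∈ C c) →
      (∀ g, v g x0 = 0) → ∀ g x, v g x = 0) (x : X) :
    PTF (fun p : α × ℕ => if h : p.2 < n p.1 then f p.1 ((e p.1).symm ⟨p.2, h⟩) x else 0) :=
  ptf_word_fam C x0 e (fun a c x h => h * (r a c x)⁻¹) hn hnb hcont hf huniq x

omit [Finite K] in
/-- the symbol of a word at a numbered square: `j = g * |X| + num x` -/
theorem ptf_square (x0 : X) {n : α → ℕ} {w : α → ℕ → X → K}
    (hw : ∀ x, PTF (fun p : α × ℕ => if p.2 < n p.1 then w p.1 p.2 x else 0)) :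
    PTF (fun p : α × ℕ => if p.2 < n p.1 * Fintype.card X then
      w p.1 (p.2 / Fintype.card X) (dec x0 (p.2 % Fintype.card X)) else 0) := by
  classical
  set q := Fintype.card X with hq
  have hq0 : 0 < q := Fintype.card_pos_iff.2 ⟨x0⟩
  have h1 : PTF (fun p : α × ℕ => if p.2 % q < q then
      (if p.2 / q < n p.1 then w p.1 (p.2 / q) (dec x0 (p.2 % q)) else 0) else 0) := by
    refine ptf_upto q (f := fun t p => if p.2 / q < n p.1 then
      w p.1 (p.2 / q) (dec x0 t) else 0) (d := fun _ : α × ℕ => (0 : K)) (fun t _ => ?_)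
      (PTF.const 0) (PTF.natMod PTF.snd (PTF.const q))
    exact PTF.comp (g := fun p : α × ℕ => if p.2 < n p.1 then w p.1 p.2 (dec x0 t) else 0)
      (f := fun p : α × ℕ => (p.1, p.2 / q)) (hw _)
      (PTF.prodMk PTF.fst (PTF.natDiv PTF.snd (PTF.const q)))
  refine PTF.of_eq h1 fun p => ?_
  rw [if_pos (Nat.mod_lt _ hq0)]
  by_cases h : p.2 < n p.1 * q
  · rw [if_pos h, if_pos (Nat.div_lt_of_lt_mul (by rwa [mul_comm] at h))]
  · rw [if_neg h, if_neg]
    intro hcon
    apply h
    exact (Nat.div_lt_iff_lt_mul hq0).1 hcon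

end word

end field

end Crest.Agent.R289.Pub654
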