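import Mathlib

/-!
Row 289, C_REAL, routing of post 6062 (helper649): the counting part.

`blocked_count`: the wires that cannot be routed in a pass are few compared with the used vertices.
`halve`: so `(C + 1) * (log₂ m + 1)` passes are enough.
-/

set_option autoImplicit false

namespace Crest.Agent.R289.RCount444

open Finset

/-- number of the words `g < n` whose path from `a` meets `U` -/
theorem sum_meets_le {n l : ℕ} (pt : ℕ → ℕ → List ℕ)
    (hc : ∀ g < n, ∀ u : ℕ, ((range n).filter fun a => u ∈ pt a g).card ≤ l + 1)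
    (U : List ℕ) (A : Finset ℕ) (hA : A ⊆ range n) :
    ∑ a ∈ A, ((range n).filter fun g => ∃ u ∈ U, u ∈ pt a g).card ≤ n * (U.length * (l + 1)) := by
  classical
  have h1 : ∑ a ∈ A, ((range n).filter fun g => ∃ u ∈ U, u ∈ pt a g).card =
      ∑ g ∈ range n, (A.filter fun a => ∃ u ∈ U, u ∈ pt a g).card := by
    simp only [card_filter]
    rw [sum_comm]
  rw [h1]
  calc ∑ g ∈ range n, (A.filter fun a => ∃ u ∈ U, u ∈ pt a g).card
      ≤ ∑ g ∈ range n, U.length * (l + 1) := by
        refine sum_le_sum fun g hg => ?_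
        rw [mem_range] at hg
        have h2 : (A.filter fun a => ∃ u ∈ U, u ∈ pt a g) ⊆
            U.toFinset.biUnion fun u => (range n).filter fun a => u ∈ pt a g := by
          intro a ha
          rw [mem_filter] at ha
          obtain ⟨u, hu, hua⟩ := ha.2
          rw [mem_biUnion]
          exact ⟨u, List.mem_toFinset.2 hu, mem_filter.2 ⟨hA ha.1, hua⟩⟩
        refine (card_le_card h2).trans ?_
        refine card_biUnion_le.trans ?_
        refine (sum_le_card_nsmul _ _ (l + 1) fun u _ => hc g hg u).trans ?_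
        rw [smul_eq_mul]
        exact Nat.mul_le_mul_right _ (List.toFinset_card_le U)
    _ = n * (U.length * (l + 1)) := by rw [sum_const, card_range, smul_eq_mul]

/-- a bijection of the words: blocked middle vertices = blocked words -/
theorem card_idx_le {n : ℕ} (pt : ℕ → ℕ → List ℕ) (idx : ℕ → ℕ → ℕ)
    (hlt : ∀ a < n, ∀ r < n, idx a r < n)
    (hinj : ∀ a < n, ∀ r < n, ∀ r' < n, idx a r = idx a r' → r = r') (U : List ℕ) (a : ℕ)
    (ha : a < n) :
    ((range n).filter fun r => ∃ u ∈ U, u ∈ pt a (idx a r)).card ≤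
      ((range n).filter fun g => ∃ u ∈ U, u ∈ pt a g).card := by
  refine card_le_card_of_injOn (idx a) ?_ ?_
  · intro r hr
    rw [mem_coe, mem_filter, mem_range] at hr
    rw [mem_coe, mem_filter, mem_range]
    exact ⟨hlt a ha r hr.1, hr.2⟩
  · intro r hr r' hr' h
    rw [mem_coe, mem_filter, mem_range] at hr hr'
    exact hinj a ha r hr.1 r' hr'.1 h

/-- **the blocked wires are few**: every left wire is blocked by `U` at every middle vertex -/
theorem blocked_count {n l : ℕ} (hn : 0 < n) (pt : ℕ → ℕ → List ℕ) (idx : ℕ → ℕ → ℕ)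
    (hlt : ∀ a < n, ∀ r < n, idx a r < n)
    (hinj : ∀ a < n, ∀ r < n, ∀ r' < n, idx a r = idx a r' → r = r')
    (hc : ∀ g < n, ∀ u : ℕ, ((range n).filter fun a => u ∈ pt a g).card ≤ l + 1)
    (U : List ℕ) (left : List (ℕ × ℕ)) (h1 : (left.map Prod.fst).Nodup)
    (h2 : (left.map Prod.snd).Nodup) (hw : ∀ e ∈ left, e.1 < n ∧ e.2 < n)
    (hb : ∀ e ∈ left, ∀ r < n, (∃ u ∈ U, u ∈ pt e.1 (idx e.1 r)) ∨
      (∃ u ∈ U, u ∈ pt e.2 (idx e.2 r))) :
    left.length ≤ 2 * (l + 1) * U.length := by
  classical
  have hlen : ∀ f : ℕ × ℕ → ℕ, (left.map f).Nodup → (∀ e ∈ left, f e < n) →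
      (left.map fun e => ((range n).filter fun g => ∃ u ∈ U, u ∈ pt (f e) g).card).sum ≤
        n * (U.length * (l + 1)) := by
    intro f hf hfn
    have h3 : (left.map fun e => ((range n).filter fun g => ∃ u ∈ U, u ∈ pt (f e) g).card).sum =
        ∑ a ∈ (left.map f).toFinset, ((range n).filter fun g => ∃ u ∈ U, u ∈ pt a g).card := by
      rw [List.sum_toFinset _ hf, List.map_map]
      rfl
    rw [h3]
    refine sum_meets_le pt hc U _ ?_
    intro a ha
    rw [List.mem_toFinset, List.mem_map] at ha
    obtain ⟨e, he, rfl⟩ := ha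
    exact mem_range.2 (hfn e he)
  have hs := hlen Prod.fst h1 fun e he => (hw e he).1
  have ht := hlen Prod.snd h2 fun e he => (hw e he).2
  have hsum : left.length * n ≤
      (left.map fun e => ((range n).filter fun g => ∃ u ∈ U, u ∈ pt e.1 g).card).sum +
      (left.map fun e => ((range n).filter fun g => ∃ u ∈ U, u ∈ pt e.2 g).card).sum := by
    rw [← List.sum_map_add]
    rw [← smul_eq_mul]
    have h4 : ∀ e ∈ left, n ≤ ((range n).filter fun g => ∃ u ∈ U, u ∈ pt e.1 g).card +
        ((range n).filter fun g => ∃ u ∈ U, u ∈ pt e.2 g).card := by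
      intro e he
      have h5 := card_idx_le pt idx hlt hinj U e.1 (hw e he).1
      have h6 := card_idx_le pt idx hlt hinj U e.2 (hw e he).2
      have h7 : range n ⊆ ((range n).filter fun r => ∃ u ∈ U, u ∈ pt e.1 (idx e.1 r)) ∪
          ((range n).filter fun r => ∃ u ∈ U, u ∈ pt e.2 (idx e.2 r)) := by
        intro r hr
        rw [mem_union, mem_filter, mem_filter]
        rcases hb e he r (mem_range.1 hr) with h | h
        · exact Or.inl ⟨hr, h⟩
        · exact Or.inr ⟨hr, h⟩
      have h8 := (card_le_card h7).trans (card_union_le _ _)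
      rw [card_range] at h8
      omega
    have h9 := List.card_nsmul_le_sum (left.map fun e =>
      ((range n).filter fun g => ∃ u ∈ U, u ∈ pt e.1 g).card +
        ((range n).filter fun g => ∃ u ∈ U, u ∈ pt e.2 g).card) n (by
      intro x hx
      rw [List.mem_map] at hx
      obtain ⟨e, he, rfl⟩ := hx
      exact h4 e he)
    rw [List.length_map] at h9
    exact h9
  have h10 : left.length * n ≤ (2 * (l + 1) * U.length) * n := by
    calc left.length * n ≤ n * (U.length * (l + 1)) + n * (U.length * (l + 1)) :=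
          hsum.trans (Nat.add_le_add hs ht)
      _ = (2 * (l + 1) * U.length) * n := by ring
  exact Nat.le_of_mul_le_mul_right h10 hn

/-- one block of `C + 1` passes halves the number of wires -/
theorem half_block {C : ℕ} (m : ℕ → ℕ) (hm : ∀ i, m (i + 1) ≤ m i)
    (h : ∀ i, m (i + 1) ≤ C * (m i - m (i + 1))) : 2 * m (C + 1) ≤ m 0 := by
  by_contra hcon
  push Not at hcon
  have hmono : ∀ i j, i ≤ j → m j ≤ m i := by
    intro i j hij
    induction hij with
    | refl => exact le_rfl
    | step _ ih => exact (hm _).trans ih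
  -- every pass routes at least `d` wires, `(C + 1) * d > m 0 / 2`
  have key : ∀ j, j ≤ C + 1 → (C + 1) * (m 0 - m j) ≥ j * m (C + 1) := by
    intro j
    induction j with
    | zero => intro _; simp
    | succ j ih =>
      intro hj
      have h1 := ih (by omega)
      have h2 := h j
      have h3 := hm j
      have h4 := hmono 0 j (Nat.zero_le _)
      have h5 := hmono (j + 1) (C + 1) hj
      have h6 : m (j + 1) ≤ (C + 1) * (m j - m (j + 1)) := by
        rw [Nat.succ_mul]; omega
      have h7 : m 0 - m (j + 1) = (m 0 - m j) + (m j - m (j + 1)) := by omega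
      have h8 : (j + 1) * m (C + 1) = j * m (C + 1) + m (C + 1) := Nat.succ_mul _ _
      rw [h7, Nat.mul_add, h8]
      omega
  have h1 := key (C + 1) le_rfl
  have h2 : m (C + 1) ≤ m 0 - m (C + 1) := Nat.le_of_mul_le_mul_left h1 (Nat.succ_pos C)
  omega

/-- **number of passes** -/
theorem halve {C : ℕ} (m : ℕ → ℕ) (hm : ∀ i, m (i + 1) ≤ m i)
    (h : ∀ i, m (i + 1) ≤ C * (m i - m (i + 1))) {k : ℕ} (hk : m 0 < 2 ^ k) :
    m ((C + 1) * k) = 0 := by
  induction k generalizing m with
  | zero => simp at hk; simpa using hk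
  | succ k ih =>
    have h1 := half_block m hm h
    have h2 := ih (fun i => m (C + 1 + i)) (fun i => hm _) (fun i => h _)
      (by show m (C + 1 + 0) < 2 ^ k; rw [Nat.pow_succ] at hk; simp only [Nat.add_zero]; omega)
    rw [Nat.mul_succ, Nat.add_comm]
    exact h2

/-- the form with the logarithm -/
theorem halve_log {C : ℕ} (m : ℕ → ℕ) (hm : ∀ i, m (i + 1) ≤ m i)
    (h : ∀ i, m (i + 1) ≤ C * (m i - m (i + 1))) : m ((C + 1) * (Nat.log 2 (m 0) + 1)) = 0 :=
  halve m hm h (Nat.lt_pow_succ_log_self (by norm_num) _)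

/-- later passes have nothing to do -/
theorem zero_of_ge (m : ℕ → ℕ) (hm : ∀ i, m (i + 1) ≤ m i) {i j : ℕ} (hij : i ≤ j) (hi : m i = 0) :
    m j = 0 := by
  induction hij with
  | refl => exact hi
  | step _ ih => exact Nat.le_zero.1 ((hm _).trans ih.le)

end Crest.Agent.R289.RCount444
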