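import Mathlib

/-!
Row 289, block B: homogeneous polynomial conditions on lines of `K²` (values in a `K`-module `A`),
their behaviour under linear maps, and their form in the standard section `(z,1)`, `(1,0)`.

* `hev s c l = ∑_j l₀^j l₁^(s-j) • c_j`;
* `Cd s v x`: `x t = hev s c (v t)` for some coefficients `c` (values `x`, vectors `v`);
* `cd_iff`: invariant under an invertible linear change of the vectors, also with scalars `λ(t)`,
  `λ(t)^s = κ ≠ 0`;
* `cd_iff_RS`: in the section, `sc (v t)^(-s) • x t` is a polynomial of degree `≤ s` in `pt (v t)`.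
-/

set_option autoImplicit false
set_option linter.unusedSectionVars false

namespace Crest.Agent.R289.RSlin750

open Finset

variable {K : Type*} [Field K]

/-- representative vector of a point -/
def rp : Option K → K × K
  | none => (1, 0)
  | some z => (z, 1)

@[simp] theorem rp_none : rp (none : Option K) = (1, 0) := rfl
@[simp] theorem rp_some (z : K) : rp (some z) = (z, 1) := rfl

theorem rp_ne_zero (z : Option K) : rp z ≠ 0 := by
  cases z with
  | none => intro h; exact one_ne_zero (congrArg Prod.fst h)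
  | some z => intro h; exact one_ne_zero (congrArg Prod.snd h)

open Classical in
/-- point of a vector -/
noncomputable def pt (l : K × K) : Option K := if l.2 = 0 then none else some (l.1 / l.2)

open Classical in
/-- scalar of a vector -/
noncomputable def sc (l : K × K) : K := if l.2 = 0 then l.1 else l.2

theorem sc_smul_rp (l : K × K) : sc l • rp (pt l) = l := by
  unfold sc pt
  by_cases h : l.2 = 0
  · rw [if_pos h, if_pos h]
    ext <;> simp [h]
  · rw [if_neg h, if_neg h]
    ext
    · simp only [rp_some, Prod.smul_fst, smul_eq_mul]; field_simp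
    · simp

theorem sc_ne_zero {l : K × K} (hl : l ≠ 0) : sc l ≠ 0 := by
  unfold sc
  by_cases h : l.2 = 0
  · rw [if_pos h]
    intro h1
    exact hl (Prod.ext h1 h)
  · rw [if_neg h]; exact h

@[simp] theorem pt_rp (z : Option K) : pt (rp z) = z := by
  cases z <;> simp [pt]

@[simp] theorem sc_rp (z : Option K) : sc (rp z) = 1 := by
  cases z <;> simp [sc]

theorem sc_smul {a : K} (ha : a ≠ 0) (l : K × K) : sc (a • l) = a * sc l := by
  unfold sc
  by_cases h : l.2 = 0
  · rw [if_pos h, if_pos (by simp [h])]; simp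
  · rw [if_neg h, if_neg (by simp [h, ha])]; simp

theorem pt_smul {a : K} (ha : a ≠ 0) (l : K × K) : pt (a • l) = pt l := by
  unfold pt
  by_cases h : l.2 = 0
  · rw [if_pos h, if_pos (by simp [h])]
  · rw [if_neg h, if_neg (by simp [h, ha])]
    simp only [Prod.smul_fst, Prod.smul_snd, smul_eq_mul]
    rw [mul_div_mul_left _ _ ha]

/-- two non-zero vectors with the same point are proportional -/
theorem pt_eq_iff {l m : K × K} (hl : l ≠ 0) (hm : m ≠ 0) :
    pt l = pt m ↔ ∃ a : K, a ≠ 0 ∧ m = a • l := by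
  constructor
  · intro h
    refine ⟨sc m * (sc l)⁻¹, mul_ne_zero (sc_ne_zero hm) (inv_ne_zero (sc_ne_zero hl)), ?_⟩
    have h1 : rp (pt l) = (sc l)⁻¹ • l := by
      conv_rhs => rw [← sc_smul_rp l]
      rw [sc_smul (sc_ne_zero hl), sc_rp, mul_one, smul_smul, inv_mul_cancel₀ (sc_ne_zero hl),
        one_smul]
    rw [← smul_smul, ← h1, h, sc_smul_rp]
  · rintro ⟨a, ha, rfl⟩
    exact (pt_smul ha l).symm

/-- determinant -/
def dt (l m : K × K) : K := l.1 * m.2 - l.2 * m.1

theorem dt_smul_left (a : K) (l m : K × K) : dt (a • l) m = a * dt l m := by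
  simp only [dt, Prod.smul_fst, Prod.smul_snd, smul_eq_mul]; ring

theorem dt_smul_right (a : K) (l m : K × K) : dt l (a • m) = a * dt l m := by
  simp only [dt, Prod.smul_fst, Prod.smul_snd, smul_eq_mul]; ring

theorem exists_dt {l : K × K} (hl : l ≠ 0) : ∃ k : K × K, dt l k = 1 := by
  by_cases h : l.1 = 0
  · have h2 : l.2 ≠ 0 := fun h2 => hl (Prod.ext h h2)
    refine ⟨(-(l.2)⁻¹, 0), ?_⟩
    simp [dt, h2]
  · exact ⟨(0, (l.1)⁻¹), by simp [dt, h]⟩

theorem dt_eq_zero_iff {l m : K × K} (hl : l ≠ 0) (hm : m ≠ 0) :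
    dt l m = 0 ↔ ∃ a : K, a ≠ 0 ∧ m = a • l := by
  constructor
  · intro h
    obtain ⟨k, hk⟩ := exists_dt hl
    have key : m = dt m k • l := by
      have h1 : l.1 * m.2 = l.2 * m.1 := sub_eq_zero.mp h
      have h2 : l.1 * k.2 - l.2 * k.1 = 1 := hk
      ext
      · simp only [dt, Prod.smul_fst, smul_eq_mul]
        linear_combination (-m.1) * h2 + k.1 * h1
      · simp only [dt, Prod.smul_snd, smul_eq_mul]
        linear_combination (-m.2) * h2 + k.2 * h1
    refine ⟨dt m k, fun h0 => hm ?_, key⟩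
    rw [key, h0, zero_smul]
  · rintro ⟨a, -, rfl⟩
    simp only [dt, Prod.smul_fst, Prod.smul_snd, smul_eq_mul]; ring

/-! ### homogeneous forms -/

section forms

variable {A : Type*} [AddCommGroup A] [Module K A]

/-- homogeneous form of degree `s` with coefficients `c` -/
def hev (s : ℕ) (c : ℕ → A) (l : K × K) : A := ∑ j ∈ range (s + 1), (l.1 ^ j * l.2 ^ (s - j)) • c j

theorem hev_smul (s : ℕ) (c : ℕ → A) (a : K) (l : K × K) : hev s c (a • l) = a ^ s • hev s c l := by
  unfold hev
  rw [Finset.smul_sum]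
  refine Finset.sum_congr rfl fun j hj => ?_
  have hj' : j ≤ s := Nat.lt_succ_iff.mp (mem_range.mp hj)
  rw [smul_smul]
  congr 1
  simp only [Prod.smul_fst, Prod.smul_snd, smul_eq_mul, mul_pow]
  conv_rhs => rw [← Nat.add_sub_cancel' hj', pow_add]
  simp only [Nat.add_sub_cancel' hj']
  ring

theorem hev_rp_some (s : ℕ) (c : ℕ → A) (z : K) :
    hev s c (rp (some z)) = ∑ j ∈ range (s + 1), z ^ j • c j := by
  simp [hev]

theorem hev_rp_none (s : ℕ) (c : ℕ → A) : hev s c (rp (none : Option K)) = c s := by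
  unfold hev
  rw [Finset.sum_range_succ, Finset.sum_eq_zero]
  · simp
  · intro j hj
    have : s - j ≠ 0 := by have := mem_range.mp hj; omega
    simp [this]

theorem hev_add (s : ℕ) (c d : ℕ → A) (l : K × K) :
    hev s (fun j => c j + d j) l = hev s c l + hev s d l := by
  simp only [hev, smul_add, Finset.sum_add_distrib]

theorem hev_csmul (s : ℕ) (a : K) (c : ℕ → A) (l : K × K) :
    hev s (fun j => a • c j) l = a • hev s c l := by
  simp only [hev, Finset.smul_sum]
  exact Finset.sum_congr rfl fun j _ => smul_comm _ _ _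

/-- scalar homogeneous forms -/
def HP (s : ℕ) (F : K × K → K) : Prop :=
  ∃ e : ℕ → K, ∀ l, F l = ∑ j ∈ range (s + 1), e j * (l.1 ^ j * l.2 ^ (s - j))

theorem HP_one : HP (K := K) 0 fun _ => 1 := ⟨fun _ => 1, fun l => by simp⟩

theorem HP.fst {s : ℕ} {F : K × K → K} (h : HP s F) : HP (s + 1) fun l => l.1 * F l := by
  obtain ⟨e, he⟩ := h
  refine ⟨fun j => if j = 0 then 0 else e (j - 1), fun l => ?_⟩
  beta_reduce
  rw [he, Finset.sum_range_succ' (fun j => (if j = 0 then 0 else e (j - 1)) *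
    (l.1 ^ j * l.2 ^ (s + 1 - j))), Finset.mul_sum]
  simp only [if_pos, zero_mul, add_zero]
  refine Finset.sum_congr rfl fun j _ => ?_
  rw [if_neg (Nat.succ_ne_zero j), Nat.add_sub_cancel, Nat.add_sub_add_right, pow_succ]
  ring

theorem HP.snd {s : ℕ} {F : K × K → K} (h : HP s F) : HP (s + 1) fun l => l.2 * F l := by
  obtain ⟨e, he⟩ := h
  refine ⟨fun j => if j = s + 1 then 0 else e j, fun l => ?_⟩
  beta_reduce
  rw [he, Finset.sum_range_succ (fun j => (if j = s + 1 then 0 else e j) *
    (l.1 ^ j * l.2 ^ (s + 1 - j))), Finset.mul_sum]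
  simp only [if_pos, zero_mul, add_zero]
  refine Finset.sum_congr rfl fun j hj => ?_
  have hj' : j ≤ s := Nat.lt_succ_iff.mp (mem_range.mp hj)
  rw [if_neg (by omega), Nat.succ_sub hj', pow_succ]
  ring

theorem HP.add {s : ℕ} {F G : K × K → K} (h : HP s F) (h' : HP s G) :
    HP s fun l => F l + G l := by
  obtain ⟨e, he⟩ := h
  obtain ⟨d, hd⟩ := h'
  refine ⟨fun j => e j + d j, fun l => ?_⟩
  beta_reduce
  rw [he, hd, ← Finset.sum_add_distrib]
  exact Finset.sum_congr rfl fun j _ => by ring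

theorem HP.cmul {s : ℕ} {F : K × K → K} (a : K) (h : HP s F) : HP s fun l => a * F l := by
  obtain ⟨e, he⟩ := h
  refine ⟨fun j => a * e j, fun l => ?_⟩
  beta_reduce
  rw [he, Finset.mul_sum]
  exact Finset.sum_congr rfl fun j _ => by ring

theorem HP.lin {s : ℕ} {F : K × K → K} (a b : K) (h : HP s F) :
    HP (s + 1) fun l => (a * l.1 + b * l.2) * F l := by
  have := (h.fst.cmul a).add (h.snd.cmul b)
  refine cast ?_ this
  congr 1
  funext l
  ring

theorem HP_pow {s : ℕ} {F : K × K → K} (a b : K) (h : HP s F) (i : ℕ) :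
    HP (s + i) fun l => (a * l.1 + b * l.2) ^ i * F l := by
  induction i with
  | zero => simpa using h
  | succ i ih =>
      have := ih.lin a b
      refine cast ?_ this
      congr 1
      funext l
      rw [pow_succ]; ring

/-- linear map with matrix entries `a b c d` -/
def lin (a b c d : K) (l : K × K) : K × K := (a * l.1 + b * l.2, c * l.1 + d * l.2)

theorem lin_smul (a b c d r : K) (l : K × K) : lin a b c d (r • l) = r • lin a b c d l := by
  ext <;> simp only [lin, Prod.smul_fst, Prod.smul_snd, smul_eq_mul] <;> ring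

theorem hev_lin (s : ℕ) (c : ℕ → A) (a b a' b' : K) :
    ∃ c' : ℕ → A, ∀ l, hev s c (lin a b a' b' l) = hev s c' l := by
  have h1 : ∀ j, j ≤ s → HP s fun l : K × K => (a * l.1 + b * l.2) ^ j *
      (a' * l.1 + b' * l.2) ^ (s - j) := by
    intro j hj
    have h := HP_pow a b (HP_pow a' b' (HP_one (K := K)) (s - j)) j
    simp only [mul_one] at h
    rwa [zero_add, Nat.sub_add_cancel hj] at h
  choose! e he using h1
  replace he : ∀ j ≤ s, ∀ l : K × K, (a * l.1 + b * l.2) ^ j * (a' * l.1 + b' * l.2) ^ (s - j) =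
    ∑ i ∈ range (s + 1), e j i * (l.1 ^ i * l.2 ^ (s - i)) := he
  refine ⟨fun i => ∑ j ∈ range (s + 1), e j i • c j, fun l => ?_⟩
  unfold hev
  simp only [Finset.smul_sum]
  rw [Finset.sum_comm]
  refine Finset.sum_congr rfl fun j hj => ?_
  have hj' : j ≤ s := Nat.lt_succ_iff.mp (mem_range.mp hj)
  simp only [lin]
  rw [he j hj' l, Finset.sum_smul]
  refine Finset.sum_congr rfl fun i _ => ?_
  rw [smul_smul, mul_comm]

variable {T : Type*}

/-- the values `x` are a form of degree `s` of the vectors `v` -/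
def Cd (s : ℕ) (v : T → K × K) (x : T → A) : Prop := ∃ c : ℕ → A, ∀ t, x t = hev s c (v t)

theorem cd_csmul {s : ℕ} {v : T → K × K} {x : T → A} (a : K) (h : Cd s v x) :
    Cd s v (fun t => a • x t) := by
  obtain ⟨c, hc⟩ := h
  exact ⟨fun j => a • c j, fun t => by beta_reduce; rw [hc, hev_csmul]⟩

theorem cd_csmul_iff {s : ℕ} {v : T → K × K} {x : T → A} {a : K} (ha : a ≠ 0) :
    Cd s v (fun t => a • x t) ↔ Cd s v x := by
  constructor
  · intro h
    have := cd_csmul a⁻¹ h
    refine cast ?_ this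
    congr 1
    funext t
    rw [smul_smul, inv_mul_cancel₀ ha, one_smul]
  · exact cd_csmul a

/-- change of the vectors by a linear map and scalars `λ(t)` with constant `s`-th power -/
theorem cd_of_lin {s : ℕ} {v v' : T → K × K} {x : T → A} (a b c d κ : K)
    (h : ∀ t, ∃ r : K, r ^ s = κ ∧ v' t = r • lin a b c d (v t)) (hx : Cd s v' x) : Cd s v x := by
  obtain ⟨e, he⟩ := hx
  obtain ⟨e', he'⟩ := hev_lin s e a b c d
  refine ⟨fun j => κ • e' j, fun t => ?_⟩
  obtain ⟨r, hr, hv⟩ := h t
  rw [he, hv, hev_smul, hr, he', hev_csmul]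

theorem lin_inv {a b c d : K} (hdet : a * d - b * c ≠ 0) (l : K × K) :
    (a * d - b * c)⁻¹ • lin d (-b) (-c) a (lin a b c d l) = l := by
  ext
  · simp only [lin, Prod.smul_fst, smul_eq_mul]
    field_simp
    ring
  · simp only [lin, Prod.smul_snd, smul_eq_mul]
    field_simp
    ring

/-- **invariance of the polynomial condition under an invertible linear change of the vectors.** -/
theorem cd_iff {s : ℕ} {v v' : T → K × K} {x : T → A} {a b c d κ : K} (hdet : a * d - b * c ≠ 0)
    (hκ : κ ≠ 0) (h : ∀ t, ∃ r : K, r ^ s = κ ∧ v' t = r • lin a b c d (v t)) :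
    Cd s v x ↔ Cd s v' x := by
  refine ⟨fun hx => ?_, cd_of_lin a b c d κ h⟩
  by_cases hs : s = 0
  · subst hs
    obtain ⟨e, he⟩ := hx
    exact ⟨e, fun t => by rw [he]; simp [hev]⟩
  refine cd_of_lin d (-b) (-c) a (κ⁻¹ * ((a * d - b * c)⁻¹) ^ s) (fun t => ?_) hx
  obtain ⟨r, hr, hv⟩ := h t
  have hr0 : r ≠ 0 := by
    rintro rfl
    rw [zero_pow hs] at hr
    exact hκ hr.symm
  refine ⟨r⁻¹ * (a * d - b * c)⁻¹, by rw [mul_pow, inv_pow, hr], ?_⟩
  rw [hv, lin_smul, smul_smul]
  conv_lhs => rw [← lin_inv hdet (v t)]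
  congr 1
  field_simp

/-- polynomial condition in the standard section -/
def RS (s : ℕ) (u : Option K → A) : Prop := ∃ c : ℕ → A, ∀ z, u z = hev s c (rp z)

theorem RS_iff_Cd (s : ℕ) (u : Option K → A) : RS s u ↔ Cd s (rp : Option K → K × K) u := Iff.rfl

/-- the condition in the standard section -/
theorem cd_iff_rp {s : ℕ} {v : T → K × K} (hv : ∀ t, v t ≠ 0) {x : T → A} :
    Cd s v x ↔ Cd s (fun t => rp (pt (v t))) (fun t => ((sc (v t))⁻¹) ^ s • x t) := by
  constructor
  · rintro ⟨c, hc⟩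
    refine ⟨c, fun t => ?_⟩
    beta_reduce
    rw [hc, ← hev_smul]
    congr 1
    exact (inv_smul_eq_iff₀ (sc_ne_zero (hv t))).mpr (sc_smul_rp (v t)).symm
  · rintro ⟨c, hc⟩
    refine ⟨c, fun t => ?_⟩
    have h := hc t
    simp only at h
    have h2 : x t = sc (v t) ^ s • hev s c (rp (pt (v t))) := by
      rw [← h, smul_smul, ← mul_pow, mul_inv_cancel₀ (sc_ne_zero (hv t)), one_pow, one_smul]
    rw [h2, ← hev_smul, sc_smul_rp]

/-- the condition read through a bijection `t ↦ pt (v t)` -/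
theorem cd_iff_RS {s : ℕ} {v : T → K × K} (hv : ∀ t, v t ≠ 0) (e : T ≃ Option K)
    (he : ∀ t, pt (v t) = e t) {x : T → A} :
    Cd s v x ↔ RS s (fun z => ((sc (v (e.symm z)))⁻¹) ^ s • x (e.symm z)) := by
  rw [cd_iff_rp hv]
  constructor
  · rintro ⟨c, hc⟩
    refine ⟨c, fun z => ?_⟩
    have h := hc (e.symm z)
    beta_reduce at h ⊢
    rw [h, he, Equiv.apply_symm_apply]
  · rintro ⟨c, hc⟩
    refine ⟨c, fun t => ?_⟩
    have h := hc (e t)
    beta_reduce at h ⊢
    rw [Equiv.symm_apply_apply] at h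
    rw [h, he]

end forms

/-! ### scalar forms and polynomials -/

open Polynomial in
theorem RS_iff_poly (s : ℕ) (u : Option K → K) :
    RS s u ↔ ∃ p : K[X], p.natDegree ≤ s ∧ (∀ z, u (some z) = p.eval z) ∧ u none = p.coeff s := by
  constructor
  · rintro ⟨c, hc⟩
    refine ⟨∑ j ∈ range (s + 1), C (c j) * X ^ j, ?_, ?_, ?_⟩
    · refine natDegree_sum_le_of_forall_le _ _ fun j hj => ?_
      exact (natDegree_C_mul_X_pow_le _ _).trans (Nat.lt_succ_iff.mp (mem_range.mp hj))
    · intro z
      rw [hc, hev_rp_some, eval_finsetSum]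
      refine Finset.sum_congr rfl fun j _ => ?_
      rw [eval_mul, eval_pow, eval_X, eval_C, smul_eq_mul, mul_comm]
    · rw [hc, hev_rp_none, finsetSum_coeff]
      simp only [coeff_C_mul_X_pow]
      rw [Finset.sum_ite_eq, if_pos (by simp)]
  · rintro ⟨p, hp, h1, h2⟩
    refine ⟨fun j => p.coeff j, fun z => ?_⟩
    cases z with
    | none => rw [hev_rp_none, h2]
    | some z =>
        rw [hev_rp_some, h1, eval_eq_sum_range' (Nat.lt_succ_of_le hp)]
        refine Finset.sum_congr rfl fun j _ => ?_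
        rw [smul_eq_mul, mul_comm]

end Crest.Agent.R289.RSlin750
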