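import Mathlib

/-!
Row 289, block A (helper605, post 5993): ring identities behind the rank one formula of the
two-place base operator.  `Dt` = determinant of the `4 × 4` matrix with rows `(A, A t, B, B t)`.
-/

set_option autoImplicit false
set_option maxHeartbeats 1000000

namespace Crest.Agent.R289.Rank1_605

section ring

variable {R : Type*} [CommRing R]

/-- determinant of the matrix with rows `(Aᵢ, Aᵢ tᵢ, Bᵢ, Bᵢ tᵢ)` -/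
def Dt (A1 B1 t1 A2 B2 t2 A3 B3 t3 A4 B4 t4 : R) : R :=
  A1 * A2 * (t2 - t1) * (B3 * B4 * (t4 - t3)) - A1 * A3 * (t3 - t1) * (B2 * B4 * (t4 - t2))
    + A1 * A4 * (t4 - t1) * (B2 * B3 * (t3 - t2)) + A2 * A3 * (t3 - t2) * (B1 * B4 * (t4 - t1))
    - A2 * A4 * (t4 - t2) * (B1 * B3 * (t3 - t1)) + A3 * A4 * (t4 - t3) * (B1 * B2 * (t2 - t1))

theorem Dt_map {S : Type*} [CommRing S] (f : R →+* S) (A1 B1 t1 A2 B2 t2 A3 B3 t3 A4 B4 t4 : R) :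
    f (Dt A1 B1 t1 A2 B2 t2 A3 B3 t3 A4 B4 t4)
      = Dt (f A1) (f B1) (f t1) (f A2) (f B2) (f t2) (f A3) (f B3) (f t3) (f A4) (f B4) (f t4) := by
  simp only [Dt, map_add, map_sub, map_mul]

/-- two equal places (rows 1, 2) -/
theorem Dt_12 (A1 B1 A2 B2 t A3 B3 t3 A4 B4 t4 : R) :
    Dt A1 B1 t A2 B2 t A3 B3 t3 A4 B4 t4
      = -((t3 - t) * (t4 - t) * (A1 * B2 - A2 * B1) * (A3 * B4 - A4 * B3)) := by
  unfold Dt; ring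

/-- two equal places (rows 3, 4) -/
theorem Dt_34 (A1 B1 t1 A2 B2 t2 A3 B3 t A4 B4 : R) :
    Dt A1 B1 t1 A2 B2 t2 A3 B3 t A4 B4 t
      = -((t - t1) * (t - t2) * (A1 * B2 - A2 * B1) * (A3 * B4 - A4 * B3)) := by
  unfold Dt; ring

/-- Sylvester identity, rows 1, 2 -/
theorem sylv12 (A1 B1 t1 A2 B2 t2 A3 B3 t3 A4 B4 t4 C1 D1 s1 C2 D2 s2 : R) :
    Dt C1 D1 s1 A2 B2 t2 A3 B3 t3 A4 B4 t4 * Dt A1 B1 t1 C2 D2 s2 A3 B3 t3 A4 B4 t4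
      - Dt A1 B1 t1 C1 D1 s1 A3 B3 t3 A4 B4 t4 * Dt C2 D2 s2 A2 B2 t2 A3 B3 t3 A4 B4 t4
      = Dt A1 B1 t1 A2 B2 t2 A3 B3 t3 A4 B4 t4 * Dt C1 D1 s1 C2 D2 s2 A3 B3 t3 A4 B4 t4 := by
  unfold Dt; ring

/-- Sylvester identity, rows 3, 4 -/
theorem sylv34 (A1 B1 t1 A2 B2 t2 A3 B3 t3 A4 B4 t4 C3 D3 s3 C4 D4 s4 : R) :
    Dt A1 B1 t1 A2 B2 t2 C3 D3 s3 A4 B4 t4 * Dt A1 B1 t1 A2 B2 t2 A3 B3 t3 C4 D4 s4
      - Dt A1 B1 t1 A2 B2 t2 C4 D4 s4 A4 B4 t4 * Dt A1 B1 t1 A2 B2 t2 A3 B3 t3 C3 D3 s3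
      = Dt A1 B1 t1 A2 B2 t2 A3 B3 t3 A4 B4 t4 * Dt A1 B1 t1 A2 B2 t2 C3 D3 s3 C4 D4 s4 := by
  unfold Dt; ring

/-- the middle coefficient -/
theorem middle (v0 v1 u0 u1 n0 n1 m0 m1 V0 V1 U0 U1 x y X Y : R) :
    Dt (x * v0) v1 x (y * u0) u1 y V1 V0 X U1 U0 Y
        * Dt (X * V0) V1 X (Y * U0) U1 Y n1 n0 x m1 m0 y
      + Dt (X * V0) V1 X (Y * U0) U1 Y v1 v0 x u1 u0 y
        * Dt (x * n0) n1 x (y * m0) m1 y V1 V0 X U1 U0 Y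
      - Dt (X * V0) V1 X (Y * U0) U1 Y n1 n0 x u1 u0 y
        * Dt (x * v0) v1 x (y * m0) m1 y V1 V0 X U1 U0 Y
      - Dt (x * n0) n1 x (y * u0) u1 y V1 V0 X U1 U0 Y
        * Dt (X * V0) V1 X (Y * U0) U1 Y v1 v0 x m1 m0 y
      = (x + y) * ((x - X) * (x - Y) * (X - y) * (Y - y)
        * ((V0 * U1 - V1 * U0) * (X * V0 * U1 - Y * V1 * U0)))
        * ((v0 * n1 - v1 * n0) * (u0 * m1 - u1 * m0)) := by
  unfold Dt; ring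

end ring

end Crest.Agent.R289.Rank1_605
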