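import Crest.Agent.R289.Rank1a_605
import Crest.Agent.R289.Fac_281

/-!
Row 289, block A (helper605, post 5993): the explicit inverse of `a ↦ (l.a, m.a)` for
`a = 1 + a₁ τ + a₂ τ² + a₃ τ³ + a₄ τ⁴` and the norms of the preimage of `(c l', d m')` as affine
functions of `c, σ c, d, σ d`.
-/

set_option autoImplicit false

namespace Crest.Agent.R289.Rank1_605

open Polynomial Crest.Agent.R289.Exp820 Crest.Agent.R289.Exp820.Sk Crest.Agent.R289.Fac281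

variable {K : Type*} [Field K] (σ : K →+* K)

/-- the element `1 + a₀ τ + a₁ τ² + a₂ τ³ + a₃ τ⁴` -/
noncomputable def el (a : Fin 4 → K) : Sk σ :=
  ⟨1 + C (a 1) * X + C (a 3) * X ^ 2, C (a 0) + C (a 2) * X⟩

/-- its action, explicit -/
def ax (x : K) (a : Fin 4 → K) (l : K × K) : K × K :=
  ((1 + σ (a 1) * x + σ (a 3) * x ^ 2) * l.1 - x * (a 0 + a 2 * x) * l.2,
    (1 + a 1 * x + a 3 * x ^ 2) * l.2 - (σ (a 0) + σ (a 2) * x) * l.1)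

theorem act_el (x : K) (a : Fin 4 → K) (l : K × K) : act x l (el σ a) = ax σ x a l := by
  ext
  · simp only [act, el, ax, map_add, map_mul, map_one, map_pow, sg_C, sg_X, eval_add, eval_mul,
      eval_one, eval_C, eval_X, eval_pow]
  · simp only [act, el, ax, map_add, map_mul, map_one, map_pow, sg_C, sg_X, eval_add, eval_mul,
      eval_one, eval_C, eval_X, eval_pow]

/-- the value of its norm, explicit -/
def nx (x : K) (a : Fin 4 → K) : K :=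
  (1 + a 1 * x + a 3 * x ^ 2) * (1 + σ (a 1) * x + σ (a 3) * x ^ 2)
    - x * (a 0 + a 2 * x) * (σ (a 0) + σ (a 2) * x)

theorem N_el (x : K) (a : Fin 4 → K) : (N (el σ a)).eval x = nx σ x a := by
  simp only [N, el, nx, map_add, map_mul, map_one, map_pow, sg_C, sg_X, eval_add, eval_mul,
    eval_one, eval_C, eval_X, eval_pow, eval_sub]

/-! ### the linear system -/

section sys

variable (x y v0 v1 u0 u1 : K)

/-- determinant of the system -/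
def Dl : K :=
  Dt (x * v0) v1 x (y * u0) u1 y (σ v1) (σ v0) (σ x) (σ u1) (σ u0) (σ y)

/-- first row replaced -/
def G1 (A B t : K) : K := Dt A B t (y * u0) u1 y (σ v1) (σ v0) (σ x) (σ u1) (σ u0) (σ y)
/-- second row replaced -/
def G2 (A B t : K) : K := Dt (x * v0) v1 x A B t (σ v1) (σ v0) (σ x) (σ u1) (σ u0) (σ y)
/-- third row replaced -/
def G3 (A B t : K) : K := Dt (x * v0) v1 x (y * u0) u1 y A B t (σ u1) (σ u0) (σ y)
/-- fourth row replaced -/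
def G4 (A B t : K) : K := Dt (x * v0) v1 x (y * u0) u1 y (σ v1) (σ v0) (σ x) A B t

/-- numerator of the functional `A (p + t r) + B (e + t f)` of the solution -/
def Fn (b1 b2 b3 b4 A B t : K) : K :=
  b1 * G1 σ x y v0 v1 u0 u1 A B t + b2 * G2 σ x y v0 v1 u0 u1 A B t
    + b3 * G3 σ x y v0 v1 u0 u1 A B t + b4 * G4 σ x y v0 v1 u0 u1 A B t

theorem Fn_lin (b1 b2 b3 b4 A B t : K) :
    A * (Fn σ x y v0 v1 u0 u1 b1 b2 b3 b4 1 0 0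
          + t * (Fn σ x y v0 v1 u0 u1 b1 b2 b3 b4 1 0 1
            - Fn σ x y v0 v1 u0 u1 b1 b2 b3 b4 1 0 0))
      + B * (Fn σ x y v0 v1 u0 u1 b1 b2 b3 b4 0 1 0
          + t * (Fn σ x y v0 v1 u0 u1 b1 b2 b3 b4 0 1 1
            - Fn σ x y v0 v1 u0 u1 b1 b2 b3 b4 0 1 0))
      = Fn σ x y v0 v1 u0 u1 b1 b2 b3 b4 A B t := by
  unfold Fn G1 G2 G3 G4 Dt
  ring

theorem Fn_1 (b1 b2 b3 b4 : K) :
    Fn σ x y v0 v1 u0 u1 b1 b2 b3 b4 (x * v0) v1 x = b1 * Dl σ x y v0 v1 u0 u1 := by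
  unfold Fn G1 G2 G3 G4 Dl Dt
  ring

theorem Fn_2 (b1 b2 b3 b4 : K) :
    Fn σ x y v0 v1 u0 u1 b1 b2 b3 b4 (y * u0) u1 y = b2 * Dl σ x y v0 v1 u0 u1 := by
  unfold Fn G1 G2 G3 G4 Dl Dt
  ring

theorem Fn_3 (b1 b2 b3 b4 : K) :
    Fn σ x y v0 v1 u0 u1 b1 b2 b3 b4 (σ v1) (σ v0) (σ x) = b3 * Dl σ x y v0 v1 u0 u1 := by
  unfold Fn G1 G2 G3 G4 Dl Dt
  ring

theorem Fn_4 (b1 b2 b3 b4 : K) :
    Fn σ x y v0 v1 u0 u1 b1 b2 b3 b4 (σ u1) (σ u0) (σ y) = b4 * Dl σ x y v0 v1 u0 u1 := by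
  unfold Fn G1 G2 G3 G4 Dl Dt
  ring

/-- digits of the solution -/
noncomputable def sol (b1 b2 b3 b4 : K) : Fin 4 → K :=
  ![σ (Fn σ x y v0 v1 u0 u1 b1 b2 b3 b4 0 1 0 / Dl σ x y v0 v1 u0 u1),
    Fn σ x y v0 v1 u0 u1 b1 b2 b3 b4 1 0 0 / Dl σ x y v0 v1 u0 u1,
    σ ((Fn σ x y v0 v1 u0 u1 b1 b2 b3 b4 0 1 1 - Fn σ x y v0 v1 u0 u1 b1 b2 b3 b4 0 1 0)
      / Dl σ x y v0 v1 u0 u1),
    (Fn σ x y v0 v1 u0 u1 b1 b2 b3 b4 1 0 1 - Fn σ x y v0 v1 u0 u1 b1 b2 b3 b4 1 0 0)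
      / Dl σ x y v0 v1 u0 u1]

variable {σ}

/-- value of a functional on the digits -/
theorem sol_row (hσ : ∀ a, σ (σ a) = a) (b1 b2 b3 b4 A B t : K) :
    A * (sol σ x y v0 v1 u0 u1 b1 b2 b3 b4 1 + t * sol σ x y v0 v1 u0 u1 b1 b2 b3 b4 3)
      + B * (σ (sol σ x y v0 v1 u0 u1 b1 b2 b3 b4 0) + t * σ (sol σ x y v0 v1 u0 u1 b1 b2 b3 b4 2))
      = Fn σ x y v0 v1 u0 u1 b1 b2 b3 b4 A B t / Dl σ x y v0 v1 u0 u1 := by
  rw [← Fn_lin]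
  simp only [sol, Matrix.cons_val_zero, Matrix.cons_val_one, Matrix.cons_val, hσ]
  ring

/-- conjugate form -/
theorem sol_row' (hσ : ∀ a, σ (σ a) = a) (b1 b2 b3 b4 A B t : K) :
    A * (σ (sol σ x y v0 v1 u0 u1 b1 b2 b3 b4 1) + t * σ (sol σ x y v0 v1 u0 u1 b1 b2 b3 b4 3))
      + B * (sol σ x y v0 v1 u0 u1 b1 b2 b3 b4 0 + t * sol σ x y v0 v1 u0 u1 b1 b2 b3 b4 2)
      = σ (Fn σ x y v0 v1 u0 u1 b1 b2 b3 b4 (σ A) (σ B) (σ t) / Dl σ x y v0 v1 u0 u1) := by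
  rw [← sol_row x y v0 v1 u0 u1 hσ]
  simp only [map_add, map_mul, hσ]

end sys

end Crest.Agent.R289.Rank1_605
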