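import Crest.Agent.R289.Rank1b_605

/-!
Row 289, block A (helper605, post 5993): the determinant does not vanish; the explicit inverse.
-/

set_option autoImplicit false
set_option maxHeartbeats 1000000

namespace Crest.Agent.R289.Rank1_605

open Polynomial Crest.Agent.R289.Exp820 Crest.Agent.R289.Exp820.Sk Crest.Agent.R289.Fac281

variable {K : Type*} [Field K] {σ : K →+* K}

theorem det_eq (x y v0 v1 u0 u1 : K) :
    (!![x * v0, x * v0 * x, v1, v1 * x; y * u0, y * u0 * y, u1, u1 * y;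
      σ v1, σ v1 * σ x, σ v0, σ v0 * σ x; σ u1, σ u1 * σ y, σ u0, σ u0 * σ y] :
        Matrix (Fin 4) (Fin 4) K).det = Dl σ x y v0 v1 u0 u1 := by
  rw [Matrix.det_succ_row_zero]
  simp only [Fin.sum_univ_succ, Fin.sum_univ_zero, Matrix.det_fin_three, Matrix.submatrix_apply,
    Matrix.of_apply, Matrix.cons_val_zero, Matrix.cons_val_succ, Fin.succAbove, Fin.val_zero]
  simp [Fin.succAbove, Fin.lt_def]
  unfold Dl Dt
  ring

theorem Dl_ne (hσ : ∀ a, σ (σ a) = a) {x y : K} (hx : σ x ≠ x) (hy : σ y ≠ y)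
    (hxy : x ≠ y) (hxy' : σ x ≠ y) {l m : K × K} (hl : l ≠ 0) (hm : m ≠ 0) :
    Dl σ x y l.2 (-l.1) m.2 (-m.1) ≠ 0 := by
  intro h
  rw [← det_eq] at h
  obtain ⟨w, hw0, hw⟩ := Matrix.exists_mulVec_eq_zero_iff.2 h
  have r1 := congrFun hw 0
  have r2 := congrFun hw 1
  have r3 := congrFun hw 2
  have r4 := congrFun hw 3
  simp only [Matrix.mulVec, dotProduct, Fin.sum_univ_four, Matrix.of_apply, Matrix.cons_val_zero,
    Matrix.cons_val_one, Matrix.cons_val, Pi.zero_apply, map_neg] at r1 r2 r3 r4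
  have s3 := congrArg σ r3
  have s4 := congrArg σ r4
  simp only [map_add, map_mul, map_neg, map_zero, hσ] at s3 s4
  have key := eq_zero_of_two' (σ := σ) hσ hx hy hxy hxy' hl hm
    (a := C (σ (w 2)) + C (σ (w 3)) * X) (b := C (w 0) + C (w 1) * X)
    (by compute_degree) (by compute_degree)
    (by
      ext
      · simp only [act, map_add, map_mul, sg_C, sg_X, eval_add, eval_mul, eval_C, eval_X,
          Prod.fst_zero]
        linear_combination (-x) * s3
      · simp only [act, map_add, map_mul, sg_C, sg_X, eval_add, eval_mul, eval_C, eval_X, hσ,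
          Prod.snd_zero]
        linear_combination r1)
    (by
      ext
      · simp only [act, map_add, map_mul, sg_C, sg_X, eval_add, eval_mul, eval_C, eval_X,
          Prod.fst_zero]
        linear_combination (-y) * s4
      · simp only [act, map_add, map_mul, sg_C, sg_X, eval_add, eval_mul, eval_C, eval_X, hσ,
          Prod.snd_zero]
        linear_combination r2)
  obtain ⟨ka, kb⟩ := key
  have c0 := congrArg (fun p => p.coeff 0) ka
  have c1 := congrArg (fun p => p.coeff 1) ka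
  have d0 := congrArg (fun p => p.coeff 0) kb
  have d1 := congrArg (fun p => p.coeff 1) kb
  simp at c0 c1 d0 d1
  apply hw0
  funext i
  fin_cases i
  · exact d0
  · exact d1
  · exact c0
  · exact c1

variable {x y : K} {l m l' m' : K × K}

/-- right hand sides of the system for the target `(l', m')` -/
noncomputable def inv (σ : K →+* K) (x y : K) (l m l' m' : K × K) : Fin 4 → K :=
  sol σ x y l.2 (-l.1) m.2 (-m.1) (l'.2 - l.2) (m'.2 - m.2) (σ ((l.1 - l'.1) / x))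
    (σ ((m.1 - m'.1) / y))

theorem ax_inv (hσ : ∀ a, σ (σ a) = a) (hx0 : x ≠ 0) 
    (hD : Dl σ x y l.2 (-l.1) m.2 (-m.1) ≠ 0) : ax σ x (inv σ x y l m l' m') l = l' := by
  have e1 := sol_row (σ := σ) x y l.2 (-l.1) m.2 (-m.1) hσ (l'.2 - l.2) (m'.2 - m.2)
    (σ ((l.1 - l'.1) / x)) (σ ((m.1 - m'.1) / y)) (x * l.2) (-l.1) x
  rw [Fn_1, mul_div_cancel_right₀ _ hD] at e1
  have e2 := sol_row' (σ := σ) x y l.2 (-l.1) m.2 (-m.1) hσ (l'.2 - l.2) (m'.2 - m.2)
    (σ ((l.1 - l'.1) / x)) (σ ((m.1 - m'.1) / y)) (-l.1) l.2 x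
  rw [Fn_3, mul_div_cancel_right₀ _ hD, hσ] at e2
  have e3 : x * ((l.1 - l'.1) / x) = l.1 - l'.1 := mul_div_cancel₀ _ hx0
  ext
  · show (1 + σ (inv σ x y l m l' m' 1) * x + σ (inv σ x y l m l' m' 3) * x ^ 2) * l.1
      - x * (inv σ x y l m l' m' 0 + inv σ x y l m l' m' 2 * x) * l.2 = l'.1
    unfold inv
    linear_combination (-x) * e2 - e3
  · show (1 + inv σ x y l m l' m' 1 * x + inv σ x y l m l' m' 3 * x ^ 2) * l.2
      - (σ (inv σ x y l m l' m' 0) + σ (inv σ x y l m l' m' 2) * x) * l.1 = l'.2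
    unfold inv
    linear_combination e1

theorem ay_inv (hσ : ∀ a, σ (σ a) = a) (hy0 : y ≠ 0)
    (hD : Dl σ x y l.2 (-l.1) m.2 (-m.1) ≠ 0) : ax σ y (inv σ x y l m l' m') m = m' := by
  have e1 := sol_row (σ := σ) x y l.2 (-l.1) m.2 (-m.1) hσ (l'.2 - l.2) (m'.2 - m.2)
    (σ ((l.1 - l'.1) / x)) (σ ((m.1 - m'.1) / y)) (y * m.2) (-m.1) y
  rw [Fn_2, mul_div_cancel_right₀ _ hD] at e1
  have e2 := sol_row' (σ := σ) x y l.2 (-l.1) m.2 (-m.1) hσ (l'.2 - l.2) (m'.2 - m.2)
    (σ ((l.1 - l'.1) / x)) (σ ((m.1 - m'.1) / y)) (-m.1) m.2 y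
  rw [Fn_4, mul_div_cancel_right₀ _ hD, hσ] at e2
  have e3 : y * ((m.1 - m'.1) / y) = m.1 - m'.1 := mul_div_cancel₀ _ hy0
  ext
  · show (1 + σ (inv σ x y l m l' m' 1) * y + σ (inv σ x y l m l' m' 3) * y ^ 2) * m.1
      - y * (inv σ x y l m l' m' 0 + inv σ x y l m l' m' 2 * y) * m.2 = m'.1
    unfold inv
    linear_combination (-y) * e2 - e3
  · show (1 + inv σ x y l m l' m' 1 * y + inv σ x y l m l' m' 3 * y ^ 2) * m.2
      - (σ (inv σ x y l m l' m' 0) + σ (inv σ x y l m l' m' 2) * y) * m.1 = m'.2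
    unfold inv
    linear_combination e1

/-- the norm at `x` from the action on a second vector `n`, `det (v, n) = 1`, `v = (l₂, -l₁)` -/
theorem nx_eq (a : Fin 4 → K) (n0 n1 : K) (hn : l.2 * n1 + l.1 * n0 = 1) :
    nx σ x a = (ax σ x a l).2
        * (n1 + x * (n1 * (σ (a 1) + x * σ (a 3)) + n0 * (a 0 + x * a 2)))
      + (ax σ x a l).1 * (n0 + (x * n0 * (a 1 + x * a 3) + n1 * (σ (a 0) + x * σ (a 2)))) := by
  unfold nx ax
  linear_combination (-((1 + a 1 * x + a 3 * x ^ 2) * (1 + σ (a 1) * x + σ (a 3) * x ^ 2)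
    - x * (a 0 + a 2 * x) * (σ (a 0) + σ (a 2) * x))) * hn

end Crest.Agent.R289.Rank1_605
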