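import Crest.Agent.R289.Rank1c_605

/-!
Row 289, block A (helper605, post 5993): norms of the preimage of `(c l', d m')` and the identity (3).
-/

set_option autoImplicit false
set_option maxHeartbeats 1000000

namespace Crest.Agent.R289.Rank1_605

variable {K : Type*} [Field K] {σ : K →+* K} {x y : K}

/-- constant of the places -/
def C0 (σ : K →+* K) (x y : K) : K := (x - σ x) * (x - σ y) * (σ x - y) * (σ y - y)

theorem ident (hσ : ∀ a, σ (σ a) = a) (hx0 : x ≠ 0) (hy0 : y ≠ 0)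
    (v0 v1 u0 u1 n0 n1 m0 m1 a b : K)
    (hn : v0 * n1 - v1 * n0 = 1) (hm : u0 * m1 - u1 * m0 = 1)
    (hD : Dl σ x y v0 v1 u0 u1 ≠ 0) :
    a * b * ((G1 σ x y v0 v1 u0 u1 (x * n0) n1 x / Dl σ x y v0 v1 u0 u1
          - σ (G3 σ x y v0 v1 u0 u1 (σ n1) (σ n0) (σ x) / Dl σ x y v0 v1 u0 u1))
        * (G2 σ x y v0 v1 u0 u1 (y * m0) m1 y / Dl σ x y v0 v1 u0 u1
          - σ (G4 σ x y v0 v1 u0 u1 (σ m1) (σ m0) (σ y) / Dl σ x y v0 v1 u0 u1)))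
      - (x / y * σ (G4 σ x y v0 v1 u0 u1 (σ n1) (σ n0) (σ x) / Dl σ x y v0 v1 u0 u1) * a
          - G2 σ x y v0 v1 u0 u1 (x * n0) n1 x / Dl σ x y v0 v1 u0 u1 * b)
        * (y / x * σ (G3 σ x y v0 v1 u0 u1 (σ m1) (σ m0) (σ y) / Dl σ x y v0 v1 u0 u1) * b
          - G1 σ x y v0 v1 u0 u1 (y * m0) m1 y / Dl σ x y v0 v1 u0 u1 * a)
      = -(C0 σ x y * σ ((v0 * u1 - v1 * u0) * (x * v0 * u1 - y * v1 * u0))
          / (Dl σ x y v0 v1 u0 u1 * σ (Dl σ x y v0 v1 u0 u1)))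
        * ((a - b) * (x * a - y * b)) := by
  have hD' : σ (Dl σ x y v0 v1 u0 u1) ≠ 0 := (map_ne_zero σ).2 hD
  -- closed forms
  have hn' : σ v0 * σ n1 - σ v1 * σ n0 = 1 := by
    have := congrArg σ hn
    simpa only [map_sub, map_mul, map_one] using this
  have hm' : σ u0 * σ m1 - σ u1 * σ m0 = 1 := by
    have := congrArg σ hm
    simpa only [map_sub, map_mul, map_one] using this
  have h4 : G4 σ x y v0 v1 u0 u1 (σ n1) (σ n0) (σ x)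
      = (σ x - x) * (σ x - y) * (x * v0 * u1 - y * v1 * u0) := by
    unfold G4
    rw [Dt_34]
    linear_combination ((σ x - x) * (σ x - y) * (x * v0 * u1 - y * v1 * u0)) * hn'
  have h3' : G3 σ x y v0 v1 u0 u1 (σ m1) (σ m0) (σ y)
      = -((σ y - x) * (σ y - y) * (x * v0 * u1 - y * v1 * u0)) := by
    unfold G3
    rw [Dt_34]
    linear_combination (-((σ y - x) * (σ y - y) * (x * v0 * u1 - y * v1 * u0))) * hm'
  have g1' : G1 σ x y v0 v1 u0 u1 (y * m0) m1 y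
      = -(y * (σ x - y) * (σ y - y) * (σ v0 * σ u1 - σ v1 * σ u0)) := by
    unfold G1
    rw [Dt_12]
    linear_combination (-(y * (σ x - y) * (σ y - y) * (σ v0 * σ u1 - σ v1 * σ u0))) * hm
  have g2 : G2 σ x y v0 v1 u0 u1 (x * n0) n1 x
      = x * (σ x - x) * (σ y - x) * (σ v0 * σ u1 - σ v1 * σ u0) := by
    unfold G2
    rw [Dt_12]
    linear_combination (x * (σ x - x) * (σ y - x) * (σ v0 * σ u1 - σ v1 * σ u0)) * hn
  have H4 : σ (G4 σ x y v0 v1 u0 u1 (σ n1) (σ n0) (σ x))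
      = (x - σ x) * (x - σ y) * (σ x * σ v0 * σ u1 - σ y * σ v1 * σ u0) := by
    rw [h4]; simp only [map_mul, map_sub, hσ]
  have H3' : σ (G3 σ x y v0 v1 u0 u1 (σ m1) (σ m0) (σ y))
      = -((y - σ x) * (y - σ y) * (σ x * σ v0 * σ u1 - σ y * σ v1 * σ u0)) := by
    rw [h3']; simp only [map_mul, map_sub, map_neg, hσ]
  have cX : x / y * (σ (G4 σ x y v0 v1 u0 u1 (σ n1) (σ n0) (σ x))
        * G1 σ x y v0 v1 u0 u1 (y * m0) m1 y)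
      = -(x * (C0 σ x y * ((σ v0 * σ u1 - σ v1 * σ u0)
        * (σ x * σ v0 * σ u1 - σ y * σ v1 * σ u0)))) := by
    rw [H4, g1']; unfold C0; field_simp
  have cY : y / x * (G2 σ x y v0 v1 u0 u1 (x * n0) n1 x
        * σ (G3 σ x y v0 v1 u0 u1 (σ m1) (σ m0) (σ y)))
      = -(y * (C0 σ x y * ((σ v0 * σ u1 - σ v1 * σ u0)
        * (σ x * σ v0 * σ u1 - σ y * σ v1 * σ u0)))) := by
    rw [H3', g2]; unfold C0; field_simp; ring
  -- Sylvester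
  have s12 := sylv12 (x * v0) v1 x (y * u0) u1 y (σ v1) (σ v0) (σ x) (σ u1) (σ u0) (σ y)
    (x * n0) n1 x (y * m0) m1 y
  have s34 := congrArg σ (sylv34 (x * v0) v1 x (y * u0) u1 y (σ v1) (σ v0) (σ x) (σ u1) (σ u0)
    (σ y) (σ n1) (σ n0) (σ x) (σ m1) (σ m0) (σ y))
  have mid := middle v0 v1 u0 u1 n0 n1 m0 m1 (σ v0) (σ v1) (σ u0) (σ u1) x y (σ x) (σ y)
  rw [hn, hm] at mid
  rw [map_sub, map_mul, map_mul, map_mul] at s34
  have eE : σ (Dt (x * v0) v1 x (y * u0) u1 y (σ n1) (σ n0) (σ x) (σ m1) (σ m0) (σ y))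
      = Dt (σ x * σ v0) (σ v1) (σ x) (σ y * σ u0) (σ u1) (σ y) n1 n0 x m1 m0 y := by
    rw [Dt_map]; simp only [map_mul, hσ]
  have eD : σ (Dt (x * v0) v1 x (y * u0) u1 y (σ v1) (σ v0) (σ x) (σ u1) (σ u0) (σ y))
      = Dt (σ x * σ v0) (σ v1) (σ x) (σ y * σ u0) (σ u1) (σ y) v1 v0 x u1 u0 y := by
    rw [Dt_map]; simp only [map_mul, hσ]
  have e3 : σ (Dt (x * v0) v1 x (y * u0) u1 y (σ n1) (σ n0) (σ x) (σ u1) (σ u0) (σ y))
      = Dt (σ x * σ v0) (σ v1) (σ x) (σ y * σ u0) (σ u1) (σ y) n1 n0 x u1 u0 y := by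
    rw [Dt_map]; simp only [map_mul, hσ]
  have e4 : σ (Dt (x * v0) v1 x (y * u0) u1 y (σ v1) (σ v0) (σ x) (σ m1) (σ m0) (σ y))
      = Dt (σ x * σ v0) (σ v1) (σ x) (σ y * σ u0) (σ u1) (σ y) v1 v0 x m1 m0 y := by
    rw [Dt_map]; simp only [map_mul, hσ]
  rw [← eE, ← eD, ← e3, ← e4] at mid
  rw [map_div₀, map_div₀, map_div₀, map_div₀]
  -- names
  have hΔ : Dt (x * v0) v1 x (y * u0) u1 y (σ v1) (σ v0) (σ x) (σ u1) (σ u0) (σ y)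
      = Dl σ x y v0 v1 u0 u1 := rfl
  rw [hΔ] at s12 s34 mid
  set D := Dl σ x y v0 v1 u0 u1 with hDdef
  have q1 : Dt (x * n0) n1 x (y * u0) u1 y (σ v1) (σ v0) (σ x) (σ u1) (σ u0) (σ y)
      = G1 σ x y v0 v1 u0 u1 (x * n0) n1 x := rfl
  have q2 : Dt (x * v0) v1 x (y * m0) m1 y (σ v1) (σ v0) (σ x) (σ u1) (σ u0) (σ y)
      = G2 σ x y v0 v1 u0 u1 (y * m0) m1 y := rfl
  have q3 : Dt (x * v0) v1 x (x * n0) n1 x (σ v1) (σ v0) (σ x) (σ u1) (σ u0) (σ y)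
      = G2 σ x y v0 v1 u0 u1 (x * n0) n1 x := rfl
  have q4 : Dt (y * m0) m1 y (y * u0) u1 y (σ v1) (σ v0) (σ x) (σ u1) (σ u0) (σ y)
      = G1 σ x y v0 v1 u0 u1 (y * m0) m1 y := rfl
  have q5 : Dt (x * v0) v1 x (y * u0) u1 y (σ n1) (σ n0) (σ x) (σ u1) (σ u0) (σ y)
      = G3 σ x y v0 v1 u0 u1 (σ n1) (σ n0) (σ x) := rfl
  have q6 : Dt (x * v0) v1 x (y * u0) u1 y (σ v1) (σ v0) (σ x) (σ m1) (σ m0) (σ y)
      = G4 σ x y v0 v1 u0 u1 (σ m1) (σ m0) (σ y) := rfl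
  have q7 : Dt (x * v0) v1 x (y * u0) u1 y (σ m1) (σ m0) (σ y) (σ u1) (σ u0) (σ y)
      = G3 σ x y v0 v1 u0 u1 (σ m1) (σ m0) (σ y) := rfl
  have q8 : Dt (x * v0) v1 x (y * u0) u1 y (σ v1) (σ v0) (σ x) (σ n1) (σ n0) (σ x)
      = G4 σ x y v0 v1 u0 u1 (σ n1) (σ n0) (σ x) := rfl
  rw [q1, q2, q3, q4] at s12
  rw [q5, q6, q7, q8] at s34
  rw [q5, q6, q2, q1] at mid
  generalize G1 σ x y v0 v1 u0 u1 (x * n0) n1 x = A1 at *
  generalize G2 σ x y v0 v1 u0 u1 (y * m0) m1 y = A2 at *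
  generalize G2 σ x y v0 v1 u0 u1 (x * n0) n1 x = B2 at *
  generalize G1 σ x y v0 v1 u0 u1 (y * m0) m1 y = B1 at *
  generalize σ (G3 σ x y v0 v1 u0 u1 (σ n1) (σ n0) (σ x)) = A3 at *
  generalize σ (G4 σ x y v0 v1 u0 u1 (σ m1) (σ m0) (σ y)) = A4 at *
  generalize σ (G3 σ x y v0 v1 u0 u1 (σ m1) (σ m0) (σ y)) = B3 at *
  generalize σ (G4 σ x y v0 v1 u0 u1 (σ n1) (σ n0) (σ x)) = B4 at *
  generalize Dt (x * n0) n1 x (y * m0) m1 y (σ v1) (σ v0) (σ x) (σ u1) (σ u0) (σ y) = E12 at *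
  generalize σ (Dt (x * v0) v1 x (y * u0) u1 y (σ n1) (σ n0) (σ x) (σ m1) (σ m0) (σ y)) = E34
    at *
  have hS : σ ((v0 * u1 - v1 * u0) * (x * v0 * u1 - y * v1 * u0))
      = (σ v0 * σ u1 - σ v1 * σ u0) * (σ x * σ v0 * σ u1 - σ y * σ v1 * σ u0) := by
    simp only [map_mul, map_sub]
  rw [hS]
  have hC : (x - σ x) * (x - σ y) * (σ x - y) * (σ y - y) = C0 σ x y := rfl
  rw [hC] at mid
  generalize (σ v0 * σ u1 - σ v1 * σ u0) * (σ x * σ v0 * σ u1 - σ y * σ v1 * σ u0) = S at *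
  generalize C0 σ x y = C at *
  generalize σ D = D' at *
  clear hDdef
  have ht : D * D⁻¹ = 1 := mul_inv_cancel₀ hD
  have hs : D' * D'⁻¹ = 1 := mul_inv_cancel₀ hD'
  simp only [div_eq_mul_inv] at cX cY ⊢
  rw [mul_inv]
  have hxy1 : (x * y⁻¹) * (y * x⁻¹) = 1 := by field_simp
  linear_combination (a * b * D⁻¹ ^ 2) * s12 + (a * b * D'⁻¹ ^ 2) * s34
    + (a * b * D⁻¹ * D'⁻¹) * mid + (a ^ 2 * D⁻¹ * D'⁻¹) * cX + (b ^ 2 * D⁻¹ * D'⁻¹) * cY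
    + (a * b * E12 * D⁻¹) * ht - (a * b * E12 * D⁻¹) * hs
    + (a * b * E34 * D'⁻¹) * hs - (a * b * E34 * D'⁻¹) * ht
    - (a * b * B3 * B4 * D'⁻¹ ^ 2) * hxy1

end Crest.Agent.R289.Rank1_605
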