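import Crest.Agent.R289.Rank1d_605

/-!
Row 289, block A (helper605, post 5993): the norms of the preimage of `(c l', d m')` are
`c (k₀ + P₁ c + k₂ σ c + P₃ d + k₄ σ d)` and `d (…)`; the determinant of the relevant coefficients.
-/

set_option autoImplicit false
set_option maxHeartbeats 1000000

namespace Crest.Agent.R289.Rank1_605

variable {K : Type*} [Field K] {σ : K →+* K} {x y : K} {l m : K × K}

/-- auxiliary: exists `n` with `det = 1` -/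
theorem exists_n {l : K × K} (hl : l ≠ 0) : ∃ n0 n1 : K, l.2 * n1 - (-l.1) * n0 = 1 := by
  by_cases h : l.2 = 0
  · have h1 : l.1 ≠ 0 := fun h1 => hl (Prod.ext h1 h)
    exact ⟨l.1⁻¹, 0, by field_simp; ring⟩
  · exact ⟨0, l.2⁻¹, by field_simp; ring⟩

/-- **norms of the preimage** -/
theorem norms (hσ : ∀ a, σ (σ a) = a) (hx0 : x ≠ 0) (hy0 : y ≠ 0) (hl : l ≠ 0) (hm : m ≠ 0)
    (hD : Dl σ x y l.2 (-l.1) m.2 (-m.1) ≠ 0) (l' m' : K × K) :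
    ∃ k0 k1 k2 k3 k4 j0 j1 j2 j3 j4 : K,
      (∀ c d : K, nx σ x (inv σ x y l m (c • l') (d • m'))
        = c * (k0 + k1 * c + k2 * σ c + k3 * d + k4 * σ d)) ∧
      (∀ c d : K, nx σ y (inv σ x y l m (c • l') (d • m'))
        = d * (j0 + j1 * c + j2 * σ c + j3 * d + j4 * σ d)) ∧
      k1 * j3 - k3 * j1 = -(C0 σ x y
          * σ ((l.2 * (-m.1) - (-l.1) * m.2) * (x * l.2 * (-m.1) - y * (-l.1) * m.2))
          / (Dl σ x y l.2 (-l.1) m.2 (-m.1) * σ (Dl σ x y l.2 (-l.1) m.2 (-m.1))))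
        * ((l'.1 * m'.2 - l'.2 * m'.1) * -(x * l'.2 * m'.1 - y * l'.1 * m'.2)) := by
  obtain ⟨n0, n1, hn⟩ := exists_n hl
  obtain ⟨p0, p1, hp⟩ := exists_n hm
  have hid := ident (σ := σ) hσ hx0 hy0 l.2 (-l.1) m.2 (-m.1) n0 n1 p0 p1
    (-(l'.2 * m'.1)) (-(l'.1 * m'.2)) hn hp hD
  set D := Dl σ x y l.2 (-l.1) m.2 (-m.1) with hDdef
  -- coefficients
  refine ⟨l'.2 * (n1 + x * (-(σ l.2 * σ (G1 σ x y l.2 (-l.1) m.2 (-m.1) (σ n1) (σ n0) (σ x) / D))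
        - σ m.2 * σ (G2 σ x y l.2 (-l.1) m.2 (-m.1) (σ n1) (σ n0) (σ x) / D)
        + l.1 / x * σ (G3 σ x y l.2 (-l.1) m.2 (-m.1) (σ n1) (σ n0) (σ x) / D)
        + m.1 / y * σ (G4 σ x y l.2 (-l.1) m.2 (-m.1) (σ n1) (σ n0) (σ x) / D)))
      + l'.1 * (n0 + (-(l.2 * (G1 σ x y l.2 (-l.1) m.2 (-m.1) (x * n0) n1 x / D))
        - m.2 * (G2 σ x y l.2 (-l.1) m.2 (-m.1) (x * n0) n1 x / D)
        + σ (l.1 / x) * (G3 σ x y l.2 (-l.1) m.2 (-m.1) (x * n0) n1 x / D)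
        + σ (m.1 / y) * (G4 σ x y l.2 (-l.1) m.2 (-m.1) (x * n0) n1 x / D))),
    l'.1 * l'.2 * (G1 σ x y l.2 (-l.1) m.2 (-m.1) (x * n0) n1 x / D
      - σ (G3 σ x y l.2 (-l.1) m.2 (-m.1) (σ n1) (σ n0) (σ x) / D)),
    l'.2 * (x * (σ l'.2 * σ (G1 σ x y l.2 (-l.1) m.2 (-m.1) (σ n1) (σ n0) (σ x) / D)))
      - l'.1 * (σ (l'.1 / x) * (G3 σ x y l.2 (-l.1) m.2 (-m.1) (x * n0) n1 x / D)),
    -(x / y * σ (G4 σ x y l.2 (-l.1) m.2 (-m.1) (σ n1) (σ n0) (σ x) / D) * (l'.2 * m'.1))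
      + G2 σ x y l.2 (-l.1) m.2 (-m.1) (x * n0) n1 x / D * (l'.1 * m'.2),
    l'.2 * (x * (σ m'.2 * σ (G2 σ x y l.2 (-l.1) m.2 (-m.1) (σ n1) (σ n0) (σ x) / D)))
      - l'.1 * (σ (m'.1 / y) * (G4 σ x y l.2 (-l.1) m.2 (-m.1) (x * n0) n1 x / D)),
    m'.2 * (p1 + y * (-(σ l.2 * σ (G1 σ x y l.2 (-l.1) m.2 (-m.1) (σ p1) (σ p0) (σ y) / D))
        - σ m.2 * σ (G2 σ x y l.2 (-l.1) m.2 (-m.1) (σ p1) (σ p0) (σ y) / D)
        + l.1 / x * σ (G3 σ x y l.2 (-l.1) m.2 (-m.1) (σ p1) (σ p0) (σ y) / D)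
        + m.1 / y * σ (G4 σ x y l.2 (-l.1) m.2 (-m.1) (σ p1) (σ p0) (σ y) / D)))
      + m'.1 * (p0 + (-(l.2 * (G1 σ x y l.2 (-l.1) m.2 (-m.1) (y * p0) p1 y / D))
        - m.2 * (G2 σ x y l.2 (-l.1) m.2 (-m.1) (y * p0) p1 y / D)
        + σ (l.1 / x) * (G3 σ x y l.2 (-l.1) m.2 (-m.1) (y * p0) p1 y / D)
        + σ (m.1 / y) * (G4 σ x y l.2 (-l.1) m.2 (-m.1) (y * p0) p1 y / D))),
    -(y / x * σ (G3 σ x y l.2 (-l.1) m.2 (-m.1) (σ p1) (σ p0) (σ y) / D) * (l'.1 * m'.2))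
      + G1 σ x y l.2 (-l.1) m.2 (-m.1) (y * p0) p1 y / D * (l'.2 * m'.1),
    m'.2 * (y * (σ l'.2 * σ (G1 σ x y l.2 (-l.1) m.2 (-m.1) (σ p1) (σ p0) (σ y) / D)))
      - m'.1 * (σ (l'.1 / x) * (G3 σ x y l.2 (-l.1) m.2 (-m.1) (y * p0) p1 y / D)),
    m'.1 * m'.2 * (G2 σ x y l.2 (-l.1) m.2 (-m.1) (y * p0) p1 y / D
      - σ (G4 σ x y l.2 (-l.1) m.2 (-m.1) (σ p1) (σ p0) (σ y) / D)),
    m'.2 * (y * (σ m'.2 * σ (G2 σ x y l.2 (-l.1) m.2 (-m.1) (σ p1) (σ p0) (σ y) / D)))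
      - m'.1 * (σ (m'.1 / y) * (G4 σ x y l.2 (-l.1) m.2 (-m.1) (y * p0) p1 y / D)), ?_, ?_, ?_⟩
  · intro c d
    have hn' : l.2 * n1 + l.1 * n0 = 1 := by linear_combination hn
    rw [nx_eq _ n0 n1 hn', ax_inv hσ hx0 hD]
    have r1 := sol_row (σ := σ) x y l.2 (-l.1) m.2 (-m.1) hσ ((c • l').2 - l.2) ((d • m').2 - m.2)
      (σ ((l.1 - (c • l').1) / x)) (σ ((m.1 - (d • m').1) / y)) (x * n0) n1 x
    have r2 := sol_row' (σ := σ) x y l.2 (-l.1) m.2 (-m.1) hσ ((c • l').2 - l.2) ((d • m').2 - m.2)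
      (σ ((l.1 - (c • l').1) / x)) (σ ((m.1 - (d • m').1) / y)) n1 n0 x
    have e1 : x * n0 * (inv σ x y l m (c • l') (d • m') 1 + x * inv σ x y l m (c • l') (d • m') 3)
        + n1 * (σ (inv σ x y l m (c • l') (d • m') 0) + x * σ (inv σ x y l m (c • l') (d • m') 2))
        = Fn σ x y l.2 (-l.1) m.2 (-m.1) ((c • l').2 - l.2) ((d • m').2 - m.2)
          (σ ((l.1 - (c • l').1) / x)) (σ ((m.1 - (d • m').1) / y)) (x * n0) n1 x / D := r1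
    have e2 : n1 * (σ (inv σ x y l m (c • l') (d • m') 1)
          + x * σ (inv σ x y l m (c • l') (d • m') 3))
        + n0 * (inv σ x y l m (c • l') (d • m') 0 + x * inv σ x y l m (c • l') (d • m') 2)
        = σ (Fn σ x y l.2 (-l.1) m.2 (-m.1) ((c • l').2 - l.2) ((d • m').2 - m.2)
          (σ ((l.1 - (c • l').1) / x)) (σ ((m.1 - (d • m').1) / y)) (σ n1) (σ n0) (σ x) / D) := r2
    rw [e1, e2]
    simp only [Fn, Prod.smul_fst, Prod.smul_snd, smul_eq_mul, map_div₀, map_add, map_mul, map_sub,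
      hσ]
    have hD' : σ D ≠ 0 := (map_ne_zero σ).2 hD
    have hsx : σ x ≠ 0 := (map_ne_zero σ).2 hx0
    have hsy : σ y ≠ 0 := (map_ne_zero σ).2 hy0
    field_simp
    ring
  · intro c d
    have hp' : m.2 * p1 + m.1 * p0 = 1 := by linear_combination hp
    rw [nx_eq _ p0 p1 hp', ay_inv hσ hy0 hD]
    have r1 := sol_row (σ := σ) x y l.2 (-l.1) m.2 (-m.1) hσ ((c • l').2 - l.2) ((d • m').2 - m.2)
      (σ ((l.1 - (c • l').1) / x)) (σ ((m.1 - (d • m').1) / y)) (y * p0) p1 y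
    have r2 := sol_row' (σ := σ) x y l.2 (-l.1) m.2 (-m.1) hσ ((c • l').2 - l.2) ((d • m').2 - m.2)
      (σ ((l.1 - (c • l').1) / x)) (σ ((m.1 - (d • m').1) / y)) p1 p0 y
    have e1 : y * p0 * (inv σ x y l m (c • l') (d • m') 1 + y * inv σ x y l m (c • l') (d • m') 3)
        + p1 * (σ (inv σ x y l m (c • l') (d • m') 0) + y * σ (inv σ x y l m (c • l') (d • m') 2))
        = Fn σ x y l.2 (-l.1) m.2 (-m.1) ((c • l').2 - l.2) ((d • m').2 - m.2)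
          (σ ((l.1 - (c • l').1) / x)) (σ ((m.1 - (d • m').1) / y)) (y * p0) p1 y / D := r1
    have e2 : p1 * (σ (inv σ x y l m (c • l') (d • m') 1)
          + y * σ (inv σ x y l m (c • l') (d • m') 3))
        + p0 * (inv σ x y l m (c • l') (d • m') 0 + y * inv σ x y l m (c • l') (d • m') 2)
        = σ (Fn σ x y l.2 (-l.1) m.2 (-m.1) ((c • l').2 - l.2) ((d • m').2 - m.2)
          (σ ((l.1 - (c • l').1) / x)) (σ ((m.1 - (d • m').1) / y)) (σ p1) (σ p0) (σ y) / D) := r2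
    rw [e1, e2]
    simp only [Fn, Prod.smul_fst, Prod.smul_snd, smul_eq_mul, map_div₀, map_add, map_mul, map_sub,
      hσ]
    have hD' : σ D ≠ 0 := (map_ne_zero σ).2 hD
    have hsx : σ x ≠ 0 := (map_ne_zero σ).2 hx0
    have hsy : σ y ≠ 0 := (map_ne_zero σ).2 hy0
    field_simp
    ring
  · linear_combination hid

end Crest.Agent.R289.Rank1_605
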