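import Crest.Agent.R289.LUb_443
import Crest.Agent.R289.Word2_508
import Crest.Agent.R289.TP_846

/-!
Row 289, seam B/C (helper335): from linear unit codes to the registers of the label.

* `mixU_exp`, `MixU.mono`, `MixU.prod`, `MixU.congr` : second moment inequality of product walks;
* `letter_CAx` : the control letter (constant words, any alphabet) on any unit set with `MixU`;
* `CAx.alph` : change of the alphabet along a bijection.
-/

set_option autoImplicit false
set_option linter.unusedSectionVars false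

namespace Crest.Agent.R289.RegCAx335

open Finset Crest.Agent.R289.DefD Crest.Agent.R289.Word508 Crest.Agent.R289.LUb443

/-! ### mixing -/

section mix
variable {U V ι κ : Type} [Fintype U] [Fintype V] [Fintype ι] [Fintype κ]

theorem mixU_exp {P I : Type} [Group P] [Fintype P] [Fintype I] {s : I → P} {lam : ℝ}
    (h : TP846.Exp s lam) : MixU (fun z v => v * s z) lam := h

theorem MixU.mono {ga : ι → U → U} {lam lam' : ℝ} (h : MixU ga lam) (hl : lam ^ 2 ≤ lam' ^ 2) :
    MixU ga lam' := by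
  intro f hf
  refine (h f hf).trans ?_
  have h1 : 0 ≤ ∑ u, f u ^ 2 := sum_nonneg fun u _ => sq_nonneg _
  have h2 : lam ^ 2 * ∑ u, f u ^ 2 ≤ lam' ^ 2 * ∑ u, f u ^ 2 := mul_le_mul_of_nonneg_right hl h1
  exact mul_le_mul_of_nonneg_left (by linarith) (sq_nonneg _)

theorem sq_sum_div_le (f : U → ℝ) :
    (∑ u, f u) ^ 2 / (Fintype.card U : ℝ) ≤ ∑ u, f u ^ 2 := by
  refine div_le_of_le_mul₀ (Nat.cast_nonneg _) (sum_nonneg fun u _ => sq_nonneg _) ?_
  have := inner_mul_le_norm_mul_norm_aux f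
  exact this
where
  inner_mul_le_norm_mul_norm_aux (f : U → ℝ) :
      (∑ u, f u) ^ 2 ≤ (∑ u, f u ^ 2) * (Fintype.card U : ℝ) := by
    have h := sum_mul_sq_le_sq_mul_sq (univ : Finset U) f (fun _ => (1 : ℝ))
    simpa using h

/-- **product walks** -/
theorem MixU.prod {ga : ι → U → U} {gb : κ → V → V} {la lb lam : ℝ} (h : MixU ga la)
    (h' : MixU gb lb) (hl : la ^ 2 + lb ^ 2 + la ^ 2 * lb ^ 2 ≤ lam ^ 2) :
    MixU (fun (i : ι × κ) (u : U × V) => (ga i.1 u.1, gb i.2 u.2)) lam := by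
  intro f hf
  have hn : (0 : ℝ) ≤ Fintype.card U := Nat.cast_nonneg _
  have hm : (0 : ℝ) ≤ Fintype.card V := Nat.cast_nonneg _
  set n : ℝ := (Fintype.card U : ℝ) with hnd
  set m : ℝ := (Fintype.card V : ℝ) with hmd
  set a : ℝ := (Fintype.card ι : ℝ) with had
  set b : ℝ := (Fintype.card κ : ℝ) with hbd
  set S2 : ℝ := ∑ u, f u ^ 2 with hS2
  set S1 : ℝ := ∑ u, f u with hS1
  have hS2' : 0 ≤ S2 := sum_nonneg fun u _ => sq_nonneg _
  have e0 : S2 = ∑ v, ∑ u, f (u, v) ^ 2 := by rw [hS2, Fintype.sum_prod_type_right]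
  have e0' : S2 = ∑ u, ∑ v, f (u, v) ^ 2 := by rw [hS2, Fintype.sum_prod_type]
  set F : V → ℝ := fun v => ∑ u, f (u, v) with hF
  have eF : S1 = ∑ v, F v := by rw [hS1, Fintype.sum_prod_type_right]
  have hF0 : ∀ v, 0 ≤ F v := fun v => sum_nonneg fun u _ => hf _
  set g : U → V → ℝ := fun u v => ∑ j, f (u, gb j v) with hg
  have hg0 : ∀ u v, 0 ≤ g u v := fun u v => sum_nonneg fun j _ => hf _
  have e1 : ∑ u : U × V, (∑ i : ι × κ, f (ga i.1 u.1, gb i.2 u.2)) ^ 2 =
      ∑ v, ∑ u, (∑ i, g (ga i u) v) ^ 2 := by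
    rw [Fintype.sum_prod_type_right]
    refine sum_congr rfl fun v _ => sum_congr rfl fun u _ => ?_
    rw [Fintype.sum_prod_type]
  have a1 : ∑ v, ∑ u, (∑ i, g (ga i u) v) ^ 2 ≤
      a ^ 2 * ((∑ v, (∑ u, g u v) ^ 2) / n + la ^ 2 * ∑ v, ∑ u, g u v ^ 2) := by
    calc ∑ v, ∑ u, (∑ i, g (ga i u) v) ^ 2
        ≤ ∑ v, a ^ 2 * ((∑ u, g u v) ^ 2 / n + la ^ 2 * ∑ u, g u v ^ 2) :=
          sum_le_sum fun v _ => h (fun u => g u v) fun u => hg0 u v
      _ = _ := by rw [← mul_sum, sum_add_distrib, ← sum_div, ← mul_sum]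
  have e2 : ∀ v, ∑ u, g u v = ∑ j, F (gb j v) := fun v => by
    simp only [hg, hF]
    exact sum_comm
  have b1 : ∑ v, (∑ u, g u v) ^ 2 ≤ b ^ 2 * (S1 ^ 2 / m + lb ^ 2 * ∑ v, F v ^ 2) := by
    have := h' F hF0
    simp only [e2, eF]
    exact this
  have b2 : (∑ v, F v ^ 2) / n ≤ S2 := by
    rw [sum_div, e0]
    exact sum_le_sum fun v _ => sq_sum_div_le _
  have b3 : ∑ v, ∑ u, g u v ^ 2 ≤ b ^ 2 * ((1 + lb ^ 2) * S2) := by
    rw [sum_comm]
    calc ∑ u, ∑ v, g u v ^ 2
        ≤ ∑ u, b ^ 2 * ((∑ v, f (u, v)) ^ 2 / m + lb ^ 2 * ∑ v, f (u, v) ^ 2) :=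
          sum_le_sum fun u _ => h' (fun v => f (u, v)) fun v => hf _
      _ ≤ ∑ u, b ^ 2 * ((∑ v, f (u, v) ^ 2) + lb ^ 2 * ∑ v, f (u, v) ^ 2) :=
          sum_le_sum fun u _ => mul_le_mul_of_nonneg_left
            (add_le_add (sq_sum_div_le _) le_rfl) (sq_nonneg _)
      _ = _ := by
          rw [← mul_sum, sum_add_distrib, ← mul_sum, ← e0']
          ring
  have b4 : (∑ v, (∑ u, g u v) ^ 2) / n ≤ b ^ 2 * (S1 ^ 2 / (n * m) + lb ^ 2 * S2) := by
    calc (∑ v, (∑ u, g u v) ^ 2) / n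
        ≤ (b ^ 2 * (S1 ^ 2 / m + lb ^ 2 * ∑ v, F v ^ 2)) / n := div_le_div_of_nonneg_right b1 hn
      _ = b ^ 2 * (S1 ^ 2 / (n * m) + lb ^ 2 * ((∑ v, F v ^ 2) / n)) := by
          rw [mul_div_assoc, add_div, div_div, mul_comm m n, mul_div_assoc]
      _ ≤ _ := by
          refine mul_le_mul_of_nonneg_left ?_ (sq_nonneg _)
          exact add_le_add le_rfl (mul_le_mul_of_nonneg_left b2 (sq_nonneg _))
  have hcard : (Fintype.card (ι × κ) : ℝ) = a * b := by rw [Fintype.card_prod]; push_cast; rfl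
  have hcard' : (Fintype.card (U × V) : ℝ) = n * m := by rw [Fintype.card_prod]; push_cast; rfl
  rw [hcard, hcard']
  show ∑ u : U × V, (∑ i : ι × κ, f (ga i.1 u.1, gb i.2 u.2)) ^ 2 ≤ _
  rw [e1]
  refine a1.trans ?_
  have c1 : la ^ 2 * ∑ v, ∑ u, g u v ^ 2 ≤ la ^ 2 * (b ^ 2 * ((1 + lb ^ 2) * S2)) :=
    mul_le_mul_of_nonneg_left b3 (sq_nonneg _)
  calc a ^ 2 * ((∑ v, (∑ u, g u v) ^ 2) / n + la ^ 2 * ∑ v, ∑ u, g u v ^ 2)
      ≤ a ^ 2 * (b ^ 2 * (S1 ^ 2 / (n * m) + lb ^ 2 * S2) +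
          la ^ 2 * (b ^ 2 * ((1 + lb ^ 2) * S2))) :=
        mul_le_mul_of_nonneg_left (add_le_add b4 c1) (sq_nonneg _)
    _ = (a * b) ^ 2 * (S1 ^ 2 / (n * m) + (la ^ 2 + lb ^ 2 + la ^ 2 * lb ^ 2) * S2) := by ring
    _ ≤ (a * b) ^ 2 * (S1 ^ 2 / (n * m) + lam ^ 2 * S2) := by
        refine mul_le_mul_of_nonneg_left ?_ (sq_nonneg _)
        exact add_le_add le_rfl (mul_le_mul_of_nonneg_right hl hS2')

/-- change of the unit set -/
theorem MixU.congr {ga : ι → U → U} {lam : ℝ} (h : MixU ga lam) (e : U ≃ V) :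
    MixU (fun i v => e (ga i (e.symm v))) lam := by
  intro f hf
  have h1 := h (fun u => f (e u)) fun u => hf _
  rw [Fintype.card_congr e] at h1
  rw [← Equiv.sum_comp e f, ← Equiv.sum_comp e (fun v => f v ^ 2),
    ← Equiv.sum_comp e (fun v => (∑ i, f (e (ga i (e.symm v)))) ^ 2)]
  simpa using h1

end mix

/-! ### the control letter -/

section letter

/-- rules of the control letter: slots `Option ι`, `none` = the unit itself -/
noncomputable def letR (ι A P : Type) [Fintype ι] [Nonempty A] : CRules (Option ι) A P where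
  viol x _ := ∃ i, x (some i) ≠ x none
  corr x _ := LUb443.maj fun i => x (some i)

/-- **CONTROL LETTER**: constant words, any alphabet -/
theorem letter_CAx {ι A U P : Type} [Fintype ι] [Nonempty ι] [Nonempty A] [Fintype U] [Nonempty U]
    {ga : ι → U → U} {lam r0 th : ℝ} (h : MixU ga lam) (hl : lam ^ 2 ≤ 1 / 8)
    (hinj : ∀ i, Function.Injective (ga i)) (hth : 4 * (r0 + lam ^ 2) ≤ th) (pub : U → P)
    (zs : ℝ) :
    CAx (letR ι A P) (repNb ga) pub {w : U → A | ∃ a, w = fun _ => a} 1 zs r0 1 3 th where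
  mult := by
    refine nbMult_of_injective _ fun i => ?_
    cases i with
    | none => exact Function.injective_id
    | some i => exact hinj i
  sep := by
    rintro _ ⟨a, rfl⟩ _ ⟨b, rfl⟩ hne
    have hab : a ≠ b := fun hab => hne (by rw [hab])
    have hU : (Fintype.card U : ℝ) ≠ 0 := by exact_mod_cast Fintype.card_ne_zero
    have : distW (fun _ : U => a) (fun _ => b) = 1 := by
      classical
      unfold distW frac
      simp only [ne_eq, hab, not_false_eq_true, filter_true, card_univ]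
      field_simp
    rw [this]
  sound := by
    intro X _
    obtain ⟨b, hb⟩ := rep_sound h hl X
    exact ⟨fun _ => b, ⟨b, rfl⟩, hb⟩
  compl := by
    rintro _ ⟨a, rfl⟩ u ⟨i, hi⟩
    exact hi rfl
  corr := by
    rintro _ ⟨a, rfl⟩ E hE
    refine (frac_mono ?_).trans (maj_bad h hth E hE)
    rintro u ⟨x, hx, hne⟩
    by_contra hu
    apply hne
    refine LUb443.maj_eq (p := fun i => E (ga i u)) (fun i hi => ?_) (by omega)
    exact hx (some i) hi

end letter

/-! ### change of the alphabet -/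

section alph
variable {ι U A B P : Type}

/-- the same rules over another alphabet -/
def _root_.Crest.Agent.R289.Word508.CRules.alph (R : CRules ι A P) (e : A ≃ B) : CRules ι B P where
  viol x p := R.viol (fun i => e.symm (x i)) p
  corr x p := e (R.corr (fun i => e.symm (x i)) p)

theorem _root_.Crest.Agent.R289.Word508.CAx.alph [Fintype U] {R : CRules ι A P} {nb : ι → U → U} {pub : U → P}
    {C : Set (U → A)} {m zs r0 d0 c θ : ℝ} (h : CAx R nb pub C m zs r0 d0 c θ) (e : A ≃ B) :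
    CAx (R.alph e) nb pub {w : U → B | (fun u => e.symm (w u)) ∈ C} m zs r0 d0 c θ where
  mult := h.mult
  sep v hv w hw hne := by
    have h1 : (fun u => e.symm (v u)) ≠ fun u => e.symm (w u) := fun hc =>
      hne (funext fun u => e.symm.injective (congrFun hc u))
    refine (h.sep _ hv _ hw h1).trans (frac_mono fun u hu he => hu ?_)
    exact congrArg e.symm he
  sound X hX := by
    obtain ⟨w, hw, hle⟩ := h.sound (fun u => e.symm (X u)) hX
    refine ⟨fun u => e (w u), ?_, ?_⟩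
    · show (fun u => e.symm (e (w u))) ∈ C
      simp only [Equiv.symm_apply_apply]
      exact hw
    · refine le_trans (frac_mono (q := fun u => e.symm (X u) ≠ w u) fun u hu he => hu ?_) hle
      show X u = e (w u)
      exact (e.symm_apply_eq).1 he
  compl w hw u := h.compl _ hw u
  corr w hw E hE := by
    refine (frac_mono ?_).trans (h.corr _ hw E hE)
    rintro u ⟨x, hx, hne⟩
    refine ⟨fun i => e.symm (x i), fun i hi => congrArg e.symm (hx i hi), fun hc => hne ?_⟩
    show e (R.corr (fun i => e.symm (x i)) (pub u)) = w u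
    rw [hc, e.apply_symm_apply]

end alph

end Crest.Agent.R289.RegCAx335
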