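import Crest.Agent.R289.LUc_443
import Crest.Agent.R289.LUten_745
import Crest.Agent.R289.TP_846

/-!
Row 289, seam B/C (helper481, second of the key REGS of helper335): FAMILIES of linear unit codes
with instance independent rules and constants.

`Fam W C θ` : for every instance `a` the code `C a` is a `LU846.LU` with the same slots, the same
condition `N`, the same correction rule `cr`, the same constants; the slot maps belong to the class
`W` of unit maps (`W` = words in the moves of the machine, or unit maps with polynomial time tables).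

* `Fam.iter`, `Fam.small` : any contraction factor `ε > 0`;
* `Fam.tensor` : products, with any `ε > 0`;
* `Fam.rep` : constant words on an expander;
* `Fam.comap` : reindexing of the instances;
* `Fam.three` : the codes `(C_P(a) ⊗ C_Tr(a)) ⊗ C_T(b)`, `Fam.reg` : `(C_P(1) ⊗ C_Tr(1)) ⊗ Rep_T`.
-/

set_option autoImplicit false
set_option linter.unusedSectionVars false

namespace Crest.Agent.R289.RegLU481

open Finset Crest.Agent.R289.DefD Crest.Agent.R289.Word508 Crest.Agent.R289.LU846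
  Crest.Agent.R289.LUc443 Crest.Agent.R289.LU745
open Crest.Agent.R289.LUb443 (Slots nbIt crIt MixU repC repN repNb)

variable {K : Type} [Field K] {Inst : Type}

/-- a family of linear unit codes with instance independent rules and constants -/
structure Fam {U : Inst → Type} [∀ a, Fintype (U a)] {S : Type} (W : (∀ a, U a → U a) → Prop)
    (C : ∀ a, Submodule K (U a → S → K)) (θ : ℝ) where
  /-- slots of the tests -/
  ι : Type
  /-- slots of the correction -/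
  ι' : Type
  fι : Fintype ι
  fι' : Fintype ι'
  /-- local condition -/
  N : Submodule K (ι → S → K)
  /-- correction rule -/
  cr : (ι' → S → K) → S → K
  nb : ∀ a, ι → U a → U a
  nb' : ∀ a, ι' → U a → U a
  m : ℝ
  zs : ℝ
  r0 : ℝ
  d0 : ℝ
  c : ℝ
  hm : 1 ≤ m
  hzs : 0 < zs
  hr0 : 0 < r0
  hd0 : 0 < d0
  hc : 0 ≤ c
  hW : ∀ i, W fun a => nb a i
  hW' : ∀ i, W fun a => nb' a i
  lu : ∀ a, LU (C a) (nb a) N (nb' a) cr m m zs r0 d0 c θ

/-- the class of unit maps is closed under composition -/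
def Comp {U : Inst → Type} (W : (∀ a, U a → U a) → Prop) : Prop :=
  ∀ f g, W f → W g → W fun a u => g a (f a u)

namespace Fam

variable {U : Inst → Type} [∀ a, Fintype (U a)] {S : Type} {W : (∀ a, U a → U a) → Prop}
  {C : ∀ a, Submodule K (U a → S → K)} {θ : ℝ}

/-- weaker contraction factor -/
def mono (F : Fam W C θ) {θ' : ℝ} (h : θ ≤ θ') : Fam W C θ' where
  ι := F.ι
  ι' := F.ι'
  fι := F.fι
  fι' := F.fι'
  N := F.N
  cr := F.cr
  nb := F.nb
  nb' := F.nb'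
  m := F.m
  zs := F.zs
  r0 := F.r0
  d0 := F.d0
  c := F.c
  hm := F.hm
  hzs := F.hzs
  hr0 := F.hr0
  hd0 := F.hd0
  hc := F.hc
  hW := F.hW
  hW' := F.hW'
  lu := fun a => LUc443.mono (F.lu a) le_rfl le_rfl le_rfl le_rfl le_rfl le_rfl h

theorem nbIt_mem (hcomp : Comp W) {ι' : Type} {nb' : ∀ a, ι' → U a → U a}
    (h : ∀ i, W fun a => nb' a i) : ∀ (r : ℕ) (i : Slots ι' r), W fun a => nbIt (nb' a) r i
  | 0, i => h i
  | r + 1, i => hcomp (fun a => nb' a i.1) (fun a => nbIt (nb' a) r i.2) (h i.1)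
      (nbIt_mem hcomp h r i.2)

/-- iterated correction -/
def iter (hcomp : Comp W) (F : Fam W C θ) (h0 : 0 ≤ θ) (h1 : θ ≤ 1) (r : ℕ) :
    Fam W C (θ ^ (r + 1)) where
  ι := F.ι
  ι' := Slots F.ι' r
  fι := F.fι
  fι' := haveI := F.fι'; inferInstance
  N := F.N
  cr := crIt F.cr r
  nb := F.nb
  nb' := fun a => nbIt (F.nb' a) r
  m := F.m ^ (r + 1)
  zs := F.zs
  r0 := F.r0
  d0 := F.d0
  c := F.c
  hm := one_le_pow₀ F.hm
  hzs := F.hzs
  hr0 := F.hr0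
  hd0 := F.hd0
  hc := F.hc
  hW := F.hW
  hW' := nbIt_mem hcomp F.hW' r
  lu := fun a => LUc443.mono
    (LUc443.iter (F.lu a) (zero_le_one.trans F.hm) h0 h1 F.hr0.le r)
    (le_self_pow₀ F.hm (Nat.succ_ne_zero r)) le_rfl le_rfl le_rfl le_rfl le_rfl le_rfl

/-- number of rounds -/
noncomputable def rounds {θ ε : ℝ} (h1 : θ < 1) (hε : 0 < ε) : ℕ :=
  (exists_pow_lt_of_lt_one hε h1).choose

theorem rounds_le {θ ε : ℝ} (h0 : 0 ≤ θ) (h1 : θ < 1) (hε : 0 < ε) :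
    θ ^ (rounds h1 hε + 1) ≤ ε := by
  have h := (exists_pow_lt_of_lt_one hε h1).choose_spec
  calc θ ^ (rounds h1 hε + 1) = θ ^ rounds h1 hε * θ := pow_succ _ _
    _ ≤ θ ^ rounds h1 hε * 1 := mul_le_mul_of_nonneg_left h1.le (pow_nonneg h0 _)
    _ ≤ ε := by rw [mul_one]; exact h.le

/-- **any contraction factor**; the constants `zs`, `r0`, `d0`, `c` do not change -/
noncomputable def small (hcomp : Comp W) (F : Fam W C θ) (h0 : 0 ≤ θ) (h1 : θ < 1) {ε : ℝ}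
    (hε : 0 < ε) : Fam W C ε :=
  (F.iter hcomp h0 h1.le (rounds h1 hε)).mono (rounds_le h0 h1 hε)

@[simp] theorem small_r0 (hcomp : Comp W) (F : Fam W C θ) (h0 : 0 ≤ θ) (h1 : θ < 1) {ε : ℝ}
    (hε : 0 < ε) : (F.small hcomp h0 h1 hε).r0 = F.r0 := rfl

/-- larger class of unit maps -/
def weaken (F : Fam W C θ) {W' : (∀ a, U a → U a) → Prop} (h : ∀ f, W f → W' f) :
    Fam W' C θ where
  ι := F.ι
  ι' := F.ι'
  fι := F.fι
  fι' := F.fι'
  N := F.N
  cr := F.cr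
  nb := F.nb
  nb' := F.nb'
  m := F.m
  zs := F.zs
  r0 := F.r0
  d0 := F.d0
  c := F.c
  hm := F.hm
  hzs := F.hzs
  hr0 := F.hr0
  hd0 := F.hd0
  hc := F.hc
  hW := fun i => h _ (F.hW i)
  hW' := fun i => h _ (F.hW' i)
  lu := F.lu

/-- reindexing of the instances -/
def comap (F : Fam W C θ) {Inst' : Type} (σ : Inst' → Inst)
    {W' : (∀ a, U (σ a) → U (σ a)) → Prop} (h : ∀ f, W f → W' fun a => f (σ a)) :
    Fam W' (fun a => C (σ a)) θ where
  ι := F.ι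
  ι' := F.ι'
  fι := F.fι
  fι' := F.fι'
  N := F.N
  cr := F.cr
  nb := fun a => F.nb (σ a)
  nb' := fun a => F.nb' (σ a)
  m := F.m
  zs := F.zs
  r0 := F.r0
  d0 := F.d0
  c := F.c
  hm := F.hm
  hzs := F.hzs
  hr0 := F.hr0
  hd0 := F.hd0
  hc := F.hc
  hW := fun i => h _ (F.hW i)
  hW' := fun i => h _ (F.hW' i)
  lu := fun a => F.lu (σ a)

/-! ### products -/

section tensor

variable {U₁ U₂ : Inst → Type} [∀ a, Fintype (U₁ a)] [∀ a, Fintype (U₂ a)]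
  [∀ a, Nonempty (U₁ a)] [∀ a, Nonempty (U₂ a)] {S₁ S₂ : Type} [Fintype S₁] [Fintype S₂]
  {W₁ : (∀ a, U₁ a → U₁ a) → Prop} {W₂ : (∀ a, U₂ a → U₂ a) → Prop}
  {W₃ : (∀ a, U₁ a × U₂ a → U₁ a × U₂ a) → Prop}
  {C₁ : ∀ a, Submodule K (U₁ a → S₁ → K)} {C₂ : ∀ a, Submodule K (U₂ a → S₂ → K)} {θ₁ θ₂ : ℝ}

/-- product of two families -/
noncomputable def tensor0 (F₁ : Fam W₁ C₁ θ₁) (F₂ : Fam W₂ C₂ θ₂) (h₁ : 0 ≤ θ₁) (h₂ : 0 ≤ θ₂)
    (hl : ∀ f, W₁ f → W₃ fun a u => (f a u.1, u.2))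
    (hr : ∀ f, W₂ f → W₃ fun a u => (u.1, f a u.2)) (hcomp : Comp W₃) :
    Fam W₃ (fun a => tens (C₁ a) (C₂ a)) (θ₁ / F₂.r0 + θ₁ * θ₂ + 2 * θ₂ / F₁.r0) where
  ι := F₁.ι ⊕ F₂.ι
  ι' := F₁.ι' × F₂.ι'
  fι := haveI := F₁.fι; haveI := F₂.fι; inferInstance
  fι' := haveI := F₁.fι'; haveI := F₂.fι'; inferInstance
  N := NT F₁.N F₂.N
  cr := crT F₁.cr F₂.cr
  nb := fun a => nbT (F₁.nb a) (F₂.nb a)
  nb' := fun a => nbC (F₁.nb' a) (F₂.nb' a)
  m := F₁.m * F₂.m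
  zs := zsT (@Fintype.card F₁.ι F₁.fι) F₁.m F₁.zs F₂.d0 F₂.zs F₂.c
  r0 := F₁.r0 * F₂.r0 / 2
  d0 := F₂.d0 * F₁.d0
  c := cT (@Fintype.card F₁.ι F₁.fι) F₁.m F₁.c F₂.d0 F₂.zs F₂.c
  hm := one_le_mul_of_one_le_of_one_le F₁.hm F₂.hm
  hzs := by
    have a1 := F₁.hm
    have a2 := F₂.hd0
    have a3 := F₁.hzs
    have a4 := F₂.hzs
    have a5 := F₂.hc
    unfold zsT
    positivity
  hr0 := by
    have a1 := F₁.hr0
    have a2 := F₂.hr0
    positivity
  hd0 := mul_pos F₂.hd0 F₁.hd0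
  hc := by
    have a1 := F₁.hm
    have a2 := F₂.hd0
    have a3 := F₁.hc
    have a4 := F₂.hzs
    have a5 := F₂.hc
    unfold cT
    positivity
  hW := by
    rintro (i | i)
    · exact hl _ (F₁.hW i)
    · exact hr _ (F₂.hW i)
  hW' := by
    rintro ⟨i, j⟩
    exact hcomp (fun a u => (F₁.nb' a i u.1, u.2)) (fun a u => (u.1, F₂.nb' a j u.2))
      (hl _ (F₁.hW' i)) (hr _ (F₂.hW' j))
  lu := by
    intro a
    let _ := F₁.fι
    let _ := F₂.fι
    let _ := F₁.fι'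
    let _ := F₂.fι'
    have h := LU_tensor (F₁.lu a) (F₂.lu a) (zero_le_one.trans F₁.hm) (zero_le_one.trans F₁.hm)
      F₂.hzs F₂.hd0 F₁.hc F₂.hc F₁.hr0 F₂.hr0 h₁ h₂
    refine LUc443.mono h (max_le ?_ ?_) le_rfl le_rfl le_rfl le_rfl le_rfl le_rfl
    · have := F₁.hm
      have := F₂.hm
      nlinarith
    · have := F₁.hm
      have := F₂.hm
      nlinarith

/-- **product of two families, any contraction factor** -/
noncomputable def tensor (hc₁ : Comp W₁) (hc₂ : Comp W₂) (F₁ : Fam W₁ C₁ θ₁) (F₂ : Fam W₂ C₂ θ₂)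
    (h₁ : 0 ≤ θ₁) (h₁' : θ₁ < 1) (h₂ : 0 ≤ θ₂) (h₂' : θ₂ < 1)
    (hl : ∀ f, W₁ f → W₃ fun a u => (f a u.1, u.2))
    (hr : ∀ f, W₂ f → W₃ fun a u => (u.1, f a u.2)) (hcomp : Comp W₃) {ε : ℝ} (hε : 0 < ε) :
    Fam W₃ (fun a => tens (C₁ a) (C₂ a)) ε :=
  have e1 : 0 < min (ε * F₂.r0 / 3) (1 / 2) :=
    lt_min (by have := F₂.hr0; positivity) (by norm_num)
  have e2 : 0 < min (ε * F₁.r0 / 6) (ε / 3) :=
    lt_min (by have := F₁.hr0; positivity) (by positivity)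
  (tensor0 (F₁.small hc₁ h₁ h₁' e1) (F₂.small hc₂ h₂ h₂' e2) e1.le e2.le hl hr hcomp).mono (by
    have r1 := F₁.hr0
    have r2 := F₂.hr0
    simp only [small_r0]
    have b1 : min (ε * F₂.r0 / 3) (1 / 2) / F₂.r0 ≤ ε / 3 := by
      rw [div_le_iff₀ r2]
      have := min_le_left (ε * F₂.r0 / 3) (1 / 2)
      linarith
    have b2 : 2 * min (ε * F₁.r0 / 6) (ε / 3) / F₁.r0 ≤ ε / 3 := by
      rw [div_le_iff₀ r1]
      have := min_le_left (ε * F₁.r0 / 6) (ε / 3)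
      linarith
    have b3 : min (ε * F₂.r0 / 3) (1 / 2) * min (ε * F₁.r0 / 6) (ε / 3) ≤ ε / 3 := by
      have c1 := min_le_right (ε * F₂.r0 / 3) (1 / 2)
      have c2 := min_le_right (ε * F₁.r0 / 6) (ε / 3)
      nlinarith
    linarith)

end tensor

/-! ### constant words -/

/-- slots of the constant words -/
noncomputable def rep {T : Inst → Type} [∀ a, Fintype (T a)] [∀ a, Nonempty (T a)] {ι : Type}
    [Fintype ι] [Nonempty ι] (S : Type) {WT : (∀ a, T a → T a) → Prop} (ga : ∀ a, ι → T a → T a)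
    {lam : ℝ} (hmix : ∀ a, MixU (ga a) lam) (hl : lam ^ 2 ≤ 1 / 16)
    (hinj : ∀ a i, Function.Injective (ga a i)) (hid : WT fun _ u => u)
    (hW : ∀ i, WT fun a => ga a i) : Fam (K := K) WT (fun a => repC (T a) S K) (1 / 2) where
  ι := Option ι
  ι' := ι
  fι := inferInstance
  fι' := inferInstance
  N := repN ι S K
  cr := LUb443.maj
  nb := fun a => repNb (ga a)
  nb' := ga
  m := 1
  zs := 1
  r0 := 1 / 16
  d0 := 1
  c := 3
  hm := le_rfl
  hzs := one_pos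
  hr0 := by norm_num
  hd0 := one_pos
  hc := by norm_num
  hW := by
    rintro (_ | i)
    · exact hid
    · exact hW i
  hW' := hW
  lu := fun a => LUc443.rep K S (hmix a) (hl.trans (by norm_num)) (hinj a)
    (by linarith) 1

end Fam

/-! ### the three register codes -/

section three

variable {U₁ U₂ T : Inst → Type} [∀ a, Fintype (U₁ a)] [∀ a, Fintype (U₂ a)] [∀ a, Fintype (T a)]
  [∀ a, Nonempty (U₁ a)] [∀ a, Nonempty (U₂ a)] [∀ a, Nonempty (T a)]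
  {S₁ S₂ S₃ : Type} [Fintype S₁] [Fintype S₂] [Fintype S₃]

/-- class of unit maps of a product, generated by those of the factors -/
inductive ProdW (W₁ : (∀ a, U₁ a → U₁ a) → Prop) (W₂ : (∀ a, U₂ a → U₂ a) → Prop) :
    (∀ a, U₁ a × U₂ a → U₁ a × U₂ a) → Prop
  | fst (f) : W₁ f → ProdW W₁ W₂ fun a u => (f a u.1, u.2)
  | snd (f) : W₂ f → ProdW W₁ W₂ fun a u => (u.1, f a u.2)
  | comp (f g) : ProdW W₁ W₂ f → ProdW W₁ W₂ g → ProdW W₁ W₂ fun a u => g a (f a u)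

/-- class of unit maps generated by a family of steps -/
inductive GenW {U : Inst → Type} {St : Type} (mv : ∀ a, St → U a → U a) :
    (∀ a, U a → U a) → Prop
  | id : GenW mv fun _ u => u
  | step (s) : GenW mv fun a => mv a s
  | comp (f g) : GenW mv f → GenW mv g → GenW mv fun a u => g a (f a u)

theorem ProdW.le {W₁ : (∀ a, U₁ a → U₁ a) → Prop} {W₂ : (∀ a, U₂ a → U₂ a) → Prop}
    {W : (∀ a, U₁ a × U₂ a → U₁ a × U₂ a) → Prop}
    (h₁ : ∀ f, W₁ f → W fun a u => (f a u.1, u.2)) (h₂ : ∀ f, W₂ f → W fun a u => (u.1, f a u.2))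
    (hc : Comp W) (f : ∀ a, U₁ a × U₂ a → U₁ a × U₂ a) (hf : ProdW W₁ W₂ f) : W f := by
  induction hf with
  | fst f hf => exact h₁ f hf
  | snd f hf => exact h₂ f hf
  | comp f g _ _ ihf ihg => exact hc f g ihf ihg

theorem GenW.le {U : Inst → Type} {St : Type} {mv : ∀ a, St → U a → U a}
    {W : (∀ a, U a → U a) → Prop} (hid : W fun _ u => u) (h : ∀ s, W fun a => mv a s)
    (hc : Comp W) (f : ∀ a, U a → U a) (hf : GenW mv f) : W f := by
  induction hf with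
  | id => exact hid
  | step s => exact h s
  | comp f g _ _ ihf ihg => exact hc f g ihf ihg

/-- the class generated by steps, as words (lists of steps) -/
theorem GenW.exists_walk {U : Inst → Type} {St : Type} {mv : ∀ a, St → U a → U a}
    {f : ∀ a, U a → U a} (hf : GenW mv f) :
    ∃ l : List St, ∀ a u, f a u = l.foldl (fun u s => mv a s u) u := by
  induction hf with
  | id => exact ⟨[], fun _ _ => rfl⟩
  | step s => exact ⟨[s], fun _ _ => rfl⟩
  | comp f g _ _ ihf ihg =>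
    obtain ⟨l, hl⟩ := ihf
    obtain ⟨l', hl'⟩ := ihg
    exact ⟨l ++ l', fun a u => by rw [List.foldl_append, ← hl, ← hl']⟩

variable {W₁ : (∀ a, U₁ a → U₁ a) → Prop} {W₂ : (∀ a, U₂ a → U₂ a) → Prop}
  {WT : (∀ a, T a → T a) → Prop}
  {W : (∀ a, (U₁ a × U₂ a) × T a → (U₁ a × U₂ a) × T a) → Prop}
  {C₁ : ∀ a, Submodule K (U₁ a → S₁ → K)} {C₂ : ∀ a, Submodule K (U₂ a → S₂ → K)}
  {C₃ : ∀ a, Submodule K (T a → S₃ → K)} {θ₁ θ₂ θ₃ : ℝ}

/-- **THREE FACTORS** : `(C₁ ⊗ C₂) ⊗ C₃`, any contraction factor -/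
noncomputable def three (hc₁ : Comp W₁) (hc₂ : Comp W₂) (hcT : Comp WT) (hcW : Comp W)
    (F₁ : Fam W₁ C₁ θ₁) (F₂ : Fam W₂ C₂ θ₂) (F₃ : Fam WT C₃ θ₃)
    (h₁ : 0 ≤ θ₁) (h₁' : θ₁ < 1) (h₂ : 0 ≤ θ₂) (h₂' : θ₂ < 1) (h₃ : 0 ≤ θ₃) (h₃' : θ₃ < 1)
    (w₁ : ∀ f, W₁ f → W fun a u => ((f a u.1.1, u.1.2), u.2))
    (w₂ : ∀ f, W₂ f → W fun a u => ((u.1.1, f a u.1.2), u.2))
    (w₃ : ∀ f, WT f → W fun a u => (u.1, f a u.2)) {ε : ℝ} (hε : 0 < ε) :
    Fam W (fun a => tens (tens (C₁ a) (C₂ a)) (C₃ a)) ε :=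
  Fam.tensor (W₁ := ProdW W₁ W₂) (fun _ _ => ProdW.comp _ _) hcT
    (Fam.tensor hc₁ hc₂ F₁ F₂ h₁ h₁' h₂ h₂' (fun f => ProdW.fst f) (fun f => ProdW.snd f)
      (fun _ _ => ProdW.comp _ _) (one_half_pos (α := ℝ))) F₃ (by norm_num) (by norm_num) h₃ h₃'
    (fun f hf => by
      induction hf with
      | fst f hf => exact w₁ f hf
      | snd f hf => exact w₂ f hf
      | comp f g _ _ ihf ihg => exact hcW _ _ ihf ihg)
    w₃ hcW hε

end three

end Crest.Agent.R289.RegLU481
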