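import Crest.Agent.R289.RegLU_481
import Crest.Agent.R289.LUofTP_239

/-!
Row 289, seam B/C (helper481, second of the key REGS of helper335): THE THREE REGISTER CODES OF THE
LABEL, from `Obj.OK`, uniformly in all instances.

For `D : Asm12.Obj`, `h : D.OK M0 lam0 Kr`, `0 ≤ Kr`, `lam0 ≤ 1/8`, `4 ≤ M0`, any index type `Inst`
with levels `kP kR kT : Inst → ℕ`, and any `ε > 0`:

* `regX` : `(C_P(4) ⊗ C_Tr(4)) ⊗ C_T(1)`, `regZ` : `(C_P(4) ⊗ C_Tr(4)) ⊗ C_T(2)`,
* `regR` : `(C_P(1) ⊗ C_Tr(1)) ⊗ Rep_T`,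

are `RegLU481.Fam`s: one local condition, one correction rule with contraction factor `ε`, one set of
constants; all slot maps are words (the same for all instances) in the right steps `mv3`.
-/

set_option autoImplicit false
set_option linter.unusedSectionVars false

namespace Crest.Agent.R289.RegObj481

open Finset Crest.Agent.R289.DefD Crest.Agent.R289.Asm12 Crest.Agent.R289.TP846
  Crest.Agent.R289.LU846 Crest.Agent.R289.RegLU481 Crest.Agent.R289.LUofTP239
open Crest.Agent.R289.LUb443 (MixU repC)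

variable (D : Obj)

/-- letters of the right steps of one factor (y?, inverse?, label) -/
abbrev Rt : Type := Bool × Bool × Option D.K

/-- value of a letter at level `k` -/
def rv (k : ℕ) : Rt D → D.P k
  | (false, false, z) => (D.tp k).a z
  | (false, true, z) => ((D.tp k).a z)⁻¹
  | (true, false, z) => (D.tp k).b z
  | (true, true, z) => ((D.tp k).b z)⁻¹

/-- right steps of one factor -/
def rmv (k : ℕ) (s : Rt D) (u : D.P k) : D.P k := u * rv D k s

/-- words in the right steps -/
def WP : (∀ k, D.P k → D.P k) → Prop := GenW (rmv D)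

theorem comp_WP : Comp (WP D) := fun f g hf hg => GenW.comp f g hf hg

theorem WP_mul (s t : Rt D) : WP D fun k u => u * rv D k s * rv D k t :=
  GenW.comp (fun k u => rmv D k s u) (fun k u => rmv D k t u) (GenW.step s) (GenW.step t)

variable {D} {M0 : ℕ} {lam0 Kr : ℝ}

theorem WP_nbP' (i : OI D) : WP D fun k => nbP' D k i := by
  obtain ⟨z, z'⟩ := i
  exact WP_mul D (false, false, z) (false, true, z')

theorem WP_nbP (h : D.OK M0 lam0 Kr) (i : VS (Option D.K)) : WP D fun k => nbP D k i := by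
  obtain ⟨i, j, l, m⟩ := i
  have hy : ∀ k, (D.tp k).yl i l m = if i then D.M l m else m := by
    intro k
    unfold TP.yl
    rw [h.M_eq k]
  cases i <;> cases j
  · have e : (fun k => nbP D k (false, false, l, m)) = fun k (u : D.P k) => u := by
      funext k u
      show u * ((D.tp k).st false false l m)⁻¹ = u
      simp [TP.st, TP.ai, TP.bj]
    rw [e]
    exact GenW.id
  · have e : (fun k => nbP D k (false, true, l, m)) =
        fun k (u : D.P k) => rmv D k (true, true, m) u := by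
      funext k u
      show u * ((D.tp k).st false true l m)⁻¹ = u * ((D.tp k).b m)⁻¹
      simp [TP.st, TP.ai, TP.bj, TP.yl]
    rw [e]
    exact GenW.step _
  · have e : (fun k => nbP D k (true, false, l, m)) =
        fun k (u : D.P k) => rmv D k (false, true, l) u := by
      funext k u
      show u * ((D.tp k).st true false l m)⁻¹ = u * ((D.tp k).a l)⁻¹
      simp [TP.st, TP.ai, TP.bj]
    rw [e]
    exact GenW.step _
  · have e : (fun k => nbP D k (true, true, l, m)) =
        fun k (u : D.P k) => u * rv D k (true, true, D.M l m) * rv D k (false, true, l) := by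
      funext k u
      show u * ((D.tp k).st true true l m)⁻¹ = u * ((D.tp k).b (D.M l m))⁻¹ * ((D.tp k).a l)⁻¹
      have h1 := hy k
      rw [if_pos rfl] at h1
      simp [TP.st, TP.ai, TP.bj, h1, mul_assoc]
    rw [e]
    exact WP_mul D _ _

/-- the code of degree `d` at all levels -/
noncomputable def famP (h : D.OK M0 lam0 Kr) (hK : 0 ≤ Kr) (hl0 : lam0 ≤ 1 / 8) (d : ℕ)
    (hd : d ≤ M0) : Fam (WP D) (fun k => CP D k d) (1 / 4) where
  ι := VS (Option D.K)
  ι' := OI D
  fι := inferInstance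
  fι' := inferInstance
  N := NP D d
  cr := crP D d (lu_obj D h hK hl0).choose
  nb := nbP D
  nb' := nbP' D
  m := 1
  zs := zsP D Kr
  r0 := 1 / 20
  d0 := 1 / 2
  c := cP D
  hm := le_rfl
  hzs := by
    unfold zsP
    positivity
  hr0 := by norm_num
  hd0 := by norm_num
  hc := by
    unfold cP
    positivity
  hW := WP_nbP h
  hW' := WP_nbP'
  lu := (lu_obj D h hK hl0).choose_spec d hd

/-! ### the units of the machine -/

section inst

variable (D) {Inst : Type} (kP kR kT : Inst → ℕ)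

/-- units -/
abbrev U3 (a : Inst) : Type := (D.P (kP a) × D.P (kR a)) × D.P (kT a)

/-- letters of the right steps of the units -/
abbrev Rt3 : Type := Rt D ⊕ Rt D ⊕ Rt D

/-- right steps of the units -/
def mv3 (a : Inst) : Rt3 D → U3 D kP kR kT a → U3 D kP kR kT a
  | .inl s, u => ((u.1.1 * rv D (kP a) s, u.1.2), u.2)
  | .inr (.inl s), u => ((u.1.1, u.1.2 * rv D (kR a) s), u.2)
  | .inr (.inr s), u => (u.1, u.2 * rv D (kT a) s)

/-- words in the right steps of the units -/
def W3 : (∀ a, U3 D kP kR kT a → U3 D kP kR kT a) → Prop := GenW (mv3 D kP kR kT)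

/-- one factor at the levels `k a` -/
def Wk (k : Inst → ℕ) : (∀ a, D.P (k a) → D.P (k a)) → Prop :=
  GenW fun a (s : Rt D) u => u * rv D (k a) s

theorem comp_Wk (k : Inst → ℕ) : Comp (Wk D k) := fun f g hf hg => GenW.comp f g hf hg

theorem comp_W3 : Comp (W3 D kP kR kT) := fun f g hf hg => GenW.comp f g hf hg

theorem WP.comap (k : Inst → ℕ) (f : ∀ k, D.P k → D.P k) (hf : WP D f) :
    Wk D k fun a => f (k a) := by
  induction hf with
  | id => exact GenW.id
  | step s => exact GenW.step (mv := fun a (s : Rt D) (u : D.P (k a)) => u * rv D (k a) s) s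
  | comp f g _ _ ihf ihg => exact GenW.comp (fun a => f (k a)) (fun a => g (k a)) ihf ihg

theorem W3_P (f : ∀ a, D.P (kP a) → D.P (kP a)) (hf : Wk D kP f) :
    W3 D kP kR kT fun a u => ((f a u.1.1, u.1.2), u.2) := by
  induction hf with
  | id => exact GenW.id
  | step s => exact GenW.step (mv := mv3 D kP kR kT) (.inl s)
  | comp f g _ _ ihf ihg =>
    exact GenW.comp (mv := mv3 D kP kR kT) (fun a u => ((f a u.1.1, u.1.2), u.2))
      (fun a u => ((g a u.1.1, u.1.2), u.2)) ihf ihg

theorem W3_R (f : ∀ a, D.P (kR a) → D.P (kR a)) (hf : Wk D kR f) :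
    W3 D kP kR kT fun a u => ((u.1.1, f a u.1.2), u.2) := by
  induction hf with
  | id => exact GenW.id
  | step s => exact GenW.step (mv := mv3 D kP kR kT) (.inr (.inl s))
  | comp f g _ _ ihf ihg =>
    exact GenW.comp (mv := mv3 D kP kR kT) (fun a u => ((u.1.1, f a u.1.2), u.2))
      (fun a u => ((u.1.1, g a u.1.2), u.2)) ihf ihg

theorem W3_T (f : ∀ a, D.P (kT a) → D.P (kT a)) (hf : Wk D kT f) :
    W3 D kP kR kT fun a u => (u.1, f a u.2) := by
  induction hf with
  | id => exact GenW.id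
  | step s => exact GenW.step (mv := mv3 D kP kR kT) (.inr (.inr s))
  | comp f g _ _ ihf ihg =>
    exact GenW.comp (mv := mv3 D kP kR kT) (fun a u => (u.1, f a u.2))
      (fun a u => (u.1, g a u.2)) ihf ihg

variable {D}

/-- one factor, all instances -/
noncomputable def famK (h : D.OK M0 lam0 Kr) (hK : 0 ≤ Kr) (hl0 : lam0 ≤ 1 / 8) (k : Inst → ℕ)
    (d : ℕ) (hd : d ≤ M0) : Fam (Wk D k) (fun a => CP D (k a) d) (1 / 4) :=
  (famP h hK hl0 d hd).comap k (WP.comap D k)

/-- **`(C_P(d) ⊗ C_Tr(d)) ⊗ C_T(e)`** -/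
noncomputable def regC (h : D.OK M0 lam0 Kr) (hK : 0 ≤ Kr) (hl0 : lam0 ≤ 1 / 8) (d e : ℕ)
    (hd : d ≤ M0) (he : e ≤ M0) {ε : ℝ} (hε : 0 < ε) :
    Fam (W3 D kP kR kT)
      (fun a => tens (tens (CP D (kP a) d) (CP D (kR a) d)) (CP D (kT a) e)) ε :=
  three (comp_Wk D kP) (comp_Wk D kR) (comp_Wk D kT) (comp_W3 D kP kR kT)
    (famK h hK hl0 kP d hd) (famK h hK hl0 kR d hd) (famK h hK hl0 kT e he)
    (by norm_num) (by norm_num) (by norm_num) (by norm_num) (by norm_num) (by norm_num)
    (W3_P D kP kR kT) (W3_R D kP kR kT) (W3_T D kP kR kT) hε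

/-- expansion of the right steps of one factor -/
theorem mix_a (h : D.OK M0 lam0 Kr) (hl0 : lam0 ≤ 1 / 8) (k : ℕ) :
    MixU (fun (z : Option D.K) (u : D.P k) => u * (D.tp k).a z) (1 / 8) := by
  obtain ⟨lam, hlam0, hlam1, -, hexp⟩ := h.exp
  intro f hf
  refine ((hexp k).1 f hf).trans ?_
  refine mul_le_mul_of_nonneg_left ?_ (sq_nonneg _)
  have h1 : lam ^ 2 ≤ (1 / 8) ^ 2 := pow_le_pow_left₀ hlam0 (hlam1.trans hl0) 2
  have h2 : 0 ≤ ∑ u, f u ^ 2 := sum_nonneg fun u _ => sq_nonneg _
  have h3 := mul_le_mul_of_nonneg_right h1 h2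
  linarith

/-- constant words on the third factor -/
noncomputable def famRep (h : D.OK M0 lam0 Kr) (hl0 : lam0 ≤ 1 / 8) (S : Type) (k : Inst → ℕ) :
    Fam (K := D.K) (Wk D k) (fun a => repC (D.P (k a)) S D.K) (1 / 2) :=
  Fam.rep (ι := Option D.K) S (fun a z u => u * (D.tp (k a)).a z) (lam := 1 / 8)
    (fun a => mix_a h hl0 (k a)) (by norm_num) (fun a z => mul_left_injective _) GenW.id
    (fun z => GenW.step (mv := fun a (s : Rt D) (u : D.P (k a)) => u * rv D (k a) s)
      (false, false, z))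

/-- **`(C_P(d) ⊗ C_Tr(d)) ⊗ Rep_T`** -/
noncomputable def regR (h : D.OK M0 lam0 Kr) (hK : 0 ≤ Kr) (hl0 : lam0 ≤ 1 / 8) (d : ℕ)
    (hd : d ≤ M0) (S : Type) [Fintype S] {ε : ℝ} (hε : 0 < ε) :
    Fam (W3 D kP kR kT)
      (fun a => tens (tens (CP D (kP a) d) (CP D (kR a) d)) (repC (D.P (kT a)) S D.K)) ε :=
  three (comp_Wk D kP) (comp_Wk D kR) (comp_Wk D kT) (comp_W3 D kP kR kT)
    (famK h hK hl0 kP d hd) (famK h hK hl0 kR d hd) (famRep h hl0 S kT)
    (by norm_num) (by norm_num) (by norm_num) (by norm_num) (by norm_num) (by norm_num)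
    (W3_P D kP kR kT) (W3_R D kP kR kT) (W3_T D kP kR kT) hε

end inst

end Crest.Agent.R289.RegObj481
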