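import Crest.Agent.R289.DefD_721
import Crest.Agent.R289.Tensor_560

/-!
Row 289, seam B/C (BC5 of #5935), helper443: register tuples and units.

`UC nb B` = a code at unit level: words `U → B`, one local check per unit which reads the symbols of
the `k` neighbours `nb i u` (common wiring of the machine), with soundness, completeness and
distance in the `DefD.frac` normalisation.

* `UC.tuple`-theorems (`tst`, `sound`, `compl`, `sep`): finitely many component codes (registers of
  different codes, clock, stage letter ..) together, on arrays `U → Option L` (`none` = unreadable).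
* `ofPos`: from positions to units (`e : U × Loc ≃ Pos`): a linear code with local tests on the
  positions (`Tensor560.BLTC`, `MinDist`) gives a `UC` for every bundle.
* `UC.prodAlph`, `UC.comap`: change of the alphabet.
-/

set_option autoImplicit false
set_option linter.unusedSectionVars false

namespace Crest.Agent.R289.RegU443

open Finset Crest.Agent.R289.DefD

section frac
variable {U : Type} [Fintype U]

theorem frac_nonneg (p : U → Prop) : 0 ≤ frac p := by
  unfold frac
  positivity

theorem frac_mono {p q : U → Prop} (h : ∀ u, p u → q u) : frac p ≤ frac q := by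
  classical
  unfold frac
  apply div_le_div_of_nonneg_right _ (by positivity)
  exact_mod_cast card_le_card (fun u hu => by
    simp only [mem_filter, mem_univ, true_and] at hu ⊢
    exact h u hu)

theorem frac_congr {p q : U → Prop} (h : ∀ u, p u ↔ q u) : frac p = frac q :=
  le_antisymm (frac_mono fun u => (h u).1) (frac_mono fun u => (h u).2)

theorem frac_or_le (p q : U → Prop) : frac (fun u => p u ∨ q u) ≤ frac p + frac q := by
  classical
  unfold frac
  rw [← add_div]
  apply div_le_div_of_nonneg_right _ (by positivity)
  have h1 : ((univ.filter fun u => p u ∨ q u).card : ℝ) ≤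
      ((univ.filter p).card + (univ.filter q).card : ℕ) := by
    refine Nat.cast_le.mpr (le_trans (card_le_card ?_) (card_union_le _ _))
    intro u hu
    simpa using hu
  refine le_trans (le_of_eq ?_) (h1.trans (le_of_eq ?_))
  · congr!
  · push_cast; congr!

theorem frac_false : frac (fun _ : U => False) = 0 := by
  unfold frac
  simp

/-- union bound over a finite family -/
theorem frac_exists_le {ι : Type} [Fintype ι] (p : ι → U → Prop) :
    frac (fun u => ∃ i, p i u) ≤ ∑ i, frac (p i) := by
  classical
  have key : ∀ s : Finset ι, frac (fun u => ∃ i ∈ s, p i u) ≤ ∑ i ∈ s, frac (p i) := by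
    intro s
    induction s using Finset.induction_on with
    | empty =>
      rw [Finset.sum_empty]
      refine le_of_eq ?_
      rw [← frac_false (U := U)]
      exact frac_congr fun u => by simp
    | insert a s ha ih =>
      rw [Finset.sum_insert ha]
      refine le_trans (frac_mono (q := fun u => p a u ∨ ∃ i ∈ s, p i u) ?_)
        (le_trans (frac_or_le _ _) (by linarith))
      intro u hu
      obtain ⟨i, hi, hp⟩ := hu
      rcases Finset.mem_insert.1 hi with rfl | hi
      · exact Or.inl hp
      · exact Or.inr ⟨i, hi, hp⟩
  refine le_trans (frac_mono (q := fun u => ∃ i ∈ (univ : Finset ι), p i u) ?_) (key univ)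
  rintro u ⟨i, hi⟩
  exact ⟨i, Finset.mem_univ _, hi⟩

/-- an injective map does not increase fractions -/
theorem frac_comp_le {σ : U → U} (hσ : Function.Injective σ) (p : U → Prop) :
    frac (fun u => p (σ u)) ≤ frac p := by
  classical
  unfold frac
  apply div_le_div_of_nonneg_right _ (by positivity)
  have : (univ.filter fun u => p (σ u)).card ≤ (univ.filter p).card := by
    refine card_le_card_of_injOn σ ?_ hσ.injOn
    intro u hu
    simpa using hu
  exact_mod_cast this

end frac

/-! ### unit-level codes -/

/-- a code at unit level on the wiring `nb` -/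
structure UC {U : Type} [Fintype U] {k : ℕ} (nb : Fin k → U → U) (B : Type) where
  /-- words -/
  C : Set (U → B)
  /-- the check of the unit `u` on the symbols of its neighbours -/
  ok : U → (Fin k → B) → Prop
  pass : ∀ g ∈ C, ∀ u, ok u fun i => g (nb i u)
  kap : ℝ
  kap_nn : 0 ≤ kap
  sound : ∀ f : U → B, ∃ g ∈ C,
    frac (fun u => f u ≠ g u) ≤ kap * frac (fun u => ¬ ok u fun i => f (nb i u))
  d : ℝ
  sep : ∀ f ∈ C, ∀ g ∈ C, f ≠ g → d ≤ frac fun u => f u ≠ g u

section tuple
variable {U : Type} [Fintype U] {k : ℕ} {nb : Fin k → U → U} {ι : Type} [Fintype ι]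
  {B : ι → Type} (R : ∀ i, UC nb (B i))

/-- exact arrays -/
def Cw : Set (U → ∀ i, B i) := {w | ∀ i, (fun u => w u i) ∈ (R i).C}

/-- all checks of one unit pass -/
def okAll (u : U) (x : Fin k → ∀ i, B i) : Prop := ∀ i, (R i).ok u fun j => x j i

open Classical in
/-- local test of arrays: violated iff some neighbour is unreadable or some check fails -/
noncomputable def tst (X : U → Option (∀ i, B i)) (u : U) : Bool :=
  decide (¬ ∃ x : Fin k → ∀ i, B i, (∀ j, X (nb j u) = some (x j)) ∧ okAll R u x)

theorem tst_eq_true {X : U → Option (∀ i, B i)} {u : U} :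
    tst R X u = true ↔
      ¬ ∃ x : Fin k → ∀ i, B i, (∀ j, X (nb j u) = some (x j)) ∧ okAll R u x := by
  classical
  unfold tst
  rw [decide_eq_true_iff]

/-- **soundness**: few violated units ⇒ the array is near an exact one -/
theorem sound [∀ i, Nonempty (B i)] (hself : ∀ u, ∃ j, nb j u = u)
    (X : U → Option (∀ i, B i)) :
    ∃ w ∈ Cw R, dist X w ≤ (1 + ∑ i, (R i).kap) * frac (fun u => tst R X u = true) := by
  classical
  let F : ∀ i, U → B i := fun i u => ((X u).map fun g => g i).getD (Classical.arbitrary (B i))
  choose G hG hGd using fun i => (R i).sound (F i)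
  refine ⟨fun u i => G i u, fun i => hG i, ?_⟩
  set v := frac (fun u => tst R X u = true) with hv
  have hv0 : 0 ≤ v := frac_nonneg _
  have h1 : ∀ i, frac (fun u => F i u ≠ G i u) ≤ (R i).kap * v := by
    intro i
    refine (hGd i).trans (mul_le_mul_of_nonneg_left (frac_mono ?_) (R i).kap_nn)
    intro u hu
    rw [tst_eq_true]
    rintro ⟨x, hx, hok⟩
    apply hu
    have : (fun j => F i (nb j u)) = fun j => x j i := by
      funext j
      simp only [F, hx j, Option.map_some, Option.getD_some]
    rw [this]
    exact hok i
  have h2 : dist X (fun u i => G i u) ≤ v + ∑ i, frac (fun u => F i u ≠ G i u) := by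
    refine le_trans (frac_mono (q := fun u => tst R X u = true ∨ ∃ i, F i u ≠ G i u) ?_)
      (le_trans (frac_or_le _ _) (add_le_add le_rfl (frac_exists_le _)))
    intro u hu
    by_contra hc
    push Not at hc
    obtain ⟨hc1, hc2⟩ := hc
    rw [Ne, tst_eq_true, not_not] at hc1
    obtain ⟨x, hx, -⟩ := hc1
    obtain ⟨j, hj⟩ := hself u
    have h3 := hx j
    rw [hj] at h3
    apply hu
    rw [h3]
    congr 1
    funext i
    show x j i = G i u
    rw [← hc2 i]
    simp only [F, h3, Option.map_some, Option.getD_some]
  calc dist X (fun u i => G i u) ≤ v + ∑ i, frac (fun u => F i u ≠ G i u) := h2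
    _ ≤ v + ∑ i, (R i).kap * v := add_le_add le_rfl (Finset.sum_le_sum fun i _ => h1 i)
    _ = (1 + ∑ i, (R i).kap) * v := by rw [← Finset.sum_mul]; ring

/-- **completeness**: near an exact array few units are violated -/
theorem compl (hinj : ∀ j, Function.Injective (nb j)) {w : U → ∀ i, B i} (hw : w ∈ Cw R)
    (X : U → Option (∀ i, B i)) :
    frac (fun u => tst R X u = true) ≤ k * dist X w := by
  classical
  calc frac (fun u => tst R X u = true)
      ≤ frac (fun u => ∃ j : Fin k, X (nb j u) ≠ some (w (nb j u))) := by
        refine frac_mono fun u hu => ?_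
        by_contra hc
        push Not at hc
        rw [tst_eq_true] at hu
        exact hu ⟨fun j => w (nb j u), hc, fun i => (R i).pass _ (hw i) u⟩
    _ ≤ ∑ j : Fin k, frac (fun u => X (nb j u) ≠ some (w (nb j u))) := frac_exists_le _
    _ ≤ ∑ _j : Fin k, dist X w :=
        Finset.sum_le_sum fun j _ => frac_comp_le (hinj j) fun u => X u ≠ some (w u)
    _ = k * dist X w := by
        rw [Finset.sum_const, nsmul_eq_mul, Finset.card_univ, Fintype.card_fin]

/-- the test of an exact array: nowhere violated -/
theorem tst_exact {w : U → ∀ i, B i} (hw : w ∈ Cw R) (u : U) :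
    tst R (fun u => some (w u)) u = false := by
  by_contra hc
  rw [Bool.not_eq_false, tst_eq_true] at hc
  exact hc ⟨fun j => w (nb j u), fun _ => rfl, fun i => (R i).pass _ (hw i) u⟩

/-- **distance** of exact arrays -/
theorem sep {d0 : ℝ} (hd : ∀ i, d0 ≤ (R i).d) {v w : U → ∀ i, B i} (hv : v ∈ Cw R)
    (hw : w ∈ Cw R) (hne : v ≠ w) : d0 ≤ distW v w := by
  have : ∃ i, (fun u => v u i) ≠ fun u => w u i := by
    by_contra hc
    push Not at hc
    apply hne
    funext u i
    exact congrFun (hc i) u
  obtain ⟨i, hi⟩ := this
  refine (hd i).trans (((R i).sep _ (hv i) _ (hw i) hi).trans (frac_mono fun u hu he => hu ?_))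
  rw [he]

end tuple

/-! ### from positions to units -/

section pos
open Tensor560

variable {U : Type} [Fintype U] [Nonempty U] {k : ℕ} (nb : Fin k → U → U)
  {Loc Pos : Type} [Fintype Loc] [Nonempty Loc] [Fintype Pos] (e : U × Loc ≃ Pos)
  {K : Type} [Field K] {J : Type} [Fintype J]

/-- the word on the positions held by the units -/
def unf {β : Type} (f : U → Loc → β) : Pos → β := fun p => f (e.symm p).1 (e.symm p).2

/-- the word on the units -/
def fol {β : Type} (f : Pos → β) : U → Loc → β := fun u l => f (e (u, l))

theorem unf_fol {β : Type} (f : Pos → β) : unf e (fol e f) = f := by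
  funext p
  simp [unf, fol]

theorem fol_unf {β : Type} (f : U → Loc → β) : fol e (unf e f) = f := by
  funext u l
  simp [unf, fol]

theorem units_le_dcount {β : Type} (f g : U → Loc → β) :
    frac (fun u => f u ≠ g u) * Fintype.card U ≤ dcount (unf e f) (unf e g) := by
  classical
  have hU : (0 : ℝ) < Fintype.card U := by exact_mod_cast Fintype.card_pos
  unfold frac
  rw [div_mul_cancel₀ _ hU.ne']
  unfold dcount
  have : (univ.filter fun u => f u ≠ g u).card ≤
      (univ.filter fun p => unf e f p ≠ unf e g p).card := by
    have hch : ∀ u, f u ≠ g u → ∃ l, f u l ≠ g u l := by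
      intro u hu
      by_contra hc
      push Not at hc
      exact hu (funext hc)
    refine card_le_card_of_injOn
      (fun u => if h : f u ≠ g u then e (u, (hch u h).choose) else e (u, Classical.arbitrary Loc))
      ?_ ?_
    · intro u hu
      have hu' : f u ≠ g u := by simpa using hu
      have h := (hch u hu').choose_spec
      simp only [coe_filter, mem_univ, true_and, Set.mem_ofPred_eq, dif_pos hu']
      simpa [unf] using h
    · intro u hu v hv huv
      have hu' : f u ≠ g u := by simpa using hu
      have hv' : f v ≠ g v := by simpa using hv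
      simp only [dif_pos hu', dif_pos hv', EmbeddingLike.apply_eq_iff_eq, Prod.mk.injEq] at huv
      exact huv.1
  refine le_trans (le_of_eq ?_) (Nat.cast_le.2 (this.trans (le_of_eq ?_)))
  · congr!
  · congr!

theorem dcount_le_units {β : Type} (f g : U → Loc → β) :
    (dcount (unf e f) (unf e g) : ℝ) ≤
      frac (fun u => f u ≠ g u) * (Fintype.card U * Fintype.card Loc) := by
  classical
  have hU : (0 : ℝ) < Fintype.card U := by exact_mod_cast Fintype.card_pos
  unfold frac
  rw [← mul_assoc, div_mul_cancel₀ _ hU.ne']
  have : dcount (unf e f) (unf e g) ≤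
      ((univ.filter fun u => f u ≠ g u) ×ˢ (univ : Finset Loc)).card := by
    unfold dcount
    refine card_le_card_of_injOn e.symm ?_ e.symm.injective.injOn
    intro p hp
    have hp' : unf e f p ≠ unf e g p := by simpa using hp
    simp only [coe_product, coe_filter, mem_univ, true_and, coe_univ, Set.mem_prod,
      Set.mem_ofPred_eq, Set.mem_univ, and_true]
    intro he
    apply hp'
    unfold unf
    rw [he]
  rw [Finset.card_product, Finset.card_univ] at this
  refine le_trans (Nat.cast_le.2 this) (le_of_eq ?_)
  push_cast
  congr!

variable {nb}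

/-- a linear code on the positions with local tests, as a unit-level code for bundles -/
noncomputable def ofPos {κ : Type} [Fintype κ] {C : Submodule K (Pos → K)}
    {T : J → Submodule K (Pos → K)} {c d : ℝ} (hc : 0 ≤ c)
    (hB : BLTC κ C T c) (hD : MinDist C d) (hle : ∀ j, C ≤ T j)
    (S : J → Finset Pos) (hloc : ∀ j (f : Pos → K), (∀ p ∈ S j, f p = 0) → f ∈ T j)
    (att : J → U) (m : ℕ)
    (hm : ∀ u, Nat.card {j : J // att j = u} ≤ m)
    (hS : ∀ j, ∀ p ∈ S j, ∃ i, nb i (att j) = (e.symm p).1) :
    UC nb (Loc → κ → K) where
  C := {f | InBundle C (unf e f)}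
  ok := fun u x => ∀ j, att j = u → ∀ f : U → Loc → κ → K, (∀ i, f (nb i u) = x i) →
    ∀ r, (fun p => unf e f p r) ∈ T j
  pass := by
    intro g hg u j hj f hf r
    have h1 : (fun p => unf e f p r) - (fun p => unf e g p r) ∈ T j := by
      apply hloc j
      intro p hp
      obtain ⟨i, hi⟩ := hS j p hp
      rw [hj] at hi
      simp only [Pi.sub_apply, unf]
      rw [← hi, hf i, sub_self]
    have h2 : (fun p => unf e g p r) ∈ T j := hle j (hg r)
    have h3 := (T j).add_mem h1 h2
    simpa using h3
  kap := c * m
  kap_nn := by positivity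
  sound := by
    classical
    intro f
    obtain ⟨G, hG, hGd⟩ := hB (unf e f)
    refine ⟨fol e G, ?_, ?_⟩
    · show InBundle C (unf e (fol e G))
      rw [unf_fol]
      exact hG
    have hU : (0 : ℝ) < Fintype.card U := by exact_mod_cast Fintype.card_pos
    have h1 := units_le_dcount e f (fol e G)
    rw [unf_fol] at h1
    set p : U → Prop := fun u => ¬ ∀ j, att j = u → ∀ f' : U → Loc → κ → K,
      (∀ i, f' (nb i u) = f (nb i u)) → ∀ r, (fun p => unf e f' p r) ∈ T j with hp
    have h2 : (bcount T (unf e f) : ℝ) ≤ m * (frac p * Fintype.card U) := by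
      have hpU : frac p * Fintype.card U = ((univ.filter p).card : ℝ) := by
        unfold frac
        rw [div_mul_cancel₀ _ hU.ne']
        congr!
      rw [hpU]
      have h3 : bcount T (unf e f) ≤ m * (univ.filter p).card := by
        unfold bcount
        refine card_le_mul_card_image_of_maps_to (f := att) ?_ m ?_
        · intro j hj
          have hj' : ∃ r, (fun q => unf e f q r) ∉ T j := by simpa using hj
          obtain ⟨r, hr⟩ := hj'
          simp only [mem_filter, mem_univ, true_and, hp]
          intro hcon
          exact hr (hcon j rfl f (fun _ => rfl) r)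
        · intro u _
          refine le_trans ?_ (hm u)
          rw [Nat.card_eq_fintype_card, Fintype.card_subtype]
          refine card_le_card ?_
          intro j hj
          simp only [mem_filter, mem_univ, true_and] at hj ⊢
          exact hj.2
      exact_mod_cast h3
    have h4 : frac (fun u => f u ≠ fol e G u) * Fintype.card U ≤
        (c * m * frac p) * Fintype.card U := by
      calc _ ≤ (dcount (unf e f) G : ℝ) := h1
        _ ≤ c * bcount T (unf e f) := hGd
        _ ≤ c * (m * (frac p * Fintype.card U)) := mul_le_mul_of_nonneg_left h2 hc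
        _ = _ := by ring
    exact le_of_mul_le_mul_right h4 hU
  d := d
  sep := by
    classical
    intro f hf g hg hne
    have hU : (0 : ℝ) < Fintype.card U := by exact_mod_cast Fintype.card_pos
    have hL : (0 : ℝ) < Fintype.card Loc := by exact_mod_cast Fintype.card_pos
    have hne' : unf e f ≠ unf e g := by
      intro h
      apply hne
      rw [← fol_unf e f, h, fol_unf]
    obtain ⟨p, hp⟩ : ∃ p, unf e f p ≠ unf e g p := by
      by_contra hc'
      push Not at hc'
      exact hne' (funext hc')
    obtain ⟨r, hr⟩ : ∃ r, unf e f p r ≠ unf e g p r := by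
      by_contra hc'
      push Not at hc'
      exact hp (funext hc')
    have h1 := hD ((fun q => unf e f q r) - fun q => unf e g q r) (C.sub_mem (hf r) (hg r))
      (fun h => hr (sub_eq_zero.1 (congrFun h p)))
    rw [wt_sub] at h1
    have h2 : dcount (fun q => unf e f q r) (fun q => unf e g q r) ≤
        dcount (unf e f) (unf e g) := by
      unfold dcount
      refine card_le_card fun q hq => ?_
      simp only [mem_filter, mem_univ, true_and] at hq ⊢
      intro he
      exact hq (congrFun he r)
    have h3 := dcount_le_units e f g
    have hcard : (Fintype.card Pos : ℝ) = Fintype.card U * Fintype.card Loc := by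
      rw [← Fintype.card_congr e, Fintype.card_prod]
      push_cast
      rfl
    rw [hcard] at h1
    have h4 : d * (Fintype.card U * Fintype.card Loc : ℝ) ≤
        frac (fun u => f u ≠ g u) * (Fintype.card U * Fintype.card Loc) :=
      h1.trans ((Nat.cast_le.2 h2).trans h3)
    exact le_of_mul_le_mul_right h4 (by positivity)

end pos

end Crest.Agent.R289.RegU443
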