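import Crest.Agent.R289.LabCAx_335
import Crest.Agent.R289.LUten_745

/-!
Row 289, joint I4 (helper335): the register tuple of the label from the linear unit codes of the
three factors `P`, `T_r`, `T`.

* `pairL` : tensor product with all multiplicities `1`;
* `Tri`   : the three kinds of linear registers on `(P × T_r) × T` and the walk of the letter, with
  common constants `zs r0 d0 c` that do not depend on the levels;
* `regs_exists` : factors ⇒ `Tri`;  `Tri.lab` : `Tri` and a clock ⇒ `CAx` of the label, `θ = 1/4`.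
-/

set_option autoImplicit false
set_option linter.unusedSectionVars false

namespace Crest.Agent.R289.RegsFac335

open Finset Crest.Agent.R289.DefD Crest.Agent.R289.Word508
open Crest.Agent.R289.LUb443 (rules bun MixU repC repN repNb Slots nbIt crIt)
open Crest.Agent.R289.LU846 (LU tens nbT NT nbC crT)
open Crest.Agent.R289.LU745 (LU_tensor zsT cT)
open Crest.Agent.R289.DefI Crest.Agent.R289.Compile827 Crest.Agent.R289.RegCAx335
open Crest.Agent.R289.LabCAx335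

/-! ### constants -/

theorem zsT_pos {k m zs1 d2 zs2 c2 : ℝ} (hk : 0 ≤ k) (hm : 0 ≤ m) (h1 : 0 < zs1) (hd : 0 < d2)
    (h2 : 0 < zs2) (hc : 0 ≤ c2) : 0 < zsT k m zs1 d2 zs2 c2 := by
  unfold zsT
  positivity

theorem cT_nonneg {k m c1 d2 zs2 c2 : ℝ} (hk : 0 ≤ k) (hm : 0 ≤ m) (h1 : 0 ≤ c1) (hd : 0 < d2)
    (h2 : 0 < zs2) (hc : 0 ≤ c2) : 0 ≤ cT k m c1 d2 zs2 c2 := by
  unfold cT
  positivity

variable {K : Type} [Field K]

/-- tensor product with multiplicities `1` -/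
theorem pairL {U1 U2 L1 L2 ι1 ι2 ι1' ι2' : Type} [Fintype U1] [Fintype U2] [Nonempty U1]
    [Nonempty U2] [Fintype ι1] [Fintype L1] [Fintype L2]
    {C1 : Submodule K (U1 → L1 → K)} {C2 : Submodule K (U2 → L2 → K)}
    {nb1 : ι1 → U1 → U1} {nb2 : ι2 → U2 → U2} {N1 : Submodule K (ι1 → L1 → K)}
    {N2 : Submodule K (ι2 → L2 → K)} {nb1' : ι1' → U1 → U1} {nb2' : ι2' → U2 → U2}
    {cr1 : (ι1' → L1 → K) → L1 → K} {cr2 : (ι2' → L2 → K) → L2 → K}
    {zs1 r1 d1 c1 θ1 zs2 r2 d2 c2 θ2 : ℝ}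
    (h1 : LU C1 nb1 N1 nb1' cr1 1 1 zs1 r1 d1 c1 θ1)
    (h2 : LU C2 nb2 N2 nb2' cr2 1 1 zs2 r2 d2 c2 θ2)
    (hz2 : 0 < zs2) (hd2 : 0 < d2) (hc1 : 0 ≤ c1) (hc2 : 0 ≤ c2)
    (hr1 : 0 < r1) (hr2 : 0 < r2) (hθ1 : 0 ≤ θ1) (hθ2 : 0 ≤ θ2) {r θ : ℝ}
    (hr : r ≤ r1 * r2 / 2) (hθ : θ1 / r2 + θ1 * θ2 + 2 * θ2 / r1 ≤ θ) :
    LU (tens C1 C2) (nbT nb1 nb2) (NT N1 N2) (nbC nb1' nb2') (crT cr1 cr2)
      1 1 (zsT (Fintype.card ι1) 1 zs1 d2 zs2 c2) r (d2 * d1)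
      (cT (Fintype.card ι1) 1 c1 d2 zs2 c2) θ :=
  LUc443.mono (LU_tensor h1 h2 zero_le_one zero_le_one hz2 hd2 hc1 hc2 hr1 hr2 hθ1 hθ2)
    (by simp) (by simp) le_rfl hr le_rfl le_rfl hθ

/-- ten rounds -/
theorem iter9 {U S ι ι' : Type} [Fintype U] {C : Submodule K (U → S → K)} {nb : ι → U → U}
    {N : Submodule K (ι → S → K)} {nb' : ι' → U → U} {cr : (ι' → S → K) → S → K}
    {zs r0 d0 c : ℝ} (h : LU C nb N nb' cr 1 1 zs r0 d0 c (1 / 4)) (hr0 : 0 ≤ r0) :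
    LU C nb N (nbIt nb' 9) (crIt cr 9) 1 1 zs r0 d0 c (1 / 1048576) := by
  have h1 := LUc443.iter h zero_le_one (by norm_num) (by norm_num) hr0 9
  have e1 : ((1 : ℝ) / 4) ^ (9 + 1) = 1 / 1048576 := by norm_num
  rw [one_pow, e1] at h1
  exact h1

/-! ### the factors -/

/-- linear unit codes of one factor at all levels: rules `N d`, `cr d` independent of the level,
degrees `1`, `2`, `4`, and a mixing walk -/
structure Fac {S ιn ιn' ιw : Type} [Fintype ιw] {U : ℕ → Type} [∀ k, Fintype (U k)]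
    (C : ∀ k : ℕ, ℕ → Submodule K (U k → S → K)) (nb : ∀ k, ιn → U k → U k)
    (N : ℕ → Submodule K (ιn → S → K)) (nb' : ∀ k, ιn' → U k → U k)
    (cr : ℕ → (ιn' → S → K) → S → K) (ga : ∀ k, ιw → U k → U k) (zs c : ℝ) : Prop where
  lu : ∀ d, d ≤ 4 → ∀ k, LU (C k d) (nb k) (N d) (nb' k) (cr d) 1 1 zs (1 / 20) (1 / 2) c (1 / 4)
  mix : ∀ k, MixU (ga k) (1 / 64)
  inj : ∀ k i, Function.Injective (ga k i)
  zs_pos : 0 < zs
  c_nn : 0 ≤ c

section regs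
variable {S ιn ιn' ιw : Type} [Fintype S] [Fintype ιn] [Fintype ιw] [Nonempty ιw] {U : ℕ → Type}
  [∀ k, Fintype (U k)] [∀ k, Nonempty (U k)]
  (C : ∀ k : ℕ, ℕ → Submodule K (U k → S → K)) (nb : ∀ k, ιn → U k → U k)
  (N : ℕ → Submodule K (ιn → S → K)) (nb' : ∀ k, ιn' → U k → U k)
  (cr : ℕ → (ιn' → S → K) → S → K) (ga : ∀ k, ιw → U k → U k)

/-- code on `P × T_r` -/
abbrev gC (k k' d : ℕ) : Submodule K (U k × U k' → S × S → K) := tens (C k d) (C k' d)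
/-- test neighbours on `P × T_r` -/
abbrev gNb (k k' : ℕ) : ιn ⊕ ιn → U k × U k' → U k × U k' := nbT (nb k) (nb k')
/-- local condition on `P × T_r` -/
abbrev gN (d : ℕ) : Submodule K (ιn ⊕ ιn → S × S → K) := NT (N d) (N d)
/-- correction neighbours on `P × T_r` -/
abbrev gNb' (k k' : ℕ) : Slots ιn' 9 × Slots ιn' 9 → U k × U k' → U k × U k' :=
  nbC (nbIt (nb' k) 9) (nbIt (nb' k') 9)
/-- correction on `P × T_r` -/
abbrev gCr (d : ℕ) : (Slots ιn' 9 × Slots ιn' 9 → S × S → K) → S × S → K :=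
  crT (crIt (cr d) 9) (crIt (cr d) 9)

/-- walk of the letter -/
abbrev gl (k k' kT : ℕ) : (ιw × ιw) × ιw → (U k × U k') × U kT → (U k × U k') × U kT :=
  fun i u => ((ga k i.1.1 u.1.1, ga k' i.1.2 u.1.2), ga kT i.2 u.2)

variable {C nb N nb' cr ga}

/-- the code on `P × T_r` -/
theorem Fac.gam {zs c : ℝ} (h : Fac C nb N nb' cr ga zs c) {d : ℕ} (hd : d ≤ 4) (k k' : ℕ) :
    LU (gC C k k' d) (gNb nb k k') (gN N d) (gNb' nb' k k') (gCr cr d) 1 1
      (zsT (Fintype.card ιn) 1 zs (1 / 2) zs c) (1 / 800) (1 / 4)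
      (cT (Fintype.card ιn) 1 c (1 / 2) zs c) (61 / 1048576) := by
  have h1 := pairL (iter9 (h.lu d hd k) (by norm_num)) (iter9 (h.lu d hd k') (by norm_num))
    h.zs_pos (by norm_num) h.c_nn h.c_nn (by norm_num) (by norm_num) (by norm_num) (by norm_num)
    (r := 1 / 800) (θ := 61 / 1048576) (by norm_num) (by norm_num)
  have e : (1 / 2 * (1 / 2) : ℝ) = 1 / 4 := by norm_num
  rw [e] at h1
  exact h1

/-- constants of the third tensor product -/
noncomputable def zG (ιn : Type) [Fintype ιn] (zs c : ℝ) : ℝ :=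
  zsT (Fintype.card ιn) 1 zs (1 / 2) zs c
noncomputable def cG (ιn : Type) [Fintype ιn] (zs c : ℝ) : ℝ :=
  cT (Fintype.card ιn) 1 c (1 / 2) zs c

theorem zG_pos {zs c : ℝ} (h : Fac C nb N nb' cr ga zs c) : 0 < zG ιn zs c :=
  zsT_pos (Nat.cast_nonneg _) zero_le_one h.zs_pos (by norm_num) h.zs_pos h.c_nn

theorem cG_nn {zs c : ℝ} (h : Fac C nb N nb' cr ga zs c) : 0 ≤ cG ιn zs c :=
  cT_nonneg (Nat.cast_nonneg _) zero_le_one h.c_nn (by norm_num) h.zs_pos h.c_nn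

/-- record / mirror registers: degree `d` on `P × T_r`, degree `d'` on `T` -/
theorem Fac.prodReg {zs c : ℝ} (h : Fac C nb N nb' cr ga zs c) {d d' : ℕ} (hd : d ≤ 4)
    (hd' : d' ≤ 4) (k k' kT : ℕ) :
    LU (tens (gC C k k' d) (C kT d')) (nbT (gNb nb k k') (nb kT)) (NT (gN N d) (N d'))
      (nbC (gNb' nb' k k') (nbIt (nb' kT) 9)) (crT (gCr cr d) (crIt (cr d') 9)) 1 1
      (zsT (Fintype.card (ιn ⊕ ιn)) 1 (zG ιn zs c) (1 / 2) zs c) (1 / 32000) (1 / 8)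
      (cT (Fintype.card (ιn ⊕ ιn)) 1 (cG ιn zs c) (1 / 2) zs c) (1 / 20) := by
  have h1 := pairL (h.gam hd k k') (iter9 (h.lu d' hd' kT) (by norm_num))
    h.zs_pos (by norm_num) (cG_nn h) h.c_nn (by norm_num) (by norm_num) (by norm_num) (by norm_num)
    (r := 1 / 32000) (θ := 1 / 20) (by norm_num) (by norm_num)
  have e : (1 / 2 * (1 / 4) : ℝ) = 1 / 8 := by norm_num
  rw [e] at h1
  exact h1

/-- the repetition code of `T` -/
theorem Fac.repT {zs c : ℝ} (h : Fac C nb N nb' cr ga zs c) (kT : ℕ) :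
    LU (repC (U kT) Unit K) (repNb (ga kT)) (repN ιw Unit K) (ga kT) LUb443.maj 1 1 1 (1 / 20)
      1 3
      (1 / 4) :=
  LUc443.rep K Unit (h.mix kT) (by norm_num) (h.inj kT) (by norm_num) 1

/-- content registers: degree `1` on `P × T_r`, constant on `T` -/
theorem Fac.constReg {zs c : ℝ} (h : Fac C nb N nb' cr ga zs c) (k k' kT : ℕ) :
    LU (tens (gC C k k' 1) (repC (U kT) Unit K)) (nbT (gNb nb k k') (repNb (ga kT)))
      (NT (gN N 1) (repN ιw Unit K)) (nbC (gNb' nb' k k') (nbIt (ga kT) 9))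
      (crT (gCr cr 1) (crIt LUb443.maj 9)) 1 1
      (zsT (Fintype.card (ιn ⊕ ιn)) 1 (zG ιn zs c) 1 1 3) (1 / 32000) (1 / 4)
      (cT (Fintype.card (ιn ⊕ ιn)) 1 (cG ιn zs c) 1 1 3) (1 / 20) := by
  have h1 := pairL (h.gam (d := 1) (by norm_num) k k') (iter9 (h.repT kT) (by norm_num))
    (by norm_num) (by norm_num) (cG_nn h) (by norm_num) (by norm_num) (by norm_num) (by norm_num)
    (by norm_num) (r := 1 / 32000) (θ := 1 / 20) (by norm_num) (by norm_num)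
  have e : (1 * (1 / 4) : ℝ) = 1 / 4 := by norm_num
  rw [e] at h1
  exact h1

/-- walk of the letter -/
theorem Fac.mixL {zs c : ℝ} (h : Fac C nb N nb' cr ga zs c) (k k' kT : ℕ) :
    MixU (gl ga k k' kT) (1 / 32) := by
  have h1 : MixU (fun (i : ιw × ιw) (u : U k × U k') => (ga k i.1 u.1, ga k' i.2 u.2))
      (1 / 45) := MixU.prod (h.mix k) (h.mix k') (by norm_num)
  have h2 := MixU.prod (lam := 1 / 32) h1 (h.mix kT) (by norm_num)
  exact h2

theorem gl_inj {zs c : ℝ} (h : Fac C nb N nb' cr ga zs c) (k k' kT : ℕ) (i : (ιw × ιw) × ιw) :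
    Function.Injective (gl ga k k' kT i) := by
  rintro ⟨⟨a, b⟩, t⟩ ⟨⟨a', b'⟩, t'⟩ hu
  simp only [gl, Prod.mk.injEq] at hu
  obtain ⟨⟨h1, h2⟩, h3⟩ := hu
  rw [h.inj _ _ h1, h.inj _ _ h2, h.inj _ _ h3]

/-! ### the common constants -/

/-- common threshold -/
noncomputable def ZS (ιn : Type) [Fintype ιn] (zs c zc : ℝ) : ℝ :=
  min zc (min (zsT (Fintype.card (ιn ⊕ ιn)) 1 (zG ιn zs c) (1 / 2) zs c)
    (zsT (Fintype.card (ιn ⊕ ιn)) 1 (zG ιn zs c) 1 1 3))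

/-- common constant -/
noncomputable def CS (ιn : Type) [Fintype ιn] (zs c cc : ℝ) : ℝ :=
  max (max 3 cc) (max (cT (Fintype.card (ιn ⊕ ιn)) 1 (cG ιn zs c) (1 / 2) zs c)
    (cT (Fintype.card (ιn ⊕ ιn)) 1 (cG ιn zs c) 1 1 3))

/-- common radius -/
noncomputable def RS (rc : ℝ) : ℝ := min rc (1 / 32000)

/-- common distance -/
noncomputable def DS (dc : ℝ) : ℝ := min dc (1 / 8)

theorem ZS_pos {zs c zc : ℝ} (h : Fac C nb N nb' cr ga zs c) (hz : 0 < zc) :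
    0 < ZS ιn zs c zc :=
  lt_min hz (lt_min
    (zsT_pos (Nat.cast_nonneg _) zero_le_one (zG_pos h) (by norm_num) h.zs_pos h.c_nn)
    (zsT_pos (Nat.cast_nonneg _) zero_le_one (zG_pos h) (by norm_num) (by norm_num)
      (by norm_num)))

theorem RS_pos {rc : ℝ} (h : 0 < rc) : 0 < RS rc := lt_min h (by norm_num)

theorem DS_pos {dc : ℝ} (h : 0 < dc) : 0 < DS dc := lt_min h (by norm_num)

theorem three_le_CS (ιn : Type) [Fintype ιn] (zs c cc : ℝ) : 3 ≤ CS ιn zs c cc :=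
  (le_max_left _ _).trans (le_max_left _ _)

/-! ### the label -/

section lab
variable {c : Cst K} {Ck ιc P : Type}

end lab

end regs

end Crest.Agent.R289.RegsFac335
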