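import Mathlib
import Crest.Agent.R289.RobG_459
import Crest.Agent.R289.Tan_846

/-!
Block B, item B2 (row 289): `Rob` in the literal form of LR_846 (helper846's post 5680), for the
local codes of the left-right object: bundles (registers `ι`) of projective Reed-Solomon codes of
degrees `d i`, `e i`, after bijections `φ`, `ψ : I ≃ P¹(K)` and non-zero scalars.  helper459.
-/

set_option autoImplicit false

open Polynomial

namespace Crest.Agent.R289.PS459

open Tan846

theorem cnt_eq_card {α : Type} [Fintype α] (p : α → Prop) [D : DecidablePred p] :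
    (Finset.univ.filter p).card = cnt p := by
  unfold cnt
  congr

/-- from the natural number form to the literal form of LR_846. -/
theorem Rob.literal {I A : Type} [Fintype I] {R L : Set (I → A)} {n C : ℕ} (h : Rob R L n C)
    (hn : Fintype.card I = n) :
    ∀ c r : I → I → A, (∀ z, c z ∈ L) → (∀ w, r w ∈ R) →
      ∃ Q : I → I → A, (∀ w, Q w ∈ R) ∧ (∀ z, (fun w => Q w z) ∈ L) ∧
        (Fintype.card I : ℝ) * ((cnt fun z => (fun w => Q w z) ≠ c z) + (cnt fun w => Q w ≠ r w)) ≤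
          (C : ℝ) * (cnt fun p : I × I => c p.2 p.1 ≠ r p.1 p.2) := by
  intro c r hc hr
  obtain ⟨u, h1, h2, h3⟩ := h r hr c hc
  refine ⟨u, h1, h2, ?_⟩
  rw [cnt_eq_card, cnt_eq_card, cnt_eq_card] at h3
  have e3 : (cnt fun p : I × I => c p.2 p.1 ≠ r p.1 p.2) =
      (cnt fun p : I × I => r p.1 p.2 ≠ c p.2 p.1) := cnt_congr fun x => ne_comm
  rw [e3, hn]
  have h4 : n * ((cnt fun z => (fun w => u w z) ≠ c z) + (cnt fun w => u w ≠ r w)) ≤
      C * (cnt fun p : I × I => r p.1 p.2 ≠ c p.2 p.1) := by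
    rw [mul_add, add_comm]; exact h3
  exact_mod_cast h4

/-- **B2 in the literal form of LR_846**, constant `92`, for the bundles of registers `i : ι` of
degrees `d i`, `e i ≤ s`, charts `ψ` (row coordinate) and `φ` (column coordinate), scalars `μ`, `ν`. -/
theorem robLR {K : Type} [Field K] [Fintype K] {ι I : Type} [Fintype ι] [Fintype I]
    (s : ℕ) (hn : 8 * s + 32 ≤ Fintype.card K)
    (φ ψ : I ≃ Option K) (d e : ι → ℕ) (hd : ∀ i, d i ≤ s) (he : ∀ i, e i ≤ s)
    (μ ν : ι → I → K) (hμ : ∀ i z, μ i z ≠ 0) (hν : ∀ i w, ν i w ≠ 0)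
    {R L : Set (I → ι → K)}
    (hR : ∀ u, u ∈ R ↔ ∀ i, ∃ p : K[X], p.natDegree ≤ d i ∧
      ∀ z, μ i z * u z i = ev (d i) p (ψ z))
    (hL : ∀ u, u ∈ L ↔ ∀ i, ∃ p : K[X], p.natDegree ≤ e i ∧
      ∀ w, ν i w * u w i = ev (e i) p (φ w)) :
    ∀ c r : I → I → ι → K, (∀ z, c z ∈ L) → (∀ w, r w ∈ R) →
      ∃ Q : I → I → ι → K, (∀ w, Q w ∈ R) ∧ (∀ z, (fun w => Q w z) ∈ L) ∧
        (Fintype.card I : ℝ) * ((cnt fun z => (fun w => Q w z) ≠ c z) + (cnt fun w => Q w ≠ r w)) ≤
          (92 : ℝ) * (cnt fun p : I × I => c p.2 p.1 ≠ r p.1 p.2) := by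
  have h := rob_RSC s hn φ ψ d e hd he μ ν hμ hν
  have hR' : R = {u : I → ι → K | ∀ i, (fun z => u z i) ∈ RSC (d i) ψ (μ i)} := by
    ext u; exact hR u
  have hL' : L = {u : I → ι → K | ∀ i, (fun w => u w i) ∈ RSC (e i) φ (ν i)} := by
    ext u; exact hL u
  rw [← hR', ← hL'] at h
  have h2 := h.literal (by rw [Fintype.card_congr φ, Fintype.card_option])
  exact_mod_cast h2

end Crest.Agent.R289.PS459
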