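import Crest.Agent.R289.RobMix_732
import Crest.Agent.R289.AsmObj_12

/-!
# Row 289, assembly: the field `rob` of `Obj.OK` from scalar robustness per degree (helper732)
-/

set_option autoImplicit false

namespace Crest.Agent.R289.RobMix732

open Crest.Agent.R289.TP846 Crest.Agent.R289.Tan846 Crest.Agent.R289.Asm12

/-- **field `rob` of `Obj.OK`** from the field `dist` and scalar robustness (`K`-valued words, one
degree at a time) -/
theorem rob_field (D : Obj) {M0 : ℕ} {K0 : ℝ} (hK0 : 0 ≤ K0)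
    (hdist : ∃ n : ℕ, 3 * Fintype.card (Option D.K) ≤ 4 * n ∧
      (∀ d ≤ M0, ∀ j z, Dist (D.X d j z : Set (Option D.K → D.K)) n) ∧
      ∀ d ≤ M0, ∀ i w, Dist (D.Y d i w : Set (Option D.K → D.K)) n)
    (h : ∀ d ≤ M0, ∀ k i j, (D.tp k).Rob (fun j z => (D.X d j z : Set (Option D.K → D.K)))
      (fun i w => (D.Y d i w : Set (Option D.K → D.K))) i j K0) :
    ∀ (κ : Type) [Fintype κ] (deg : κ → ℕ), (∀ ρ, deg ρ ≤ M0) → ∀ k i j,
      (D.tp k).Rob (D.bX deg) (D.bY deg) i j (16 * K0 + 4) := by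
  intro κ _ deg hdeg k i j
  obtain ⟨n, hn, hX, hY⟩ := hdist
  exact rob_mix (D.tp k) i j hK0 hn
    (fun ρ j z => (D.X (deg ρ) j z : Set (Option D.K → D.K)))
    (fun ρ i w => (D.Y (deg ρ) i w : Set (Option D.K → D.K)))
    (fun ρ z => hX (deg ρ) (hdeg ρ) j z) (fun ρ w => hY (deg ρ) (hdeg ρ) i w)
    (fun ρ => h (deg ρ) (hdeg ρ) k i j)

end Crest.Agent.R289.RobMix732
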