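import Crest.Agent.R289.TP_846

/-!
# Row 289, block B: robustness of bundles of edge codes of DIFFERENT kinds (helper732)

`rob_mix`: if every component `ρ` has edge codes `xc ρ`, `yc ρ` with scalar robustness `K0` and
relative distance `3/4`, then the bundle of all components (one letter = a tuple indexed by an
arbitrary type `κ`) is robust with the constant `16 * K0 + 4`, independent of `κ`.
No relation between the codes of different components is needed (different degrees are fine).
-/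

set_option autoImplicit false
set_option linter.unusedSectionVars false

namespace Crest.Agent.R289.RobMix732

open Finset
open Crest.Agent.R289.LTC846 Crest.Agent.R289.Tan846 Crest.Agent.R289.TP846

section counting

variable {Z M S W B : Type}

/-- lines `z` with property `bad` carry `≥ t` points with property `dis` each -/
theorem lines_le [Fintype Z] [Fintype M] [Fintype S] (pt : Z → M → S)
    (hpt : Function.Injective fun p : Z × M => pt p.1 p.2) {bad : Z → Prop} {dis : S → Prop}
    {t : ℝ} (h : ∀ z, bad z → t ≤ (cnt fun m => dis (pt z m) : ℕ)) :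
    (cnt bad : ℝ) * t ≤ (cnt dis : ℕ) := by
  classical
  have h1 : ∑ z ∈ univ.filter bad, (cnt fun m => dis (pt z m)) ≤ cnt dis := by
    calc ∑ z ∈ univ.filter bad, (cnt fun m => dis (pt z m))
        = ((univ.filter bad).sigma fun z => univ.filter fun m => dis (pt z m)).card := by
          rw [Finset.card_sigma]
          refine Finset.sum_congr rfl fun z _ => ?_
          unfold cnt
          congr
      _ ≤ (univ.filter dis).card := by
          refine Finset.card_le_card_of_injOn (fun p => pt p.1 p.2) ?_ ?_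
          · rintro ⟨z, m⟩ hp
            have hp' := Finset.mem_sigma.1 (Finset.mem_coe.1 hp)
            exact Finset.mem_coe.2 (Finset.mem_filter.2 ⟨Finset.mem_univ _,
              (Finset.mem_filter.1 hp'.2).2⟩)
          · rintro ⟨z, m⟩ _ ⟨z', m'⟩ _ e
            have := @hpt (z, m) (z', m') e
            simp only [Prod.mk.injEq] at this
            obtain ⟨rfl, rfl⟩ := this
            rfl
      _ = cnt dis := by unfold cnt; congr
  calc (cnt bad : ℝ) * t = ∑ _z ∈ univ.filter bad, t := by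
        rw [Finset.sum_const, nsmul_eq_mul]
        congr
    _ ≤ ∑ z ∈ univ.filter bad, ((cnt fun m => dis (pt z m) : ℕ) : ℝ) :=
        Finset.sum_le_sum fun z hz => h z (Finset.mem_filter.1 hz).2
    _ = ((∑ z ∈ univ.filter bad, (cnt fun m => dis (pt z m)) : ℕ) : ℝ) := by push_cast; rfl
    _ ≤ (cnt dis : ℕ) := by exact_mod_cast h1

/-- a line where two words differ `n0` times, all differences outside bad crossing lines being
disagreements -/
theorem line_le [Fintype M] [Fintype W] {u v : M → B} {n0 : ℕ} (hd : n0 ≤ cnt fun m => u m ≠ v m)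
    (w : M → W) (hw : Function.Injective w) {bad : W → Prop} {dis : M → Prop}
    (h : ∀ m, u m ≠ v m → ¬ bad (w m) → dis m) : n0 ≤ cnt bad + cnt dis := by
  classical
  refine hd.trans ?_
  have h1 : (univ.filter fun m => u m ≠ v m) ⊆
      (univ.filter fun m => bad (w m)) ∪ univ.filter dis := by
    intro m hm
    have hm' := (Finset.mem_filter.1 hm).2
    rw [Finset.mem_union, Finset.mem_filter, Finset.mem_filter]
    by_cases hb : bad (w m)
    · exact Or.inl ⟨Finset.mem_univ _, hb⟩
    · exact Or.inr ⟨Finset.mem_univ _, h m hm' hb⟩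
  have h2 : (univ.filter fun m => bad (w m)).card ≤ (univ.filter bad).card := by
    refine Finset.card_le_card_of_injOn w ?_ (fun a _ b _ e => hw e)
    intro m hm
    exact Finset.mem_coe.2 (Finset.mem_filter.2 ⟨Finset.mem_univ _,
      (Finset.mem_filter.1 (Finset.mem_coe.1 hm)).2⟩)
  have h3 := (Finset.card_le_card h1).trans (Finset.card_union_le _ _)
  have h4 : (univ.filter fun m => u m ≠ v m).card ≤ (univ.filter bad).card + (univ.filter dis).card :=
    h3.trans (Nat.add_le_add_right h2 _)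
  rw [card_eq_cnt, card_eq_cnt, card_eq_cnt] at h4
  exact h4

theorem cnt_le_card [Fintype M] (p : M → Prop) : cnt p ≤ Fintype.card M := by
  classical
  unfold cnt
  exact (Finset.card_le_univ _)

end counting

section mix

variable {P I B κ : Type} [Group P] [Fintype I] (D : TP P I) (i j : Bool)

theorem lab_inj {l m l' m' : I} (h1 : D.xl j l m = D.xl j l' m') (h2 : D.yl i l m = D.yl i l' m') :
    l = l' ∧ m = m' := by
  cases i <;> cases j
  · simpa [TP.xl, TP.yl] using And.intro h1 h2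
  · simp only [TP.xl, TP.yl, if_true] at h1 h2
    have h2' : m = m' := by simpa using h2
    subst h2'
    exact ⟨(D.L_bij m).1 h1, rfl⟩
  · simp only [TP.xl, TP.yl, if_true] at h1 h2
    have h1' : l = l' := by simpa using h1
    subst h1'
    exact ⟨rfl, (D.M_bij l).1 h2⟩
  · simp only [TP.xl, TP.yl, if_true] at h1 h2
    exact D.LM_inj _ _ _ _ h1 h2

theorem ptx_inj : Function.Injective fun p : I × I => ((D.li j p.2 p.1, p.2) : I × I) := by
  rintro ⟨z, m⟩ ⟨z', m'⟩ h
  simp only [Prod.mk.injEq] at h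
  obtain ⟨h1, rfl⟩ := h
  have : D.xl j (D.li j m z) m = D.xl j (D.li j m z') m := by rw [h1]
  rw [D.xl_li, D.xl_li] at this
  rw [this]

theorem pty_inj : Function.Injective fun p : I × I => ((p.2, D.mi i p.2 p.1) : I × I) := by
  rintro ⟨w, l⟩ ⟨w', l'⟩ h
  simp only [Prod.mk.injEq] at h
  obtain ⟨rfl, h1⟩ := h
  have : D.yl i l (D.mi i l w) = D.yl i l (D.mi i l w') := by rw [h1]
  rw [D.yl_mi, D.yl_mi] at this
  rw [this]

theorem wx_inj (z : I) : Function.Injective fun m : I => D.yl i (D.li j m z) m := by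
  intro m m' h
  exact (lab_inj D i j (by rw [D.xl_li, D.xl_li]) h).2

theorem wy_inj (w : I) : Function.Injective fun l : I => D.xl j l (D.mi i l w) := by
  intro l l' h
  exact (lab_inj D i j h (by rw [D.yl_mi, D.yl_mi])).1

/-- **robustness of mixed bundles** -/
theorem rob_mix {K0 : ℝ} (hK0 : 0 ≤ K0) {n0 : ℕ} (hn0 : 3 * Fintype.card I ≤ 4 * n0)
    (xc yc : κ → Bool → I → Set (I → B))
    (hx : ∀ ρ z, Dist (xc ρ j z) n0) (hy : ∀ ρ w, Dist (yc ρ i w) n0)
    (hR : ∀ ρ, D.Rob (xc ρ) (yc ρ) i j K0) :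
    D.Rob (fun j z => {c : I → κ → B | ∀ ρ, (fun m => c m ρ) ∈ xc ρ j z})
      (fun i w => {c : I → κ → B | ∀ ρ, (fun l => c l ρ) ∈ yc ρ i w}) i j (16 * K0 + 4) := by
  classical
  intro c r hc hr
  have hc' : ∀ z ρ, (fun m => c z m ρ) ∈ xc ρ j z := fun z ρ => hc z ρ
  have hr' : ∀ w ρ, (fun l => r w l ρ) ∈ yc ρ i w := fun w ρ => hr w ρ
  choose Q hQx hQy hQ using fun ρ => hR ρ (fun z m => c z m ρ) (fun w l => r w l ρ)
    (fun z => hc' z ρ) (fun w => hr' w ρ)
  refine ⟨fun l m ρ => Q ρ l m, fun z ρ => hQx ρ z, fun w ρ => hQy ρ w, ?_⟩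
  -- numbers
  set n : ℝ := (Fintype.card I : ℝ) with hn
  set Δ : ℕ := cnt fun p : I × I => c (D.xl j p.1 p.2) p.2 ≠ r (D.yl i p.1 p.2) p.1 with hΔ
  have hΔρ : ∀ ρ, (cnt fun p : I × I => c (D.xl j p.1 p.2) p.2 ρ ≠ r (D.yl i p.1 p.2) p.1 ρ) ≤ Δ := by
    intro ρ
    exact cnt_le fun p hp h => hp (by rw [h])
  have hn_nn : 0 ≤ n := Nat.cast_nonneg _
  have hΔ_nn : (0 : ℝ) ≤ Δ := Nat.cast_nonneg _
  have hcx := cnt_le_card fun z => (fun m ρ => Q ρ (D.li j m z) m) ≠ c z
  have hcy := cnt_le_card fun w => (fun l ρ => Q ρ l (D.mi i l w)) ≠ r w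
  have hcx' : ((cnt fun z => (fun m ρ => Q ρ (D.li j m z) m) ≠ c z : ℕ) : ℝ) ≤ n := by
    rw [hn]
    exact_mod_cast hcx
  have hcy' : ((cnt fun w => (fun l ρ => Q ρ l (D.mi i l w)) ≠ r w : ℕ) : ℝ) ≤ n := by
    rw [hn]
    exact_mod_cast hcy
  rcases lt_or_ge (n ^ 2) (8 * K0 * Δ) with hcase | hcase
  · -- many disagreements: trivial
    calc n * (((cnt fun z => (fun m ρ => Q ρ (D.li j m z) m) ≠ c z : ℕ) : ℝ) +
          ((cnt fun w => (fun l ρ => Q ρ l (D.mi i l w)) ≠ r w : ℕ) : ℝ)) ≤ n * (n + n) := by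
          gcongr
      _ ≤ (16 * K0 + 4) * Δ := by nlinarith
  · rcases eq_or_lt_of_le hn_nn with h0 | hpos
    · rw [← h0, zero_mul]
      positivity
    have hK : ∀ ρ, n * ((cnt fun z => (fun m => Q ρ (D.li j m z) m) ≠ fun m => c z m ρ : ℕ) +
        (cnt fun w => (fun l => Q ρ l (D.mi i l w)) ≠ fun l => r w l ρ : ℕ)) ≤ n * (n / 8) := by
      intro ρ
      refine (hQ ρ).trans ?_
      have : ((cnt fun p : I × I =>
          c (D.xl j p.1 p.2) p.2 ρ ≠ r (D.yl i p.1 p.2) p.1 ρ : ℕ) : ℝ) ≤ Δ := by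
        exact_mod_cast hΔρ ρ
      calc K0 * ((cnt fun p : I × I =>
            c (D.xl j p.1 p.2) p.2 ρ ≠ r (D.yl i p.1 p.2) p.1 ρ : ℕ) : ℝ) ≤ K0 * Δ := by gcongr
        _ ≤ n * (n / 8) := by nlinarith
    have hb : ∀ ρ, ((cnt fun z => (fun m => Q ρ (D.li j m z) m) ≠ fun m => c z m ρ : ℕ) : ℝ) ≤ n / 8 ∧
        ((cnt fun w => (fun l => Q ρ l (D.mi i l w)) ≠ fun l => r w l ρ : ℕ) : ℝ) ≤ n / 8 := by
      intro ρ
      have h1 := le_of_mul_le_mul_left (hK ρ) hpos
      have h2 : (0 : ℝ) ≤ (cnt fun z => (fun m => Q ρ (D.li j m z) m) ≠ fun m => c z m ρ : ℕ) :=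
        Nat.cast_nonneg _
      have h3 : (0 : ℝ) ≤ (cnt fun w => (fun l => Q ρ l (D.mi i l w)) ≠ fun l => r w l ρ : ℕ) :=
        Nat.cast_nonneg _
      constructor <;> linarith
    have hn0' : 3 * n ≤ 4 * n0 := by
      rw [hn]
      exact_mod_cast hn0
    -- x-edges
    have hX : ((cnt fun z => (fun m ρ => Q ρ (D.li j m z) m) ≠ c z : ℕ) : ℝ) * (5 / 8 * n) ≤ Δ := by
      refine lines_le (fun z m => (D.li j m z, m)) (ptx_inj D j) ?_
      intro z hz
      obtain ⟨ρ, hρ⟩ : ∃ ρ, (fun m => Q ρ (D.li j m z) m) ≠ fun m => c z m ρ := by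
        by_contra hcon
        push Not at hcon
        exact hz (by funext m ρ; exact congrFun (hcon ρ) m)
      have h1 : n0 ≤ cnt fun m => Q ρ (D.li j m z) m ≠ c z m ρ :=
        hx ρ z _ (hQx ρ z) _ (hc' z ρ) hρ
      have h2 := line_le h1 (fun m => D.yl i (D.li j m z) m) (wx_inj D i j z)
        (bad := fun w => (fun l => Q ρ l (D.mi i l w)) ≠ fun l => r w l ρ)
        (dis := fun m => c (D.xl j (D.li j m z) m) m ≠ r (D.yl i (D.li j m z) m) (D.li j m z))
        (by
          intro m hm hbad hdis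
          have h3 := congrFun (not_not.1 hbad) (D.li j m z)
          simp only [D.mi_yl] at h3
          apply hm
          rw [h3, ← hdis, D.xl_li])
      have h3 : (n0 : ℝ) ≤ (cnt fun w => (fun l => Q ρ l (D.mi i l w)) ≠ fun l => r w l ρ : ℕ) +
          (cnt fun m => c (D.xl j (D.li j m z) m) m ≠
            r (D.yl i (D.li j m z) m) (D.li j m z) : ℕ) := by
        exact_mod_cast h2
      have h4 := (hb ρ).2
      linarith
    -- y-edges
    have hY : ((cnt fun w => (fun l ρ => Q ρ l (D.mi i l w)) ≠ r w : ℕ) : ℝ) * (5 / 8 * n) ≤ Δ := by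
      refine lines_le (fun w l => (l, D.mi i l w)) (pty_inj D i) ?_
      intro w hw
      obtain ⟨ρ, hρ⟩ : ∃ ρ, (fun l => Q ρ l (D.mi i l w)) ≠ fun l => r w l ρ := by
        by_contra hcon
        push Not at hcon
        exact hw (by funext l ρ; exact congrFun (hcon ρ) l)
      have h1 : n0 ≤ cnt fun l => Q ρ l (D.mi i l w) ≠ r w l ρ :=
        hy ρ w _ (hQy ρ w) _ (hr' w ρ) hρ
      have h2 := line_le h1 (fun l => D.xl j l (D.mi i l w)) (wy_inj D i j w)
        (bad := fun z => (fun m => Q ρ (D.li j m z) m) ≠ fun m => c z m ρ)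
        (dis := fun l => c (D.xl j l (D.mi i l w)) (D.mi i l w) ≠ r (D.yl i l (D.mi i l w)) l)
        (by
          intro l hl hbad hdis
          have h3 := congrFun (not_not.1 hbad) (D.mi i l w)
          simp only [D.li_xl] at h3
          apply hl
          rw [h3, hdis, D.yl_mi])
      have h3 : (n0 : ℝ) ≤ (cnt fun z => (fun m => Q ρ (D.li j m z) m) ≠ fun m => c z m ρ : ℕ) +
          (cnt fun l => c (D.xl j l (D.mi i l w)) (D.mi i l w) ≠
            r (D.yl i l (D.mi i l w)) l : ℕ) := by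
        exact_mod_cast h2
      have h4 := (hb ρ).1
      linarith
    have hKΔ : 0 ≤ K0 * Δ := mul_nonneg hK0 hΔ_nn
    nlinarith

end mix

end Crest.Agent.R289.RobMix732
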