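import Mathlib
import Crest.Agent.Lib.PT.ListFns2
import Crest.Agent.Lib.PT.ArithMore
import Crest.Agent.R289.RouteP_873

/-!
# The routing on a `p`-ary tower is poly-time (row 289, block C)
-/

set_option autoImplicit false
set_option linter.dupNamespace false
set_option linter.unusedSectionVars false

namespace Crest.Agent.R289.RouteP873

open Crest.Agent.Lib.PT Crest.Agent.R289.Benes873 Crest.Agent.R289.Konig851

variable {γ : Type} [PTCode γ]

theorem ptu_fl {n : γ → ℕ} {L : γ → TLv} (hn : PTU n) (hL : PTF L) :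
    PTU (fun c => fl (n c) (L c)) := by
  unfold fl
  exact PTF.natMinUn (PTF.comp PTF.fst hL) hn

theorem ptu_cnt {f c d : γ → ℕ} (hf : PTU f) (hc : PTF c) (hd : PTF d) :
    PTU (fun a => cnt (f a) (c a) (d a)) := by
  unfold cnt
  exact PTF.natMinUn (PTF.natMod (PTF.natAdd hc (PTF.natSub hf.toPTF hd)) hf.toPTF) hf

/-- iteration of a table lookup -/
theorem ptf_iterLook {n k x : γ → ℕ} {t : γ → List ℕ} (hn : PTU n) (hk : PTU k) (ht : PTF t)
    (hx : PTF x) : PTF (fun c => (look (n c) (t c))^[k c] (x c)) := by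
  have hf : PTF₂ (fun (c : γ) (y : ℕ) => look (n c) (t c) y) :=
    ptf_look (PTU.comp hn PTF.fst) (PTF.comp ht PTF.fst) PTF.snd
  refine PTF.iterate' (f := fun c y => look (n c) (t c) y) (a := x) hk hf hx
    (B := fun c => sz (x c) + n c) (by
      have := hx.sz
      have := hn.pb
      fun_prop) (fun c i _ => ?_)
  cases i with
  | zero => simp
  | succ i =>
    rw [Function.iterate_succ_apply']
    have := sz_le_of_le (look_le (n c) (t c) ((fun y => look (n c) (t c) y)^[i] (x c)))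
    omega

theorem ptf_at {n c x : γ → ℕ} {L : γ → TLv} (hn : PTU n) (hL : PTF L) (hx : PTF x)
    (hc : PTF c) : PTF (fun a => at' (fl (n a) (L a)) (lv (n a) (L a)) (x a) (c a)) := by
  unfold at' lv
  have h1 : PTF (fun a => (L a).2.1) := PTF.comp PTF.fst (PTF.comp PTF.snd hL)
  have h2 : PTF (fun a => (L a).2.2) := PTF.comp PTF.snd (PTF.comp PTF.snd hL)
  exact ptf_iterLook hn (ptu_cnt (ptu_fl hn hL) hc (ptf_look hn h2 hx)) h1 hx

theorem ptf_row {n x : γ → ℕ} {L : γ → TLv} (hn : PTU n) (hL : PTF L) (hx : PTF x) :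
    PTF (fun a => row (fl (n a) (L a)) (lv (n a) (L a)) (x a)) :=
  ptf_at hn hL hx (PTF.const 0)

theorem ptf_colT {n : γ → ℕ} {L : γ → TLv} {tp : γ → List ℕ} (hn : PTU n) (hL : PTF L)
    (htp : PTF tp) : PTF (fun a => colT (n a) (L a) (tp a)) := by
  unfold colT
  refine PTF.comp ptf_ecol ?_
  unfold edges
  refine PTF.tabulate hn ?_
  have hn' : PTU (fun q : γ × ℕ => n q.1) := PTU.comp hn PTF.fst
  have hL' : PTF (fun q : γ × ℕ => L q.1) := PTF.comp hL PTF.fst
  have htp' : PTF (fun q : γ × ℕ => tp q.1) := PTF.comp htp PTF.fst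
  exact PTF.prodMk (ptf_row hn' hL' PTF.snd) (ptf_row hn' hL' (ptf_look hn' htp' PTF.snd))

theorem ptf_colF {n x : γ → ℕ} {L : γ → TLv} {tp : γ → List ℕ} (hn : PTU n) (hL : PTF L)
    (htp : PTF tp) (hx : PTF x) : PTF (fun a => colF (n a) (L a) (tp a) (x a)) := by
  unfold colF
  exact PTF.getD (PTF.natMinUn hx hn) (ptf_colT hn hL htp) (PTF.const 0)

/-- the same with the colour table as an argument (so that it is computed once) -/
theorem ptf_aP {n : γ → ℕ} {L : γ → TLv} {tp : γ → List ℕ} (hn : PTU n) (hL : PTF L)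
    (htp : PTF tp) : PTF (fun a => aP (n a) (L a) (tp a)) := by
  unfold aP tabN
  refine PTF.tabulate hn ?_
  have hn' : PTU (fun q : γ × ℕ => n q.1) := PTU.comp hn PTF.fst
  have hL' : PTF (fun q : γ × ℕ => L q.1) := PTF.comp hL PTF.fst
  have htp' : PTF (fun q : γ × ℕ => tp q.1) := PTF.comp htp PTF.fst
  exact ptf_at hn' hL' PTF.snd (ptf_colF hn' hL' htp' PTF.snd)

theorem ptf_bP {n : γ → ℕ} {L : γ → TLv} {tp ti : γ → List ℕ} (hn : PTU n) (hL : PTF L)
    (htp : PTF tp) (hti : PTF ti) : PTF (fun a => bP (n a) (L a) (tp a) (ti a)) := by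
  unfold bP tabN
  refine PTF.tabulate hn ?_
  have hn' : PTU (fun q : γ × ℕ => n q.1) := PTU.comp hn PTF.fst
  have hL' : PTF (fun q : γ × ℕ => L q.1) := PTF.comp hL PTF.fst
  have htp' : PTF (fun q : γ × ℕ => tp q.1) := PTF.comp htp PTF.fst
  have hti' : PTF (fun q : γ × ℕ => ti q.1) := PTF.comp hti PTF.fst
  exact ptf_at hn' hL' PTF.snd (ptf_colF hn' hL' htp' (ptf_look hn' hti' PTF.snd))

theorem ptf_invT {n : γ → ℕ} {t : γ → List ℕ} (hn : PTU n) (ht : PTF t) :
    PTF (fun a => invT (n a) (t a)) := by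
  unfold invT tabN
  refine PTF.tabulate hn ?_
  have hn' : PTU (fun q : γ × ℕ => n q.1) := PTU.comp hn PTF.fst
  have ht' : PTF (fun q : γ × ℕ => t q.1) := PTF.comp ht PTF.fst
  refine PTF.optionGetD (PTF.find? (PTF.range hn') ?_) (PTF.const 0)
  have hn'' : PTU (fun q : (γ × ℕ) × ℕ => n q.1.1) := PTU.comp hn (PTF.comp PTF.fst PTF.fst)
  have ht'' : PTF (fun q : (γ × ℕ) × ℕ => t q.1.1) := PTF.comp ht (PTF.comp PTF.fst PTF.fst)
  exact PTF.beq (ptf_look hn'' ht'' PTF.snd) (PTF.comp PTF.snd PTF.fst)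

theorem ptf_comp3 {n : γ → ℕ} {a b c : γ → List ℕ} (hn : PTU n) (ha : PTF a) (hb : PTF b)
    (hc : PTF c) : PTF (fun x => comp3 (n x) (a x) (b x) (c x)) := by
  unfold comp3 tabN
  refine PTF.tabulate hn ?_
  have hn' : PTU (fun q : γ × ℕ => n q.1) := PTU.comp hn PTF.fst
  exact ptf_look hn' (PTF.comp ha PTF.fst) (ptf_look hn' (PTF.comp hb PTF.fst)
    (ptf_look hn' (PTF.comp hc PTF.fst) PTF.snd))

/-- one level of the routing, as a step on (output, table, inverse table) -/
def stepP (n : ℕ) (st : List (List ℕ × List ℕ) × List ℕ × List ℕ) (L : TLv) :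
    List (List ℕ × List ℕ) × List ℕ × List ℕ :=
  (st.1 ++ [(aP n L st.2.1, invT n (bP n L st.2.1 st.2.2))],
    comp3 n (bP n L st.2.1 st.2.2) st.2.1 (invT n (aP n L st.2.1)),
    comp3 n (aP n L st.2.1) st.2.2 (invT n (bP n L st.2.1 st.2.2)))

theorem routeP_eq (n : ℕ) (ls : List TLv) : ∀ (out : List (List ℕ × List ℕ))
    (tp ti : List ℕ), (ls.foldl (stepP n) (out, tp, ti)).1 = out ++ routeP n ls tp ti := by
  induction ls with
  | nil => intro out tp ti; simp [routeP]
  | cons L ls ih =>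
    intro out tp ti
    rw [List.foldl_cons]
    show (ls.foldl (stepP n) (out ++ [(aP n L tp, invT n (bP n L tp ti))], _, _)).1 = _
    rw [ih]
    simp [routeP]

theorem at_le (n : ℕ) (L : TLv) (x c : ℕ) : at' (fl n L) (lv n L) x c ≤ n + x := by
  unfold at'
  generalize cnt (fl n L) c ((lv n L).dg x) = k
  cases k with
  | zero => exact Nat.le_add_left _ _
  | succ k =>
    rw [Function.iterate_succ_apply']
    exact (look_le n _ _).trans (Nat.le_add_right _ _)

theorem sz_aP (n : ℕ) (L : TLv) (tp : List ℕ) : sz (aP n L tp) ≤ n * (4 * n + 1) :=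
  sz_tabN n _ (fun x => at_le n L x _)

theorem sz_bP (n : ℕ) (L : TLv) (tp ti : List ℕ) : sz (bP n L tp ti) ≤ n * (4 * n + 1) :=
  sz_tabN n _ (fun x => at_le n L x _)

theorem sz_comp3 (n : ℕ) (a b c : List ℕ) : sz (comp3 n a b c) ≤ n * (4 * n + 1) :=
  sz_tabN n _ (fun _ => (look_le n _ _).trans (Nat.le_add_right _ _))

theorem sz_invT (n : ℕ) (t : List ℕ) : sz (invT n t) ≤ n * (4 * n + 1) := by
  refine sz_tabN n _ (fun y => ?_)
  cases hf : (List.range n).find? fun x => look n t x == y with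
  | none => simp
  | some z =>
    have := List.mem_of_find?_eq_some hf
    rw [List.mem_range] at this
    show z ≤ n + y
    omega

theorem ptf_routeP {n : γ → ℕ} {ls : γ → List TLv} {tp ti : γ → List ℕ} (hn : PTU n)
    (hls : PTF ls) (htp : PTF tp) (hti : PTF ti) :
    PTF (fun c => routeP (n c) (ls c) (tp c) (ti c)) := by
  have hf : PTF (fun p : γ × (List (List ℕ × List ℕ) × List ℕ × List ℕ) × TLv =>
      stepP (n p.1) p.2.1 p.2.2) := by
    have hn' : PTU (fun p : γ × (List (List ℕ × List ℕ) × List ℕ × List ℕ) × TLv => n p.1) :=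
      PTU.comp hn PTF.fst
    have hL : PTF (fun p : γ × (List (List ℕ × List ℕ) × List ℕ × List ℕ) × TLv => p.2.2) := by
      fun_prop
    have h1 : PTF (fun p : γ × (List (List ℕ × List ℕ) × List ℕ × List ℕ) × TLv => p.2.1.1) := by
      fun_prop
    have h2 : PTF (fun p : γ × (List (List ℕ × List ℕ) × List ℕ × List ℕ) × TLv =>
      p.2.1.2.1) := by fun_prop
    have h3 : PTF (fun p : γ × (List (List ℕ × List ℕ) × List ℕ × List ℕ) × TLv =>
      p.2.1.2.2) := by fun_prop
    have hA := ptf_aP hn' hL h2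
    have hB := ptf_bP hn' hL h2 h3
    have hAi := ptf_invT hn' hA
    have hBi := ptf_invT hn' hB
    unfold stepP
    exact PTF.prodMk (PTF.append h1 (PTF.listCons (PTF.prodMk hA hBi) (PTF.const [])))
      (PTF.prodMk (ptf_comp3 hn' hB h2 hAi) (ptf_comp3 hn' hA h3 hBi))
  have h := PTF.foldl_add (f := fun c st L => stepP (n c) st L)
    (b := fun c => (([] : List (List ℕ × List ℕ)), tp c, ti c)) hls hf (by fun_prop)
    (G := fun c => 2 * (2 * (2 * (n c * (4 * n c + 1)) + 1 + n c * (4 * n c + 1)) + 1) +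
      (2 * (n c * (4 * n c + 1)) + 1 + n c * (4 * n c + 1)) + 10) (by
        have := hn.pb
        fun_prop) (fun c st L _ => by
      have e1 := sz_aP (n c) L st.2.1
      have e2 := sz_invT (n c) (bP (n c) L st.2.1 st.2.2)
      have e3 := sz_comp3 (n c) (bP (n c) L st.2.1 st.2.2) st.2.1 (invT (n c) (aP (n c) L st.2.1))
      have e4 := sz_comp3 (n c) (aP (n c) L st.2.1) st.2.2
        (invT (n c) (bP (n c) L st.2.1 st.2.2))
      unfold stepP
      simp only [sz_prod, sz_append, sz_cons, sz_nil]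
      omega)
  refine PTF.of_eq (PTF.comp (g := fun s : List (List ℕ × List ℕ) × List ℕ × List ℕ => s.1)
    PTF.fst h) (fun c => ?_)
  rw [routeP_eq]
  rfl

theorem flatP_eq (AB : List (List ℕ × List ℕ)) :
    flatP AB = AB.map Prod.fst ++ (AB.map Prod.snd).reverse := by
  induction AB with
  | nil => rfl
  | cons ab r ih => simp [flatP, ih]

theorem flatL_eq (ls : List TLv) : flatL ls = ls ++ ls.reverse := by
  induction ls with
  | nil => rfl
  | cons L ls ih => simp [flatL, ih]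

/-- **the routing of wires is poly-time** -/
theorem ptf_routeWP {n : γ → ℕ} {ls : γ → List TLv} {ws : γ → List (ℕ × ℕ)} (hn : PTU n)
    (hls : PTF ls) (hw : PTF ws) : PTF (fun c => routeWP (n c) (ls c) (ws c)) := by
  have h := ptf_routeP hn hls (ptf_permT hn hw) (ptf_invpT hn hw)
  have h1 := PTF.map (f := fun _ (ab : List ℕ × List ℕ) => ab.1) h (PTF.comp PTF.fst PTF.snd)
  have h2 := PTF.map (f := fun _ (ab : List ℕ × List ℕ) => ab.2) h (PTF.comp PTF.snd PTF.snd)
  refine PTF.of_eq (PTF.append h1 (PTF.reverse h2)) (fun c => ?_)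
  rw [routeWP, flatP_eq]

end Crest.Agent.R289.RouteP873
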