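import Mathlib
import Crest.Agent.R289.Paths_992
import Crest.Agent.R289.RoutePPT_873
import Crest.Agent.R289.LoopEr_526
import Crest.Agent.R289.Greedy_444

/-!
# Coloured simple paths of the wires (row 289, block C, R3), with PTF

`routeB n gs Ls ws : List (ℕ × List ℕ)`: for every wire of the partial injection `ws` a colour and a
simple path in the graph with the moves `gs`; wires of the same colour have disjoint paths.
-/

set_option autoImplicit false
set_option linter.unusedVariables false
set_option linter.unusedSectionVars false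

namespace Crest.Agent.R289.Paths992

open Crest.Agent.Lib.PT Crest.Agent.R289.Benes873 Crest.Agent.R289.Konig851
open Crest.Agent.R289.RouteP873 Crest.Agent.R289.LoopEr526 Crest.Agent.R289.Greedy444

/-- the simple paths -/
def simP (n : ℕ) (gs : List (List ℕ)) (Ls : List (TLv × Wd)) (ws : List (ℕ × ℕ)) :
    List (List ℕ) := (pathsP n gs Ls ws).map ler

/-- colour and simple path of every wire -/
def routeB (n : ℕ) (gs : List (List ℕ)) (Ls : List (TLv × Wd)) (ws : List (ℕ × ℕ)) :
    List (ℕ × List ℕ) := (colour (simP n gs Ls ws)).zip (simP n gs Ls ws)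

section main

variable {n : ℕ} {gs : List (List ℕ)} {F lw : ℕ} {Ls : List (TLv × Wd)} {ws : List (ℕ × ℕ)}

theorem routeB_snd : (routeB n gs Ls ws).map Prod.snd = simP n gs Ls ws := by
  unfold routeB
  exact List.map_snd_zip (by rw [length_colour])

theorem routeB_fst : (routeB n gs Ls ws).map Prod.fst = colour (simP n gs Ls ws) := by
  unfold routeB
  exact List.map_fst_zip (by rw [length_colour])

/-- **Coloured simple paths.** -/
theorem routeB_spec (h : WOK n gs F lw Ls) (hw : PInj n ws) :
    List.Forall₂ (fun w p => p.2.head? = some w.1 ∧ p.2.getLast? = some w.2) ws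
      (routeB n gs Ls ws) ∧
    (∀ p ∈ routeB n gs Ls ws, p.2.Nodup ∧ p.2.IsChain (Stp n gs) ∧ (∀ v ∈ p.2, v < n) ∧
      p.2.length ≤ 2 * Ls.length * lw + 1 ∧
      p.1 < (2 * Ls.length * lw + 1) * (2 * Ls.length * (F * F * lw) + 1)) ∧
    (routeB n gs Ls ws).Pairwise fun p p' => p.1 = p'.1 → ∀ v, v ∈ p.2 → v ∉ p'.2 := by
  obtain ⟨h1, h2, h3⟩ := pathsP_spec h hw
  have hcol : ∀ a ∈ colour (simP n gs Ls ws),
      a < (2 * Ls.length * lw + 1) * (2 * Ls.length * (F * F * lw) + 1) := by
    refine colour_lt _ _ _ (Nat.succ_pos _) (Nat.succ_pos _) ?_ ?_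
    · intro p hp
      unfold simP at hp
      obtain ⟨p', hp', rfl⟩ := List.mem_map.1 hp
      exact (ler_length _).trans (h2 p' hp').2.2
    · intro v
      unfold simP
      rw [List.countP_map]
      refine le_trans ?_ (h3 v)
      rw [← List.countP_eq_length_filter]
      apply List.countP_mono_left
      intro p _ hp
      simp only [Function.comp_apply, decide_eq_true_eq] at hp ⊢
      exact ler_subset p v hp
  refine ⟨?_, ?_, ?_⟩
  · have h4 : List.Forall₂ (fun (w : ℕ × ℕ) (p : List ℕ) => p.head? = some w.1 ∧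
        p.getLast? = some w.2) ws ((routeB n gs Ls ws).map Prod.snd) := by
      rw [routeB_snd, simP, List.forall₂_map_right_iff]
      refine h1.imp fun w p hwp => ?_
      rw [ler_head, ler_last]
      exact hwp
    exact List.forall₂_map_right_iff.1 h4
  · intro p hp
    have hp2 : p.2 ∈ simP n gs Ls ws := by
      rw [← routeB_snd]; exact List.mem_map.2 ⟨p, hp, rfl⟩
    have hp1 : p.1 ∈ colour (simP n gs Ls ws) := by
      rw [← routeB_fst]; exact List.mem_map.2 ⟨p, hp, rfl⟩
    unfold simP at hp2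
    obtain ⟨p', hp', e⟩ := List.mem_map.1 hp2
    obtain ⟨a1, a2, a3⟩ := h2 p' hp'
    rw [← e]
    exact ⟨ler_nodup _, ler_isChain a1, fun v hv => a2 v (ler_subset _ v hv),
      (ler_length _).trans a3, hcol _ hp1⟩
  · rw [List.pairwise_iff_getElem]
    intro i j hi hj hij e v hv hv'
    have hl : (routeB n gs Ls ws).length = (simP n gs Ls ws).length := by
      rw [← routeB_snd, List.length_map]
    have e1 : ∀ (i : ℕ) (hi : i < (routeB n gs Ls ws).length), (routeB n gs Ls ws)[i] =
        ((colour (simP n gs Ls ws))[i]'(by rw [length_colour, ← hl]; exact hi),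
          (simP n gs Ls ws)[i]'(by rw [← hl]; exact hi)) := by
      intro i hi
      unfold routeB
      exact List.getElem_zip
    rw [e1 i hi] at e hv
    rw [e1 j hj] at e hv'
    exact colour_proper _ i j (by omega) (by omega) (by omega) v hv hv' e

end main

/-! ### polynomial time -/

section ptf

variable {γ : Type} [PTCode γ]

theorem ptf_wdT {W : γ → Wd} {c d : γ → ℕ} (hW : PTF W) (hc : PTU c) (hd : PTU d) :
    PTF (fun a => wdT (W a) (c a) (d a)) := by
  unfold wdT
  exact PTF.getD hd (PTF.getD hc hW (PTF.const [])) (PTF.const [])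

/-- a letter, cut at the number of moves -/
theorem mvF_cut {n : ℕ} {gs : List (List ℕ)} (a x : ℕ) :
    mvF n gs a x = look n (gs.getD (min a gs.length) []) x := by
  unfold mvF
  rcases Nat.lt_or_ge a gs.length with h | h
  · rw [Nat.min_eq_left h.le]
  · rw [Nat.min_eq_right h, List.getD_eq_default _ _ h, List.getD_eq_default _ _ le_rfl]

theorem ptf_mvF {n a x : γ → ℕ} {gs : γ → List (List ℕ)} (hn : PTU n) (hg : PTF gs)
    (ha : PTF a) (hx : PTF x) : PTF (fun c => mvF (n c) (gs c) (a c) (x c)) := by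
  have h : PTF (fun c => look (n c) ((gs c).getD (min (a c) (gs c).length) []) (x c)) :=
    ptf_look hn (PTF.getD (PTF.natMinUn ha (PTU.length hg)) hg (PTF.const [])) hx
  exact h.of_eq fun c => (mvF_cut _ _).symm

theorem ptf_walkW {n x : γ → ℕ} {gs : γ → List (List ℕ)} {w : γ → List ℕ} (hn : PTU n)
    (hg : PTF gs) (hx : PTF x) (hw : PTF w) :
    PTF (fun c => walkW (n c) (gs c) (x c) (w c)) := by
  unfold walkW
  have hf : PTF (fun p : γ × (ℕ × List ℕ) × ℕ => mv (n p.1) (gs p.1) p.2.1 p.2.2) := by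
    unfold mv
    have h1 : PTF (fun p : γ × (ℕ × List ℕ) × ℕ => mvF (n p.1) (gs p.1) p.2.2 p.2.1.1) :=
      ptf_mvF (PTU.comp hn PTF.fst) (PTF.comp hg PTF.fst) (by fun_prop) (by fun_prop)
    exact PTF.prodMk h1 (PTF.append (by fun_prop) (PTF.listCons h1 (PTF.const [])))
  have h := PTF.foldl_add (f := fun c (s : ℕ × List ℕ) (a : ℕ) => mv (n c) (gs c) s a)
    (b := fun c => (x c, [x c])) hw hf
    (PTF.prodMk hx (PTF.listCons hx (PTF.const [])))
    (G := fun c => 10 * n c + 10) (by
      have := hn.pb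
      fun_prop) (fun c s a _ => by
      have e1 := sz_le_of_le (look_le (n c) ((gs c).getD a []) s.1)
      unfold mv mvF
      simp only [sz_prod, sz_append, sz_cons, sz_nil]
      omega)
  exact PTF.comp (g := fun s : ℕ × List ℕ => s.2) PTF.snd h

theorem ptf_letters {n x : γ → ℕ} {S : γ → List ((TLv × Wd) × List ℕ)} (hn : PTU n)
    (hS : PTF S) (hx : PTF x) : PTF (fun c => letters (n c) (S c) (x c)) := by
  unfold letters
  have hf : PTF (fun p : γ × (ℕ × List ℕ) × ((TLv × Wd) × List ℕ) =>
      ls1 (n p.1) p.2.1 p.2.2) := by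
    unfold ls1
    have hn' : PTU (fun p : γ × (ℕ × List ℕ) × ((TLv × Wd) × List ℕ) => n p.1) :=
      PTU.comp hn PTF.fst
    have h1 : PTF (fun p : γ × (ℕ × List ℕ) × ((TLv × Wd) × List ℕ) =>
        look (n p.1) p.2.2.2 p.2.1.1) := ptf_look hn' (by fun_prop) (by fun_prop)
    have h2 : PTU (fun p : γ × (ℕ × List ℕ) × ((TLv × Wd) × List ℕ) =>
        look (n p.1) p.2.2.1.1.2.2 p.2.1.1) := ptu_look hn' (by fun_prop) (by fun_prop)
    have h3 : PTU (fun p : γ × (ℕ × List ℕ) × ((TLv × Wd) × List ℕ) =>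
        look (n p.1) p.2.2.1.1.2.2 (look (n p.1) p.2.2.2 p.2.1.1)) :=
      ptu_look hn' (by fun_prop) h1
    exact PTF.prodMk h1 (PTF.append (by fun_prop) (ptf_wdT (by fun_prop) h2 h3))
  have h := PTF.foldl_add (f := fun c (s : ℕ × List ℕ) (p : (TLv × Wd) × List ℕ) =>
      ls1 (n c) s p) (b := fun c => (x c, ([] : List ℕ))) hS hf
    (PTF.prodMk hx (PTF.const []))
    (G := fun c => 10 * n c + 10 + 10 * sz (S c)) (by
      have := hn.pb
      have := hS.sz
      fun_prop) (fun c s p hp => by
      have e1 := sz_le_of_le (look_le (n c) p.2 s.1)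
      have e2 : sz (wdT p.1.2 (look (n c) p.1.1.2.2 s.1)
          (look (n c) p.1.1.2.2 (look (n c) p.2 s.1))) ≤ sz (S c) + 1 := by
        have a1 := sz_mem_le hp
        have a2 : sz p.1.2 ≤ sz p := by
          obtain ⟨⟨a, b⟩, d⟩ := p
          simp only [sz_prod]
          omega
        have a3 : ∀ (i j : ℕ), sz (wdT p.1.2 i j) ≤ sz p.1.2 + 1 := by
          intro i j
          unfold wdT
          rcases Nat.lt_or_ge i p.1.2.length with hi | hi
          · rw [List.getD_eq_getElem _ _ hi]
            have b1 := sz_mem_le (List.getElem_mem hi)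
            rcases Nat.lt_or_ge j (p.1.2[i]).length with hj | hj
            · rw [List.getD_eq_getElem _ _ hj]
              have b2 := sz_mem_le (List.getElem_mem hj)
              omega
            · rw [List.getD_eq_default _ _ hj]
              simp
          · rw [List.getD_eq_default _ _ hi]
            simp
        have a4 := a3 (look (n c) p.1.1.2.2 s.1) (look (n c) p.1.1.2.2 (look (n c) p.2 s.1))
        omega
      unfold ls1
      simp only [sz_prod, sz_append]
      omega)
  exact PTF.comp (g := fun s : ℕ × List ℕ => s.2) PTF.snd h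

/-- **the walks of the wires are poly-time** -/
theorem ptf_pathsP {n : γ → ℕ} {gs : γ → List (List ℕ)} {Ls : γ → List (TLv × Wd)}
    {ws : γ → List (ℕ × ℕ)} (hn : PTU n) (hg : PTF gs) (hL : PTF Ls) (hw : PTF ws) :
    PTF (fun c => pathsP (n c) (gs c) (Ls c) (ws c)) := by
  have h1 : PTF (fun c => (Ls c).map Prod.fst) :=
    PTF.map hL (f := fun _ (L : TLv × Wd) => L.1) (PTF.comp PTF.fst PTF.snd)
  have hS : PTF (fun c => stepsP (Ls c) (routeWP (n c) ((Ls c).map Prod.fst) (ws c))) := by
    unfold stepsP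
    exact PTF.zip (PTF.append hL (PTF.reverse hL)) (ptf_routeWP hn h1 hw)
  have hcut : PTF (fun p : γ × List ((TLv × Wd) × List ℕ) => (ws p.1).map fun w =>
      walkW (n p.1) (gs p.1) w.1 (letters (n p.1) p.2 w.1)) := by
    refine PTF.map (f := fun (p : γ × List ((TLv × Wd) × List ℕ)) (w : ℕ × ℕ) =>
      walkW (n p.1) (gs p.1) w.1 (letters (n p.1) p.2 w.1)) (PTF.comp hw PTF.fst) ?_
    have hn' : PTU (fun q : (γ × List ((TLv × Wd) × List ℕ)) × (ℕ × ℕ) => n q.1.1) :=
      PTU.comp hn (PTF.comp PTF.fst PTF.fst)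
    exact ptf_walkW hn' (PTF.comp hg (PTF.comp PTF.fst PTF.fst)) (by fun_prop)
      (ptf_letters hn' (by fun_prop) (by fun_prop))
  exact PTF.comp (f := fun c => (c, stepsP (Ls c) (routeWP (n c) ((Ls c).map Prod.fst) (ws c))))
    hcut (PTF.prodMk PTF.id hS)

/-- **coloured simple paths are poly-time** -/
theorem ptf_routeB {n : γ → ℕ} {gs : γ → List (List ℕ)} {Ls : γ → List (TLv × Wd)}
    {ws : γ → List (ℕ × ℕ)} (hn : PTU n) (hg : PTF gs) (hL : PTF Ls) (hw : PTF ws) :
    PTF (fun c => routeB (n c) (gs c) (Ls c) (ws c)) := by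
  have h1 : PTF (fun c => simP (n c) (gs c) (Ls c) (ws c)) := by
    unfold simP
    exact ptf_map_ler (ptf_pathsP hn hg hL hw)
  unfold routeB
  exact PTF.zip (PTF.comp ptf_colour h1) h1

end ptf

end Crest.Agent.R289.Paths992
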