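import Crest.Agent.R289.RoutePT_55

/-!
# R289, block C (routing): `Route649.route` and `Route649.look` are polynomial time (helper594)

On top of `RoutePT_55` (`NB`, `ptf_pass`): the rounds `stepR`, the number of colours, `route`, `look`.
-/

set_option autoImplicit false

namespace Crest.Agent.R289.RoutePT594

open Crest.Agent.Lib.PT Crest.Agent.R289.Route649 Crest.Agent.R289.RoutePT55

variable {γ δ : Type} [PTCode γ] [PTCode δ]

/-! ### invariant of a pass, without any hypothesis on the graph -/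

/-- size bound of one path -/
def pbd (B : ℕ) (wd : List (List ℕ)) (W : List (ℕ × ℕ)) : ℕ :=
  2 * sz W + 2 + 2 * (sz wd * (2 * B + 1))

/-- invariant of a pass after `k` wires -/
def PI (B : ℕ) (wd : List (List ℕ)) (W : List (ℕ × ℕ)) (k : ℕ) (s : PSt) : Prop :=
  (∀ e ∈ s.2.2, e ∈ W) ∧ (∀ x ∈ s.2.1, x.1 ∈ W ∧ sz x.2 ≤ pbd B wd W) ∧
    s.2.1.length + s.2.2.length ≤ k

theorem pi_stepW (nb : ℕ → ℕ → ℕ) (B : ℕ) (hB : ∀ v g, nb v g ≤ B) {wd : List (List ℕ)}
    {W : List (ℕ × ℕ)} {k : ℕ} {s : PSt} (h : PI B wd W k s) {e : ℕ × ℕ} (he : e ∈ W) :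
    PI B wd W (k + 1) (stepW nb wd s e) := by
  obtain ⟨h1, h2, h3⟩ := h
  cases ht : tryRoute nb wd s.1 e with
  | none =>
    have e1 : stepW nb wd s e = (s.1, s.2.1, e :: s.2.2) := by simp [stepW, ht]
    rw [e1]
    refine ⟨?_, h2, ?_⟩
    · intro e' he'
      rcases List.mem_cons.1 he' with rfl | he'
      · exact he
      · exact h1 e' he'
    · simp only [List.length_cons]
      omega
  | some p =>
    have e1 : stepW nb wd s e =
        (erase p ++ s.1, (e, erase p) :: s.2.1, s.2.2) := by simp [stepW, ht]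
    rw [e1]
    refine ⟨h1, ?_, ?_⟩
    · intro x hx
      rcases List.mem_cons.1 hx with rfl | hx
      · refine ⟨he, ?_⟩
        have a1 := sz_tryRoute nb B hB ht
        have a2 := sz_erase_le p
        have a3 := sz_mem_le he
        unfold pbd
        simp only
        omega
      · exact h2 x hx
    · simp only [List.length_cons]
      omega

theorem pi_foldl (nb : ℕ → ℕ → ℕ) (B : ℕ) (hB : ∀ v g, nb v g ≤ B) {wd : List (List ℕ)}
    {W : List (ℕ × ℕ)} (l : List (ℕ × ℕ)) : ∀ {k : ℕ} {s : PSt}, PI B wd W k s →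
    (∀ e ∈ l, e ∈ W) → PI B wd W (k + l.length) (l.foldl (stepW nb wd) s) := by
  induction l with
  | nil => intro k s h _; simpa using h
  | cons e l ih =>
    intro k s h hl
    rw [List.foldl_cons]
    have := ih (pi_stepW nb B hB h (hl e (by simp))) (fun e' he' => hl e' (by simp [he']))
    simp only [List.length_cons]
    have e1 : k + (l.length + 1) = k + 1 + l.length := by ring
    rw [e1]
    exact this

theorem pi_pass (nb : ℕ → ℕ → ℕ) (B : ℕ) (hB : ∀ v g, nb v g ≤ B) {wd : List (List ℕ)}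
    {W : List (ℕ × ℕ)} {l : List (ℕ × ℕ)} (hl : ∀ e ∈ l, e ∈ W) :
    PI B wd W l.length (Route649.pass nb wd l) := by
  have h0 : PI B wd W 0 (([], [], []) : PSt) := ⟨by simp, by simp, by simp⟩
  have := pi_foldl nb B hB l h0 hl
  simpa [Route649.pass] using this

/-! ### invariant of the rounds -/

/-- invariant of the rounds after `k` rounds -/
def RI (B : ℕ) (wd : List (List ℕ)) (W : List (ℕ × ℕ)) (k : ℕ) (s : RSt) : Prop :=
  s.1 = k ∧ (∀ e ∈ s.2.2, e ∈ W) ∧
    (∀ x ∈ s.2.1, x.1 ≤ k ∧ x.2.1 ∈ W ∧ sz x.2.2 ≤ pbd B wd W) ∧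
    s.2.1.length + s.2.2.length ≤ W.length

theorem ri_step (nb : ℕ → ℕ → ℕ) (B : ℕ) (hB : ∀ v g, nb v g ≤ B) {wd : List (List ℕ)}
    {W : List (ℕ × ℕ)} {k : ℕ} {s : RSt} (h : RI B wd W k s) :
    RI B wd W (k + 1) (stepR nb wd s) := by
  obtain ⟨h1, h2, h3, h4⟩ := h
  obtain ⟨p1, p2, p3⟩ := pi_pass nb B hB (wd := wd) (l := s.2.2) h2
  unfold stepR
  refine ⟨by simp [h1], p1, ?_, ?_⟩
  · intro x hx
    rcases List.mem_append.1 hx with hx | hx
    · obtain ⟨y, hy, rfl⟩ := List.mem_map.1 hx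
      refine ⟨?_, (p2 y hy).1, (p2 y hy).2⟩
      simp only
      omega
    · have := h3 x hx
      exact ⟨by omega, this.2⟩
  · simp only [List.length_append, List.length_map]
    omega

theorem ri_iter (nb : ℕ → ℕ → ℕ) (B : ℕ) (hB : ∀ v g, nb v g ≤ B) (wd : List (List ℕ))
    (W : List (ℕ × ℕ)) (k : ℕ) : RI B wd W k ((stepR nb wd)^[k] (0, [], W)) := by
  induction k with
  | zero => exact ⟨rfl, fun e he => he, by simp, by simp⟩
  | succ k ih =>
    rw [Function.iterate_succ_apply']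
    exact ri_step nb B hB ih

/-- size bound for the state of the rounds -/
def rbd (B : ℕ) (wd : List (List ℕ)) (W : List (ℕ × ℕ)) (k : ℕ) : ℕ :=
  (2 * k + 1) + (2 * (W.length * (2 * (2 * k + 1 + (2 * sz W + 1 + pbd B wd W)) + 1)) + 1) +
    W.length * (2 * sz W + 1)

theorem sz_ri {B : ℕ} {wd : List (List ℕ)} {W : List (ℕ × ℕ)} {k : ℕ} {s : RSt}
    (h : RI B wd W k s) : sz s ≤ rbd B wd W k := by
  obtain ⟨h1, h2, h3, h4⟩ := h
  have a1 : sz s.1 ≤ k := by rw [h1]; exact sz_nat_le k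
  have a2 : sz s.2.2 ≤ s.2.2.length * (2 * sz W + 1) :=
    sz_list_le fun e he => sz_mem_le (h2 e he)
  have a3 : sz s.2.1 ≤ s.2.1.length * (2 * (2 * k + 1 + (2 * sz W + 1 + pbd B wd W)) + 1) := by
    refine sz_list_le fun x hx => ?_
    obtain ⟨b1, b2, b3⟩ := h3 x hx
    have c1 := (sz_nat_le x.1).trans b1
    have c2 := sz_mem_le b2
    rw [sz_prod x, sz_prod x.2]
    omega
  have m1 : s.2.1.length ≤ W.length := by omega
  have m2 : s.2.2.length ≤ W.length := by omega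
  have n1 := Nat.mul_le_mul_right (2 * (2 * k + 1 + (2 * sz W + 1 + pbd B wd W)) + 1) m1
  have n2 := Nat.mul_le_mul_right (2 * sz W + 1) m2
  rw [sz_prod s, sz_prod s.2]
  unfold rbd
  omega

/-! ### polynomial time -/

variable {N : γ → ℕ} {nb : γ → ℕ → ℕ → ℕ}

theorem ptf_stepR (H : NB N nb) {wd : γ → List (List ℕ)} (hwd : PTF wd) :
    PTF (fun p : γ × RSt => stepR (nb p.1) (wd p.1) p.2) := by
  have H1 := H.comp (f := fun p : γ × RSt => p.1) PTF.fst
  have hwd1 : PTF (fun p : γ × RSt => wd p.1) := PTF.comp (g := wd) hwd PTF.fst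
  have hp : PTF (fun p : γ × RSt => Route649.pass (nb p.1) (wd p.1) p.2.2.2) :=
    ptf_pass H1 hwd1 (by fun_prop)
  have hp1 : PTF (fun p : γ × RSt => (Route649.pass (nb p.1) (wd p.1) p.2.2.2).2.1) :=
    PTF.comp (g := fun s : PSt => s.2.1) (by fun_prop) hp
  have hp2 : PTF (fun p : γ × RSt => (Route649.pass (nb p.1) (wd p.1) p.2.2.2).2.2) :=
    PTF.comp (g := fun s : PSt => s.2.2) (by fun_prop) hp
  unfold stepR
  refine PTF.prodMk ?_ (PTF.prodMk (PTF.append (PTF.map hp1 ?_) ?_) hp2)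
  · exact PTF.natAdd (by fun_prop) (PTF.const 1)
  · exact PTF.prodMk (by fun_prop) PTF.snd
  · fun_prop

theorem ptu_ncol {l n : γ → ℕ} (hl : PTU l) (hn : PTF n) : PTU (fun c => ncol (l c) (n c)) := by
  unfold ncol
  refine PTU.mul ?_ (PTF.natSizeUn (PTF.natAdd hn (PTF.const 1)))
  exact PTU.add (PTU.mul (PTU.const 4) (PTU.pow (PTU.add hl (PTU.const 1)) 2)) (PTU.const 1)

/-- **the rounds are polynomial time**, any unary number of them -/
theorem ptf_rounds (H : NB N nb) {wd : γ → List (List ℕ)} {wires : γ → List (ℕ × ℕ)} {k : γ → ℕ}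
    (hwd : PTF wd) (hwi : PTF wires) (hk : PTU k) :
    PTF (fun c => (stepR (nb c) (wd c))^[k c] (0, [], wires c)) := by
  refine PTF.iterate' (f := fun c => stepR (nb c) (wd c)) hk (ptf_stepR H hwd)
    (PTF.prodMk (PTF.const 0) (PTF.prodMk (PTF.const []) hwi))
    (B := fun c => rbd (N c) (wd c) (wires c) (k c)) ?_ ?_
  · have h1 := H.hN.pb
    have h2 := hwd.sz
    have h3 := hwi.sz
    have h4 := hk.pb
    have h5 : PB (fun c => (wires c).length) := h3.mono fun c => length_le_sz _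
    unfold rbd pbd
    fun_prop
  · intro c i hi
    refine (sz_ri (ri_iter (nb c) (N c) (fun v g => H.hlt c v g) (wd c) (wires c) i)).trans ?_
    unfold rbd
    gcongr

/-- **the routing is polynomial time** -/
theorem ptf_route (H : NB N nb) {wd : γ → List (List ℕ)} {wires : γ → List (ℕ × ℕ)} {n l : γ → ℕ}
    (hwd : PTF wd) (hwi : PTF wires) (hn : PTF n) (hl : PTU l) :
    PTF (fun c => route (n c) (l c) (nb c) (wd c) (wires c)) := by
  unfold route
  exact PTF.comp (g := fun s : RSt => s.2.1) (by fun_prop)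
    (ptf_rounds H hwd hwi (ptu_ncol hl hn))

theorem ptf_look {r : γ → List (ℕ × (ℕ × ℕ) × List ℕ)} {a : γ → ℕ} (hr : PTF r) (ha : PTF a) :
    PTF (fun c => look (r c) (a c)) := by
  have hf : PTF (fun c => (r c).find? (fun x => decide (x.2.1.1 = a c))) := by
    refine PTF.find? (l := r) (p := fun c x => decide (x.2.1.1 = a c)) hr ?_
    exact PTF.beq (f := fun q : γ × (ℕ × (ℕ × ℕ) × List ℕ) => q.2.2.1.1) (by fun_prop)
      (PTF.comp (g := a) ha PTF.fst)
  have hg : PTF (fun q : γ × (ℕ × (ℕ × ℕ) × List ℕ) => ((q.2.1, q.2.2.2) : ℕ × List ℕ)) :=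
    PTF.prodMk (PTF.comp (g := fun x : ℕ × (ℕ × ℕ) × List ℕ => x.1) PTF.fst PTF.snd)
      (PTF.comp (g := fun x : ℕ × (ℕ × ℕ) × List ℕ => x.2.2) (PTF.comp PTF.snd PTF.snd) PTF.snd)
  have h := PTF.optionCasesOn (f := fun _ : γ => ((0, []) : ℕ × List ℕ))
    (g := fun _ (x : ℕ × (ℕ × ℕ) × List ℕ) => ((x.1, x.2.2) : ℕ × List ℕ)) hf (PTF.const _) hg
  refine PTF.of_eq h fun c => ?_
  unfold look
  cases (r c).find? (fun x => decide (x.2.1.1 = a c)) <;> rfl

/-- size bound of the whole routing -/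
theorem sz_route_le (nb : ℕ → ℕ → ℕ) (B : ℕ) (hB : ∀ v g, nb v g ≤ B) (n l : ℕ)
    (wd : List (List ℕ)) (W : List (ℕ × ℕ)) :
    sz (route n l nb wd W) ≤ rbd B wd W (ncol l n) := by
  have h := sz_ri (ri_iter nb B hB wd W (ncol l n))
  unfold route
  generalize (stepR nb wd)^[ncol l n] (0, [], W) = s at h
  rw [sz_prod s, sz_prod s.2] at h
  omega

end Crest.Agent.R289.RoutePT594
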