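import Crest.Agent.R289.PExpLib_118
import Crest.Agent.R289.DefD_721

/-!
# Row 289, block D, leaf D2 (helper660): the piecewise linear rules of the macro embedding

`sys R q` = the `LSys` of a unit-level machine given by local rules `R : LRules k l r`:
variables per unit: `A` (`l`), `B` (`l`), 7 flags, `s`, `ψ`; neighbours: the unit itself, the `k`
neighbours of the machine, `d` samples; the type of a unit codes its public bits and its bits of `w0`.
`mrest` : an approximate rest state + a sampler give a `MRest`.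
-/

set_option autoImplicit false

namespace Crest.Agent.R289.Rules660

open Finset Crest.Agent.R289 Crest.Agent.R289.DefD Crest.Agent.R289.PExp

/-! ### expressions -/

/-- sharpened bit: `0` for `≤ 1/4`, `1` for `≥ 3/4` -/
def qE (a : PExp) : PExp := ramp (1/4) 2 a
/-- indefinite bit -/
def indE (a : PExp) : PExp := mn (ramp (1/16) 6 a) (ramp (1/16) 6 (compl a))
/-- `a` if `s = 1`, `b` if `s = 0` -/
def mux (s a b : PExp) : PExp := mix (compl s) a b
/-- real value of a bit -/
def b2q (b : Bool) : ℚ := if b then 1 else 0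

theorem b2q_mem (b : Bool) : 0 ≤ b2q b ∧ b2q b ≤ 1 := by cases b <;> simp [b2q]

/-- decision tree -/
def bex : (n : ℕ) → ((Fin n → Bool) → Bool) → (Fin n → PExp) → PExp
  | 0, f, _ => .const (b2q (f Fin.elim0))
  | n + 1, f, v => mix (v 0) (bex n (fun x => f (Fin.cons false x)) fun i => v i.succ)
      (bex n (fun x => f (Fin.cons true x)) fun i => v i.succ)

section WF
variable {K L : ℕ}

theorem qE_WF {a : PExp} (h : a.WF K L) : (qE a).WF K L :=
  ramp_WF (by norm_num) (by norm_num) 2 h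

theorem indE_WF {a : PExp} (h : a.WF K L) : (indE a).WF K L :=
  mn_WF (ramp_WF (by norm_num) (by norm_num) 6 h)
    (ramp_WF (by norm_num) (by norm_num) 6 (compl_WF h))

theorem mux_WF {s a b : PExp} (hs : s.WF K L) (ha : a.WF K L) (hb : b.WF K L) :
    (mux s a b).WF K L := mix_WF (compl_WF hs) ha hb

theorem bex_WF {n : ℕ} {f : (Fin n → Bool) → Bool} {v : Fin n → PExp} (hv : ∀ i, (v i).WF K L) :
    (bex n f v).WF K L := by
  induction n with
  | zero => exact b2q_mem _
  | succ n ih => exact mix_WF (hv 0) (ih fun i => hv i.succ) (ih fun i => hv i.succ)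

end WF

section values
variable {K L : ℕ} {y : ℕ → ℕ → ℚ}

/-- readable value -/
def Rd (v : ℚ) : Prop := v ≤ 1/4 ∨ 3/4 ≤ v
/-- sharp value -/
def Sh (v : ℚ) : Prop := v ≤ 1/16 ∨ 15/16 ≤ v

theorem Sh.rd {v : ℚ} (h : Sh v) : Rd v := by
  rcases h with h | h
  · left; linarith
  · right; linarith

theorem eval_qE {a : PExp} (h : Rd (a.eval y)) :
    (qE a).eval y = b2q (decide (1/2 ≤ a.eval y)) := by
  rcases h with h | h
  · rw [qE, eval_ramp_zero h, decide_eq_false (by linarith)]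
    rfl
  · rw [qE, eval_ramp_one (by norm_num) (by norm_num; linarith), decide_eq_true (by linarith)]
    rfl

theorem eval_indE_one {a : PExp} (h1 : a.eval y ≤ 1) (h : ¬ Rd (a.eval y)) :
    (indE a).eval y = 1 := by
  rw [Rd, not_or, not_le, not_le] at h
  rw [indE, eval_mn (eval_ramp_mem _ _ _).1 (eval_ramp_mem _ _ _).1,
    eval_ramp_one (by norm_num) (by norm_num; linarith),
    eval_ramp_one (by norm_num) (by rw [eval_compl h1]; norm_num; linarith), min_self]

theorem eval_indE_zero {a : PExp} (h1 : a.eval y ≤ 1) (h : Sh (a.eval y)) :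
    (indE a).eval y = 0 := by
  rw [indE, eval_mn (eval_ramp_mem _ _ _).1 (eval_ramp_mem _ _ _).1]
  rcases h with h | h
  · rw [eval_ramp_zero h, min_eq_left (eval_ramp_mem _ _ _).1]
  · rw [eval_ramp_zero (a := compl a) (by rw [eval_compl h1]; linarith),
      min_eq_right (eval_ramp_mem _ _ _).1]

/-- the tree is exact as soon as the known inputs force the value -/
theorem eval_bex (hy : ∀ k l, 0 ≤ y k l ∧ y k l ≤ 1) {n : ℕ} {f : (Fin n → Bool) → Bool}
    {v : Fin n → PExp} (hv : ∀ i, (v i).WF K L) (b : Fin n → Option Bool)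
    (h : ∀ i c, b i = some c → (v i).eval y = b2q c) (g : Bool)
    (hf : ∀ x : Fin n → Bool, (∀ i c, b i = some c → x i = c) → f x = g) :
    (bex n f v).eval y = b2q g := by
  induction n with
  | zero =>
    simp only [bex, eval]
    rw [hf Fin.elim0 fun i => i.elim0]
  | succ n ih =>
    have m0 := eval_mem (bex_WF (f := fun x => f (Fin.cons false x)) (v := fun i => v i.succ)
      fun i => hv i.succ) hy
    have m1 := eval_mem (bex_WF (f := fun x => f (Fin.cons true x)) (v := fun i => v i.succ)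
      fun i => hv i.succ) hy
    have key : ∀ c : Bool, (∀ c', b 0 = some c' → c = c') →
        (bex n (fun x => f (Fin.cons c x)) fun i => v i.succ).eval y = b2q g := by
      intro c hc
      refine ih (f := fun x => f (Fin.cons c x)) (v := fun i => v i.succ)
        (fun i => hv i.succ) (fun i => b i.succ) (fun i => h i.succ) fun x hx => ?_
      refine hf _ fun i c' hi => ?_
      refine Fin.cases (motive := fun i => b i = some c' → (Fin.cons c x : Fin (n + 1) → Bool) i = c')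
        ?_ ?_ i hi
      · intro h0
        rw [Fin.cons_zero]
        exact hc _ h0
      · intro i hi
        rw [Fin.cons_succ]
        exact hx i c' hi
    rw [bex]
    rcases hb : b 0 with _ | _ | _
    · have k0 := key false (fun c' hc' => by rw [hb] at hc'; exact absurd hc' (by simp))
      have k1 := key true (fun c' hc' => by rw [hb] at hc'; exact absurd hc' (by simp))
      rw [eval_mix_same (eval_mem (hv 0) hy) m0 (by rw [k0, k1]), k0]
    · have h0 := h 0 false hb
      rw [eval_mix_zero (by rw [h0]; rfl) m0 m1]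
      exact key false fun c' hc' => by rw [hb] at hc'; exact Option.some.inj hc'
    · have h0 := h 0 true hb
      rw [eval_mix_one (by rw [h0]; rfl) m0 m1]
      exact key true fun c' hc' => by rw [hb] at hc'; exact Option.some.inj hc'

/-! ### Kleene values -/

/-- the real number `q` represents the Kleene value `v` -/
def Rep (v : K3) (q : ℚ) : Prop := (v = some true → q = 1) ∧ (v = some false → q = 0)

theorem rep_compl {v : K3} {a : PExp} (ha : a.eval y ≤ 1) (h : Rep v (a.eval y)) :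
    Rep (k3not v) ((compl a).eval y) := by
  rw [eval_compl ha]
  rcases v with _ | _ | _
  · exact ⟨fun h => by simp [k3not] at h, fun h => by simp [k3not] at h⟩
  · have := h.2 rfl
    exact ⟨fun _ => by rw [this]; norm_num, fun h => by simp [k3not] at h⟩
  · have := h.1 rfl
    exact ⟨fun h => by simp [k3not] at h, fun _ => by rw [this]; norm_num⟩

theorem rep_mn {v w : K3} {a b : PExp} (ha : 0 ≤ a.eval y ∧ a.eval y ≤ 1)
    (hb : 0 ≤ b.eval y ∧ b.eval y ≤ 1) (h : Rep v (a.eval y)) (h' : Rep w (b.eval y)) :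
    Rep (k3and v w) ((mn a b).eval y) := by
  rw [eval_mn ha.1 hb.1]
  rcases v with _ | _ | _ <;> rcases w with _ | _ | _ <;> simp only [k3and, Rep] at h h' ⊢ <;>
    constructor <;> intro hh <;> simp_all

theorem rep_mx {v w : K3} {a b : PExp} (ha : 0 ≤ a.eval y ∧ a.eval y ≤ 1)
    (hb : 0 ≤ b.eval y ∧ b.eval y ≤ 1) (h : Rep v (a.eval y)) (h' : Rep w (b.eval y)) :
    Rep (k3or v w) ((mx a b).eval y) := by
  rw [eval_mx ha.2 hb.2]
  rcases v with _ | _ | _ <;> rcases w with _ | _ | _ <;> simp only [k3or, Rep] at h h' ⊢ <;>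
    constructor <;> intro hh <;> simp_all

/-- all possible candidates agree -/
theorem mux_val {c : K3} {s a b : PExp} (hs : 0 ≤ s.eval y ∧ s.eval y ≤ 1)
    (ha : 0 ≤ a.eval y ∧ a.eval y ≤ 1) (hb : 0 ≤ b.eval y ∧ b.eval y ≤ 1)
    (hc : Rep c (s.eval y)) (v : ℚ) (h1 : c ≠ some false → a.eval y = v)
    (h2 : c ≠ some true → b.eval y = v) : (mux s a b).eval y = v := by
  have hm : 0 ≤ (compl s).eval y ∧ (compl s).eval y ≤ 1 := by
    rw [eval_compl hs.2]; exact ⟨by linarith, by linarith⟩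
  rcases c with _ | _ | _
  · rw [mux, eval_mix_same hm ha (by rw [h1 (by simp), h2 (by simp)])]
    exact h1 (by simp)
  · rw [mux, eval_mix_one (by rw [eval_compl hs.2, hc.2 rfl]; norm_num) ha hb]
    exact h2 (by simp)
  · rw [mux, eval_mix_zero (by rw [eval_compl hs.2, hc.1 rfl]; norm_num) ha hb]
    exact h1 (by simp)

theorem rep_mux {c v w : K3} {s a b : PExp} (hs : 0 ≤ s.eval y ∧ s.eval y ≤ 1)
    (ha : 0 ≤ a.eval y ∧ a.eval y ≤ 1) (hb : 0 ≤ b.eval y ∧ b.eval y ≤ 1)
    (hc : Rep c (s.eval y)) (h : Rep v (a.eval y)) (h' : Rep w (b.eval y)) :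
    Rep (k3mux c v w) ((mux s a b).eval y) := by
  rcases c with _ | _ | _
  · rcases v with _ | _ | _ <;> rcases w with _ | _ | _
    case none.some.false.some.false =>
      exact ⟨fun h => by simp [k3mux] at h,
        fun _ => mux_val hs ha hb hc 0 (fun _ => h.2 rfl) (fun _ => h'.2 rfl)⟩
    case none.some.true.some.true =>
      exact ⟨fun _ => mux_val hs ha hb hc 1 (fun _ => h.1 rfl) (fun _ => h'.1 rfl),
        fun h => by simp [k3mux] at h⟩
    all_goals exact ⟨fun h => by simp [k3mux] at h, fun h => by simp [k3mux] at h⟩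
  · rw [mux_val hs ha hb hc (b.eval y) (fun h => absurd rfl h) (fun _ => rfl)]
    exact h'
  · rw [mux_val hs ha hb hc (a.eval y) (fun _ => rfl) (fun h => absurd rfl h)]
    exact h

end values


/-! ### the system -/

/-- parameters of the rules: thresholds `t`, `z`, uncertainty `e`, force `κ'`, slope `h`, number of
samples `d` -/
structure QPar where
  t : ℚ
  z : ℚ
  e : ℚ
  κ' : ℚ
  h : ℕ
  d : ℕ

/-- admissible parameters of the rules -/
structure QPar.OK (q : QPar) : Prop where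
  e_pos : 0 < q.e
  e_le : q.e ≤ 1 / 100
  t_ge : q.e ≤ q.t
  t_le : q.t ≤ 1
  z_ge : q.e ≤ q.z
  z_le : q.z ≤ 1
  κ_nn : 0 ≤ q.κ'
  κ_le : q.κ' ≤ 1
  h_ge : 1 ≤ (q.h : ℚ) * q.e

theorem QPar.OK.h_pos {q : QPar} (hq : q.OK) : 0 < q.h := by
  rcases Nat.eq_zero_or_pos q.h with h | h
  · have := hq.h_ge
    rw [h] at this
    norm_num at this
  · exact h

section system
variable {k l r : ℕ}

/-- the `m`-th input bit of a unit function -/
def inp (k l off : ℕ) (m : Fin (k * l)) : PExp :=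
  .var (1 + (finProdFinEquiv.symm m).1.val) (off + (finProdFinEquiv.symm m).2.val)

/-- a unit function of the (sharpened) labels of the `k` neighbours -/
def fnE (k l off : ℕ) (f : (Fin k → Fin l → Bool) → Bool) : PExp :=
  bex (k * l) (fun x => f fun i j => x (finProdFinEquiv (i, j))) fun m => qE (inp k l off m)

/-- some input bit is indefinite -/
def anyInd (k l off : ℕ) : PExp := mxL (List.ofFn fun m : Fin (k * l) => indE (inp k l off m))

/-- sampled mean of variable `m` -/
def est (q : QPar) (k m : ℕ) : PExp := avg (List.ofFn fun i : Fin q.d => PExp.var (1 + k + i) m)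

/-- comparison of the sampled mean of variable `m` with `t` -/
def cmpE (q : QPar) (k m : ℕ) (t : ℚ) : PExp := compl (ramp (t - q.e / 2) q.h (est q k m))

/-- the label at offset `off` differs from `c` or is indefinite -/
def neE (l off : ℕ) (c : Fin l → PExp) : PExp :=
  mxL (List.ofFn fun j : Fin l => mx (indE (.var 0 (off + j))) (dst (c j) (qE (.var 0 (off + j)))))

/-- flag: test of the array at offset `off` -/
def tE (R : LRules k l r) (pb : Fin r → Bool) (off : ℕ) : PExp :=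
  mx (anyInd k l off) (fnE k l off fun g => R.viol g pb)

/-- flag: `A ≠ B` -/
def abE (l : ℕ) : PExp :=
  mxL (List.ofFn fun j : Fin l => mx (mx (indE (.var 0 j)) (indE (.var 0 (l + j))))
    (dst (qE (.var 0 j)) (qE (.var 0 (l + j)))))

/-- rule of `A` -/
def candA (R : LRules k l r) (q : QPar) (pb : Fin r → Bool) (w0 : Fin l → Bool) (j : Fin l) :
    PExp :=
  mux (cmpE q k (2 * l + 8) (3 / 4))
    (mux (cmpE q k (2 * l + 7) (3 / 20))
      (mux (cmpE q k (2 * l + 8) (1 / 4)) (qE (.var 0 (l + j)))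
        (fnE k l l fun g => R.Mu g pb j))
      (fnE k l 0 fun g => R.corr g pb j))
    (.const (b2q (w0 j)))

/-- rule of `B` -/
def candB (R : LRules k l r) (q : QPar) (pb : Fin r → Bool) (w0 : Fin l → Bool) (j : Fin l) :
    PExp :=
  mux (cmpE q k (2 * l + 8) (3 / 4))
    (mux (cmpE q k (2 * l + 7) (17 / 20))
      (fnE k l l fun g => R.corr g pb j)
      (mux (cmpE q k (2 * l + 8) (1 / 4)) (fnE k l 0 fun g => R.Nu g pb j)
        (qE (.var 0 (0 + j)))))
    (.const (b2q (w0 j)))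

/-- force of `s` -/
def forceS (q : QPar) (k l : ℕ) : PExp :=
  mux (cmpE q k (2 * l + 8) (1 / 4))
    (mux (cmpE q k (2 * l + 7) (1 / 2)) (cmpE q k (2 * l + 2) q.t)
      (compl (mn (cmpE q k (2 * l + 3) q.t) (compl (cmpE q k (2 * l + 2) q.t)))))
    (mux (cmpE q k (2 * l + 7) (1 / 2))
      (mn (cmpE q k (2 * l + 4) q.t) (compl (cmpE q k (2 * l + 2) q.t)))
      (compl (cmpE q k (2 * l + 2) q.t)))

/-- force of `ψ` -/
def forceP (q : QPar) (k l : ℕ) : PExp :=
  mn (compl (mn (cmpE q k (2 * l + 5) q.t) (cmpE q k (2 * l + 6) q.t)))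
    (mx
      (mx
        (mx (mn (cmpE q k (2 * l + 7) (7 / 10)) (compl (cmpE q k (2 * l + 1) q.z)))
          (mn (compl (cmpE q k (2 * l + 7) (3 / 10))) (compl (cmpE q k (2 * l) q.z))))
        (mn (mn (compl (cmpE q k (2 * l + 7) (7 / 20))) (cmpE q k (2 * l + 7) (13 / 20)))
          (mn (compl (cmpE q k (2 * l + 2) q.t)) (compl (cmpE q k (2 * l + 3) q.t)))))
      (compl (cmpE q k (2 * l + 8) (1 / 2))))

/-- scalar driven by a force -/
def drive (q : QPar) (k m : ℕ) (F : PExp) : PExp :=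
  .add (.sub (est q k m) (.scale q.κ' (compl F))) (.scale q.κ' F)

/-- the rule of variable `v` of a unit of type `t` -/
def rule (R : LRules k l r) (q : QPar) (t v : ℕ) : PExp :=
  if h : v < l then candA R q (fun i => t.testBit i) (fun j => t.testBit (r + j)) ⟨v, h⟩
  else if h : v < 2 * l then
    candB R q (fun i => t.testBit i) (fun j => t.testBit (r + j)) ⟨v - l, by omega⟩
  else if v = 2 * l then tE R (fun i => t.testBit i) 0
  else if v = 2 * l + 1 then tE R (fun i => t.testBit i) l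
  else if v = 2 * l + 2 then abE l
  else if v = 2 * l + 3 then neE l l fun j => fnE k l 0 fun g => R.Nu g (fun i => t.testBit i) j
  else if v = 2 * l + 4 then neE l 0 fun j => fnE k l l fun g => R.Mu g (fun i => t.testBit i) j
  else if v = 2 * l + 5 then neE l 0 fun j => .const (b2q (t.testBit (r + j)))
  else if v = 2 * l + 6 then neE l l fun j => .const (b2q (t.testBit (r + j)))
  else if v = 2 * l + 7 then drive q k (2 * l + 7) (forceS q k l)
  else drive q k (2 * l + 8) (forceP q k l)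

/-- **the system of a unit-level machine** -/
def sys (R : LRules k l r) (q : QPar) : LSys where
  T := 2 ^ (r + l)
  K := 1 + k + q.d
  L := 2 * l + 9
  rule := rule R q

/-! ### well-formedness -/

section wf
variable {q : QPar}

theorem inp_WF {off : ℕ} (ho : off = 0 ∨ off = l) (d : ℕ) (m : Fin (k * l)) :
    (inp k l off m).WF (1 + k + d) (2 * l + 9) := by
  have h1 := (finProdFinEquiv.symm m).1.isLt
  have h2 := (finProdFinEquiv.symm m).2.isLt
  refine ⟨?_, ?_⟩ <;> rcases ho with rfl | rfl <;> omega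

theorem fnE_WF {off : ℕ} (ho : off = 0 ∨ off = l) (d : ℕ) (f : (Fin k → Fin l → Bool) → Bool) :
    (fnE k l off f).WF (1 + k + d) (2 * l + 9) :=
  bex_WF fun m => qE_WF (inp_WF ho d m)

theorem var0_WF {m d : ℕ} (h : m < 2 * l + 9) : (PExp.var 0 m).WF (1 + k + d) (2 * l + 9) :=
  ⟨by omega, h⟩

theorem est_WF (q : QPar) {m : ℕ} (h : m < 2 * l + 9) : (est q k m).WF (1 + k + q.d) (2 * l + 9) := by
  refine avg_WF fun a ha => ?_
  obtain ⟨i, rfl⟩ := (List.mem_ofFn' _ _).1 ha
  exact ⟨by have := i.isLt; show 1 + k + i.val < _; omega, h⟩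

theorem cmpE_WF {m : ℕ} (h : m < 2 * l + 9) {t : ℚ} (h0 : q.e / 2 ≤ t) (h1 : t ≤ 1)
    (he : 0 < q.e) : (cmpE q k m t).WF (1 + k + q.d) (2 * l + 9) :=
  compl_WF (ramp_WF (by linarith) (by linarith) _ (est_WF q h))

theorem neE_WF {off d : ℕ} (ho : off = 0 ∨ off = l) {c : Fin l → PExp}
    (hc : ∀ j, (c j).WF (1 + k + d) (2 * l + 9)) :
    (neE l off c).WF (1 + k + d) (2 * l + 9) := by
  refine mxL_WF fun a ha => ?_
  obtain ⟨j, rfl⟩ := (List.mem_ofFn' _ _).1 ha
  have hj := j.isLt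
  have hv : (PExp.var 0 (off + j)).WF (1 + k + d) (2 * l + 9) :=
    var0_WF (by rcases ho with rfl | rfl <;> omega)
  exact mx_WF (indE_WF hv) (dst_WF (hc j) (qE_WF hv))

theorem tE_WF (R : LRules k l r) (pb : Fin r → Bool) {off : ℕ} (ho : off = 0 ∨ off = l) (d : ℕ) :
    (tE R pb off).WF (1 + k + d) (2 * l + 9) := by
  refine mx_WF (mxL_WF fun a ha => ?_) (fnE_WF ho d _)
  obtain ⟨m, rfl⟩ := (List.mem_ofFn' _ _).1 ha
  exact indE_WF (inp_WF ho d m)

theorem abE_WF (d : ℕ) : (abE l).WF (1 + k + d) (2 * l + 9) := by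
  refine mxL_WF fun a ha => ?_
  obtain ⟨j, rfl⟩ := (List.mem_ofFn' _ _).1 ha
  have hj := j.isLt
  have h1 : (PExp.var 0 j).WF (1 + k + d) (2 * l + 9) := var0_WF (by omega)
  have h2 : (PExp.var 0 (l + j)).WF (1 + k + d) (2 * l + 9) := var0_WF (by omega)
  exact mx_WF (mx_WF (indE_WF h1) (indE_WF h2)) (dst_WF (qE_WF h1) (qE_WF h2))

theorem candA_WF (R : LRules k l r) (hq : q.OK) (pb : Fin r → Bool) (w0 : Fin l → Bool)
    (j : Fin l) : (candA R q pb w0 j).WF (1 + k + q.d) (2 * l + 9) := by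
  have he := hq.e_pos
  have he' := hq.e_le
  have hj := j.isLt
  refine mux_WF (cmpE_WF (by omega) (by linarith) (by norm_num) he)
    (mux_WF (cmpE_WF (by omega) (by linarith) (by norm_num) he)
      (mux_WF (cmpE_WF (by omega) (by linarith) (by norm_num) he)
        (qE_WF (var0_WF (by omega))) (fnE_WF (Or.inr rfl) _ _)) (fnE_WF (Or.inl rfl) _ _))
    (b2q_mem _)

theorem candB_WF (R : LRules k l r) (hq : q.OK) (pb : Fin r → Bool) (w0 : Fin l → Bool)
    (j : Fin l) : (candB R q pb w0 j).WF (1 + k + q.d) (2 * l + 9) := by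
  have he := hq.e_pos
  have he' := hq.e_le
  have hj := j.isLt
  refine mux_WF (cmpE_WF (by omega) (by linarith) (by norm_num) he)
    (mux_WF (cmpE_WF (by omega) (by linarith) (by norm_num) he)
      (fnE_WF (Or.inr rfl) _ _)
      (mux_WF (cmpE_WF (by omega) (by linarith) (by norm_num) he)
        (fnE_WF (Or.inl rfl) _ _) (qE_WF (var0_WF (by omega)))))
    (b2q_mem _)

theorem forceS_WF (hq : q.OK) : (forceS q k l).WF (1 + k + q.d) (2 * l + 9) := by
  have he := hq.e_pos
  have he' := hq.e_le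
  have ht : ∀ m < 2 * l + 9, (cmpE q k m q.t).WF (1 + k + q.d) (2 * l + 9) := fun m hm =>
    cmpE_WF hm (by linarith [hq.t_ge]) hq.t_le he
  have hc : ∀ m < 2 * l + 9, ∀ t : ℚ, 1 / 100 ≤ t → t ≤ 1 →
      (cmpE q k m t).WF (1 + k + q.d) (2 * l + 9) := fun m hm t h0 h1 =>
    cmpE_WF hm (by linarith) h1 he
  exact mux_WF (hc _ (by omega) _ (by norm_num) (by norm_num))
    (mux_WF (hc _ (by omega) _ (by norm_num) (by norm_num)) (ht _ (by omega))
      (compl_WF (mn_WF (ht _ (by omega)) (compl_WF (ht _ (by omega))))))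
    (mux_WF (hc _ (by omega) _ (by norm_num) (by norm_num))
      (mn_WF (ht _ (by omega)) (compl_WF (ht _ (by omega)))) (compl_WF (ht _ (by omega))))

theorem forceP_WF (hq : q.OK) : (forceP q k l).WF (1 + k + q.d) (2 * l + 9) := by
  have he := hq.e_pos
  have he' := hq.e_le
  have ht : ∀ m < 2 * l + 9, (cmpE q k m q.t).WF (1 + k + q.d) (2 * l + 9) := fun m hm =>
    cmpE_WF hm (by linarith [hq.t_ge]) hq.t_le he
  have hz : ∀ m < 2 * l + 9, (cmpE q k m q.z).WF (1 + k + q.d) (2 * l + 9) := fun m hm =>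
    cmpE_WF hm (by linarith [hq.z_ge]) hq.z_le he
  have hc : ∀ m < 2 * l + 9, ∀ t : ℚ, 1 / 100 ≤ t → t ≤ 1 →
      (cmpE q k m t).WF (1 + k + q.d) (2 * l + 9) := fun m hm t h0 h1 =>
    cmpE_WF hm (by linarith) h1 he
  exact mn_WF (compl_WF (mn_WF (ht _ (by omega)) (ht _ (by omega))))
    (mx_WF
      (mx_WF
        (mx_WF (mn_WF (hc _ (by omega) _ (by norm_num) (by norm_num)) (compl_WF (hz _ (by omega))))
          (mn_WF (compl_WF (hc _ (by omega) _ (by norm_num) (by norm_num)))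
            (compl_WF (hz _ (by omega)))))
        (mn_WF (mn_WF (compl_WF (hc _ (by omega) _ (by norm_num) (by norm_num)))
            (hc _ (by omega) _ (by norm_num) (by norm_num)))
          (mn_WF (compl_WF (ht _ (by omega))) (compl_WF (ht _ (by omega))))))
      (compl_WF (hc _ (by omega) _ (by norm_num) (by norm_num))))

theorem drive_WF (hq : q.OK) {m : ℕ} (hm : m < 2 * l + 9) {F : PExp}
    (hF : F.WF (1 + k + q.d) (2 * l + 9)) : (drive q k m F).WF (1 + k + q.d) (2 * l + 9) :=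
  ⟨⟨est_WF q hm, ⟨hq.κ_nn, hq.κ_le⟩, compl_WF hF⟩, ⟨hq.κ_nn, hq.κ_le⟩, hF⟩

theorem rule_WF (R : LRules k l r) (hq : q.OK) (t v : ℕ) (_hv : v < 2 * l + 9) :
    (rule R q t v).WF (1 + k + q.d) (2 * l + 9) := by
  unfold rule
  split_ifs
  · exact candA_WF R hq _ _ _
  · exact candB_WF R hq _ _ _
  · exact tE_WF R _ (Or.inl rfl) _
  · exact tE_WF R _ (Or.inr rfl) _
  · exact abE_WF _
  · exact neE_WF (Or.inr rfl) fun j => fnE_WF (Or.inl rfl) _ _
  · exact neE_WF (Or.inl rfl) fun j => fnE_WF (Or.inr rfl) _ _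
  · exact neE_WF (Or.inl rfl) fun j => b2q_mem _
  · exact neE_WF (Or.inr rfl) fun j => b2q_mem _
  · exact drive_WF hq (by omega) (forceS_WF hq)
  · exact drive_WF hq (by omega) (forceP_WF hq)

theorem sys_WF (R : LRules k l r) (hq : q.OK) : (sys R q).WF :=
  ⟨by show 0 < 2 * l + 9; omega, fun t _ v hv => rule_WF R hq t v hv⟩

end wf

end system


/-! ### local semantics -/

section semantics
variable {k l r d n : ℕ}

/-- an instance of the system: list of units with its neighbour maps, samples, public bits, `w0` -/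
structure Inst (k l r d n : ℕ) where
  U : Units
  nb : Fin k → Fin n → Fin n
  smp : Fin d → Fin n → Fin n
  pub : Fin n → Fin r → Bool
  w0 : Fin n → Fin l → Bool
  len : U.length = n
  self : ∀ u : Fin n, U.nbr u 0 = u
  hnb : ∀ (u : Fin n) (i : Fin k), U.nbr u (1 + i) = nb i u
  hsm : ∀ (u : Fin n) (i : Fin d), U.nbr u (1 + k + i) = smp i u
  hpub : ∀ (u : Fin n) (i : Fin r), pub u i = (U.ty u).testBit i
  hw0 : ∀ (u : Fin n) (j : Fin l), w0 u j = (U.ty u).testBit (r + j)

/-- local view of unit `u` -/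
def view (I : Inst k l r d n) (x : ℕ → ℕ → ℚ) (u : Fin n) : ℕ → ℕ → ℚ :=
  fun a b => x (I.U.nbr u a) b

open Classical in
/-- the array of labels at offset `off` (defined where all bits have property `P`) -/
noncomputable def arr (P : ℚ → Prop) (l off : ℕ) (x : ℕ → ℕ → ℚ) {n : ℕ} (u : Fin n) :
    Option (Fin l → Bool) :=
  if ∀ j : Fin l, P (x u (off + j)) then some fun j => decide (1 / 2 ≤ x u (off + j)) else none

theorem arr_eq {P : ℚ → Prop} {off : ℕ} {x : ℕ → ℕ → ℚ} {u : Fin n} {g : Fin l → Bool} :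
    arr P l off x u = some g ↔
      (∀ j : Fin l, P (x u (off + j))) ∧ ∀ j, g j = decide (1 / 2 ≤ x u (off + j)) := by
  unfold arr
  split_ifs with h
  · rw [Option.some.injEq]
    constructor
    · rintro rfl
      exact ⟨h, fun j => rfl⟩
    · rintro ⟨_, h2⟩
      funext j
      exact (h2 j).symm
  · constructor
    · intro h'; exact absurd h' (by simp)
    · rintro ⟨h1, _⟩; exact absurd h1 h

theorem arr_sh_rd {off : ℕ} {x : ℕ → ℕ → ℚ} {u : Fin n} {g : Fin l → Bool}
    (h : arr Sh l off x u = some g) : arr Rd l off x u = some g := by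
  rw [arr_eq] at h ⊢
  exact ⟨fun j => (h.1 j).rd, h.2⟩

theorem arr_none {P : ℚ → Prop} {off : ℕ} {x : ℕ → ℕ → ℚ} {u : Fin n}
    (h : ∀ g : Fin l → Bool, arr P l off x u ≠ some g) : ∃ j : Fin l, ¬ P (x u (off + j)) := by
  by_contra hc
  push Not at hc
  exact h _ (arr_eq.2 ⟨hc, fun j => rfl⟩)

theorem lift_some {U β : Type} {f : (Fin k → Fin l → Bool) → (Fin r → Bool) → β}
    {nb : Fin k → U → U} {pub : U → Fin r → Bool} {X : U → Option (Fin l → Bool)} {u : U}
    {g : Fin k → Fin l → Bool} (h : ∀ i, X (nb i u) = some (g i)) :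
    lift f nb pub X u = some (f g (pub u)) := by
  unfold lift
  have hex : ∃ x : Fin k → Fin l → Bool, ∀ i, X (nb i u) = some (x i) := ⟨g, h⟩
  rw [dif_pos hex]
  have : hex.choose = g := by
    funext i
    have h1 := hex.choose_spec i
    rw [h i] at h1
    exact (Option.some.inj h1).symm
  rw [this]

theorem lift_inv {U β : Type} {f : (Fin k → Fin l → Bool) → (Fin r → Bool) → β}
    {nb : Fin k → U → U} {pub : U → Fin r → Bool} {X : U → Option (Fin l → Bool)} {u : U} {b : β}
    (h : lift f nb pub X u = some b) :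
    ∃ g : Fin k → Fin l → Bool, (∀ i, X (nb i u) = some (g i)) ∧ b = f g (pub u) := by
  by_cases hex : ∃ x : Fin k → Fin l → Bool, ∀ i, X (nb i u) = some (x i)
  · obtain ⟨g, hg⟩ := hex
    refine ⟨g, hg, ?_⟩
    rw [lift_some hg] at h
    exact (Option.some.inj h).symm
  · unfold lift at h
    rw [dif_neg hex] at h
    exact absurd h (by simp)

theorem lift_none {U β : Type} {f : (Fin k → Fin l → Bool) → (Fin r → Bool) → β}
    {nb : Fin k → U → U} {pub : U → Fin r → Bool} {X : U → Option (Fin l → Bool)} {u : U}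
    (h : lift f nb pub X u = none) : ∃ i, ∀ g : Fin l → Bool, X (nb i u) ≠ some g := by
  by_contra hc
  push Not at hc
  choose g hg using hc
  rw [lift_some hg] at h
  exact absurd h (by simp)

variable {I : Inst k l r d n} {x : ℕ → ℕ → ℚ} {u : Fin n} {off : ℕ}

theorem view_self (b : ℕ) : view I x u 0 b = x u b := by
  unfold view; rw [I.self]

theorem view_nb (i : Fin k) (b : ℕ) : view I x u (1 + i) b = x (I.nb i u) b := by
  unfold view; rw [I.hnb]

theorem view_smp (i : Fin d) (b : ℕ) : view I x u (1 + k + i) b = x (I.smp i u) b := by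
  unfold view; rw [I.hsm]

theorem view_mem (hx : ∀ a b, 0 ≤ x a b ∧ x a b ≤ 1) (a b : ℕ) :
    0 ≤ view I x u a b ∧ view I x u a b ≤ 1 := hx _ _

theorem eval_inp (m : Fin (k * l)) : (inp k l off m).eval (view I x u) =
    x (I.nb (finProdFinEquiv.symm m).1 u) (off + (finProdFinEquiv.symm m).2) :=
  view_nb _ _

open Classical in
/-- a unit function is exact as soon as the readable neighbours force its value -/
theorem eval_fnE' (hx : ∀ a b, 0 ≤ x a b ∧ x a b ≤ 1) (ho : off = 0 ∨ off = l)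
    (f : (Fin k → Fin l → Bool) → Bool) (g : Bool)
    (hf : ∀ X : Fin k → Fin l → Bool,
      (∀ i y, arr Rd l off x (I.nb i u) = some y → X i = y) → f X = g) :
    (fnE k l off f).eval (view I x u) = b2q g := by
  refine eval_bex (y := view I x u) (K := 1 + k + 0) (L := 2 * l + 9)
    (fun a b => view_mem hx a b)
    (f := fun x => f fun i j => x (finProdFinEquiv (i, j)))
    (v := fun m => qE (inp k l off m)) (fun m => qE_WF (inp_WF ho 0 m))
    (fun m => if Rd ((inp k l off m).eval (view I x u))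
      then some (decide (1 / 2 ≤ (inp k l off m).eval (view I x u))) else none)
    (fun m c hc => ?_) g fun z hz => hf _ fun i y hy => ?_
  · split_ifs at hc with hr
    rw [eval_qE hr, Option.some.inj hc]
  · funext j
    have h1 := arr_eq.1 hy
    have h2 := hz (finProdFinEquiv (i, j)) (y j)
    rw [eval_inp, Equiv.symm_apply_apply] at h2
    rw [if_pos (h1.1 j), ← h1.2 j] at h2
    exact h2 rfl

theorem eval_fnE (hx : ∀ a b, 0 ≤ x a b ∧ x a b ≤ 1) (ho : off = 0 ∨ off = l)
    {g : Fin k → Fin l → Bool} (hg : ∀ i, arr Rd l off x (I.nb i u) = some (g i))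
    (f : (Fin k → Fin l → Bool) → Bool) : (fnE k l off f).eval (view I x u) = b2q (f g) :=
  eval_fnE' hx ho f _ fun X hX => by
    rw [show X = g from funext fun i => hX i _ (hg i)]

theorem klift_inv {U β : Type} {f : (Fin k → Fin l → Bool) → (Fin r → Bool) → β}
    {nb : Fin k → U → U} {pub : U → Fin r → Bool} {X : U → Option (Fin l → Bool)} {u : U} {g : β}
    (h : klift f nb pub X u = some g) (x : Fin k → Fin l → Bool)
    (hx : ∀ i y, X (nb i u) = some y → x i = y) : f x (pub u) = g := by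
  unfold klift at h
  split_ifs at h with hex
  rw [← Option.some.inj h]
  exact hex.choose_spec x hx

/-- the value of a step map at a unit, bit by bit -/
theorem eval_klift (hx : ∀ a b, 0 ≤ x a b ∧ x a b ≤ 1) (ho : off = 0 ∨ off = l)
    {f : (Fin k → Fin l → Bool) → (Fin r → Bool) → Fin l → Bool} {g : Fin l → Bool}
    (h : klift f I.nb I.pub (arr Rd l off x) u = some g) (j : Fin l) :
    (fnE k l off fun G => f G (I.pub u) j).eval (view I x u) = b2q (g j) :=
  eval_fnE' hx ho _ _ fun X hX => by rw [klift_inv h X hX]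

theorem fnE_mem (hx : ∀ a b, 0 ≤ x a b ∧ x a b ≤ 1) (ho : off = 0 ∨ off = l)
    (f : (Fin k → Fin l → Bool) → Bool) : 0 ≤ (fnE k l off f).eval (view I x u) ∧
      (fnE k l off f).eval (view I x u) ≤ 1 :=
  eval_mem (fnE_WF ho 0 f) fun a b => view_mem hx a b

theorem qE_mem {y : ℕ → ℕ → ℚ} (a : PExp) : 0 ≤ (qE a).eval y ∧ (qE a).eval y ≤ 1 :=
  eval_ramp_mem _ _ _

theorem ind_mem {y : ℕ → ℕ → ℚ} (a : PExp) :
    0 ≤ (indE a).eval y ∧ (indE a).eval y ≤ 1 := by
  rw [indE, eval_mn (eval_ramp_mem _ _ _).1 (eval_ramp_mem _ _ _).1]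
  exact ⟨le_min (eval_ramp_mem _ _ _).1 (eval_ramp_mem _ _ _).1,
    (min_le_left _ _).trans (eval_ramp_mem _ _ _).2⟩

theorem eval_tE_one (hx : ∀ a b, 0 ≤ x a b ∧ x a b ≤ 1) (ho : off = 0 ∨ off = l)
    (R : LRules k l r) (h : (lift R.viol I.nb I.pub (arr Rd l off x) u).getD true = true) :
    (tE R (I.pub u) off).eval (view I x u) = 1 := by
  have hin : ∀ a ∈ List.ofFn (fun m : Fin (k * l) => indE (inp k l off m)),
      0 ≤ a.eval (view I x u) ∧ a.eval (view I x u) ≤ 1 := by
    intro a ha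
    obtain ⟨m, rfl⟩ := (List.mem_ofFn' _ _).1 ha
    exact ind_mem _
  have hi : 0 ≤ (anyInd k l off).eval (view I x u) ∧ (anyInd k l off).eval (view I x u) ≤ 1 :=
    eval_mxL_mem hin
  have hf := fnE_mem (I := I) (u := u) hx ho fun g => R.viol g (I.pub u)
  rw [tE, eval_mx hi.2 hf.2]
  rcases hl : lift R.viol I.nb I.pub (arr Rd l off x) u with _ | b
  · obtain ⟨i, hi'⟩ := lift_none hl
    obtain ⟨j, hj⟩ := arr_none hi'
    have e1 : (anyInd k l off).eval (view I x u) = 1 := by
      refine eval_mxL_one hin (a := indE (inp k l off (finProdFinEquiv (i, j))))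
        ((List.mem_ofFn' _ _).2 ⟨_, rfl⟩) (eval_indE_one ?_ ?_)
      · rw [eval_inp]; exact (hx _ _).2
      · rw [eval_inp, Equiv.symm_apply_apply]; exact hj
    rw [e1, max_eq_left hf.2]
  · rw [hl] at h
    obtain ⟨g, hg, hb⟩ := lift_inv hl
    have e1 : (fnE k l off fun g => R.viol g (I.pub u)).eval (view I x u) = 1 := by
      rw [eval_fnE hx ho hg, ← hb]
      rw [show b = true from h]; rfl
    rw [e1, max_eq_right hi.2]

theorem eval_tE_zero (hx : ∀ a b, 0 ≤ x a b ∧ x a b ≤ 1) (ho : off = 0 ∨ off = l)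
    (R : LRules k l r) (h : (lift R.viol I.nb I.pub (arr Sh l off x) u).getD true = false) :
    (tE R (I.pub u) off).eval (view I x u) = 0 := by
  rcases hl : lift R.viol I.nb I.pub (arr Sh l off x) u with _ | b
  · rw [hl] at h; exact absurd h (by simp)
  rw [hl] at h
  obtain ⟨g, hg, hb⟩ := lift_inv hl
  have hz : (anyInd k l off).eval (view I x u) = 0 := by
    refine eval_mxL_zero fun a ha => ?_
    obtain ⟨m, rfl⟩ := (List.mem_ofFn' _ _).1 ha
    refine eval_indE_zero ?_ ?_
    · rw [eval_inp]; exact (hx _ _).2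
    · rw [eval_inp]; exact (arr_eq.1 (hg _)).1 _
  have e1 : (fnE k l off fun g => R.viol g (I.pub u)).eval (view I x u) = 0 := by
    rw [eval_fnE hx ho fun i => arr_sh_rd (hg i), ← hb]
    rw [show b = false from h]; rfl
  rw [tE, eval_mx (by rw [hz]; norm_num) (by rw [e1]; norm_num), hz, e1, max_self]

theorem b2q_sub {a b : Bool} (h : a ≠ b) : |b2q a - b2q b| = 1 := by
  cases a <;> cases b <;> simp_all [b2q]

theorem eval_neE_one (hx : ∀ a b, 0 ≤ x a b ∧ x a b ≤ 1) {c : Fin l → PExp} {g : Fin l → Bool}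
    (hc : ∀ j, (c j).eval (view I x u) = b2q (g j)) (h : arr Rd l off x u ≠ some g) :
    (neE l off c).eval (view I x u) = 1 := by
  have hv : ∀ j : Fin l, (PExp.var 0 (off + j)).eval (view I x u) = x u (off + j) :=
    fun j => view_self _
  have hv1 : ∀ j : Fin l, 0 ≤ (PExp.var 0 (off + j)).eval (view I x u) ∧
      (PExp.var 0 (off + j)).eval (view I x u) ≤ 1 := fun j => by rw [hv]; exact hx _ _
  have hcm : ∀ j, 0 ≤ (c j).eval (view I x u) ∧ (c j).eval (view I x u) ≤ 1 :=
    fun j => by rw [hc]; exact b2q_mem _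
  have hqm : ∀ j : Fin l, 0 ≤ (qE (.var 0 (off + j))).eval (view I x u) ∧
      (qE (.var 0 (off + j))).eval (view I x u) ≤ 1 := fun j => qE_mem _
  have hdm : ∀ j : Fin l, 0 ≤ (dst (c j) (qE (.var 0 (off + j)))).eval (view I x u) ∧
      (dst (c j) (qE (.var 0 (off + j)))).eval (view I x u) ≤ 1 := fun j => by
    rw [eval_dst (hcm j) (hqm j)]
    have h1 := hcm j
    have h2 := hqm j
    exact ⟨abs_nonneg _, abs_le.2 ⟨by linarith, by linarith⟩⟩
  have him : ∀ j : Fin l, 0 ≤ (indE (.var 0 (off + j))).eval (view I x u) ∧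
      (indE (.var 0 (off + j))).eval (view I x u) ≤ 1 := fun j => ind_mem _
  have hin : ∀ a ∈ List.ofFn (fun j : Fin l => mx (indE (.var 0 (off + j)))
      (dst (c j) (qE (.var 0 (off + j))))),
      0 ≤ a.eval (view I x u) ∧ a.eval (view I x u) ≤ 1 := by
    intro a ha
    obtain ⟨j, rfl⟩ := (List.mem_ofFn' _ _).1 ha
    simp only
    rw [eval_mx (him j).2 (hdm j).2]
    exact ⟨(him j).1.trans (le_max_left _ _), max_le (him j).2 (hdm j).2⟩
  by_cases hr : ∀ j : Fin l, Rd (x u (off + j))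
  · have hne : ∃ j, g j ≠ decide (1 / 2 ≤ x u (off + j)) := by
      by_contra hcon
      push Not at hcon
      exact h (arr_eq.2 ⟨hr, hcon⟩)
    obtain ⟨j, hj⟩ := hne
    refine eval_mxL_one hin (a := mx (indE (.var 0 (off + j))) (dst (c j) (qE (.var 0 (off + j)))))
      ((List.mem_ofFn' _ _).2 ⟨j, rfl⟩) ?_
    have e1 : (dst (c j) (qE (.var 0 (off + j)))).eval (view I x u) = 1 := by
      rw [eval_dst (hcm j) (hqm j), hc, eval_qE (by rw [hv]; exact hr j), hv]
      exact b2q_sub hj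
    rw [eval_mx (him j).2 (hdm j).2, e1, max_eq_right (him j).2]
  · push Not at hr
    obtain ⟨j, hj⟩ := hr
    refine eval_mxL_one hin (a := mx (indE (.var 0 (off + j))) (dst (c j) (qE (.var 0 (off + j)))))
      ((List.mem_ofFn' _ _).2 ⟨j, rfl⟩) ?_
    have e1 : (indE (.var 0 (off + j))).eval (view I x u) = 1 :=
      eval_indE_one (hv1 j).2 (by rw [hv]; exact hj)
    rw [eval_mx (him j).2 (hdm j).2, e1, max_eq_left (hdm j).2]

theorem eval_neE_zero (hx : ∀ a b, 0 ≤ x a b ∧ x a b ≤ 1) {c : Fin l → PExp} {g : Fin l → Bool}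
    (hc : ∀ j, (c j).eval (view I x u) = b2q (g j)) (h : arr Sh l off x u = some g) :
    (neE l off c).eval (view I x u) = 0 := by
  have hv : ∀ j : Fin l, (PExp.var 0 (off + j)).eval (view I x u) = x u (off + j) :=
    fun j => view_self _
  rw [arr_eq] at h
  refine eval_mxL_zero fun a ha => ?_
  obtain ⟨j, rfl⟩ := (List.mem_ofFn' _ _).1 ha
  simp only
  have e1 : (indE (.var 0 (off + j))).eval (view I x u) = 0 :=
    eval_indE_zero (by rw [hv]; exact (hx _ _).2) (by rw [hv]; exact h.1 j)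
  have e2 : (dst (c j) (qE (.var 0 (off + j)))).eval (view I x u) = 0 := by
    rw [eval_dst (by rw [hc]; exact b2q_mem _) (qE_mem _), hc,
      eval_qE (by rw [hv]; exact (h.1 j).rd), hv, h.2 j, sub_self, abs_zero]
  rw [eval_mx (by rw [e1]; norm_num) (by rw [e2]; norm_num), e1, e2, max_self]

theorem eval_abE_one (hx : ∀ a b, 0 ≤ x a b ∧ x a b ≤ 1)
    (h : ¬ ∃ g, arr Rd l 0 x u = some g ∧ arr Rd l l x u = some g) :
    (abE l).eval (view I x u) = 1 := by
  have hva : ∀ j : Fin l, (PExp.var 0 j).eval (view I x u) = x u j := fun j => view_self _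
  have hvb : ∀ j : Fin l, (PExp.var 0 (l + j)).eval (view I x u) = x u (l + j) :=
    fun j => view_self _
  have hia : ∀ j : Fin l, 0 ≤ (indE (.var 0 j)).eval (view I x u) ∧
      (indE (.var 0 j)).eval (view I x u) ≤ 1 :=
    fun j => ind_mem _
  have hib : ∀ j : Fin l, 0 ≤ (indE (.var 0 (l + j))).eval (view I x u) ∧
      (indE (.var 0 (l + j))).eval (view I x u) ≤ 1 :=
    fun j => ind_mem _
  have hqa : ∀ j : Fin l, 0 ≤ (qE (.var 0 j)).eval (view I x u) ∧
      (qE (.var 0 j)).eval (view I x u) ≤ 1 := fun j => qE_mem _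
  have hqb : ∀ j : Fin l, 0 ≤ (qE (.var 0 (l + j))).eval (view I x u) ∧
      (qE (.var 0 (l + j))).eval (view I x u) ≤ 1 := fun j => qE_mem _
  have hdm : ∀ j : Fin l, 0 ≤ (dst (qE (.var 0 j)) (qE (.var 0 (l + j)))).eval (view I x u) ∧
      (dst (qE (.var 0 j)) (qE (.var 0 (l + j)))).eval (view I x u) ≤ 1 := fun j => by
    rw [eval_dst (hqa j) (hqb j)]
    have h1 := hqa j
    have h2 := hqb j
    exact ⟨abs_nonneg _, abs_le.2 ⟨by linarith, by linarith⟩⟩
  have him : ∀ j : Fin l,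
      0 ≤ (mx (indE (.var 0 j)) (indE (.var 0 (l + j)))).eval (view I x u) ∧
      (mx (indE (.var 0 j)) (indE (.var 0 (l + j)))).eval (view I x u) ≤ 1 := fun j => by
    rw [eval_mx (hia j).2 (hib j).2]
    exact ⟨(hia j).1.trans (le_max_left _ _), max_le (hia j).2 (hib j).2⟩
  have hin : ∀ a ∈ List.ofFn (fun j : Fin l => mx (mx (indE (.var 0 j)) (indE (.var 0 (l + j))))
      (dst (qE (.var 0 j)) (qE (.var 0 (l + j))))),
      0 ≤ a.eval (view I x u) ∧ a.eval (view I x u) ≤ 1 := by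
    intro a ha
    obtain ⟨j, rfl⟩ := (List.mem_ofFn' _ _).1 ha
    simp only
    rw [eval_mx (him j).2 (hdm j).2]
    exact ⟨(him j).1.trans (le_max_left _ _), max_le (him j).2 (hdm j).2⟩
  have key : ∃ j : Fin l, (mx (mx (indE (.var 0 j)) (indE (.var 0 (l + j))))
      (dst (qE (.var 0 j)) (qE (.var 0 (l + j))))).eval (view I x u) = 1 := by
    by_cases hra : ∀ j : Fin l, Rd (x u (0 + j))
    · by_cases hrb : ∀ j : Fin l, Rd (x u (l + j))
      · have hne : ∃ j : Fin l, decide (1 / 2 ≤ x u (0 + j)) ≠ decide (1 / 2 ≤ x u (l + j)) := by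
          by_contra hcon
          push Not at hcon
          refine h ⟨fun j => decide (1 / 2 ≤ x u (0 + j)), arr_eq.2 ⟨hra, fun j => rfl⟩,
            arr_eq.2 ⟨hrb, fun j => ?_⟩⟩
          exact hcon j
        obtain ⟨j, hj⟩ := hne
        refine ⟨j, ?_⟩
        have e1 : (dst (qE (.var 0 j)) (qE (.var 0 (l + j)))).eval (view I x u) = 1 := by
          have hra' := hra j
          rw [zero_add] at hra' hj
          rw [eval_dst (hqa j) (hqb j), eval_qE (by rw [hva]; exact hra'), hva,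
            eval_qE (by rw [hvb]; exact hrb j), hvb]
          exact b2q_sub hj
        rw [eval_mx (him j).2 (hdm j).2, e1, max_eq_right (him j).2]
      · push Not at hrb
        obtain ⟨j, hj⟩ := hrb
        refine ⟨j, ?_⟩
        have e1 : (indE (.var 0 (l + j))).eval (view I x u) = 1 :=
          eval_indE_one (by rw [hvb]; exact (hx _ _).2) (by rw [hvb]; exact hj)
        rw [eval_mx (him j).2 (hdm j).2, eval_mx (hia j).2 (hib j).2, e1,
          max_eq_right (hia j).2, max_eq_left (hdm j).2]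
    · push Not at hra
      obtain ⟨j, hj⟩ := hra
      rw [zero_add] at hj
      refine ⟨j, ?_⟩
      have e1 : (indE (.var 0 j)).eval (view I x u) = 1 :=
        eval_indE_one (by rw [hva]; exact (hx _ _).2) (by rw [hva]; exact hj)
      rw [eval_mx (him j).2 (hdm j).2, eval_mx (hia j).2 (hib j).2, e1,
        max_eq_left (hib j).2, max_eq_left (hdm j).2]
  obtain ⟨j, hj⟩ := key
  exact eval_mxL_one hin ((List.mem_ofFn' _ _).2 ⟨j, rfl⟩) hj

theorem eval_abE_zero (hx : ∀ a b, 0 ≤ x a b ∧ x a b ≤ 1)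
    (h : ∃ g, arr Sh l 0 x u = some g ∧ arr Sh l l x u = some g) :
    (abE l).eval (view I x u) = 0 := by
  obtain ⟨g, ha, hb⟩ := h
  rw [arr_eq] at ha hb
  have hva : ∀ j : Fin l, (PExp.var 0 j).eval (view I x u) = x u j := fun j => view_self _
  have hvb : ∀ j : Fin l, (PExp.var 0 (l + j)).eval (view I x u) = x u (l + j) :=
    fun j => view_self _
  refine eval_mxL_zero fun a ha' => ?_
  obtain ⟨j, rfl⟩ := (List.mem_ofFn' _ _).1 ha'
  simp only
  have ha1 := ha.1 j
  have ha2 := ha.2 j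
  rw [zero_add] at ha1 ha2
  have e1 : (indE (.var 0 j)).eval (view I x u) = 0 :=
    eval_indE_zero (by rw [hva]; exact (hx _ _).2) (by rw [hva]; exact ha1)
  have e1' : (indE (.var 0 (l + j))).eval (view I x u) = 0 :=
    eval_indE_zero (by rw [hvb]; exact (hx _ _).2) (by rw [hvb]; exact hb.1 j)
  have e2 : (dst (qE (.var 0 j)) (qE (.var 0 (l + j)))).eval (view I x u) = 0 := by
    rw [eval_dst (qE_mem _) (qE_mem _),
      eval_qE (by rw [hva]; exact ha1.rd), hva, eval_qE (by rw [hvb]; exact (hb.1 j).rd), hvb,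
      ← ha2, ← hb.2 j, sub_self, abs_zero]
  have e3 : (mx (indE (.var 0 j)) (indE (.var 0 (l + j)))).eval (view I x u) = 0 := by
    rw [eval_mx (by rw [e1]; norm_num) (by rw [e1']; norm_num), e1, e1', max_self]
  rw [eval_mx (by rw [e3]; norm_num) (by rw [e2]; norm_num), e3, e2, max_self]

end semantics


/-! ### fractions and means -/

section fractions
variable {U : Type} [Fintype U]

theorem frac_eq (p : U → Prop) [DecidablePred p] :
    frac p = (∑ u, if p u then (1 : ℝ) else 0) / (Fintype.card U : ℝ) := by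
  unfold frac
  congr 1
  rw [Finset.sum_boole]
  congr 1
  congr 1
  ext u
  simp

theorem frac_mono {p q : U → Prop} (h : ∀ u, p u → q u) : frac p ≤ frac q := by
  classical
  unfold frac
  refine div_le_div_of_nonneg_right ?_ (Nat.cast_nonneg _)
  exact_mod_cast Finset.card_le_card (fun u hu => by
    simp only [mem_filter, mem_univ, true_and] at hu ⊢
    exact h u hu)

theorem frac_nonneg (p : U → Prop) : 0 ≤ frac p := by
  unfold frac
  positivity

theorem frac_or_le (p q : U → Prop) : frac (fun u => p u ∨ q u) ≤ frac p + frac q := by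
  classical
  rw [frac_eq, frac_eq, frac_eq, ← add_div, ← Finset.sum_add_distrib]
  refine div_le_div_of_nonneg_right (Finset.sum_le_sum fun u _ => ?_) (Nat.cast_nonneg _)
  by_cases h1 : p u <;> by_cases h2 : q u <;> simp [h1, h2]

theorem frac_exists_le {ι : Type} [Fintype ι] (p : ι → U → Prop) :
    frac (fun u => ∃ i, p i u) ≤ ∑ i, frac (p i) := by
  classical
  simp only [frac_eq]
  rw [← Finset.sum_div, Finset.sum_comm]
  refine div_le_div_of_nonneg_right (Finset.sum_le_sum fun u _ => ?_) (Nat.cast_nonneg _)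
  by_cases h : ∃ i, p i u
  · obtain ⟨i, hi⟩ := h
    rw [if_pos ⟨i, hi⟩]
    have h1 : (if p i u then (1 : ℝ) else 0) ≤ ∑ j, if p j u then (1 : ℝ) else 0 :=
      Finset.single_le_sum (f := fun j => if p j u then (1 : ℝ) else 0)
        (fun j _ => by split_ifs <;> norm_num) (mem_univ i)
    rwa [if_pos hi] at h1
  · rw [if_neg h]
    exact Finset.sum_nonneg fun j _ => by split_ifs <;> norm_num

variable [Nonempty U]

theorem mean_ge {y : U → ℝ} (hy : ∀ u, 0 ≤ y u) {ok P : U → Prop} {η : ℝ} (hη : 0 ≤ η)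
    (h : ∀ u, ok u → P u → 1 - η ≤ y u) :
    frac P - frac (fun u => ¬ ok u) - η ≤ (∑ u, y u) / (Fintype.card U : ℝ) := by
  classical
  have hc : (0 : ℝ) < Fintype.card U := by exact_mod_cast Fintype.card_pos
  rw [frac_eq, frac_eq, le_div_iff₀ hc]
  have e : ((∑ u, if P u then (1 : ℝ) else 0) / (Fintype.card U : ℝ) -
      (∑ u, if ¬ ok u then (1 : ℝ) else 0) / (Fintype.card U : ℝ) - η) * (Fintype.card U : ℝ) =
      ∑ u, ((if P u then (1 : ℝ) else 0) - (if ¬ ok u then (1 : ℝ) else 0) - η) := by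
    rw [Finset.sum_sub_distrib, Finset.sum_sub_distrib, Finset.sum_const, card_univ, nsmul_eq_mul]
    field_simp
  rw [e]
  refine Finset.sum_le_sum fun u _ => ?_
  have h0 := hy u
  by_cases h1 : P u <;> by_cases h2 : ok u
  · have := h u h2 h1
    simp only [h1, h2, if_true, not_true_eq_false, if_false]
    linarith
  · simp only [h1, h2, if_true, not_false_eq_true]
    linarith
  · simp only [h1, h2, if_false, not_true_eq_false]
    linarith
  · simp only [h1, h2, if_false, not_false_eq_true, if_true]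
    linarith

theorem mean_le {y : U → ℝ} (hy : ∀ u, y u ≤ 1) {ok Q : U → Prop} {η : ℝ} (hη : 0 ≤ η)
    (h : ∀ u, ok u → ¬ Q u → y u ≤ η) :
    (∑ u, y u) / (Fintype.card U : ℝ) ≤ frac Q + frac (fun u => ¬ ok u) + η := by
  classical
  have hc : (0 : ℝ) < Fintype.card U := by exact_mod_cast Fintype.card_pos
  rw [frac_eq, frac_eq, div_le_iff₀ hc]
  have e : ((∑ u, if Q u then (1 : ℝ) else 0) / (Fintype.card U : ℝ) +
      (∑ u, if ¬ ok u then (1 : ℝ) else 0) / (Fintype.card U : ℝ) + η) * (Fintype.card U : ℝ) =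
      ∑ u, ((if Q u then (1 : ℝ) else 0) + (if ¬ ok u then (1 : ℝ) else 0) + η) := by
    rw [Finset.sum_add_distrib, Finset.sum_add_distrib, Finset.sum_const, card_univ, nsmul_eq_mul]
    field_simp
  rw [e]
  refine Finset.sum_le_sum fun u _ => ?_
  have h0 := hy u
  by_cases h1 : Q u <;> by_cases h2 : ok u
  · simp only [h1, h2, if_true, not_true_eq_false, if_false]
    linarith
  · simp only [h1, h2, if_true, not_false_eq_true]
    linarith
  · have := h u h2 h1
    simp only [h1, h2, if_false, not_true_eq_false]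
    linarith
  · simp only [h1, h2, if_false, not_false_eq_true, if_true]
    linarith

end fractions

/-! ### rounding of the scalars at the ends -/

/-- `v` moved linearly so that `[η, 1-η]` becomes `[0,1]`, clamped -/
noncomputable def rnd (η v : ℝ) : ℝ := max 0 (min 1 ((v - η) / (1 - 2 * η)))

theorem rnd_mem (η v : ℝ) : 0 ≤ rnd η v ∧ rnd η v ≤ 1 :=
  ⟨le_max_left _ _, max_le zero_le_one (min_le_left _ _)⟩

theorem rnd_one {η v : ℝ} (h1 : η ≤ 1 / 16) (hv : 1 - η ≤ v) : rnd η v = 1 := by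
  have h : 1 ≤ (v - η) / (1 - 2 * η) := by
    rw [le_div_iff₀ (by linarith)]
    linarith
  rw [rnd, min_eq_left h]
  exact max_eq_right zero_le_one

theorem rnd_zero {η v : ℝ} (h1 : η ≤ 1 / 16) (hv : v ≤ η) : rnd η v = 0 := by
  have h : (v - η) / (1 - 2 * η) ≤ 0 :=
    div_nonpos_of_nonpos_of_nonneg (by linarith) (by linarith)
  rw [rnd]
  exact max_eq_left ((min_le_right _ _).trans h)

theorem rnd_close {η v : ℝ} (h0 : 0 ≤ η) (h1 : η ≤ 1 / 16) (hv0 : 0 ≤ v) (hv1 : v ≤ 1) :
    |rnd η v - v| ≤ 2 * η := by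
  have hp : 0 < 1 - 2 * η := by linarith
  have hw : |(v - η) / (1 - 2 * η) - v| ≤ 2 * η := by
    have hne : 1 - 2 * η ≠ 0 := ne_of_gt hp
    have e : (v - η) / (1 - 2 * η) - v = η * (2 * v - 1) / (1 - 2 * η) := by
      rw [eq_div_iff hne, sub_mul, div_mul_cancel₀ _ hne]
      ring
    rw [e, abs_div, abs_of_pos hp, div_le_iff₀ hp, abs_mul, abs_of_nonneg h0]
    have h2 : |2 * v - 1| ≤ 1 := abs_le.2 ⟨by linarith, by linarith⟩
    calc η * |2 * v - 1| ≤ η * 1 := mul_le_mul_of_nonneg_left h2 h0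
      _ ≤ 2 * η * (1 - 2 * η) := by nlinarith
  rw [abs_le] at hw ⊢
  obtain ⟨ha, hb⟩ := hw
  unfold rnd
  constructor
  · have : v - 2 * η ≤ min 1 ((v - η) / (1 - 2 * η)) := le_min (by linarith) (by linarith)
    have h3 := this.trans (le_max_right 0 _)
    linarith
  · have : max 0 (min 1 ((v - η) / (1 - 2 * η))) ≤ v + 2 * η :=
      max_le (by linarith) ((min_le_right _ _).trans (by linarith))
    linarith


/-! ### the rules, variable by variable -/

section ruleEq
variable {k l r : ℕ} (R : LRules k l r) (q : QPar) (t : ℕ)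

theorem rule_A (j : Fin l) : rule R q t (0 + j) =
    candA R q (fun i => t.testBit i) (fun j => t.testBit (r + j)) j := by
  have h := j.isLt
  unfold rule
  rw [dif_pos (by omega)]
  congr 1
  exact Fin.ext (Nat.zero_add _)

theorem rule_B (j : Fin l) : rule R q t (l + j) =
    candB R q (fun i => t.testBit i) (fun j => t.testBit (r + j)) j := by
  have h := j.isLt
  unfold rule
  rw [dif_neg (by omega), dif_pos (by omega)]
  congr 1
  exact Fin.ext (by show l + j.val - l = j.val; omega)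

theorem rule_0 : rule R q t (2 * l) = tE R (fun i => t.testBit i) 0 := by
  unfold rule
  rw [dif_neg (by omega), dif_neg (by omega), if_pos rfl]

theorem rule_1 : rule R q t (2 * l + 1) = tE R (fun i => t.testBit i) l := by
  unfold rule
  rw [dif_neg (by omega), dif_neg (by omega), if_neg (by omega), if_pos rfl]

theorem rule_2 : rule R q t (2 * l + 2) = abE l := by
  unfold rule
  rw [dif_neg (by omega), dif_neg (by omega), if_neg (by omega), if_neg (by omega), if_pos rfl]

theorem rule_3 : rule R q t (2 * l + 3) =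
    neE l l fun j => fnE k l 0 fun g => R.Nu g (fun i => t.testBit i) j := by
  unfold rule
  rw [dif_neg (by omega), dif_neg (by omega), if_neg (by omega), if_neg (by omega),
    if_neg (by omega), if_pos rfl]

theorem rule_4 : rule R q t (2 * l + 4) =
    neE l 0 fun j => fnE k l l fun g => R.Mu g (fun i => t.testBit i) j := by
  unfold rule
  rw [dif_neg (by omega), dif_neg (by omega), if_neg (by omega), if_neg (by omega),
    if_neg (by omega), if_neg (by omega), if_pos rfl]

theorem rule_5 : rule R q t (2 * l + 5) =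
    neE l 0 fun j : Fin l => .const (b2q (t.testBit (r + j))) := by
  unfold rule
  rw [dif_neg (by omega), dif_neg (by omega), if_neg (by omega), if_neg (by omega),
    if_neg (by omega), if_neg (by omega), if_neg (by omega), if_pos rfl]

theorem rule_6 : rule R q t (2 * l + 6) =
    neE l l fun j : Fin l => .const (b2q (t.testBit (r + j))) := by
  unfold rule
  rw [dif_neg (by omega), dif_neg (by omega), if_neg (by omega), if_neg (by omega),
    if_neg (by omega), if_neg (by omega), if_neg (by omega), if_neg (by omega), if_pos rfl]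

theorem rule_7 : rule R q t (2 * l + 7) = drive q k (2 * l + 7) (forceS q k l) := by
  unfold rule
  rw [dif_neg (by omega), dif_neg (by omega), if_neg (by omega), if_neg (by omega),
    if_neg (by omega), if_neg (by omega), if_neg (by omega), if_neg (by omega),
    if_neg (by omega), if_pos rfl]

theorem rule_8 : rule R q t (2 * l + 8) = drive q k (2 * l + 8) (forceP q k l) := by
  unfold rule
  rw [dif_neg (by omega), dif_neg (by omega), if_neg (by omega), if_neg (by omega),
    if_neg (by omega), if_neg (by omega), if_neg (by omega), if_neg (by omega),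
    if_neg (by omega), if_neg (by omega)]

end ruleEq

/-! ### comparators at a unit with accurate samples -/

section comparators
variable {k l r n : ℕ} {q : QPar}

theorem eval_est {I : Inst k l r q.d n} {x : ℕ → ℕ → ℚ} {u : Fin n}
    (hx : ∀ a b, 0 ≤ x a b ∧ x a b ≤ 1) (m : ℕ) :
    (est q k m).eval (view I x u) = (∑ i : Fin q.d, x (I.smp i u) m) / (q.d : ℚ) := by
  have h := eval_avg_ofFn (x := view I x u) (f := fun i : Fin q.d => PExp.var (1 + k + i) m)
    fun i => view_mem hx _ _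
  rw [est, h]
  congr 1
  exact Finset.sum_congr rfl fun i _ => view_smp i m

theorem rep_cmpE (hq : q.OK) {y : ℕ → ℕ → ℚ} {m : ℕ} {M : ℝ} (t : ℚ)
    (hM : |(((est q k m).eval y : ℚ) : ℝ) - M| ≤ (q.e : ℝ) / 2) :
    Rep (DefD.cmp (q.e : ℝ) M (t : ℝ)) ((cmpE q k m t).eval y) := by
  have he : (0 : ℝ) < q.e := by exact_mod_cast hq.e_pos
  have hh : (0 : ℚ) < q.h := by exact_mod_cast hq.h_pos
  rw [abs_le] at hM
  have hc : (cmpE q k m t).eval y = 1 - (ramp (t - q.e / 2) q.h (est q k m)).eval y :=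
    eval_compl (eval_ramp_mem _ _ _).2
  unfold DefD.cmp
  split_ifs with h1 h2
  · refine ⟨fun _ => ?_, fun h => absurd h (by simp)⟩
    have h3 : (est q k m).eval y ≤ t - q.e / 2 := by
      have : (((est q k m).eval y : ℚ) : ℝ) ≤ ((t - q.e / 2 : ℚ) : ℝ) := by
        push_cast
        linarith [hM.2]
      exact_mod_cast this
    rw [hc, eval_ramp_zero h3, sub_zero]
  · refine ⟨fun h => absurd h (by simp), fun _ => ?_⟩
    have h3 : t + q.e / 2 ≤ (est q k m).eval y := by
      have : ((t + q.e / 2 : ℚ) : ℝ) ≤ (((est q k m).eval y : ℚ) : ℝ) := by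
        push_cast
        linarith [hM.1]
      exact_mod_cast this
    have h4 : 1 / (q.h : ℚ) ≤ q.e := by
      rw [div_le_iff₀ hh, mul_comm]
      exact hq.h_ge
    rw [hc, eval_ramp_one hq.h_pos (by linarith), sub_self]
  · exact ⟨fun h => absurd h (by simp), fun h => absurd h (by simp)⟩

end comparators

/-! ### represented Kleene formulas -/

/-- `a` has a value in `[0,1]` which represents `v` -/
def MR (y : ℕ → ℕ → ℚ) (v : K3) (a : PExp) : Prop :=
  (0 ≤ a.eval y ∧ a.eval y ≤ 1) ∧ Rep v (a.eval y)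

section MR
variable {y : ℕ → ℕ → ℚ} {v w c : K3} {a b s : PExp}

theorem mux_mem (hs : 0 ≤ s.eval y ∧ s.eval y ≤ 1) (ha : 0 ≤ a.eval y ∧ a.eval y ≤ 1)
    (hb : 0 ≤ b.eval y ∧ b.eval y ≤ 1) : 0 ≤ (mux s a b).eval y ∧ (mux s a b).eval y ≤ 1 := by
  have hm : 0 ≤ (compl s).eval y ∧ (compl s).eval y ≤ 1 := by
    rw [eval_compl hs.2]; exact ⟨by linarith, by linarith⟩
  exact eval_mix_mem hm ha hb

theorem MR.compl (h : MR y v a) : MR y (k3not v) (compl a) := by
  refine ⟨?_, rep_compl h.1.2 h.2⟩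
  rw [eval_compl h.1.2]
  exact ⟨by linarith [h.1.2], by linarith [h.1.1]⟩

theorem MR.mn (h : MR y v a) (h' : MR y w b) : MR y (k3and v w) (mn a b) := by
  refine ⟨?_, rep_mn h.1 h'.1 h.2 h'.2⟩
  rw [eval_mn h.1.1 h'.1.1]
  exact ⟨le_min h.1.1 h'.1.1, (min_le_left _ _).trans h.1.2⟩

theorem MR.mx (h : MR y v a) (h' : MR y w b) : MR y (k3or v w) (mx a b) := by
  refine ⟨?_, rep_mx h.1 h'.1 h.2 h'.2⟩
  rw [eval_mx h.1.2 h'.1.2]
  exact ⟨h.1.1.trans (le_max_left _ _), max_le h.1.2 h'.1.2⟩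

theorem MR.mux (hc : MR y c s) (h : MR y v a) (h' : MR y w b) :
    MR y (k3mux c v w) (mux s a b) :=
  ⟨mux_mem hc.1 h.1 h'.1, rep_mux hc.1 h.1 h'.1 hc.2 h.2 h'.2⟩

theorem mr_cmpE {q : QPar} (hq : q.OK) {k m : ℕ} {M : ℝ} (t : ℚ) {t' : ℝ} (ht : (t : ℝ) = t')
    (hM : |(((est q k m).eval y : ℚ) : ℝ) - M| ≤ (q.e : ℝ) / 2) :
    MR y (DefD.cmp (q.e : ℝ) M t') (cmpE q k m t) := by
  subst ht
  refine ⟨?_, rep_cmpE hq t hM⟩
  have h := eval_ramp_mem (x := y) (t - q.e / 2) q.h (est q k m)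
  rw [cmpE, eval_compl h.2]
  exact ⟨by linarith [h.2], by linarith [h.1]⟩

end MR

section forces
variable {y : ℕ → ℕ → ℚ} {q : QPar} {k l : ℕ} {S Ψ vA vB dAB dN dM a0 b0 : ℝ}

theorem mr_forceS (hq : q.OK)
    (h2 : |(((est q k (2 * l + 2)).eval y : ℚ) : ℝ) - dAB| ≤ (q.e : ℝ) / 2)
    (h3 : |(((est q k (2 * l + 3)).eval y : ℚ) : ℝ) - dN| ≤ (q.e : ℝ) / 2)
    (h4 : |(((est q k (2 * l + 4)).eval y : ℚ) : ℝ) - dM| ≤ (q.e : ℝ) / 2)
    (h7 : |(((est q k (2 * l + 7)).eval y : ℚ) : ℝ) - S| ≤ (q.e : ℝ) / 2)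
    (h8 : |(((est q k (2 * l + 8)).eval y : ℚ) : ℝ) - Ψ| ≤ (q.e : ℝ) / 2) :
    MR y
      (k3mux (DefD.cmp q.e Ψ (1 / 4))
        (k3mux (DefD.cmp q.e S (1 / 2)) (DefD.cmp q.e dAB q.t)
          (k3not (k3and (DefD.cmp q.e dN q.t) (k3not (DefD.cmp q.e dAB q.t)))))
        (k3mux (DefD.cmp q.e S (1 / 2)) (k3and (DefD.cmp q.e dM q.t) (k3not (DefD.cmp q.e dAB q.t)))
          (k3not (DefD.cmp q.e dAB q.t))))
      (forceS q k l) :=
  MR.mux (mr_cmpE hq (1 / 4) (by norm_num) h8)
    (MR.mux (mr_cmpE hq (1 / 2) (by norm_num) h7) (mr_cmpE hq q.t rfl h2)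
      (MR.compl (MR.mn (mr_cmpE hq q.t rfl h3) (MR.compl (mr_cmpE hq q.t rfl h2)))))
    (MR.mux (mr_cmpE hq (1 / 2) (by norm_num) h7)
      (MR.mn (mr_cmpE hq q.t rfl h4) (MR.compl (mr_cmpE hq q.t rfl h2)))
      (MR.compl (mr_cmpE hq q.t rfl h2)))

theorem mr_forceP (hq : q.OK)
    (h0 : |(((est q k (2 * l)).eval y : ℚ) : ℝ) - vA| ≤ (q.e : ℝ) / 2)
    (h1 : |(((est q k (2 * l + 1)).eval y : ℚ) : ℝ) - vB| ≤ (q.e : ℝ) / 2)
    (h2 : |(((est q k (2 * l + 2)).eval y : ℚ) : ℝ) - dAB| ≤ (q.e : ℝ) / 2)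
    (h3 : |(((est q k (2 * l + 3)).eval y : ℚ) : ℝ) - dN| ≤ (q.e : ℝ) / 2)
    (h5 : |(((est q k (2 * l + 5)).eval y : ℚ) : ℝ) - a0| ≤ (q.e : ℝ) / 2)
    (h6 : |(((est q k (2 * l + 6)).eval y : ℚ) : ℝ) - b0| ≤ (q.e : ℝ) / 2)
    (h7 : |(((est q k (2 * l + 7)).eval y : ℚ) : ℝ) - S| ≤ (q.e : ℝ) / 2)
    (h8 : |(((est q k (2 * l + 8)).eval y : ℚ) : ℝ) - Ψ| ≤ (q.e : ℝ) / 2) :
    MR y
      (k3and (k3not (k3and (DefD.cmp q.e a0 q.t) (DefD.cmp q.e b0 q.t)))
        (k3or
          (k3or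
            (k3or (k3and (DefD.cmp q.e S (7 / 10)) (k3not (DefD.cmp q.e vB q.z)))
              (k3and (k3not (DefD.cmp q.e S (3 / 10))) (k3not (DefD.cmp q.e vA q.z))))
            (k3and (k3and (k3not (DefD.cmp q.e S (7 / 20))) (DefD.cmp q.e S (13 / 20)))
              (k3and (k3not (DefD.cmp q.e dAB q.t)) (k3not (DefD.cmp q.e dN q.t)))))
          (k3not (DefD.cmp q.e Ψ (1 / 2)))))
      (forceP q k l) :=
  MR.mn (MR.compl (MR.mn (mr_cmpE hq q.t rfl h5) (mr_cmpE hq q.t rfl h6)))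
    (MR.mx
      (MR.mx
        (MR.mx (MR.mn (mr_cmpE hq (7 / 10) (by norm_num) h7) (MR.compl (mr_cmpE hq q.z rfl h1)))
          (MR.mn (MR.compl (mr_cmpE hq (3 / 10) (by norm_num) h7))
            (MR.compl (mr_cmpE hq q.z rfl h0))))
        (MR.mn (MR.mn (MR.compl (mr_cmpE hq (7 / 20) (by norm_num) h7))
            (mr_cmpE hq (13 / 20) (by norm_num) h7))
          (MR.mn (MR.compl (mr_cmpE hq q.t rfl h2)) (MR.compl (mr_cmpE hq q.t rfl h3)))))
      (MR.compl (mr_cmpE hq (1 / 2) (by norm_num) h8)))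

end forces

section drive
variable {y : ℕ → ℕ → ℚ} {q : QPar} {k m : ℕ} {F : PExp} {η v : ℚ} {S κ : ℝ}

theorem drive_up (hest : 0 ≤ (est q k m).eval y)
    (hη : 0 ≤ η) (hη' : 16 * η ≤ q.e) (hη1 : η ≤ 1 / 16) (hκ : κ + q.e ≤ q.κ')
    (hS : |(((est q k m).eval y : ℚ) : ℝ) - S| ≤ (q.e : ℝ) / 2)
    (hF : F.eval y = 1) (hv0 : 0 ≤ v) (hv1 : v ≤ 1)
    (hv : |v - (drive q k m F).eval y| ≤ η) : min 1 (S + κ) ≤ rnd η v := by
  have e1 : (drive q k m F).eval y = min ((est q k m).eval y + q.κ') 1 := by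
    rw [drive]
    simp only [PExp.eval]
    rw [eval_compl (by rw [hF]), hF, sub_self, mul_zero, sub_zero, mul_one, max_eq_left hest]
  rw [e1, abs_le] at hv
  have hη1r : (η : ℝ) ≤ 1 / 16 := by
    have : ((η : ℚ) : ℝ) ≤ ((1 / 16 : ℚ) : ℝ) := by exact_mod_cast hη1
    push_cast at this
    exact this
  have hηr : (0 : ℝ) ≤ η := by exact_mod_cast hη
  have hη'r : 16 * (η : ℝ) ≤ q.e := by exact_mod_cast hη'
  rcases le_total 1 ((est q k m).eval y + q.κ') with h | h
  · rw [min_eq_right h] at hv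
    have h2 : 1 - (η : ℝ) ≤ v := by
      have : (1 : ℚ) - η ≤ v := by linarith [hv.1]
      exact_mod_cast this
    rw [rnd_one hη1r h2]
    exact min_le_left _ _
  · rw [min_eq_left h] at hv
    have h2 : (((est q k m).eval y : ℚ) : ℝ) + q.κ' - η ≤ v := by
      have : (est q k m).eval y + q.κ' - η ≤ v := by linarith [hv.1]
      exact_mod_cast this
    have h3 := rnd_close hηr hη1r (v := (v : ℝ)) (by exact_mod_cast hv0) (by exact_mod_cast hv1)
    rw [abs_le] at h3 hS
    refine (min_le_right _ _).trans ?_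
    linarith [h3.1, hS.1]

theorem drive_dn (hest1 : (est q k m).eval y ≤ 1) (hκ' : 0 ≤ q.κ')
    (hη : 0 ≤ η) (hη' : 16 * η ≤ q.e) (hη1 : η ≤ 1 / 16) (hκ : κ + q.e ≤ q.κ')
    (hS : |(((est q k m).eval y : ℚ) : ℝ) - S| ≤ (q.e : ℝ) / 2)
    (hF : F.eval y = 0) (hv0 : 0 ≤ v) (hv1 : v ≤ 1)
    (hv : |v - (drive q k m F).eval y| ≤ η) : rnd η v ≤ max 0 (S - κ) := by
  have e1 : (drive q k m F).eval y = max ((est q k m).eval y - q.κ') 0 := by
    rw [drive]
    simp only [PExp.eval]
    rw [eval_compl (by rw [hF]; exact zero_le_one), hF, sub_zero, mul_one, mul_zero, add_zero]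
    exact min_eq_left (max_le (by linarith) zero_le_one)
  rw [e1, abs_le] at hv
  have hη1r : (η : ℝ) ≤ 1 / 16 := by
    have : ((η : ℚ) : ℝ) ≤ ((1 / 16 : ℚ) : ℝ) := by exact_mod_cast hη1
    push_cast at this
    exact this
  have hηr : (0 : ℝ) ≤ η := by exact_mod_cast hη
  have hη'r : 16 * (η : ℝ) ≤ q.e := by exact_mod_cast hη'
  rcases le_total ((est q k m).eval y - q.κ') 0 with h | h
  · rw [max_eq_right h] at hv
    have h2 : (v : ℝ) ≤ η := by
      have : v ≤ η := by linarith [hv.2]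
      exact_mod_cast this
    rw [rnd_zero hη1r h2]
    exact le_max_left _ _
  · rw [max_eq_left h] at hv
    have h2 : (v : ℝ) ≤ (((est q k m).eval y : ℚ) : ℝ) - q.κ' + η := by
      have : v ≤ (est q k m).eval y - q.κ' + η := by linarith [hv.2]
      exact_mod_cast this
    have h3 := rnd_close hηr hη1r (v := (v : ℝ)) (by exact_mod_cast hv0) (by exact_mod_cast hv1)
    rw [abs_le] at h3 hS
    refine le_trans ?_ (le_max_right _ _)
    linarith [h3.2, hS.2]

end drive

section candidates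
variable {k l r n : ℕ} {q : QPar} {I : Inst k l r q.d n} {x : ℕ → ℕ → ℚ} {u : Fin n}

theorem eval_candA (R : LRules k l r) (hq : q.OK) (hx : ∀ a b, 0 ≤ x a b ∧ x a b ≤ 1)
    {W : Set (Fin n → Fin l → Bool)} {N M : (Fin n → Fin l → Bool) → Fin n → Fin l → Bool}
    {S Ψ : ℝ}
    (hS : |(((est q k (2 * l + 7)).eval (view I x u) : ℚ) : ℝ) - S| ≤ (q.e : ℝ) / 2)
    (hΨ : |(((est q k (2 * l + 8)).eval (view I x u) : ℚ) : ℝ) - Ψ| ≤ (q.e : ℝ) / 2)
    (g : Fin l → Bool)
    (h1 : DefD.cmp q.e Ψ (3 / 4) ≠ some false →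
      (DefD.cmp q.e S (3 / 20) ≠ some false →
        (DefD.cmp q.e Ψ (1 / 4) ≠ some false → arr Rd l l x u = some g) ∧
        (DefD.cmp q.e Ψ (1 / 4) ≠ some true →
          (R.data I.nb I.pub W I.w0 N M).Mu (arr Rd l l x) u = some g)) ∧
      (DefD.cmp q.e S (3 / 20) ≠ some true →
        (R.data I.nb I.pub W I.w0 N M).corr (arr Rd l 0 x) u = some g))
    (h2 : DefD.cmp q.e Ψ (3 / 4) ≠ some true → I.w0 u = g) (j : Fin l) :
    (candA R q (I.pub u) (I.w0 u) j).eval (view I x u) = b2q (g j) := by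
  have hj := j.isLt
  have c1 := mr_cmpE hq (3 / 4) (t' := 3 / 4) (by norm_num) hΨ
  have c2 := mr_cmpE hq (1 / 4) (t' := 1 / 4) (by norm_num) hΨ
  have c3 := mr_cmpE hq (3 / 20) (t' := 3 / 20) (by norm_num) hS
  have m1 : 0 ≤ (qE (.var 0 (l + j))).eval (view I x u) ∧
    (qE (.var 0 (l + j))).eval (view I x u) ≤ 1 := qE_mem _
  have m2 := fnE_mem (I := I) (u := u) hx (Or.inr rfl) fun G => R.Mu G (I.pub u) j
  have m3 := fnE_mem (I := I) (u := u) hx (Or.inl rfl) fun G => R.corr G (I.pub u) j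
  have m4 : 0 ≤ (PExp.const (b2q (I.w0 u j))).eval (view I x u) ∧
    (PExp.const (b2q (I.w0 u j))).eval (view I x u) ≤ 1 := b2q_mem _
  rw [candA]
  refine mux_val c1.1 (mux_mem c3.1 (mux_mem c2.1 m1 m2) m3) m4 c1.2 _ (fun hc1 => ?_)
    (fun hc1 => ?_)
  · have k1 := h1 hc1
    refine mux_val c3.1 (mux_mem c2.1 m1 m2) m3 c3.2 _ (fun hc3 => ?_) (fun hc3 => ?_)
    · have k2 := k1.1 hc3
      refine mux_val c2.1 m1 m2 c2.2 _ (fun hc2 => ?_) (fun hc2 => ?_)
      · have k3 := arr_eq.1 (k2.1 hc2)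
        have hv : (PExp.var 0 (l + j)).eval (view I x u) = x u (l + j) := view_self _
        rw [eval_qE (by rw [hv]; exact k3.1 j), hv, k3.2 j]
      · exact eval_klift hx (Or.inr rfl) (k2.2 hc2) j
    · exact eval_klift hx (Or.inl rfl) (k1.2 hc3) j
  · rw [← h2 hc1]
    rfl

theorem eval_candB (R : LRules k l r) (hq : q.OK) (hx : ∀ a b, 0 ≤ x a b ∧ x a b ≤ 1)
    {W : Set (Fin n → Fin l → Bool)} {N M : (Fin n → Fin l → Bool) → Fin n → Fin l → Bool}
    {S Ψ : ℝ}
    (hS : |(((est q k (2 * l + 7)).eval (view I x u) : ℚ) : ℝ) - S| ≤ (q.e : ℝ) / 2)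
    (hΨ : |(((est q k (2 * l + 8)).eval (view I x u) : ℚ) : ℝ) - Ψ| ≤ (q.e : ℝ) / 2)
    (g : Fin l → Bool)
    (h1 : DefD.cmp q.e Ψ (3 / 4) ≠ some false →
      (DefD.cmp q.e S (17 / 20) ≠ some false →
        (R.data I.nb I.pub W I.w0 N M).corr (arr Rd l l x) u = some g) ∧
      (DefD.cmp q.e S (17 / 20) ≠ some true →
        (DefD.cmp q.e Ψ (1 / 4) ≠ some false →
          (R.data I.nb I.pub W I.w0 N M).Nu (arr Rd l 0 x) u = some g) ∧
        (DefD.cmp q.e Ψ (1 / 4) ≠ some true → arr Rd l 0 x u = some g)))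
    (h2 : DefD.cmp q.e Ψ (3 / 4) ≠ some true → I.w0 u = g) (j : Fin l) :
    (candB R q (I.pub u) (I.w0 u) j).eval (view I x u) = b2q (g j) := by
  have hj := j.isLt
  have c1 := mr_cmpE hq (3 / 4) (t' := 3 / 4) (by norm_num) hΨ
  have c2 := mr_cmpE hq (1 / 4) (t' := 1 / 4) (by norm_num) hΨ
  have c3 := mr_cmpE hq (17 / 20) (t' := 17 / 20) (by norm_num) hS
  have m1 : 0 ≤ (qE (.var 0 (0 + j))).eval (view I x u) ∧
    (qE (.var 0 (0 + j))).eval (view I x u) ≤ 1 := qE_mem _
  have m2 := fnE_mem (I := I) (u := u) hx (Or.inl rfl) fun G => R.Nu G (I.pub u) j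
  have m3 := fnE_mem (I := I) (u := u) hx (Or.inr rfl) fun G => R.corr G (I.pub u) j
  have m4 : 0 ≤ (PExp.const (b2q (I.w0 u j))).eval (view I x u) ∧
    (PExp.const (b2q (I.w0 u j))).eval (view I x u) ≤ 1 := b2q_mem _
  rw [candB]
  refine mux_val c1.1 (mux_mem c3.1 m3 (mux_mem c2.1 m2 m1)) m4 c1.2 _ (fun hc1 => ?_)
    (fun hc1 => ?_)
  · have k1 := h1 hc1
    refine mux_val c3.1 m3 (mux_mem c2.1 m2 m1) c3.2 _ (fun hc3 => ?_) (fun hc3 => ?_)
    · exact eval_klift hx (Or.inr rfl) (k1.1 hc3) j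
    · have k2 := k1.2 hc3
      refine mux_val c2.1 m2 m1 c2.2 _ (fun hc2 => ?_) (fun hc2 => ?_)
      · exact eval_klift hx (Or.inl rfl) (k2.1 hc2) j
      · have k3 := arr_eq.1 (k2.2 hc2)
        have hv : (PExp.var 0 (0 + j)).eval (view I x u) = x u (0 + j) := view_self _
        rw [eval_qE (by rw [hv]; exact k3.1 j), hv, k3.2 j]
  · rw [← h2 hc1]
    rfl

/-- a variable close to a bit is sharp and decodes to this bit -/
theorem sharp_of_close {v η : ℚ} (hη1 : η ≤ 1 / 16) {b : Bool} (h : |v - b2q b| ≤ η) :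
    Sh v ∧ b = decide (1 / 2 ≤ v) := by
  rw [abs_le] at h
  cases b
  · have h2 : v ≤ 1 / 16 := by
      have := h.2
      simp only [b2q] at this
      norm_num at this
      linarith
    exact ⟨Or.inl h2, (decide_eq_false (by linarith)).symm⟩
  · have h2 : 15 / 16 ≤ v := by
      have := h.1
      simp only [b2q] at this
      norm_num at this
      linarith
    exact ⟨Or.inr h2, (decide_eq_true (by linarith)).symm⟩

end candidates

/-! ### the theorem -/

section main
variable {k l r n : ℕ}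

/-- real mean of variable `m` -/
noncomputable def mean (n : ℕ) (x : ℕ → ℕ → ℚ) (m : ℕ) : ℝ :=
  (∑ u : Fin n, ((x u m : ℚ) : ℝ)) / (Fintype.card (Fin n) : ℝ)

theorem frac_bad {n : ℕ} (hn : 0 < n) {β : ℚ} {B : Finset ℕ} (hB : (B.card : ℚ) ≤ β * n) :
    frac (fun u : Fin n => ¬ (u : ℕ) ∉ B) ≤ (β : ℝ) := by
  classical
  unfold frac
  have hc : (0 : ℝ) < Fintype.card (Fin n) := by
    rw [Fintype.card_fin]; exact_mod_cast hn
  rw [div_le_iff₀ hc, Fintype.card_fin]
  have h2 : ((B.card : ℕ) : ℝ) ≤ (β : ℝ) * n := by exact_mod_cast hB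
  refine le_trans ?_ h2
  have h1 : ((Finset.filter (fun u : Fin n => ¬ (u : ℕ) ∉ B) univ).image
      (fun u : Fin n => (u : ℕ))).card ≤ B.card := by
    refine Finset.card_le_card fun v hv => ?_
    obtain ⟨u, hu, rfl⟩ := mem_image.1 hv
    exact not_not.1 (mem_filter.1 hu).2
  rw [Finset.card_image_of_injective _ Fin.val_injective] at h1
  have h3 : ((Finset.filter (fun u : Fin n => ¬ (u : ℕ) ∉ B) univ).card : ℝ) ≤ (B.card : ℝ) := by
    exact_mod_cast h1
  refine le_trans (le_of_eq ?_) h3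
  congr!

/-- **D2**: an approximate rest state of the system of a unit-level machine gives a macro rest
state (for the sampler constant `γ'`, tolerance `η`, fraction `β` of bad units) -/
theorem mrest (R : LRules k l r) (q : QPar) (hq : q.OK) (I : Inst k l r q.d n) (hn : 0 < n)
    (W : Set (Fin n → Fin l → Bool)) (N M : (Fin n → Fin l → Bool) → Fin n → Fin l → Bool)
    {η β : ℚ} {γ' δ κ : ℝ} (hη : 0 ≤ η) (hη' : 16 * η ≤ q.e) (hβ : β + η ≤ q.e)
    (hδ : (β : ℝ) + 9 * γ' ≤ δ) (hκ : κ + q.e ≤ q.κ')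
    (hS : Sampler q.d I.smp ((q.e : ℝ) / 4) γ') {x : ℕ → ℕ → ℚ} (hx : Rest (sys R q) I.U η β x) :
    ∃ Z : MRest (R.data I.nb I.pub W I.w0 N M) ⟨q.t, q.z, q.e, δ, κ⟩,
      Z.As = arr Sh l 0 x ∧ Z.Bs = arr Sh l l x := by
  classical
  obtain ⟨hx, B, hB, hU⟩ := hx
  rw [I.len] at hB hU
  have : Nonempty (Fin n) := ⟨⟨0, hn⟩⟩
  have he1 := hq.e_le
  have hη1 : η ≤ 1 / 16 := by linarith
  have hηr : (0 : ℝ) ≤ η := by exact_mod_cast hη
  have hη1r : (η : ℝ) ≤ 1 / 16 := by
    have : ((η : ℚ) : ℝ) ≤ ((1 / 16 : ℚ) : ℝ) := by exact_mod_cast hη1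
    push_cast at this
    exact this
  have hη'r : 16 * (η : ℝ) ≤ q.e := by exact_mod_cast hη'
  have hβr : (β : ℝ) + η ≤ q.e := by exact_mod_cast hβ
  have hxr : ∀ a b, 0 ≤ ((x a b : ℚ) : ℝ) ∧ ((x a b : ℚ) : ℝ) ≤ 1 := fun a b =>
    ⟨by exact_mod_cast (hx a b).1, by exact_mod_cast (hx a b).2⟩
  have hcard : (0 : ℝ) < Fintype.card (Fin n) := by
    rw [Fintype.card_fin]; exact_mod_cast hn
  -- unit ok
  have hbad := frac_bad hn hB
  have hunit : ∀ u : Fin n, (u : ℕ) ∉ B → ∀ v < 2 * l + 9,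
      |x u v - (rule R q (I.U.ty u) v).eval (view I x u)| ≤ η := fun u hu v hv =>
    hU u u.isLt hu v hv
  have hpub : ∀ u : Fin n, (fun i : Fin r => (I.U.ty u).testBit i) = I.pub u := fun u =>
    funext fun i => (I.hpub u i).symm
  have hw0 : ∀ u : Fin n, (fun j : Fin l => (I.U.ty u).testBit (r + j)) = I.w0 u := fun u =>
    funext fun j => (I.hw0 u j).symm
  -- flags: values at ok units
  have one_of : ∀ {u : Fin n} {v : ℕ} {ev : ℚ}, |x u v - ev| ≤ η → ev = 1 →
      1 - (η : ℝ) ≤ ((x u v : ℚ) : ℝ) := by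
    intro u v ev h h1
    rw [h1, abs_le] at h
    have : (1 : ℚ) - η ≤ x u v := by linarith [h.1]
    exact_mod_cast this
  have zero_of : ∀ {u : Fin n} {v : ℕ} {ev : ℚ}, |x u v - ev| ≤ η → ev = 0 →
      ((x u v : ℚ) : ℝ) ≤ η := by
    intro u v ev h h1
    rw [h1, abs_le] at h
    have : x u v ≤ η := by linarith [h.2]
    exact_mod_cast this
  have mge : ∀ (m : ℕ) (P : Fin n → Prop),
      (∀ u : Fin n, (u : ℕ) ∉ B → P u → 1 - (η : ℝ) ≤ ((x u m : ℚ) : ℝ)) →
      frac P - q.e ≤ mean n x m := by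
    intro m P h
    have h1 := mean_ge (y := fun u : Fin n => ((x u m : ℚ) : ℝ)) (fun u => (hxr u m).1) hηr h
    unfold mean
    linarith
  have mle : ∀ (m : ℕ) (Q : Fin n → Prop),
      (∀ u : Fin n, (u : ℕ) ∉ B → ¬ Q u → ((x u m : ℚ) : ℝ) ≤ η) →
      mean n x m ≤ frac Q + q.e := by
    intro m Q h
    have h1 := mean_le (y := fun u : Fin n => ((x u m : ℚ) : ℝ)) (fun u => (hxr u m).2) hηr h
    unfold mean
    linarith
  -- good units
  let far : Fin 9 → Fin n → Prop := fun i u =>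
    ¬ |(∑ j, ((x (I.smp j u) (2 * l + i) : ℚ) : ℝ)) / (q.d : ℝ) -
      (∑ v : Fin n, ((x v (2 * l + i) : ℚ) : ℝ)) / (Fintype.card (Fin n) : ℝ)| ≤ (q.e : ℝ) / 4
  let good : Fin n → Prop := fun u => (u : ℕ) ∉ B ∧ ∀ i : Fin 9, ¬ far i u
  have hgood : frac (fun u => ¬ good u) ≤ δ := by
    have h1 : frac (fun u => ¬ good u) ≤
        frac (fun u : Fin n => (¬ (u : ℕ) ∉ B) ∨ ∃ i : Fin 9, far i u) := by
      refine frac_mono fun u hu => ?_
      by_contra hc
      rw [not_or, not_exists, not_not] at hc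
      exact hu hc
    have h2 := frac_or_le (fun u : Fin n => ¬ (u : ℕ) ∉ B) (fun u : Fin n => ∃ i : Fin 9, far i u)
    have h3 := frac_exists_le far
    have h4 : ∑ i : Fin 9, frac (far i) ≤ ∑ _i : Fin 9, γ' := Finset.sum_le_sum fun i _ =>
          hS (fun u : Fin n => ((x u (2 * l + i) : ℚ) : ℝ)) fun u => hxr u _
    rw [Finset.sum_const, card_univ, Fintype.card_fin, nsmul_eq_mul] at h4
    push_cast at h4
    linarith
  -- estimates
  have hest : ∀ (u : Fin n) (m : ℕ), (((est q k m).eval (view I x u) : ℚ) : ℝ) =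
      (∑ j, ((x (I.smp j u) m : ℚ) : ℝ)) / (q.d : ℝ) := by
    intro u m
    rw [eval_est hx]
    push_cast
    rfl
  have hestm : ∀ (u : Fin n) (m : ℕ), 0 ≤ (est q k m).eval (view I x u) ∧
      (est q k m).eval (view I x u) ≤ 1 := by
    intro u m
    have hle : ∑ i : Fin q.d, x (I.smp i u) m ≤ (q.d : ℚ) := by
      calc ∑ i : Fin q.d, x (I.smp i u) m ≤ ∑ _i : Fin q.d, (1 : ℚ) :=
            Finset.sum_le_sum fun i _ => (hx _ _).2
        _ = (q.d : ℚ) := by simp
    rw [eval_est hx]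
    exact ⟨div_nonneg (Finset.sum_nonneg fun i _ => (hx _ _).1) (Nat.cast_nonneg _),
      div_le_one_of_le₀ hle (Nat.cast_nonneg _)⟩
  have hflag : ∀ u, good u → ∀ i : ℕ, i < 9 →
      |(((est q k (2 * l + i)).eval (view I x u) : ℚ) : ℝ) - mean n x (2 * l + i)| ≤
        (q.e : ℝ) / 4 := by
    intro u hu i hi
    rw [hest]
    exact not_not.1 (hu.2 ⟨i, hi⟩)
  have her : (0 : ℝ) < q.e := by exact_mod_cast hq.e_pos
  have hflag' : ∀ u, good u → ∀ i : ℕ, i < 9 →
      |(((est q k (2 * l + i)).eval (view I x u) : ℚ) : ℝ) - mean n x (2 * l + i)| ≤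
        (q.e : ℝ) / 2 := fun u hu i hi => (hflag u hu i hi).trans (by linarith)
  -- the rounded means
  let rm : ℕ → ℝ := fun m => (∑ u : Fin n, rnd η ((x u m : ℚ) : ℝ)) / (Fintype.card (Fin n) : ℝ)
  have hrm : ∀ m, |rm m - mean n x m| ≤ 2 * η := by
    intro m
    simp only [rm, mean]
    rw [← sub_div, ← Finset.sum_sub_distrib, abs_div, abs_of_pos hcard, div_le_iff₀ hcard]
    refine (Finset.abs_sum_le_sum_abs _ _).trans ?_
    refine (Finset.sum_le_sum fun (u : Fin n) _ =>
      rnd_close hηr hη1r (hxr u m).1 (hxr u m).2).trans ?_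
    rw [Finset.sum_const, card_univ, nsmul_eq_mul, mul_comm]
  have hrflag : ∀ u, good u → ∀ i : ℕ, i < 9 →
      |(((est q k (2 * l + i)).eval (view I x u) : ℚ) : ℝ) - rm (2 * l + i)| ≤
        (q.e : ℝ) / 2 := by
    intro u hu i hi
    have h1 := hflag u hu i hi
    have h2 := hrm (2 * l + i)
    rw [abs_le] at h1 h2 ⊢
    constructor <;> linarith [h1.1, h1.2, h2.1, h2.2]
  have hrmeq : ∀ m, rm m * (Fintype.card (Fin n) : ℝ) = ∑ u : Fin n, rnd η ((x u m : ℚ) : ℝ) := by
    intro m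
    simp only [rm]
    exact div_mul_cancel₀ _ (ne_of_gt hcard)
  have hκnn := hq.κ_nn
  have hconst : ∀ (u : Fin n) (j : Fin l),
      (PExp.const (b2q ((I.U.ty u).testBit (r + j)))).eval (view I x u) = b2q (I.w0 u j) := by
    intro u j
    rw [I.hw0]
    rfl
  have hFS : ∀ u, good u → MR (view I x u) _ (forceS q k l) := fun u hu =>
    mr_forceS hq (hflag' u hu 2 (by omega)) (hflag' u hu 3 (by omega)) (hflag' u hu 4 (by omega))
      (hrflag u hu 7 (by omega)) (hrflag u hu 8 (by omega))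
  have hFP : ∀ u, good u → MR (view I x u) _ (forceP q k l) := fun u hu =>
    mr_forceP hq (hflag' u hu 0 (by omega)) (hflag' u hu 1 (by omega)) (hflag' u hu 2 (by omega))
      (hflag' u hu 3 (by omega)) (hflag' u hu 5 (by omega)) (hflag' u hu 6 (by omega))
      (hrflag u hu 7 (by omega)) (hrflag u hu 8 (by omega))
  have hdS : ∀ u, good u → |x u (2 * l + 7) -
      (drive q k (2 * l + 7) (forceS q k l)).eval (view I x u)| ≤ η := by
    intro u hu
    have h := hunit u hu.1 (2 * l + 7) (by omega)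
    rwa [rule_7] at h
  have hdP : ∀ u, good u → |x u (2 * l + 8) -
      (drive q k (2 * l + 8) (forceP q k l)).eval (view I x u)| ≤ η := by
    intro u hu
    have h := hunit u hu.1 (2 * l + 8) (by omega)
    rwa [rule_8] at h
  refine ⟨
    { As := arr Sh l 0 x
      Ar := arr Rd l 0 x
      Bs := arr Sh l l x
      Br := arr Rd l l x
      hA := fun u g h => arr_sh_rd h
      hB := fun u g h => arr_sh_rd h
      s := fun u => rnd η ((x u (2 * l + 7) : ℚ) : ℝ)
      ψ := fun u => rnd η ((x u (2 * l + 8) : ℚ) : ℝ)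
      s_mem := fun u => rnd_mem _ _
      ψ_mem := fun u => rnd_mem _ _
      good := good
      good_frac := hgood
      S := rm (2 * l + 7)
      Ψ := rm (2 * l + 8)
      S_eq := hrmeq _
      Ψ_eq := hrmeq _
      vA := mean n x (2 * l + 0)
      vB := mean n x (2 * l + 1)
      dAB := mean n x (2 * l + 2)
      dN := mean n x (2 * l + 3)
      dM := mean n x (2 * l + 4)
      a0 := mean n x (2 * l + 5)
      b0 := mean n x (2 * l + 6)
      vA_ge := mge _ _ fun u hu hv => one_of (hunit u hu (2 * l) (by omega)) (by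
        rw [rule_0, hpub]; exact eval_tE_one hx (Or.inl rfl) R hv)
      vA_le := mle _ _ fun u hu hv => zero_of (hunit u hu (2 * l) (by omega)) (by
        rw [rule_0, hpub]
        exact eval_tE_zero hx (Or.inl rfl) R (Bool.eq_false_of_not_eq_true hv))
      vB_ge := mge _ _ fun u hu hv => one_of (hunit u hu (2 * l + 1) (by omega)) (by
        rw [rule_1, hpub]; exact eval_tE_one hx (Or.inr rfl) R hv)
      vB_le := mle _ _ fun u hu hv => zero_of (hunit u hu (2 * l + 1) (by omega)) (by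
        rw [rule_1, hpub]
        exact eval_tE_zero hx (Or.inr rfl) R (Bool.eq_false_of_not_eq_true hv))
      dAB_ge := mge _ _ fun u hu hv => one_of (hunit u hu (2 * l + 2) (by omega)) (by
        rw [rule_2]; exact eval_abE_one hx hv)
      dAB_le := mle _ _ fun u hu hv => zero_of (hunit u hu (2 * l + 2) (by omega)) (by
        rw [rule_2]; exact eval_abE_zero hx (not_not.1 hv))
      dN_ge := mge _ _ fun u hu hv => one_of (hunit u hu (2 * l + 3) (by omega)) (by
        obtain ⟨g, h1, h2⟩ := hv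
        rw [rule_3, hpub]; exact eval_neE_one hx (fun j => eval_klift hx (Or.inl rfl) h1 j) h2)
      dN_le := mle _ _ fun u hu hv => zero_of (hunit u hu (2 * l + 3) (by omega)) (by
        obtain ⟨g, h1, h2⟩ := not_not.1 hv
        rw [rule_3, hpub]; exact eval_neE_zero hx (fun j => eval_klift hx (Or.inl rfl) h1 j) h2)
      dM_ge := mge _ _ fun u hu hv => one_of (hunit u hu (2 * l + 4) (by omega)) (by
        obtain ⟨g, h1, h2⟩ := hv
        rw [rule_4, hpub]; exact eval_neE_one hx (fun j => eval_klift hx (Or.inr rfl) h1 j) h2)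
      dM_le := mle _ _ fun u hu hv => zero_of (hunit u hu (2 * l + 4) (by omega)) (by
        obtain ⟨g, h1, h2⟩ := not_not.1 hv
        rw [rule_4, hpub]; exact eval_neE_zero hx (fun j => eval_klift hx (Or.inr rfl) h1 j) h2)
      a0_ge := mge _ _ fun u hu hv => one_of (hunit u hu (2 * l + 5) (by omega)) (by
        rw [rule_5]; exact eval_neE_one hx (hconst u) hv)
      a0_le := mle _ _ fun u hu hv => zero_of (hunit u hu (2 * l + 5) (by omega)) (by
        rw [rule_5]; exact eval_neE_zero hx (hconst u) (not_not.1 hv))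
      b0_ge := mge _ _ fun u hu hv => one_of (hunit u hu (2 * l + 6) (by omega)) (by
        rw [rule_6]; exact eval_neE_one hx (hconst u) hv)
      b0_le := mle _ _ fun u hu hv => zero_of (hunit u hu (2 * l + 6) (by omega)) (by
        rw [rule_6]; exact eval_neE_zero hx (hconst u) (not_not.1 hv))
      ruleA := fun u hu g h1 h2 => by
        have key : ∀ j : Fin l, Sh (x u (0 + j)) ∧ g j = decide (1 / 2 ≤ x u (0 + j)) := by
          intro j
          have h := hunit u hu.1 (0 + j) (by have := j.isLt; omega)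
          rw [rule_A, hpub, hw0, eval_candA R hq hx (hrflag u hu 7 (by omega))
            (hrflag u hu 8 (by omega)) g h1 h2 j] at h
          exact sharp_of_close hη1 h
        exact arr_eq.2 ⟨fun j => (key j).1, fun j => (key j).2⟩
      ruleB := fun u hu g h1 h2 => by
        have key : ∀ j : Fin l, Sh (x u (l + j)) ∧ g j = decide (1 / 2 ≤ x u (l + j)) := by
          intro j
          have h := hunit u hu.1 (l + j) (by have := j.isLt; omega)
          rw [rule_B, hpub, hw0, eval_candB R hq hx (hrflag u hu 7 (by omega))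
            (hrflag u hu 8 (by omega)) g h1 h2 j] at h
          exact sharp_of_close hη1 h
        exact arr_eq.2 ⟨fun j => (key j).1, fun j => (key j).2⟩
      ruleS_up := fun u hu h => drive_up (hestm u _).1 hη hη' hη1 hκ (hrflag u hu 7 (by omega))
        ((hFS u hu).2.1 h) (hx _ _).1 (hx _ _).2 (hdS u hu)
      ruleS_dn := fun u hu h => drive_dn (hestm u _).2 hκnn hη hη' hη1 hκ
        (hrflag u hu 7 (by omega)) ((hFS u hu).2.2 h) (hx _ _).1 (hx _ _).2 (hdS u hu)
      ruleΨ_up := fun u hu h => drive_up (hestm u _).1 hη hη' hη1 hκ (hrflag u hu 8 (by omega))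
        ((hFP u hu).2.1 h) (hx _ _).1 (hx _ _).2 (hdP u hu)
      ruleΨ_dn := fun u hu h => drive_dn (hestm u _).2 hκnn hη hη' hη1 hκ
        (hrflag u hu 8 (by omega)) ((hFP u hu).2.2 h) (hx _ _).1 (hx _ _).2 (hdP u hu) },
    rfl, rfl⟩

end main

end Crest.Agent.R289.Rules660
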