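import Crest.Agent.R115.Margulis

/-!
Row 289: explicit constant-degree samplers on `range M` for every `M > 0`
(Gabber-Galil graph on `(ZMod N)²`, `N` a power of two, lazy walk, powering, folding `N² → M`).
-/

set_option autoImplicit false

namespace Crest.Agent.R289.Sampler56

open Finset

/-! ### abstract contraction -/

section Op

variable {X : Type} [Fintype X]

/-- inner product -/
def ip (f g : X → ℝ) : ℝ := ∑ x, f x * g x

lemma ip_comm (f g : X → ℝ) : ip f g = ip g f := by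
  unfold ip; exact Finset.sum_congr rfl fun x _ => mul_comm _ _

lemma ip_add_left (f g h : X → ℝ) : ip (f + g) h = ip f h + ip g h := by
  unfold ip; rw [← Finset.sum_add_distrib]
  exact Finset.sum_congr rfl fun _ _ => by simp [add_mul]

lemma ip_add_right (f g h : X → ℝ) : ip h (f + g) = ip h f + ip h g := by
  rw [ip_comm, ip_add_left, ip_comm f, ip_comm g]

lemma ip_smul_left (c : ℝ) (f g : X → ℝ) : ip (c • f) g = c * ip f g := by
  unfold ip; rw [Finset.mul_sum]
  exact Finset.sum_congr rfl fun x _ => by simp [mul_assoc]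

lemma ip_smul_right (c : ℝ) (f g : X → ℝ) : ip f (c • g) = c * ip f g := by
  rw [ip_comm, ip_smul_left, ip_comm]

lemma ip_self_nonneg (f : X → ℝ) : 0 ≤ ip f f :=
  Finset.sum_nonneg fun _ _ => mul_self_nonneg _

lemma ip_self (f : X → ℝ) : ip f f = ∑ x, f x ^ 2 := by
  unfold ip; exact Finset.sum_congr rfl fun x _ => by ring

/-- A symmetric operator with `0 ≤ P ≤ κ` on the functions of mean zero contracts by `κ`. -/
theorem contract (P : (X → ℝ) →ₗ[ℝ] (X → ℝ)) (κ : ℝ) (hκ : 0 < κ)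
    (hsym : ∀ f g, ip (P f) g = ip f (P g))
    (hmean : ∀ f, ∑ x, f x = 0 → ∑ x, P f x = 0)
    (hpos : ∀ f, ∑ x, f x = 0 → 0 ≤ ip (P f) f)
    (hle : ∀ f, ∑ x, f x = 0 → ip (P f) f ≤ κ * ip f f)
    (f : X → ℝ) (hf : ∑ x, f x = 0) : ip (P f) (P f) ≤ κ ^ 2 * ip f f := by
  set g : X → ℝ := (1 / κ) • P f with hg
  have hg0 : ∑ x, g x = 0 := by
    simp only [hg, Pi.smul_apply, smul_eq_mul, ← Finset.mul_sum, hmean f hf, mul_zero]
  have hs : ∑ x, (f + g) x = 0 := by
    simp only [Pi.add_apply, Finset.sum_add_distrib, hf, hg0, add_zero]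
  have hd : ∑ x, (f + (-1 : ℝ) • g) x = 0 := by
    simp only [Pi.add_apply, Pi.smul_apply, smul_eq_mul, Finset.sum_add_distrib, ← Finset.mul_sum,
      hf, hg0, add_zero, mul_zero]
  have h1 := hle _ hs
  have h2 := hpos _ hd
  have h3 := hle f hf
  simp only [map_add, map_smul, ip_add_left, ip_add_right, ip_smul_left, ip_smul_right] at h1 h2
  have e1 : ip (P g) f = ip (P f) g := by rw [hsym g f, ip_comm]
  have e2 : ip g f = ip f g := ip_comm _ _
  rw [e1, e2] at h1
  rw [e1] at h2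
  have e3 : ip (P f) g = 1 / κ * ip (P f) (P f) := by rw [hg, ip_smul_right]
  have e4 : ip f g = 1 / κ * ip (P f) f := by rw [hg, ip_smul_right, ip_comm]
  have e5 : ip g g = 1 / κ * (1 / κ * ip (P f) (P f)) := by
    rw [hg, ip_smul_right, ip_smul_left]
  rw [e3, e4, e5] at h1
  rw [e3] at h2
  have hk : κ * (1 / κ) = 1 := by field_simp
  have h4 : 4 * (1 / κ * ip (P f) (P f)) ≤
      κ * ip f f + 2 * (ip (P f) f) + 1 / κ * ip (P f) (P f) := by
    have e6 : κ * (ip f f + 1 / κ * ip (P f) f + (1 / κ * ip (P f) f +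
        1 / κ * (1 / κ * ip (P f) (P f)))) =
        κ * ip f f + 2 * (ip (P f) f) + 1 / κ * ip (P f) (P f) := by
      field_simp
      ring
    linarith
  have h5 : 1 / κ * ip (P f) (P f) ≤ κ * ip f f := by linarith
  have h6 := mul_le_mul_of_nonneg_left h5 hκ.le
  rw [← mul_assoc, hk, one_mul] at h6
  calc ip (P f) (P f) ≤ κ * (κ * ip f f) := h6
    _ = κ ^ 2 * ip f f := by ring

theorem contract_iter (P : (X → ℝ) →ₗ[ℝ] (X → ℝ)) (κ : ℝ) (hκ : 0 < κ)
    (hsym : ∀ f g, ip (P f) g = ip f (P g))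
    (hmean : ∀ f, ∑ x, f x = 0 → ∑ x, P f x = 0)
    (hpos : ∀ f, ∑ x, f x = 0 → 0 ≤ ip (P f) f)
    (hle : ∀ f, ∑ x, f x = 0 → ip (P f) f ≤ κ * ip f f) (t : ℕ)
    (f : X → ℝ) (hf : ∑ x, f x = 0) :
    ∑ x, (P ^ t) f x = 0 ∧ ip ((P ^ t) f) ((P ^ t) f) ≤ (κ ^ 2) ^ t * ip f f := by
  induction t with
  | zero => simpa using hf
  | succ t ih =>
    have h := contract P κ hκ hsym hmean hpos hle ((P ^ t) f) ih.1
    have e : (P ^ (t + 1)) f = P ((P ^ t) f) := by
      rw [pow_succ', Module.End.mul_apply]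
    rw [e]
    refine ⟨hmean _ ih.1, h.trans ?_⟩
    calc κ ^ 2 * ip ((P ^ t) f) ((P ^ t) f) ≤ κ ^ 2 * ((κ ^ 2) ^ t * ip f f) :=
          mul_le_mul_of_nonneg_left ih.2 (by positivity)
      _ = _ := by ring

end Op

/-! ### the walk -/

/-- the sixteen moves of the lazy walk -/
def tau (N : ℕ) (i : ℕ) : Equiv.Perm (ZMod N × ZMod N) :=
  match i with
  | 0 => R115.gen N 2
  | 1 => (R115.gen N 2)⁻¹
  | 2 => R115.gen N 3
  | 3 => (R115.gen N 3)⁻¹
  | 4 => R115.gen N 0 * R115.gen N 2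
  | 5 => (R115.gen N 0 * R115.gen N 2)⁻¹
  | 6 => R115.gen N 1 * R115.gen N 3
  | 7 => (R115.gen N 1 * R115.gen N 3)⁻¹
  | _ => 1

/-- the averaging operator of the lazy walk -/
noncomputable def P (N : ℕ) : (ZMod N × ZMod N → ℝ) →ₗ[ℝ] (ZMod N × ZMod N → ℝ) where
  toFun f := fun x => (1 / 16) * ∑ i ∈ range 16, f (tau N i x)
  map_add' f g := by
    funext x
    simp only [Pi.add_apply, Finset.sum_add_distrib, mul_add]
  map_smul' c f := by
    funext x
    simp only [Pi.smul_apply, smul_eq_mul, RingHom.id_apply, ← Finset.mul_sum]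
    ring

lemma P_apply (N : ℕ) (f : ZMod N × ZMod N → ℝ) (x : ZMod N × ZMod N) :
    P N f x = (1 / 16) * ∑ i ∈ range 16, f (tau N i x) := rfl

section walk

variable (N : ℕ) [NeZero N]

lemma ip_perm (f g : ZMod N × ZMod N → ℝ) (s : Equiv.Perm (ZMod N × ZMod N)) :
    ip (fun x => f (s x)) g = ip f (fun x => g (s⁻¹ x)) := by
  unfold ip
  rw [← Equiv.sum_comp s (fun x => f x * g (s⁻¹ x))]
  simp

lemma ipP (f g : ZMod N × ZMod N → ℝ) :
    ip (P N f) g = (1 / 16) * ∑ i ∈ range 16, ip (fun x => f (tau N i x)) g := by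
  unfold ip
  simp only [P_apply]
  rw [Finset.sum_comm, Finset.mul_sum]
  refine Finset.sum_congr rfl fun x _ => ?_
  rw [mul_assoc, Finset.sum_mul]

lemma P_symm (f g : ZMod N × ZMod N → ℝ) : ip (P N f) g = ip f (P N g) := by
  rw [ip_comm f (P N g), ipP, ipP]
  congr 1
  simp only [Finset.sum_range_succ, Finset.sum_range_zero, tau, zero_add]
  have h : ∀ s : Equiv.Perm (ZMod N × ZMod N), ip (fun x => f (s x)) g =
      ip (fun x => g (s⁻¹ x)) f := fun s => by rw [ip_perm, ip_comm]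
  have h1 := h (R115.gen N 2)
  have h2 := h (R115.gen N 2)⁻¹
  have h3 := h (R115.gen N 3)
  have h4 := h (R115.gen N 3)⁻¹
  have h5 := h (R115.gen N 0 * R115.gen N 2)
  have h6 := h (R115.gen N 0 * R115.gen N 2)⁻¹
  have h7 := h (R115.gen N 1 * R115.gen N 3)
  have h8 := h (R115.gen N 1 * R115.gen N 3)⁻¹
  have h9 := h 1
  rw [inv_inv] at h2 h4 h6 h8
  rw [inv_one] at h9
  rw [h1, h2, h3, h4, h5, h6, h7, h8, h9]
  ring

lemma P_sum (f : ZMod N × ZMod N → ℝ) : ∑ x, P N f x = ∑ x, f x := by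
  simp only [P_apply]
  rw [← Finset.mul_sum, Finset.sum_comm]
  have h : ∀ i ∈ range 16, ∑ x, f (tau N i x) = ∑ x, f x := fun i _ =>
    Equiv.sum_comp (tau N i) f
  rw [Finset.sum_congr rfl h]
  simp

/-- quadratic form of the walk -/
lemma P_quad (f : ZMod N × ZMod N → ℝ) :
    ip (P N f) f = (1 / 2) * ip f f + (1 / 8) * (
      ∑ x, f x * (f (R115.gen N 2 x) + f (R115.gen N 0 (R115.gen N 2 x))) +
      ∑ x, f x * (f (R115.gen N 3 x) + f (R115.gen N 1 (R115.gen N 3 x)))) := by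
  rw [ipP]
  simp only [Finset.sum_range_succ, Finset.sum_range_zero, tau, zero_add]
  have h : ∀ s : Equiv.Perm (ZMod N × ZMod N), ip (fun x => f (s⁻¹ x)) f =
      ∑ x, f x * f (s x) := fun s => by
    rw [ip_perm, inv_inv]; rfl
  have h' : ∀ s : Equiv.Perm (ZMod N × ZMod N), ip (fun x => f (s x)) f =
      ∑ x, f x * f (s x) := fun s => by
    rw [ip_comm]; rfl
  rw [h (R115.gen N 2), h (R115.gen N 3), h (R115.gen N 0 * R115.gen N 2),
    h (R115.gen N 1 * R115.gen N 3), h' (R115.gen N 2), h' (R115.gen N 3),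
    h' (R115.gen N 0 * R115.gen N 2), h' (R115.gen N 1 * R115.gen N 3), h' 1]
  simp only [mul_add, Finset.sum_add_distrib, Equiv.Perm.mul_apply, Equiv.Perm.one_apply]
  unfold ip
  ring

lemma cross_lower (f : ZMod N × ZMod N → ℝ) (s : Equiv.Perm (ZMod N × ZMod N)) :
    -∑ x, f x ^ 2 ≤ ∑ x, f x * f (s x) := by
  have h : ∑ x, f (s x) ^ 2 = ∑ x, f x ^ 2 := Equiv.sum_comp s (fun x => f x ^ 2)
  have h2 : 0 ≤ ∑ x, (f x + f (s x)) ^ 2 := Finset.sum_nonneg fun x _ => sq_nonneg _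
  have h3 : ∑ x, (f x + f (s x)) ^ 2 =
      ∑ x, f x ^ 2 + 2 * ∑ x, f x * f (s x) + ∑ x, f (s x) ^ 2 := by
    rw [Finset.mul_sum, ← Finset.sum_add_distrib, ← Finset.sum_add_distrib]
    exact Finset.sum_congr rfl fun x _ => by ring
  linarith

lemma P_pos (f : ZMod N × ZMod N → ℝ) : 0 ≤ ip (P N f) f := by
  rw [P_quad, ip_self]
  have h1 := cross_lower N f (R115.gen N 2)
  have h2 := cross_lower N f (R115.gen N 3)
  have h3 := cross_lower N f (R115.gen N 0 * R115.gen N 2)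
  have h4 := cross_lower N f (R115.gen N 1 * R115.gen N 3)
  simp only [Equiv.Perm.mul_apply] at h3 h4
  simp only [mul_add, Finset.sum_add_distrib]
  linarith

lemma P_le (f : ZMod N × ZMod N → ℝ) (hf : ∑ x, f x = 0) :
    ip (P N f) f ≤ 0.96 * ip f f := by
  rw [P_quad, ip_self]
  have h := R115.corr_torus N f hf
  have h0 : 0 ≤ ∑ x, f x ^ 2 := Finset.sum_nonneg fun x _ => sq_nonneg _
  linarith

theorem P_pow (t : ℕ) (f : ZMod N × ZMod N → ℝ) (hf : ∑ x, f x = 0) :
    ∑ x, (P N ^ t) f x = 0 ∧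
      ip ((P N ^ t) f) ((P N ^ t) f) ≤ ((0.96 : ℝ) ^ 2) ^ t * ip f f :=
  contract_iter (P N) 0.96 (by norm_num) (P_symm N) (fun f hf => by rw [P_sum, hf])
    (fun f _ => P_pos N f) (P_le N) t f hf

end walk

/-! ### words -/

/-- the `j`-th word of length `t` -/
def sig (N : ℕ) : ℕ → ℕ → ZMod N × ZMod N → ZMod N × ZMod N
  | 0, _, x => x
  | t + 1, j, x => sig N t (j / 16) (tau N (j % 16) x)

lemma sum_range_mul16 (n : ℕ) (g : ℕ → ℕ → ℝ) :
    ∑ j ∈ range (n * 16), g (j / 16) (j % 16) = ∑ a ∈ range n, ∑ i ∈ range 16, g a i := by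
  induction n with
  | zero => simp
  | succ n ih =>
    have e : ∑ x ∈ range 16, g ((n * 16 + x) / 16) ((n * 16 + x) % 16) =
        ∑ i ∈ range 16, g n i := by
      refine Finset.sum_congr rfl fun i hi => ?_
      have hi' := Finset.mem_range.1 hi
      have e1 : (n * 16 + i) / 16 = n := by omega
      have e2 : (n * 16 + i) % 16 = i := by omega
      rw [e1, e2]
    rw [Nat.succ_mul, Finset.sum_range_add (fun j => g (j / 16) (j % 16)) (n * 16) 16, ih, e,
      Finset.sum_range_succ (fun a => ∑ i ∈ range 16, g a i) n]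

lemma P_pow_apply (N t : ℕ) (f : ZMod N × ZMod N → ℝ) (x : ZMod N × ZMod N) :
    (P N ^ t) f x = (1 / 16 ^ t) * ∑ j ∈ range (16 ^ t), f (sig N t j x) := by
  induction t generalizing x with
  | zero => simp [sig]
  | succ t ih =>
    have e : (P N ^ (t + 1)) f = P N ((P N ^ t) f) := by
      rw [pow_succ', Module.End.mul_apply]
    rw [e, P_apply]
    simp only [ih]
    have e2 : ∑ j ∈ range (16 ^ (t + 1)), f (sig N (t + 1) j x) =
        ∑ a ∈ range (16 ^ t), ∑ i ∈ range 16, f (sig N t a (tau N i x)) := by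
      rw [pow_succ 16 t]
      exact sum_range_mul16 (16 ^ t) (fun a i => f (sig N t a (tau N i x)))
    rw [← Finset.mul_sum, Finset.sum_comm, e2, pow_succ]
    ring

/-! ### spectral statement -/

theorem walk_var (N : ℕ) [NeZero N] (t : ℕ) (F : ZMod N × ZMod N → ℝ) :
    ∑ x, ((1 / 16 ^ t) * ∑ j ∈ range (16 ^ t), F (sig N t j x) - (∑ x, F x) / (N : ℝ) ^ 2) ^ 2 ≤
      ((0.96 : ℝ) ^ 2) ^ t * ∑ x, F x ^ 2 := by
  have hN : (0 : ℝ) < N := by exact_mod_cast Nat.pos_of_ne_zero (NeZero.ne N)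
  set e : ℝ := (∑ x, F x) / (N : ℝ) ^ 2 with he
  have hcard : ((Finset.univ : Finset (ZMod N × ZMod N)).card : ℝ) = (N : ℝ) ^ 2 := by
    rw [Finset.card_univ, Fintype.card_prod, ZMod.card]
    push_cast
    ring
  have hsum : ∑ x, F x = (N : ℝ) ^ 2 * e := by
    rw [he]; field_simp
  set g : ZMod N × ZMod N → ℝ := fun x => F x - e with hg
  have hg0 : ∑ x, g x = 0 := by
    simp only [hg, Finset.sum_sub_distrib, Finset.sum_const, nsmul_eq_mul, hcard, hsum]
    ring
  have h := (P_pow N t g hg0).2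
  have e1 : ∀ x, (P N ^ t) g x = (1 / 16 ^ t) * ∑ j ∈ range (16 ^ t), F (sig N t j x) - e := by
    intro x
    rw [P_pow_apply]
    simp only [hg, Finset.sum_sub_distrib, Finset.sum_const, Finset.card_range, nsmul_eq_mul]
    push_cast
    field_simp
  have e2 : ip g g ≤ ∑ x, F x ^ 2 := by
    rw [ip_self]
    have : ∑ x, g x ^ 2 = ∑ x, F x ^ 2 - (N : ℝ) ^ 2 * e ^ 2 := by
      have : ∀ x, g x ^ 2 = F x ^ 2 - 2 * e * F x + e ^ 2 := fun x => by
        simp only [hg]; ring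
      simp only [this, Finset.sum_add_distrib, Finset.sum_sub_distrib, Finset.sum_const,
        nsmul_eq_mul, hcard, ← Finset.mul_sum, hsum]
      ring
    rw [this]
    have : 0 ≤ (N : ℝ) ^ 2 * e ^ 2 := by positivity
    linarith
  rw [ip_self] at h
  simp only [e1] at h
  refine h.trans (mul_le_mul_of_nonneg_left e2 (by positivity))

/-! ### the same walk on pairs of natural numbers -/

/-- the sixteen moves on `ℕ × ℕ` -/
def stepN (N i : ℕ) (z : ℕ × ℕ) : ℕ × ℕ :=
  if i = 0 then ((z.1 + 2 * z.2) % N, z.2)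
  else if i = 1 then ((z.1 + 2 * (N - z.2)) % N, z.2)
  else if i = 2 then (z.1, (z.2 + 2 * z.1) % N)
  else if i = 3 then (z.1, (z.2 + 2 * (N - z.1)) % N)
  else if i = 4 then ((z.1 + 2 * z.2 + 1) % N, z.2)
  else if i = 5 then ((z.1 + 2 * (N - z.2) + (N - 1)) % N, z.2)
  else if i = 6 then (z.1, (z.2 + 2 * z.1 + 1) % N)
  else if i = 7 then (z.1, (z.2 + 2 * (N - z.1) + (N - 1)) % N)
  else z

/-- cast to the torus -/
def cz (N : ℕ) (z : ℕ × ℕ) : ZMod N × ZMod N := ((z.1 : ZMod N), (z.2 : ZMod N))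

/-- words on `ℕ × ℕ` -/
def sigN (N : ℕ) : ℕ → ℕ → ℕ × ℕ → ℕ × ℕ
  | 0, _, z => z
  | t + 1, j, z => sigN N t (j / 16) (stepN N (j % 16) z)

lemma stepN_lt {N : ℕ} (hN : 0 < N) (i : ℕ) (z : ℕ × ℕ) (h1 : z.1 < N) (h2 : z.2 < N) :
    (stepN N i z).1 < N ∧ (stepN N i z).2 < N := by
  unfold stepN
  split_ifs <;> exact ⟨by first | exact Nat.mod_lt _ hN | exact h1,
    by first | exact Nat.mod_lt _ hN | exact h2⟩

lemma sigN_lt {N : ℕ} (hN : 0 < N) (t : ℕ) : ∀ (j : ℕ) (z : ℕ × ℕ), z.1 < N → z.2 < N →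
    (sigN N t j z).1 < N ∧ (sigN N t j z).2 < N := by
  induction t with
  | zero => intro j z h1 h2; exact ⟨h1, h2⟩
  | succ t ih =>
    intro j z h1 h2
    obtain ⟨h3, h4⟩ := stepN_lt hN (j % 16) z h1 h2
    exact ih _ _ h3 h4

lemma cz_stepN {N : ℕ} (hN : 0 < N) (i : ℕ) (z : ℕ × ℕ) (h1 : z.1 < N) (h2 : z.2 < N) :
    cz N (stepN N i z) = tau N i (cz N z) := by
  have c1 : ((N - z.1 : ℕ) : ZMod N) = -(z.1 : ZMod N) := by
    rw [Nat.cast_sub h1.le]; simp
  have c2 : ((N - z.2 : ℕ) : ZMod N) = -(z.2 : ZMod N) := by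
    rw [Nat.cast_sub h2.le]; simp
  have c3 : ((N - 1 : ℕ) : ZMod N) = -1 := by
    rw [Nat.cast_sub hN]; simp
  match i with
  | 0 => simp [stepN, tau, cz, R115.gen]
  | 1 =>
    simp only [stepN, tau, cz, R115.gen]
    simp [c2, Equiv.Perm.inv_def]
    ring
  | 2 => simp [stepN, tau, cz, R115.gen]
  | 3 =>
    simp only [stepN, tau, cz, R115.gen]
    simp [c1, Equiv.Perm.inv_def]
    ring
  | 4 => simp [stepN, tau, cz, R115.gen]
  | 5 =>
    simp only [stepN, tau, cz, R115.gen]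
    simp [c2, c3, Equiv.Perm.inv_def, mul_inv_rev]
    ring
  | 6 => simp [stepN, tau, cz, R115.gen]
  | 7 =>
    simp only [stepN, tau, cz, R115.gen]
    simp [c1, c3, Equiv.Perm.inv_def, mul_inv_rev]
    ring
  | (n + 8) =>
    simp [stepN, tau, cz]

lemma cz_sigN {N : ℕ} (hN : 0 < N) (t : ℕ) : ∀ (j : ℕ) (z : ℕ × ℕ), z.1 < N → z.2 < N →
    cz N (sigN N t j z) = sig N t j (cz N z) := by
  induction t with
  | zero => intro j z _ _; rfl
  | succ t ih =>
    intro j z h1 h2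
    obtain ⟨h3, h4⟩ := stepN_lt hN (j % 16) z h1 h2
    simp only [sigN, sig]
    rw [ih _ _ h3 h4, cz_stepN hN _ _ h1 h2]

/-! ### folding -/

/-- the side of the torus for `M` units -/
def side (M : ℕ) : ℕ := 2 ^ ((Nat.size M + 1) / 2)

lemma side_pos (M : ℕ) : 0 < side M := by unfold side; positivity

instance side_neZero (M : ℕ) : NeZero (side M) := ⟨(side_pos M).ne'⟩

lemma le_side_sq (M : ℕ) : M ≤ side M ^ 2 := by
  unfold side
  rw [← pow_mul]
  have h1 : M < 2 ^ Nat.size M := Nat.lt_size_self M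
  have h2 : Nat.size M ≤ (Nat.size M + 1) / 2 * 2 := by omega
  exact h1.le.trans (Nat.pow_le_pow_right (by norm_num) h2)

lemma side_sq_le {M : ℕ} (hM : 0 < M) : side M ^ 2 ≤ 4 * M := by
  unfold side
  rw [← pow_mul]
  have h1 : 2 ^ (Nat.size M - 1) ≤ M := by
    have h0 : 0 < Nat.size M := Nat.size_pos.2 hM
    exact Nat.lt_size.1 (by omega)
  have h2 : (Nat.size M + 1) / 2 * 2 ≤ (Nat.size M - 1) + 2 := by
    have h0 : 0 < Nat.size M := Nat.size_pos.2 hM
    omega
  calc 2 ^ ((Nat.size M + 1) / 2 * 2) ≤ 2 ^ ((Nat.size M - 1) + 2) :=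
        Nat.pow_le_pow_right (by norm_num) h2
    _ = 4 * 2 ^ (Nat.size M - 1) := by rw [pow_add]; ring
    _ ≤ 4 * M := Nat.mul_le_mul_left _ h1

/-- The `j`-th sample of unit `u` among `M` units (walk length `t`). -/
def samp (M t j u : ℕ) : ℕ :=
  ((sigN (side M) t j (u / side M, u % side M)).1 * side M +
    (sigN (side M) t j (u / side M, u % side M)).2) % M

lemma samp_lt {M : ℕ} (hM : 0 < M) (t j u : ℕ) : samp M t j u < M := Nat.mod_lt _ hM

/-- the folded function -/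
def fold (M : ℕ) (f : ℕ → ℝ) (z : ZMod (side M) × ZMod (side M)) : ℝ :=
  f ((z.1.val * side M + z.2.val) % M)

lemma fold_cz (M : ℕ) (f : ℕ → ℝ) (z : ℕ × ℕ) (h1 : z.1 < side M) (h2 : z.2 < side M) :
    fold M f (cz (side M) z) = f ((z.1 * side M + z.2) % M) := by
  unfold fold cz
  simp only
  rw [ZMod.val_natCast_of_lt h1, ZMod.val_natCast_of_lt h2]

lemma samp_fold (M t j u : ℕ) (hu : u < M) (f : ℕ → ℝ) :
    f (samp M t j u) =
      fold M f (sig (side M) t j (cz (side M) (u / side M, u % side M))) := by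
  have h1 : u / side M < side M := by
    rw [Nat.div_lt_iff_lt_mul (side_pos M), ← sq]
    exact hu.trans_le (le_side_sq M)
  have h2 : u % side M < side M := Nat.mod_lt _ (side_pos M)
  rw [← cz_sigN (side_pos M) t j _ h1 h2]
  obtain ⟨h3, h4⟩ := sigN_lt (side_pos M) t j (u / side M, u % side M) h1 h2
  rw [fold_cz M f _ h3 h4]
  rfl

/-- the bijection between the torus and `range (N²)` -/
lemma sum_torus (N : ℕ) [NeZero N] (g : ℕ → ℝ) :
    ∑ z : ZMod N × ZMod N, g (z.1.val * N + z.2.val) = ∑ w ∈ range (N ^ 2), g w := by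
  have hN : 0 < N := Nat.pos_of_ne_zero (NeZero.ne N)
  refine Finset.sum_nbij' (fun z => z.1.val * N + z.2.val) (fun w => cz N (w / N, w % N))
    ?_ ?_ ?_ ?_ ?_
  · intro z _
    have h1 := ZMod.val_lt z.1
    have h2 := ZMod.val_lt z.2
    simp only [Finset.mem_range]
    nlinarith
  · intro w _; exact Finset.mem_univ _
  · rintro ⟨a, b⟩ _
    have h1 := ZMod.val_lt a
    have h2 := ZMod.val_lt b
    have e1 : (a.val * N + b.val) / N = a.val := by
      rw [mul_comm, Nat.mul_add_div hN, Nat.div_eq_of_lt h2, add_zero]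
    have e2 : (a.val * N + b.val) % N = b.val := by
      rw [mul_comm, Nat.mul_add_mod, Nat.mod_eq_of_lt h2]
    simp only [cz, e1, e2, ZMod.natCast_val, ZMod.cast_id', id]
  · intro w hw
    have hw' := Finset.mem_range.1 hw
    have h1 : w / N < N := by
      rw [Nat.div_lt_iff_lt_mul hN, ← sq]; exact hw'
    have h2 : w % N < N := Nat.mod_lt _ hN
    simp only [cz]
    rw [ZMod.val_natCast_of_lt h1, ZMod.val_natCast_of_lt h2, mul_comm]
    exact Nat.div_add_mod w N
  · intro z _; rfl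

lemma sum_mod (M k : ℕ) (g : ℕ → ℝ) :
    ∑ w ∈ range (k * M), g (w % M) = k * ∑ v ∈ range M, g v := by
  induction k with
  | zero => simp
  | succ k ih =>
    rw [Nat.succ_mul, Finset.sum_range_add (fun w => g (w % M)) (k * M) M, ih]
    have e : ∑ x ∈ range M, g ((k * M + x) % M) = ∑ v ∈ range M, g v := by
      refine Finset.sum_congr rfl fun x hx => ?_
      have hx' := Finset.mem_range.1 hx
      rw [mul_comm, Nat.mul_add_mod, Nat.mod_eq_of_lt hx']
    rw [e]
    push_cast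
    ring

lemma sum_fold_le {M : ℕ} (hM : 0 < M) (f : ℕ → ℝ) (hf : ∀ v, 0 ≤ f v) :
    ∑ z, fold M f z ≤ 4 * ∑ v ∈ range M, f v := by
  have h := sum_torus (side M) (fun w => f (w % M))
  unfold fold
  rw [h]
  calc ∑ w ∈ range (side M ^ 2), f (w % M) ≤ ∑ w ∈ range (4 * M), f (w % M) :=
        Finset.sum_le_sum_of_subset_of_nonneg
          (Finset.range_subset_range.2 (side_sq_le hM)) fun _ _ _ => hf _
    _ = _ := by rw [sum_mod]; norm_num

lemma le_sum_fold (M : ℕ) (f : ℕ → ℝ) (hf : ∀ v, 0 ≤ f v) :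
    ∑ v ∈ range M, f v ≤ ∑ z, fold M f z := by
  have h := sum_torus (side M) (fun w => f (w % M))
  unfold fold
  rw [h]
  calc ∑ v ∈ range M, f v = ∑ v ∈ range M, f (v % M) :=
        Finset.sum_congr rfl fun v hv => by rw [Nat.mod_eq_of_lt (Finset.mem_range.1 hv)]
    _ ≤ _ := Finset.sum_le_sum_of_subset_of_nonneg
          (Finset.range_subset_range.2 (le_side_sq M)) fun _ _ _ => hf _

lemma sum_range_le_torus {M : ℕ} (g : ZMod (side M) × ZMod (side M) → ℝ) (hg : ∀ z, 0 ≤ g z) :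
    ∑ u ∈ range M, g (cz (side M) (u / side M, u % side M)) ≤
      ∑ z : ZMod (side M) × ZMod (side M), g z := by
  have h := sum_torus (side M) (fun w => g (cz (side M) (w / side M, w % side M)))
  have e : ∀ z : ZMod (side M) × ZMod (side M),
      g (cz (side M) ((z.1.val * side M + z.2.val) / side M,
        (z.1.val * side M + z.2.val) % side M)) = g z := by
    rintro ⟨a, b⟩
    have h1 := ZMod.val_lt a
    have h2 := ZMod.val_lt b
    have e1 : (a.val * side M + b.val) / side M = a.val := by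
      rw [mul_comm, Nat.mul_add_div (side_pos M), Nat.div_eq_of_lt h2, add_zero]
    have e2 : (a.val * side M + b.val) % side M = b.val := by
      rw [mul_comm, Nat.mul_add_mod, Nat.mod_eq_of_lt h2]
    simp only [cz, e1, e2, ZMod.natCast_val, ZMod.cast_id', id]
  simp only [e] at h
  rw [h]
  exact Finset.sum_le_sum_of_subset_of_nonneg
    (Finset.range_subset_range.2 (le_side_sq M)) fun _ _ _ => hg _

/-- **Variance form of the sampler.** -/
theorem samp_var {M : ℕ} (hM : 0 < M) (t : ℕ) (f : ℕ → ℝ) (hf : ∀ v, 0 ≤ f v) :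
    ∃ e : ℝ, (∑ v ∈ range M, f v) / (4 * M) ≤ e ∧ e ≤ 4 * (∑ v ∈ range M, f v) / M ∧
      ∑ u ∈ range M, ((∑ j ∈ range (16 ^ t), f (samp M t j u)) / 16 ^ t - e) ^ 2 ≤
        4 * ((0.96 : ℝ) ^ 2) ^ t * ∑ v ∈ range M, f v ^ 2 := by
  have hM' : (0 : ℝ) < M := by exact_mod_cast hM
  have hs1 : (M : ℝ) ≤ (side M : ℝ) ^ 2 := by exact_mod_cast le_side_sq M
  have hs2 : (side M : ℝ) ^ 2 ≤ 4 * M := by exact_mod_cast side_sq_le hM
  have hs0 : (0 : ℝ) < (side M : ℝ) ^ 2 := lt_of_lt_of_le hM' hs1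
  have hS0 : 0 ≤ ∑ v ∈ range M, f v := Finset.sum_nonneg fun v _ => hf v
  have h1 := sum_fold_le hM f hf
  have h2 := le_sum_fold M f hf
  refine ⟨(∑ z, fold M f z) / (side M : ℝ) ^ 2, ?_, ?_, ?_⟩
  · rw [div_le_div_iff₀ (by positivity) hs0]
    exact mul_le_mul h2 hs2 hs0.le (hS0.trans h2)
  · rw [div_le_div_iff₀ hs0 hM']
    exact mul_le_mul h1 hs1 hM'.le (by positivity)
  · have hw := walk_var (side M) t (fold M f)
    have hle := sum_range_le_torus (M := M) (fun z => ((1 / 16 ^ t) *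
      ∑ j ∈ range (16 ^ t), fold M f (sig (side M) t j z) -
        (∑ x, fold M f x) / (side M : ℝ) ^ 2) ^ 2) (fun z => sq_nonneg _)
    have hsq := sum_fold_le hM (fun v => f v ^ 2) (fun v => sq_nonneg _)
    have e1 : ∀ z, fold M (fun v => f v ^ 2) z = fold M f z ^ 2 := fun z => rfl
    simp only [e1] at hsq
    have e2 : ∑ u ∈ range M, ((∑ j ∈ range (16 ^ t), f (samp M t j u)) / 16 ^ t -
        (∑ z, fold M f z) / (side M : ℝ) ^ 2) ^ 2 =
        ∑ u ∈ range M, ((1 / 16 ^ t) * ∑ j ∈ range (16 ^ t), fold M f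
          (sig (side M) t j (cz (side M) (u / side M, u % side M))) -
          (∑ x, fold M f x) / (side M : ℝ) ^ 2) ^ 2 := by
      refine Finset.sum_congr rfl fun u hu => ?_
      have hu' := Finset.mem_range.1 hu
      have : ∑ j ∈ range (16 ^ t), f (samp M t j u) = ∑ j ∈ range (16 ^ t), fold M f
          (sig (side M) t j (cz (side M) (u / side M, u % side M))) :=
        Finset.sum_congr rfl fun j _ => samp_fold M t j u hu' f
      rw [this]
      congr 2
      ring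
    rw [e2]
    refine hle.trans (hw.trans ?_)
    calc ((0.96 : ℝ) ^ 2) ^ t * ∑ x, fold M f x ^ 2 ≤
        ((0.96 : ℝ) ^ 2) ^ t * (4 * ∑ v ∈ range M, f v ^ 2) :=
          mul_le_mul_of_nonneg_left hsq (by positivity)
      _ = _ := by ring

/-- walk lengths exist for every precision -/
lemma exists_len {lam : ℝ} (hl : 0 < lam) : ∃ t : ℕ, 4 * ((0.96 : ℝ) ^ 2) ^ t ≤ lam := by
  have h : Filter.Tendsto (fun t : ℕ => 4 * ((0.96 : ℝ) ^ 2) ^ t) Filter.atTop (nhds (4 * 0)) :=
    (tendsto_pow_atTop_nhds_zero_of_lt_one (by norm_num) (by norm_num)).const_mul 4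
  rw [mul_zero] at h
  obtain ⟨t, ht⟩ := (h.eventually (gt_mem_nhds hl)).exists
  exact ⟨t, ht.le⟩

/-- **Hitting.** If `B` has density `≥ c`, all but `γ M` of the units hit `B`. -/
theorem samp_hit {c γ : ℝ} (hc : 0 < c) (hγ : 0 < γ) : ∃ t0 : ℕ, ∀ t, t0 ≤ t → ∀ M : ℕ, 0 < M →
    ∀ B : ℕ → Prop, [DecidablePred B] → c * M ≤ ((range M).filter B).card →
      ((((range M).filter fun u => ∀ j < 16 ^ t, ¬ B (samp M t j u)).card : ℕ) : ℝ) ≤ γ * M := by
  obtain ⟨t0, ht0⟩ := exists_len (lam := γ * c ^ 2 / 16) (by positivity)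
  refine ⟨t0, fun t ht M hM B _ hB => ?_⟩
  have hM' : (0 : ℝ) < M := by exact_mod_cast hM
  have htt : 4 * ((0.96 : ℝ) ^ 2) ^ t ≤ γ * c ^ 2 / 16 := by
    refine le_trans (mul_le_mul_of_nonneg_left ?_ (by norm_num)) ht0
    exact pow_le_pow_of_le_one (by norm_num) (by norm_num) ht
  set f : ℕ → ℝ := fun v => if B v then 1 else 0 with hf
  have hfs : ∑ v ∈ range M, f v = ((range M).filter B).card := by
    simp only [hf, Finset.sum_ite, Finset.sum_const_zero, add_zero, Finset.sum_const,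
      nsmul_eq_mul, mul_one]
  have hfq : ∑ v ∈ range M, f v ^ 2 = ((range M).filter B).card := by
    rw [← hfs]
    refine Finset.sum_congr rfl fun v _ => ?_
    simp only [hf]
    split_ifs <;> norm_num
  have hcard : (((range M).filter B).card : ℝ) ≤ M := by
    have := Finset.card_filter_le (range M) B
    rw [Finset.card_range] at this
    exact_mod_cast this
  obtain ⟨e, he1, -, hv⟩ := samp_var hM t f (fun v => by simp only [hf]; split_ifs <;> norm_num)
  rw [hfq] at hv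
  rw [hfs] at he1
  have he : c / 4 ≤ e := by
    refine le_trans ?_ he1
    rw [div_le_div_iff₀ (by norm_num) (by positivity)]
    nlinarith
  set S := (range M).filter fun u => ∀ j < 16 ^ t, ¬ B (samp M t j u) with hS
  have h1 : (S.card : ℝ) * (c / 4) ^ 2 ≤
      ∑ u ∈ range M, ((∑ j ∈ range (16 ^ t), f (samp M t j u)) / 16 ^ t - e) ^ 2 := by
    calc (S.card : ℝ) * (c / 4) ^ 2 = ∑ u ∈ S, (c / 4) ^ 2 := by
          rw [Finset.sum_const, nsmul_eq_mul]
      _ ≤ ∑ u ∈ S, ((∑ j ∈ range (16 ^ t), f (samp M t j u)) / 16 ^ t - e) ^ 2 := by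
          refine Finset.sum_le_sum fun u hu => ?_
          have hu' := (Finset.mem_filter.1 hu).2
          have h0 : ∑ j ∈ range (16 ^ t), f (samp M t j u) = 0 := by
            refine Finset.sum_eq_zero fun j hj => ?_
            simp only [hf]
            rw [if_neg (hu' j (Finset.mem_range.1 hj))]
          rw [h0, zero_div, zero_sub, neg_sq]
          exact pow_le_pow_left₀ (by positivity) he 2
      _ ≤ _ := Finset.sum_le_sum_of_subset_of_nonneg (Finset.filter_subset _ _)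
          fun _ _ _ => sq_nonneg _
  have h2 : (S.card : ℝ) * (c / 4) ^ 2 ≤ γ * c ^ 2 / 16 * M :=
    h1.trans (hv.trans (mul_le_mul htt hcard (by positivity) (by positivity)))
  have h3 : (0 : ℝ) < c ^ 2 / 16 := by positivity
  refine le_of_mul_le_mul_right ?_ h3
  calc (S.card : ℝ) * (c ^ 2 / 16) = (S.card : ℝ) * (c / 4) ^ 2 := by ring
    _ ≤ γ * c ^ 2 / 16 * M := h2
    _ = γ * M * (c ^ 2 / 16) := by ring

/-- **Few bad samples.** If `B` has density `≤ θ / 8`, all but `γ |B|` of the units have fewer than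
a fraction `θ` of their samples in `B`. -/
theorem samp_few {θ γ : ℝ} (hθ : 0 < θ) (hγ : 0 < γ) : ∃ t0 : ℕ, ∀ t, t0 ≤ t → ∀ M : ℕ, 0 < M →
    ∀ B : ℕ → Prop, [DecidablePred B] → (((range M).filter B).card : ℝ) ≤ θ / 8 * M →
      ((((range M).filter fun u =>
          θ * 16 ^ t ≤ (((range (16 ^ t)).filter fun j => B (samp M t j u)).card : ℝ)).card : ℕ) : ℝ)
        ≤ γ * ((range M).filter B).card := by
  obtain ⟨t0, ht0⟩ := exists_len (lam := γ * θ ^ 2 / 4) (by positivity)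
  refine ⟨t0, fun t ht M hM B _ hB => ?_⟩
  have hM' : (0 : ℝ) < M := by exact_mod_cast hM
  have htt : 4 * ((0.96 : ℝ) ^ 2) ^ t ≤ γ * θ ^ 2 / 4 := by
    refine le_trans (mul_le_mul_of_nonneg_left ?_ (by norm_num)) ht0
    exact pow_le_pow_of_le_one (by norm_num) (by norm_num) ht
  set f : ℕ → ℝ := fun v => if B v then 1 else 0 with hf
  have hfs : ∑ v ∈ range M, f v = ((range M).filter B).card := by
    simp only [hf, Finset.sum_ite, Finset.sum_const_zero, add_zero, Finset.sum_const,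
      nsmul_eq_mul, mul_one]
  have hfq : ∑ v ∈ range M, f v ^ 2 = ((range M).filter B).card := by
    rw [← hfs]
    refine Finset.sum_congr rfl fun v _ => ?_
    simp only [hf]
    split_ifs <;> norm_num
  obtain ⟨e, he1, he2, hv⟩ := samp_var hM t f (fun v => by simp only [hf]; split_ifs <;> norm_num)
  rw [hfq] at hv
  rw [hfs] at he1 he2
  have he : e ≤ θ / 2 := by
    refine he2.trans ?_
    rw [div_le_iff₀ hM']
    linarith
  set S := (range M).filter fun u =>
    θ * 16 ^ t ≤ (((range (16 ^ t)).filter fun j => B (samp M t j u)).card : ℝ) with hS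
  have h1 : (S.card : ℝ) * (θ / 2) ^ 2 ≤
      ∑ u ∈ range M, ((∑ j ∈ range (16 ^ t), f (samp M t j u)) / 16 ^ t - e) ^ 2 := by
    calc (S.card : ℝ) * (θ / 2) ^ 2 = ∑ u ∈ S, (θ / 2) ^ 2 := by
          rw [Finset.sum_const, nsmul_eq_mul]
      _ ≤ ∑ u ∈ S, ((∑ j ∈ range (16 ^ t), f (samp M t j u)) / 16 ^ t - e) ^ 2 := by
          refine Finset.sum_le_sum fun u hu => ?_
          have hu' := (Finset.mem_filter.1 hu).2
          have h0 : ∑ j ∈ range (16 ^ t), f (samp M t j u) =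
              ((range (16 ^ t)).filter fun j => B (samp M t j u)).card := by
            simp only [hf, Finset.sum_ite, Finset.sum_const_zero, add_zero, Finset.sum_const,
              nsmul_eq_mul, mul_one]
          have h4 : θ ≤ (∑ j ∈ range (16 ^ t), f (samp M t j u)) / 16 ^ t := by
            rw [le_div_iff₀ (by positivity), h0]
            exact hu'
          exact pow_le_pow_left₀ (by positivity) (by linarith) 2
      _ ≤ _ := Finset.sum_le_sum_of_subset_of_nonneg (Finset.filter_subset _ _)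
          fun _ _ _ => sq_nonneg _
  have h2 : (S.card : ℝ) * (θ / 2) ^ 2 ≤ γ * θ ^ 2 / 4 * ((range M).filter B).card :=
    h1.trans (hv.trans (mul_le_mul_of_nonneg_right htt (by positivity)))
  have h3 : (0 : ℝ) < θ ^ 2 / 4 := by positivity
  refine le_of_mul_le_mul_right ?_ h3
  calc (S.card : ℝ) * (θ ^ 2 / 4) = (S.card : ℝ) * (θ / 2) ^ 2 := by ring
    _ ≤ γ * θ ^ 2 / 4 * ((range M).filter B).card := h2
    _ = γ * ((range M).filter B).card * (θ ^ 2 / 4) := by ring

end Crest.Agent.R289.Sampler56
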