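import Crest.Agent.R289.Tour_594
import Crest.Agent.R289.Dec_589

/-!
# R289 (E16): Hamiltonian path in the cube of a connected graph (Sekanina), helper491

`nb v g` (`g < d`) = neighbours of `v < N`, root `0`.  `ham N d nb` lists every vertex exactly
once (vertices of even depth of the search tree when they are entered, vertices of odd depth when
they are left), consecutive vertices are joined by a generator word of length `≤ 3`; the last
vertex is joined to the first one by a word of length `≤ 1` (`ham_spec`).
`W3 d` = all words of length `≤ 3`, `idx3 d nb u v` = index in `W3 d` of a word from `u` to `v`.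
`ptf_ham`, `ptf_idx3`, `ptf_ev3`.
-/

set_option autoImplicit false
set_option linter.dupNamespace false
set_option linter.unusedSectionVars false

namespace Crest.Agent.R289.Sek491

open Crest.Agent.Lib.PT Crest.Agent.Lib.PT.Arith Crest.Agent.R288.PtDp115
open Crest.Agent.R289.Tour594

/-- the new output -/
def outH (d : ℕ) (nb : ℕ → ℕ → ℕ) (s : St) (o : List ℕ) : List ℕ :=
  match s.1.2 with
  | [] => o
  | v :: rest =>
    match (List.range d).find? (fun g => !decide (nb v g ∈ s.1.1)) with
    | some g => if rest.length % 2 = 1 then nb v g :: o else o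
    | none => if rest.length % 2 = 1 then v :: o else o

/-- one step -/
def stepH (d : ℕ) (nb : ℕ → ℕ → ℕ) (t : St × List ℕ) : St × List ℕ :=
  (step d nb t.1, outH d nb t.1 t.2)

/-- start -/
def initH : St × List ℕ := ((([0], [0]), [0]), [0])

/-- all vertices, consecutive ones at distance `≤ 3` -/
def ham (N d : ℕ) (nb : ℕ → ℕ → ℕ) : List ℕ := ((stepH d nb)^[2 * N] initH).2.reverse

theorem fst_iter (d : ℕ) (nb : ℕ → ℕ → ℕ) (i : ℕ) :
    ((stepH d nb)^[i] initH).1 = (step d nb)^[i] (([0], [0]), [0]) := by
  induction i with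
  | zero => rfl
  | succ i ih => rw [Function.iterate_succ_apply', Function.iterate_succ_apply', ← ih]; rfl

/-- `v` is reached from `u` by a word of length at most `k` -/
def Near (d : ℕ) (nb : ℕ → ℕ → ℕ) (k u v : ℕ) : Prop :=
  ∃ l : List ℕ, l.length ≤ k ∧ (∀ g ∈ l, g < d) ∧ l.foldl nb u = v

theorem Near.refl (d : ℕ) (nb : ℕ → ℕ → ℕ) (k u : ℕ) : Near d nb k u u := ⟨[], by simp, by simp, rfl⟩

theorem Near.snoc {d : ℕ} {nb : ℕ → ℕ → ℕ} {k u v : ℕ} (h : Near d nb k u v) {g : ℕ} (hg : g < d) :
    Near d nb (k + 1) u (nb v g) := by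
  obtain ⟨l, hl, hd, hv⟩ := h
  refine ⟨l ++ [g], by simpa using hl, ?_, ?_⟩
  · intro a ha
    rcases List.mem_append.1 ha with h | h
    · exact hd a h
    · rw [List.mem_singleton.1 h]; exact hg
  · rw [List.foldl_append, hv]; rfl

theorem Near.mono {d : ℕ} {nb : ℕ → ℕ → ℕ} {k k' u v : ℕ} (h : Near d nb k u v) (hk : k ≤ k') :
    Near d nb k' u v := by
  obtain ⟨l, hl, hd, hv⟩ := h
  exact ⟨l, hl.trans hk, hd, hv⟩

/-- the elements of odd depth of a stack -/
def odds : List ℕ → List ℕ
  | [] => []
  | v :: rest => if rest.length % 2 = 1 then v :: odds rest else odds rest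

/-- the invariant -/
structure InvH (d : ℕ) (nb : ℕ → ℕ → ℕ) (t : St × List ℕ) : Prop where
  perm : (t.2 ++ odds t.1.1.2).Perm t.1.1.1
  near : ∃ x, t.2.head? = some x ∧ (∀ v rest, t.1.1.2 = v :: rest →
    Near d nb (1 + rest.length % 2) x v) ∧ (t.1.1.2 = [] → Near d nb 1 x 0)
  chain : t.2.IsChain (fun a b => Near d nb 3 b a)
  last : t.2.getLast? = some 0

theorem invH_init (d : ℕ) (nb : ℕ → ℕ → ℕ) : InvH d nb initH where
  perm := by simp [initH, odds]
  near := by
    refine ⟨0, rfl, ?_, ?_⟩
    · intro v rest h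
      simp only [initH, List.cons.injEq] at h
      rw [← h.1]
      exact Near.refl d nb _ 0
    · intro h
      simp [initH] at h
  chain := by simp [initH]
  last := by simp [initH]

theorem getLast?_cons_of {a x : ℕ} {o : List ℕ} (h : o.getLast? = some x) :
    (a :: o).getLast? = some x := by
  cases o with
  | nil => simp at h
  | cons b l => rw [List.getLast?_cons_cons]; exact h

theorem chain_cons_of {R : ℕ → ℕ → Prop} {a x : ℕ} {o : List ℕ} (hx : o.head? = some x)
    (h : R a x) (ho : o.IsChain R) : (a :: o).IsChain R := by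
  cases o with
  | nil => simp
  | cons b l =>
    simp only [List.head?_cons, Option.some.injEq] at hx
    subst hx
    exact List.IsChain.cons_cons h ho

theorem invH_step {N d : ℕ} {nb : ℕ → ℕ → ℕ} {t : St × List ℕ} (hI : Inv N d nb t.1)
    (h : InvH d nb t) : InvH d nb (stepH d nb t) := by
  obtain ⟨⟨⟨vis, stk⟩, out⟩, o⟩ := t
  cases stk with
  | nil =>
    have e : stepH d nb (((vis, []), out), o) = (((vis, []), out), o) := rfl
    rw [e]; exact h
  | cons v rest =>
    obtain ⟨x, hx, hnear, -⟩ := h.near
    have hn := hnear v rest rfl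
    simp only at hx
    cases hf : (List.range d).find? (fun g => !decide (nb v g ∈ vis)) with
    | some g =>
      have hg : g < d := List.mem_range.1 (List.mem_of_find?_eq_some hf)
      have e1 : step d nb ((vis, v :: rest), out) =
          ((nb v g :: vis, nb v g :: v :: rest), nb v g :: out) := by
        simp [step, hf]
      by_cases hp : rest.length % 2 = 1
      · have e : stepH d nb (((vis, v :: rest), out), o) =
            (((nb v g :: vis, nb v g :: v :: rest), nb v g :: out), nb v g :: o) := by
          simp only [stepH, e1, outH, hf, if_pos hp]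
        rw [e]
        have hp2 : ¬ (v :: rest).length % 2 = 1 := by simp only [List.length_cons]; omega
        refine ⟨?_, ⟨nb v g, rfl, ?_, ?_⟩, ?_, ?_⟩
        · have h1 : odds (nb v g :: v :: rest) = odds (v :: rest) := by
            rw [odds, if_neg hp2]
          simp only [h1, List.cons_append]
          exact h.perm.cons _
        · intro w r hw
          simp only [List.cons.injEq] at hw
          rw [← hw.1]
          exact Near.refl d nb _ _
        · intro hw
          simp at hw
        · refine chain_cons_of hx ?_ h.chain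
          rw [hp] at hn
          exact hn.snoc hg
        · exact getLast?_cons_of h.last
      · have e : stepH d nb (((vis, v :: rest), out), o) =
            (((nb v g :: vis, nb v g :: v :: rest), nb v g :: out), o) := by
          simp only [stepH, e1, outH, hf, if_neg hp]
        rw [e]
        have hp2 : (v :: rest).length % 2 = 1 := by simp only [List.length_cons]; omega
        refine ⟨?_, ⟨x, hx, ?_, ?_⟩, h.chain, h.last⟩
        · have h1 : odds (nb v g :: v :: rest) = nb v g :: odds (v :: rest) := by
            rw [odds, if_pos hp2]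
          simp only [h1]
          exact (List.perm_middle).trans (h.perm.cons _)
        · intro w r hw
          simp only [List.cons.injEq] at hw
          obtain ⟨hw1, hw2⟩ := hw
          subst hw1
          subst hw2
          rw [hp2]
          have h0 : rest.length % 2 = 0 := by omega
          rw [h0] at hn
          exact hn.snoc hg
        · intro hw
          simp at hw
    | none =>
      by_cases hp : rest.length % 2 = 1
      · have hne : rest ≠ [] := by
          rintro rfl
          simp at hp
        obtain ⟨u, r, rfl⟩ := List.exists_cons_of_ne_nil hne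
        have e1 : step d nb ((vis, v :: u :: r), out) = ((vis, u :: r), u :: out) := by
          simp [step, hf]
        have e : stepH d nb (((vis, v :: u :: r), out), o) =
            (((vis, u :: r), u :: out), v :: o) := by
          simp only [stepH, e1, outH, hf, if_pos hp]
        rw [e]
        refine ⟨?_, ⟨v, rfl, ?_, ?_⟩, ?_, ?_⟩
        · have h1 : odds (v :: u :: r) = v :: odds (u :: r) := by rw [odds, if_pos hp]
          have h2 := h.perm
          simp only [h1] at h2
          simp only [List.cons_append]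
          exact (List.perm_middle.symm).trans h2
        · intro w r' hw
          simp only [List.cons.injEq] at hw
          obtain ⟨hw1, hw2⟩ := hw
          subst hw1
          subst hw2
          have h3 := hI.chs
          simp only [List.isChain_cons_cons] at h3
          obtain ⟨g, hg, hgu⟩ := h3.1
          rw [← hgu]
          exact ((Near.refl d nb 0 v).snoc hg).mono (by omega)
        · intro hw
          simp at hw
        · refine chain_cons_of hx ?_ h.chain
          exact hn.mono (by omega)
        · exact getLast?_cons_of h.last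
      · have h0 : rest.length % 2 = 0 := by omega
        rw [h0] at hn
        cases rest with
        | nil =>
          have e1 : step d nb ((vis, [v]), out) = ((vis, []), out) := by simp [step, hf]
          have e : stepH d nb (((vis, [v]), out), o) = (((vis, []), out), o) := by
            simp only [stepH, e1, outH, hf, if_neg hp]
          rw [e]
          refine ⟨?_, ⟨x, hx, ?_, ?_⟩, h.chain, h.last⟩
          · have h2 := h.perm
            simp only [odds, List.length_nil, Nat.zero_mod, Nat.zero_ne_one, if_false] at h2 ⊢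
            exact h2
          · intro w r hw
            simp at hw
          · intro _
            have h3 := hI.stklast
            simp only [List.getLast?_singleton, Option.some.injEq, reduceCtorEq, or_false] at h3
            rw [h3] at hn
            exact hn
        | cons u r =>
          have e1 : step d nb ((vis, v :: u :: r), out) = ((vis, u :: r), u :: out) := by
            simp [step, hf]
          have e : stepH d nb (((vis, v :: u :: r), out), o) = (((vis, u :: r), u :: out), o) := by
            simp only [stepH, e1, outH, hf, if_neg hp]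
          rw [e]
          refine ⟨?_, ⟨x, hx, ?_, ?_⟩, h.chain, h.last⟩
          · have h1 : odds (v :: u :: r) = odds (u :: r) := by rw [odds, if_neg hp]
            have h2 := h.perm
            simp only [h1] at h2
            exact h2
          · intro w r' hw
            simp only [List.cons.injEq] at hw
            obtain ⟨hw1, hw2⟩ := hw
            subst hw1
            subst hw2
            have h3 := hI.chs
            simp only [List.isChain_cons_cons] at h3
            obtain ⟨g, hg, hgu⟩ := h3.1
            rw [← hgu]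
            simp only [List.length_cons] at h0
            exact (hn.snoc hg).mono (by omega)
          · intro hw
            simp at hw

theorem invH_iter {N d : ℕ} {nb : ℕ → ℕ → ℕ} (hN : 0 < N)
    (hnb : ∀ v, v < N → ∀ g, g < d → nb v g < N)
    (hsym : ∀ v, v < N → ∀ g, g < d → ∃ g', g' < d ∧ nb (nb v g) g' = v) (i : ℕ) :
    InvH d nb ((stepH d nb)^[i] initH) := by
  induction i with
  | zero => exact invH_init d nb
  | succ i ih =>
    rw [Function.iterate_succ_apply']
    refine invH_step (N := N) ?_ ih
    rw [fst_iter]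
    exact inv_iter hN hnb hsym i

theorem ham_spec {N d : ℕ} {nb : ℕ → ℕ → ℕ} (hN : 0 < N)
    (hnb : ∀ v, v < N → ∀ g, g < d → nb v g < N)
    (hsym : ∀ v, v < N → ∀ g, g < d → ∃ g', g' < d ∧ nb (nb v g) g' = v)
    (hconn : ∀ S : ℕ → Prop, S 0 → (∀ v, v < N → S v → ∀ g, g < d → S (nb v g)) →
      ∀ v, v < N → S v) :
    (ham N d nb).Nodup ∧ (ham N d nb).length = N ∧ (∀ v, v ∈ ham N d nb ↔ v < N) ∧
      (ham N d nb).head? = some 0 ∧ (ham N d nb).IsChain (Near d nb 3) ∧
      ∃ x, (ham N d nb).getLast? = some x ∧ Near d nb 1 x 0 := by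
  have hI := inv_iter hN hnb hsym (2 * N)
  have hE := stack_empty hN hnb hsym
  have hH := invH_iter hN hnb hsym (2 * N)
  unfold ham
  have hf := fst_iter d nb (2 * N)
  rw [← hf] at hI hE
  generalize (stepH d nb)^[2 * N] initH = t at hI hE hH
  have hall : ∀ v, v ∈ t.1.1.1 ↔ v < N := by
    intro v
    refine ⟨hI.lt v, hconn (fun v => v ∈ t.1.1.1) hI.root (fun v _ hv g hg => ?_) v⟩
    exact hI.closed v hv (by rw [hE]; simp) g hg
  have hp : t.2.Perm t.1.1.1 := by
    have h := hH.perm
    rw [hE] at h
    simpa [odds] using h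
  have hlen : t.1.1.1.length = N := by
    have h1 : List.Perm t.1.1.1 (List.range N) :=
      (List.perm_ext_iff_of_nodup hI.nodup List.nodup_range).2
        (fun v => by rw [hall v, List.mem_range])
    simpa using h1.length_eq
  obtain ⟨x, hx, -, hx0⟩ := hH.near
  refine ⟨?_, ?_, ?_, ?_, ?_, x, ?_, hx0 hE⟩
  · rw [List.nodup_reverse]
    exact hp.nodup_iff.2 hI.nodup
  · rw [List.length_reverse, hp.length_eq, hlen]
  · intro v
    rw [List.mem_reverse, hp.mem_iff, hall v]
  · rw [List.head?_reverse]
    exact hH.last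
  · rw [List.isChain_reverse]
    exact hH.chain
  · rw [List.getLast?_reverse]
    exact hx

/-! ### words -/

/-- all words of length `≤ 3` -/
def W3 (d : ℕ) : List (List ℕ) :=
  [] :: ((List.range d).map (fun a => [a]) ++
    (List.range d).flatMap (fun a => (List.range d).map (fun b => [a, b])) ++
    (List.range d).flatMap (fun a => (List.range d).flatMap (fun b =>
      (List.range d).map (fun c => [a, b, c]))))

theorem mem_W3 {d : ℕ} {l : List ℕ} : l ∈ W3 d ↔ l.length ≤ 3 ∧ ∀ g ∈ l, g < d := by
  unfold W3
  constructor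
  · intro h
    simp only [List.mem_cons, List.mem_append, List.mem_map, List.mem_flatMap,
      List.mem_range] at h
    rcases h with h | (⟨a, ha, h⟩ | ⟨a, ha, b, hb, h⟩) | ⟨a, ha, b, hb, c, hc, h⟩
    · subst h; simp
    · subst h; simpa using ha
    · subst h
      refine ⟨by simp, ?_⟩
      intro g hg
      simp only [List.mem_cons, List.not_mem_nil, or_false] at hg
      rcases hg with rfl | rfl <;> assumption
    · subst h
      refine ⟨by simp, ?_⟩
      intro g hg
      simp only [List.mem_cons, List.not_mem_nil, or_false] at hg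
      rcases hg with rfl | rfl | rfl <;> assumption
  · rintro ⟨h, hd⟩
    simp only [List.mem_cons, List.mem_append, List.mem_map, List.mem_flatMap, List.mem_range]
    match l, h, hd with
    | [], _, _ => left; rfl
    | [a], _, hd =>
      right; left; left
      exact ⟨a, hd a (by simp), rfl⟩
    | [a, b], _, hd =>
      right; left; right
      exact ⟨a, hd a (by simp), b, hd b (by simp), rfl⟩
    | [a, b, c], _, hd =>
      right; right
      exact ⟨a, hd a (by simp), b, hd b (by simp), c, hd c (by simp), rfl⟩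
    | a :: b :: c :: e :: l, h, _ =>
      simp only [List.length_cons] at h
      omega

/-- evaluation of a word of length `≤ 3` -/
def ev3 (nb : ℕ → ℕ → ℕ) (u : ℕ) (l : List ℕ) : ℕ :=
  if l.length = 0 then u
  else if l.length = 1 then nb u (l.getD 0 0)
  else if l.length = 2 then nb (nb u (l.getD 0 0)) (l.getD 1 0)
  else nb (nb (nb u (l.getD 0 0)) (l.getD 1 0)) (l.getD 2 0)

theorem ev3_eq {nb : ℕ → ℕ → ℕ} {u : ℕ} {l : List ℕ} (h : l.length ≤ 3) :
    ev3 nb u l = l.foldl nb u := by
  match l, h with
  | [], _ => rfl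
  | [a], _ => rfl
  | [a, b], _ => rfl
  | [a, b, c], _ => rfl
  | a :: b :: c :: e :: l, h =>
    simp only [List.length_cons] at h
    omega

/-- the index in `W3 d` of a word from `u` to `v` -/
def idx3 (d : ℕ) (nb : ℕ → ℕ → ℕ) (u v : ℕ) : ℕ :=
  ((List.range (W3 d).length).find? (fun i => decide (ev3 nb u ((W3 d).getD i []) = v))).getD 0

/-- the edge `i` of the cube at `u` -/
def nb3 (d : ℕ) (nb : ℕ → ℕ → ℕ) (u i : ℕ) : ℕ := ev3 nb u ((W3 d).getD i [])

theorem idx3_spec {d : ℕ} {nb : ℕ → ℕ → ℕ} {u v : ℕ} (h : Near d nb 3 u v) :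
    idx3 d nb u v < (W3 d).length ∧ nb3 d nb u (idx3 d nb u v) = v := by
  obtain ⟨l, hl, hd, hv⟩ := h
  have hm : l ∈ W3 d := mem_W3.2 ⟨hl, hd⟩
  obtain ⟨i, hi, he⟩ := List.mem_iff_getElem.1 hm
  unfold nb3 idx3
  cases hf : (List.range (W3 d).length).find?
      (fun i => decide (ev3 nb u ((W3 d).getD i []) = v)) with
  | some j =>
    have h1 := List.mem_range.1 (List.mem_of_find?_eq_some hf)
    have h2 := List.find?_some hf
    simp only [decide_eq_true_eq] at h2
    exact ⟨h1, h2⟩
  | none =>
    exfalso
    rw [List.find?_eq_none] at hf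
    have h1 := hf i (List.mem_range.2 hi)
    apply h1
    simp only [decide_eq_true_eq]
    rw [List.getD_eq_getElem _ _ hi, he, ev3_eq hl, hv]

theorem nb3_lt {N d : ℕ} {nb : ℕ → ℕ → ℕ} (hnb : ∀ v, v < N → ∀ g, g < d → nb v g < N)
    {u : ℕ} (hu : u < N) (i : ℕ) : nb3 d nb u i < N := by
  unfold nb3
  by_cases hi : i < (W3 d).length
  · have hm : (W3 d).getD i [] ∈ W3 d := by
      rw [List.getD_eq_getElem _ _ hi]
      exact List.getElem_mem hi
    obtain ⟨h1, h2⟩ := mem_W3.1 hm
    rw [ev3_eq h1]
    generalize (W3 d).getD i [] = l at h2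
    clear h1 hm
    induction l generalizing u with
    | nil => exact hu
    | cons a l ih =>
      rw [List.foldl_cons]
      exact ih (hnb u hu a (h2 a (by simp))) (fun g hg => h2 g (List.mem_cons_of_mem _ hg))
  · rw [List.getD_eq_default _ _ (by omega)]
    exact hu

/-! ### poly-time -/

section pt

variable {γ : Type} [PTCode γ]

theorem ptf_ev3 {nb : γ → ℕ → ℕ → ℕ} {u : γ → ℕ} {l : γ → List ℕ}
    (hnb : PTF (fun p : γ × ℕ × ℕ => nb p.1 p.2.1 p.2.2)) (hu : PTF u) (hl : PTF l) :
    PTF (fun c => ev3 (nb c) (u c) (l c)) := by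
  have hc : ∀ {a b : γ → ℕ}, PTF a → PTF b → PTF (fun c => nb c (a c) (b c)) := fun {a b} ha hb =>
    PTF.comp (g := fun p : γ × ℕ × ℕ => nb p.1 p.2.1 p.2.2)
      (f := fun c : γ => (c, a c, b c)) hnb (by fun_prop)
  have h0 : PTF (fun c => (l c).getD 0 0) := PTF.getD (PTU.const 0) hl (PTF.const 0)
  have h1 : PTF (fun c => (l c).getD 1 0) := PTF.getD (PTU.const 1) hl (PTF.const 0)
  have h2 : PTF (fun c => (l c).getD 2 0) := PTF.getD (PTU.const 2) hl (PTF.const 0)
  have hlen : PTF (fun c => (l c).length) := PTU.toPTF (PTU.length hl)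
  unfold ev3
  have ha := hc hu h0
  have hb := hc ha h1
  have hcc := hc hb h2
  exact PTF.ite (PTPred.natEq hlen (PTF.const 0)) hu
    (PTF.ite (PTPred.natEq hlen (PTF.const 1)) ha
      (PTF.ite (PTPred.natEq hlen (PTF.const 2)) hb hcc))

theorem ptf_nb3 {d : ℕ} {nb : γ → ℕ → ℕ → ℕ}
    (hnb : PTF (fun p : γ × ℕ × ℕ => nb p.1 p.2.1 p.2.2)) :
    PTF (fun p : γ × ℕ × ℕ => nb3 d (nb p.1) p.2.1 p.2.2) := by
  unfold nb3
  refine ptf_ev3 (γ := γ × ℕ × ℕ) (nb := fun p => nb p.1) (u := fun p => p.2.1)
    (l := fun p => (W3 d).getD p.2.2 []) ?_ (by fun_prop) ?_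
  · exact PTF.comp (g := fun p : γ × ℕ × ℕ => nb p.1 p.2.1 p.2.2)
      (f := fun q : (γ × ℕ × ℕ) × ℕ × ℕ => (q.1.1, q.2.1, q.2.2)) hnb (by fun_prop)
  · exact Crest.Agent.R289.Dec589.getDN (by fun_prop) (PTF.const (W3 d)) (PTF.const [])

theorem ptf_idx3 {d : ℕ} {nb : γ → ℕ → ℕ → ℕ} {u v : γ → ℕ}
    (hnb : PTF (fun p : γ × ℕ × ℕ => nb p.1 p.2.1 p.2.2)) (hu : PTF u) (hv : PTF v) :
    PTF (fun c => idx3 d (nb c) (u c) (v c)) := by
  unfold idx3
  refine PTF.optionGetD (PTF.find? (l := fun _ : γ => List.range (W3 d).length)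
    (p := fun c i => decide (ev3 (nb c) (u c) ((W3 d).getD i []) = v c)) (PTF.const _) ?_)
    (PTF.const 0)
  refine PTPred.toPTF (PTPred.natEq (f := fun q : γ × ℕ => ev3 (nb q.1) (u q.1)
    ((W3 d).getD q.2 [])) (g := fun q : γ × ℕ => v q.1) ?_ (PTF.comp (g := v) hv PTF.fst))
  refine ptf_ev3 (γ := γ × ℕ) (nb := fun q => nb q.1) (u := fun q => u q.1)
    (l := fun q => (W3 d).getD q.2 []) ?_ (PTF.comp (g := u) hu PTF.fst) ?_
  · exact PTF.comp (g := fun p : γ × ℕ × ℕ => nb p.1 p.2.1 p.2.2)
      (f := fun q : (γ × ℕ) × ℕ × ℕ => (q.1.1, q.2.1, q.2.2)) hnb (by fun_prop)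
  · exact Crest.Agent.R289.Dec589.getDN (by fun_prop) (PTF.const (W3 d)) (PTF.const [])

theorem ptf_outH {d : ℕ} {nb : γ → ℕ → ℕ → ℕ}
    (hnb : PTF (fun p : γ × ℕ × ℕ => nb p.1 p.2.1 p.2.2)) :
    PTF (fun p : γ × St × List ℕ => outH d (nb p.1) p.2.1 p.2.2) := by
  have hpar : PTPred (fun q : (γ × St × List ℕ) × ℕ × List ℕ => q.2.2.length % 2 = 1) :=
    PTPred.natEq (PTF.natMod (PTU.toPTF (PTU.length (l := fun q : (γ × St × List ℕ) × ℕ × List ℕ
      => q.2.2) (by fun_prop))) (PTF.const 2)) (PTF.const 1)
  have hpar' : PTPred (fun q : ((γ × St × List ℕ) × ℕ × List ℕ) × ℕ =>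
      q.1.2.2.length % 2 = 1) :=
    PTPred.natEq (PTF.natMod (PTU.toPTF (PTU.length
      (l := fun q : ((γ × St × List ℕ) × ℕ × List ℕ) × ℕ => q.1.2.2) (by fun_prop)))
        (PTF.const 2)) (PTF.const 1)
  have h2 : PTF (fun q : (γ × St × List ℕ) × ℕ × List ℕ =>
      (match (List.range d).find? (fun g => !decide (nb q.1.1 q.2.1 g ∈ q.1.2.1.1.1)) with
      | some g => if q.2.2.length % 2 = 1 then nb q.1.1 q.2.1 g :: q.1.2.2 else q.1.2.2
      | none => if q.2.2.length % 2 = 1 then q.2.1 :: q.1.2.2 else q.1.2.2 : List ℕ)) := by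
    have hf : PTF (fun q : (γ × St × List ℕ) × ℕ × List ℕ =>
        (List.range d).find? (fun g => !decide (nb q.1.1 q.2.1 g ∈ q.1.2.1.1.1))) := by
      refine PTF.find? (l := fun _ => List.range d)
        (p := fun (q : (γ × St × List ℕ) × ℕ × List ℕ) g =>
          !decide (nb q.1.1 q.2.1 g ∈ q.1.2.1.1.1)) (PTF.const _) ?_
      refine PTF.not (PTPred.toPTF (PTPred.mem
        (f := fun r : ((γ × St × List ℕ) × ℕ × List ℕ) × ℕ => nb r.1.1.1 r.1.2.1 r.2)
        (l := fun r : ((γ × St × List ℕ) × ℕ × List ℕ) × ℕ => r.1.1.2.1.1.1) ?_ (by fun_prop)))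
      exact PTF.comp (g := fun p : γ × ℕ × ℕ => nb p.1 p.2.1 p.2.2)
        (f := fun r : ((γ × St × List ℕ) × ℕ × List ℕ) × ℕ => (r.1.1.1, r.1.2.1, r.2)) hnb
        (by fun_prop)
    have hw : PTF (fun r : ((γ × St × List ℕ) × ℕ × List ℕ) × ℕ => nb r.1.1.1 r.1.2.1 r.2) :=
      PTF.comp (g := fun p : γ × ℕ × ℕ => nb p.1 p.2.1 p.2.2)
        (f := fun r : ((γ × St × List ℕ) × ℕ × List ℕ) × ℕ => (r.1.1.1, r.1.2.1, r.2)) hnb
        (by fun_prop)
    have h4 := PTF.optionCasesOn (s := fun q : (γ × St × List ℕ) × ℕ × List ℕ =>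
        (List.range d).find? (fun g => !decide (nb q.1.1 q.2.1 g ∈ q.1.2.1.1.1)))
      (f := fun q => (if q.2.2.length % 2 = 1 then q.2.1 :: q.1.2.2 else q.1.2.2 : List ℕ))
      (g := fun q g => (if q.2.2.length % 2 = 1 then nb q.1.1 q.2.1 g :: q.1.2.2
        else q.1.2.2 : List ℕ)) hf (PTF.ite hpar (by fun_prop) (by fun_prop))
      (PTF.ite hpar' (by fun_prop) (by fun_prop))
    refine PTF.of_eq h4 (fun q => ?_)
    cases (List.range d).find? (fun g => !decide (nb q.1.1 q.2.1 g ∈ q.1.2.1.1.1)) <;> rfl
  have h1 := PTF.listCasesOn (s := fun p : γ × St × List ℕ => p.2.1.1.2)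
    (f := fun p => p.2.2)
    (g := fun p v rest =>
      (match (List.range d).find? (fun g => !decide (nb p.1 v g ∈ p.2.1.1.1)) with
      | some g => if rest.length % 2 = 1 then nb p.1 v g :: p.2.2 else p.2.2
      | none => if rest.length % 2 = 1 then v :: p.2.2 else p.2.2 : List ℕ))
    (by fun_prop) (by fun_prop) h2
  refine PTF.of_eq h1 (fun p => ?_)
  obtain ⟨c, ⟨⟨vis, stk⟩, out⟩, o⟩ := p
  cases stk with
  | nil => rfl
  | cons v rest => rfl

theorem ptf_stepH {d : ℕ} {nb : γ → ℕ → ℕ → ℕ}
    (hnb : PTF (fun p : γ × ℕ × ℕ => nb p.1 p.2.1 p.2.2)) :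
    PTF (fun p : γ × St × List ℕ => stepH d (nb p.1) p.2) := by
  unfold stepH
  refine PTF.prodMk ?_ (ptf_outH hnb)
  exact PTF.comp (g := fun p : γ × St => step d (nb p.1) p.2)
    (f := fun p : γ × St × List ℕ => (p.1, p.2.1)) (ptf_step hnb) (by fun_prop)

theorem ptf_ham {d : ℕ} {N : γ → ℕ} {nb : γ → ℕ → ℕ → ℕ} (hN : PTU N)
    (hnb : PTF (fun p : γ × ℕ × ℕ => nb p.1 p.2.1 p.2.2))
    (hlt : ∀ c v g, nb c v g ≤ N c) : PTF (fun c => ham (N c) d (nb c)) := by
  have key : ∀ c i, ((∀ v ∈ ((stepH d (nb c))^[i] initH).1.1.1, v ≤ N c) ∧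
      (∀ v ∈ ((stepH d (nb c))^[i] initH).1.1.2, v ≤ N c) ∧
      (∀ v ∈ ((stepH d (nb c))^[i] initH).1.2, v ≤ N c) ∧
      (∀ v ∈ ((stepH d (nb c))^[i] initH).2, v ≤ N c)) ∧
      (((stepH d (nb c))^[i] initH).1.1.1.length ≤ i + 1 ∧
      ((stepH d (nb c))^[i] initH).1.1.2.length ≤ i + 1 ∧
      ((stepH d (nb c))^[i] initH).1.2.length ≤ i + 1 ∧
      ((stepH d (nb c))^[i] initH).2.length ≤ i + 1) := by
    intro c i
    induction i with
    | zero => simp [initH]
    | succ i ih =>
      rw [Function.iterate_succ_apply']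
      generalize (stepH d (nb c))^[i] initH = t at ih ⊢
      obtain ⟨⟨⟨vis, stk⟩, out⟩, o⟩ := t
      obtain ⟨⟨h1, h2, h3, h3'⟩, h4, h5, h6, h6'⟩ := ih
      simp only at h1 h2 h3 h3' h4 h5 h6 h6'
      cases stk with
      | nil =>
        simp only [stepH, step, outH]
        exact ⟨⟨h1, h2, h3, h3'⟩, by omega, by simp, by omega, by omega⟩
      | cons v rest =>
        have hv := h2 v (by simp)
        simp only [List.length_cons] at h5
        have hcons : ∀ (l : List ℕ) (a : ℕ), a ≤ N c → (∀ w ∈ l, w ≤ N c) →
            ∀ w ∈ a :: l, w ≤ N c := by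
          intro l a ha hl w hw
          rcases List.mem_cons.1 hw with rfl | hw
          · exact ha
          · exact hl w hw
        cases hf : (List.range d).find? (fun g => !decide (nb c v g ∈ vis)) with
        | some g =>
          have hg := hlt c v g
          have e1 : step d (nb c) ((vis, v :: rest), out) =
              ((nb c v g :: vis, nb c v g :: v :: rest), nb c v g :: out) := by
            simp [step, hf]
          have e2 : outH d (nb c) ((vis, v :: rest), out) o =
              if rest.length % 2 = 1 then nb c v g :: o else o := by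
            simp only [outH, hf]
          simp only [stepH, e1, e2]
          refine ⟨⟨hcons _ _ hg h1, hcons _ _ hg h2, hcons _ _ hg h3, ?_⟩, ?_, ?_, ?_, ?_⟩
          · split_ifs
            · exact hcons _ _ hg h3'
            · exact h3'
          · simp only [List.length_cons]; omega
          · simp only [List.length_cons]; omega
          · simp only [List.length_cons]; omega
          · split_ifs
            · simp only [List.length_cons]; omega
            · omega
        | none =>
          have e2 : outH d (nb c) ((vis, v :: rest), out) o =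
              if rest.length % 2 = 1 then v :: o else o := by
            simp only [outH, hf]
          have ho : (∀ w ∈ (if rest.length % 2 = 1 then v :: o else o), w ≤ N c) ∧
              (if rest.length % 2 = 1 then v :: o else o).length ≤ i + 1 + 1 := by
            split_ifs
            · exact ⟨hcons _ _ hv h3', by simp only [List.length_cons]; omega⟩
            · exact ⟨h3', by omega⟩
          cases rest with
          | nil =>
            have e1 : step d (nb c) ((vis, [v]), out) = ((vis, []), out) := by simp [step, hf]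
            simp only [stepH, e1, e2]
            exact ⟨⟨h1, by simp, h3, ho.1⟩, by omega, by simp, by omega, ho.2⟩
          | cons u r =>
            have e1 : step d (nb c) ((vis, v :: u :: r), out) = ((vis, u :: r), u :: out) := by
              simp [step, hf]
            simp only [stepH, e1, e2]
            refine ⟨⟨h1, fun w hw => h2 w (List.mem_cons_of_mem _ hw),
              hcons _ _ (h2 u (by simp)) h3, ho.1⟩, by omega, ?_, ?_, ho.2⟩
            · simp only [List.length_cons] at h5 ⊢; omega
            · simp only [List.length_cons]; omega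
  unfold ham
  refine PTF.reverse (PTF.comp (g := fun t : St × List ℕ => t.2) PTF.snd ?_)
  refine PTF.iterate' (n := fun c => 2 * N c) (f := fun (c : γ) (s : St × List ℕ) =>
    stepH d (nb c) s) (a := fun _ => initH)
    (B := fun c => 15 * ((2 * N c + 1) * (2 * (N c + 1) + 1)) + 15) ?_ (ptf_stepH hnb) (PTF.const _)
    ?_ ?_
  · exact PTU.mul (PTU.const 2) hN
  · have := hN.pb
    fun_prop
  · intro c i hi
    obtain ⟨⟨h1, h2, h3, h3'⟩, h4, h5, h6, h6'⟩ := key c i
    have hs : ∀ l : List ℕ, (∀ v ∈ l, v ≤ N c) → l.length ≤ i + 1 →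
        sz l ≤ (2 * N c + 1) * (2 * (N c + 1) + 1) := by
      intro l hl hlen
      have h7 : sz l ≤ l.length * (2 * (N c + 1) + 1) := by
        refine sz_list_le (fun a ha => ?_)
        have h8 := hl a ha
        have h9 := sz_nat_le a
        omega
      refine h7.trans (Nat.mul_le_mul_right _ ?_)
      have : i ≤ 2 * N c := hi
      omega
    have e1 := hs _ h1 h4
    have e2 := hs _ h2 h5
    have e3 := hs _ h3 h6
    have e4 := hs _ h3' h6'
    show sz ((stepH d (nb c))^[i] initH) ≤ _
    rw [sz_prod, sz_prod, sz_prod]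
    omega

end pt

end Crest.Agent.R289.Sek491
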