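import Crest.Agent.R289.Tour_594

/-!
# R289, leaf C_Sek (helper806): Hamiltonian path in the cube of a connected graph (Sekanina)

Same data as `Tour_594`: `nb v g` (`g < d`) = neighbours of the vertex `v < N`, root `0`.
`nb3 d nb v t` (`t < (d+1)^3`) = vertex reached from `v` by the three letters of `t` written in base
`d + 1`, the letter `d` means "stay".
`ham N d nb : List ℕ` = list of all the vertices `< N`, without repetition, first one `0`,
consecutive ones joined by a three letter word: `Adj ((d+1)^3) (nb3 d nb)` (`ham_spec`);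
`genOf ((d+1)^3) (nb3 d nb) u v` is the word.  `ptf_ham`, `ptf_nb3`: poly-time.
Method: depth first search, vertices of even depth are listed when they are pushed, vertices of odd
depth when they are popped.
-/

set_option autoImplicit false
set_option linter.dupNamespace false
set_option linter.unusedSectionVars false
set_option maxHeartbeats 400000

namespace Crest.Agent.R289.Sek806

open Crest.Agent.Lib.PT Crest.Agent.Lib.PT.Arith Crest.Agent.R288.PtDp115
open Crest.Agent.R289.Tour594

/-- generators with the letter `d` = stay -/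
def nbx (d : ℕ) (nb : ℕ → ℕ → ℕ) (v g : ℕ) : ℕ := if g < d then nb v g else v

/-- three letter words -/
def nb3 (d : ℕ) (nb : ℕ → ℕ → ℕ) (v t : ℕ) : ℕ :=
  nbx d nb (nbx d nb (nbx d nb v (t % (d + 1))) (t / (d + 1) % (d + 1)))
    (t / (d + 1) / (d + 1) % (d + 1))

/-- joined by a walk of at most `k` letters -/
def Near (d : ℕ) (nb : ℕ → ℕ → ℕ) : ℕ → ℕ → ℕ → Prop
  | 0, u, v => u = v
  | k + 1, u, v => ∃ w, Near d nb k u w ∧ (w = v ∨ Adj d nb w v)

theorem near_succ {d : ℕ} {nb : ℕ → ℕ → ℕ} {k u v : ℕ} (h : Near d nb k u v) :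
    Near d nb (k + 1) u v := ⟨v, h, Or.inl rfl⟩

theorem near_adj {d : ℕ} {nb : ℕ → ℕ → ℕ} {k u v w : ℕ} (h : Near d nb k u v)
    (ha : Adj d nb v w) : Near d nb (k + 1) u w := ⟨v, h, Or.inr ha⟩

theorem near_refl {d : ℕ} {nb : ℕ → ℕ → ℕ} (k u : ℕ) : Near d nb k u u := by
  induction k with
  | zero => rfl
  | succ k ih => exact near_succ ih

theorem nbx_of {d : ℕ} {nb : ℕ → ℕ → ℕ} {w v : ℕ} (h : w = v ∨ Adj d nb w v) :
    ∃ g, g < d + 1 ∧ nbx d nb w g = v := by
  rcases h with rfl | ⟨g, hg, hv⟩
  · exact ⟨d, by omega, by simp [nbx]⟩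
  · exact ⟨g, by omega, by simp [nbx, hg, hv]⟩

theorem adj3_of_near {d : ℕ} {nb : ℕ → ℕ → ℕ} {u v : ℕ} (h : Near d nb 3 u v) :
    Adj ((d + 1) ^ 3) (nb3 d nb) u v := by
  obtain ⟨w2, ⟨w1, ⟨w0, h0, h1⟩, h2⟩, h3⟩ := h
  have h0' : u = w0 := h0
  subst h0'
  obtain ⟨a, ha, ea⟩ := nbx_of h1
  obtain ⟨b, hb, eb⟩ := nbx_of h2
  obtain ⟨c, hc, ec⟩ := nbx_of h3
  refine ⟨a + (d + 1) * (b + (d + 1) * c), ?_, ?_⟩
  · have e1 : b + (d + 1) * c + 1 ≤ (d + 1) ^ 2 := by
      have : (d + 1) * (c + 1) ≤ (d + 1) * (d + 1) := Nat.mul_le_mul_left _ (by omega)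
      nlinarith
    have e2 : (d + 1) * (b + (d + 1) * c + 1) ≤ (d + 1) * (d + 1) ^ 2 := Nat.mul_le_mul_left _ e1
    have e3 : (d + 1) ^ 3 = (d + 1) * (d + 1) ^ 2 := by ring
    rw [e3]
    have e4 : (d + 1) * (b + (d + 1) * c + 1) = (d + 1) * (b + (d + 1) * c) + (d + 1) := by ring
    omega
  · have f1 : (a + (d + 1) * (b + (d + 1) * c)) % (d + 1) = a := by
      rw [Nat.add_mul_mod_self_left, Nat.mod_eq_of_lt ha]
    have f2 : (a + (d + 1) * (b + (d + 1) * c)) / (d + 1) = b + (d + 1) * c := by
      rw [Nat.add_mul_div_left _ _ (by omega : 0 < d + 1), Nat.div_eq_of_lt ha, Nat.zero_add]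
    have f3 : (b + (d + 1) * c) % (d + 1) = b := by
      rw [Nat.add_mul_mod_self_left, Nat.mod_eq_of_lt hb]
    have f4 : (b + (d + 1) * c) / (d + 1) = c := by
      rw [Nat.add_mul_div_left _ _ (by omega : 0 < d + 1), Nat.div_eq_of_lt hb, Nat.zero_add]
    have f5 : c % (d + 1) = c := Nat.mod_eq_of_lt hc
    unfold nb3
    rw [f1, f2, f3, f4, f5, ea, eb, ec]

/-- the vertices listed so far, most recent first -/
def upd (d : ℕ) (nb : ℕ → ℕ → ℕ) (st : St) (ham : List ℕ) : List ℕ :=
  match st.1.2 with
  | [] => ham
  | v :: rest =>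
    if rest.length % 2 = 1 then
      (match (List.range d).find? (fun g => !decide (nb v g ∈ st.1.1)) with
      | some g => nb v g
      | none => v) :: ham
    else ham

/-- one step -/
def sstep (d : ℕ) (nb : ℕ → ℕ → ℕ) (s : St × List ℕ) : St × List ℕ :=
  (step d nb s.1, upd d nb s.1 s.2)

/-- the start -/
def s0 : St × List ℕ := ((([0], [0]), [0]), [0])

/-- the Hamiltonian path of the cube -/
def ham (N d : ℕ) (nb : ℕ → ℕ → ℕ) : List ℕ := ((sstep d nb)^[2 * N] s0).2.reverse

theorem sstep_fst (d : ℕ) (nb : ℕ → ℕ → ℕ) (i : ℕ) :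
    ((sstep d nb)^[i] s0).1 = (step d nb)^[i] (([0], [0]), [0]) := by
  induction i with
  | zero => rfl
  | succ i ih =>
    rw [Function.iterate_succ_apply', Function.iterate_succ_apply', ← ih]
    rfl

/-- stack elements of odd depth -/
def oddStk : List ℕ → List ℕ
  | [] => []
  | v :: rest => if rest.length % 2 = 1 then v :: oddStk rest else oddStk rest

/-- the invariant of the list -/
structure SInv (d : ℕ) (nb : ℕ → ℕ → ℕ) (s : St × List ℕ) : Prop where
  perm : (s.2 ++ oddStk s.1.1.2).Perm s.1.1.1
  ch : s.2.IsChain (fun a b => Near d nb 3 b a)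
  last : s.2.getLast? = some 0
  near : ∀ v rest, s.1.1.2 = v :: rest → ∃ o tl, s.2 = o :: tl ∧
    Near d nb (1 + rest.length % 2) o v

theorem sinv_init (d : ℕ) (nb : ℕ → ℕ → ℕ) : SInv d nb s0 where
  perm := by simp [s0, oddStk]
  ch := by simp [s0]
  last := by simp [s0]
  near := by
    intro v rest h
    have h' : [0] = v :: rest := h
    injection h' with h1 h2
    subst h1
    subst h2
    exact ⟨0, [], rfl, near_refl _ _⟩

theorem sinv_step {N d : ℕ} {nb : ℕ → ℕ → ℕ} {s : St × List ℕ} (hI : Inv N d nb s.1)
    (h : SInv d nb s) : SInv d nb (sstep d nb s) := by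
  obtain ⟨⟨⟨vis, stk⟩, out⟩, hm⟩ := s
  cases stk with
  | nil => simpa [sstep, step, upd] using h
  | cons v rest =>
    obtain ⟨o, tl, ho, hn⟩ := h.near v rest rfl
    simp only at ho
    have hp : (hm ++ oddStk (v :: rest)).Perm vis := h.perm
    have hc : hm.IsChain (fun a b => Near d nb 3 b a) := h.ch
    have hl : hm.getLast? = some 0 := h.last
    cases hf : (List.range d).find? (fun g => !decide (nb v g ∈ vis)) with
    | some g =>
      have hg : g < d := List.mem_range.1 (List.mem_of_find?_eq_some hf)
      have hA : Adj d nb v (nb v g) := ⟨g, hg, rfl⟩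
      by_cases he : rest.length % 2 = 1
      · have e : sstep d nb (((vis, v :: rest), out), hm) =
            (((nb v g :: vis, nb v g :: v :: rest), nb v g :: out), nb v g :: hm) := by
          simp [sstep, step, upd, hf, he]
        rw [e]
        rw [he] at hn
        have h3 : Near d nb 3 o (nb v g) := near_adj hn hA
        refine ⟨?_, ?_, ?_, ?_⟩
        · have e2 : oddStk (nb v g :: v :: rest) = oddStk (v :: rest) := by
            rw [oddStk, if_neg (by simp only [List.length_cons]; omega)]
          show (nb v g :: hm ++ oddStk (nb v g :: v :: rest)).Perm (nb v g :: vis)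
          rw [e2, List.cons_append]
          exact hp.cons _
        · show (nb v g :: hm).IsChain _
          rw [ho] at hc ⊢
          exact List.IsChain.cons_cons h3 hc
        · show (nb v g :: hm).getLast? = some 0
          rw [ho] at hl ⊢
          rw [List.getLast?_cons_cons]
          exact hl
        · intro v' rest' h'
          have h'' : nb v g :: v :: rest = v' :: rest' := h'
          injection h'' with h1 h2
          subst h1
          subst h2
          exact ⟨nb v g, hm, rfl, near_refl _ _⟩
      · have e : sstep d nb (((vis, v :: rest), out), hm) =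
            (((nb v g :: vis, nb v g :: v :: rest), nb v g :: out), hm) := by
          simp [sstep, step, upd, hf, he]
        rw [e]
        have he' : rest.length % 2 = 0 := by omega
        rw [he'] at hn
        refine ⟨?_, hc, hl, ?_⟩
        · have e2 : oddStk (nb v g :: v :: rest) = nb v g :: oddStk (v :: rest) := by
            rw [oddStk, if_pos (by simp only [List.length_cons]; omega)]
          show (hm ++ oddStk (nb v g :: v :: rest)).Perm (nb v g :: vis)
          rw [e2]
          exact List.perm_middle.trans (hp.cons _)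
        · intro v' rest' h'
          have h'' : nb v g :: v :: rest = v' :: rest' := h'
          injection h'' with h1 h2
          subst h1
          subst h2
          refine ⟨o, tl, ho, ?_⟩
          have e3 : 1 + (v :: rest).length % 2 = (1 + 0) + 1 := by
            simp only [List.length_cons]; omega
          rw [e3]
          exact near_adj hn hA
    | none =>
      cases rest with
      | nil =>
        have e : sstep d nb (((vis, [v]), out), hm) = (((vis, []), out), hm) := by
          simp [sstep, step, upd, hf]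
        rw [e]
        refine ⟨?_, hc, hl, ?_⟩
        · show (hm ++ oddStk []).Perm vis
          have e2 : oddStk [v] = [] := by simp [oddStk]
          rw [e2] at hp
          exact hp
        · intro v' rest' h'
          have h'' : ([] : List ℕ) = v' :: rest' := h'
          exact absurd h'' (by simp)
      | cons u r =>
        have hA : Adj d nb v u := by
          have h1 : (v :: u :: r).IsChain (Adj d nb) := hI.chs
          exact (List.isChain_cons_cons.1 h1).1
        by_cases he : (u :: r).length % 2 = 1
        · have e : sstep d nb (((vis, v :: u :: r), out), hm) =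
              (((vis, u :: r), u :: out), v :: hm) := by
            simp only [List.length_cons] at he
            simp [sstep, step, upd, hf, he]
          rw [e]
          rw [he] at hn
          have h3 : Near d nb 3 o v := near_succ hn
          refine ⟨?_, ?_, ?_, ?_⟩
          · have e2 : oddStk (v :: u :: r) = v :: oddStk (u :: r) := by
              rw [oddStk, if_pos he]
            show (v :: hm ++ oddStk (u :: r)).Perm vis
            rw [e2] at hp
            rw [List.cons_append]
            exact List.perm_middle.symm.trans hp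
          · show (v :: hm).IsChain _
            rw [ho] at hc ⊢
            exact List.IsChain.cons_cons h3 hc
          · show (v :: hm).getLast? = some 0
            rw [ho] at hl ⊢
            rw [List.getLast?_cons_cons]
            exact hl
          · intro v' rest' h'
            have h'' : u :: r = v' :: rest' := h'
            injection h'' with h1 h2
            subst h1
            subst h2
            refine ⟨v, hm, rfl, ?_⟩
            have e3 : 1 + r.length % 2 = 0 + 1 := by
              simp only [List.length_cons] at he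
              omega
            rw [e3]
            exact near_adj (near_refl 0 v) hA
        · have e : sstep d nb (((vis, v :: u :: r), out), hm) =
              (((vis, u :: r), u :: out), hm) := by
            simp only [List.length_cons] at he
            simp [sstep, step, upd, hf, he]
          rw [e]
          have he' : (u :: r).length % 2 = 0 := by omega
          rw [he'] at hn
          refine ⟨?_, hc, hl, ?_⟩
          · have e2 : oddStk (v :: u :: r) = oddStk (u :: r) := by
              rw [oddStk, if_neg he]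
            show (hm ++ oddStk (u :: r)).Perm vis
            rw [e2] at hp
            exact hp
          · intro v' rest' h'
            have h'' : u :: r = v' :: rest' := h'
            injection h'' with h1 h2
            subst h1
            subst h2
            refine ⟨o, tl, ho, ?_⟩
            have e3 : 1 + r.length % 2 = (1 + 0) + 1 := by
              simp only [List.length_cons] at he
              omega
            rw [e3]
            exact near_adj hn hA

theorem sinv_iter {N d : ℕ} {nb : ℕ → ℕ → ℕ} (hN : 0 < N)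
    (hnb : ∀ v, v < N → ∀ g, g < d → nb v g < N)
    (hsym : ∀ v, v < N → ∀ g, g < d → ∃ g', g' < d ∧ nb (nb v g) g' = v) (i : ℕ) :
    SInv d nb ((sstep d nb)^[i] s0) := by
  induction i with
  | zero => exact sinv_init d nb
  | succ i ih =>
    rw [Function.iterate_succ_apply']
    refine sinv_step (N := N) ?_ ih
    rw [sstep_fst]
    exact inv_iter hN hnb hsym i

/-- **Sekanina**: all the vertices in one line, steps of at most three letters -/
theorem ham_spec {N d : ℕ} {nb : ℕ → ℕ → ℕ} (hN : 0 < N)
    (hnb : ∀ v, v < N → ∀ g, g < d → nb v g < N)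
    (hsym : ∀ v, v < N → ∀ g, g < d → ∃ g', g' < d ∧ nb (nb v g) g' = v)
    (hconn : ∀ S : ℕ → Prop, S 0 → (∀ v, v < N → S v → ∀ g, g < d → S (nb v g)) →
      ∀ v, v < N → S v) :
    (ham N d nb).length = N ∧ (ham N d nb).Nodup ∧ (∀ v, v ∈ ham N d nb ↔ v < N) ∧
      (ham N d nb).head? = some 0 ∧
      (ham N d nb).IsChain (Adj ((d + 1) ^ 3) (nb3 d nb)) := by
  have hI := inv_iter hN hnb hsym (2 * N)
  have hS := sinv_iter hN hnb hsym (2 * N)
  have hE := stack_empty hN hnb hsym
  have hfst := sstep_fst d nb (2 * N)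
  unfold ham
  generalize (sstep d nb)^[2 * N] s0 = s at hS hfst
  rw [← hfst] at hI hE
  have hall : ∀ v, v ∈ s.1.1.1 ↔ v < N := by
    intro v
    refine ⟨hI.lt v, hconn (fun v => v ∈ s.1.1.1) hI.root (fun v _ hv g hg => ?_) v⟩
    exact hI.closed v hv (by rw [hE]; simp) g hg
  have hperm : s.2.Perm s.1.1.1 := by
    have h1 := hS.perm
    rw [hE] at h1
    simpa [oddStk] using h1
  have hnd : s.2.Nodup := hperm.nodup_iff.2 hI.nodup
  have hmem : ∀ v, v ∈ s.2 ↔ v < N := fun v => by rw [hperm.mem_iff, hall v]
  have hlen : s.2.length = N := by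
    have h1 : List.Perm s.2 (List.range N) :=
      (List.perm_ext_iff_of_nodup hnd List.nodup_range).2
        (fun v => by rw [hmem v, List.mem_range])
    simpa using h1.length_eq
  refine ⟨by simpa using hlen, by simpa using hnd, fun v => by rw [List.mem_reverse, hmem v],
    ?_, ?_⟩
  · rw [List.head?_reverse]
    exact hS.last
  · rw [List.isChain_reverse]
    refine List.IsChain.imp (fun a b hab => ?_) hS.ch
    exact adj3_of_near hab

/-! ### poly-time -/

section pt

variable {γ : Type} [PTCode γ]

theorem ptf_nbx {d : ℕ} {nb : γ → ℕ → ℕ → ℕ}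
    (hnb : PTF (fun p : γ × ℕ × ℕ => nb p.1 p.2.1 p.2.2)) :
    PTF (fun p : γ × ℕ × ℕ => nbx d (nb p.1) p.2.1 p.2.2) := by
  unfold nbx
  exact PTF.ite (PTPred.natLt (f := fun p : γ × ℕ × ℕ => p.2.2) (g := fun _ => d) (by fun_prop)
    (by fun_prop)) hnb (by fun_prop)

theorem ptf_nb3 {d : ℕ} {nb : γ → ℕ → ℕ → ℕ}
    (hnb : PTF (fun p : γ × ℕ × ℕ => nb p.1 p.2.1 p.2.2)) :
    PTF (fun p : γ × ℕ × ℕ => nb3 d (nb p.1) p.2.1 p.2.2) := by
  have hx := ptf_nbx (d := d) hnb
  have h1 : PTF (fun p : γ × ℕ × ℕ => nbx d (nb p.1) p.2.1 (p.2.2 % (d + 1))) :=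
    PTF.comp (g := fun p : γ × ℕ × ℕ => nbx d (nb p.1) p.2.1 p.2.2)
      (f := fun p : γ × ℕ × ℕ => (p.1, p.2.1, p.2.2 % (d + 1))) hx (by fun_prop)
  have h2 : PTF (fun p : γ × ℕ × ℕ => nbx d (nb p.1) (nbx d (nb p.1) p.2.1 (p.2.2 % (d + 1)))
      (p.2.2 / (d + 1) % (d + 1))) :=
    PTF.comp (g := fun p : γ × ℕ × ℕ => nbx d (nb p.1) p.2.1 p.2.2)
      (f := fun p : γ × ℕ × ℕ => (p.1, nbx d (nb p.1) p.2.1 (p.2.2 % (d + 1)),
        p.2.2 / (d + 1) % (d + 1))) hx (by fun_prop)
  exact PTF.comp (g := fun p : γ × ℕ × ℕ => nbx d (nb p.1) p.2.1 p.2.2)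
      (f := fun p : γ × ℕ × ℕ => (p.1, nbx d (nb p.1) (nbx d (nb p.1) p.2.1 (p.2.2 % (d + 1)))
      (p.2.2 / (d + 1) % (d + 1)), p.2.2 / (d + 1) / (d + 1) % (d + 1))) hx (by fun_prop)

theorem ptf_upd {d : ℕ} {nb : γ → ℕ → ℕ → ℕ}
    (hnb : PTF (fun p : γ × ℕ × ℕ => nb p.1 p.2.1 p.2.2)) :
    PTF (fun p : γ × St × List ℕ => upd d (nb p.1) p.2.1 p.2.2) := by
  have h2 : PTF (fun q : (γ × St × List ℕ) × ℕ × List ℕ =>
      (match (List.range d).find? (fun g => !decide (nb q.1.1 q.2.1 g ∈ q.1.2.1.1.1)) with
      | some g => nb q.1.1 q.2.1 g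
      | none => q.2.1)) := by
    have hf : PTF (fun q : (γ × St × List ℕ) × ℕ × List ℕ =>
        (List.range d).find? (fun g => !decide (nb q.1.1 q.2.1 g ∈ q.1.2.1.1.1))) := by
      refine PTF.find? (l := fun _ => List.range d)
        (p := fun (q : (γ × St × List ℕ) × ℕ × List ℕ) g =>
          !decide (nb q.1.1 q.2.1 g ∈ q.1.2.1.1.1))
        (PTF.const _) ?_
      refine PTF.not (PTPred.toPTF (PTPred.mem
        (f := fun r : ((γ × St × List ℕ) × ℕ × List ℕ) × ℕ => nb r.1.1.1 r.1.2.1 r.2)
        (l := fun r : ((γ × St × List ℕ) × ℕ × List ℕ) × ℕ => r.1.1.2.1.1.1) ?_ (by fun_prop)))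
      exact PTF.comp (g := fun p : γ × ℕ × ℕ => nb p.1 p.2.1 p.2.2)
        (f := fun r : ((γ × St × List ℕ) × ℕ × List ℕ) × ℕ => (r.1.1.1, r.1.2.1, r.2)) hnb
        (by fun_prop)
    have h4 := PTF.optionCasesOn (s := fun q : (γ × St × List ℕ) × ℕ × List ℕ =>
        (List.range d).find? (fun g => !decide (nb q.1.1 q.2.1 g ∈ q.1.2.1.1.1)))
      (f := fun q => q.2.1)
      (g := fun q g => nb q.1.1 q.2.1 g) hf (by fun_prop)
      (PTF.comp (g := fun p : γ × ℕ × ℕ => nb p.1 p.2.1 p.2.2)
        (f := fun r : ((γ × St × List ℕ) × ℕ × List ℕ) × ℕ => (r.1.1.1, r.1.2.1, r.2)) hnb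
        (by fun_prop))
    refine PTF.of_eq h4 (fun q => ?_)
    cases (List.range d).find? (fun g => !decide (nb q.1.1 q.2.1 g ∈ q.1.2.1.1.1)) <;> rfl
  have hlen : PTF (fun q : (γ × St × List ℕ) × ℕ × List ℕ => q.2.2.length) :=
    (PTU.length (l := fun q : (γ × St × List ℕ) × ℕ × List ℕ => q.2.2) (by fun_prop)).toPTF
  have h3 : PTF (fun q : (γ × St × List ℕ) × ℕ × List ℕ =>
      if q.2.2.length % 2 = 1 then
        (match (List.range d).find? (fun g => !decide (nb q.1.1 q.2.1 g ∈ q.1.2.1.1.1)) with
        | some g => nb q.1.1 q.2.1 g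
        | none => q.2.1) :: q.1.2.2
      else q.1.2.2) :=
    PTF.ite (PTPred.natEq (f := fun q : (γ × St × List ℕ) × ℕ × List ℕ => q.2.2.length % 2)
      (g := fun _ => 1) (by fun_prop) (by fun_prop)) (PTF.listCons h2 (by fun_prop)) (by fun_prop)
  have h1 := PTF.listCasesOn (s := fun p : γ × St × List ℕ => p.2.1.1.2)
    (f := fun p => p.2.2)
    (g := fun p v rest => if rest.length % 2 = 1 then
        (match (List.range d).find? (fun g => !decide (nb p.1 v g ∈ p.2.1.1.1)) with
        | some g => nb p.1 v g
        | none => v) :: p.2.2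
      else p.2.2) (by fun_prop) (by fun_prop) h3
  refine PTF.of_eq h1 (fun p => ?_)
  obtain ⟨c, ⟨⟨⟨vis, stk⟩, out⟩, hm⟩⟩ := p
  cases stk with
  | nil => rfl
  | cons v rest => rfl

theorem ptf_sstep {d : ℕ} {nb : γ → ℕ → ℕ → ℕ}
    (hnb : PTF (fun p : γ × ℕ × ℕ => nb p.1 p.2.1 p.2.2)) :
    PTF (fun p : γ × St × List ℕ => sstep d (nb p.1) p.2) := by
  unfold sstep
  exact PTF.prodMk (PTF.comp (g := fun p : γ × St => step d (nb p.1) p.2)
    (f := fun p : γ × St × List ℕ => (p.1, p.2.1)) (ptf_step hnb) (by fun_prop)) (ptf_upd hnb)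

/-- sizes along the search -/
theorem bounds {d M : ℕ} {nb : ℕ → ℕ → ℕ} (hlt : ∀ v g, nb v g ≤ M) (i : ℕ) :
    (∀ v ∈ ((sstep d nb)^[i] s0).1.1.1, v ≤ M) ∧
      (∀ v ∈ ((sstep d nb)^[i] s0).1.1.2, v ≤ M) ∧
      (∀ v ∈ ((sstep d nb)^[i] s0).1.2, v ≤ M) ∧
      (∀ v ∈ ((sstep d nb)^[i] s0).2, v ≤ M) ∧
      ((sstep d nb)^[i] s0).1.1.1.length ≤ i + 1 ∧
      ((sstep d nb)^[i] s0).1.1.2.length ≤ i + 1 ∧
      ((sstep d nb)^[i] s0).1.2.length ≤ i + 1 ∧
      ((sstep d nb)^[i] s0).2.length ≤ i + 1 := by
  induction i with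
  | zero => simp [s0]
  | succ i ih =>
    rw [Function.iterate_succ_apply']
    generalize (sstep d nb)^[i] s0 = s at ih ⊢
    obtain ⟨⟨⟨vis, stk⟩, out⟩, hm⟩ := s
    obtain ⟨h1, h2, h3, h4, h5, h6, h7, h8⟩ := ih
    simp only at h1 h2 h3 h4 h5 h6 h7 h8
    have hcons : ∀ (l : List ℕ) (a : ℕ), a ≤ M → (∀ v ∈ l, v ≤ M) → ∀ v ∈ a :: l, v ≤ M := by
      intro l a ha hl v hv
      rcases List.mem_cons.1 hv with rfl | hv
      · exact ha
      · exact hl v hv
    cases stk with
    | nil =>
      have e : sstep d nb (((vis, []), out), hm) = (((vis, []), out), hm) := by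
        simp [sstep, step, upd]
      rw [e]
      exact ⟨h1, h2, h3, h4, by simp only; omega, by simp, by simp only; omega,
        by simp only; omega⟩
    | cons v rest =>
      have hv := h2 v (by simp)
      simp only [List.length_cons] at h6
      cases hf : (List.range d).find? (fun g => !decide (nb v g ∈ vis)) with
      | some g =>
        have hg := hlt v g
        by_cases he : rest.length % 2 = 1
        · have e : sstep d nb (((vis, v :: rest), out), hm) =
              (((nb v g :: vis, nb v g :: v :: rest), nb v g :: out), nb v g :: hm) := by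
            simp [sstep, step, upd, hf, he]
          rw [e]
          exact ⟨hcons _ _ hg h1, hcons _ _ hg h2, hcons _ _ hg h3, hcons _ _ hg h4,
            by simp only [List.length_cons]; omega, by simp only [List.length_cons]; omega,
            by simp only [List.length_cons]; omega, by simp only [List.length_cons]; omega⟩
        · have e : sstep d nb (((vis, v :: rest), out), hm) =
              (((nb v g :: vis, nb v g :: v :: rest), nb v g :: out), hm) := by
            simp [sstep, step, upd, hf, he]
          rw [e]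
          exact ⟨hcons _ _ hg h1, hcons _ _ hg h2, hcons _ _ hg h3, h4,
            by simp only [List.length_cons]; omega, by simp only [List.length_cons]; omega,
            by simp only [List.length_cons]; omega, by simp only; omega⟩
      | none =>
        cases rest with
        | nil =>
          have e : sstep d nb (((vis, [v]), out), hm) = (((vis, []), out), hm) := by
            simp [sstep, step, upd, hf]
          rw [e]
          exact ⟨h1, by simp, h3, h4, by simp only; omega, by simp, by simp only; omega,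
            by simp only; omega⟩
        | cons u r =>
          have hu := h2 u (by simp)
          have hr : ∀ w ∈ u :: r, w ≤ M := fun w hw => h2 w (List.mem_cons_of_mem _ hw)
          by_cases he : (r.length + 1) % 2 = 1
          · have e : sstep d nb (((vis, v :: u :: r), out), hm) =
                (((vis, u :: r), u :: out), v :: hm) := by
              simp [sstep, step, upd, hf, he]
            rw [e]
            simp only [List.length_cons] at h6
            exact ⟨h1, hr, hcons _ _ hu h3, hcons _ _ hv h4, by simp only; omega,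
              by simp only [List.length_cons]; omega, by simp only [List.length_cons]; omega,
              by simp only [List.length_cons]; omega⟩
          · have e : sstep d nb (((vis, v :: u :: r), out), hm) =
                (((vis, u :: r), u :: out), hm) := by
              simp [sstep, step, upd, hf, he]
            rw [e]
            simp only [List.length_cons] at h6
            exact ⟨h1, hr, hcons _ _ hu h3, h4, by simp only; omega,
              by simp only [List.length_cons]; omega, by simp only [List.length_cons]; omega,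
              by simp only; omega⟩

theorem ptf_ham {d : ℕ} {N : γ → ℕ} {nb : γ → ℕ → ℕ → ℕ} (hN : PTU N)
    (hnb : PTF (fun p : γ × ℕ × ℕ => nb p.1 p.2.1 p.2.2))
    (hlt : ∀ c v g, nb c v g ≤ N c) : PTF (fun c => ham (N c) d (nb c)) := by
  unfold ham
  refine PTF.comp (g := fun s : St × List ℕ => s.2.reverse) (by fun_prop) ?_
  refine PTF.iterate' (n := fun c => 2 * N c)
    (f := fun (c : γ) (s : St × List ℕ) => sstep d (nb c) s)
    (a := fun _ => s0)
    (B := fun c => 16 * ((2 * N c + 1) * (2 * (N c + 1) + 1)) + 16) ?_ (ptf_sstep hnb) (PTF.const _)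
    ?_ ?_
  · exact PTU.mul (PTU.const 2) hN
  · have := hN.pb
    fun_prop
  · intro c i hi
    obtain ⟨h1, h2, h3, h4, h5, h6, h7, h8⟩ := bounds (d := d) (hlt c) i
    have hs : ∀ l : List ℕ, (∀ v ∈ l, v ≤ N c) → l.length ≤ i + 1 →
        sz l ≤ (2 * N c + 1) * (2 * (N c + 1) + 1) := by
      intro l hl hlen
      have h7 : sz l ≤ l.length * (2 * (N c + 1) + 1) := by
        refine sz_list_le (fun a ha => ?_)
        have h8 := hl a ha
        have h9 := sz_nat_le a
        omega
      refine h7.trans (Nat.mul_le_mul_right _ ?_)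
      have : i ≤ 2 * N c := hi
      omega
    have e1 := hs _ h1 h5
    have e2 := hs _ h2 h6
    have e3 := hs _ h3 h7
    have e4 := hs _ h4 h8
    show sz ((sstep d (nb c))^[i] s0) ≤ _
    rw [sz_prod, sz_prod, sz_prod]
    omega

end pt

end Crest.Agent.R289.Sek806
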