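import Crest.Agent.R289.ULocS_880

/-!
# Row 289, joint I2/C9: uniform locality of the flags and of the step maps (helper880)

For a family `J i` of instances with clocks `k i` (whose maps are local), constant blank stage `gz` and
start stage `g0`: `UL` of `StAt`, `EnAt`, `BkAt`, `X0At`, `stpN`, `stpM`.
-/

set_option autoImplicit false

namespace Crest.Agent.R289.ULocI880

open Finset DefC DefI Compile827 ULoc406 Crest.Agent.R289.Word508 ULAsm406

section family

variable {K : Type} [Field K] {c : Cst K} {Inst : Type} {J : Inst → Ins c} {Gc Pc : Type}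
  {mc : ∀ i, Gc → (J i).U → (J i).U} {pc : ∀ i, (J i).U → Pc}
  {A : Type} {B : ∀ i, ((J i).U → A) → (J i).U → c.Bank}

theorem ul_czAt (hB : UL (mvF J mc) (pubF J pc) B) (m : c.A.Comp) :
    UL (mvF J mc) (pubF J pc) (fun i w u => CZAt (B i w u) m) := hB.map fun b : c.Bank => CZAt b m

theorem ul_izAt (hB : UL (mvF J mc) (pubF J pc) B) (j : c.A.Idl) :
    UL (mvF J mc) (pubF J pc) (fun i w u => IZAt (J i) (B i w) j u) :=
  UL.all fun s => (ul_eval hB (c.A.idl j) s).map fun y => y = 0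

theorem ul_stAt (hB : UL (mvF J mc) (pubF J pc) B) :
    UL (mvF J mc) (pubF J pc) (fun i w u => StAt (J i) (B i w) u) :=
  (UL.all fun m => (hB.map fun b : c.Bank => c.A.leg b.stg m).imp (ul_czAt hB m)).and
    (UL.all fun j => (hB.map fun b : c.Bank => c.A.legI b.stg j).imp (ul_izAt hB j))

theorem ul_enAt (hB : UL (mvF J mc) (pubF J pc) B) (ρ : c.A.Tr) :
    UL (mvF J mc) (pubF J pc) (fun i w u => EnAt (J i) ρ (B i w) u) :=
  (hB.map fun b : c.Bank => b.stg = c.A.src ρ).and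
    ((UL.all fun m => (UL.const (c.A.en ρ m)).imp (ul_czAt hB m)).and
      (UL.all fun j => (UL.const (c.A.enI ρ j)).imp (ul_izAt hB j)))

theorem ul_bkAt (hB : UL (mvF J mc) (pubF J pc) B) (ρ : c.A.Tr) :
    UL (mvF J mc) (pubF J pc) (fun i w u => BkAt (J i) ρ (B i w) u) :=
  (hB.map fun b : c.Bank => b.stg = c.A.tgt ρ).and
    ((UL.all fun m => (UL.const (c.A.bk ρ m)).imp (ul_czAt hB m)).and
      (UL.all fun j => (UL.const (c.A.bkI ρ j)).imp (ul_izAt hB j)))

theorem ul_x0At (g0 : c.A.Stg) (h0 : ∀ i, (J i).stg0 = g0) (hB : UL (mvF J mc) (pubF J pc) B) :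
    UL (mvF J mc) (pubF J pc) (fun i w u => X0At (J i) (B i w) u) := by
  refine UL.congr (F := fun i w u => (B i w u).stg = g0 ∧ ∀ j s, (B i w u).R j s =
    (J i).x0 j (u.1, s)) ?_ fun i w u => by simp only [X0At, h0]
  refine (hB.map fun b : c.Bank => b.stg = g0).and
    (UL.all (J := c.A.Reg) fun j => UL.all (J := c.S) fun s => ?_)
  exact UL.eq (hB.map fun b : c.Bank => b.R j s)
    ((UL.publ (A := A)).map fun p : c.PD × Pc => p.1.x0 j s)

/-! ### steps -/

variable {Ck : Type} (k : ∀ i, ClkI (J i) Ck)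

/-- the maps of the clock are local -/
structure ClkUL (mc : ∀ i, Gc → (J i).U → (J i).U) (pc : ∀ i, (J i).U → Pc) : Prop where
  rd : UL (mvF J mc) (pubF J pc) (fun i w u => (k i).rd w u)
  nx : UL (mvF J mc) (pubF J pc) (fun i w u => (k i).nx w u)
  pv : UL (mvF J mc) (pubF J pc) (fun i w u => (k i).pv w u)
  toz : UL (mvF J mc) (pubF J pc) (fun i w u => (k i).toz w u)
  toL : UL (mvF J mc) (pubF J pc) (fun i w u => (k i).toL w u)

variable {k}

theorem ul_bw1 : UL (mvF J mc) (pubF J pc)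
    (fun i (w : (J i).U → c.Lab Ck) u => bw1 (J i) w u) := UL.here.map fun l : c.Lab Ck => l.b1

theorem ul_bw2 : UL (mvF J mc) (pubF J pc)
    (fun i (w : (J i).U → c.Lab Ck) u => bw2 (J i) w u) := UL.here.map fun l : c.Lab Ck => l.b2

theorem ul_ck {X : Type} {F : ∀ i, ((J i).U → Ck) → (J i).U → X}
    (h : UL (mvF J mc) (pubF J pc) F) : UL (mvF J mc) (pubF J pc)
    (fun i (w : (J i).U → c.Lab Ck) u => F i (ckw (J i) w) u) :=
  UL.precomp (fun l : c.Lab Ck => l.ck) h

/-- one label from its parts -/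
theorem ul_lab {A : Type} {l : ∀ i, ((J i).U → A) → (J i).U → Letter c.A.Tr}
    {q : ∀ i, ((J i).U → A) → (J i).U → Ck} {b1 b2 : ∀ i, ((J i).U → A) → (J i).U → c.Bank}
    (hl : UL (mvF J mc) (pubF J pc) l) (hq : UL (mvF J mc) (pubF J pc) q)
    (h1 : UL (mvF J mc) (pubF J pc) b1) (h2 : UL (mvF J mc) (pubF J pc) b2) :
    UL (mvF J mc) (pubF J pc) (fun i w u => (⟨l i w u, q i w u, b1 i w u, b2 i w u⟩ : c.Lab Ck)) :=
  (((hl.prod hq).prod h1).prod h2).map fun x => (⟨x.1.1.1, x.1.1.2, x.1.2, x.2⟩ : c.Lab Ck)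

theorem ul_if {A X : Type} {b : ∀ i, ((J i).U → A) → (J i).U → Bool}
    {F G : ∀ i, ((J i).U → A) → (J i).U → X} (hb : UL (mvF J mc) (pubF J pc) b)
    (hF : UL (mvF J mc) (pubF J pc) F) (hG : UL (mvF J mc) (pubF J pc) G) :
    UL (mvF J mc) (pubF J pc) (fun i w u => if b i w u then F i w u else G i w u) :=
  UL.map₃ (fun (b : Bool) x y => if b then x else y) hb hF hG

/-- case distinction over the letter -/
theorem ul_letter {A X : Type} [Finite c.A.Tr]
    {l : ∀ i, ((J i).U → A) → (J i).U → Letter c.A.Tr}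
    {F1 F2 : ∀ i, ((J i).U → A) → (J i).U → X}
    {F3 F4 : c.A.Tr → ∀ i, ((J i).U → A) → (J i).U → X} (hl : UL (mvF J mc) (pubF J pc) l)
    (h1 : UL (mvF J mc) (pubF J pc) F1) (h2 : UL (mvF J mc) (pubF J pc) F2)
    (h3 : ∀ ρ, UL (mvF J mc) (pubF J pc) (F3 ρ)) (h4 : ∀ ρ, UL (mvF J mc) (pubF J pc) (F4 ρ)) :
    UL (mvF J mc) (pubF J pc) (fun i w u => match l i w u with
      | .boot => F1 i w u
      | .rest => F2 i w u
      | .fw ρ => F3 ρ i w u
      | .bw ρ => F4 ρ i w u) := by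
  have h := (((hl.prod h1).prod h2).prod (UL.pi h3)).prod (UL.pi h4)
  refine (h.map fun x => match x.1.1.1.1 with
      | .boot => x.1.1.1.2
      | .rest => x.1.1.2
      | .fw ρ => x.1.2 ρ
      | .bw ρ => x.2 ρ).congr fun i w u => ?_
  cases l i w u <;> rfl

variable (gz : c.A.Stg) (hz : ∀ i, (J i).stgz = gz)

include hz in
theorem ul_stpN (hk : ClkUL k mc pc) (o : Option c.A.Tr) :
    UL (mvF J mc) (pubF J pc) (fun i w u => stpN (J i) (k i) o w u) := by
  have hrd := ul_ck (c := c) hk.rd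
  have hl : UL (mvF J mc) (pubF J pc) (fun i (w : (J i).U → c.Lab Ck) u => (w u).l) :=
    UL.here.map fun l : c.Lab Ck => l.l
  have hc : UL (mvF J mc) (pubF J pc) (fun i (w : (J i).U → c.Lab Ck) u => (w u).ck) :=
    UL.here.map fun l : c.Lab Ck => l.ck
  have h1 : UL (mvF J mc) (pubF J pc) (fun i (w : (J i).U → c.Lab Ck) u => (w u).b1) :=
    UL.here.map fun l : c.Lab Ck => l.b1
  have h2 : UL (mvF J mc) (pubF J pc) (fun i (w : (J i).U → c.Lab Ck) u => (w u).b2) :=
    UL.here.map fun l : c.Lab Ck => l.b2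
  have hbl : UL (mvF J mc) (pubF J pc)
      (fun i (_ : (J i).U → c.Lab Ck) _ => regB (J i).stgz 0) :=
    (UL.const (regB gz 0)).congr fun i w u => by rw [hz]
  have hpush := ul_pushB hrd (ul_bw2 (J := J) (mc := mc) (pc := pc) (Ck := Ck))
  have hpop := ul_popB hrd (ul_bw1 (J := J) (mc := mc) (pc := pc) (Ck := Ck))
  refine ul_letter hl ?_ ?_ (fun ρ => ?_) (fun ρ => ?_)
  · exact ul_if (hrd.map fun d => d.lst) (ul_lab (UL.const _) (ul_ck hk.toz) h2 hbl)
      (ul_lab (UL.const _) (ul_ck hk.nx) h1 hpush)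
  · rcases o with _ | ρ
    · exact UL.here
    · exact ul_lab (UL.const _) hc h1
        (ul_entB (ul_upB ρ (ul_bw1 (J := J) (mc := mc) (pc := pc) (Ck := Ck))))
  · exact ul_if (hrd.map fun d => d.lst) (ul_lab (UL.const _) hc h1 h2)
      (ul_lab (UL.const _) (ul_ck hk.nx) h1 hpush)
  · exact ul_if (hrd.map fun d => d.fst) (ul_lab (UL.const _) hc h2 hbl)
      (ul_lab (UL.const _) (ul_ck hk.pv) hpop h2)

include hz in
theorem ul_stpM (hk : ClkUL k mc pc) (o : Option c.A.Tr) (b : Bool) :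
    UL (mvF J mc) (pubF J pc) (fun i w u => stpM (J i) (k i) o b w u) := by
  have hrd := ul_ck (c := c) hk.rd
  have hl : UL (mvF J mc) (pubF J pc) (fun i (w : (J i).U → c.Lab Ck) u => (w u).l) :=
    UL.here.map fun l : c.Lab Ck => l.l
  have hc : UL (mvF J mc) (pubF J pc) (fun i (w : (J i).U → c.Lab Ck) u => (w u).ck) :=
    UL.here.map fun l : c.Lab Ck => l.ck
  have h1 : UL (mvF J mc) (pubF J pc) (fun i (w : (J i).U → c.Lab Ck) u => (w u).b1) :=
    UL.here.map fun l : c.Lab Ck => l.b1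
  have h2 : UL (mvF J mc) (pubF J pc) (fun i (w : (J i).U → c.Lab Ck) u => (w u).b2) :=
    UL.here.map fun l : c.Lab Ck => l.b2
  have hbl : UL (mvF J mc) (pubF J pc)
      (fun i (_ : (J i).U → c.Lab Ck) _ => regB (J i).stgz 0) :=
    (UL.const (regB gz 0)).congr fun i w u => by rw [hz]
  have hpush := ul_pushB hrd (ul_bw1 (J := J) (mc := mc) (pc := pc) (Ck := Ck))
  have hpop := ul_popB hrd (ul_bw2 (J := J) (mc := mc) (pc := pc) (Ck := Ck))
  refine ul_letter hl ?_ ?_ (fun ρ => ?_) (fun ρ => ?_)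
  · exact ul_if (hrd.map fun d => d.fst) UL.here
      (ul_lab (UL.const _) (ul_ck hk.pv) h1 hpop)
  · rcases o with _ | ρ
    · cases b
      · exact UL.here
      · exact ul_lab (UL.const _) (ul_ck hk.toL) hbl h1
    · exact ul_lab (UL.const _) hc
        (ul_entB (ul_dnB ρ (ul_bw1 (J := J) (mc := mc) (pc := pc) (Ck := Ck)))) h1
  · exact ul_if (hrd.map fun d => d.fst) (ul_lab (UL.const _) hc h1 hbl)
      (ul_lab (UL.const _) (ul_ck hk.pv) h1 hpop)
  · exact ul_if (hrd.map fun d => d.lst) (ul_lab (UL.const _) hc h1 h2)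
      (ul_lab (UL.const _) (ul_ck hk.nx) hpush h2)

end family

end Crest.Agent.R289.ULocI880
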