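import Crest.Agent.R289.SemI_250
import Crest.Agent.R289.ULocU_880

/-!
# Row 289, block C, leaf SemI (helper250), part B: the compiled machine is uniformly local

`semI a ic` : the `Sem` of `ULAsm_406` given by `relI`, `vN`, `FN`, `vM`, `FM` of `SemI_250`.
`semI_loc` : it is local over the moves `mvF` and the public data `pubF` of `ULocI_880`.
-/

set_option autoImplicit false
set_option linter.unusedSectionVars false

namespace Crest.Agent.R289.SemI250

open Finset DefC DefI Compile827 ULoc406 ULocI880 ULAsm406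

/-! ### pointwise form of the residual words -/

section point
variable {K : Type} [Field K] {c : Cst K} (I : Ins c)

theorem Q_apply (w : I.AW) (E : I.n → K) (X : I.n → I.AW) (p : I.n) :
    I.Q w E X p = I.one p • X p - I.Lam (∑ j, I.E1 j p • X (I.h1 j * p.1, p.2))
      - (∑ j, I.E2 j p • X (I.h2 j * p.1, p.2)) - (I.one p * E p) • w := by
  have e2 : I.mU.mulVec E = I.one * E := by
    funext q
    rw [Ins.mU, Matrix.mulVec_diagonal]
    rfl
  simp only [Ins.Q, Level492.Q, Level492.Lc, Ins.act_mU, Ins.act_mN1, Ins.act_mN2, e2, Pi.sub_apply]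
  rfl

/-- certificate words of a bank word -/
def zB (B : I.U → c.Bank) : I.ZW := ⟨aX I B, aXm I B, aZ I B, aZm I B⟩

/-- residual field of a record field -/
def resF (s' : c.S') (e : I.U → K) (Y W : I.U → c.S → c.V) (u : I.U) (s : c.S) : c.V :=
  I.one (u.2, s') • Y u s
    - lamF I (fun v s => ∑ j, I.E1 j (v.2, s') • Y (v.1, I.h1 j * v.2) s) u s
    - (∑ j, I.E2 j (u.2, s') • Y (u.1, I.h2 j * u.2) s)
    - (I.one (u.2, s') * e u) • W u s

theorem qG_eq (x : RS I) (Tw : I.U → c.TD) (sel : c.TD → c.S' → K) (X : I.n → I.AW) (u : I.U)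
    (s' : c.S') (s : c.S) : qG I x Tw sel X (u.2, s') (u.1, s) =
      resF I s' (fun v => sel (Tw v) s') (fun v s => X (v.2, s') (v.1, s))
        (fun v s => I.wv (x v.2) (v.1, s)) u s := by
  have h1 : (∑ j, I.E1 j (u.2, s') • X (I.h1 j * u.2, s')) =
      fun ω => ∑ j, I.E1 j (u.2, s') • X (I.h1 j * u.2, s') ω := by
    funext ω; simp [Finset.sum_apply]
  have h2 : (∑ j, I.E2 j (u.2, s') • X (I.h2 j * u.2, s')) (u.1, s) =
      ∑ j, I.E2 j (u.2, s') • X (I.h2 j * u.2, s') (u.1, s) := by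
    simp [Finset.sum_apply]
  unfold qG
  simp only [Q_apply, Pi.sub_apply, h1, h2]
  rfl

/-- field of the extended mirror words -/
def extF (q : I.U → c.S' → c.S → c.V) (Z : I.U → c.C → c.S' → c.S → c.V) (s1 : c.S') (u : I.U)
    (s' : c.S') (s : c.S) : c.V := if h : s1 = c.s0' then q u s' s else Z u ⟨s1, h⟩ s' s

theorem mirAt_eq (q : I.n → I.AW) (Z : c.C → I.n → I.AW) (u : I.U) :
    I.MirAt q Z u ↔ ∀ (a : c.C) (s' : c.S') (s : c.S), (∑ s1, ∑ j, c.bet a s1 j •
      extF I (fun v s' s => q (v.2, s') (v.1, s)) (fun v a s' s => Z a (v.2, s') (v.1, s)) s1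
        (u.1, (I.gam j)⁻¹ * u.2) s' s) = 0 := by
  unfold Ins.MirAt
  refine forall_congr' fun a => forall_congr' fun s' => forall_congr' fun s => ?_
  have : (∑ s1, ∑ j, c.bet a s1 j • Mirror545.ext c.s0' q Z s1 ((I.gam j)⁻¹ * u.2, s'))
      (u.1, s) = ∑ s1, ∑ j, c.bet a s1 j •
      extF I (fun v s' s => q (v.2, s') (v.1, s)) (fun v a s' s => Z a (v.2, s') (v.1, s)) s1
        (u.1, (I.gam j)⁻¹ * u.2) s' s := by
    simp only [Finset.sum_apply, Pi.smul_apply]
    refine sum_congr rfl fun s1 _ => sum_congr rfl fun j _ => ?_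
    congr 1
    unfold Mirror545.ext extF
    split_ifs <;> rfl
  rw [this]

end point

/-! ### uniform locality of the certificates -/

section family
variable {K : Type} [Field K] {c : Cst K} {Inst : Type} {J : Inst → Ins c} {Gc Pc : Type}
  {mc : ∀ i, Gc → (J i).U → (J i).U} {pc : ∀ i, (J i).U → Pc}
  {A : Type} {B : ∀ i, ((J i).U → A) → (J i).U → c.Bank}

theorem ul_resF (s' : c.S') {e : ∀ i, ((J i).U → A) → (J i).U → K}
    {Y W : ∀ i, ((J i).U → A) → (J i).U → c.S → c.V}
    (he : UL (mvF J mc) (pubF J pc) e) (hY : UL (mvF J mc) (pubF J pc) Y)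
    (hW : UL (mvF J mc) (pubF J pc) W) :
    UL (mvF J mc) (pubF J pc) (fun i w u => resF (J i) s' (e i w) (Y i w) (W i w) u) := by
  have hone : UL (mvF J mc) (pubF J pc) (fun i (_ : (J i).U → A) u => (J i).one (u.2, s')) :=
    (UL.publ (A := A)).map fun p : c.PD × Pc => p.1.one s'
  have hE1 : ∀ j, UL (mvF J mc) (pubF J pc)
      (fun i (_ : (J i).U → A) u => (J i).E1 j (u.2, s')) := fun j =>
    (UL.publ (A := A)).map fun p : c.PD × Pc => p.1.E1 j s'
  have hE2 : ∀ j, UL (mvF J mc) (pubF J pc)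
      (fun i (_ : (J i).U → A) u => (J i).E2 j (u.2, s')) := fun j =>
    (UL.publ (A := A)).map fun p : c.PD × Pc => p.1.E2 j s'
  have h1 : UL (mvF J mc) (pubF J pc) (fun i w v (s : c.S) =>
      ∑ j, (J i).E1 j (v.2, s') • Y i w (v.1, (J i).h1 j * v.2) s) := by
    refine UL.pi fun s => UL.sum _ fun j => ?_
    exact UL.smul (hE1 j)
      ((UL.step (mv := mvF J mc) (Cst.Gen.t1 (Gc := Gc) j) hY).map fun y => y s)
  have h2 : ∀ s, UL (mvF J mc) (pubF J pc) (fun i w u =>
      ∑ j, (J i).E2 j (u.2, s') • Y i w (u.1, (J i).h2 j * u.2) s) := by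
    intro s
    refine UL.sum _ fun j => ?_
    exact UL.smul (hE2 j)
      ((UL.step (mv := mvF J mc) (Cst.Gen.t2 (Gc := Gc) j) hY).map fun y => y s)
  refine UL.pi fun s => ?_
  exact (((UL.smul hone (hY.map fun y => y s)).sub ((ul_lamF h1).map fun y => y s)).sub
    (h2 s)).sub (UL.smul (hone.mul he) (hW.map fun y => y s))

theorem ul_qG (sel : c.TD → c.S' → K) {Tw : ∀ i, ((J i).U → A) → (J i).U → c.TD}
    {X : ∀ i, ((J i).U → A) → (J i).U → c.S' → c.S → c.V}
    (hT : UL (mvF J mc) (pubF J pc) Tw) (hB : UL (mvF J mc) (pubF J pc) B)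
    (hX : UL (mvF J mc) (pubF J pc) X) :
    UL (mvF J mc) (pubF J pc) (fun i w u (s' : c.S') (s : c.S) =>
      qG (J i) (rR (J i) (B i w)) (Tw i w) sel (fun p ω => X i w (ω.1, p.1) p.2 ω.2)
        (u.2, s') (u.1, s)) := by
  refine UL.pi fun s' => ?_
  have h := ul_resF s' (hT.map fun t => sel t s') (hX.map fun y => y s') (ul_wB hB)
  refine h.congr fun i w u => ?_
  funext s
  rw [qG_eq]
  rfl

theorem ul_mirAt {q : ∀ i, ((J i).U → A) → (J i).n → (J i).AW}
    {Z : ∀ i, ((J i).U → A) → c.C → (J i).n → (J i).AW}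
    (hq : UL (mvF J mc) (pubF J pc) (fun i w u (s' : c.S') (s : c.S) =>
      q i w (u.2, s') (u.1, s)))
    (hZ : UL (mvF J mc) (pubF J pc) (fun i w u (a : c.C) (s' : c.S') (s : c.S) =>
      Z i w a (u.2, s') (u.1, s))) :
    UL (mvF J mc) (pubF J pc) (fun i w u => (J i).MirAt (q i w) (Z i w) u) := by
  have hx : ∀ s1, UL (mvF J mc) (pubF J pc) (fun i w u => extF (J i)
      (fun v s' s => q i w (v.2, s') (v.1, s)) (fun v a s' s => Z i w a (v.2, s') (v.1, s)) s1
      u) := by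
    intro s1
    by_cases h : s1 = c.s0'
    · refine hq.congr fun i w u => ?_
      unfold extF
      simp only [dif_pos h]
    · refine (hZ.map fun z => z ⟨s1, h⟩).congr fun i w u => ?_
      unfold extF
      simp only [dif_neg h]
  refine UL.congr (F := fun i w u => ∀ (a : c.C) (s' : c.S') (s : c.S), (∑ s1, ∑ j,
      c.bet a s1 j • extF (J i) (fun v s' s => q i w (v.2, s') (v.1, s))
        (fun v a s' s => Z i w a (v.2, s') (v.1, s)) s1 (u.1, ((J i).gam j)⁻¹ * u.2) s' s) = 0)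
    ?_ fun i w u => propext (mirAt_eq (J i) _ _ u)
  refine UL.all fun a => UL.all fun s' => UL.all fun s => ?_
  refine UL.map (fun y : c.V => y = 0) ?_
  refine UL.sum _ fun s1 => UL.sum _ fun j => ?_
  exact ((UL.step (mv := mvF J mc) (Cst.Gen.tm (Gc := Gc) j) (hx s1)).map
    fun y => c.bet a s1 j • y s' s)

/-- **relations of a certificate are local** -/
theorem ul_recG {Tw : ∀ i, ((J i).U → A) → (J i).U → c.TD}
    (hT : UL (mvF J mc) (pubF J pc) Tw) (hB : UL (mvF J mc) (pubF J pc) B) :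
    UL (mvF J mc) (pubF J pc) (fun i w u =>
      recG (J i) (rR (J i) (B i w)) (Tw i w) (zB (J i) (B i w)) u) := by
  have hX : UL (mvF J mc) (pubF J pc) (fun i w u => (B i w u).X) := hB.map fun b => b.X
  have hXm : UL (mvF J mc) (pubF J pc) (fun i w u => (B i w u).Xm) := hB.map fun b => b.Xm
  have hZ : UL (mvF J mc) (pubF J pc) (fun i w u => (B i w u).Z) := hB.map fun b => b.Z
  have hZm : UL (mvF J mc) (pubF J pc) (fun i w u => (B i w u).Zm) := hB.map fun b => b.Zm
  have q1 := ul_qG Cst.TD.D hT hB hX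
  have q2 := ul_qG Cst.TD.Dm hT hB hXm
  refine (ul_mirAt (q := fun i w => qG (J i) (rR (J i) (B i w)) (Tw i w) Cst.TD.D
    (zB (J i) (B i w)).X) (Z := fun i w => (zB (J i) (B i w)).Z) q1 hZ).and
    ((ul_mirAt (q := fun i w => qG (J i) (rR (J i) (B i w)) (Tw i w) Cst.TD.Dm
    (zB (J i) (B i w)).Xm) (Z := fun i w => (zB (J i) (B i w)).Zm) q2 hZm).and
    (UL.and ?_ (UL.and ?_ (UL.and ?_ ?_))))
  · exact UL.all fun s => q1.map fun y => y c.s0' s = 0
  · exact UL.all fun s => q2.map fun y => y c.s0' s = 0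
  · exact UL.all fun a => UL.all fun s => hZ.map fun y => y a c.s0' s = 0
  · exact UL.all fun a => UL.all fun s => hZm.map fun y => y a c.s0' s = 0

end family

/-! ### the semantic data of the machine -/

section sem
variable {K : Type} [Field K] {c : Cst K} {Inst Ck Gc Pc : Type} (a : Abs c Ck Gc)
  (ic : Inst → IC c Ck Gc) (pc : ∀ i, (ic i).I.U → Pc)

/-- **the semantic data** -/
noncomputable def semI : Sem Inst (fun i => (ic i).I.U) (c.Lab Ck) Unit c.A.Tr (Option c.A.Tr)
    (fun _ => Unit) (fun _ => Unit) where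
  rel _ i w u := relI a (ic i) w u
  vl ρ i w u := vN (ic i) w ρ u
  F i y w u := FN a (ic i) w y u
  vl' j i w u := vM a (ic i) w j u
  F' i y w u := FM a (ic i) w y u

/-- moves of the units -/
abbrev mvI (i : Inst) : c.Gen Gc → (ic i).I.U → (ic i).I.U :=
  mvF (fun i => (ic i).I) (fun i => (ic i).mc) i

/-- public data of the units -/
abbrev pubI (i : Inst) : (ic i).I.U → c.PD × Pc := pubF (fun i => (ic i).I) pc i

variable {a ic pc}

theorem ul_bnk (b : Bool) : UL (mvI ic) (pubI ic pc)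
    (fun i (w : (ic i).I.U → c.Lab Ck) u => bnk b (w u)) := UL.here.map fun l => bnk b l

theorem ul_l : UL (mvI ic) (pubI ic pc) (fun i (w : (ic i).I.U → c.Lab Ck) u => (w u).l) :=
  UL.here.map fun l : c.Lab Ck => l.l

theorem ul_ckh : UL (mvI ic) (pubI ic pc) (fun i (w : (ic i).I.U → c.Lab Ck) u => (w u).ck) :=
  UL.here.map fun l : c.Lab Ck => l.ck

theorem ul_ckg (g : Gc) : UL (mvI ic) (pubI ic pc)
    (fun i (w : (ic i).I.U → c.Lab Ck) u => (w ((ic i).mc g u)).ck) :=
  (UL.step (mv := mvI ic) (Cst.Gen.ck g) UL.here).map fun l : c.Lab Ck => l.ck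

theorem rec_eq (i : IC c Ck Gc) (w : i.I.U → c.Lab Ck) (b : Bool) (Tw : i.I.U → c.TD) (u : i.I.U) :
    recG i.I (xsW i w b) Tw (zW i w b) u =
      recG i.I (rR i.I fun v => bnk b (w v)) Tw (zB i.I fun v => bnk b (w v)) u := rfl

variable (a)

theorem ul_tdW [Finite Gc] : UL (mvI ic) (pubI ic pc)
    (fun i (w : (ic i).I.U → c.Lab Ck) u => tdW a (ic i) w u) :=
  (UL.pi fun g => ul_ckg g).map a.rd

variable {a}

theorem ul_tdL : UL (mvI ic) (pubI ic pc)
    (fun i (_ : (ic i).I.U → c.Lab Ck) u => tdL (ic i) u) :=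
  UL.publ.map fun p : c.PD × Pc => p.1.tdL

variable (a)

theorem ul_recT [Finite Gc] (b : Bool) : UL (mvI ic) (pubI ic pc)
    (fun i (w : (ic i).I.U → c.Lab Ck) u => recT a (ic i) w b u) :=
  (ul_recG (J := fun i => (ic i).I) (mc := fun i => (ic i).mc) (pc := pc)
    (B := fun i (w : (ic i).I.U → c.Lab Ck) u => bnk b (w u))
    (Tw := fun i (w : (ic i).I.U → c.Lab Ck) u => tdW a (ic i) w u)
    (ul_tdW a) (ul_bnk b)).congr fun i w u => rec_eq (ic i) w b (tdW a (ic i) w) u

variable {a}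

theorem ul_recL (b : Bool) : UL (mvI ic) (pubI ic pc)
    (fun i (w : (ic i).I.U → c.Lab Ck) u => recL (ic i) w b u) :=
  (ul_recG (J := fun i => (ic i).I) (mc := fun i => (ic i).mc) (pc := pc)
    (B := fun i (w : (ic i).I.U → c.Lab Ck) u => bnk b (w u))
    (Tw := fun i (_ : (ic i).I.U → c.Lab Ck) u => tdL (ic i) u)
    ul_tdL (ul_bnk b)).congr fun i w u => rec_eq (ic i) w b (tdL (ic i)) u

theorem ul_stI (b : Bool) : UL (mvI ic) (pubI ic pc)
    (fun i (w : (ic i).I.U → c.Lab Ck) u => stI (ic i) w b u) := ul_stAt (ul_bnk b)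

theorem ul_enI (ρ : c.A.Tr) (b : Bool) : UL (mvI ic) (pubI ic pc)
    (fun i (w : (ic i).I.U → c.Lab Ck) u => enI (ic i) w ρ b u) := ul_enAt (ul_bnk b) ρ

theorem ul_bkI (ρ : c.A.Tr) (b : Bool) : UL (mvI ic) (pubI ic pc)
    (fun i (w : (ic i).I.U → c.Lab Ck) u => bkI (ic i) w ρ b u) := ul_bkAt (ul_bnk b) ρ

variable (a)

theorem ul_x0I (b : Bool) : UL (mvI ic) (pubI ic pc)
    (fun i (w : (ic i).I.U → c.Lab Ck) u => x0I a (ic i) w b u) := by
  refine UL.and ((ul_bnk b).map fun y => y.stg = a.st0)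
    (UL.all (J := c.A.Reg) fun r => UL.all (J := c.S) fun s => ?_)
  exact UL.eq ((ul_bnk b).map fun y => y.R r s)
    ((UL.publ (A := c.Lab Ck)).map fun p : c.PD × Pc => p.1.x0 r s)

variable {a}

theorem ul_updI (st : c.A.Stg) (f : c.A.Reg → PE K c.A.Reg c.A.Pub c.G) (b b' : Bool) :
    UL (mvI ic) (pubI ic pc)
    (fun i (w : (ic i).I.U → c.Lab Ck) u => updI (ic i) w st f b b' u) := by
  refine UL.and ((ul_bnk b').map fun y => y.stg = st)
    (UL.all (J := c.A.Reg) fun r => UL.all (J := c.S) fun s => ?_)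
  exact UL.eq ((ul_bnk b').map fun y => y.R r s) (ul_eval (ul_bnk b) (f r) s)

variable (a)

/-- **the relation is local** -/
theorem ul_relI [Finite Gc] : UL (mvI ic) (pubI ic pc)
    (fun i (w : (ic i).I.U → c.Lab Ck) u => relI a (ic i) w u) := by
  have hl := ul_l (ic := ic) (pc := pc) (Ck := Ck)
  have h1 : UL (mvI ic) (pubI ic pc) (fun i (w : (ic i).I.U → c.Lab Ck) u => (w u).b1 = blk a) :=
    (ul_bnk false).map fun y => y = blk a
  have h2 : UL (mvI ic) (pubI ic pc) (fun i (w : (ic i).I.U → c.Lab Ck) u => (w u).b2 = blk a) :=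
    (ul_bnk true).map fun y => y = blk a
  refine (ul_letter hl (h1.and ((ul_x0I a true).and (ul_recT a true)))
    (((ul_tdW a).map fun t => t.fst = true).and ((ul_recL false).and ((ul_stI false).and h2)))
    (fun ρ => (ul_recL false).and ((ul_stI false).and ((ul_enI ρ false).and
      ((ul_updI (c.A.tgt ρ) (c.A.up ρ) false true).and (ul_recT a true)))))
    (fun ρ => (ul_recL true).and ((ul_stI true).and ((ul_bkI ρ true).and
      ((ul_updI (c.A.src ρ) (c.A.dn ρ) true false).and (ul_recT a false)))))).congr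
      fun i w u => ?_
  unfold relI
  cases (w u).l <;> rfl

variable {a}

open Classical in
theorem ul_flag {P Q : ∀ i, ((ic i).I.U → c.Lab Ck) → (ic i).I.U → Prop}
    (hP : UL (mvI ic) (pubI ic pc) P) (hQ : UL (mvI ic) (pubI ic pc) Q) :
    UL (mvI ic) (pubI ic pc) (fun i w u => if P i w u ∧ ¬ Q i w u then some () else none) := by
  refine (UL.map (fun p : Prop => if p then some () else none) (hP.and hQ.not)).congr
    fun i w u => ?_
  by_cases h : P i w u ∧ ¬ Q i w u
  · rw [if_pos h, if_pos h]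
  · rw [if_neg h, if_neg h]

open Classical in
theorem ul_vN (ρ : c.A.Tr) : UL (mvI ic) (pubI ic pc)
    (fun i (w : (ic i).I.U → c.Lab Ck) u => vN (ic i) w ρ u) := by
  refine (ul_flag (ul_l.map fun l => l = Letter.rest) (ul_enI ρ false)).congr fun i w u => ?_
  unfold vN
  split_ifs <;> rfl

variable (a)

open Classical in
theorem ul_vM (j : Option c.A.Tr) : UL (mvI ic) (pubI ic pc)
    (fun i (w : (ic i).I.U → c.Lab Ck) u => vM a (ic i) w j u) := by
  rcases j with _ | ρ
  · refine (ul_flag (ul_l.map fun l => l = Letter.rest) (ul_x0I a false)).congr fun i w u => ?_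
    simp only [vM]
  · refine (ul_flag (ul_l.map fun l => l = Letter.rest) (ul_bkI ρ false)).congr fun i w u => ?_
    simp only [vM]

theorem ul_push [Finite Gc] (b : Bool) : UL (mvI ic) (pubI ic pc)
    (fun i (w : (ic i).I.U → c.Lab Ck) u => SemI250.pushB a (ic i) w b u) :=
  ul_pushB (ul_tdW a) (ul_bnk b)

theorem ul_pop [Finite Gc] (b : Bool) : UL (mvI ic) (pubI ic pc)
    (fun i (w : (ic i).I.U → c.Lab Ck) u => SemI250.popB a (ic i) w b u) :=
  ul_popB (ul_tdW a) (ul_bnk b)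

variable {a}

theorem ul_upd (st : c.A.Stg) (f : c.A.Reg → PE K c.A.Reg c.A.Pub c.G) :
    UL (mvI ic) (pubI ic pc)
    (fun i (w : (ic i).I.U → c.Lab Ck) u => updB (ic i) w st f u) :=
  ul_entB (ul_regB st (UL.pi fun r => UL.pi fun s => ul_eval (ul_bnk false) (f r) s))

theorem ul_ifb {X : Type} {b : ∀ i, ((ic i).I.U → c.Lab Ck) → (ic i).I.U → Bool}
    {F G : ∀ i, ((ic i).I.U → c.Lab Ck) → (ic i).I.U → X} (hb : UL (mvI ic) (pubI ic pc) b)
    (hF : UL (mvI ic) (pubI ic pc) F) (hG : UL (mvI ic) (pubI ic pc) G) :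
    UL (mvI ic) (pubI ic pc) (fun i w u => if b i w u = true then F i w u else G i w u) :=
  ul_if hb hF hG

variable (a)

/-- **the forward step is local** -/
theorem ul_FN [Finite Gc] (y : c.A.Tr → Option Unit) : UL (mvI ic) (pubI ic pc)
    (fun i (w : (ic i).I.U → c.Lab Ck) u => FN a (ic i) w y u) := by
  have hl := ul_l (ic := ic) (pc := pc) (Ck := Ck)
  have h1 : UL (mvI ic) (pubI ic pc) (fun i (w : (ic i).I.U → c.Lab Ck) u => (w u).b1) :=
    ul_bnk false
  have h2 : UL (mvI ic) (pubI ic pc) (fun i (w : (ic i).I.U → c.Lab Ck) u => (w u).b2) :=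
    ul_bnk true
  have hd := ul_tdW a (ic := ic) (pc := pc)
  have hrest : UL (mvI ic) (pubI ic pc) (fun i (w : (ic i).I.U → c.Lab Ck) u =>
      if h : ∃ ρ, y ρ = none then
      (⟨.fw h.choose, (w u).ck, (w u).b1,
        updB (ic i) w (c.A.tgt h.choose) (c.A.up h.choose) u⟩ : c.Lab Ck) else w u) := by
    by_cases h : ∃ ρ, y ρ = none
    · simp only [dif_pos h]
      exact ul_lab (UL.const _) ul_ckh h1 (ul_upd _ _)
    · simp only [dif_neg h]
      exact UL.here
  refine (ul_letter hl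
    (ul_ifb (hd.map fun t => t.lst)
      (ul_lab (UL.const Letter.rest) (ul_ckg a.gu) h2 (UL.const (blk a)))
      (ul_lab (UL.const Letter.boot) (ul_ckg a.gu) h1 (ul_push a true)))
    hrest
    (fun ρ => ul_ifb (hd.map fun t => t.lst) (ul_lab (UL.const (Letter.bw ρ)) ul_ckh h1 h2)
      (ul_lab (UL.const (Letter.fw ρ)) (ul_ckg a.gu) h1 (ul_push a true)))
    (fun ρ => ul_ifb (hd.map fun t => t.fst)
      (ul_lab (UL.const Letter.rest) ul_ckh h2 (UL.const (blk a)))
      (ul_lab (UL.const (Letter.bw ρ)) (ul_ckg a.gd) (ul_pop a false) h2))).congr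
      fun i w u => ?_
  unfold FN
  cases (w u).l <;> rfl

/-- **the backward step is local** -/
theorem ul_FM [Finite Gc] (y : Option c.A.Tr → Option Unit) : UL (mvI ic) (pubI ic pc)
    (fun i (w : (ic i).I.U → c.Lab Ck) u => FM a (ic i) w y u) := by
  have hl := ul_l (ic := ic) (pc := pc) (Ck := Ck)
  have h1 : UL (mvI ic) (pubI ic pc) (fun i (w : (ic i).I.U → c.Lab Ck) u => (w u).b1) :=
    ul_bnk false
  have h2 : UL (mvI ic) (pubI ic pc) (fun i (w : (ic i).I.U → c.Lab Ck) u => (w u).b2) :=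
    ul_bnk true
  have hd := ul_tdW a (ic := ic) (pc := pc)
  have hrest : UL (mvI ic) (pubI ic pc) (fun i (w : (ic i).I.U → c.Lab Ck) u =>
      if h : ∃ ρ, y (some ρ) = none then
      (⟨.bw h.choose, (w u).ck, updB (ic i) w (c.A.src h.choose) (c.A.dn h.choose) u,
        (w u).b1⟩ : c.Lab Ck)
      else if y none = none then ⟨.boot, (w ((ic i).mc a.gd u)).ck, blk a, (w u).b1⟩
        else w u) := by
    by_cases h : ∃ ρ, y (some ρ) = none
    · simp only [dif_pos h]
      exact ul_lab (UL.const _) ul_ckh (ul_upd _ _) h1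
    · simp only [dif_neg h]
      by_cases h' : y none = none
      · simp only [if_pos h']
        exact ul_lab (UL.const _) (ul_ckg a.gd) (UL.const (blk a)) h1
      · simp only [if_neg h']
        exact UL.here
  refine (ul_letter hl
    (ul_ifb (hd.map fun t => t.fst) UL.here
      (ul_lab (UL.const Letter.boot) (ul_ckg a.gd) h1 (ul_pop a true)))
    hrest
    (fun ρ => ul_ifb (hd.map fun t => t.fst)
      (ul_lab (UL.const Letter.rest) ul_ckh h1 (UL.const (blk a)))
      (ul_lab (UL.const (Letter.fw ρ)) (ul_ckg a.gd) h1 (ul_pop a true)))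
    (fun ρ => ul_ifb (hd.map fun t => t.lst) (ul_lab (UL.const (Letter.fw ρ)) ul_ckh h1 h2)
      (ul_lab (UL.const (Letter.bw ρ)) (ul_ckg a.gu) (ul_push a false) h2))).congr
      fun i w u => ?_
  unfold FM
  cases (w u).l <;> rfl

/-- **THE MACHINE IS UNIFORMLY LOCAL** -/
theorem semI_loc [Finite Gc] : (semI a ic).Loc (mvI ic) (pubI ic pc) where
  rel _ := ul_relI a
  vl ρ := ul_vN ρ
  F y := ul_FN a y
  vl' j := ul_vM a j
  F' y := ul_FM a y

end sem

end Crest.Agent.R289.SemI250
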