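import Crest.Agent.R289.ULoc_406
import Crest.Agent.R289.Word2_508

/-!
# Row 289: from uniformly local maps to the instance independent rules of `Word2_508`

`exists_rules` : relations, reads and step maps given as uniformly local (`UL`) maps on the words of the
instances, together with a local code whose slots are words of steps, have ONE set of rules over the
slots `Sl St n` and the public views `Sl St n → P`: the hypotheses of `Word508.asm_Ax` for every instance
are then statements about the semantic maps (`Rules.cax`, `restrictC_eq`, `gap`, `glob_eq`, `coh`).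
-/

set_option autoImplicit false

namespace Crest.Agent.R289.ULAsm406

open Crest.Agent.R289.DefD Crest.Agent.R289.Word508 Crest.Agent.R289.ULoc406

/-- public view of a unit -/
def pubS {St V P : Type} (mv : St → V → V) (pub : V → P) (n : ℕ) (u : V) : Sl St n → P :=
  fun s => pub (nbS mv n s u)

/-- slots and public data of a code, realised by words of steps and public views -/
structure Real {Inst St : Type} {U : Inst → Type} {P ι0 P0 : Type} (mv : ∀ i, St → U i → U i)
    (pub : ∀ i, U i → P) (nb0 : ∀ i, ι0 → U i → U i) (pub0 : ∀ i, U i → P0) : Prop where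
  nb : ∀ j, ∃ l : List St, ∀ i u, nb0 i j u = walk (mv i) l u
  pub : ∃ n, ∃ π : (Sl St n → P) → P0, ∀ i u, pub0 i u = π (pubS (mv i) (pub i) n u)

/-- semantic data of a machine on the words of the instances -/
structure Sem (Inst : Type) (U : Inst → Type) (A Jr J J' : Type) (V : J → Type) (V' : J' → Type) where
  /-- relations -/
  rel : Jr → ∀ i, (U i → A) → U i → Prop
  /-- reads of the forward step -/
  vl : ∀ j, ∀ i, (U i → A) → U i → Option (V j)
  /-- forward step from the reads -/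
  F : ∀ i, (∀ j, Option (V j)) → (U i → A) → U i → A
  /-- reads of the backward step -/
  vl' : ∀ j, ∀ i, (U i → A) → U i → Option (V' j)
  /-- backward step from the reads -/
  F' : ∀ i, (∀ j, Option (V' j)) → (U i → A) → U i → A

/-- all maps are uniformly local -/
structure Sem.Loc {Inst St : Type} {U : Inst → Type} {A P Jr J J' : Type} {V : J → Type}
    {V' : J' → Type} (D : Sem Inst U A Jr J J' V V') (mv : ∀ i, St → U i → U i)
    (pub : ∀ i, U i → P) : Prop where
  rel : ∀ j, UL mv pub (D.rel j)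
  vl : ∀ j, UL mv pub (D.vl j)
  F : ∀ y, UL mv pub (fun i w u => D.F i y w u)
  vl' : ∀ j, UL mv pub (D.vl' j)
  F' : ∀ y, UL mv pub (fun i w u => D.F' i y w u)

/-- the words of `C` satisfying the relations -/
def Sem.W {Inst : Type} {U : Inst → Type} {A Jr J J' : Type} {V : J → Type} {V' : J' → Type}
    (D : Sem Inst U A Jr J J' V V') (i : Inst) (C : Set (U i → A)) : Set (U i → A) :=
  {w | w ∈ C ∧ ∀ j u, D.rel j i w u}

/-- forward step -/
noncomputable def Sem.N {Inst : Type} {U : Inst → Type} {A Jr J J' : Type} {V : J → Type}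
    {V' : J' → Type} (D : Sem Inst U A Jr J J' V V') (i : Inst) (w : U i → A) : U i → A :=
  fun u => D.F i (fun j => pick (D.vl j i w)) w u

/-- backward step -/
noncomputable def Sem.M {Inst : Type} {U : Inst → Type} {A Jr J J' : Type} {V : J → Type}
    {V' : J' → Type} (D : Sem Inst U A Jr J J' V V') (i : Inst) (w : U i → A) : U i → A :=
  fun u => D.F' i (fun j => pick (D.vl' j i w)) w u

/-- instance independent rules with radius `n` for the semantic data -/
structure Rules {Inst St : Type} {U : Inst → Type} {A P ι0 P0 Jr J J' : Type} {V : J → Type}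
    {V' : J' → Type} (D : Sem Inst U A Jr J J' V V') (mv : ∀ i, St → U i → U i)
    (pub : ∀ i, U i → P) (nb0 : ∀ i, ι0 → U i → U i) (pub0 : ∀ i, U i → P0) (n : ℕ) where
  σ : ι0 → Sl St n
  π : (Sl St n → P) → P0
  rel : Jr → (Sl St n → A) → (Sl St n → P) → Prop
  S : SRule (Sl St n) A (Sl St n → P) J V
  S' : SRule (Sl St n) A (Sl St n → P) J' V'
  hσ : ∀ i j u, nbS (mv i) n (σ j) u = nb0 i j u
  hπ : ∀ i u, π (pubS (mv i) (pub i) n u) = pub0 i u
  hrel : ∀ j i (w : U i → A) u,
    rel j (fun s => w (nbS (mv i) n s u)) (pubS (mv i) (pub i) n u) ↔ D.rel j i w u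
  hval : ∀ j i (w : U i → A) u,
    S.val j (fun s => w (nbS (mv i) n s u)) (pubS (mv i) (pub i) n u) = D.vl j i w u
  hF : ∀ i (w : U i → A) y u,
    S.F (fun s => w (nbS (mv i) n s u)) (pubS (mv i) (pub i) n u) y = D.F i y w u
  hval' : ∀ j i (w : U i → A) u,
    S'.val j (fun s => w (nbS (mv i) n s u)) (pubS (mv i) (pub i) n u) = D.vl' j i w u
  hF' : ∀ i (w : U i → A) y u,
    S'.F (fun s => w (nbS (mv i) n s u)) (pubS (mv i) (pub i) n u) y = D.F' i y w u

section

variable {Inst St : Type} {U : Inst → Type} {A P ι0 P0 Jr J J' : Type} {V : J → Type}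
    {V' : J' → Type} {D : Sem Inst U A Jr J J' V V'} {mv : ∀ i, St → U i → U i}
    {pub : ∀ i, U i → P} {nb0 : ∀ i, ι0 → U i → U i} {pub0 : ∀ i, U i → P0}

/-- **EXISTENCE OF THE RULES** -/
theorem exists_rules [Finite ι0] [Finite Jr] [Finite J] [Finite J'] [∀ j, Finite (V j)]
    [∀ j, Finite (V' j)] (hr : Real mv pub nb0 pub0) (hD : D.Loc mv pub) :
    ∃ n, ∀ m, n ≤ m → Nonempty (Rules D mv pub nb0 pub0 m) := by
  classical
  choose l hl using hr.nb
  obtain ⟨n0, π, hπ⟩ := hr.pub
  obtain ⟨n1, hn1⟩ : ∃ n, ∀ j, (l j).length ≤ n := by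
    obtain ⟨n, hn⟩ := (Set.finite_range fun j => (l j).length).bddAbove
    exact ⟨n, fun j => hn ⟨j, rfl⟩⟩
  obtain ⟨n2, h2⟩ := ul_iff.1 (UL.pi (B := fun _ => Prop) hD.rel)
  obtain ⟨n3, h3⟩ := ul_iff.1 (UL.pi hD.vl)
  obtain ⟨n4, h4⟩ := ul_iff.1 (UL.pi (J := ∀ j, Option (V j)) (B := fun _ => A) hD.F)
  obtain ⟨n5, h5⟩ := ul_iff.1 (UL.pi hD.vl')
  obtain ⟨n6, h6⟩ := ul_iff.1 (UL.pi (J := ∀ j, Option (V' j)) (B := fun _ => A) hD.F')
  refine ⟨n0 + n1 + n2 + n3 + n4 + n5 + n6, fun m hm => ?_⟩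
  obtain ⟨f2, h2⟩ := h2.mono (show n2 ≤ m by omega)
  obtain ⟨f3, h3⟩ := h3.mono (show n3 ≤ m by omega)
  obtain ⟨f4, h4⟩ := h4.mono (show n4 ≤ m by omega)
  obtain ⟨f5, h5⟩ := h5.mono (show n5 ≤ m by omega)
  obtain ⟨f6, h6⟩ := h6.mono (show n6 ≤ m by omega)
  exact ⟨{
    σ := fun j => ⟨l j, (hn1 j).trans (by omega)⟩
    π := fun p => π fun s => p (s.cast (show n0 ≤ m by omega))
    rel := fun j x p => f2 x p j
    S := ⟨fun j x p => f3 x p j, fun x p y => f4 x p y⟩
    S' := ⟨fun j x p => f5 x p j, fun x p y => f6 x p y⟩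
    hσ := fun i j u => (hl j i u).symm
    hπ := fun i u => (hπ i u).symm
    hrel := fun j i w u => iff_of_eq (congrFun (h2 i w u) j).symm
    hval := fun j i w u => (congrFun (h3 i w u) j).symm
    hF := fun i w y u => (congrFun (h4 i w u) y).symm
    hval' := fun j i w u => (congrFun (h5 i w u) j).symm
    hF' := fun i w y u => (congrFun (h6 i w u) y).symm }⟩

variable {n : ℕ} (R : Rules D mv pub nb0 pub0 n)

/-- the rules of the code over the new slots -/
def Rules.code (R0 : CRules ι0 A P0) : CRules (Sl St n) A (Sl St n → P) := R0.extend R.σ R.π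

include R in
/-- the local code over the new slots -/
theorem Rules.cax {i : Inst} [Fintype (U i)] {R0 : CRules ι0 A P0} {C : Set (U i → A)}
    {m m' zs r0 d0 c θ : ℝ} (h : CAx R0 (nb0 i) (pub0 i) C m zs r0 d0 c θ)
    (hm : NbMult (nbS (mv i) n) m') :
    CAx (R.code R0) (nbS (mv i) n) (pubS (mv i) (pub i) n) C m' zs r0 d0 c θ :=
  h.extend R.σ R.π (nbS (mv i) n) (pubS (mv i) (pub i) n) (R.hσ i) (R.hπ i) hm

/-- the legal words -/
theorem Rules.restrictC_eq (i : Inst) (C : Set (U i → A)) :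
    restrictC (nbS (mv i) n) (pubS (mv i) (pub i) n) C R.rel = D.W i C := by
  ext w
  constructor
  · rintro ⟨h1, h2⟩
    exact ⟨h1, fun j u => (R.hrel j i w u).1 (h2 j u)⟩
  · rintro ⟨h1, h2⟩
    exact ⟨h1, fun j u => (R.hrel j i w u).2 (h2 j u)⟩

/-- the gap hypothesis -/
theorem Rules.gap {i : Inst} [Fintype (U i)] {C : Set (U i → A)} {g : ℝ}
    (h : ∀ w ∈ C, (¬ ∀ j u, D.rel j i w u) → ∃ j, g ≤ frac fun u => ¬ D.rel j i w u) :
    ∀ w ∈ C, (¬ ∀ j u, R.rel j (fun s => w (nbS (mv i) n s u)) (pubS (mv i) (pub i) n u)) →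
      ∃ j, g ≤ frac fun u =>
        ¬ R.rel j (fun s => w (nbS (mv i) n s u)) (pubS (mv i) (pub i) n u) := by
  intro w hw hn
  obtain ⟨j, hj⟩ := h w hw fun hc => hn fun j u => (R.hrel j i w u).2 (hc j u)
  refine ⟨j, ?_⟩
  simp only [R.hrel]
  exact hj

/-- the forward step -/
theorem Rules.glob_eq (i : Inst) (w : U i → A) :
    R.S.glob (nbS (mv i) n) (pubS (mv i) (pub i) n) w = D.N i w := by
  funext u
  show R.S.F _ _ _ = _
  rw [R.hF]
  unfold Sem.N SRule.gval
  congr 1
  funext j
  congr 1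
  funext v
  exact R.hval j i w v

/-- the backward step -/
theorem Rules.glob_eq' (i : Inst) (w : U i → A) :
    R.S'.glob (nbS (mv i) n) (pubS (mv i) (pub i) n) w = D.M i w := by
  funext u
  show R.S'.F _ _ _ = _
  rw [R.hF']
  unfold Sem.M SRule.gval
  congr 1
  funext j
  congr 1
  funext v
  exact R.hval' j i w v

theorem Rules.coh {i : Inst} [Fintype (U i)] {ρ : ℝ} (w : U i → A) (j : J)
    (h : Coh (D.vl j i w) ρ) :
    Coh (fun u => R.S.val j (fun s => w (nbS (mv i) n s u)) (pubS (mv i) (pub i) n u)) ρ := by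
  have : (fun u => R.S.val j (fun s => w (nbS (mv i) n s u)) (pubS (mv i) (pub i) n u)) =
      D.vl j i w := funext fun u => R.hval j i w u
  rw [this]
  exact h

theorem Rules.coh' {i : Inst} [Fintype (U i)] {ρ : ℝ} (w : U i → A) (j : J')
    (h : Coh (D.vl' j i w) ρ) :
    Coh (fun u => R.S'.val j (fun s => w (nbS (mv i) n s u)) (pubS (mv i) (pub i) n u)) ρ := by
  have : (fun u => R.S'.val j (fun s => w (nbS (mv i) n s u)) (pubS (mv i) (pub i) n u)) =
      D.vl' j i w := funext fun u => R.hval' j i w u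
  rw [this]
  exact h

end

end Crest.Agent.R289.ULAsm406
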