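import Crest.Agent.R289.ULocI_880
import Crest.Agent.R289.GapI_731
import Crest.Agent.R289.ULAsm_406

/-!
# Row 289, C_SEM: the compiled machine of `DefI_306` as functionals of label words (definitions)

`I : Ins c`, label words `w : I.U → c.Lab Ck`.

* `Clk I Ck` : clock words and the reads of the clock (`Clk.OK` : they are right on exact words);
* `QB`, `MirB`, `RecB`, `CZB`, `IZB`, `StB`, `EnB`, `BkB` : relations of a bank word at a unit;
* `RelL`, `Rel` : the relation of the machine; `LegalAt` : the same for a configuration;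
* `FlN`, `FlM` : flags of the guards; `StpN`, `StpM` : the step rules (given the flags);
* `semI` : the data in the sense of `ULAsm406.Sem` for a family of instances.
-/

set_option autoImplicit false

namespace Crest.Agent.R289.SemI406

open Finset DefC DefI Compile827 ULoc406 ULocI880

section one

variable {K : Type} [Field K] {c : Cst K} (I : Ins c)

/-- clock words and reads of the clock -/
structure Clk (Ck : Type) where
  cw : ℕ → I.U → Ck
  /-- clock data from the clock word -/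
  rd : (I.U → Ck) → I.U → c.TD
  /-- next clock symbol -/
  up : (I.U → Ck) → I.U → Ck
  /-- previous clock symbol -/
  dn : (I.U → Ck) → I.U → Ck

/-- the reads are right; period `L + 1` -/
structure Clk.OK {I : Ins c} {Ck : Type} (k : Clk I Ck) : Prop where
  rd : ∀ t, t ≤ I.L → ∀ u, k.rd (k.cw t) u = I.td t u.2
  up : ∀ t, t < I.L → ∀ u, k.up (k.cw t) u = k.cw (t + 1) u
  dn : ∀ t, t < I.L → ∀ u, k.dn (k.cw (t + 1)) u = k.cw t u
  top : ∀ u, k.up (k.cw I.L) u = k.cw 0 u
  bot : ∀ u, k.dn (k.cw 0) u = k.cw I.L u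
  inj : ∀ s t, s ≤ I.L → t ≤ I.L → k.cw s = k.cw t → s = t

/-! ### relations of a bank word -/

/-- residual of the record `X` of the register words of the bank, at the clock word `E` -/
def QB (E : I.U → c.S' → K) (B : I.U → c.Bank) (X : I.U → c.S' → c.S → c.V) (u : I.U)
    (s' : c.S') (s : c.S) : c.V :=
  I.one (u.2, s') • X u s' s
    - lamF I (fun v s => ∑ j, I.E1 j (v.2, s') • X (v.1, I.h1 j * v.2) s' s) u s
    - ∑ j, I.E2 j (u.2, s') • X (u.1, I.h2 j * u.2) s' s
    - (I.one (u.2, s') * E u s') • wB I B u s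

/-- mirror relation of bank fields at a unit -/
def MirB (q : I.U → c.S' → c.S → c.V) (Z : I.U → c.C → c.S' → c.S → c.V) (u : I.U) : Prop :=
  ∀ a s' s, (∑ s1, ∑ j, c.bet a s1 j • Mirror545.ext c.s0'
    (q (u.1, (I.gam j)⁻¹ * u.2) s' s)
    (fun b => Z (u.1, (I.gam j)⁻¹ * u.2) b s' s) s1) = 0

/-- relations of the certificate of a bank with the clock data `d` -/
def RecB (d : I.U → c.TD) (B : I.U → c.Bank) (u : I.U) : Prop :=
  MirB I (QB I (fun v => (d v).D) B fun v => (B v).X) (fun v => (B v).Z) u ∧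
  MirB I (QB I (fun v => (d v).Dm) B fun v => (B v).Xm) (fun v => (B v).Zm) u ∧
  (∀ s, QB I (fun v => (d v).D) B (fun v => (B v).X) u c.s0' s = 0) ∧
  (∀ s, QB I (fun v => (d v).Dm) B (fun v => (B v).Xm) u c.s0' s = 0) ∧
  (∀ a s, (B u).Z a c.s0' s = 0) ∧
  (∀ a s, (B u).Zm a c.s0' s = 0)

/-- component `m` vanishes at a unit of the record -/
def CZB (B : I.U → c.Bank) (m : c.A.Comp) (u : I.U) : Prop := ∀ s' a, (B u).X s' c.s0 a m = 0

/-- identity `i` at a unit -/
def IZB (B : I.U → c.Bank) (i : c.A.Idl) (u : I.U) : Prop :=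
  ∀ s, I.evalW (c.A.idl i) (rR I B u.2) (u.1, s) = 0

def StB (B : I.U → c.Bank) (u : I.U) : Prop :=
  (∀ m, c.A.leg (B u).stg m → CZB I B m u) ∧ ∀ i, c.A.legI (B u).stg i → IZB I B i u

def EnB (ρ : c.A.Tr) (B : I.U → c.Bank) (u : I.U) : Prop :=
  (B u).stg = c.A.src ρ ∧ (∀ m, c.A.en ρ m → CZB I B m u) ∧ ∀ i, c.A.enI ρ i → IZB I B i u

def BkB (ρ : c.A.Tr) (B : I.U → c.Bank) (u : I.U) : Prop :=
  (B u).stg = c.A.tgt ρ ∧ (∀ m, c.A.bk ρ m → CZB I B m u) ∧ ∀ i, c.A.bkI ρ i → IZB I B i u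

/-- content part of the start bank -/
def StartB (B : I.U → c.Bank) (u : I.U) : Prop :=
  (B u).stg = I.stg0 ∧ (B u).R = fun i s => I.x0 i (u.1, s)

/-! ### label words -/

variable {Ck : Type} (k : Clk I Ck)

/-- clock data read from the label word -/
def dW (w : I.U → c.Lab Ck) (u : I.U) : c.TD := k.rd (fun v => (w v).ck) u

/-- bank words -/
def B1 (w : I.U → c.Lab Ck) (u : I.U) : c.Bank := (w u).b1
def B2 (w : I.U → c.Lab Ck) (u : I.U) : c.Bank := (w u).b2

/-- clock data of a full certificate -/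
def dL (u : I.U) : c.TD := I.td I.L u.2

/-- relation of the letter `l` -/
def RelL (w : I.U → c.Lab Ck) (u : I.U) : Letter c.A.Tr → Prop
  | .boot => (w u).b1 = regB I.stgz 0 ∧ StartB I (B2 I w) u ∧ RecB I (dW I k w) (B2 I w) u
  | .rest => (dW I k w u).fst = true ∧ RecB I (dL I) (B1 I w) u ∧ StB I (B1 I w) u ∧
      (w u).b2 = regB I.stgz 0
  | .fw ρ => RecB I (dL I) (B1 I w) u ∧ StB I (B1 I w) u ∧ EnB I ρ (B1 I w) u ∧
      ((w u).b2.stg = c.A.tgt ρ ∧ (w u).b2.R = (upB I ρ (B1 I w) u).R) ∧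
      RecB I (dW I k w) (B2 I w) u
  | .bw ρ => RecB I (dL I) (B2 I w) u ∧ StB I (B2 I w) u ∧ BkB I ρ (B2 I w) u ∧
      ((w u).b1.stg = c.A.src ρ ∧ (w u).b1.R = (dnB I ρ (B2 I w) u).R) ∧
      RecB I (dW I k w) (B1 I w) u

/-- **the relation of the machine** at the unit `u` of the label word `w` -/
def Rel (w : I.U → c.Lab Ck) (u : I.U) : Prop := RelL I k w u (w u).l

/-- the same for a configuration -/
def LegalAt (f : Conf I.XW I.ZW c.A.Tr) (u : I.U) : Prop :=
  match f.l with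
  | .boot => I.XAt f.x1 I.xz u ∧ I.ZAt f.z1 I.zz u ∧ I.XAt f.x2 I.xs u ∧
      I.RecAt f.t f.x2 f.z2 u
  | .rest => f.t = 0 ∧ I.RecAt I.L f.x1 f.z1 u ∧ I.StAt f.x1 f.z1 u ∧ I.XAt f.x2 I.xz u ∧
      I.ZAt f.z2 I.zz u
  | .fw ρ => I.RecAt I.L f.x1 f.z1 u ∧ I.StAt f.x1 f.z1 u ∧ I.EnAt ρ f.x1 f.z1 u ∧
      I.XAt f.x2 (I.up ρ f.x1) u ∧ I.RecAt f.t f.x2 f.z2 u
  | .bw ρ => I.RecAt I.L f.x2 f.z2 u ∧ I.StAt f.x2 f.z2 u ∧ I.BkAt ρ f.x2 f.z2 u ∧
      I.XAt f.x1 (I.dn ρ f.x2) u ∧ I.RecAt f.t f.x1 f.z1 u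

open Classical in
/-- flags of the forward guards -/
noncomputable def FlN (ρ : c.A.Tr) (w : I.U → c.Lab Ck) (u : I.U) : Option Unit :=
  if (w u).l = .rest ∧ ¬ EnB I ρ (B1 I w) u then some () else none

open Classical in
/-- flags of the backward guards; `none` = "not the start content" -/
noncomputable def FlM (j : Option c.A.Tr) (w : I.U → c.Lab Ck) (u : I.U) : Option Unit :=
  match j with
  | some ρ => if (w u).l = .rest ∧ ¬ BkB I ρ (B1 I w) u then some () else none
  | none => if (w u).l = .rest ∧ ¬ StartB I (B1 I w) u then some () else none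

open Classical in
/-- forward step with the flags `y`, letter `l` -/
noncomputable def NL (y : c.A.Tr → Option Unit) (w : I.U → c.Lab Ck) (u : I.U) :
    Letter c.A.Tr → c.Lab Ck
  | .boot => if (dW I k w u).lst = true
      then ⟨.rest, k.up (fun v => (w v).ck) u, (w u).b2, regB I.stgz 0⟩
      else ⟨.boot, k.up (fun v => (w v).ck) u, (w u).b1, pushB I (dW I k w) (B2 I w) u⟩
  | .rest => if h : ∃ ρ, y ρ = none
      then ⟨.fw h.choose, (w u).ck, (w u).b1, entB I (upB I h.choose (B1 I w)) u⟩ else w u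
  | .fw ρ => if (dW I k w u).lst = true then ⟨.bw ρ, (w u).ck, (w u).b1, (w u).b2⟩
      else ⟨.fw ρ, k.up (fun v => (w v).ck) u, (w u).b1, pushB I (dW I k w) (B2 I w) u⟩
  | .bw ρ => if (dW I k w u).fst = true then ⟨.rest, (w u).ck, (w u).b2, regB I.stgz 0⟩
      else ⟨.bw ρ, k.dn (fun v => (w v).ck) u, popB I (dW I k w) (B1 I w) u, (w u).b2⟩

/-- **forward step** with the flags `y` -/
noncomputable def StpN (y : c.A.Tr → Option Unit) (w : I.U → c.Lab Ck) (u : I.U) : c.Lab Ck :=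
  NL I k y w u (w u).l

open Classical in
/-- backward step with the flags `y`, letter `l` -/
noncomputable def ML (y : Option c.A.Tr → Option Unit) (w : I.U → c.Lab Ck) (u : I.U) :
    Letter c.A.Tr → c.Lab Ck
  | .boot => if (dW I k w u).fst = true then w u
      else ⟨.boot, k.dn (fun v => (w v).ck) u, (w u).b1, popB I (dW I k w) (B2 I w) u⟩
  | .rest => if h : ∃ ρ : c.A.Tr, y (some ρ) = none
      then ⟨.bw h.choose, (w u).ck, entB I (dnB I h.choose (B1 I w)) u, (w u).b1⟩
      else if y none = none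
        then ⟨.boot, k.dn (fun v => (w v).ck) u, regB I.stgz 0, (w u).b1⟩ else w u
  | .fw ρ => if (dW I k w u).fst = true then ⟨.rest, (w u).ck, (w u).b1, regB I.stgz 0⟩
      else ⟨.fw ρ, k.dn (fun v => (w v).ck) u, (w u).b1, popB I (dW I k w) (B2 I w) u⟩
  | .bw ρ => if (dW I k w u).lst = true then ⟨.fw ρ, (w u).ck, (w u).b1, (w u).b2⟩
      else ⟨.bw ρ, k.up (fun v => (w v).ck) u, pushB I (dW I k w) (B1 I w) u, (w u).b2⟩

/-- **backward step** with the flags `y` -/
noncomputable def StpM (y : Option c.A.Tr → Option Unit) (w : I.U → c.Lab Ck) (u : I.U) :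
    c.Lab Ck := ML I k y w u (w u).l

/-- word of a configuration -/
def LE (f : Conf I.XW I.ZW c.A.Tr) : I.U → c.Lab Ck := I.labE k.cw f

end one

/-! ### the semantic data of a family of instances -/

section fam

variable {K : Type} [Field K] {c : Cst K} {Inst : Type} (J : Inst → Ins c) {Ck : Type}
  (k : ∀ i, Clk (J i) Ck)

/-- **semantic data** of the machines of the family -/
noncomputable def semI : ULAsm406.Sem Inst (fun i => (J i).U) (c.Lab Ck) Unit c.A.Tr
    (Option c.A.Tr) (fun _ => Unit) (fun _ => Unit) where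
  rel _ i := Rel (J i) (k i)
  vl ρ i := FlN (J i) ρ
  F i y := StpN (J i) (k i) y
  vl' j i := FlM (J i) j
  F' i y := StpM (J i) (k i) y

end fam

end Crest.Agent.R289.SemI406
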