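import Crest.Agent.R289.UFam_715
import Crest.Agent.R289.Compile_827

/-!
Row 289, block C, leaf C_SEM part (5), helper482: `UFam715.Exact` from the evaluation of ANY
semantic machine `D : ULAsm406.Sem` on the exact words `wd f` of a machine `m : Compile827.LM`.

* `Ev D i m wd g r` : `D` computes `m` on exact words; the relation has gap `g` on configurations
  with clock `≤ L`, the flags have density `r`;
* `Ev.W_eq` (= hW), `Ev.N_eq`, `Ev.M_eq`, **`Ev.exact`**, `Ev.ends_N`, `Ev.ends_M`.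
-/

set_option autoImplicit false
set_option linter.unusedSectionVars false

namespace Crest.Agent.R289.SemE482

open Finset Crest.Agent.R289.DefD Crest.Agent.R289.Word508 Crest.Agent.R289.Compile827
open Crest.Agent.R289.ULAsm406 (Sem)

variable {X Z R A Inst : Type} {U : Inst → Type}

/-- the semantic machine `D` computes `m` on the exact words of the member `i` -/
structure Ev (D : Sem Inst U A Unit R (Option R) (fun _ => Unit) (fun _ => Unit)) (i : Inst)
    [Fintype (U i)] (m : LM X Z R) (wd : Conf X Z R → U i → A) (g r : ℝ) : Prop where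
  inj : ∀ f f', f.t ≤ m.L → f'.t ≤ m.L → wd f = wd f' → f = f'
  legal : ∀ f, m.Legal f → ∀ u, D.rel () i (wd f) u
  gap : ∀ f, f.t ≤ m.L → ¬ m.Legal f → g ≤ frac fun u => ¬ D.rel () i (wd f) u
  vlN : ∀ f, m.Legal f → f.l ≠ .rest → ∀ ρ u, D.vl ρ i (wd f) u = none
  vlM : ∀ f, m.Legal f → f.l ≠ .rest → ∀ j u, D.vl' j i (wd f) u = none
  en_none : ∀ x (hx : m.IsL x) ρ, m.en ρ x → ∀ u, D.vl ρ i (wd (m.conf (.rest x hx))) u = none
  en_dense : ∀ x (hx : m.IsL x) ρ, ¬ m.en ρ x →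
    r ≤ frac fun u => D.vl ρ i (wd (m.conf (.rest x hx))) u ≠ none
  bk_none : ∀ x (hx : m.IsL x) ρ, m.bk ρ x →
    ∀ u, D.vl' (some ρ) i (wd (m.conf (.rest x hx))) u = none
  bk_dense : ∀ x (hx : m.IsL x) ρ, ¬ m.bk ρ x →
    r ≤ frac fun u => D.vl' (some ρ) i (wd (m.conf (.rest x hx))) u ≠ none
  x0_none : ∀ x (hx : m.IsL x), x = m.x0 →
    ∀ u, D.vl' none i (wd (m.conf (.rest x hx))) u = none
  x0_dense : ∀ x (hx : m.IsL x), x ≠ m.x0 →
    r ≤ frac fun u => D.vl' none i (wd (m.conf (.rest x hx))) u ≠ none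
  stepN : ∀ f, m.Legal f → ∀ y : R → Option Unit,
    (f.l = .rest → ∀ ρ, y ρ = none ↔ m.en ρ f.x1) → ∀ u, D.F i y (wd f) u = wd (m.stepN f) u
  stepM : ∀ f, m.Legal f → ∀ y : Option R → Option Unit,
    (f.l = .rest → (∀ ρ, y (some ρ) = none ↔ m.bk ρ f.x1) ∧ (y none = none ↔ f.x1 = m.x0)) →
    ∀ u, D.F' i y (wd f) u = wd (m.stepM f) u

/-- the code of the exact words -/
def code {I : Type} (m : LM X Z R) (wd : Conf X Z R → I → A) : Set (I → A) :=
  {w | ∃ f, f.t ≤ m.L ∧ w = wd f}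

theorem legal_le {m : LM X Z R} {f : Conf X Z R} (hf : m.Legal f) : f.t ≤ m.L := by
  obtain ⟨a, rfl⟩ := (m.legal_iff f).1 hf
  cases a with
  | boot t ht => exact ht
  | rest x hx => exact Nat.zero_le _
  | fw ρ x hx he t ht => exact ht
  | bw ρ x hx he t ht => exact ht

/-- a legal configuration with letter `rest` -/
theorem legal_rest {m : LM X Z R} {f : Conf X Z R} (hf : m.Legal f) (hl : f.l = .rest) :
    ∃ x, ∃ hx : m.IsL x, f = m.conf (.rest x hx) := by
  obtain ⟨a, rfl⟩ := (m.legal_iff f).1 hf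
  cases a with
  | boot t ht => exact absurd hl (by simp [LM.conf])
  | rest x hx => exact ⟨x, hx, rfl⟩
  | fw ρ x hx he t ht => exact absurd hl (by simp [LM.conf])
  | bw ρ x hx he t ht => exact absurd hl (by simp [LM.conf])

theorem frac_pos_exists {V : Type} [Fintype V] {p : V → Prop} (h : 0 < frac p) : ∃ u, p u := by
  by_contra hcon
  push Not at hcon
  rw [frac_eq_zero hcon] at h
  exact lt_irrefl _ h

theorem frac_none {V : Type} [Fintype V] {B : Type} {y : V → Option B} (h : ∀ u, y u = none) :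
    frac (fun u => y u ≠ none) = 0 := frac_eq_zero fun u hu => hu (h u)

/-- the picked value of a `Unit`-valued read -/
theorem pick_unit {V : Type} [Fintype V] {y : V → Option Unit} {r : ℝ} (hr : 0 < r)
    (h : (∀ u, y u = none) ∨ r ≤ frac fun u => y u ≠ none) : pick y = none ↔ ∀ u, y u = none := by
  constructor
  · intro hp
    rcases h with h | h
    · exact h
    · obtain ⟨u, hu⟩ := frac_pos_exists (hr.trans_le h)
      rw [pick_eq_some (v := ()) (fun _ _ _ => rfl) ⟨u, hu⟩] at hp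
      cases hp
  · exact pick_eq_none

namespace Ev

variable {D : Sem Inst U A Unit R (Option R) (fun _ => Unit) (fun _ => Unit)} {i : Inst}
  [Fintype (U i)] {m : LM X Z R} {wd : Conf X Z R → U i → A} {g r : ℝ}

/-- **hW** -/
theorem W_eq (H : Ev D i m wd g r) (hg : 0 < g) :
    D.W i (code m wd) = {w | ∃ f, m.Legal f ∧ w = wd f} := by
  ext w
  constructor
  · rintro ⟨⟨f, hf, rfl⟩, hr⟩
    refine ⟨f, ?_, rfl⟩
    by_contra hn
    obtain ⟨u, hu⟩ := frac_pos_exists (hg.trans_le (H.gap f hf hn))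
    exact hu (hr () u)
  · rintro ⟨f, hf, rfl⟩
    exact ⟨⟨f, legal_le hf, rfl⟩, fun _ => H.legal f hf⟩

theorem cohN (H : Ev D i m wd g r) {f : Conf X Z R} (hf : m.Legal f) (ρ : R) :
    (∀ u, D.vl ρ i (wd f) u = none) ∨ r ≤ frac fun u => D.vl ρ i (wd f) u ≠ none := by
  by_cases hl : f.l = .rest
  · obtain ⟨x, hx, rfl⟩ := legal_rest hf hl
    by_cases he : m.en ρ x
    · exact Or.inl (H.en_none x hx ρ he)
    · exact Or.inr (H.en_dense x hx ρ he)
  · exact Or.inl (H.vlN f hf hl ρ)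

theorem cohM (H : Ev D i m wd g r) {f : Conf X Z R} (hf : m.Legal f) (j : Option R) :
    (∀ u, D.vl' j i (wd f) u = none) ∨ r ≤ frac fun u => D.vl' j i (wd f) u ≠ none := by
  by_cases hl : f.l = .rest
  · obtain ⟨x, hx, rfl⟩ := legal_rest hf hl
    cases j with
    | some ρ =>
      by_cases he : m.bk ρ x
      · exact Or.inl (H.bk_none x hx ρ he)
      · exact Or.inr (H.bk_dense x hx ρ he)
    | none =>
      by_cases he : x = m.x0
      · exact Or.inl (H.x0_none x hx he)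
      · exact Or.inr (H.x0_dense x hx he)
  · exact Or.inl (H.vlM f hf hl j)

/-- forward step on exact words -/
theorem N_eq (H : Ev D i m wd g r) (hr : 0 < r) {f : Conf X Z R} (hf : m.Legal f) :
    D.N i (wd f) = wd (m.stepN f) := by
  funext u
  refine H.stepN f hf _ (fun hl ρ => ?_) u
  obtain ⟨x, hx, rfl⟩ := legal_rest hf hl
  rw [pick_unit hr (H.cohN hf ρ)]
  constructor
  · intro h
    by_contra hn
    have h1 := H.en_dense x hx ρ hn
    rw [frac_none h] at h1
    exact absurd h1 (not_le.2 hr)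
  · exact H.en_none x hx ρ

/-- backward step on exact words -/
theorem M_eq (H : Ev D i m wd g r) (hr : 0 < r) {f : Conf X Z R} (hf : m.Legal f) :
    D.M i (wd f) = wd (m.stepM f) := by
  funext u
  refine H.stepM f hf _ (fun hl => ?_) u
  obtain ⟨x, hx, rfl⟩ := legal_rest hf hl
  constructor
  · intro ρ
    rw [pick_unit hr (H.cohM hf (some ρ))]
    constructor
    · intro h
      by_contra hn
      have h1 := H.bk_dense x hx ρ hn
      rw [frac_none h] at h1
      exact absurd h1 (not_le.2 hr)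
    · exact H.bk_none x hx ρ
  · rw [pick_unit hr (H.cohM hf none)]
    constructor
    · intro h
      by_contra hn
      have h1 := H.x0_dense x hx hn
      rw [frac_none h] at h1
      exact absurd h1 (not_le.2 hr)
    · exact H.x0_none x hx

/-- **the exact facts about the semantic machine** -/
theorem exact (H : Ev D i m wd g r) (hg : 0 < g) (hr : 0 < r) :
    UFam715.Exact D i (code m wd) (wd m.c0) g r where
  gap w hw hn := by
    obtain ⟨f, hf, rfl⟩ := hw
    refine ⟨(), H.gap f hf fun hl => hn fun _ => H.legal f hl⟩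
  w0_mem := by
    rw [H.W_eq hg]
    exact ⟨m.c0, m.legal_c0, rfl⟩
  N_mem w hw := by
    rw [H.W_eq hg] at hw ⊢
    obtain ⟨f, hf, rfl⟩ := hw
    exact ⟨m.stepN f, m.legal_stepN hf, H.N_eq hr hf⟩
  M_mem w hw := by
    rw [H.W_eq hg] at hw ⊢
    obtain ⟨f, hf, rfl⟩ := hw
    exact ⟨m.stepM f, m.legal_stepM hf, H.M_eq hr hf⟩
  MN w hw hne := by
    rw [H.W_eq hg] at hw
    obtain ⟨f, hf, rfl⟩ := hw
    rw [H.N_eq hr hf] at hne ⊢
    rw [H.M_eq hr (m.legal_stepN hf), m.stepM_stepN hf fun h => hne (by rw [h])]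
  NM w hw hne := by
    rw [H.W_eq hg] at hw
    obtain ⟨f, hf, rfl⟩ := hw
    rw [H.M_eq hr hf] at hne ⊢
    rw [H.N_eq hr (m.legal_stepM hf), m.stepN_stepM hf fun h => hne (by rw [h])]
  M_w0 := by rw [H.M_eq hr m.legal_c0, m.stepM_c0]
  N_w0 := by
    rw [H.N_eq hr m.legal_c0]
    intro h
    exact m.stepN_c0 (H.inj _ _ (legal_le (m.legal_stepN m.legal_c0)) (legal_le m.legal_c0) h)
  cohN w hw ρ := by
    rw [H.W_eq hg] at hw
    obtain ⟨f, hf, rfl⟩ := hw
    exact ⟨fun _ _ _ _ _ _ => rfl, H.cohN hf ρ⟩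
  cohM w hw j := by
    rw [H.W_eq hg] at hw
    obtain ⟨f, hf, rfl⟩ := hw
    exact ⟨fun _ _ _ _ _ _ => rfl, H.cohM hf j⟩

/-- **forward dead ends** -/
theorem ends_N (H : Ev D i m wd g r) (hg : 0 < g) (hr : 0 < r) {w : U i → A}
    (hw : w ∈ D.W i (code m wd)) (h : D.N i w = w) :
    ∃ x, ∃ hx : m.IsL x, w = wd (m.conf (.rest x hx)) ∧ ∀ ρ, ¬ m.en ρ x := by
  rw [H.W_eq hg] at hw
  obtain ⟨f, hf, rfl⟩ := hw
  rw [H.N_eq hr hf] at h
  obtain ⟨x, hx, h1, h2⟩ := (m.stepN_eq_self hf).1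
    (H.inj _ _ (legal_le (m.legal_stepN hf)) (legal_le hf) h)
  exact ⟨x, hx, by rw [h1], h2⟩

/-- **backward dead ends** -/
theorem ends_M (H : Ev D i m wd g r) (hg : 0 < g) (hr : 0 < r) {w : U i → A}
    (hw : w ∈ D.W i (code m wd)) (h : D.M i w = w) (hne : w ≠ wd m.c0) :
    ∃ x, ∃ hx : m.IsL x, w = wd (m.conf (.rest x hx)) ∧ (∀ ρ, ¬ m.bk ρ x) ∧ x ≠ m.x0 := by
  rw [H.W_eq hg] at hw
  obtain ⟨f, hf, rfl⟩ := hw
  rw [H.M_eq hr hf] at h
  rcases (m.stepM_eq_self hf).1
    (H.inj _ _ (legal_le (m.legal_stepM hf)) (legal_le hf) h) with h1 | ⟨x, hx, h1, h2, h3⟩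
  · exact absurd (by rw [h1]) hne
  · exact ⟨x, hx, by rw [h1], h2, h3⟩

end Ev

end Crest.Agent.R289.SemE482
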