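import Crest.Agent.R289.SemEv_209
import Crest.Agent.R289.HW_482

/-!
# Row 289, C_SEM: flags and steps of `SemDef_406` on exact label words

`pick_FlN`, `pick_FlM` : the flags of the guards on an exact word at letter `rest`;
`N_LE`, `M_LE` : the step rules with these flags = `stepN`, `stepM` of `LMI827.lmI`;
`realises` : `Closure89.Realises`.
-/

set_option autoImplicit false

namespace Crest.Agent.R289.SemEv209

open Finset DefC DefI Compile827 ULoc406 ULocI880 SemI406 LMI827 HW482 Word508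

theorem choose_congr {α : Type} {p q : α → Prop} (e : p = q) (hp : ∃ a, p a) (hq : ∃ a, q a) :
    hp.choose = hq.choose := by
  subst e
  rfl

section one

variable {K : Type} [Field K] {c : Cst K} (I : Ins c) {Ck : Type} (k : Clk I Ck)

/-! ### flags -/

theorem pick_flag {U : Type} (P : Prop) (E : U → Prop) (y : U → Option Unit)
    (hy : ∀ u, y u = none ↔ ¬ (P ∧ ¬ E u)) (hP : P) : pick y = none ↔ ∀ u, E u := by
  constructor
  · intro h u
    by_contra hE
    have h1 : pick y = some () := pick_eq_some (fun _ _ _ => rfl)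
      ⟨u, fun hn => (hy u).1 hn ⟨hP, hE⟩⟩
    rw [h] at h1
    cases h1
  · intro h
    exact pick_eq_none fun u => (hy u).2 fun hc => hc.2 (h u)

theorem FlN_eq_none (ρ : c.A.Tr) (f : Conf I.XW I.ZW c.A.Tr) (u : I.U) :
    FlN I ρ (LE I k f) u = none ↔ ¬ (f.l = .rest ∧ ¬ I.EnAt ρ f.x1 f.z1 u) := by
  unfold FlN
  split_ifs with h
  · exact iff_of_false (by simp) fun hn => hn h
  · exact iff_of_true rfl h

theorem FlM_some_eq_none (ρ : c.A.Tr) (f : Conf I.XW I.ZW c.A.Tr) (u : I.U) :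
    FlM I (some ρ) (LE I k f) u = none ↔ ¬ (f.l = .rest ∧ ¬ I.BkAt ρ f.x1 f.z1 u) := by
  unfold FlM
  dsimp only
  split_ifs with h
  · exact iff_of_false (by simp) fun hn => hn h
  · exact iff_of_true rfl h

theorem FlM_none_eq_none (f : Conf I.XW I.ZW c.A.Tr) (u : I.U) :
    FlM I none (LE I k f) u = none ↔ ¬ (f.l = .rest ∧ ¬ I.XAt f.x1 I.xs u) := by
  rw [← StartB_bankE I f.x1 f.z1 u]
  unfold FlM
  dsimp only
  split_ifs with h
  · exact iff_of_false (by simp) fun hn => hn h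
  · exact iff_of_true rfl h

/-- forward step of the words -/
noncomputable def NW (w : I.U → c.Lab Ck) : I.U → c.Lab Ck := fun u =>
  StpN I k (fun ρ => pick (FlN I ρ w)) w u

/-- backward step of the words -/
noncomputable def MW (w : I.U → c.Lab Ck) : I.U → c.Lab Ck := fun u =>
  StpM I k (fun j => pick (FlM I j w)) w u

variable [Nonempty I.Γ]

theorem pick_FlN (ρ : c.A.Tr) (f : Conf I.XW I.ZW c.A.Tr) (hl : f.l = .rest) :
    pick (FlN I ρ (LE I k f)) = none ↔ I.En ρ f.x1 f.z1 := by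
  have : Nonempty I.T := ⟨1⟩
  rw [Ins.en_iff]
  exact pick_flag _ _ _ (FlN_eq_none I k ρ f) hl

theorem pick_FlM (ρ : c.A.Tr) (f : Conf I.XW I.ZW c.A.Tr) (hl : f.l = .rest) :
    pick (FlM I (some ρ) (LE I k f)) = none ↔ I.Bk ρ f.x1 f.z1 := by
  have : Nonempty I.T := ⟨1⟩
  rw [Ins.bk_iff]
  exact pick_flag _ _ _ (FlM_some_eq_none I k ρ f) hl

theorem pick_FlM0 (f : Conf I.XW I.ZW c.A.Tr) (hl : f.l = .rest) :
    pick (FlM I none (LE I k f)) = none ↔ f.x1 = I.xs := by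
  have : Nonempty I.T := ⟨1⟩
  rw [Ins.x_iff]
  exact pick_flag _ _ _ (FlM_none_eq_none I k f) hl

/-! ### steps -/

variable {I k}
variable {CG : ℕ → Submodule K (I.Om → K)} {CT : ℕ → Submodule K (I.n → K)} {tt : ℕ → I.T}

theorem N_LE (hk : k.OK) (h : Hyp I CG CT tt) (hx0) (hb0)
    (f : Conf (XS I CG) (ZS I CG CT) c.A.Tr) (hf : f.t ≤ I.L) (hr : f.l = .rest → f.t = 0) :
    NW I k (LE I k (raw f)) = LE I k (raw ((lmI h hx0 hb0).stepN f)) := by
  obtain ⟨l, t, x1, z1, x2, z2⟩ := f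
  have hf' : t ≤ I.L := hf
  have hd := dW_LE I k hk (raw ⟨l, t, x1, z1, x2, z2⟩) hf
  funext u
  cases l with
  | boot =>
    have hlst : (dW I k (LE I k (raw ⟨.boot, t, x1, z1, x2, z2⟩)) u).lst = decide (t = I.L) := by
      rw [hd]; rfl
    by_cases ht : t < I.L
    · have h1 : (lmI h hx0 hb0).stepN ⟨.boot, t, x1, z1, x2, z2⟩ =
          ⟨.boot, t + 1, x1, z1, x2, (lmI h hx0 hb0).push t x2 z2⟩ := if_pos ht
      rw [h1]
      show (if (dW I k (LE I k (raw ⟨.boot, t, x1, z1, x2, z2⟩)) u).lst = true then _ else _) = _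
      rw [if_neg (by rw [hlst]; simp; omega), hd]
      refine Cst.Lab.ext rfl ?_ rfl rfl
      exact hk.up t ht u
    · have hL : t = I.L := by omega
      subst hL
      have h1 : (lmI h hx0 hb0).stepN ⟨.boot, I.L, x1, z1, x2, z2⟩ =
          ⟨.rest, 0, x2, z2, (lmI h hx0 hb0).xz, (lmI h hx0 hb0).zz⟩ := if_neg ht
      rw [h1]
      show (if (dW I k (LE I k (raw ⟨.boot, I.L, x1, z1, x2, z2⟩)) u).lst = true then _ else _) = _
      rw [if_pos (by rw [hlst]; simp)]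
      refine Cst.Lab.ext rfl ?_ rfl rfl
      exact hk.top u
  | rest =>
    have ht0 : t = 0 := hr rfl
    subst ht0
    have he : (fun ρ => pick (FlN I ρ (LE I k (raw ⟨.rest, 0, x1, z1, x2, z2⟩))) = none) =
        fun ρ => (lmI h hx0 hb0).En ρ x1 z1 := by
      funext ρ
      exact propext (pick_FlN I k ρ _ rfl)
    by_cases hex : ∃ ρ, (lmI h hx0 hb0).En ρ x1 z1
    · have hex' : ∃ ρ, pick (FlN I ρ (LE I k (raw ⟨.rest, 0, x1, z1, x2, z2⟩))) = none := by
        obtain ⟨ρ, hρ⟩ := hex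
        exact ⟨ρ, (congrFun he ρ).mpr hρ⟩
      have hc : hex'.choose = hex.choose := choose_congr he hex' hex
      have h1 : (lmI h hx0 hb0).stepN ⟨.rest, 0, x1, z1, x2, z2⟩ =
          ⟨.fw hex.choose, 0, x1, z1, (lmI h hx0 hb0).up hex.choose x1,
            (lmI h hx0 hb0).ent ((lmI h hx0 hb0).up hex.choose x1)⟩ := dif_pos hex
      rw [h1]
      have h2 : NW I k (LE I k (raw ⟨.rest, 0, x1, z1, x2, z2⟩)) u =
          ⟨.fw hex'.choose, k.cw 0 u, I.bankE x1.1 z1.1 u,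
            entB I (upB I hex'.choose (I.bankE x1.1 z1.1)) u⟩ := dif_pos hex'
      rw [h2, hc]
      rfl
    · have hex' : ¬ ∃ ρ, pick (FlN I ρ (LE I k (raw ⟨.rest, 0, x1, z1, x2, z2⟩))) = none := by
        rintro ⟨ρ, hρ⟩
        exact hex ⟨ρ, (congrFun he ρ).mp hρ⟩
      have h1 : (lmI h hx0 hb0).stepN ⟨.rest, 0, x1, z1, x2, z2⟩ =
          ⟨.rest, 0, x1, z1, x2, z2⟩ := dif_neg hex
      rw [h1]
      exact dif_neg hex'
  | fw ρ =>
    have hlst : (dW I k (LE I k (raw ⟨.fw ρ, t, x1, z1, x2, z2⟩)) u).lst = decide (t = I.L) := by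
      rw [hd]; rfl
    by_cases ht : t < I.L
    · have h1 : (lmI h hx0 hb0).stepN ⟨.fw ρ, t, x1, z1, x2, z2⟩ =
          ⟨.fw ρ, t + 1, x1, z1, x2, (lmI h hx0 hb0).push t x2 z2⟩ := if_pos ht
      rw [h1]
      show (if (dW I k (LE I k (raw ⟨.fw ρ, t, x1, z1, x2, z2⟩)) u).lst = true then _ else _) = _
      rw [if_neg (by rw [hlst]; simp; omega), hd]
      refine Cst.Lab.ext rfl ?_ rfl rfl
      exact hk.up t ht u
    · have h1 : (lmI h hx0 hb0).stepN ⟨.fw ρ, t, x1, z1, x2, z2⟩ =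
          ⟨.bw ρ, t, x1, z1, x2, z2⟩ := if_neg ht
      rw [h1]
      show (if (dW I k (LE I k (raw ⟨.fw ρ, t, x1, z1, x2, z2⟩)) u).lst = true then _ else _) = _
      rw [if_pos (by rw [hlst]; simp; omega)]
      rfl
  | bw ρ =>
    have hfst : (dW I k (LE I k (raw ⟨.bw ρ, t, x1, z1, x2, z2⟩)) u).fst = decide (t = 0) := by
      rw [hd]; rfl
    by_cases ht : 0 < t
    · obtain ⟨t, rfl⟩ : ∃ s, t = s + 1 := ⟨t - 1, by omega⟩
      have h1 : (lmI h hx0 hb0).stepN ⟨.bw ρ, t + 1, x1, z1, x2, z2⟩ =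
          ⟨.bw ρ, t, x1, (lmI h hx0 hb0).pop t x1 z1, x2, z2⟩ := by
        unfold LM.stepN
        dsimp only
        rw [if_pos ht]
        rfl
      rw [h1]
      show (if (dW I k (LE I k (raw ⟨.bw ρ, t + 1, x1, z1, x2, z2⟩)) u).fst = true then _ else _) = _
      rw [if_neg (by rw [hfst]; simp), hd]
      refine Cst.Lab.ext rfl ?_ rfl rfl
      exact hk.dn t (by omega) u
    · have h0 : t = 0 := by omega
      subst h0
      have h1 : (lmI h hx0 hb0).stepN ⟨.bw ρ, 0, x1, z1, x2, z2⟩ =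
          ⟨.rest, 0, x2, z2, (lmI h hx0 hb0).xz, (lmI h hx0 hb0).zz⟩ := by
        unfold LM.stepN
        dsimp only
        rw [if_neg ht]
      rw [h1]
      show (if (dW I k (LE I k (raw ⟨.bw ρ, 0, x1, z1, x2, z2⟩)) u).fst = true then _ else _) = _
      rw [if_pos (by rw [hfst]; simp)]
      rfl

theorem M_LE (hk : k.OK) (h : Hyp I CG CT tt) (hx0) (hb0)
    (f : Conf (XS I CG) (ZS I CG CT) c.A.Tr) (hf : f.t ≤ I.L) (hr : f.l = .rest → f.t = 0) :
    MW I k (LE I k (raw f)) = LE I k (raw ((lmI h hx0 hb0).stepM f)) := by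
  obtain ⟨l, t, x1, z1, x2, z2⟩ := f
  have hf' : t ≤ I.L := hf
  have hd := dW_LE I k hk (raw ⟨l, t, x1, z1, x2, z2⟩) hf
  funext u
  cases l with
  | boot =>
    have hfst : (dW I k (LE I k (raw ⟨.boot, t, x1, z1, x2, z2⟩)) u).fst = decide (t = 0) := by
      rw [hd]; rfl
    by_cases ht : 0 < t
    · obtain ⟨t, rfl⟩ : ∃ s, t = s + 1 := ⟨t - 1, by omega⟩
      have h1 : (lmI h hx0 hb0).stepM ⟨.boot, t + 1, x1, z1, x2, z2⟩ =
          ⟨.boot, t, x1, z1, x2, (lmI h hx0 hb0).pop t x2 z2⟩ := by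
        unfold LM.stepM
        dsimp only
        rw [if_pos ht]
        rfl
      rw [h1]
      show (if (dW I k (LE I k (raw ⟨.boot, t + 1, x1, z1, x2, z2⟩)) u).fst = true then _ else _) = _
      rw [if_neg (by rw [hfst]; simp), hd]
      refine Cst.Lab.ext rfl ?_ rfl rfl
      exact hk.dn t (by omega) u
    · have h0 : t = 0 := by omega
      subst h0
      have h1 : (lmI h hx0 hb0).stepM ⟨.boot, 0, x1, z1, x2, z2⟩ =
          ⟨.boot, 0, x1, z1, x2, z2⟩ := by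
        unfold LM.stepM
        dsimp only
        rw [if_neg ht]
      rw [h1]
      show (if (dW I k (LE I k (raw ⟨.boot, 0, x1, z1, x2, z2⟩)) u).fst = true then _ else _) = _
      rw [if_pos (by rw [hfst]; simp)]
  | rest =>
    have ht0 : t = 0 := hr rfl
    subst ht0
    have he : (fun ρ => pick (FlM I (some ρ) (LE I k (raw ⟨.rest, 0, x1, z1, x2, z2⟩))) = none) =
        fun ρ => (lmI h hx0 hb0).Bk ρ x1 z1 := by
      funext ρ
      exact propext (pick_FlM I k ρ _ rfl)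
    by_cases hex : ∃ ρ, (lmI h hx0 hb0).Bk ρ x1 z1
    · have hex' : ∃ ρ, pick (FlM I (some ρ) (LE I k (raw ⟨.rest, 0, x1, z1, x2, z2⟩))) = none := by
        obtain ⟨ρ, hρ⟩ := hex
        exact ⟨ρ, (congrFun he ρ).mpr hρ⟩
      have hc : hex'.choose = hex.choose := choose_congr he hex' hex
      have h1 : (lmI h hx0 hb0).stepM ⟨.rest, 0, x1, z1, x2, z2⟩ =
          ⟨.bw hex.choose, 0, (lmI h hx0 hb0).dn hex.choose x1,
            (lmI h hx0 hb0).ent ((lmI h hx0 hb0).dn hex.choose x1), x1, z1⟩ := dif_pos hex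
      rw [h1]
      have h2 : MW I k (LE I k (raw ⟨.rest, 0, x1, z1, x2, z2⟩)) u =
          ⟨.bw hex'.choose, k.cw 0 u, entB I (dnB I hex'.choose (I.bankE x1.1 z1.1)) u,
            I.bankE x1.1 z1.1 u⟩ := dif_pos hex'
      rw [h2, hc]
      rfl
    · have hex' : ¬ ∃ ρ, pick (FlM I (some ρ) (LE I k (raw ⟨.rest, 0, x1, z1, x2, z2⟩))) = none := by
        rintro ⟨ρ, hρ⟩
        exact hex ⟨ρ, (congrFun he ρ).mp hρ⟩
      have h2 : MW I k (LE I k (raw ⟨.rest, 0, x1, z1, x2, z2⟩)) u =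
          if pick (FlM I none (LE I k (raw ⟨.rest, 0, x1, z1, x2, z2⟩))) = none
          then ⟨.boot, k.dn (k.cw 0) u, regB I.stgz 0, I.bankE x1.1 z1.1 u⟩
          else LE I k (raw ⟨.rest, 0, x1, z1, x2, z2⟩) u := dif_neg hex'
      rw [h2]
      by_cases hx : x1 = (lmI h hx0 hb0).x0
      · have h1 : (lmI h hx0 hb0).stepM ⟨.rest, 0, x1, z1, x2, z2⟩ =
            ⟨.boot, I.L, (lmI h hx0 hb0).xz, (lmI h hx0 hb0).zz, x1, z1⟩ :=
          (dif_neg hex).trans (if_pos hx)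
        rw [h1, if_pos ((pick_FlM0 I k _ rfl).2 (congrArg Subtype.val hx))]
        refine Cst.Lab.ext rfl ?_ rfl rfl
        exact hk.bot u
      · have h1 : (lmI h hx0 hb0).stepM ⟨.rest, 0, x1, z1, x2, z2⟩ =
            ⟨.rest, 0, x1, z1, x2, z2⟩ := (dif_neg hex).trans (if_neg hx)
        rw [h1, if_neg fun hp => hx (Subtype.ext ((pick_FlM0 I k _ rfl).1 hp))]
  | fw ρ =>
    have hfst : (dW I k (LE I k (raw ⟨.fw ρ, t, x1, z1, x2, z2⟩)) u).fst = decide (t = 0) := by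
      rw [hd]; rfl
    by_cases ht : 0 < t
    · obtain ⟨t, rfl⟩ : ∃ s, t = s + 1 := ⟨t - 1, by omega⟩
      have h1 : (lmI h hx0 hb0).stepM ⟨.fw ρ, t + 1, x1, z1, x2, z2⟩ =
          ⟨.fw ρ, t, x1, z1, x2, (lmI h hx0 hb0).pop t x2 z2⟩ := by
        unfold LM.stepM
        dsimp only
        rw [if_pos ht]
        rfl
      rw [h1]
      show (if (dW I k (LE I k (raw ⟨.fw ρ, t + 1, x1, z1, x2, z2⟩)) u).fst = true then _ else _) = _
      rw [if_neg (by rw [hfst]; simp), hd]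
      refine Cst.Lab.ext rfl ?_ rfl rfl
      exact hk.dn t (by omega) u
    · have h0 : t = 0 := by omega
      subst h0
      have h1 : (lmI h hx0 hb0).stepM ⟨.fw ρ, 0, x1, z1, x2, z2⟩ =
          ⟨.rest, 0, x1, z1, (lmI h hx0 hb0).xz, (lmI h hx0 hb0).zz⟩ := by
        unfold LM.stepM
        dsimp only
        rw [if_neg ht]
      rw [h1]
      show (if (dW I k (LE I k (raw ⟨.fw ρ, 0, x1, z1, x2, z2⟩)) u).fst = true then _ else _) = _
      rw [if_pos (by rw [hfst]; simp)]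
      rfl
  | bw ρ =>
    have hlst : (dW I k (LE I k (raw ⟨.bw ρ, t, x1, z1, x2, z2⟩)) u).lst = decide (t = I.L) := by
      rw [hd]; rfl
    by_cases ht : t < I.L
    · have h1 : (lmI h hx0 hb0).stepM ⟨.bw ρ, t, x1, z1, x2, z2⟩ =
          ⟨.bw ρ, t + 1, x1, (lmI h hx0 hb0).push t x1 z1, x2, z2⟩ := if_pos ht
      rw [h1]
      show (if (dW I k (LE I k (raw ⟨.bw ρ, t, x1, z1, x2, z2⟩)) u).lst = true then _ else _) = _
      rw [if_neg (by rw [hlst]; simp; omega), hd]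
      refine Cst.Lab.ext rfl ?_ rfl rfl
      exact hk.up t ht u
    · have h1 : (lmI h hx0 hb0).stepM ⟨.bw ρ, t, x1, z1, x2, z2⟩ =
          ⟨.fw ρ, t, x1, z1, x2, z2⟩ := if_neg ht
      rw [h1]
      show (if (dW I k (LE I k (raw ⟨.bw ρ, t, x1, z1, x2, z2⟩)) u).lst = true then _ else _) = _
      rw [if_pos (by rw [hlst]; simp; omega)]
      rfl

end one

end Crest.Agent.R289.SemEv209
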