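import Crest.Agent.R289.SemDef_406
import Crest.Agent.R289.LMI_827
import Crest.Agent.R289.Closure_89

/-!
# Row 289, C_SEM: evaluation of the functionals of `SemDef_406` on exact label words

`Rel_LE` : the relation of the machine on `LE f` (`f.t ≤ L`) = `LegalAt f`;
`FlN_LE`, `FlM_LE` : flags of the guards;
`StpN_LE`, `StpM_LE` : the step rules = `Compile827.LM.stepN / stepM`.
-/

set_option autoImplicit false

namespace Crest.Agent.R289.SemEv209

open Finset DefC DefI Compile827 ULoc406 ULocI880 SemI406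

section one

variable {K : Type} [Field K] {c : Cst K} (I : Ins c)

/-! ### residuals -/

theorem Q_eq (w : I.AW) (E : I.n → K) (X : I.n → I.AW) (p : I.n) :
    I.Q w E X p = I.one p • X p - I.Lam (∑ j, I.E1 j p • X (I.h1 j * p.1, p.2))
      - (∑ j, I.E2 j p • X (I.h2 j * p.1, p.2)) - (I.one p * E p) • w := by
  have e2 : I.mU.mulVec E = I.one * E := by
    funext q
    rw [Ins.mU, Matrix.mulVec_diagonal]
    rfl
  simp only [Ins.Q, Level492.Q, Level492.Lc, Ins.act_mU, Ins.act_mN1, Ins.act_mN2, e2,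
    Pi.sub_apply, Level492.ten, Pi.mul_apply]

theorem QB_bankE (x : I.XW) (z : I.ZW) (E : I.n → K) (X : I.n → I.AW) (u : I.U) (s' : c.S')
    (s : c.S) :
    QB I (fun v s' => E (v.2, s')) (I.bankE x z) (fun v s' s => X (v.2, s') (v.1, s)) u s' s =
      I.Q (I.wv x.2) E X (u.2, s') (u.1, s) := by
  rw [Q_eq]
  have h1 : lamF I (fun v s => ∑ j, I.E1 j (v.2, s') • X (I.h1 j * v.2, s') (v.1, s)) u s =
      I.Lam (∑ j, I.E1 j (u.2, s') • X (I.h1 j * u.2, s')) (u.1, s) := by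
    rw [← lamF_eq I (fun τ => ∑ j, I.E1 j (τ, s') • X (I.h1 j * τ, s')) u s]
    congr 1
    funext v s
    simp only [Finset.sum_apply, Pi.smul_apply]
  simp only [Pi.sub_apply, Pi.smul_apply, Finset.sum_apply, ← h1]
  rfl

theorem MirB_iff (q : I.n → I.AW) (U : c.C → I.n → I.AW) (u : I.U) :
    MirB I (fun v s' s => q (v.2, s') (v.1, s)) (fun v b s' s => U b (v.2, s') (v.1, s)) u ↔
      I.MirAt q U u := by
  have key : ∀ (a : c.C) (s' : c.S') (s : c.S),
      (∑ s1, ∑ j, c.bet a s1 j • Mirror545.ext c.s0'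
        (q ((I.gam j)⁻¹ * u.2, s') (u.1, s))
        (fun b => U b ((I.gam j)⁻¹ * u.2, s') (u.1, s)) s1) =
      (∑ s1, ∑ j, c.bet a s1 j • Mirror545.ext c.s0' q U s1 ((I.gam j)⁻¹ * u.2, s'))
        (u.1, s) := by
    intro a s' s
    simp only [Finset.sum_apply, Pi.smul_apply]
    refine sum_congr rfl fun s1 _ => sum_congr rfl fun j _ => ?_
    congr 1
    unfold Mirror545.ext
    split_ifs <;> rfl
  unfold MirB Ins.MirAt
  exact forall_congr' fun a => forall_congr' fun s' => forall_congr' fun s => by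
    rw [← key a s' s]

theorem RecB_bankE (t : ℕ) (x : I.XW) (z : I.ZW) (u : I.U) :
    RecB I (fun v => I.td t v.2) (I.bankE x z) u ↔ I.RecAt t x z u := by
  have hQ : (QB I (fun v => (I.td t v.2).D) (I.bankE x z) fun v => (I.bankE x z v).X) =
      fun v s' s => I.Q (I.wv x.2) (I.D t) z.X (v.2, s') (v.1, s) := by
    funext v s' s
    exact QB_bankE I x z (I.D t) z.X v s' s
  have hQm : (QB I (fun v => (I.td t v.2).Dm) (I.bankE x z) fun v => (I.bankE x z v).Xm) =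
      fun v s' s => I.Q (I.wv x.2) (I.Dm t) z.Xm (v.2, s') (v.1, s) := by
    funext v s' s
    exact QB_bankE I x z (I.Dm t) z.Xm v s' s
  unfold RecB Ins.RecAt
  rw [hQ, hQm]
  rw [show (fun v => (I.bankE x z v).Z) = fun v b s' s => z.Z b (v.2, s') (v.1, s) from rfl,
    show (fun v => (I.bankE x z v).Zm) = fun v b s' s => z.Zm b (v.2, s') (v.1, s) from rfl,
    MirB_iff, MirB_iff]
  rfl

theorem StB_bankE (x : I.XW) (z : I.ZW) (u : I.U) :
    StB I (I.bankE x z) u ↔ I.StAt x z u := Iff.rfl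

theorem EnB_bankE (ρ : c.A.Tr) (x : I.XW) (z : I.ZW) (u : I.U) :
    EnB I ρ (I.bankE x z) u ↔ I.EnAt ρ x z u := Iff.rfl

theorem BkB_bankE (ρ : c.A.Tr) (x : I.XW) (z : I.ZW) (u : I.U) :
    BkB I ρ (I.bankE x z) u ↔ I.BkAt ρ x z u := Iff.rfl

theorem XAt_iff (x y : I.XW) (u : I.U) :
    (x.1 = y.1 ∧ (fun i s => x.2 i (u.1, s)) = fun i s => y.2 i (u.1, s)) ↔ I.XAt x y u := by
  unfold Ins.XAt
  refine and_congr_right fun _ => ?_
  constructor
  · intro h i s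
    exact congrFun (congrFun h i) s
  · intro h
    funext i s
    exact h i s

theorem StartB_bankE (x : I.XW) (z : I.ZW) (u : I.U) :
    StartB I (I.bankE x z) u ↔ I.XAt x I.xs u := XAt_iff I x I.xs u

theorem blank_iff (x : I.XW) (z : I.ZW) (u : I.U) :
    I.bankE x z u = regB I.stgz 0 ↔ I.XAt x I.xz u ∧ I.ZAt z I.zz u := by
  constructor
  · intro h
    refine ⟨⟨congrArg Cst.Bank.stg h, fun i s => congrFun (congrFun (congrArg Cst.Bank.R h) i) s⟩,
      fun s' s => congrFun (congrFun (congrArg Cst.Bank.X h) s') s,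
      fun s' s => congrFun (congrFun (congrArg Cst.Bank.Xm h) s') s,
      fun a s' s => congrFun (congrFun (congrFun (congrArg Cst.Bank.Z h) a) s') s,
      fun a s' s => congrFun (congrFun (congrFun (congrArg Cst.Bank.Zm h) a) s') s⟩
  · rintro ⟨⟨h1, h2⟩, h3, h4, h5, h6⟩
    apply Cst.Bank.ext
    · exact h1
    · funext i s; exact h2 i s
    · funext s' s; exact h3 s' s
    · funext s' s; exact h4 s' s
    · funext a s' s; exact h5 a s' s
    · funext a s' s; exact h6 a s' s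

/-! ### the relation -/

variable {Ck : Type} (k : Clk I Ck)

theorem dW_LE (hk : k.OK) (f : Conf I.XW I.ZW c.A.Tr) (hf : f.t ≤ I.L) :
    dW I k (LE I k f) = fun u => I.td f.t u.2 := by
  funext u
  exact hk.rd f.t hf u

theorem Rel_LE (hk : k.OK) (f : Conf I.XW I.ZW c.A.Tr) (hf : f.t ≤ I.L) (u : I.U) :
    Rel I k (LE I k f) u ↔ LegalAt I f u := by
  obtain ⟨l, t, x1, z1, x2, z2⟩ := f
  have hd := dW_LE I k hk ⟨l, t, x1, z1, x2, z2⟩ hf
  have hB1 : B1 I (LE I k ⟨l, t, x1, z1, x2, z2⟩) = I.bankE x1 z1 := rfl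
  have hB2 : B2 I (LE I k ⟨l, t, x1, z1, x2, z2⟩) = I.bankE x2 z2 := rfl
  have hL : dL I = fun v => I.td I.L v.2 := rfl
  have hw1 : (LE I k ⟨l, t, x1, z1, x2, z2⟩ u).b1 = I.bankE x1 z1 u := rfl
  have hw2 : (LE I k ⟨l, t, x1, z1, x2, z2⟩ u).b2 = I.bankE x2 z2 u := rfl
  cases l with
  | boot =>
    show (_ ∧ _ ∧ _) ↔ (_ ∧ _ ∧ _ ∧ _)
    rw [hd, hB2, hw1, blank_iff, StartB_bankE, RecB_bankE, and_assoc]
  | rest =>
    show (_ ∧ _ ∧ _ ∧ _) ↔ (_ ∧ _ ∧ _ ∧ _ ∧ _)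
    rw [hd, hB1, hw2, blank_iff, hL, RecB_bankE, StB_bankE]
    exact and_congr (by show decide (t = 0) = true ↔ t = 0; exact decide_eq_true_iff) Iff.rfl
  | fw ρ =>
    show (_ ∧ _ ∧ _ ∧ _ ∧ _) ↔ (_ ∧ _ ∧ _ ∧ _ ∧ _)
    rw [hd, hB1, hB2, hw2, hL, RecB_bankE, RecB_bankE, StB_bankE, EnB_bankE, upB_bankE]
    exact and_congr Iff.rfl (and_congr Iff.rfl (and_congr Iff.rfl
      (and_congr (XAt_iff I x2 (I.up ρ x1) u) Iff.rfl)))
  | bw ρ =>
    show (_ ∧ _ ∧ _ ∧ _ ∧ _) ↔ (_ ∧ _ ∧ _ ∧ _ ∧ _)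
    rw [hd, hB1, hB2, hw1, hL, RecB_bankE, RecB_bankE, StB_bankE, BkB_bankE, dnB_bankE]
    exact and_congr Iff.rfl (and_congr Iff.rfl (and_congr Iff.rfl
      (and_congr (XAt_iff I x1 (I.dn ρ x2) u) Iff.rfl)))

end one

end Crest.Agent.R289.SemEv209
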