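import Crest.Agent.R289.SemEvB_209
import Crest.Agent.R289.UFam_715

/-!
# Row 289, C_SEM: the exact facts of the machine `semI` for one member of the family

`AtomGap` : gaps of the atomic relations of code words;
`legal_gap` : gap of `LegalAt`;
`realises` : `Closure89.Realises` for the words `LE I k (raw f)`;
`exact_semI` : `UFam715.Exact (semI J k) i C w0 g g`;
`ends_N`, `ends_M` : blocked words.
-/

set_option autoImplicit false

namespace Crest.Agent.R289.SemEv209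

open Finset DefC DefI Compile827 ULoc406 ULocI880 SemI406 LMI827 HW482 Word508
open Crest.Agent.R289.DefD

section one

variable {K : Type} [Field K] {c : Cst K} (I : Ins c)

/-- gaps of the atomic relations, for code words -/
structure AtomGap (CG : ℕ → Submodule K (I.Om → K)) (CT : ℕ → Submodule K (I.n → K)) (g : ℝ) :
    Prop where
  x : ∀ x y : XS I CG, x.1 ≠ y.1 → g ≤ frac fun u => ¬ I.XAt x.1 y.1 u
  z : ∀ z z' : ZS I CG CT, z.1 ≠ z'.1 → g ≤ frac fun u => ¬ I.ZAt z.1 z'.1 u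
  rcd : ∀ t, t ≤ I.L → ∀ (x : XS I CG) (z : ZS I CG CT), ¬ I.Rec t x.1 z.1 →
    g ≤ frac fun u => ¬ I.RecAt t x.1 z.1 u
  st : ∀ (x : XS I CG) (z : ZS I CG CT), I.Rec I.L x.1 z.1 → ¬ I.St x.1 z.1 →
    g ≤ frac fun u => ¬ I.StAt x.1 z.1 u
  en : ∀ ρ (x : XS I CG) (z : ZS I CG CT), I.Rec I.L x.1 z.1 → ¬ I.En ρ x.1 z.1 →
    g ≤ frac fun u => ¬ I.EnAt ρ x.1 z.1 u
  bk : ∀ ρ (x : XS I CG) (z : ZS I CG CT), I.Rec I.L x.1 z.1 → ¬ I.Bk ρ x.1 z.1 →
    g ≤ frac fun u => ¬ I.BkAt ρ x.1 z.1 u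

variable {I}
variable {CG : ℕ → Submodule K (I.Om → K)} {CT : ℕ → Submodule K (I.n → K)} {tt : ℕ → I.T}

/-- legality of a configuration of code words at the units -/
theorem legal_iff_all [Nonempty I.Γ] (h : Hyp I CG CT tt) (hx0) (hb0)
    (f : Conf (XS I CG) (ZS I CG CT) c.A.Tr) (ht : f.t ≤ I.L) :
    (lmI h hx0 hb0).Legal f ↔ ∀ u, SemI406.LegalAt I (HW482.raw f) u := by
  rw [legal_iff_at h hx0 hb0 (cw := fun t _ => t)
    (fun s t _ _ e => congrFun e (Classical.arbitrary I.Γ, 1)) f ht]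
  refine forall_congr' fun u => ?_
  obtain ⟨l, t, x1, z1, x2, z2⟩ := f
  cases l <;> exact Iff.rfl

/-- **the gap of legality** -/
theorem legal_gap [Nonempty I.Γ] (h : Hyp I CG CT tt) {g : ℝ} (hG : AtomGap I CG CT g)
    (f : Conf (XS I CG) (ZS I CG CT) c.A.Tr) (ht : f.t ≤ I.L)
    (hn : ¬ ∀ u, SemI406.LegalAt I (HW482.raw f) u) (hr : f.l = .rest → f.t ≠ 0 → g ≤ 1) :
    g ≤ frac fun u => ¬ SemI406.LegalAt I (HW482.raw f) u := by
  have : Nonempty I.T := ⟨1⟩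
  obtain ⟨l, t, x1, z1, x2, z2⟩ := f
  have ht' : t ≤ I.L := ht
  by_contra hlt
  push Not at hlt
  have mono : ∀ P : I.U → Prop, (∀ u, SemI406.LegalAt I (HW482.raw ⟨l, t, x1, z1, x2, z2⟩) u → P u) →
      frac (fun u => ¬ P u) < g := fun P hP =>
    lt_of_le_of_lt (frac_mono fun u hu hc => hu (hP u hc)) hlt
  have hX : ∀ x y : XS I CG, frac (fun u => ¬ I.XAt x.1 y.1 u) < g → x.1 = y.1 := fun x y hf => by
    by_contra hne
    exact absurd (hG.x x y hne) (not_le.2 hf)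
  have hZ : ∀ z z' : ZS I CG CT, frac (fun u => ¬ I.ZAt z.1 z'.1 u) < g → z.1 = z'.1 :=
    fun z z' hf => by
      by_contra hne
      exact absurd (hG.z z z' hne) (not_le.2 hf)
  have hR : ∀ s, s ≤ I.L → ∀ (x : XS I CG) (z : ZS I CG CT),
      frac (fun u => ¬ I.RecAt s x.1 z.1 u) < g → I.Rec s x.1 z.1 := fun s hs x z hf => by
    by_contra hne
    exact absurd (hG.rcd s hs x z hne) (not_le.2 hf)
  apply hn
  cases l with
  | boot =>
    have h1 := hX x1 ⟨I.xz, fun _ => (CG 1).zero_mem⟩ (mono _ fun u hu => hu.1)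
    have h2 := hZ z1 ⟨I.zz, zz_mem⟩ (mono _ fun u hu => hu.2.1)
    have h3 := hX x2 ⟨I.xs, h.gx0⟩ (mono _ fun u hu => hu.2.2.1)
    have h4 := hR t ht' x2 z2 (mono _ fun u hu => hu.2.2.2)
    exact fun u => ⟨(Ins.x_iff _ _).1 h1 u, (Ins.z_iff _ _).1 h2 u, (Ins.x_iff _ _).1 h3 u,
      (Ins.rec_iff _ _ _).1 h4 u⟩
  | rest =>
    have h0 : t = 0 := by
      by_contra h0
      have h1 := mono (fun _ => False) fun u hu => h0 hu.1
      have h2 : frac (fun _ : I.U => ¬ False) = 1 := by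
        simp [frac]
      rw [h2] at h1
      exact absurd (hr rfl h0) (not_le.2 h1)
    have h1 := hR I.L le_rfl x1 z1 (mono _ fun u hu => hu.2.1)
    have h2 : I.St x1.1 z1.1 := by
      by_contra hne
      exact absurd (hG.st x1 z1 h1 hne) (not_le.2 (mono _ fun u hu => hu.2.2.1))
    have h3 := hX x2 ⟨I.xz, fun _ => (CG 1).zero_mem⟩ (mono _ fun u hu => hu.2.2.2.1)
    have h4 := hZ z2 ⟨I.zz, zz_mem⟩ (mono _ fun u hu => hu.2.2.2.2)
    exact fun u => ⟨h0, (Ins.rec_iff _ _ _).1 h1 u, (Ins.st_iff _ _).1 h2 u,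
      (Ins.x_iff _ _).1 h3 u, (Ins.z_iff _ _).1 h4 u⟩
  | fw ρ =>
    have h1 := hR I.L le_rfl x1 z1 (mono _ fun u hu => hu.1)
    have h2 : I.St x1.1 z1.1 := by
      by_contra hne
      exact absurd (hG.st x1 z1 h1 hne) (not_le.2 (mono _ fun u hu => hu.2.1))
    have h3 : I.En ρ x1.1 z1.1 := by
      by_contra hne
      exact absurd (hG.en ρ x1 z1 h1 hne) (not_le.2 (mono _ fun u hu => hu.2.2.1))
    have h4 := hX x2 ⟨I.up ρ x1.1, up_memS h ρ x1⟩ (mono _ fun u hu => hu.2.2.2.1)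
    have h5 := hR t ht' x2 z2 (mono _ fun u hu => hu.2.2.2.2)
    exact fun u => ⟨(Ins.rec_iff _ _ _).1 h1 u, (Ins.st_iff _ _).1 h2 u,
      (Ins.en_iff _ _ _).1 h3 u, (Ins.x_iff _ _).1 h4 u, (Ins.rec_iff _ _ _).1 h5 u⟩
  | bw ρ =>
    have h1 := hR I.L le_rfl x2 z2 (mono _ fun u hu => hu.1)
    have h2 : I.St x2.1 z2.1 := by
      by_contra hne
      exact absurd (hG.st x2 z2 h1 hne) (not_le.2 (mono _ fun u hu => hu.2.1))
    have h3 : I.Bk ρ x2.1 z2.1 := by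
      by_contra hne
      exact absurd (hG.bk ρ x2 z2 h1 hne) (not_le.2 (mono _ fun u hu => hu.2.2.1))
    have h4 := hX x1 ⟨I.dn ρ x2.1, dn_memS h ρ x2⟩ (mono _ fun u hu => hu.2.2.2.1)
    have h5 := hR t ht' x1 z1 (mono _ fun u hu => hu.2.2.2.2)
    exact fun u => ⟨(Ins.rec_iff _ _ _).1 h1 u, (Ins.st_iff _ _).1 h2 u,
      (Ins.bk_iff _ _ _).1 h3 u, (Ins.x_iff _ _).1 h4 u, (Ins.rec_iff _ _ _).1 h5 u⟩

end one

section fam

variable {K : Type} [Field K] {c : Cst K} {Inst : Type} (J : Inst → Ins c) {Ck : Type}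
  (k : ∀ i, Clk (J i) Ck)

/-- the code of exact words -/
def Cw (i : Inst) (CG : ℕ → Submodule K ((J i).Om → K)) (CT : ℕ → Submodule K ((J i).n → K)) :
    Set ((J i).U → c.Lab Ck) :=
  {w | ∃ f : Conf (XS (J i) CG) (ZS (J i) CG CT) c.A.Tr, f.t ≤ (J i).L ∧
    w = (J i).labE (k i).cw (HW482.raw f)}

variable {J k} {i : Inst} [Nonempty (J i).Γ] {CG : ℕ → Submodule K ((J i).Om → K)}
  {CT : ℕ → Submodule K ((J i).n → K)} {tt : ℕ → (J i).T}

theorem mem_W (hk : (k i).OK) (h : Hyp (J i) CG CT tt) (hx0) (hb0) (w : (J i).U → c.Lab Ck) :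
    w ∈ (semI J k).W i (Cw J k i CG CT) ↔
      ∃ f, (lmI h hx0 hb0).Legal f ∧ w = SemI406.LE (J i) (k i) (HW482.raw f) := by
  constructor
  · rintro ⟨⟨f, hf, rfl⟩, hr⟩
    exact ⟨f, (legal_iff_all h hx0 hb0 f hf).2 fun u =>
      (Rel_LE (J i) (k i) hk (HW482.raw f) hf u).1 (hr () u), rfl⟩
  · rintro ⟨f, hf, rfl⟩
    have hle := legal_le h hx0 hb0 hf
    exact ⟨⟨f, hle, rfl⟩, fun _ u => (Rel_LE (J i) (k i) hk (HW482.raw f) hle u).2
      ((legal_iff_all h hx0 hb0 f hle).1 hf u)⟩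

theorem conf_rest {X Z R : Type} {m : LM X Z R} (a : m.CSt) (h : (m.conf a).l = .rest) :
    (m.conf a).t = 0 := by
  cases a with
  | boot t ht => cases h
  | rest x hx => rfl
  | fw ρ x hx he t ht => cases h
  | bw ρ x hx he t ht => cases h

/-- **the words `LE I k (HW482.raw f)` realise the machine** -/
theorem realises (hk : (k i).OK) (h : Hyp (J i) CG CT tt) (hx0) (hb0) :
    Closure89.Realises (lmI h hx0 hb0) (fun f => SemI406.LE (J i) (k i) (HW482.raw f))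
      ((semI J k).W i (Cw J k i CG CT)) ((semI J k).N i) ((semI J k).M i) where
  inj a b e := labE_raw_inj (cw := (k i).cw) hk.inj (Closure89.conf_t_le a)
    (Closure89.conf_t_le b) e
  leg w := by
    rw [mem_W hk h hx0 hb0]
    constructor
    · rintro ⟨f, hf, rfl⟩
      obtain ⟨a, rfl⟩ := ((lmI h hx0 hb0).legal_iff f).1 hf
      exact ⟨a, rfl⟩
    · rintro ⟨a, rfl⟩
      exact ⟨_, (lmI h hx0 hb0).legal_conf a, rfl⟩
  hN a := N_LE hk h hx0 hb0 _ (Closure89.conf_t_le a) (conf_rest a)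
  hM a := M_LE hk h hx0 hb0 _ (Closure89.conf_t_le a) (conf_rest a)

theorem coh_flag {U : Type} [Fintype U] {g : ℝ} (P : Prop) (E : U → Prop) (y : U → Option Unit)
    (hy : ∀ u, y u = none ↔ ¬ (P ∧ ¬ E u)) (hE : P → (¬ ∀ u, E u) → g ≤ frac fun u => ¬ E u) :
    Coh y g where
  coh _ _ _ _ _ _ := rfl
  dense := by
    by_cases hall : ∀ u, y u = none
    · exact Or.inl hall
    · right
      push Not at hall
      obtain ⟨u, hu⟩ := hall
      have h1 : P ∧ ¬ E u := by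
        by_contra hc
        exact hu ((hy u).2 hc)
      refine (hE h1.1 fun hc => h1.2 (hc u)).trans (frac_mono fun v hv hc => ?_)
      exact (hy v).1 hc ⟨h1.1, hv⟩

/-- **the exact facts** -/
theorem exact_semI (hk : (k i).OK) (h : Hyp (J i) CG CT tt) (hx0) (hb0) {g : ℝ}
    (hG : AtomGap (J i) CG CT g) (hg1 : g ≤ 1) :
    UFam715.Exact (semI J k) i (Cw J k i CG CT) (SemI406.LE (J i) (k i) (HW482.raw (lmI h hx0 hb0).c0)) g g := by
  have : Nonempty (J i).T := ⟨1⟩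
  have H := realises (J := J) (k := k) hk h hx0 hb0
  refine ⟨?_, H.w0_mem, H.N_mem, H.M_mem, H.MN, H.NM, H.M_w0, H.N_w0, ?_, ?_⟩
  · rintro w ⟨f, hf, rfl⟩ hn
    refine ⟨(), ?_⟩
    have e : ∀ u, SemI406.Rel (J i) (k i) (SemI406.LE (J i) (k i) (HW482.raw f)) u ↔ SemI406.LegalAt (J i) (HW482.raw f) u :=
      Rel_LE (J i) (k i) hk (HW482.raw f) hf
    have h1 := legal_gap h hG f hf (fun hc => hn fun _ u => (e u).2 (hc u)) (fun _ _ => hg1)
    refine h1.trans (frac_mono fun u hu hc => hu ((e u).1 hc))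
  · intro w hw ρ
    obtain ⟨f, hf, rfl⟩ := (mem_W hk h hx0 hb0 w).1 hw
    refine coh_flag _ _ _ (FlN_eq_none (J i) (k i) ρ (HW482.raw f)) fun hl hn => ?_
    obtain ⟨l, t, x1, z1, x2, z2⟩ := f
    have hl' : l = .rest := hl
    subst hl'
    exact hG.en ρ x1 z1 hf.2.1 fun hc => hn ((Ins.en_iff _ _ _).1 hc)
  · intro w hw j
    obtain ⟨f, hf, rfl⟩ := (mem_W hk h hx0 hb0 w).1 hw
    obtain ⟨l, t, x1, z1, x2, z2⟩ := f
    cases j with
    | some ρ =>
      refine coh_flag _ _ _ (FlM_some_eq_none (J i) (k i) ρ (HW482.raw ⟨l, t, x1, z1, x2, z2⟩))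
        fun hl hn => ?_
      have hl' : l = .rest := hl
      subst hl'
      exact hG.bk ρ x1 z1 hf.2.1 fun hc => hn ((Ins.bk_iff _ _ _).1 hc)
    | none =>
      refine coh_flag _ _ _ (FlM_none_eq_none (J i) (k i) (HW482.raw ⟨l, t, x1, z1, x2, z2⟩))
        fun hl hn => ?_
      exact hG.x x1 ⟨(J i).xs, h.gx0⟩ fun hc => hn ((Ins.x_iff _ _).1 hc)

end fam

end Crest.Agent.R289.SemEv209
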