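import Crest.Agent.R289.SemDef_406
import Crest.Agent.R289.LMI_827
import Crest.Agent.R289.Closure_89
import Crest.Agent.R289.UFam_715

/-!
# Row 289, C_SEM: the semantic machine of SemDef_406 on exact words

* `rel_LE` : `Rel` at the label word of a configuration = `LegalAt`;
* `W_eq` : the words of the code satisfying `Rel` = label words of the legal configurations of
  `LMI827.lmI`;
* `N_LE`, `M_LE` : `semI.N`, `semI.M` on these words = `stepN`, `stepM`;
* `exact` : `UFam715.Exact` from the gap in `LegalAt` form.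
-/

set_option autoImplicit false
set_option linter.unusedSectionVars false

namespace Crest.Agent.R289.SemEx89

open Finset DefC DefI Compile827 ULoc406 ULocI880 SemI406 Crest.Agent.R289.DefD
open Crest.Agent.R289.Word508

section one

variable {K : Type} [Field K] {c : Cst K} (I : Ins c)

theorem QB_bankE (x : I.XW) (z : I.ZW) (E : I.n → K) (Y : I.n → I.AW) (u : I.U) (s' : c.S')
    (s : c.S) :
    QB I (fun v s' => E (v.2, s')) (I.bankE x z) (fun v s' s => Y (v.2, s') (v.1, s)) u s' s =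
      I.Q (I.wv x.2) E Y (u.2, s') (u.1, s) := by
  have e : I.Q (I.wv x.2) E Y = (fun p => I.one p • Y p)
      - (fun p => I.Lam ((fun p => ∑ j, I.E1 j p • Y (I.h1 j * p.1, p.2)) p))
      - (fun p => ∑ j, I.E2 j p • Y (I.h2 j * p.1, p.2))
      - Level492.ten (I.one * E) (I.wv x.2) := by
    funext p
    have e2 : I.mU.mulVec E = I.one * E := by
      funext q
      rw [Ins.mU, Matrix.mulVec_diagonal]
      rfl
    simp only [Ins.Q, Level492.Q, Level492.Lc, Ins.act_mU, Ins.act_mN1, Ins.act_mN2, e2,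
      Pi.sub_apply]
  rw [e]
  have e3 : lamF I (fun v s => ∑ j, I.E1 j (v.2, s') • Y (I.h1 j * v.2, s') (v.1, s)) u s =
      I.Lam (∑ j, I.E1 j (u.2, s') • Y (I.h1 j * u.2, s')) (u.1, s) := by
    have : (fun (v : I.U) (s : c.S) => ∑ j, I.E1 j (v.2, s') • Y (I.h1 j * v.2, s') (v.1, s)) =
        fun v s => (∑ j, I.E1 j (v.2, s') • Y (I.h1 j * v.2, s')) (v.1, s) := by
      funext v s
      rw [Finset.sum_apply]
      rfl
    rw [this]
    rfl
  have e4 : (∑ j, I.E2 j (u.2, s') • Y (I.h2 j * u.2, s')) (u.1, s) =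
      ∑ j, I.E2 j (u.2, s') • Y (I.h2 j * u.2, s') (u.1, s) := by
    rw [Finset.sum_apply]
    rfl
  show I.one (u.2, s') • Y (u.2, s') (u.1, s)
    - lamF I (fun v s => ∑ j, I.E1 j (v.2, s') • Y (I.h1 j * v.2, s') (v.1, s)) u s
    - ∑ j, I.E2 j (u.2, s') • Y (I.h2 j * u.2, s') (u.1, s)
    - (I.one (u.2, s') * E (u.2, s')) • wB I (I.bankE x z) u s = _
  rw [e3, ← e4]
  rfl

theorem ext_at (q : I.n → I.AW) (Z : c.C → I.n → I.AW) (s1 : c.S') (v : I.U) (s' : c.S')
    (s : c.S) :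
    Mirror545.ext c.s0' (q (v.2, s') (v.1, s)) (fun b => Z b (v.2, s') (v.1, s)) s1 =
      Mirror545.ext c.s0' q Z s1 (v.2, s') (v.1, s) := by
  by_cases hs : s1 = c.s0'
  · subst hs
    simp only [Mirror545.ext_s0]
  · simp only [Mirror545.ext, dif_neg hs]

theorem MirB_iff (q : I.n → I.AW) (Z : c.C → I.n → I.AW) (u : I.U) :
    MirB I (fun v s' s => q (v.2, s') (v.1, s)) (fun v a s' s => Z a (v.2, s') (v.1, s)) u ↔
      I.MirAt q Z u := by
  have e : ∀ (b : c.C) (s' : c.S') (s : c.S),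
      (∑ s1, ∑ j, c.bet b s1 j • Mirror545.ext c.s0' (q ((I.gam j)⁻¹ * u.2, s') (u.1, s))
        (fun b => Z b ((I.gam j)⁻¹ * u.2, s') (u.1, s)) s1) =
      (∑ s1, ∑ j, c.bet b s1 j • Mirror545.ext c.s0' q Z s1 ((I.gam j)⁻¹ * u.2, s'))
        (u.1, s) := by
    intro b s' s
    simp only [Finset.sum_apply, Pi.smul_apply]
    refine Finset.sum_congr rfl fun s1 _ => Finset.sum_congr rfl fun j _ => ?_
    rw [← ext_at I q Z s1 (u.1, (I.gam j)⁻¹ * u.2) s' s]
  constructor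
  · intro h b s' s
    rw [← e]
    exact h b s' s
  · intro h b s' s
    exact (e b s' s).trans (h b s' s)

theorem RecB_iff (t : ℕ) (x : I.XW) (z : I.ZW) (u : I.U) :
    RecB I (fun v => I.td t v.2) (I.bankE x z) u ↔ I.RecAt t x z u := by
  have h1 : (fun v s' s => QB I (fun v => (I.td t v.2).D) (I.bankE x z)
      (fun v => (I.bankE x z v).X) v s' s) =
      fun (v : I.U) s' s => I.Q (I.wv x.2) (I.D t) z.X (v.2, s') (v.1, s) := by
    funext v s' s
    exact QB_bankE I x z (I.D t) z.X v s' s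
  have h2 : (fun v s' s => QB I (fun v => (I.td t v.2).Dm) (I.bankE x z)
      (fun v => (I.bankE x z v).Xm) v s' s) =
      fun (v : I.U) s' s => I.Q (I.wv x.2) (I.Dm t) z.Xm (v.2, s') (v.1, s) := by
    funext v s' s
    exact QB_bankE I x z (I.Dm t) z.Xm v s' s
  have m1 := MirB_iff I (I.Q (I.wv x.2) (I.D t) z.X) z.Z u
  have m2 := MirB_iff I (I.Q (I.wv x.2) (I.Dm t) z.Xm) z.Zm u
  rw [← h1] at m1
  rw [← h2] at m2
  have q1 := fun s => QB_bankE I x z (I.D t) z.X u c.s0' s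
  have q2 := fun s => QB_bankE I x z (I.Dm t) z.Xm u c.s0' s
  unfold RecB Ins.RecAt
  refine and_congr m1 (and_congr m2 (and_congr ?_ (and_congr ?_ Iff.rfl)))
  · exact forall_congr' fun s => by rw [← q1 s]; rfl
  · exact forall_congr' fun s => by rw [← q2 s]; rfl

theorem StB_iff (x : I.XW) (z : I.ZW) (u : I.U) : StB I (I.bankE x z) u ↔ I.StAt x z u := Iff.rfl

theorem EnB_iff (ρ : c.A.Tr) (x : I.XW) (z : I.ZW) (u : I.U) :
    EnB I ρ (I.bankE x z) u ↔ I.EnAt ρ x z u := Iff.rfl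

theorem BkB_iff (ρ : c.A.Tr) (x : I.XW) (z : I.ZW) (u : I.U) :
    BkB I ρ (I.bankE x z) u ↔ I.BkAt ρ x z u := Iff.rfl

/-- content part of a bank against given content -/
theorem content_iff (x y : I.XW) (z : I.ZW) (u : I.U) :
    ((I.bankE x z u).stg = y.1 ∧ (I.bankE x z u).R = fun i s => y.2 i (u.1, s)) ↔
      I.XAt x y u := by
  constructor
  · rintro ⟨h1, h2⟩
    exact ⟨h1, fun i s => congrFun (congrFun h2 i) s⟩
  · rintro ⟨h1, h2⟩
    exact ⟨h1, funext fun i => funext fun s => h2 i s⟩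

theorem StartB_iff (x : I.XW) (z : I.ZW) (u : I.U) :
    StartB I (I.bankE x z) u ↔ I.XAt x I.xs u := content_iff I x I.xs z u

theorem blank_iff (x : I.XW) (z : I.ZW) (u : I.U) :
    I.bankE x z u = regB I.stgz 0 ↔ I.XAt x I.xz u ∧ I.ZAt z I.zz u := by
  constructor
  · intro h
    have h1 := congrArg Cst.Bank.stg h
    have h2 := congrArg Cst.Bank.R h
    have h3 := congrArg Cst.Bank.X h
    have h4 := congrArg Cst.Bank.Xm h
    have h5 := congrArg Cst.Bank.Z h
    have h6 := congrArg Cst.Bank.Zm h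
    exact ⟨⟨h1, fun i s => congrFun (congrFun h2 i) s⟩,
      fun s' s => congrFun (congrFun h3 s') s, fun s' s => congrFun (congrFun h4 s') s,
      fun a s' s => congrFun (congrFun (congrFun h5 a) s') s,
      fun a s' s => congrFun (congrFun (congrFun h6 a) s') s⟩
  · rintro ⟨⟨h1, h2⟩, h3, h4, h5, h6⟩
    exact Cst.Bank.ext h1 (funext fun i => funext fun s => h2 i s)
      (funext fun s' => funext fun s => h3 s' s)
      (funext fun s' => funext fun s => h4 s' s)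
      (funext fun a => funext fun s' => funext fun s => h5 a s' s)
      (funext fun a => funext fun s' => funext fun s => h6 a s' s)

variable {I} {Ck : Type} {k : Clk I Ck}

theorem dW_LE (hk : k.OK) (f : Conf I.XW I.ZW c.A.Tr) (ht : f.t ≤ I.L) :
    dW I k (LE I k f) = fun u => I.td f.t u.2 := funext fun u => hk.rd f.t ht u

theorem td_fst (t : ℕ) (τ : I.T) : (I.td t τ).fst = true ↔ t = 0 := by
  show decide (t = 0) = true ↔ _
  exact decide_eq_true_iff

theorem td_lst (t : ℕ) (τ : I.T) : (I.td t τ).lst = true ↔ t = I.L := by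
  show decide (t = I.L) = true ↔ _
  exact decide_eq_true_iff

/-- **the relation at an exact word** -/
theorem rel_LE (hk : k.OK) (f : Conf I.XW I.ZW c.A.Tr) (ht : f.t ≤ I.L) (u : I.U) :
    Rel I k (LE I k f) u ↔ LegalAt I f u := by
  have hd := dW_LE hk f ht
  obtain ⟨l, t, x1, z1, x2, z2⟩ := f
  have hd' : dW I k (LE I k ⟨l, t, x1, z1, x2, z2⟩) = fun u => I.td t u.2 := hd
  have e1 : B1 I (LE I k ⟨l, t, x1, z1, x2, z2⟩) = I.bankE x1 z1 := rfl
  have e2 : B2 I (LE I k ⟨l, t, x1, z1, x2, z2⟩) = I.bankE x2 z2 := rfl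
  have dl : dL I = fun u => I.td I.L u.2 := rfl
  cases l with
  | boot =>
    show (I.bankE x1 z1 u = regB I.stgz 0 ∧ StartB I (B2 I _) u ∧
      RecB I (dW I k _) (B2 I _) u) ↔ _
    rw [hd', e2, blank_iff, StartB_iff, RecB_iff]
    show _ ↔ (I.XAt x1 I.xz u ∧ I.ZAt z1 I.zz u ∧ I.XAt x2 I.xs u ∧ I.RecAt t x2 z2 u)
    rw [and_assoc]
  | rest =>
    show ((dW I k _ u).fst = true ∧ RecB I (dL I) (B1 I _) u ∧ StB I (B1 I _) u ∧
      I.bankE x2 z2 u = regB I.stgz 0) ↔ _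
    rw [hd', e1, dl, blank_iff, RecB_iff, td_fst]
    exact Iff.rfl
  | fw ρ =>
    show (RecB I (dL I) (B1 I _) u ∧ StB I (B1 I _) u ∧ EnB I ρ (B1 I _) u ∧
      ((I.bankE x2 z2 u).stg = c.A.tgt ρ ∧ (I.bankE x2 z2 u).R = (upB I ρ (B1 I _) u).R) ∧
      RecB I (dW I k _) (B2 I _) u) ↔ _
    rw [hd', e1, e2, dl, RecB_iff, RecB_iff, upB_bankE]
    have h := content_iff I x2 (I.up ρ x1) z2 u
    exact and_congr Iff.rfl (and_congr Iff.rfl (and_congr Iff.rfl (and_congr h Iff.rfl)))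
  | bw ρ =>
    show (RecB I (dL I) (B2 I _) u ∧ StB I (B2 I _) u ∧ BkB I ρ (B2 I _) u ∧
      ((I.bankE x1 z1 u).stg = c.A.src ρ ∧ (I.bankE x1 z1 u).R = (dnB I ρ (B2 I _) u).R) ∧
      RecB I (dW I k _) (B1 I _) u) ↔ _
    rw [hd', e1, e2, dl, RecB_iff, RecB_iff, dnB_bankE]
    have h := content_iff I x1 (I.dn ρ x2) z1 u
    exact and_congr Iff.rfl (and_congr Iff.rfl (and_congr Iff.rfl (and_congr h Iff.rfl)))

/-! ### reads -/

theorem pick_unit {κ : Type} (y : κ → Option Unit) : pick y = none ↔ ∀ i, y i = none := by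
  constructor
  · intro h i
    by_contra hi
    have := pick_eq_some (v := ()) (fun j v' _ => Subsingleton.elim _ _) ⟨i, hi⟩
    rw [h] at this
    cases this
  · exact pick_eq_none

theorem flN_iff (ρ : c.A.Tr) (w : I.U → c.Lab Ck) (u : I.U) :
    FlN I ρ w u = none ↔ ((w u).l = .rest → EnB I ρ (B1 I w) u) := by
  unfold FlN
  by_cases h : (w u).l = .rest ∧ ¬ EnB I ρ (B1 I w) u
  · rw [if_pos h]
    exact ⟨fun h' => (Option.some_ne_none _ h').elim, fun h' => (h.2 (h' h.1)).elim⟩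
  · rw [if_neg h]
    refine ⟨fun _ hl => ?_, fun _ => rfl⟩
    by_contra hn
    exact h ⟨hl, hn⟩

theorem flM_some_iff (ρ : c.A.Tr) (w : I.U → c.Lab Ck) (u : I.U) :
    FlM I (some ρ) w u = none ↔ ((w u).l = .rest → BkB I ρ (B1 I w) u) := by
  unfold FlM
  by_cases h : (w u).l = .rest ∧ ¬ BkB I ρ (B1 I w) u
  · simp only [if_pos h]
    exact ⟨fun h' => (Option.some_ne_none _ h').elim, fun h' => (h.2 (h' h.1)).elim⟩
  · simp only [if_neg h]
    refine ⟨fun _ hl => ?_, fun _ => trivial⟩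
    by_contra hn
    exact h ⟨hl, hn⟩

theorem flM_none_iff (w : I.U → c.Lab Ck) (u : I.U) :
    FlM I none w u = none ↔ ((w u).l = .rest → StartB I (B1 I w) u) := by
  unfold FlM
  by_cases h : (w u).l = .rest ∧ ¬ StartB I (B1 I w) u
  · simp only [if_pos h]
    exact ⟨fun h' => (Option.some_ne_none _ h').elim, fun h' => (h.2 (h' h.1)).elim⟩
  · simp only [if_neg h]
    refine ⟨fun _ hl => ?_, fun _ => trivial⟩
    by_contra hn
    exact h ⟨hl, hn⟩

end one

/-! ### the machine -/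

section mach

open LMI827

variable {K : Type} [Field K] {c : Cst K} {I : Ins c} {CG : ℕ → Submodule K (I.Om → K)}
  {CT : ℕ → Submodule K (I.n → K)} {tt : ℕ → I.T}

/-- raw configuration -/
def raw (f : Conf (XS I CG) (ZS I CG CT) c.A.Tr) : Conf I.XW I.ZW c.A.Tr :=
  ⟨f.l, f.t, f.x1.1, f.z1.1, f.x2.1, f.z2.1⟩

theorem raw_inj {f g : Conf (XS I CG) (ZS I CG CT) c.A.Tr} (h : raw f = raw g) : f = g := by
  have h1 : (raw f).l = (raw g).l := congrArg Conf.l h
  have h2 : (raw f).t = (raw g).t := congrArg Conf.t h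
  have h3 : (raw f).x1 = (raw g).x1 := congrArg Conf.x1 h
  have h4 : (raw f).z1 = (raw g).z1 := congrArg Conf.z1 h
  have h5 : (raw f).x2 = (raw g).x2 := congrArg Conf.x2 h
  have h6 : (raw f).z2 = (raw g).z2 := congrArg Conf.z2 h
  exact Conf.ext h1 h2 (Subtype.ext h3) (Subtype.ext h4) (Subtype.ext h5) (Subtype.ext h6)

variable (h : Hyp I CG CT tt) (hx0 : c.A.Legal I.act I.pubC I.stg0 (I.con I.xs))
  (hb0 : ∀ ρ, ¬ (I.stg0 = c.A.tgt ρ ∧ c.A.Bk I.act I.pubC ρ (I.con I.xs)))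

/-- legal configurations, unit by unit -/
theorem legal_iff_at [Nonempty I.Γ] (f : Conf (XS I CG) (ZS I CG CT) c.A.Tr) (ht : f.t ≤ I.L) :
    (lmI h hx0 hb0).Legal f ↔ ∀ u, LegalAt I (raw f) u := by
  obtain ⟨l, t, x1, z1, x2, z2⟩ := f
  have ht' : t ≤ I.L := ht
  have hne : Nonempty I.U := ⟨(Classical.arbitrary I.Γ, 1)⟩
  have ex : ∀ x y : XS I CG, x = y ↔ ∀ u, I.XAt x.1 y.1 u := fun x y => by
    rw [← Ins.x_iff]; exact Subtype.ext_iff
  have ez : ∀ x y : ZS I CG CT, x = y ↔ ∀ u, I.ZAt x.1 y.1 u := fun x y => by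
    rw [← Ins.z_iff]; exact Subtype.ext_iff
  cases l with
  | boot =>
    show (t ≤ I.L ∧ x1 = (lmI h hx0 hb0).xz ∧ z1 = (lmI h hx0 hb0).zz ∧
      x2 = (lmI h hx0 hb0).x0 ∧ I.Rec t x2.1 z2.1) ↔ ∀ u, I.XAt x1.1 I.xz u ∧
        I.ZAt z1.1 I.zz u ∧ I.XAt x2.1 I.xs u ∧ I.RecAt t x2.1 z2.1 u
    rw [ex, ez, ex, Ins.rec_iff]
    constructor
    · rintro ⟨-, h1, h2, h3, h4⟩ u
      exact ⟨h1 u, h2 u, h3 u, h4 u⟩
    · intro hh
      exact ⟨ht', fun u => (hh u).1, fun u => (hh u).2.1, fun u => (hh u).2.2.1,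
        fun u => (hh u).2.2.2⟩
  | rest =>
    show (t = 0 ∧ I.Rec I.L x1.1 z1.1 ∧ I.St x1.1 z1.1 ∧ x2 = (lmI h hx0 hb0).xz ∧
      z2 = (lmI h hx0 hb0).zz) ↔ ∀ u, t = 0 ∧ I.RecAt I.L x1.1 z1.1 u ∧ I.StAt x1.1 z1.1 u ∧
        I.XAt x2.1 I.xz u ∧ I.ZAt z2.1 I.zz u
    rw [ex, ez, Ins.rec_iff, Ins.st_iff]
    constructor
    · rintro ⟨h0, h1, h2, h3, h4⟩ u
      exact ⟨h0, h1 u, h2 u, h3 u, h4 u⟩
    · intro hh
      exact ⟨(hh hne.some).1, fun u => (hh u).2.1, fun u => (hh u).2.2.1,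
        fun u => (hh u).2.2.2.1, fun u => (hh u).2.2.2.2⟩
  | fw ρ =>
    show (t ≤ I.L ∧ I.Rec I.L x1.1 z1.1 ∧ I.St x1.1 z1.1 ∧ I.En ρ x1.1 z1.1 ∧
      x2 = (lmI h hx0 hb0).up ρ x1 ∧ I.Rec t x2.1 z2.1) ↔ ∀ u, I.RecAt I.L x1.1 z1.1 u ∧
        I.StAt x1.1 z1.1 u ∧ I.EnAt ρ x1.1 z1.1 u ∧ I.XAt x2.1 (I.up ρ x1.1) u ∧
        I.RecAt t x2.1 z2.1 u
    rw [ex, Ins.rec_iff, Ins.rec_iff, Ins.st_iff, Ins.en_iff]
    constructor
    · rintro ⟨-, h1, h2, h3, h4, h5⟩ u
      exact ⟨h1 u, h2 u, h3 u, h4 u, h5 u⟩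
    · intro hh
      exact ⟨ht', fun u => (hh u).1, fun u => (hh u).2.1, fun u => (hh u).2.2.1,
        fun u => (hh u).2.2.2.1, fun u => (hh u).2.2.2.2⟩
  | bw ρ =>
    show (t ≤ I.L ∧ I.Rec I.L x2.1 z2.1 ∧ I.St x2.1 z2.1 ∧ I.Bk ρ x2.1 z2.1 ∧
      x1 = (lmI h hx0 hb0).dn ρ x2 ∧ I.Rec t x1.1 z1.1) ↔ ∀ u, I.RecAt I.L x2.1 z2.1 u ∧
        I.StAt x2.1 z2.1 u ∧ I.BkAt ρ x2.1 z2.1 u ∧ I.XAt x1.1 (I.dn ρ x2.1) u ∧
        I.RecAt t x1.1 z1.1 u
    rw [ex, Ins.rec_iff, Ins.rec_iff, Ins.st_iff, Ins.bk_iff]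
    constructor
    · rintro ⟨-, h1, h2, h3, h4, h5⟩ u
      exact ⟨h1 u, h2 u, h3 u, h4 u, h5 u⟩
    · intro hh
      exact ⟨ht', fun u => (hh u).1, fun u => (hh u).2.1, fun u => (hh u).2.2.1,
        fun u => (hh u).2.2.2.1, fun u => (hh u).2.2.2.2⟩

variable {Ck : Type} {k : Clk I Ck}

/-- word of a configuration of code words -/
def wd (k : Clk I Ck) (f : Conf (XS I CG) (ZS I CG CT) c.A.Tr) : I.U → c.Lab Ck := LE I k (raw f)

/-- step maps of one member -/
noncomputable def N1 (I : Ins c) (k : Clk I Ck) (w : I.U → c.Lab Ck) : I.U → c.Lab Ck :=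
  fun u => StpN I k (fun ρ => pick (FlN I ρ w)) w u

noncomputable def M1 (I : Ins c) (k : Clk I Ck) (w : I.U → c.Lab Ck) : I.U → c.Lab Ck :=
  fun u => StpM I k (fun j => pick (FlM I j w)) w u

theorem lab_eq {a b : c.Lab Ck} (h1 : a.l = b.l) (h2 : a.ck = b.ck) (h3 : a.b1 = b.b1)
    (h4 : a.b2 = b.b2) : a = b := Cst.Lab.ext h1 h2 h3 h4

theorem up_cw (hk : k.OK) {t : ℕ} (ht : t < I.L) (u : I.U) : k.up (k.cw t) u = k.cw (t + 1) u :=
  hk.up t ht u

theorem certS_pop (h : Hyp I CG CT tt) (x : XS I CG) (t : ℕ) :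
    I.pop t x.1 (certS h x (t + 1)).1 = (certS h x t).1 :=
  congrArg Subtype.val (pop_certS h x t)

/-- **forward step on the words of the states** -/
theorem N_conf [Nonempty I.Γ] (hk : k.OK) (a : (lmI h hx0 hb0).CSt) :
    N1 I k (wd k ((lmI h hx0 hb0).conf a)) =
      wd k ((lmI h hx0 hb0).stepN ((lmI h hx0 hb0).conf a)) := by
  have hne : Nonempty I.U := ⟨(Classical.arbitrary I.Γ, 1)⟩
  cases a with
  | boot t ht =>
    have hd := dW_LE hk (raw ((lmI h hx0 hb0).conf (.boot t ht))) ht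
    rcases Nat.lt_or_ge t (lmI h hx0 hb0).L with hlt | hge
    · rw [(lmI h hx0 hb0).stepN_boot_lt hlt]
      funext u
      have hn : ¬ (dW I k (wd k ((lmI h hx0 hb0).conf (.boot t ht))) u).lst = true := by
        show ¬ (dW I k (LE I k (raw _)) u).lst = true
        rw [hd, td_lst]; exact Nat.ne_of_lt hlt
      refine (if_neg hn).trans ?_
      refine lab_eq rfl (hk.up t hlt u) rfl ?_
      show pushB I (dW I k (LE I k (raw _))) _ u = _
      rw [hd]
      rfl
    · have : t = (lmI h hx0 hb0).L := le_antisymm ht hge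
      subst this
      rw [(lmI h hx0 hb0).stepN_boot_L]
      funext u
      have hn : (dW I k (wd k ((lmI h hx0 hb0).conf (.boot _ ht))) u).lst = true := by
        show (dW I k (LE I k (raw _)) u).lst = true
        rw [hd, td_lst]; rfl
      refine (if_pos hn).trans ?_
      exact lab_eq rfl (hk.top u) rfl rfl
  | rest x hx =>
    have hpick : ∀ ρ, pick (FlN I ρ (wd k ((lmI h hx0 hb0).conf (.rest x hx)))) = none ↔
        (lmI h hx0 hb0).en ρ x := by
      intro ρ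
      rw [pick_unit, ← (lmI h hx0 hb0).En_iff ρ x hx]
      show _ ↔ I.En ρ x.1 (certS h x I.L).1
      rw [Ins.en_iff]
      exact forall_congr' fun u => (flN_iff ρ _ u).trans ⟨fun h => h rfl, fun h _ => h⟩
    by_cases hex : ∃ ρ, (lmI h hx0 hb0).en ρ x
    · obtain ⟨ρ, hρ⟩ := hex
      rw [(lmI h hx0 hb0).stepN_rest hx hρ]
      funext u
      have hy : ∃ ρ, (fun ρ => pick (FlN I ρ (wd k ((lmI h hx0 hb0).conf (.rest x hx))))) ρ =
          none := ⟨ρ, (hpick ρ).2 hρ⟩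
      have hc : hy.choose = ρ :=
        (lmI h hx0 hb0).en_uniq _ _ x hx ((hpick _).1 hy.choose_spec) hρ
      refine (dif_pos hy).trans ?_
      rw [hc]
      exact lab_eq rfl rfl rfl rfl
    · rw [(lmI h hx0 hb0).stepN_rest_none hx fun ρ hρ => hex ⟨ρ, hρ⟩]
      funext u
      have hy : ¬ ∃ ρ, (fun ρ => pick (FlN I ρ (wd k ((lmI h hx0 hb0).conf (.rest x hx))))) ρ =
          none := fun ⟨ρ, hρ⟩ => hex ⟨ρ, (hpick ρ).1 hρ⟩
      exact dif_neg hy
  | fw ρ x hx he t ht =>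
    have hd := dW_LE hk (raw ((lmI h hx0 hb0).conf (.fw ρ x hx he t ht))) ht
    rcases Nat.lt_or_ge t (lmI h hx0 hb0).L with hlt | hge
    · rw [(lmI h hx0 hb0).stepN_fw_lt hx he hlt]
      funext u
      have hn : ¬ (dW I k (wd k ((lmI h hx0 hb0).conf (.fw ρ x hx he t ht))) u).lst = true := by
        show ¬ (dW I k (LE I k (raw _)) u).lst = true
        rw [hd, td_lst]; exact Nat.ne_of_lt hlt
      refine (if_neg hn).trans ?_
      refine lab_eq rfl (hk.up t hlt u) rfl ?_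
      show pushB I (dW I k (LE I k (raw _))) _ u = _
      rw [hd]
      rfl
    · have : t = (lmI h hx0 hb0).L := le_antisymm ht hge
      subst this
      rw [(lmI h hx0 hb0).stepN_fw_L hx he]
      funext u
      have hn : (dW I k (wd k ((lmI h hx0 hb0).conf (.fw ρ x hx he _ ht))) u).lst = true := by
        show (dW I k (LE I k (raw _)) u).lst = true
        rw [hd, td_lst]; rfl
      refine (if_pos hn).trans ?_
      have h3 := ((lmI h hx0 hb0).fwd ρ x hx he).2.2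
      show _ = LE I k (raw ⟨.bw ρ, (lmI h hx0 hb0).L, (lmI h hx0 hb0).dn ρ ((lmI h hx0 hb0).up ρ x),
        (lmI h hx0 hb0).cert ((lmI h hx0 hb0).dn ρ ((lmI h hx0 hb0).up ρ x)) (lmI h hx0 hb0).L,
        (lmI h hx0 hb0).up ρ x, (lmI h hx0 hb0).cert ((lmI h hx0 hb0).up ρ x) (lmI h hx0 hb0).L⟩) u
      rw [h3]
      rfl
  | bw ρ x hx he t ht =>
    have hd := dW_LE hk (raw ((lmI h hx0 hb0).conf (.bw ρ x hx he t ht))) ht
    cases t with
    | zero =>
      rw [(lmI h hx0 hb0).stepN_bw_zero hx he]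
      funext u
      have hn : (dW I k (wd k ((lmI h hx0 hb0).conf (.bw ρ x hx he 0 ht))) u).fst = true := by
        show (dW I k (LE I k (raw _)) u).fst = true
        rw [hd, td_fst]; rfl
      refine (if_pos hn).trans ?_
      exact lab_eq rfl rfl rfl rfl
    | succ t =>
      rw [(lmI h hx0 hb0).stepN_bw_pos hx he ht]
      funext u
      have hn : ¬ (dW I k (wd k ((lmI h hx0 hb0).conf (.bw ρ x hx he (t + 1) ht))) u).fst =
          true := by
        show ¬ (dW I k (LE I k (raw _)) u).fst = true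
        rw [hd, td_fst]; exact Nat.succ_ne_zero t
      refine (if_neg hn).trans ?_
      refine lab_eq rfl (hk.dn t ht u) ?_ rfl
      show popB I (dW I k (LE I k (raw _))) _ u = _
      rw [hd]
      show I.bankE _ (I.pop t ((lmI h hx0 hb0).dn ρ x).1
        (certS h ((lmI h hx0 hb0).dn ρ x) (t + 1)).1) u = _
      rw [certS_pop]
      rfl

/-- **backward step on the words of the states** -/
theorem M_conf [Nonempty I.Γ] (hk : k.OK) (a : (lmI h hx0 hb0).CSt) :
    M1 I k (wd k ((lmI h hx0 hb0).conf a)) =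
      wd k ((lmI h hx0 hb0).stepM ((lmI h hx0 hb0).conf a)) := by
  have hne : Nonempty I.U := ⟨(Classical.arbitrary I.Γ, 1)⟩
  cases a with
  | boot t ht =>
    have hd := dW_LE hk (raw ((lmI h hx0 hb0).conf (.boot t ht))) ht
    cases t with
    | zero =>
      rw [(lmI h hx0 hb0).stepM_boot_zero]
      funext u
      have hn : (dW I k (wd k ((lmI h hx0 hb0).conf (.boot 0 ht))) u).fst = true := by
        show (dW I k (LE I k (raw _)) u).fst = true
        rw [hd, td_fst]; rfl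
      exact if_pos hn
    | succ t =>
      rw [(lmI h hx0 hb0).stepM_boot_pos ht]
      funext u
      have hn : ¬ (dW I k (wd k ((lmI h hx0 hb0).conf (.boot (t + 1) ht))) u).fst = true := by
        show ¬ (dW I k (LE I k (raw _)) u).fst = true
        rw [hd, td_fst]; exact Nat.succ_ne_zero t
      refine (if_neg hn).trans ?_
      refine lab_eq rfl (hk.dn t ht u) rfl ?_
      show popB I (dW I k (LE I k (raw _))) _ u = _
      rw [hd]
      show I.bankE _ (I.pop t (lmI h hx0 hb0).x0.1 (certS h (lmI h hx0 hb0).x0 (t + 1)).1) u = _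
      rw [certS_pop]
      rfl
  | rest x hx =>
    have hpick : ∀ ρ, pick (FlM I (some ρ) (wd k ((lmI h hx0 hb0).conf (.rest x hx)))) = none ↔
        (lmI h hx0 hb0).bk ρ x := by
      intro ρ
      rw [pick_unit, ← (lmI h hx0 hb0).Bk_iff ρ x hx]
      show _ ↔ I.Bk ρ x.1 (certS h x I.L).1
      rw [Ins.bk_iff]
      exact forall_congr' fun u => (flM_some_iff ρ _ u).trans ⟨fun h => h rfl, fun h _ => h⟩
    have hpick0 : pick (FlM I none (wd k ((lmI h hx0 hb0).conf (.rest x hx)))) = none ↔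
        x = (lmI h hx0 hb0).x0 := by
      rw [pick_unit]
      have e : x = (lmI h hx0 hb0).x0 ↔ ∀ u, I.XAt x.1 I.xs u := by
        rw [← Ins.x_iff]; exact Subtype.ext_iff
      rw [e]
      refine forall_congr' fun u => (flM_none_iff _ u).trans ?_
      exact ⟨fun hh => (StartB_iff I x.1 (certS h x I.L).1 u).1 (hh rfl),
        fun hh _ => (StartB_iff I x.1 (certS h x I.L).1 u).2 hh⟩
    by_cases hex : ∃ ρ, (lmI h hx0 hb0).bk ρ x
    · obtain ⟨ρ, hρ⟩ := hex
      rw [(lmI h hx0 hb0).stepM_rest hx hρ]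
      funext u
      have hy : ∃ ρ : c.A.Tr, (fun j => pick (FlM I j
          (wd k ((lmI h hx0 hb0).conf (.rest x hx))))) (some ρ) = none := ⟨ρ, (hpick ρ).2 hρ⟩
      have hc : hy.choose = ρ :=
        (lmI h hx0 hb0).bk_uniq _ _ x hx ((hpick _).1 hy.choose_spec) hρ
      refine (dif_pos hy).trans ?_
      rw [hc]
      exact lab_eq rfl rfl rfl rfl
    · by_cases h0 : x = (lmI h hx0 hb0).x0
      · have h1 : pick (FlM I none (wd k ((lmI h hx0 hb0).conf (.rest x hx)))) = none :=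
          hpick0.2 h0
        have hy : ¬ ∃ ρ : c.A.Tr, (fun j => pick (FlM I j
            (wd k ((lmI h hx0 hb0).conf (.rest x hx))))) (some ρ) = none :=
          fun ⟨ρ, hρ⟩ => hex ⟨ρ, (hpick ρ).1 hρ⟩
        subst h0
        rw [(lmI h hx0 hb0).stepM_rest_x0]
        funext u
        refine (dif_neg hy).trans ((if_pos h1).trans ?_)
        refine lab_eq rfl (hk.bot u) rfl rfl
      · have h1 : ¬ pick (FlM I none (wd k ((lmI h hx0 hb0).conf (.rest x hx)))) = none :=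
          fun hh => h0 (hpick0.1 hh)
        have hy : ¬ ∃ ρ : c.A.Tr, (fun j => pick (FlM I j
            (wd k ((lmI h hx0 hb0).conf (.rest x hx))))) (some ρ) = none :=
          fun ⟨ρ, hρ⟩ => hex ⟨ρ, (hpick ρ).1 hρ⟩
        rw [(lmI h hx0 hb0).stepM_rest_none hx (fun ρ hρ => hex ⟨ρ, hρ⟩) h0]
        funext u
        exact (dif_neg hy).trans (if_neg h1)
  | fw ρ x hx he t ht =>
    have hd := dW_LE hk (raw ((lmI h hx0 hb0).conf (.fw ρ x hx he t ht))) ht
    cases t with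
    | zero =>
      rw [(lmI h hx0 hb0).stepM_fw_zero hx he]
      funext u
      have hn : (dW I k (wd k ((lmI h hx0 hb0).conf (.fw ρ x hx he 0 ht))) u).fst = true := by
        show (dW I k (LE I k (raw _)) u).fst = true
        rw [hd, td_fst]; rfl
      refine (if_pos hn).trans ?_
      exact lab_eq rfl rfl rfl rfl
    | succ t =>
      rw [(lmI h hx0 hb0).stepM_fw_pos hx he ht]
      funext u
      have hn : ¬ (dW I k (wd k ((lmI h hx0 hb0).conf (.fw ρ x hx he (t + 1) ht))) u).fst =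
          true := by
        show ¬ (dW I k (LE I k (raw _)) u).fst = true
        rw [hd, td_fst]; exact Nat.succ_ne_zero t
      refine (if_neg hn).trans ?_
      refine lab_eq rfl (hk.dn t ht u) rfl ?_
      show popB I (dW I k (LE I k (raw _))) _ u = _
      rw [hd]
      show I.bankE _ (I.pop t ((lmI h hx0 hb0).up ρ x).1
        (certS h ((lmI h hx0 hb0).up ρ x) (t + 1)).1) u = _
      rw [certS_pop]
      rfl
  | bw ρ x hx he t ht =>
    have hd := dW_LE hk (raw ((lmI h hx0 hb0).conf (.bw ρ x hx he t ht))) ht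
    rcases Nat.lt_or_ge t (lmI h hx0 hb0).L with hlt | hge
    · rw [(lmI h hx0 hb0).stepM_bw_lt hx he hlt]
      funext u
      have hn : ¬ (dW I k (wd k ((lmI h hx0 hb0).conf (.bw ρ x hx he t ht))) u).lst = true := by
        show ¬ (dW I k (LE I k (raw _)) u).lst = true
        rw [hd, td_lst]; exact Nat.ne_of_lt hlt
      refine (if_neg hn).trans ?_
      refine lab_eq rfl (hk.up t hlt u) ?_ rfl
      show pushB I (dW I k (LE I k (raw _))) _ u = _
      rw [hd]
      rfl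
    · have : t = (lmI h hx0 hb0).L := le_antisymm ht hge
      subst this
      rw [(lmI h hx0 hb0).stepM_bw_L hx he]
      funext u
      have hn : (dW I k (wd k ((lmI h hx0 hb0).conf (.bw ρ x hx he _ ht))) u).lst = true := by
        show (dW I k (LE I k (raw _)) u).lst = true
        rw [hd, td_lst]; rfl
      refine (if_pos hn).trans ?_
      have h3 := ((lmI h hx0 hb0).bwd ρ x hx he).2.2
      show _ = LE I k (raw ⟨.fw ρ, (lmI h hx0 hb0).L, (lmI h hx0 hb0).dn ρ x,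
        (lmI h hx0 hb0).cert ((lmI h hx0 hb0).dn ρ x) (lmI h hx0 hb0).L,
        (lmI h hx0 hb0).up ρ ((lmI h hx0 hb0).dn ρ x),
        (lmI h hx0 hb0).cert ((lmI h hx0 hb0).up ρ ((lmI h hx0 hb0).dn ρ x))
          (lmI h hx0 hb0).L⟩) u
      rw [h3]
      rfl

/-- label words determine the configuration -/
theorem wd_inj [Nonempty I.Γ] (hk : k.OK) {f g : Conf (XS I CG) (ZS I CG CT) c.A.Tr}
    (hf : f.t ≤ I.L) (hg : g.t ≤ I.L) (he : wd k f = wd k g) : f = g := by
  have hne : Nonempty I.U := ⟨(Classical.arbitrary I.Γ, 1)⟩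
  obtain ⟨v⟩ := hne
  have h1 : f.l = g.l := congrArg Cst.Lab.l (congrFun he v)
  have h2 : f.t = g.t := hk.inj _ _ hf hg (funext fun u => congrArg Cst.Lab.ck (congrFun he u))
  have h3 : ∀ u, I.bankE f.x1.1 f.z1.1 u = I.bankE g.x1.1 g.z1.1 u := fun u =>
    congrArg Cst.Lab.b1 (congrFun he u)
  have h4 : ∀ u, I.bankE f.x2.1 f.z2.1 u = I.bankE g.x2.1 g.z2.1 u := fun u =>
    congrArg Cst.Lab.b2 (congrFun he u)
  have key : ∀ (x y : I.XW) (z z' : I.ZW), (∀ u, I.bankE x z u = I.bankE y z' u) →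
      x = y ∧ z = z' := by
    intro x y z z' hb
    refine ⟨(Ins.x_iff x y).2 fun u => ⟨congrArg Cst.Bank.stg (hb u), fun i s =>
      congrFun (congrFun (congrArg Cst.Bank.R (hb u)) i) s⟩, (Ins.z_iff z z').2 fun u => ?_⟩
    exact ⟨fun s' s => congrFun (congrFun (congrArg Cst.Bank.X (hb u)) s') s,
      fun s' s => congrFun (congrFun (congrArg Cst.Bank.Xm (hb u)) s') s,
      fun a s' s => congrFun (congrFun (congrFun (congrArg Cst.Bank.Z (hb u)) a) s') s,
      fun a s' s => congrFun (congrFun (congrFun (congrArg Cst.Bank.Zm (hb u)) a) s') s⟩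
  obtain ⟨h5, h6⟩ := key _ _ _ _ h3
  obtain ⟨h7, h8⟩ := key _ _ _ _ h4
  exact Conf.ext h1 h2 (Subtype.ext h5) (Subtype.ext h6) (Subtype.ext h7) (Subtype.ext h8)

/-- the label code -/
def codeW (I : Ins c) (CG : ℕ → Submodule K (I.Om → K)) (CT : ℕ → Submodule K (I.n → K))
    (k : Clk I Ck) : Set (I.U → c.Lab Ck) :=
  {w | ∃ f : Conf (XS I CG) (ZS I CG CT) c.A.Tr, f.t ≤ I.L ∧ w = wd k f}

/-- the words of the code satisfying the relations -/
def legW (I : Ins c) (CG : ℕ → Submodule K (I.Om → K)) (CT : ℕ → Submodule K (I.n → K))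
    (k : Clk I Ck) : Set (I.U → c.Lab Ck) := {w | w ∈ codeW I CG CT k ∧ ∀ u, Rel I k w u}

theorem legW_iff [Nonempty I.Γ] (hk : k.OK) (w : I.U → c.Lab Ck) :
    w ∈ legW I CG CT k ↔ ∃ f, (lmI h hx0 hb0).Legal f ∧ w = wd k f := by
  constructor
  · rintro ⟨⟨f, ht, rfl⟩, hr⟩
    exact ⟨f, (legal_iff_at h hx0 hb0 f ht).2 fun u => (rel_LE hk (raw f) ht u).1 (hr u), rfl⟩
  · rintro ⟨f, hf, rfl⟩
    have ht : f.t ≤ I.L := by
      obtain ⟨a, rfl⟩ := ((lmI h hx0 hb0).legal_iff f).1 hf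
      exact Closure89.conf_t_le a
    exact ⟨⟨f, ht, rfl⟩, fun u => (rel_LE hk (raw f) ht u).2
      ((legal_iff_at h hx0 hb0 f ht).1 hf u)⟩

/-- **the semantic machine realises the compiled machine** -/
theorem realises [Nonempty I.Γ] (hk : k.OK) :
    Closure89.Realises (lmI h hx0 hb0) (wd k) (legW I CG CT k) (N1 I k) (M1 I k) where
  inj a b hab := wd_inj hk (Closure89.conf_t_le a) (Closure89.conf_t_le b) hab
  leg w := by
    rw [legW_iff h hx0 hb0 hk]
    constructor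
    · rintro ⟨f, hf, rfl⟩
      obtain ⟨a, rfl⟩ := ((lmI h hx0 hb0).legal_iff f).1 hf
      exact ⟨a, rfl⟩
    · rintro ⟨a, rfl⟩
      exact ⟨_, (lmI h hx0 hb0).legal_conf a, rfl⟩
  hN := N_conf h hx0 hb0 hk
  hM := M_conf h hx0 hb0 hk

end mach

end Crest.Agent.R289.SemEx89
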