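import Crest.Agent.R289.SemEx_844
import Crest.Agent.R289.SemEv_880
import Crest.Agent.R289.GapS_719
import Crest.Agent.R289.LabEq_560

/-!
# Row 289, C_SEM: the exact facts `UFam715.Exact` of `semI` (helper844)

`exact_semI` : for one member with code words `XS`, `ZS`, the numbers `GapS719.Num` and a right
clock, the semantic data `SemI406.semI` satisfy `UFam715.Exact` over the register code (560's
`LabCode` with the clock words `cw t`, `t ≤ L`), with gap and density `g`.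
-/

set_option autoImplicit false
set_option linter.unusedSectionVars false

namespace Crest.Agent.R289.SemFin844

open Finset DefC DefI Compile827 LMI827 SemI406 ULocI880 Word508 SemN844 SemEx844
open Crest.Agent.R289.DefD Crest.Agent.R289.LabCAx560 GapS719

variable {K : Type} [Field K] {c : Cst K}
variable {I : Ins c} {Ck : Type} {k : Clk I Ck}
  {CG : ℕ → Submodule K (I.Om → K)} {CT : ℕ → Submodule K (I.n → K)} {tt : ℕ → I.T}
  (h : Hyp I CG CT tt) (hx0 : c.A.Legal I.act I.pubC I.stg0 (I.con I.xs))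
  (hb0 : ∀ ρ, ¬ (I.stg0 = c.A.tgt ρ ∧ c.A.Bk I.act I.pubC ρ (I.con I.xs)))
  {g : ℝ}

/-- **legality at the units** -/
theorem legal_at [Nonempty I.Γ] (f : Conf (XS I CG) (ZS I CG CT) c.A.Tr)
    (hf : (lmI h hx0 hb0).Legal f) : ∀ u, LegalAt I (vl f) u := by
  obtain ⟨l, t, x1, z1, x2, z2⟩ := f
  cases l with
  | boot =>
    obtain ⟨-, h2, h3, h4, h5⟩ := hf
    intro u
    refine ⟨(Ins.x_iff _ _).1 (congrArg Subtype.val h2) u,
      (Ins.z_iff _ _).1 (congrArg Subtype.val h3) u,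
      (Ins.x_iff _ _).1 (congrArg Subtype.val h4) u, (Ins.rec_iff _ _ _).1 h5 u⟩
  | rest =>
    obtain ⟨h1, h2, h3, h4, h5⟩ := hf
    intro u
    exact ⟨h1, (Ins.rec_iff _ _ _).1 h2 u, (Ins.st_iff _ _).1 h3 u,
      (Ins.x_iff _ _).1 (congrArg Subtype.val h4) u,
      (Ins.z_iff _ _).1 (congrArg Subtype.val h5) u⟩
  | fw ρ =>
    obtain ⟨-, h2, h3, h4, h5, h6⟩ := hf
    intro u
    exact ⟨(Ins.rec_iff _ _ _).1 h2 u, (Ins.st_iff _ _).1 h3 u, (Ins.en_iff _ _ _).1 h4 u,
      (Ins.x_iff _ _).1 (congrArg Subtype.val h5) u, (Ins.rec_iff _ _ _).1 h6 u⟩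
  | bw ρ =>
    obtain ⟨-, h2, h3, h4, h5, h6⟩ := hf
    intro u
    exact ⟨(Ins.rec_iff _ _ _).1 h2 u, (Ins.st_iff _ _).1 h3 u, (Ins.bk_iff _ _ _).1 h4 u,
      (Ins.x_iff _ _).1 (congrArg Subtype.val h5) u, (Ins.rec_iff _ _ _).1 h6 u⟩

theorem dxv (N : Num I CG CT g) (x : XS I CG) (y : I.XW) (hy : ∀ i, y.2 i ∈ CG 1)
    (hn : x.1 ≠ y) : g ≤ frac fun u : I.U => ¬ I.XAt x.1 y u :=
  dx N x ⟨y, hy⟩ fun e => hn (congrArg Subtype.val e)

theorem dzv (N : Num I CG CT g) (z : ZS I CG CT) (y : I.ZW) (hy : InZ I CG CT y)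
    (hn : z.1 ≠ y) : g ≤ frac fun u : I.U => ¬ I.ZAt z.1 y u :=
  dz N z ⟨y, hy⟩ fun e => hn (congrArg Subtype.val e)

theorem legal_boot {t : ℕ} {x1 : XS I CG} {z1 : ZS I CG CT} {x2 : XS I CG} {z2 : ZS I CG CT}
    (ht : t ≤ I.L) (h1 : x1.1 = I.xz) (h2 : z1.1 = I.zz) (h3 : x2.1 = I.xs)
    (h4 : z2 = certS h x2 t) : (lmI h hx0 hb0).Legal ⟨.boot, t, x1, z1, x2, z2⟩ :=
  ⟨ht, Subtype.ext h1, Subtype.ext h2, Subtype.ext h3, (rec_iffS h t x2 z2 ht).2 h4⟩

theorem legal_rest {x1 : XS I CG} {x2 : XS I CG} {z2 : ZS I CG CT}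
    (h2 : (cd h).IsL x1.1) (h3 : x2.1 = I.xz) (h4 : z2.1 = I.zz) :
    (lmI h hx0 hb0).Legal ⟨.rest, 0, x1, certS h x1 I.L, x2, z2⟩ :=
  ⟨rfl, (rec_iffS h _ _ _ le_rfl).2 rfl, (st_iffS h x1).2 h2, Subtype.ext h3, Subtype.ext h4⟩

theorem legal_fw {ρ : c.A.Tr} {t : ℕ} {x1 : XS I CG} {x2 : XS I CG} {z2 : ZS I CG CT}
    (ht : t ≤ I.L) (h2 : (cd h).IsL x1.1) (h3 : (cd h).en ρ x1.1) (h4 : x2.1 = I.up ρ x1.1)
    (h5 : z2 = certS h x2 t) :
    (lmI h hx0 hb0).Legal ⟨.fw ρ, t, x1, certS h x1 I.L, x2, z2⟩ :=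
  ⟨ht, (rec_iffS h _ _ _ le_rfl).2 rfl, (st_iffS h x1).2 h2, (en_iffS h ρ x1 h2).2 h3,
    Subtype.ext h4, (rec_iffS h t x2 z2 ht).2 h5⟩

theorem legal_bw {ρ : c.A.Tr} {t : ℕ} {x1 : XS I CG} {z1 : ZS I CG CT} {x2 : XS I CG}
    (ht : t ≤ I.L) (h2 : (cd h).IsL x2.1) (h3 : (cd h).bk ρ x2.1) (h4 : x1.1 = I.dn ρ x2.1)
    (h5 : z1 = certS h x1 t) :
    (lmI h hx0 hb0).Legal ⟨.bw ρ, t, x1, z1, x2, certS h x2 I.L⟩ :=
  ⟨ht, (rec_iffS h _ _ _ le_rfl).2 rfl, (st_iffS h x2).2 h2, (bk_iffS h ρ x2 h2).2 h3,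
    Subtype.ext h4, (rec_iffS h t x1 z1 ht).2 h5⟩

/-- **the gap**: illegal configurations fail at `≥ g` of the units -/
theorem gapL (N : Num I CG CT g) (f : Conf (XS I CG) (ZS I CG CT) c.A.Tr) (ht : f.t ≤ I.L)
    (hn : ¬ (lmI h hx0 hb0).Legal f) : g ≤ frac fun u => ¬ LegalAt I (vl f) u := by
  have := N.ne
  by_contra hc
  have key : ∀ p : I.U → Prop, (∀ u, LegalAt I (vl f) u → p u) → ¬ g ≤ frac fun u => ¬ p u :=
    fun p hp hg => absurd (hg.trans (frac_mono fun u hu hu' => hu (hp u hu'))) hc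
  apply hn
  obtain ⟨l, t, x1, z1, x2, z2⟩ := f
  simp only at ht
  cases l with
  | boot =>
    have h1 : x1.1 = I.xz := by
      by_contra hx
      exact key (fun u => I.XAt x1.1 I.xz u) (fun u hu => hu.1)
        (dxv N x1 _ (fun _ => (CG 1).zero_mem) hx)
    have h2 : z1.1 = I.zz := by
      by_contra hx
      exact key (fun u => I.ZAt z1.1 I.zz u) (fun u hu => hu.2.1) (dzv N z1 _ zz_mem hx)
    have h3 : x2.1 = I.xs := by
      by_contra hx
      exact key (fun u => I.XAt x2.1 I.xs u) (fun u hu => hu.2.2.1) (dxv N x2 _ h.gx0 hx)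
    have h4 : z2 = certS h x2 t := by
      by_contra hx
      exact key (fun u => I.RecAt t x2.1 z2.1 u) (fun u hu => hu.2.2.2) (rcG N h ht x2 z2 hx)
    exact legal_boot h hx0 hb0 ht h1 h2 h3 h4
  | rest =>
    have h0 : t = 0 := by
      by_contra hx
      refine key (fun _ => False) (fun u hu => hx hu.1) ?_
      rw [frac_true fun u => not_false]
      exact N.le1
    have h1 : z1 = certS h x1 I.L := by
      by_contra hx
      exact key (fun u => I.RecAt I.L x1.1 z1.1 u) (fun u hu => hu.2.1)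
        (rcG N h le_rfl x1 z1 hx)
    subst h1
    subst h0
    have h2 : (cd h).IsL x1.1 := by
      by_contra hx
      exact key (fun u => I.StAt x1.1 (certS h x1 I.L).1 u) (fun u hu => hu.2.2.1)
        (stG N h x1 hx)
    have h3 : x2.1 = I.xz := by
      by_contra hx
      exact key (fun u => I.XAt x2.1 I.xz u) (fun u hu => hu.2.2.2.1)
        (dxv N x2 _ (fun _ => (CG 1).zero_mem) hx)
    have h4 : z2.1 = I.zz := by
      by_contra hx
      exact key (fun u => I.ZAt z2.1 I.zz u) (fun u hu => hu.2.2.2.2) (dzv N z2 _ zz_mem hx)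
    exact legal_rest h hx0 hb0 h2 h3 h4
  | fw ρ =>
    have h1 : z1 = certS h x1 I.L := by
      by_contra hx
      exact key (fun u => I.RecAt I.L x1.1 z1.1 u) (fun u hu => hu.1)
        (rcG N h le_rfl x1 z1 hx)
    subst h1
    have h2 : (cd h).IsL x1.1 := by
      by_contra hx
      exact key (fun u => I.StAt x1.1 (certS h x1 I.L).1 u) (fun u hu => hu.2.1)
        (stG N h x1 hx)
    have h3 : (cd h).en ρ x1.1 := by
      by_contra hx
      exact key (fun u => I.EnAt ρ x1.1 (certS h x1 I.L).1 u) (fun u hu => hu.2.2.1)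
        (enG N h ρ x1 h2 hx)
    have h4 : x2.1 = I.up ρ x1.1 := by
      by_contra hx
      exact key (fun u => I.XAt x2.1 (I.up ρ x1.1) u) (fun u hu => hu.2.2.2.1)
        (dxv N x2 _ (up_memS h ρ x1) hx)
    have h5 : z2 = certS h x2 t := by
      by_contra hx
      exact key (fun u => I.RecAt t x2.1 z2.1 u) (fun u hu => hu.2.2.2.2) (rcG N h ht x2 z2 hx)
    exact legal_fw h hx0 hb0 ht h2 h3 h4 h5
  | bw ρ =>
    have h1 : z2 = certS h x2 I.L := by
      by_contra hx
      exact key (fun u => I.RecAt I.L x2.1 z2.1 u) (fun u hu => hu.1)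
        (rcG N h le_rfl x2 z2 hx)
    subst h1
    have h2 : (cd h).IsL x2.1 := by
      by_contra hx
      exact key (fun u => I.StAt x2.1 (certS h x2 I.L).1 u) (fun u hu => hu.2.1)
        (stG N h x2 hx)
    have h3 : (cd h).bk ρ x2.1 := by
      by_contra hx
      exact key (fun u => I.BkAt ρ x2.1 (certS h x2 I.L).1 u) (fun u hu => hu.2.2.1)
        (bkG N h ρ x2 h2 hx)
    have h4 : x1.1 = I.dn ρ x2.1 := by
      by_contra hx
      exact key (fun u => I.XAt x1.1 (I.dn ρ x2.1) u) (fun u hu => hu.2.2.2.1)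
        (dxv N x1 _ (dn_memS h ρ x2) hx)
    have h5 : z1 = certS h x1 t := by
      by_contra hx
      exact key (fun u => I.RecAt t x1.1 z1.1 u) (fun u hu => hu.2.2.2.2) (rcG N h ht x1 z1 hx)
    exact legal_bw h hx0 hb0 ht h2 h3 h4 h5

/-- legal words in the code = relations at all units -/
theorem rel_iff_legal (N : Num I CG CT g) (hg : 0 < g) (hk : k.OK)
    (f : Conf (XS I CG) (ZS I CG CT) c.A.Tr) (ht : f.t ≤ I.L) :
    (∀ u, Rel I k (I.labE k.cw (vl f)) u) ↔ (lmI h hx0 hb0).Legal f := by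
  have := N.ne
  constructor
  · intro hr
    by_contra hn
    have h1 := gapL h hx0 hb0 N f ht hn
    have h2 : (frac fun u => ¬ LegalAt I (vl f) u) = 0 :=
      frac_eq_zero fun u hu => hu ((SemEv880.rel_eval I k hk (vl f) ht u).1 (hr u))
    rw [h2] at h1
    exact absurd h1 (not_le.2 hg)
  · intro hl u
    exact (SemEv880.rel_eval I k hk (vl f) ht u).2 (legal_at h hx0 hb0 f hl u)

/-- the register code over `XS`, `ZS` and the clock words `cw t`, `t ≤ L` -/
def codeI (I : Ins c) {Ck : Type} (CG : ℕ → Submodule K (I.Om → K))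
    (CT : ℕ → Submodule K (I.n → K)) (cw : ℕ → I.U → Ck) : Set (I.U → c.Lab Ck) :=
  LabCode I (cur (CG 1)) (cur (CG 4)) (cur (CT 1)) (cur (CT 2)) {t | ∃ i, i ≤ I.L ∧ t = cw i}

theorem mem_codeI (cw : ℕ → I.U → Ck) (w : I.U → c.Lab Ck) :
    w ∈ codeI I CG CT cw ↔
      ∃ f : Conf (XS I CG) (ZS I CG CT) c.A.Tr, f.t ≤ I.L ∧ w = I.labE cw (vl f) := by
  unfold codeI
  rw [LabCode_labS]
  rfl

/-! ### density of the flags -/

/-- forward flags are seen nowhere or at `≥ g` of the units -/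
theorem cohN (N : Num I CG CT g) (a : (lmI h hx0 hb0).CSt) (ρ : c.A.Tr) :
    Coh (SemI406.FlN I ρ (wd h hx0 hb0 k.cw a)) g := by
  have := N.ne
  refine ⟨fun _ _ _ _ _ _ => rfl, ?_⟩
  by_cases hl : ((lmI h hx0 hb0).conf a).l = .rest
  · cases a with
    | boot t ht => cases hl
    | fw ρ x hx he t ht => cases hl
    | bw ρ x hx he t ht => cases hl
    | rest x hx =>
      by_cases he : (cd h).en ρ x.1
      · left
        intro u
        have h1 : I.EnAt ρ x.1 (certS h x I.L).1 u :=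
          (Ins.en_iff _ _ _).1 ((en_iffS h ρ x hx).2 he) u
        exact if_neg fun h2 => h2.2 h1
      · right
        refine (enG N h ρ x hx he).trans (frac_mono fun u hu => ?_)
        have h1 : SemI406.FlN I ρ (wd h hx0 hb0 k.cw (.rest x hx)) u = some () := if_pos ⟨rfl, hu⟩
        rw [h1]
        exact Option.some_ne_none _
  · left
    intro u
    exact if_neg fun h2 => hl h2.1

/-- backward flags are seen nowhere or at `≥ g` of the units -/
theorem cohM (N : Num I CG CT g) (a : (lmI h hx0 hb0).CSt) (j : Option c.A.Tr) :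
    Coh (SemI406.FlM I j (wd h hx0 hb0 k.cw a)) g := by
  have := N.ne
  refine ⟨fun _ _ _ _ _ _ => rfl, ?_⟩
  by_cases hl : ((lmI h hx0 hb0).conf a).l = .rest
  · cases a with
    | boot t ht => cases hl
    | fw ρ x hx he t ht => cases hl
    | bw ρ x hx he t ht => cases hl
    | rest x hx =>
      cases j with
      | some ρ =>
        by_cases he : (cd h).bk ρ x.1
        · left
          intro u
          have h1 : I.BkAt ρ x.1 (certS h x I.L).1 u :=
            (Ins.bk_iff _ _ _).1 ((bk_iffS h ρ x hx).2 he) u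
          exact if_neg fun h2 => h2.2 h1
        · right
          refine (bkG N h ρ x hx he).trans (frac_mono fun u hu => ?_)
          have h1 : SemI406.FlM I (some ρ) (wd h hx0 hb0 k.cw (.rest x hx)) u = some () :=
            if_pos ⟨rfl, hu⟩
          rw [h1]
          exact Option.some_ne_none _
      | none =>
        by_cases he : x = (lmI h hx0 hb0).x0
        · left
          intro u
          have h1 : StartB I (B1 I (wd h hx0 hb0 k.cw (.rest x hx))) u := by
            have h2 : x.1 = I.xs := congrArg Subtype.val he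
            exact (startB_iff x.1 ((lmI h hx0 hb0).cert x (lmI h hx0 hb0).L).1).2 h2 u
          exact if_neg fun h2 => h2.2 h1
        · right
          refine (dx N x _ he).trans (frac_mono fun u hu => ?_)
          have h1 : SemI406.FlM I none (wd h hx0 hb0 k.cw (.rest x hx)) u = some () :=
            if_pos ⟨rfl, fun h2 => hu ((SemEv880.start_iff I x.1 _ u).1 h2)⟩
          rw [h1]
          exact Option.some_ne_none _
  · left
    intro u
    cases j with
    | some ρ => exact if_neg fun h2 => hl h2.1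
    | none => exact if_neg fun h2 => hl h2.1

/-! ### the exact facts of the family -/

section fam

variable {Inst : Type} (J : Inst → Ins c) (kk : ∀ i, Clk (J i) Ck) (i : Inst)
  {CGi : ℕ → Submodule K ((J i).Om → K)} {CTi : ℕ → Submodule K ((J i).n → K)} {tti : ℕ → (J i).T}
  (hi : Hyp (J i) CGi CTi tti) (hxi : c.A.Legal (J i).act (J i).pubC (J i).stg0 ((J i).con (J i).xs))
  (hbi : ∀ ρ, ¬ ((J i).stg0 = c.A.tgt ρ ∧ c.A.Bk (J i).act (J i).pubC ρ ((J i).con (J i).xs)))

/-- **the legal words** -/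
theorem W_eq (N : Num (J i) CGi CTi g) (hg : 0 < g) (hk : (kk i).OK) :
    (semI J kk).W i (codeI (J i) CGi CTi (kk i).cw) = SemN844.W hi hxi hbi (kk i).cw := by
  ext w
  rw [mem_W_iff]
  constructor
  · rintro ⟨h1, h2⟩
    obtain ⟨f, ht, rfl⟩ := (mem_codeI (kk i).cw w).1 h1
    exact ⟨f, (rel_iff_legal hi hxi hbi N hg hk f ht).1 fun u => h2 () u, rfl⟩
  · rintro ⟨f, hf, rfl⟩
    have ht := legal_t hi hxi hbi hf
    exact ⟨(mem_codeI (kk i).cw _).2 ⟨f, ht, rfl⟩,
      fun _ u => (rel_iff_legal hi hxi hbi N hg hk f ht).2 hf u⟩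

include hi hxi hbi in
/-- **the exact facts of one member** -/
theorem exact_semI (N : Num (J i) CGi CTi g) (hg : 0 < g) (hk : (kk i).OK) :
    UFam715.Exact (semI J kk) i (codeI (J i) CGi CTi (kk i).cw) (w0 (J i) (kk i).cw) g g := by
  have := N.ne
  have hW := W_eq J kk i hi hxi hbi N hg hk
  exact
    { gap := by
        intro w hw hn
        refine ⟨(), ?_⟩
        obtain ⟨f, ht, rfl⟩ := (mem_codeI (kk i).cw w).1 hw
        have h1 : ¬ (lmI hi hxi hbi).Legal f := fun hl =>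
          hn fun _ u => (rel_iff_legal hi hxi hbi N hg hk f ht).2 hl u
        refine (gapL hi hxi hbi N f ht h1).trans (frac_mono fun u hu hu' => hu ?_)
        exact (SemEv880.rel_eval (J i) (kk i) hk (vl f) ht u).1 hu'
      w0_mem := by rw [hW]; exact w0_mem hi hxi hbi
      N_mem := by rw [hW]; exact Nw_mem hi hxi hbi hk
      M_mem := by rw [hW]; exact Mw_mem hi hxi hbi hk
      MN := by rw [hW]; exact MNw hi hxi hbi hk
      NM := by rw [hW]; exact NMw hi hxi hbi hk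
      M_w0 := Mw_w0 hi hxi hbi hk
      N_w0 := Nw_w0 hi hxi hbi hk
      cohN := by
        rw [hW]
        rintro _ ⟨a, rfl⟩ ρ
        exact cohN hi hxi hbi N a ρ
      cohM := by
        rw [hW]
        rintro _ ⟨a, rfl⟩ j
        exact cohM hi hxi hbi N a j }

/-- **dead ends of the forward map** are rest words without enabled label -/
theorem end_N (N : Num (J i) CGi CTi g) (hg : 0 < g) (hk : (kk i).OK) (w : (J i).U → c.Lab Ck)
    (hw : w ∈ (semI J kk).W i (codeI (J i) CGi CTi (kk i).cw)) (he : (semI J kk).N i w = w) :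
    ∃ x, ∃ hx : (lmI hi hxi hbi).IsL x,
      w = (J i).labE (kk i).cw (vl ((lmI hi hxi hbi).conf (.rest x hx))) ∧
      ∀ ρ, ¬ (lmI hi hxi hbi).en ρ x := by
  have := N.ne
  rw [W_eq J kk i hi hxi hbi N hg hk] at hw
  exact Nw_eq_self hi hxi hbi hk w hw he

/-- **dead ends of the backward map** -/
theorem end_M (N : Num (J i) CGi CTi g) (hg : 0 < g) (hk : (kk i).OK) (w : (J i).U → c.Lab Ck)
    (hw : w ∈ (semI J kk).W i (codeI (J i) CGi CTi (kk i).cw)) (he : (semI J kk).M i w = w)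
    (hne : w ≠ w0 (J i) (kk i).cw) :
    ∃ x, ∃ hx : (lmI hi hxi hbi).IsL x,
      w = (J i).labE (kk i).cw (vl ((lmI hi hxi hbi).conf (.rest x hx))) ∧
      (∀ ρ, ¬ (lmI hi hxi hbi).bk ρ x) ∧ x ≠ (lmI hi hxi hbi).x0 := by
  have := N.ne
  rw [W_eq J kk i hi hxi hbi N hg hk] at hw
  obtain ⟨x, hx, h1, h2, h3⟩ := Mw_eq_self hi hxi hbi hk w hw he hne
  exact ⟨x, hx, h1, h2, fun h4 => h3 (congrArg Subtype.val h4)⟩

end fam

end Crest.Agent.R289.SemFin844
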