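import Crest.Agent.R289.DefI_306
import Crest.Agent.R289.GapI_731
import Crest.Agent.R289.ULAsm_406

/-!
# Row 289, block C, leaf SemI (helper250): the compiled machine of `DefI_306` as functionals on
label words

* `IC` = an instance with its clock, `Abs` = absolute clock reads and stages;
* `relI`, `enI`, `bkI`, `x0I`, `FN`, `FM` : relation, flags and steps on ARBITRARY label words
  (register words are read in slices `τ = const`, the clock data at every unit);
* `IC.OK` = what the clock must satisfy; evaluation on the exact words `labE cw f`, `f.t ≤ L`.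
-/

set_option autoImplicit false
set_option linter.unusedSectionVars false

namespace Crest.Agent.R289.SemI250

open Finset DefC DefI Compile827

variable {K : Type} [Field K]

/-! ### slice forms -/

section slices
variable {c : Cst K} (I : Ins c)

/-- register slices: register words for every point of `T` -/
abbrev RS : Type := I.T → c.A.Reg → I.Om → K

/-- residual word of slices, with clock data `Tw` -/
def qG (x : RS I) (Tw : I.U → c.TD) (sel : c.TD → c.S' → K) (X : I.n → I.AW) : I.n → I.AW :=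
  fun p ω => I.Q (I.wv (x p.1)) (fun p' => sel (Tw (ω.1, p'.1)) p'.2) X p ω

/-- relations of a certificate at a unit -/
def recG (x : RS I) (Tw : I.U → c.TD) (z : I.ZW) (u : I.U) : Prop :=
  I.MirAt (qG I x Tw Cst.TD.D z.X) z.Z u ∧
  I.MirAt (qG I x Tw Cst.TD.Dm z.Xm) z.Zm u ∧
  (∀ s, qG I x Tw Cst.TD.D z.X (u.2, c.s0') (u.1, s) = 0) ∧
  (∀ s, qG I x Tw Cst.TD.Dm z.Xm (u.2, c.s0') (u.1, s) = 0) ∧
  (∀ a s, z.Z a (u.2, c.s0') (u.1, s) = 0) ∧
  (∀ a s, z.Zm a (u.2, c.s0') (u.1, s) = 0)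

theorem recG_exact (t : ℕ) (x : I.XW) (z : I.ZW) (u : I.U) :
    recG I (fun _ => x.2) (fun u => I.td t u.2) z u ↔ I.RecAt t x z u := Iff.rfl

/-- push on slices -/
def pushG (x : RS I) (Tw : I.U → c.TD) (z : I.ZW) : I.ZW where
  X := fun p ω => I.Lam (z.X p) ω + z.Xm p ω + (Tw (ω.1, p.1)).Dp p.2 • I.wv (x p.1) ω
  Xm := z.X
  Z := fun s p ω => I.Lam (z.Z s p) ω + z.Zm s p ω
    + (Tw (ω.1, p.1)).A s p.2 • I.Lam (I.wv (x p.1)) ω
    + (Tw (ω.1, p.1)).B s p.2 • I.wv (x p.1) ω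
  Zm := z.Z

theorem pushG_exact (t : ℕ) (x : I.XW) (z : I.ZW) :
    pushG I (fun _ => x.2) (fun u => I.td t u.2) z = I.push t x z := rfl

/-- pop on slices -/
def popG (x : RS I) (Tw : I.U → c.TD) (z : I.ZW) : I.ZW where
  X := z.Xm
  Xm := fun p ω => z.X p ω - I.Lam (z.Xm p) ω - (Tw (ω.1, p.1)).D p.2 • I.wv (x p.1) ω
  Z := z.Zm
  Zm := fun s p ω => z.Z s p ω - I.Lam (z.Zm s p) ω
    - (Tw (ω.1, p.1)).Am s p.2 • I.Lam (I.wv (x p.1)) ω
    - (Tw (ω.1, p.1)).Bm s p.2 • I.wv (x p.1) ω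

theorem popG_exact (t : ℕ) (x : I.XW) (z : I.ZW) :
    popG I (fun _ => x.2) (fun u => I.td (t + 1) u.2) z = I.pop t x z := rfl

/-- entry on slices -/
def entG (x : RS I) : I.ZW where
  X := fun p ω => I.D 0 p • I.wv (x p.1) ω
  Xm := fun _ _ => 0
  Z := fun s p ω => I.A0 s p • I.Lam (I.wv (x p.1)) ω + I.B0 s p • I.wv (x p.1) ω
  Zm := fun _ _ _ => 0

theorem entG_exact (x : I.XW) : entG I (fun _ => x.2) = I.ent x := rfl

/-- update of the registers on slices -/
def upG (f : c.A.Reg → PE K c.A.Reg c.A.Pub c.G) (x : RS I) : RS I :=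
  fun τ r => I.evalW (f r) (x τ)

/-- bank symbol from slices -/
def bkG (st : c.A.Stg) (x : RS I) (z : I.ZW) (u : I.U) : c.Bank where
  stg := st
  R := fun r s => x u.2 r (u.1, s)
  X := fun s' s => z.X (u.2, s') (u.1, s)
  Xm := fun s' s => z.Xm (u.2, s') (u.1, s)
  Z := fun q s' s => z.Z q (u.2, s') (u.1, s)
  Zm := fun q s' s => z.Zm q (u.2, s') (u.1, s)

theorem bkG_exact (x : I.XW) (z : I.ZW) (u : I.U) :
    bkG I x.1 (fun _ => x.2) z u = I.bankE x z u := rfl

end slices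

/-! ### instances with a clock -/

variable (c : Cst K)

/-- an instance with its clock -/
structure IC (Ck Gc : Type) where
  I : Ins c
  mc : Gc → I.U → I.U
  cw : ℕ → I.U → Ck

/-- absolute clock reads and stages -/
structure Abs (Ck Gc : Type) where
  rd : (Gc → Ck) → c.TD
  gu : Gc
  gd : Gc
  st0 : c.A.Stg
  stz : c.A.Stg

variable {c} {Ck Gc : Type}

/-- facts about the clock -/
structure IC.OK (a : Abs c Ck Gc) (i : IC c Ck Gc) : Prop where
  stg0 : i.I.stg0 = a.st0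
  stgz : i.I.stgz = a.stz
  rd : ∀ t, t ≤ i.I.L → ∀ u, a.rd (fun g => i.cw t (i.mc g u)) = i.I.td t u.2
  up : ∀ t, t < i.I.L → ∀ u, i.cw t (i.mc a.gu u) = i.cw (t + 1) u
  dn : ∀ t, t < i.I.L → ∀ u, i.cw (t + 1) (i.mc a.gd u) = i.cw t u
  top : ∀ u, i.cw i.I.L (i.mc a.gu u) = i.cw 0 u
  bot : ∀ u, i.cw 0 (i.mc a.gd u) = i.cw i.I.L u

/-- blank bank -/
def blk (a : Abs c Ck Gc) : c.Bank := ⟨a.stz, 0, 0, 0, 0, 0⟩

/-- bank `b` of a label -/
def bnk (b : Bool) (l : c.Lab Ck) : c.Bank := if b then l.b2 else l.b1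

section word
variable (a : Abs c Ck Gc) (i : IC c Ck Gc) (w : i.I.U → c.Lab Ck)

/-- register slices of bank `b` -/
def xsW (b : Bool) : RS i.I := fun τ r p => (bnk b (w (p.1, τ))).R r p.2

/-- certificate words of bank `b` -/
def zW (b : Bool) : i.I.ZW where
  X := fun p ω => (bnk b (w (ω.1, p.1))).X p.2 ω.2
  Xm := fun p ω => (bnk b (w (ω.1, p.1))).Xm p.2 ω.2
  Z := fun q p ω => (bnk b (w (ω.1, p.1))).Z q p.2 ω.2
  Zm := fun q p ω => (bnk b (w (ω.1, p.1))).Zm q p.2 ω.2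

/-- content word of bank `b` seen at `u` -/
def xW (b : Bool) (u : i.I.U) : i.I.XW := ((bnk b (w u)).stg, xsW i w b u.2)

/-- clock data read at `u` -/
def tdW (u : i.I.U) : c.TD := a.rd fun g => (w (i.mc g u)).ck

/-- public clock data of `t = L` -/
def tdL (i : IC c Ck Gc) (u : i.I.U) : c.TD := (i.I.pd u).tdL

/-- certificate of the depth of the clock, bank `b` -/
def recT (b : Bool) (u : i.I.U) : Prop := recG i.I (xsW i w b) (tdW a i w) (zW i w b) u

/-- full certificate, bank `b` -/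
def recL (b : Bool) (u : i.I.U) : Prop := recG i.I (xsW i w b) (tdL i) (zW i w b) u

/-- static claims, bank `b` -/
def stI (b : Bool) (u : i.I.U) : Prop := i.I.StAt (xW i w b u) (zW i w b) u

/-- forward claims of a label, bank `b` -/
def enI (ρ : c.A.Tr) (b : Bool) (u : i.I.U) : Prop := i.I.EnAt ρ (xW i w b u) (zW i w b) u

/-- backward claims of a label, bank `b` -/
def bkI (ρ : c.A.Tr) (b : Bool) (u : i.I.U) : Prop := i.I.BkAt ρ (xW i w b u) (zW i w b) u

/-- bank `b` shows the start content word at `u` -/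
def x0I (b : Bool) (u : i.I.U) : Prop :=
  (bnk b (w u)).stg = a.st0 ∧ ∀ r s, (bnk b (w u)).R r s = i.I.x0 r (u.1, s)

/-- bank `b'` shows the update `(st, f)` of bank `b` -/
def updI (st : c.A.Stg) (f : c.A.Reg → PE K c.A.Reg c.A.Pub c.G) (b b' : Bool) (u : i.I.U) :
    Prop :=
  (bnk b' (w u)).stg = st ∧
    ∀ r s, (bnk b' (w u)).R r s = upG i.I f (xsW i w b) u.2 r (u.1, s)

/-- **the relation** -/
def relI (u : i.I.U) : Prop :=
  match (w u).l with
  | .boot => (w u).b1 = blk a ∧ x0I a i w true u ∧ recT a i w true u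
  | .rest => (tdW a i w u).fst = true ∧ recL i w false u ∧ stI i w false u ∧ (w u).b2 = blk a
  | .fw ρ => recL i w false u ∧ stI i w false u ∧ enI i w ρ false u ∧
      updI i w (c.A.tgt ρ) (c.A.up ρ) false true u ∧ recT a i w true u
  | .bw ρ => recL i w true u ∧ stI i w true u ∧ bkI i w ρ true u ∧
      updI i w (c.A.src ρ) (c.A.dn ρ) true false u ∧ recT a i w false u

open Classical in
/-- flags of the forward step -/
noncomputable def vN (ρ : c.A.Tr) (u : i.I.U) : Option Unit :=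
  if (w u).l = .rest ∧ ¬ enI i w ρ false u then some () else none

open Classical in
/-- flags of the backward step -/
noncomputable def vM (j : Option c.A.Tr) (u : i.I.U) : Option Unit :=
  match j with
  | some ρ => if (w u).l = .rest ∧ ¬ bkI i w ρ false u then some () else none
  | none => if (w u).l = .rest ∧ ¬ x0I a i w false u then some () else none

/-- bank after a push -/
def pushB (b : Bool) (u : i.I.U) : c.Bank :=
  bkG i.I (bnk b (w u)).stg (xsW i w b) (pushG i.I (xsW i w b) (tdW a i w) (zW i w b)) u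

/-- bank after a pop -/
def popB (b : Bool) (u : i.I.U) : c.Bank :=
  bkG i.I (bnk b (w u)).stg (xsW i w b) (popG i.I (xsW i w b) (tdW a i w) (zW i w b)) u

/-- bank of the update `(st, f)` of bank 1 with an empty certificate -/
def updB (st : c.A.Stg) (f : c.A.Reg → PE K c.A.Reg c.A.Pub c.G) (u : i.I.U) : c.Bank :=
  bkG i.I st (upG i.I f (xsW i w false)) (entG i.I (upG i.I f (xsW i w false))) u

open Classical in
/-- **forward step**, from the flags `y` -/
noncomputable def FN (y : c.A.Tr → Option Unit) (u : i.I.U) : c.Lab Ck :=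
  match (w u).l with
  | .boot => if (tdW a i w u).lst = true then ⟨.rest, (w (i.mc a.gu u)).ck, (w u).b2, blk a⟩
      else ⟨.boot, (w (i.mc a.gu u)).ck, (w u).b1, pushB a i w true u⟩
  | .rest => if h : ∃ ρ, y ρ = none then
      ⟨.fw h.choose, (w u).ck, (w u).b1, updB i w (c.A.tgt h.choose) (c.A.up h.choose) u⟩
      else w u
  | .fw ρ => if (tdW a i w u).lst = true then ⟨.bw ρ, (w u).ck, (w u).b1, (w u).b2⟩
      else ⟨.fw ρ, (w (i.mc a.gu u)).ck, (w u).b1, pushB a i w true u⟩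
  | .bw ρ => if (tdW a i w u).fst = true then ⟨.rest, (w u).ck, (w u).b2, blk a⟩
      else ⟨.bw ρ, (w (i.mc a.gd u)).ck, popB a i w false u, (w u).b2⟩

open Classical in
/-- **backward step**, from the flags `y` -/
noncomputable def FM (y : Option c.A.Tr → Option Unit) (u : i.I.U) : c.Lab Ck :=
  match (w u).l with
  | .boot => if (tdW a i w u).fst = true then w u
      else ⟨.boot, (w (i.mc a.gd u)).ck, (w u).b1, popB a i w true u⟩
  | .rest => if h : ∃ ρ, y (some ρ) = none then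
      ⟨.bw h.choose, (w u).ck, updB i w (c.A.src h.choose) (c.A.dn h.choose) u, (w u).b1⟩
      else if y none = none then ⟨.boot, (w (i.mc a.gd u)).ck, blk a, (w u).b1⟩ else w u
  | .fw ρ => if (tdW a i w u).fst = true then ⟨.rest, (w u).ck, (w u).b1, blk a⟩
      else ⟨.fw ρ, (w (i.mc a.gd u)).ck, (w u).b1, popB a i w true u⟩
  | .bw ρ => if (tdW a i w u).lst = true then ⟨.fw ρ, (w u).ck, (w u).b1, (w u).b2⟩
      else ⟨.bw ρ, (w (i.mc a.gu u)).ck, pushB a i w false u, (w u).b2⟩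

end word

/-! ### exact words -/

section exact
variable {a : Abs c Ck Gc} {i : IC c Ck Gc} (f : Conf i.I.XW i.I.ZW c.A.Tr)

/-- content word of bank `b` -/
def cx (b : Bool) : i.I.XW := if b then f.x2 else f.x1

/-- certificate of bank `b` -/
def cz (b : Bool) : i.I.ZW := if b then f.z2 else f.z1

theorem bnk_labE (b : Bool) (u : i.I.U) :
    bnk b (i.I.labE i.cw f u) = i.I.bankE (cx f b) (cz f b) u := by
  cases b <;> rfl

theorem xsW_labE (b : Bool) : xsW i (i.I.labE i.cw f) b = fun _ => (cx f b).2 := by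
  cases b <;> rfl

theorem zW_labE (b : Bool) : zW i (i.I.labE i.cw f) b = cz f b := by
  cases b <;> rfl

theorem xW_labE (b : Bool) (u : i.I.U) : xW i (i.I.labE i.cw f) b u = cx f b := by
  cases b <;> rfl

theorem tdW_labE (h : i.OK a) (ht : f.t ≤ i.I.L) :
    tdW a i (i.I.labE i.cw f) = fun u => i.I.td f.t u.2 := by
  funext u
  exact h.rd f.t ht u

theorem tdL_eq (i : IC c Ck Gc) : tdL i = fun u => i.I.td i.I.L u.2 := rfl

theorem blk_eq (h : i.OK a) (u : i.I.U) : blk a = i.I.bankE i.I.xz i.I.zz u := by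
  unfold blk Ins.bankE Ins.xz Ins.zz
  rw [← h.stgz]
  rfl

/-- the relations of a configuration at a unit -/
def LegalAt (I : Ins c) (f : Conf I.XW I.ZW c.A.Tr) (u : I.U) : Prop :=
  match f.l with
  | .boot => (I.XAt f.x1 I.xz u ∧ I.ZAt f.z1 I.zz u) ∧ I.XAt f.x2 I.xs u ∧
      I.RecAt f.t f.x2 f.z2 u
  | .rest => f.t = 0 ∧ I.RecAt I.L f.x1 f.z1 u ∧ I.StAt f.x1 f.z1 u ∧
      (I.XAt f.x2 I.xz u ∧ I.ZAt f.z2 I.zz u)
  | .fw ρ => I.RecAt I.L f.x1 f.z1 u ∧ I.StAt f.x1 f.z1 u ∧ I.EnAt ρ f.x1 f.z1 u ∧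
      I.XAt f.x2 (I.up ρ f.x1) u ∧ I.RecAt f.t f.x2 f.z2 u
  | .bw ρ => I.RecAt I.L f.x2 f.z2 u ∧ I.StAt f.x2 f.z2 u ∧ I.BkAt ρ f.x2 f.z2 u ∧
      I.XAt f.x1 (I.dn ρ f.x2) u ∧ I.RecAt f.t f.x1 f.z1 u

theorem bankE_eq_iff {I : Ins c} (x y : I.XW) (z z' : I.ZW) (u : I.U) :
    I.bankE x z u = I.bankE y z' u ↔ I.XAt x y u ∧ I.ZAt z z' u := by
  unfold Ins.bankE Ins.XAt Ins.ZAt
  simp only [Cst.Bank.mk.injEq, funext_iff]
  tauto

theorem recT_labE (h : i.OK a) (ht : f.t ≤ i.I.L) (b : Bool) (u : i.I.U) :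
    recT a i (i.I.labE i.cw f) b u ↔ i.I.RecAt f.t (cx f b) (cz f b) u := by
  unfold recT
  rw [xsW_labE, zW_labE, tdW_labE f h ht]
  exact recG_exact _ _ _ _ _

theorem recL_labE (b : Bool) (u : i.I.U) :
    recL i (i.I.labE i.cw f) b u ↔ i.I.RecAt i.I.L (cx f b) (cz f b) u := by
  unfold recL
  rw [xsW_labE, zW_labE, tdL_eq]
  exact recG_exact _ _ _ _ _

theorem stI_labE (b : Bool) (u : i.I.U) :
    stI i (i.I.labE i.cw f) b u ↔ i.I.StAt (cx f b) (cz f b) u := by
  unfold stI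
  rw [xW_labE, zW_labE]

theorem enI_labE (ρ : c.A.Tr) (b : Bool) (u : i.I.U) :
    enI i (i.I.labE i.cw f) ρ b u ↔ i.I.EnAt ρ (cx f b) (cz f b) u := by
  unfold enI
  rw [xW_labE, zW_labE]

theorem bkI_labE (ρ : c.A.Tr) (b : Bool) (u : i.I.U) :
    bkI i (i.I.labE i.cw f) ρ b u ↔ i.I.BkAt ρ (cx f b) (cz f b) u := by
  unfold bkI
  rw [xW_labE, zW_labE]

theorem x0I_labE (h : i.OK a) (b : Bool) (u : i.I.U) :
    x0I a i (i.I.labE i.cw f) b u ↔ i.I.XAt (cx f b) i.I.xs u := by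
  unfold x0I
  rw [bnk_labE, ← h.stg0]
  exact Iff.rfl

theorem updI_labE (st : c.A.Stg) (g : c.A.Reg → PE K c.A.Reg c.A.Pub c.G) (b b' : Bool)
    (u : i.I.U) : updI i (i.I.labE i.cw f) st g b b' u ↔
      i.I.XAt (cx f b') (st, fun r => i.I.evalW (g r) (cx f b).2) u := by
  unfold updI
  rw [bnk_labE, xsW_labE]
  exact Iff.rfl

/-- **the relation on exact words** -/
theorem relI_labE (h : i.OK a) (ht : f.t ≤ i.I.L) (u : i.I.U) :
    relI a i (i.I.labE i.cw f) u ↔ LegalAt i.I f u := by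
  have h1 : ∀ b, bnk b (i.I.labE i.cw f u) = blk a ↔
      i.I.XAt (cx f b) i.I.xz u ∧ i.I.ZAt (cz f b) i.I.zz u := by
    intro b
    rw [bnk_labE, blk_eq h u, bankE_eq_iff]
  have hl : (i.I.labE i.cw f u).l = f.l := rfl
  unfold relI LegalAt
  rw [hl]
  cases hf : f.l with
  | boot =>
    simp only
    rw [x0I_labE f h, recT_labE f h ht]
    exact and_congr (h1 false) Iff.rfl
  | rest =>
    simp only
    rw [recL_labE, stI_labE, tdW_labE f h ht]
    refine and_congr ?_ (and_congr Iff.rfl (and_congr Iff.rfl (h1 true)))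
    simp [Ins.td]
  | fw ρ =>
    simp only
    rw [recL_labE, stI_labE, enI_labE, updI_labE, recT_labE f h ht]
    exact Iff.rfl
  | bw ρ =>
    simp only
    rw [recL_labE, stI_labE, bkI_labE, updI_labE, recT_labE f h ht]
    exact Iff.rfl

/-! ### steps on exact words -/

theorem pushB_labE (h : i.OK a) (ht : f.t ≤ i.I.L) (b : Bool) (u : i.I.U) :
    pushB a i (i.I.labE i.cw f) b u =
      i.I.bankE (cx f b) (i.I.push f.t (cx f b) (cz f b)) u := by
  unfold pushB
  rw [xsW_labE, zW_labE, tdW_labE f h ht, bnk_labE, pushG_exact]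
  rfl

theorem popB_labE (h : i.OK a) {t : ℕ} (hft : f.t = t + 1) (ht : f.t ≤ i.I.L) (b : Bool)
    (u : i.I.U) : popB a i (i.I.labE i.cw f) b u =
      i.I.bankE (cx f b) (i.I.pop t (cx f b) (cz f b)) u := by
  unfold popB
  rw [xsW_labE, zW_labE, tdW_labE f h ht, bnk_labE, hft, popG_exact]
  rfl

theorem updB_labE (st : c.A.Stg) (g : c.A.Reg → PE K c.A.Reg c.A.Pub c.G) (u : i.I.U) :
    updB i (i.I.labE i.cw f) st g u =
      i.I.bankE (st, fun r => i.I.evalW (g r) f.x1.2)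
        (i.I.ent (st, fun r => i.I.evalW (g r) f.x1.2)) u := by
  unfold updB
  rw [xsW_labE]
  rfl

open Classical in
/-- forward step of configurations, from the flags -/
noncomputable def stepN (I : Ins c) (y : c.A.Tr → Option Unit) (f : Conf I.XW I.ZW c.A.Tr) :
    Conf I.XW I.ZW c.A.Tr :=
  match f.l with
  | .boot => if f.t < I.L then ⟨.boot, f.t + 1, f.x1, f.z1, f.x2, I.push f.t f.x2 f.z2⟩
      else ⟨.rest, 0, f.x2, f.z2, I.xz, I.zz⟩
  | .rest => if h : ∃ ρ, y ρ = none then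
      ⟨.fw h.choose, f.t, f.x1, f.z1, I.up h.choose f.x1, I.ent (I.up h.choose f.x1)⟩ else f
  | .fw ρ => if f.t < I.L then ⟨.fw ρ, f.t + 1, f.x1, f.z1, f.x2, I.push f.t f.x2 f.z2⟩
      else ⟨.bw ρ, f.t, f.x1, f.z1, f.x2, f.z2⟩
  | .bw ρ => if 0 < f.t then ⟨.bw ρ, f.t - 1, f.x1, I.pop (f.t - 1) f.x1 f.z1, f.x2, f.z2⟩
      else ⟨.rest, f.t, f.x2, f.z2, I.xz, I.zz⟩

open Classical in
/-- backward step of configurations, from the flags -/
noncomputable def stepM (I : Ins c) (y : Option c.A.Tr → Option Unit)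
    (f : Conf I.XW I.ZW c.A.Tr) : Conf I.XW I.ZW c.A.Tr :=
  match f.l with
  | .boot => if 0 < f.t then ⟨.boot, f.t - 1, f.x1, f.z1, f.x2, I.pop (f.t - 1) f.x2 f.z2⟩
      else f
  | .rest => if h : ∃ ρ, y (some ρ) = none then
      ⟨.bw h.choose, f.t, I.dn h.choose f.x1, I.ent (I.dn h.choose f.x1), f.x1, f.z1⟩
      else if y none = none then ⟨.boot, I.L, I.xz, I.zz, f.x1, f.z1⟩ else f
  | .fw ρ => if 0 < f.t then ⟨.fw ρ, f.t - 1, f.x1, f.z1, f.x2, I.pop (f.t - 1) f.x2 f.z2⟩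
      else ⟨.rest, f.t, f.x1, f.z1, I.xz, I.zz⟩
  | .bw ρ => if f.t < I.L then ⟨.bw ρ, f.t + 1, f.x1, I.push f.t f.x1 f.z1, f.x2, f.z2⟩
      else ⟨.fw ρ, f.t, f.x1, f.z1, f.x2, f.z2⟩

theorem labE_mk (l : Letter c.A.Tr) (t : ℕ) (x1 : i.I.XW) (z1 : i.I.ZW) (x2 : i.I.XW)
    (z2 : i.I.ZW) (u : i.I.U) : i.I.labE i.cw ⟨l, t, x1, z1, x2, z2⟩ u =
      ⟨l, i.cw t u, i.I.bankE x1 z1 u, i.I.bankE x2 z2 u⟩ := rfl

/-- **the forward step on exact words** -/
theorem FN_labE (h : i.OK a) (ht : f.t ≤ i.I.L) (y : c.A.Tr → Option Unit) (u : i.I.U) :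
    FN a i (i.I.labE i.cw f) y u = i.I.labE i.cw (stepN i.I y f) u := by
  have hck : ∀ v, (i.I.labE i.cw f v).ck = i.cw f.t v := fun _ => rfl
  have h1 : (i.I.labE i.cw f u).b1 = i.I.bankE f.x1 f.z1 u := rfl
  have h2 : (i.I.labE i.cw f u).b2 = i.I.bankE f.x2 f.z2 u := rfl
  have hlst : (tdW a i (i.I.labE i.cw f) u).lst = true ↔ f.t = i.I.L := by
    rw [tdW_labE f h ht]; simp [Ins.td]
  have hfst : (tdW a i (i.I.labE i.cw f) u).fst = true ↔ f.t = 0 := by
    rw [tdW_labE f h ht]; simp [Ins.td]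
  have hl : (i.I.labE i.cw f u).l = f.l := rfl
  unfold FN stepN
  rw [hl]
  cases hf : f.l with
  | boot =>
    simp only
    rcases lt_or_eq_of_le ht with hlt | heq
    · rw [if_neg (by rw [hlst]; omega), if_pos hlt, hck, h.up _ hlt, h1, pushB_labE f h ht]
      rfl
    · rw [if_pos (hlst.2 heq), if_neg (by omega), hck, heq, h.top, h2, blk_eq h u]
      rfl
  | rest =>
    simp only
    by_cases hex : ∃ ρ, y ρ = none
    · rw [dif_pos hex, dif_pos hex, hck, h1, updB_labE]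
      rfl
    · rw [dif_neg hex, dif_neg hex]
  | fw ρ =>
    simp only
    rcases lt_or_eq_of_le ht with hlt | heq
    · rw [if_neg (by rw [hlst]; omega), if_pos hlt, hck, h.up _ hlt, h1, pushB_labE f h ht]
      rfl
    · rw [if_pos (hlst.2 heq), if_neg (by omega), hck, h1, h2]
      rfl
  | bw ρ =>
    simp only
    rcases Nat.eq_zero_or_pos f.t with h0 | hpos
    · rw [if_pos (hfst.2 h0), if_neg (by omega), hck, h2, blk_eq h u]
      rfl
    · obtain ⟨t, hft⟩ := Nat.exists_eq_succ_of_ne_zero hpos.ne'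
      have hft' : f.t = t + 1 := hft
      have e1 : f.t - 1 = t := by omega
      rw [if_neg (by rw [hfst]; omega), if_pos hpos, hck, h2, popB_labE f h hft' ht, e1, hft',
        h.dn t (by omega)]
      rfl

/-- **the backward step on exact words** -/
theorem FM_labE (h : i.OK a) (ht : f.t ≤ i.I.L) (h0r : f.l = .rest → f.t = 0)
    (y : Option c.A.Tr → Option Unit) (u : i.I.U) :
    FM a i (i.I.labE i.cw f) y u = i.I.labE i.cw (stepM i.I y f) u := by
  have hck : ∀ v, (i.I.labE i.cw f v).ck = i.cw f.t v := fun _ => rfl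
  have h1 : (i.I.labE i.cw f u).b1 = i.I.bankE f.x1 f.z1 u := rfl
  have h2 : (i.I.labE i.cw f u).b2 = i.I.bankE f.x2 f.z2 u := rfl
  have hlst : (tdW a i (i.I.labE i.cw f) u).lst = true ↔ f.t = i.I.L := by
    rw [tdW_labE f h ht]; simp [Ins.td]
  have hfst : (tdW a i (i.I.labE i.cw f) u).fst = true ↔ f.t = 0 := by
    rw [tdW_labE f h ht]; simp [Ins.td]
  have hl : (i.I.labE i.cw f u).l = f.l := rfl
  unfold FM stepM
  rw [hl]
  cases hf : f.l with
  | boot =>
    simp only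
    rcases Nat.eq_zero_or_pos f.t with h0 | hpos
    · rw [if_pos (hfst.2 h0), if_neg (by omega)]
    · obtain ⟨t, hft⟩ := Nat.exists_eq_succ_of_ne_zero hpos.ne'
      have hft' : f.t = t + 1 := hft
      have e1 : f.t - 1 = t := by omega
      rw [if_neg (by rw [hfst]; omega), if_pos hpos, hck, h1, popB_labE f h hft' ht, e1, hft',
        h.dn t (by omega)]
      rfl
  | rest =>
    simp only
    by_cases hex : ∃ ρ, y (some ρ) = none
    · rw [dif_pos hex, dif_pos hex, hck, h1, updB_labE]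
      rfl
    · rw [dif_neg hex, dif_neg hex]
      by_cases hy : y none = none
      · rw [if_pos hy, if_pos hy, hck, h1, h0r hf, h.bot, blk_eq h u]
        rfl
      · rw [if_neg hy, if_neg hy]
  | fw ρ =>
    simp only
    rcases Nat.eq_zero_or_pos f.t with h0 | hpos
    · rw [if_pos (hfst.2 h0), if_neg (by omega), hck, h1, blk_eq h u]
      rfl
    · obtain ⟨t, hft⟩ := Nat.exists_eq_succ_of_ne_zero hpos.ne'
      have hft' : f.t = t + 1 := hft
      have e1 : f.t - 1 = t := by omega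
      rw [if_neg (by rw [hfst]; omega), if_pos hpos, hck, h1, popB_labE f h hft' ht, e1, hft',
        h.dn t (by omega)]
      rfl
  | bw ρ =>
    simp only
    rcases lt_or_eq_of_le ht with hlt | heq
    · rw [if_neg (by rw [hlst]; omega), if_pos hlt, hck, h.up _ hlt, h2, pushB_labE f h ht]
      rfl
    · rw [if_pos (hlst.2 heq), if_neg (by omega), hck, h1, h2]
      rfl

end exact

end Crest.Agent.R289.SemI250
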