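import Crest.Agent.R289.SemLoc_406
import Crest.Agent.R289.Mem_12
import Crest.Agent.R289.TopU_782

/-!
# Row 289, block C, leaf (L): locality of the machine over the family `Mem12.Mem`

* `clkI I cw mc` : the clock of `ClkTD_766` as a `SemI406.Clk`; `clk_ul` : its reads are uniformly
  local; `clk_ok` : `Clk.OK` from `ClkTD_766`;
* `clkM i` : clock of a member of `Mem12.Mem`; **`loc_mem`** : `(semI (fun i => i.I) clkM).Loc`
  over the frame of `DefI_306`; `clkM_ok`.
-/

set_option autoImplicit false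
set_option linter.unusedSectionVars false

namespace Crest.Agent.R289.SemMem406

open DefC DefI Compile827 ULoc406 ULocI880 SemI406 ClkTD766 InsObj576 Mem12
open Crest.Agent.R289.Asm12

/-! ### the clock of `ClkTD_766` -/

section clock

variable {K : Type} [Field K] {c : Cst K} {p : ℕ}

/-- clock words and reads of `ClkTD_766` -/
noncomputable def clkI (I : Ins c) (cw : ℕ → I.U → ZMod p) (mc : CG c → I.U → I.U) :
    Clk I (ZMod p) where
  cw := cw
  rd w u := rdTD fun g => w (mc g u)
  up w u := w (mc (.inr 1) u)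
  dn w u := w (mc (.inr 2) u)

variable {Inst Pc : Type} {J : Inst → Ins c} {cw : ∀ i, ℕ → (J i).U → ZMod p}
  {mc : ∀ i, CG c → (J i).U → (J i).U} {pc : ∀ i, (J i).U → Pc}

/-- the reads of the clock are uniformly local -/
theorem clk_ul [Finite K] : ClkUL mc pc (fun i => clkI (J i) (cw i) (mc i)) where
  rd := (UL.pi (B := fun _ => ZMod p) fun g : CG c =>
    UL.step (mv := mvF J mc) (Cst.Gen.ck g) (UL.here (A := ZMod p))).map rdTD
  up := UL.step (mv := mvF J mc) (Cst.Gen.ck (.inr 1)) (UL.here (A := ZMod p))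
  dn := UL.step (mv := mvF J mc) (Cst.Gen.ck (.inr 2)) (UL.here (A := ZMod p))

/-- the clock of `ClkTD_766` is right -/
theorem clk_ok [Fact p.Prime] (I : Ins c) {Q : Type} [Finite Q] [Nonempty Q]
    (e : I.U ≃ Clock311.U p (I.L + 1) Q) (tq : Q → I.T) (ht : ∀ u, u.2 = tq (e u).2.2.2) :
    (clkI I (ClkTD766.cw I e) (ClkTD766.mc I e tq)).OK where
  rd _ hL u := rdTD_eq I e tq ht hL u
  up t _ u := (cw_up I e tq t u).symm
  dn t _ u := (cw_dn I e tq t u).symm
  top u := (cw_zero I e tq u).symm
  bot u := (cw_top I e tq u).symm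
  inj _ _ hs ht' he := cw_inj I e hs ht' he

/-- the moves and the public data of `ULocI_880` are the ones of the frame -/
theorem mvF_frame (J : Inst → Ins c) {Gc : Type} (mc : ∀ i, Gc → (J i).U → (J i).U)
    (pc : ∀ i, (J i).U → Pc) : mvF J mc = fun i => ((J i).frame (mc i) (pc i)).act := by
  funext i g u
  exact mvF_eq J mc pc i g u

theorem pubF_frame (J : Inst → Ins c) {Gc : Type} (mc : ∀ i, Gc → (J i).U → (J i).U)
    (pc : ∀ i, (J i).U → Pc) : pubF J pc = fun i => ((J i).frame (mc i) (pc i)).pub := rfl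

end clock

/-! ### the family `Mem12.Mem` -/

section mem

variable {D : Obj} {M0 : ℕ} {lam0 Kr : ℝ} {h : D.OK M0 lam0 Kr} {W c0 : ℕ}

/-- the clock of a member -/
noncomputable def clkM (i : Mem h W c0) : Clk i.I (ZMod 3) := clkI i.I i.cw i.mc

theorem clkM_cw (i : Mem h W c0) : (clkM i).cw = i.cw := rfl

/-- the clock of a member is right -/
theorem clkM_ok (i : Mem h W c0) : (clkM i).OK := by
  have : Fact (Nat.Prime 3) := ⟨by norm_num⟩
  have : Nonempty (Fin i.siz.rho) := ⟨(i.e (Classical.arbitrary i.I.U)).2.2.2⟩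
  exact clk_ok i.I i.e i.tq i.tq_e

/-- **leaf (L)**: the machines of the family are uniformly local over the frame -/
theorem loc_mem {Pc : Type} (pc : ∀ i : Mem h W c0, i.I.U → Pc) :
    (semI (fun i : Mem h W c0 => i.I) clkM).Loc (fun i => (i.I.frame i.mc (pc i)).act)
      (fun i => (i.I.frame i.mc (pc i)).pub) := by
  have hk : ClkUL (J := fun i : Mem h W c0 => i.I) (fun i => i.mc) pc clkM := clk_ul
  have h1 := semI_loc (J := fun i : Mem h W c0 => i.I) (mc := fun i => i.mc) (pc := pc) hk
    (g0 := BootC515.SgB.e) (gz := BootC515.SgB.old Sg.a) (fun _ => rfl) (fun _ => rfl)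
  rw [mvF_frame (fun i : Mem h W c0 => i.I) (fun i => i.mc) pc] at h1
  exact h1

end mem

end Crest.Agent.R289.SemMem406
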