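import Crest.Agent.R289.SemE_482
import Crest.Agent.R289.SemEx_844
import Crest.Agent.R289.SemEv_880
import Crest.Agent.R289.GapS_719

/-!
Row 289, block C, key (X), helper482: `UFam715.Exact` for the semantic machine `semI` of
`SemDef_406` over `LMI827.lmI`.

* `legalAt_of_legal`, `legal_gap` : legality of a configuration of code words at the units;
* `ev_semI` : `SemE482.Ev` of `semI`; **`exact_semI`**, `ends_N`, `ends_M`.
-/

set_option autoImplicit false
set_option linter.unusedSectionVars false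

namespace Crest.Agent.R289.SemX482

open Finset DefC DefI Compile827 LMI827 SemI406 SemN844 SemEx844 GapS719 SemE482
open Crest.Agent.R289.DefD Crest.Agent.R289.Word508

variable {K : Type} [Field K] {c : Cst K}

section one

variable {I : Ins c} {CG : ℕ → Submodule K (I.Om → K)} {CT : ℕ → Submodule K (I.n → K)}
  {tt : ℕ → I.T} {g : ℝ} {Ck : Type}

/-- a legal configuration satisfies the relations at every unit -/
theorem legalAt_of_legal [Nonempty I.Γ] (h : Hyp I CG CT tt) (hx0) (hb0)
    {f : Conf (XS I CG) (ZS I CG CT) c.A.Tr} (hf : (lmI h hx0 hb0).Legal f) (u : I.U) :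
    SemI406.LegalAt I (vl f) u := by
  have : Nonempty I.T := ⟨1⟩
  obtain ⟨l, t, x1, z1, x2, z2⟩ := f
  cases l with
  | boot =>
    obtain ⟨_, h1, h2, h3, h4⟩ := hf
    exact ⟨(Ins.x_iff _ _).1 (congrArg Subtype.val h1) u,
      (Ins.z_iff _ _).1 (congrArg Subtype.val h2) u,
      (Ins.x_iff _ _).1 (congrArg Subtype.val h3) u, (Ins.rec_iff _ _ _).1 h4 u⟩
  | rest =>
    obtain ⟨h0, h1, h2, h3, h4⟩ := hf
    exact ⟨h0, (Ins.rec_iff _ _ _).1 h1 u, (Ins.st_iff _ _).1 h2 u,
      (Ins.x_iff _ _).1 (congrArg Subtype.val h3) u,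
      (Ins.z_iff _ _).1 (congrArg Subtype.val h4) u⟩
  | fw ρ =>
    obtain ⟨_, h1, h2, h3, h4, h5⟩ := hf
    exact ⟨(Ins.rec_iff _ _ _).1 h1 u, (Ins.st_iff _ _).1 h2 u, (Ins.en_iff _ _ _).1 h3 u,
      (Ins.x_iff _ _).1 (congrArg Subtype.val h4) u, (Ins.rec_iff _ _ _).1 h5 u⟩
  | bw ρ =>
    obtain ⟨_, h1, h2, h3, h4, h5⟩ := hf
    exact ⟨(Ins.rec_iff _ _ _).1 h1 u, (Ins.st_iff _ _).1 h2 u, (Ins.bk_iff _ _ _).1 h3 u,
      (Ins.x_iff _ _).1 (congrArg Subtype.val h4) u, (Ins.rec_iff _ _ _).1 h5 u⟩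

/-- **gap of a configuration of code words** -/
theorem legal_gap (N : Num I CG CT g) (h : Hyp I CG CT tt) (hx0) (hb0)
    (f : Conf (XS I CG) (ZS I CG CT) c.A.Tr) (ht : f.t ≤ I.L)
    (hn : ¬ (lmI h hx0 hb0).Legal f) :
    g ≤ frac fun u : I.U => ¬ SemI406.LegalAt I (vl f) u := by
  have := N.ne
  set m := lmI h hx0 hb0 with hm
  obtain ⟨l, t, x1, z1, x2, z2⟩ := f
  have ht' : t ≤ I.L := ht
  cases l with
  | boot =>
    by_cases e1 : x1 = m.xz
    · by_cases e2 : z1 = m.zz
      · by_cases e3 : x2 = m.x0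
        · by_cases e4 : I.Rec t x2.1 z2.1
          · exact absurd ⟨ht', e1, e2, e3, e4⟩ hn
          · exact (rcG N h ht' x2 z2 fun e => e4 ((rec_iffS h t x2 z2 ht').2 e)).trans
              (frac_mono fun u hu hu' => hu hu'.2.2.2)
        · exact (dx N x2 m.x0 e3).trans (frac_mono fun u hu hu' => hu hu'.2.2.1)
      · exact (dz N z1 m.zz e2).trans (frac_mono fun u hu hu' => hu hu'.2.1)
    · exact (dx N x1 m.xz e1).trans (frac_mono fun u hu hu' => hu hu'.1)
  | rest =>
    by_cases e0 : t = 0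
    · by_cases e1 : z1 = certS h x1 I.L
      · by_cases e2 : (cd h).IsL x1.1
        · by_cases e3 : x2 = m.xz
          · by_cases e4 : z2 = m.zz
            · refine absurd ⟨e0, (rec_iffS h I.L x1 z1 le_rfl).2 e1, ?_, e3, e4⟩ hn
              show I.St x1.1 z1.1
              rw [e1]
              exact (st_iffS h x1).2 e2
            · exact (dz N z2 m.zz e4).trans (frac_mono fun u hu hu' => hu hu'.2.2.2.2)
          · exact (dx N x2 m.xz e3).trans (frac_mono fun u hu hu' => hu hu'.2.2.2.1)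
        · refine (stG N h x1 e2).trans (frac_mono fun u hu hu' => hu ?_)
          have h3 : I.StAt x1.1 z1.1 u := hu'.2.2.1
          rwa [e1] at h3
      · exact (rcG N h le_rfl x1 z1 e1).trans (frac_mono fun u hu hu' => hu hu'.2.1)
    · rw [frac_true (p := fun u : I.U => ¬ SemI406.LegalAt I (vl ⟨.rest, t, x1, z1, x2, z2⟩) u)
        fun u hu => e0 hu.1]
      exact N.le1
  | fw ρ =>
    by_cases e1 : z1 = certS h x1 I.L
    · by_cases e2 : (cd h).IsL x1.1
      · by_cases e3 : (cd h).en ρ x1.1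
        · by_cases e4 : x2 = m.up ρ x1
          · by_cases e5 : I.Rec t x2.1 z2.1
            · refine absurd ⟨ht', (rec_iffS h I.L x1 z1 le_rfl).2 e1, ?_, ?_, e4, e5⟩ hn
              · show I.St x1.1 z1.1
                rw [e1]
                exact (st_iffS h x1).2 e2
              · show I.En ρ x1.1 z1.1
                rw [e1]
                exact (en_iffS h ρ x1 e2).2 e3
            · exact (rcG N h ht' x2 z2 fun e => e5 ((rec_iffS h t x2 z2 ht').2 e)).trans
                (frac_mono fun u hu hu' => hu hu'.2.2.2.2)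
          · exact (dx N x2 (m.up ρ x1) e4).trans (frac_mono fun u hu hu' => hu hu'.2.2.2.1)
        · refine (enG N h ρ x1 e2 e3).trans (frac_mono fun u hu hu' => hu ?_)
          have h3 : I.EnAt ρ x1.1 z1.1 u := hu'.2.2.1
          rwa [e1] at h3
      · refine (stG N h x1 e2).trans (frac_mono fun u hu hu' => hu ?_)
        have h3 : I.StAt x1.1 z1.1 u := hu'.2.1
        rwa [e1] at h3
    · exact (rcG N h le_rfl x1 z1 e1).trans (frac_mono fun u hu hu' => hu hu'.1)
  | bw ρ =>
    by_cases e1 : z2 = certS h x2 I.L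
    · by_cases e2 : (cd h).IsL x2.1
      · by_cases e3 : (cd h).bk ρ x2.1
        · by_cases e4 : x1 = m.dn ρ x2
          · by_cases e5 : I.Rec t x1.1 z1.1
            · refine absurd ⟨ht', (rec_iffS h I.L x2 z2 le_rfl).2 e1, ?_, ?_, e4, e5⟩ hn
              · show I.St x2.1 z2.1
                rw [e1]
                exact (st_iffS h x2).2 e2
              · show I.Bk ρ x2.1 z2.1
                rw [e1]
                exact (bk_iffS h ρ x2 e2).2 e3
            · exact (rcG N h ht' x1 z1 fun e => e5 ((rec_iffS h t x1 z1 ht').2 e)).trans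
                (frac_mono fun u hu hu' => hu hu'.2.2.2.2)
          · exact (dx N x1 (m.dn ρ x2) e4).trans (frac_mono fun u hu hu' => hu hu'.2.2.2.1)
        · refine (bkG N h ρ x2 e2 e3).trans (frac_mono fun u hu hu' => hu ?_)
          have h3 : I.BkAt ρ x2.1 z2.1 u := hu'.2.2.1
          rwa [e1] at h3
      · refine (stG N h x2 e2).trans (frac_mono fun u hu hu' => hu ?_)
        have h3 : I.StAt x2.1 z2.1 u := hu'.2.1
        rwa [e1] at h3
    · exact (rcG N h le_rfl x2 z2 e1).trans (frac_mono fun u hu hu' => hu hu'.1)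

end one

section fam

variable {Inst : Type} (J : Inst → Ins c) {Ck : Type} (k : ∀ i, Clk (J i) Ck) (i : Inst)
  {CG : ℕ → Submodule K ((J i).Om → K)} {CT : ℕ → Submodule K ((J i).n → K)}
  {tt : ℕ → (J i).T} {g : ℝ}

/-- **`semI` computes `lmI` on exact words** -/
theorem ev_semI (N : Num (J i) CG CT g) (h : Hyp (J i) CG CT tt) (hx0) (hb0)
    (hk : (k i).OK) : Ev (semI J k) i (lmI h hx0 hb0)
      (fun f => (J i).labE (k i).cw (vl f)) g g where
  inj f f' hf hf' he := by
    have := N.ne
    exact labE_vl_inj hk hf hf' he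
  legal f hf u := by
    have := N.ne
    exact (SemEv880.rel_eval (J i) (k i) hk (vl f) (legal_le hf) u).2
      (legalAt_of_legal h hx0 hb0 hf u)
  gap f ht hn := (legal_gap N h hx0 hb0 f ht hn).trans
    (frac_mono fun u hu hu' => hu ((SemEv880.rel_eval (J i) (k i) hk (vl f) ht u).1 hu'))
  vlN f hf hl ρ u := if_neg fun hc => hl hc.1
  vlM f hf hl j u := by
    cases j with
    | some ρ => exact if_neg fun hc => hl hc.1
    | none => exact if_neg fun hc => hl hc.1
  en_none x hx ρ he u := by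
    have := N.ne
    exact if_neg fun hc => hc.2 ((enB_iff ρ x.1 (certS h x (J i).L).1).2
      ((en_iffS h ρ x hx).2 he) u)
  en_dense x hx ρ he := by
    refine (enG N h ρ x hx he).trans (frac_mono fun u hu hu' => hu ?_)
    by_contra hc
    have h1 : (semI J k).vl ρ i ((J i).labE (k i).cw
        (vl ((lmI h hx0 hb0).conf (.rest x hx)))) u = some () := if_pos ⟨rfl, hc⟩
    rw [h1] at hu'
    cases hu'
  bk_none x hx ρ he u := by
    have := N.ne
    exact if_neg fun hc => hc.2 ((bkB_iff ρ x.1 (certS h x (J i).L).1).2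
      ((bk_iffS h ρ x hx).2 he) u)
  bk_dense x hx ρ he := by
    refine (bkG N h ρ x hx he).trans (frac_mono fun u hu hu' => hu ?_)
    by_contra hc
    have h1 : (semI J k).vl' (some ρ) i ((J i).labE (k i).cw
        (vl ((lmI h hx0 hb0).conf (.rest x hx)))) u = some () := if_pos ⟨rfl, hc⟩
    rw [h1] at hu'
    cases hu'
  x0_none x hx he u := by
    have := N.ne
    exact if_neg fun hc => hc.2 ((startB_iff x.1 (certS h x (J i).L).1).2
      (congrArg Subtype.val he) u)
  x0_dense x hx he := by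
    refine (dx N x (lmI h hx0 hb0).x0 he).trans (frac_mono fun u hu hu' => hu ?_)
    by_contra hc
    have h1 : (semI J k).vl' none i ((J i).labE (k i).cw
        (vl ((lmI h hx0 hb0).conf (.rest x hx)))) u = some () :=
      if_pos ⟨rfl, fun hs => hc ((SemEv880.start_iff (J i) x.1 _ u).1 hs)⟩
    rw [h1] at hu'
    cases hu'
  stepN f hf y hy u := by
    have h0 : (vl f).l = .rest → (vl f).t = 0 := by
      intro hl
      obtain ⟨x, hx, rfl⟩ := legal_rest hf hl
      rfl
    refine (StpN_labE hk y (vl f) (legal_le hf) h0 u).trans ?_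
    show _ = (J i).labE (k i).cw (vl ((lmI h hx0 hb0).stepN f)) u
    rw [vl_stepN]
    by_cases hl : f.l = .rest
    · have h1 : (fun ρ => y ρ = none) = fun ρ => (J i).En ρ f.x1.1 f.z1.1 := by
        funext ρ
        apply propext
        rw [hy hl ρ]
        obtain ⟨x, hx, rfl⟩ := legal_rest hf hl
        exact (en_iffS h ρ x hx).symm
      rw [h1]
    · rw [stR_irrel _ (fun ρ => (J i).En ρ f.x1.1 f.z1.1) (vl f) hl]
  stepM f hf y hy u := by
    have h0 : (vl f).l = .rest → (vl f).t = 0 := by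
      intro hl
      obtain ⟨x, hx, rfl⟩ := legal_rest hf hl
      rfl
    refine (StpM_labE hk y (vl f) (legal_le hf) h0 u).trans ?_
    show _ = (J i).labE (k i).cw (vl ((lmI h hx0 hb0).stepM f)) u
    rw [vl_stepM]
    by_cases hl : f.l = .rest
    · have h1 : (fun ρ => y (some ρ) = none) = fun ρ => (J i).Bk ρ f.x1.1 f.z1.1 := by
        funext ρ
        apply propext
        rw [(hy hl).1 ρ]
        obtain ⟨x, hx, rfl⟩ := legal_rest hf hl
        exact (bk_iffS h ρ x hx).symm
      have h2 : (y none = none) = (f.x1.1 = (J i).xs) := by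
        apply propext
        rw [(hy hl).2]
        exact Subtype.ext_iff
      rw [h1, h2]
    · rw [stB_irrel _ (fun ρ => (J i).Bk ρ f.x1.1 f.z1.1) _ (f.x1.1 = (J i).xs) (vl f) hl]

end fam

end Crest.Agent.R289.SemX482
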