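import Crest.Agent.R289.SemEx_89
import Crest.Agent.R289.GapS_719

/-!
# Row 289, C_SEM: `UFam715.Exact` of the semantic machine of SemDef_406 from the gap fields of GapS_719

* `legal_gap` : a configuration of code words that is not legal violates `LegalAt` at `≥ g` of the units;
* `exact_num` : `Exact (semI J k) i (codeW ..) (wd c0) g g` from `GapS719.Num`.
-/

set_option autoImplicit false
set_option linter.unusedSectionVars false

namespace Crest.Agent.R289.SemX89

open Finset DefC DefI Compile827 ULoc406 ULocI880 SemI406 Crest.Agent.R289.DefD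
open Crest.Agent.R289.Word508 LMI827 SemEx89 GapS719

variable {K : Type} [Field K] {c : Cst K} {I : Ins c} {CG : ℕ → Submodule K (I.Om → K)}
  {CT : ℕ → Submodule K (I.n → K)} {tt : ℕ → I.T} {g : ℝ}

/-- **gap of the whole list of relations** -/
theorem legal_gap (N : Num I CG CT g) (h : Hyp I CG CT tt)
    (hx0 : c.A.Legal I.act I.pubC I.stg0 (I.con I.xs))
    (hb0 : ∀ ρ, ¬ (I.stg0 = c.A.tgt ρ ∧ c.A.Bk I.act I.pubC ρ (I.con I.xs)))
    (f : Conf (XS I CG) (ZS I CG CT) c.A.Tr) (ht : f.t ≤ I.L)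
    (hn : ¬ (lmI h hx0 hb0).Legal f) : g ≤ frac fun u => ¬ LegalAt I (SemEx89.raw f) u := by
  have hne := N.ne
  by_contra hlt
  push Not at hlt
  apply hn
  obtain ⟨l, t, x1, z1, x2, z2⟩ := f
  have ht' : t ≤ I.L := ht
  have key : ∀ {q : I.U → Prop} {b : Prop},
      (∀ u, LegalAt I (SemEx89.raw ⟨l, t, x1, z1, x2, z2⟩) u → q u) →
      (¬ b → g ≤ frac fun u => ¬ q u) → b := by
    intro q b hq hb
    by_contra hnb
    have h1 := hb hnb
    have h2 := frac_mono (p := fun u => ¬ q u)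
      (q := fun u => ¬ LegalAt I (SemEx89.raw ⟨l, t, x1, z1, x2, z2⟩) u) (fun u hu hr => hu (hq u hr))
    linarith
  cases l with
  | boot =>
    have e1 : x1 = (lmI h hx0 hb0).xz := key (q := fun u => I.XAt x1.1 I.xz u)
      (fun u hu => hu.1) (dx N x1 (lmI h hx0 hb0).xz)
    have e2 : z1 = (lmI h hx0 hb0).zz := key (q := fun u => I.ZAt z1.1 I.zz u)
      (fun u hu => hu.2.1) (dz N z1 (lmI h hx0 hb0).zz)
    have e3 : x2 = (lmI h hx0 hb0).x0 := key (q := fun u => I.XAt x2.1 I.xs u)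
      (fun u hu => hu.2.2.1) (dx N x2 (lmI h hx0 hb0).x0)
    have e4 : z2 = certS h x2 t := key (q := fun u => I.RecAt t x2.1 z2.1 u)
      (fun u hu => hu.2.2.2) (rcG N h ht' x2 z2)
    exact ⟨ht', e1, e2, e3, (rec_iffS h t x2 z2 ht').2 e4⟩
  | rest =>
    have e0 : t = 0 := key (q := fun _ => t = 0) (fun u hu => hu.1)
      (fun hnb => by rw [frac_true (p := fun _ : I.U => ¬ t = 0) fun _ => hnb]; exact N.le1)
    have e1 : z1 = certS h x1 I.L := key (q := fun u => I.RecAt I.L x1.1 z1.1 u)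
      (fun u hu => hu.2.1) (rcG N h le_rfl x1 z1)
    have e2 : (cd h).IsL x1.1 := key (q := fun u => I.StAt x1.1 (certS h x1 I.L).1 u)
      (fun u hu => by rw [← e1]; exact hu.2.2.1) (stG N h x1)
    have e3 : x2 = (lmI h hx0 hb0).xz := key (q := fun u => I.XAt x2.1 I.xz u)
      (fun u hu => hu.2.2.2.1) (dx N x2 (lmI h hx0 hb0).xz)
    have e4 : z2 = (lmI h hx0 hb0).zz := key (q := fun u => I.ZAt z2.1 I.zz u)
      (fun u hu => hu.2.2.2.2) (dz N z2 (lmI h hx0 hb0).zz)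
    refine ⟨e0, (rec_iffS h I.L x1 z1 le_rfl).2 e1, ?_, e3, e4⟩
    rw [e1]
    exact (st_iffS h x1).2 e2
  | fw ρ =>
    have e1 : z1 = certS h x1 I.L := key (q := fun u => I.RecAt I.L x1.1 z1.1 u)
      (fun u hu => hu.1) (rcG N h le_rfl x1 z1)
    have e2 : (cd h).IsL x1.1 := key (q := fun u => I.StAt x1.1 (certS h x1 I.L).1 u)
      (fun u hu => by rw [← e1]; exact hu.2.1) (stG N h x1)
    have e3 : (cd h).en ρ x1.1 := key (q := fun u => I.EnAt ρ x1.1 (certS h x1 I.L).1 u)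
      (fun u hu => by rw [← e1]; exact hu.2.2.1) (enG N h ρ x1 e2)
    have e4 : x2 = (lmI h hx0 hb0).up ρ x1 := key (q := fun u => I.XAt x2.1 (I.up ρ x1.1) u)
      (fun u hu => hu.2.2.2.1) (dx N x2 ((lmI h hx0 hb0).up ρ x1))
    have e5 : z2 = certS h x2 t := key (q := fun u => I.RecAt t x2.1 z2.1 u)
      (fun u hu => hu.2.2.2.2) (rcG N h ht' x2 z2)
    refine ⟨ht', (rec_iffS h I.L x1 z1 le_rfl).2 e1, ?_, ?_, e4, (rec_iffS h t x2 z2 ht').2 e5⟩
    · rw [e1]; exact (st_iffS h x1).2 e2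
    · rw [e1]; exact (en_iffS h ρ x1 e2).2 e3
  | bw ρ =>
    have e1 : z2 = certS h x2 I.L := key (q := fun u => I.RecAt I.L x2.1 z2.1 u)
      (fun u hu => hu.1) (rcG N h le_rfl x2 z2)
    have e2 : (cd h).IsL x2.1 := key (q := fun u => I.StAt x2.1 (certS h x2 I.L).1 u)
      (fun u hu => by rw [← e1]; exact hu.2.1) (stG N h x2)
    have e3 : (cd h).bk ρ x2.1 := key (q := fun u => I.BkAt ρ x2.1 (certS h x2 I.L).1 u)
      (fun u hu => by rw [← e1]; exact hu.2.2.1) (bkG N h ρ x2 e2)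
    have e4 : x1 = (lmI h hx0 hb0).dn ρ x2 := key (q := fun u => I.XAt x1.1 (I.dn ρ x2.1) u)
      (fun u hu => hu.2.2.2.1) (dx N x1 ((lmI h hx0 hb0).dn ρ x2))
    have e5 : z1 = certS h x1 t := key (q := fun u => I.RecAt t x1.1 z1.1 u)
      (fun u hu => hu.2.2.2.2) (rcG N h ht' x1 z1)
    refine ⟨ht', (rec_iffS h I.L x2 z2 le_rfl).2 e1, ?_, ?_, e4, (rec_iffS h t x1 z1 ht').2 e5⟩
    · rw [e1]; exact (st_iffS h x2).2 e2
    · rw [e1]; exact (bk_iffS h ρ x2 e2).2 e3

variable {Ck : Type} {k : Clk I Ck}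

theorem coh_unit {U : Type} [Fintype U] {y : U → Option Unit} {r : ℝ}
    (hy : (∀ u, y u = none) ∨ r ≤ frac fun u => y u ≠ none) : Coh y r :=
  ⟨fun _ _ _ _ _ _ => Subsingleton.elim _ _, hy⟩

/-- forward flags of a legal word -/
theorem cohN (N : Num I CG CT g) (h : Hyp I CG CT tt)
    (hx0 : c.A.Legal I.act I.pubC I.stg0 (I.con I.xs))
    (hb0 : ∀ ρ, ¬ (I.stg0 = c.A.tgt ρ ∧ c.A.Bk I.act I.pubC ρ (I.con I.xs)))
    (a : (lmI h hx0 hb0).CSt) (ρ : c.A.Tr) :
    Coh (FlN I ρ (wd k ((lmI h hx0 hb0).conf a))) g := by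
  have hne := N.ne
  apply coh_unit
  cases a with
  | boot t ht => exact Or.inl fun u => (flN_iff ρ _ u).2 fun hl => by cases hl
  | fw ρ' x hx he t ht => exact Or.inl fun u => (flN_iff ρ _ u).2 fun hl => by cases hl
  | bw ρ' x hx he t ht => exact Or.inl fun u => (flN_iff ρ _ u).2 fun hl => by cases hl
  | rest x hx =>
    have e : ∀ u, FlN I ρ (wd k ((lmI h hx0 hb0).conf (.rest x hx))) u = none ↔
        I.EnAt ρ x.1 (certS h x I.L).1 u := fun u =>
      (flN_iff ρ _ u).trans ⟨fun hh => hh rfl, fun hh _ => hh⟩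
    by_cases he : (cd h).en ρ x.1
    · left
      intro u
      rw [e]
      exact (Ins.en_iff ρ x.1 _).1 ((en_iffS h ρ x hx).2 he) u
    · right
      refine (enG N h ρ x hx he).trans (frac_mono fun u hu hu' => hu ((e u).1 hu'))

/-- backward flags of a legal word -/
theorem cohM (N : Num I CG CT g) (h : Hyp I CG CT tt)
    (hx0 : c.A.Legal I.act I.pubC I.stg0 (I.con I.xs))
    (hb0 : ∀ ρ, ¬ (I.stg0 = c.A.tgt ρ ∧ c.A.Bk I.act I.pubC ρ (I.con I.xs)))
    (a : (lmI h hx0 hb0).CSt) (j : Option c.A.Tr) :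
    Coh (FlM I j (wd k ((lmI h hx0 hb0).conf a))) g := by
  have hne := N.ne
  apply coh_unit
  have hl : ∀ (hr : ∀ u, ((wd k ((lmI h hx0 hb0).conf a)) u).l ≠ .rest),
      ∀ u, FlM I j (wd k ((lmI h hx0 hb0).conf a)) u = none := by
    intro hr u
    cases j with
    | none => exact (flM_none_iff _ u).2 fun hl => (hr u hl).elim
    | some ρ => exact (flM_some_iff ρ _ u).2 fun hl => (hr u hl).elim
  cases a with
  | boot t ht => exact Or.inl (hl fun u hu => by cases hu)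
  | fw ρ' x hx he t ht => exact Or.inl (hl fun u hu => by cases hu)
  | bw ρ' x hx he t ht => exact Or.inl (hl fun u hu => by cases hu)
  | rest x hx =>
    cases j with
    | some ρ =>
      have e : ∀ u, FlM I (some ρ) (wd k ((lmI h hx0 hb0).conf (.rest x hx))) u = none ↔
          I.BkAt ρ x.1 (certS h x I.L).1 u := fun u =>
        (flM_some_iff ρ _ u).trans ⟨fun hh => hh rfl, fun hh _ => hh⟩
      by_cases he : (cd h).bk ρ x.1
      · left
        intro u
        rw [e]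
        exact (Ins.bk_iff ρ x.1 _).1 ((bk_iffS h ρ x hx).2 he) u
      · right
        exact (bkG N h ρ x hx he).trans (frac_mono fun u hu hu' => hu ((e u).1 hu'))
    | none =>
      have e : ∀ u, FlM I none (wd k ((lmI h hx0 hb0).conf (.rest x hx))) u = none ↔
          I.XAt x.1 I.xs u := fun u =>
        (flM_none_iff _ u).trans ⟨fun hh => (StartB_iff I x.1 (certS h x I.L).1 u).1 (hh rfl),
          fun hh _ => (StartB_iff I x.1 (certS h x I.L).1 u).2 hh⟩
      by_cases he : x = (lmI h hx0 hb0).x0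
      · left
        intro u
        rw [e]
        exact (Ins.x_iff x.1 I.xs).1 (congrArg Subtype.val he) u
      · right
        exact (dx N x (lmI h hx0 hb0).x0 he).trans (frac_mono fun u hu hu' => hu ((e u).1 hu'))

/-- **EXACT FACTS of the semantic machine of one member** -/
theorem exact_num {Inst : Type} {J : Inst → Ins c} {kk : ∀ i, Clk (J i) Ck} (i : Inst)
    {CG : ℕ → Submodule K ((J i).Om → K)} {CT : ℕ → Submodule K ((J i).n → K)} {tt : ℕ → (J i).T}
    (N : Num (J i) CG CT g) (h : Hyp (J i) CG CT tt)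
    (hx0 : c.A.Legal (J i).act (J i).pubC (J i).stg0 ((J i).con (J i).xs))
    (hb0 : ∀ ρ, ¬ ((J i).stg0 = c.A.tgt ρ ∧
      c.A.Bk (J i).act (J i).pubC ρ ((J i).con (J i).xs)))
    (hk : (kk i).OK) :
    UFam715.Exact (semI J kk) i (codeW (J i) CG CT (kk i))
      (wd (kk i) (lmI h hx0 hb0).c0) g g := by
  have hne := N.ne
  have hΓ : Nonempty (J i).Γ := ⟨(Classical.arbitrary (J i).U).1⟩
  have R := realises h hx0 hb0 hk
  have hW : (semI J kk).W i (codeW (J i) CG CT (kk i)) = legW (J i) CG CT (kk i) := by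
    ext w
    exact ⟨fun hw => ⟨hw.1, fun u => hw.2 () u⟩, fun hw => ⟨hw.1, fun _ u => hw.2 u⟩⟩
  refine
    { gap := ?_
      w0_mem := by rw [hW]; exact R.w0_mem
      N_mem := by rw [hW]; exact R.N_mem
      M_mem := by rw [hW]; exact R.M_mem
      MN := by rw [hW]; exact R.MN
      NM := by rw [hW]; exact R.NM
      M_w0 := R.M_w0
      N_w0 := R.N_w0
      cohN := ?_
      cohM := ?_ }
  · rintro w ⟨f, ht, rfl⟩ hn
    refine ⟨(), ?_⟩
    have hn' : ¬ (lmI h hx0 hb0).Legal f := fun hf => hn fun _ u =>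
      (rel_LE hk (SemEx89.raw f) ht u).2 ((legal_iff_at h hx0 hb0 f ht).1 hf u)
    refine (legal_gap N h hx0 hb0 f ht hn').trans (frac_mono fun u hu hu' => hu ?_)
    exact (rel_LE hk (SemEx89.raw f) ht u).1 hu'
  · rw [hW]
    intro w hw ρ
    obtain ⟨a, rfl⟩ := (R.leg w).1 hw
    exact cohN N h hx0 hb0 a ρ
  · rw [hW]
    intro w hw j
    obtain ⟨a, rfl⟩ := (R.leg w).1 hw
    exact cohM N h hx0 hb0 a j

end Crest.Agent.R289.SemX89
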