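import Crest.Agent.R289.Gauss_115
import Crest.Agent.R289.GkIdx_594

/-!
# R289, E17: the level-`n` skew group in polynomial time (helper92)

`K` a finite field, `s : K → K` an involution (only `s` as a function is used in the tables).
Elements of `K{τ}/τ^n` (`τ c = s c τ`) are lists of length `n` (coefficient of `τ^i` at place `i`).

* coefficient formulas on functions `ℕ → K`: `cmul` (product), `cconj` (conjugation
  `a + b τ ↦ s a - b τ`), `cone`; `inv_unique`.
* lists: `smul n a b`, `sconj n a`, `sone n`, `sinv n a`; `getK_smul`, ..., `smul_sinv`; PTF.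
* `els ok n` = the list of all lists of length `n` with `ok`, `pos ok n l` = index; PTF.
* `Rep P n ok` (injective coefficient lists of the elements of `P`), `Rep.equiv : P ≃ Fin _`.
* `ftab` = table of a map `(g, z) ↦ (F z g, φ z)` on `P × Fin m`, unit number `pos g * m + z`; PTF.
-/

set_option autoImplicit false
set_option linter.dupNamespace false
set_option linter.unusedSectionVars false

namespace Crest.Agent.R289.SkPT92

open Crest.Agent.Lib.PT Crest.Agent.Lib.PT.Arith Crest.Agent.R288.PtDp115
open Crest.Agent.R289.Gauss115 Crest.Agent.R289.GkIdx594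

section pure

variable {K : Type} [Field K]

/-- `s` applied `j` times (`s` an involution) -/
def tw (s : K → K) (j : ℕ) (x : K) : K := if j % 2 = 0 then x else s x

theorem tw_zero (s : K → K) (x : K) : tw s 0 x = x := by simp [tw]

theorem tw_eq_iterate {s : K → K} (hs : ∀ x, s (s x) = x) (j : ℕ) (x : K) :
    tw s j x = s^[j] x := by
  induction j generalizing x with
  | zero => simp [tw]
  | succ j ih =>
    rw [Function.iterate_succ_apply, ← ih]
    unfold tw
    rcases Nat.mod_two_eq_zero_or_one j with h | h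
    · have h1 : (j + 1) % 2 = 1 := by omega
      simp [h, h1]
    · have h1 : (j + 1) % 2 = 0 := by omega
      simp [h, h1, hs]

/-- coefficient `i` of the product -/
def cmul (s : K → K) (f g : ℕ → K) (i : ℕ) : K :=
  ∑ j ∈ Finset.range (i + 1), f j * tw s j (g (i - j))

/-- coefficients of the conjugate -/
def cconj (s : K → K) (f : ℕ → K) (i : ℕ) : K := if i % 2 = 0 then s (f i) else - f i

/-- coefficients of `1` -/
def cone (K : Type) [Field K] (i : ℕ) : K := if i = 0 then 1 else 0

theorem cmul_congr {s : K → K} {f f' g g' : ℕ → K} {n : ℕ} (hf : ∀ i < n, f i = f' i)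
    (hg : ∀ i < n, g i = g' i) {i : ℕ} (hi : i < n) : cmul s f g i = cmul s f' g' i := by
  unfold cmul
  refine Finset.sum_congr rfl fun j hj => ?_
  rw [Finset.mem_range] at hj
  rw [hf j (by omega), hg (i - j) (by omega)]

theorem cmul_split (s : K → K) (f g : ℕ → K) (i : ℕ) :
    cmul s f g i = f 0 * g i + ∑ j ∈ Finset.range i, f (j + 1) * tw s (j + 1) (g (i - (j + 1))) := by
  unfold cmul
  rw [Finset.sum_range_succ', add_comm]
  simp [tw_zero]

/-- right inverses are unique -/
theorem inv_unique {s : K → K} {f g g' : ℕ → K} {n : ℕ} (h0 : f 0 ≠ 0)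
    (h : ∀ i < n, cmul s f g i = cone K i) (h' : ∀ i < n, cmul s f g' i = cone K i) :
    ∀ i < n, g i = g' i := by
  intro i
  induction i using Nat.strong_induction_on with
  | _ i ih =>
    intro hi
    have e1 := h i hi
    rw [← h' i hi, cmul_split, cmul_split] at e1
    have e2 : ∑ j ∈ Finset.range i, f (j + 1) * tw s (j + 1) (g (i - (j + 1)))
        = ∑ j ∈ Finset.range i, f (j + 1) * tw s (j + 1) (g' (i - (j + 1))) := by
      refine Finset.sum_congr rfl fun j hj => ?_
      rw [Finset.mem_range] at hj
      rw [ih (i - (j + 1)) (by omega) (by omega)]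
    rw [e2] at e1
    exact mul_left_cancel₀ h0 (add_right_cancel e1)

/-- the first `n` coefficients of the right inverse of `f` -/
noncomputable def invL (s : K → K) (f : ℕ → K) : ℕ → List K
  | 0 => []
  | n + 1 => invL s f n ++ [(f 0)⁻¹ * (cone K n -
      ∑ j ∈ Finset.range n, f (j + 1) * tw s (j + 1) (getK (invL s f n) (n - (j + 1))))]

theorem length_invL (s : K → K) (f : ℕ → K) (n : ℕ) : (invL s f n).length = n := by
  induction n with
  | zero => rfl
  | succ n ih => simp [invL, ih]

theorem getK_append_left {l l' : List K} {i : ℕ} (h : i < l.length) :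
    getK (l ++ l') i = getK l i := by
  unfold getK
  exact List.getD_append _ _ _ _ h

theorem getK_invL_succ (s : K → K) (f : ℕ → K) {n i : ℕ} (h : i < n) :
    getK (invL s f (n + 1)) i = getK (invL s f n) i := by
  rw [invL, getK_append_left (by rw [length_invL]; exact h)]

theorem getK_invL_le (s : K → K) (f : ℕ → K) {n m i : ℕ} (h : i < n) (hm : n ≤ m) :
    getK (invL s f m) i = getK (invL s f n) i := by
  induction m, hm using Nat.le_induction with
  | base => rfl
  | succ m hm ih => rw [getK_invL_succ s f (by omega), ih]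

theorem cmul_invL {s : K → K} {f : ℕ → K} (h0 : f 0 ≠ 0) {n i : ℕ} (h : i < n) :
    cmul s f (getK (invL s f n)) i = cone K i := by
  have e : getK (invL s f n) i = (f 0)⁻¹ * (cone K i -
      ∑ j ∈ Finset.range i, f (j + 1) * tw s (j + 1) (getK (invL s f n) (i - (j + 1)))) := by
    rw [getK_invL_le s f (n := i + 1) (by omega) (by omega : i + 1 ≤ n)]
    have h1 : getK (invL s f (i + 1)) i = (f 0)⁻¹ * (cone K i -
        ∑ j ∈ Finset.range i, f (j + 1) * tw s (j + 1) (getK (invL s f i) (i - (j + 1)))) := by
      conv_lhs => rw [invL]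
      unfold getK
      rw [List.getD_append_right _ _ _ _ (by rw [length_invL]), length_invL, Nat.sub_self]
      rfl
    rw [h1]
    congr 2
    refine Finset.sum_congr rfl fun j hj => ?_
    rw [Finset.mem_range] at hj
    rw [getK_invL_le s f (n := i) (by omega) (by omega : i ≤ n)]
  rw [cmul_split, e, mul_inv_cancel_left₀ h0]
  ring

/-! ### lists -/

/-- product of lists modulo `τ^n` -/
def smul (s : K → K) (n : ℕ) (a b : List K) : List K := tabK n (cmul s (getK a) (getK b))

/-- conjugate modulo `τ^n` -/
def sconj (s : K → K) (n : ℕ) (a : List K) : List K := tabK n (cconj s (getK a))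

/-- one modulo `τ^n` -/
def sone (K : Type) [Field K] (n : ℕ) : List K := tabK n (cone K)

/-- inverse modulo `τ^n` -/
noncomputable def sinv (s : K → K) (n : ℕ) (a : List K) : List K := invL s (getK a) n

@[simp] theorem length_smul (s : K → K) (n : ℕ) (a b : List K) : (smul s n a b).length = n := by
  simp [smul, tabK]

@[simp] theorem length_sconj (s : K → K) (n : ℕ) (a : List K) : (sconj s n a).length = n := by
  simp [sconj, tabK]

@[simp] theorem length_sone (n : ℕ) : (sone K n).length = n := by simp [sone, tabK]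

@[simp] theorem length_sinv (s : K → K) (n : ℕ) (a : List K) : (sinv s n a).length = n :=
  length_invL _ _ _

theorem getK_smul (s : K → K) {n : ℕ} (a b : List K) {i : ℕ} (h : i < n) :
    getK (smul s n a b) i = cmul s (getK a) (getK b) i := getK_tabK _ h

theorem getK_sconj (s : K → K) {n : ℕ} (a : List K) {i : ℕ} (h : i < n) :
    getK (sconj s n a) i = cconj s (getK a) i := getK_tabK _ h

theorem getK_sone {n : ℕ} {i : ℕ} (h : i < n) : getK (sone K n) i = cone K i := getK_tabK _ h

/-- lists of the same length with the same entries -/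
theorem ext_getK {n : ℕ} {a b : List K} (ha : a.length = n) (hb : b.length = n)
    (h : ∀ i < n, getK a i = getK b i) : a = b := by
  apply List.ext_getElem (by rw [ha, hb])
  intro i h1 h2
  have := h i (by omega)
  unfold getK at this
  rwa [List.getD_eq_getElem _ _ h1, List.getD_eq_getElem _ _ h2] at this

theorem tabK_getK {n : ℕ} {a : List K} (ha : a.length = n) : tabK n (getK a) = a :=
  ext_getK (by simp [tabK]) ha fun _ h => getK_tabK _ h

theorem smul_sinv {s : K → K} {n : ℕ} {a : List K} (h0 : getK a 0 ≠ 0) :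
    smul s n a (sinv s n a) = sone K n :=
  ext_getK (n := n) (by simp) (by simp) fun i h => by
    rw [getK_smul s _ _ h, getK_sone h]
    exact cmul_invL h0 h

/-- a list with the product `1` is `sinv` -/
theorem eq_sinv {s : K → K} {n : ℕ} {a b : List K} (h0 : getK a 0 ≠ 0) (hb : b.length = n)
    (h : smul s n a b = sone K n) : b = sinv s n a := by
  refine ext_getK hb (by simp) ?_
  refine inv_unique (s := s) h0 (fun i hi => ?_) (fun i hi => cmul_invL h0 hi)
  rw [← getK_smul s a b hi, h, getK_sone hi]

end pure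

/-! ### polynomial time -/

section pt

variable {K : Type} [Field K] [Finite K] [PTCode K]
variable {α : Type} [PTCode α] (s : K → K)

theorem ptf_tw {j : α → ℕ} {x : α → K} (hj : PTF j) (hx : PTF x) :
    PTF (fun a => tw s (j a) (x a)) := by
  unfold tw
  refine PTF.ite (PTPred.natEq (PTF.natMod hj (PTF.const 2)) (PTF.const 0)) hx ?_
  exact PTF.comp (g := fun y : K => s y) (PTF.of_finite _) hx

theorem ptf_cmul {f g : α → ℕ → K} {i : α → ℕ} (hf : PTF (fun p : α × ℕ => f p.1 p.2))
    (hg : PTF (fun p : α × ℕ => g p.1 p.2)) (hi : PTU i) :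
    PTF (fun a => cmul s (f a) (g a) (i a)) := by
  unfold cmul
  refine ptf_sumK (f := fun a j => f a j * tw s j (g a (i a - j))) (PTU.succ hi)
    (ptf_kmul hf (ptf_tw s PTF.snd ?_))
  have hi' : PTF (fun p : α × ℕ => i p.1) := PTF.comp (g := i) hi.toPTF PTF.fst
  exact PTF.comp (g := fun p : α × ℕ => g p.1 p.2) (f := fun p : α × ℕ => (p.1, i p.1 - p.2)) hg
    (PTF.prodMk PTF.fst (PTF.natSub hi' PTF.snd))

theorem ptf_getK' {l : α → List K} (hl : PTF l) : PTF (fun p : α × ℕ => getK (l p.1) p.2) :=
  ptf_getK (PTF.comp (g := l) hl PTF.fst) PTF.snd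

/-- tables with an index bounded by `n` -/
theorem ptf_tabK' {n : α → ℕ} {f : α → ℕ → K} (hn : PTU n)
    (hf : PTF (fun p : α × ℕ => f p.1 (min p.2 (n p.1)))) : PTF (fun a => tabK (n a) (f a)) := by
  refine PTF.of_eq (ptf_tabK (f := fun a i => f a (min i (n a))) hn hf) (fun a => ?_)
  unfold tabK
  apply List.map_congr_left
  intro j hj
  rw [List.mem_range] at hj
  rw [min_eq_left hj.le]

theorem ptu_minr {n : α → ℕ} (hn : PTU n) : PTU (fun p : α × ℕ => min p.2 (n p.1)) :=
  ptu_min PTF.snd (PTU.comp (n := n) hn PTF.fst)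

theorem ptf_smul {n : α → ℕ} {a b : α → List K} (hn : PTU n) (ha : PTF a) (hb : PTF b) :
    PTF (fun c => smul s (n c) (a c) (b c)) := by
  unfold smul
  refine ptf_tabK' hn ?_
  refine ptf_cmul s (f := fun p : α × ℕ => getK (a p.1)) (g := fun p : α × ℕ => getK (b p.1))
    (i := fun p : α × ℕ => min p.2 (n p.1)) ?_ ?_ (ptu_minr hn)
  · exact ptf_getK' (PTF.comp (g := a) ha PTF.fst)
  · exact ptf_getK' (PTF.comp (g := b) hb PTF.fst)

theorem ptf_sconj {n : α → ℕ} {a : α → List K} (hn : PTU n) (ha : PTF a) :
    PTF (fun c => sconj s (n c) (a c)) := by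
  unfold sconj
  refine ptf_tabK hn ?_
  unfold cconj
  have h := ptf_getK' ha
  refine PTF.ite (PTPred.natEq (PTF.natMod PTF.snd (PTF.const 2)) (PTF.const 0)) ?_ (ptf_kneg h)
  exact PTF.comp (g := fun y : K => s y) (PTF.of_finite _) h

theorem ptf_sone {n : α → ℕ} (hn : PTU n) : PTF (fun c => sone K (n c)) := by
  unfold sone
  refine ptf_tabK hn ?_
  unfold cone
  exact PTF.ite (PTPred.natEq PTF.snd (PTF.const 0)) (PTF.const 1) (PTF.const 0)

/-- one step of the recursion of `invL` -/
noncomputable def invStep (f : ℕ → K) (n : ℕ) (t : List K) : List K :=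
  t ++ [(f 0)⁻¹ * (cone K n -
      ∑ j ∈ Finset.range n, f (j + 1) * tw s (j + 1) (getK t (n - (j + 1))))]

theorem ptf_sinv {n : α → ℕ} {a : α → List K} (hn : PTU n) (ha : PTF a) :
    PTF (fun c => sinv s (n c) (a c)) := by
  obtain ⟨C, hC⟩ := exists_sz_le K
  unfold sinv
  refine ptf_natRec (r := fun c i => invL s (getK (a c)) i)
    (s := fun c i t => invStep s (getK (a c)) (min i (n c)) t) (b := fun _ => []) hn
    (PTF.const _) ?_ (fun c => rfl) (fun c i hi => ?_)
    (B := fun c => n c * (2 * C + 1)) ?_ (fun c i hi => ?_)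
  · unfold invStep
    have hm : PTU (fun p : α × ℕ × List K => min p.2.1 (n p.1)) :=
      ptu_min (PTF.comp (g := fun q : ℕ × List K => q.1) PTF.fst PTF.snd)
        (PTU.comp (n := n) hn PTF.fst)
    have ha' : PTF (fun p : α × ℕ × List K => a p.1) := PTF.comp (g := a) ha PTF.fst
    refine PTF.append (by fun_prop) (PTF.listCons ?_ (PTF.const []))
    refine ptf_kmul (ptf_kinv (ptf_getK ha' (PTF.const 0))) (ptf_ksub ?_ ?_)
    · unfold cone
      exact PTF.ite (PTPred.natEq hm.toPTF (PTF.const 0)) (PTF.const 1) (PTF.const 0)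
    · refine ptf_sumK (f := fun p j => getK (a p.1) (j + 1) *
        tw s (j + 1) (getK p.2.2 (min p.2.1 (n p.1) - (j + 1)))) hm ?_
      refine ptf_kmul (ptf_getK ?_ (PTF.natAdd PTF.snd (PTF.const 1)))
        (ptf_tw s (PTF.natAdd PTF.snd (PTF.const 1)) (ptf_getK ?_ ?_))
      · exact PTF.comp (g := fun p : α × ℕ × List K => a p.1) ha' PTF.fst
      · fun_prop
      · refine PTF.natSub ?_ (PTF.natAdd PTF.snd (PTF.const 1))
        exact PTF.comp (g := fun p : α × ℕ × List K => min p.2.1 (n p.1)) hm.toPTF PTF.fst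
  · show invL s (getK (a c)) (i + 1) = _
    rw [invL, min_eq_left hi.le]
    rfl
  · have h1 := hn.pb
    fun_prop
  · refine (sz_list_le (m := C) (fun x _ => hC x)).trans ?_
    rw [length_invL]
    exact Nat.mul_le_mul_right _ hi

end pt

/-! ### the list of the elements -/

section els

variable {K : Type} [Field K] [Finite K]

noncomputable local instance instInhK : Inhabited K := ⟨0⟩

/-- all lists of length `n` with `ok` -/
noncomputable def els (ok : List K → Bool) (n : ℕ) : List (List K) :=
  (sel (qK K ^ n) (fun i => ok (digs K n i))).map (digs K n)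

/-- the index of a list in `els` -/
noncomputable def pos (ok : List K → Bool) (n : ℕ) (l : List K) : ℕ :=
  rnk (fun i => ok (digs K n i)) (min (idx l) (qK K ^ n))

variable {ok : List K → Bool} {n : ℕ}

theorem length_els : (els ok n).length = (sel (qK K ^ n) (fun i => ok (digs K n i))).length := by
  simp [els]

theorem mem_els {l : List K} : l ∈ els ok n ↔ l.length = n ∧ ok l = true := by
  unfold els
  rw [List.mem_map]
  constructor
  · rintro ⟨i, hi, rfl⟩
    exact ⟨length_digs _ _, (mem_sel.1 hi).2⟩
  · rintro ⟨h1, h2⟩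
    obtain ⟨i, hi, rfl⟩ := exists_digs h1
    exact ⟨i, mem_sel.2 ⟨hi, h2⟩, rfl⟩

theorem nodup_els : (els ok n).Nodup := by
  unfold els
  refine List.Nodup.map_on ?_ (nodup_sel _ _)
  intro i hi j hj h
  have h1 := (mem_sel.1 hi).1
  have h2 := (mem_sel.1 hj).1
  rw [← idx_digs h1, ← idx_digs h2, h]

theorem min_idx {l : List K} (h : l.length = n) : min (idx l) (qK K ^ n) = idx l := by
  have := idx_lt l
  rw [h] at this
  exact min_eq_left this.le

theorem pos_lt {l : List K} (h : l.length = n) (hok : ok l = true) :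
    pos ok n l < (els ok n).length := by
  unfold pos
  rw [length_els, min_idx h]
  have h1 := idx_lt l
  rw [h] at h1
  have h2 : digs K n (idx l) = l := by rw [← h]; exact digs_idx l
  exact rnk_lt h1 (by rw [h2]; exact hok)

theorem els_getD {r : ℕ} (h0 : r < (sel (qK K ^ n) (fun i => ok (digs K n i))).length)
    (d : List K) :
    (els ok n).getD r d = digs K n ((sel (qK K ^ n) (fun i => ok (digs K n i))).getD r 0) := by
  unfold els
  rw [List.getD_eq_getElem?_getD, List.getD_eq_getElem?_getD, List.getElem?_map,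
    List.getElem?_eq_getElem h0]
  rfl

theorem els_pos {l : List K} (h : l.length = n) (hok : ok l = true) (d : List K) :
    (els ok n).getD (pos ok n l) d = l := by
  have h0 := pos_lt (ok := ok) h hok
  have h1 := idx_lt l
  rw [h] at h1
  have h2 : digs K n (idx l) = l := by rw [← h]; exact digs_idx l
  rw [length_els] at h0
  rw [els_getD h0]
  have h3 := sel_getD_rnk (p := fun i => ok (digs K n i)) 0 h1 (by rw [h2]; exact hok)
  unfold pos
  rw [min_idx h, h3, h2]

theorem pos_els {r : ℕ} (hr : r < (els ok n).length) (d : List K) :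
    pos ok n ((els ok n).getD r d) = r := by
  have h0 := hr
  rw [length_els] at h0
  rw [els_getD h0]
  have h2 : (sel (qK K ^ n) (fun i => ok (digs K n i))).getD r 0 < qK K ^ n := by
    have : (sel (qK K ^ n) (fun i => ok (digs K n i))).getD r 0 ∈
        sel (qK K ^ n) (fun i => ok (digs K n i)) := by
      rw [List.getD_eq_getElem _ _ h0]
      exact List.getElem_mem h0
    exact (mem_sel.1 this).1
  unfold pos
  rw [min_idx (length_digs _ _), idx_digs h2]
  exact rnk_sel_getD 0 h0

theorem pos_inj {l l' : List K} (h : l.length = n) (hok : ok l = true) (h' : l'.length = n)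
    (hok' : ok l' = true) (e : pos ok n l = pos ok n l') : l = l' := by
  rw [← els_pos (ok := ok) h hok [], e, els_pos (ok := ok) h' hok']

variable [PTCode K] {α : Type} [PTCode α]

theorem ptf_els {ok : α → List K → Bool} {n : α → ℕ} (hn : PTU n)
    (hN : PTU (fun a => qK K ^ n a)) (hok : PTF (fun p : α × List K => ok p.1 p.2)) :
    PTF (fun a => els (ok a) (n a)) := by
  unfold els
  have hn' : PTU (fun p : α × ℕ => n p.1) := PTU.comp (n := n) hn PTF.fst
  have hd : PTF (fun p : α × ℕ => digs K (n p.1) p.2) := ptf_digs hn' PTF.snd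
  refine PTF.map (l := fun a => sel (qK K ^ n a) (fun i => ok a (digs K (n a) i)))
    (f := fun a i => digs K (n a) i) ?_ hd
  refine ptf_sel (p := fun a i => ok a (digs K (n a) i)) hN ?_
  exact PTF.comp (g := fun p : α × List K => ok p.1 p.2)
    (f := fun p : α × ℕ => (p.1, digs K (n p.1) p.2)) hok (PTF.prodMk PTF.fst hd)

theorem ptf_pos {ok : α → List K → Bool} {n : α → ℕ} {l : α → List K} (hn : PTU n)
    (hN : PTU (fun a => qK K ^ n a)) (hok : PTF (fun p : α × List K => ok p.1 p.2))
    (hl : PTF l) : PTF (fun a => pos (ok a) (n a) (l a)) := by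
  unfold pos
  have hn' : PTU (fun p : α × ℕ => n p.1) := PTU.comp (n := n) hn PTF.fst
  have hd : PTF (fun p : α × ℕ => digs K (n p.1) p.2) := ptf_digs hn' PTF.snd
  have hmin : PTF (fun a => min (idx (l a)) (qK K ^ n a)) :=
    ptf_ofUnary (ptu_min (ptf_idx hl) hN)
  refine ptf_rnk (N := fun a => qK K ^ n a) (p := fun a i => ok a (digs K (n a) i))
    (i := fun a => min (idx (l a)) (qK K ^ n a)) hN hmin ?_ (fun a => min_le_right _ _)
  exact PTF.comp (g := fun p : α × List K => ok p.1 p.2)
    (f := fun p : α × ℕ => (p.1, digs K (n p.1) p.2)) hok (PTF.prodMk PTF.fst hd)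

end els

end Crest.Agent.R289.SkPT92
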