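import Crest.Agent.R289.SkPT_92
import Crest.Agent.R289.SkewGrp_877

/-!
# R289, E17: the group `U hσ k i` of `SkewGrp_877` in polynomial time (helper92)

* `toL : R σ k → List K` (digits, length `k + 1`), `ofL`; `toL_mul`, `toL_conj`, `toL_one`,
  `toL_injective`.
* `okU σ n i : List K → Bool` = digits of an element of `U hσ (n-1) i`; PTF.
* `nU σ k i = Nat.card (U hσ k i)`, `numU hσ k i : U hσ k i ≃ Fin (nU σ k i)`.
* index functions `elL` (digits of element number `j`), `ixL` (number of a digit list),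
  `mulI`, `invI`, `rmI` (right multiplication by a digit list), `lmI` (left), with specs and PTF.
-/

set_option autoImplicit false
set_option linter.dupNamespace false
set_option linter.unusedSectionVars false

namespace Crest.Agent.R289.SkPTb92

open Crest.Agent.Lib.PT Crest.Agent.Lib.PT.Arith Crest.Agent.R288.PtDp115
open Crest.Agent.R289.Gauss115 Crest.Agent.R289.GkIdx594 Crest.Agent.R289.SkPT92
open Crest.Agent.R289.SkewGrp877

section lists

variable {K : Type} [Field K] {σ : K →+* K} {k : ℕ}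

/-- the digits of an element -/
def toL (f : R σ k) : List K := tabK (k + 1) (c f)

/-- the element with given digits -/
def ofL (σ : K →+* K) (k : ℕ) (l : List K) : R σ k := mk (getK l)

@[simp] theorem length_toL (f : R σ k) : (toL f).length = k + 1 := by simp [toL, tabK]

theorem getK_toL (f : R σ k) (i : ℕ) : getK (toL f) i = c f i := by
  by_cases h : i < k + 1
  · exact getK_tabK _ h
  · rw [c_gt f (by omega)]
    unfold getK
    rw [List.getD_eq_default _ _ (by rw [length_toL]; omega)]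

theorem toL_injective : Function.Injective (toL : R σ k → List K) := by
  intro f g h
  refine ext' fun n hn => ?_
  rw [← getK_toL, ← getK_toL, h]

theorem toL_ofL {l : List K} (h : l.length = k + 1) : toL (ofL σ k l) = l := by
  refine ext_getK (n := k + 1) (by simp) h fun i hi => ?_
  rw [getK_toL]
  exact c_mk _ (by omega)

theorem ofL_toL (f : R σ k) : ofL σ k (toL f) = f := toL_injective (toL_ofL (length_toL f))

theorem toL_one : toL (1 : R σ k) = sone K (k + 1) := by
  refine ext_getK (n := k + 1) (by simp) (by simp) fun i hi => ?_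
  rw [getK_toL, getK_sone hi, c_one (by omega)]
  rfl

theorem tw_pow (hσ : ∀ x, σ (σ x) = x) (j : ℕ) (x : K) : tw σ j x = (σ ^ j) x := by
  rw [tw_eq_iterate (s := σ) hσ, RingHom.coe_pow]

theorem toL_mul (hσ : ∀ x, σ (σ x) = x) (f g : R σ k) :
    toL (f * g) = smul σ (k + 1) (toL f) (toL g) := by
  refine ext_getK (n := k + 1) (by simp) (by simp) fun i hi => ?_
  rw [getK_toL, getK_smul _ _ _ hi, c_mul _ _ (by omega),
    Finset.Nat.sum_antidiagonal_eq_sum_range_succ_mk]
  unfold cmul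
  refine Finset.sum_congr rfl fun j _ => ?_
  rw [getK_toL, getK_toL, tw_pow hσ]

theorem toL_conj (hσ : ∀ x, σ (σ x) = x) (f : R σ k) :
    toL (conj f) = sconj σ (k + 1) (toL f) := by
  refine ext_getK (n := k + 1) (by simp) (by simp) fun i hi => ?_
  rw [getK_toL, getK_sconj _ _ hi, c_conj _ (by omega)]
  unfold cconj
  rw [getK_toL, ← tw_pow hσ]
  unfold tw
  rcases Nat.mod_two_eq_zero_or_one i with h | h
  · have h1 : (i + 1) % 2 = 1 := by omega
    rw [if_neg (by omega), if_pos h, Even.neg_one_pow (Nat.even_iff.2 h), one_mul]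
  · have h1 : (i + 1) % 2 = 0 := by omega
    rw [if_pos h1, if_neg (by omega), Odd.neg_one_pow (Nat.odd_iff.2 h), neg_one_mul]

/-! ### the test -/

/-- digits of an element of `U hσ (n-1) i` -/
noncomputable def okU (s : K → K) (n i : ℕ) (l : List K) : Bool := by
  classical
  exact decide (tabK i (getK l) = tabK i (cone K) ∧ smul s n l (sconj s n l) = sone K n)

theorem okU_eq {s : K → K} {n i : ℕ} {l : List K} : okU s n i l = true ↔
    tabK i (getK l) = tabK i (cone K) ∧ smul s n l (sconj s n l) = sone K n := by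
  classical
  unfold okU
  rw [decide_eq_true_iff]

theorem tabK_eq_iff {i : ℕ} {f g : ℕ → K} : tabK i f = tabK i g ↔ ∀ n < i, f n = g n := by
  constructor
  · intro h n hn
    rw [← getK_tabK f hn, ← getK_tabK g hn, h]
  · intro h
    unfold tabK
    apply List.map_congr_left
    intro j hj
    exact h j (List.mem_range.1 hj)

theorem okU_toL (hσ : ∀ x, σ (σ x) = x) {i : ℕ} (f : R σ k) :
    okU σ (k + 1) i (toL f) = true ↔ J i (f - 1) ∧ f * conj f = 1 := by
  rw [okU_eq, ← toL_conj hσ, ← toL_mul hσ, ← toL_one (σ := σ), toL_injective.eq_iff, tabK_eq_iff]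
  refine and_congr_left fun _ => forall₂_congr fun n _ => ?_
  rw [getK_toL, c_sub, sub_eq_zero]
  by_cases hn : n ≤ k
  · rw [c_one hn]; rfl
  · rw [c_gt _ (by omega), c_gt _ (by omega)]
    unfold cone
    rw [if_neg (by omega)]

end lists

section num

variable {K : Type} [Field K] [Finite K] {σ : K →+* K} (hσ : ∀ x, σ (σ x) = x) (k i : ℕ)

/-- the element of the group with given digits -/
theorem exists_unit {l : List K} (hl : l.length = k + 1) (h : okU σ (k + 1) i l = true) :
    ∃ u : U hσ k i, toL ((u : (R σ k)ˣ) : R σ k) = l := by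
  have h0 : toL (ofL σ k l) = l := toL_ofL hl
  rw [← h0, okU_toL hσ] at h
  have h2 : conj (ofL σ k l) * ofL σ k l = 1 := mul_eq_one_comm.1 h.2
  exact ⟨⟨⟨ofL σ k l, conj (ofL σ k l), h.2, h2⟩, h.2, h.1⟩, h0⟩

theorem okU_unit (u : U hσ k i) : okU σ (k + 1) i (toL ((u : (R σ k)ˣ) : R σ k)) = true :=
  (okU_toL hσ _).2 ⟨u.2.2, u.2.1⟩

/-- the number of elements -/
noncomputable def nU (σ : K →+* K) (k i : ℕ) : ℕ := (els (okU σ (k + 1) i) (k + 1)).length

/-- the digits of element number `j` -/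
noncomputable def elL (σ : K →+* K) (k i j : ℕ) : List K :=
  (els (okU σ (k + 1) i) (k + 1)).getD j []

/-- the number of a digit list -/
noncomputable def ixL (σ : K →+* K) (k i : ℕ) (l : List K) : ℕ :=
  pos (okU σ (k + 1) i) (k + 1) l

/-- numbering of the group -/
noncomputable def numU : U hσ k i ≃ Fin (nU σ k i) :=
  Equiv.ofBijective (fun u => ⟨ixL σ k i (toL ((u : (R σ k)ˣ) : R σ k)),
    pos_lt (length_toL _) (okU_unit hσ k i u)⟩) (by
    constructor
    · intro u v h
      have h1 := congrArg Fin.val h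
      simp only at h1
      have h2 := pos_inj (length_toL _) (okU_unit hσ k i u) (length_toL _) (okU_unit hσ k i v) h1
      exact Subtype.ext (Units.ext (toL_injective h2))
    · intro j
      have hj := j.2
      have hm : (els (okU σ (k + 1) i) (k + 1)).getD j [] ∈ els (okU σ (k + 1) i) (k + 1) := by
        unfold nU at hj
        rw [List.getD_eq_getElem _ _ hj]
        exact List.getElem_mem hj
      rw [mem_els] at hm
      obtain ⟨u, hu⟩ := exists_unit hσ k i hm.1 hm.2
      refine ⟨u, Fin.ext ?_⟩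
      simp only
      unfold ixL
      rw [hu]
      exact pos_els hj [])

variable {k i}

theorem numU_val (u : U hσ k i) :
    ((numU hσ k i u : Fin _) : ℕ) = ixL σ k i (toL ((u : (R σ k)ˣ) : R σ k)) := rfl

theorem card_U : Nat.card (U hσ k i) = nU σ k i := by
  rw [Nat.card_congr (numU hσ k i), Nat.card_eq_fintype_card, Fintype.card_fin]

theorem elL_numU (u : U hσ k i) :
    elL σ k i (numU hσ k i u : Fin _) = toL ((u : (R σ k)ˣ) : R σ k) :=
  els_pos (length_toL _) (okU_unit hσ k i u) []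

theorem elL_symm {j : ℕ} (hj : j < nU σ k i) :
    toL ((((numU hσ k i).symm ⟨j, hj⟩ : U hσ k i) : (R σ k)ˣ) : R σ k) = elL σ k i j := by
  rw [← elL_numU, Equiv.apply_symm_apply]

theorem ixL_elL {j : ℕ} (hj : j < nU σ k i) : ixL σ k i (elL σ k i j) = j := pos_els hj []

theorem length_elL {j : ℕ} (hj : j < nU σ k i) : (elL σ k i j).length = k + 1 := by
  have hm : elL σ k i j ∈ els (okU σ (k + 1) i) (k + 1) := by
    unfold elL
    rw [List.getD_eq_getElem _ _ hj]
    exact List.getElem_mem hj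
  exact (mem_els.1 hm).1

/-! ### the index functions -/

/-- product of two numbers -/
noncomputable def mulI (σ : K →+* K) (k i a b : ℕ) : ℕ :=
  ixL σ k i (smul σ (k + 1) (elL σ k i a) (elL σ k i b))

/-- inverse -/
noncomputable def invI (σ : K →+* K) (k i a : ℕ) : ℕ :=
  ixL σ k i (sconj σ (k + 1) (elL σ k i a))

/-- right multiplication by a digit list -/
noncomputable def rmI (σ : K →+* K) (k i : ℕ) (l : List K) (a : ℕ) : ℕ :=
  ixL σ k i (smul σ (k + 1) (elL σ k i a) l)

/-- left multiplication by a digit list -/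
noncomputable def lmI (σ : K →+* K) (k i : ℕ) (l : List K) (a : ℕ) : ℕ :=
  ixL σ k i (smul σ (k + 1) l (elL σ k i a))

theorem mulI_num (u v : U hσ k i) :
    mulI σ k i (numU hσ k i u : Fin _) (numU hσ k i v : Fin _) = (numU hσ k i (u * v) : Fin _) := by
  unfold mulI
  rw [elL_numU, elL_numU, ← toL_mul hσ, numU_val]
  rfl

theorem inv_eq_conj (u : U hσ k i) :
    (((u⁻¹ : U hσ k i) : (R σ k)ˣ) : R σ k) = conj ((u : (R σ k)ˣ) : R σ k) := by
  have ha : ((u : (R σ k)ˣ) : R σ k) * conj ((u : (R σ k)ˣ) : R σ k) = 1 := u.2.1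
  have h1 : (((u⁻¹ : U hσ k i) : (R σ k)ˣ) : R σ k) = (((u : (R σ k)ˣ)⁻¹ : (R σ k)ˣ) : R σ k) := rfl
  rw [h1, ← mul_one ((((u : (R σ k)ˣ)⁻¹ : (R σ k)ˣ)) : R σ k), ← ha, ← mul_assoc,
    Units.inv_mul, one_mul]

theorem invI_num (u : U hσ k i) :
    invI σ k i (numU hσ k i u : Fin _) = (numU hσ k i u⁻¹ : Fin _) := by
  unfold invI
  rw [elL_numU, ← toL_conj hσ, numU_val, inv_eq_conj]

theorem rmI_num (u v : U hσ k i) :
    rmI σ k i (toL ((v : (R σ k)ˣ) : R σ k)) (numU hσ k i u : Fin _) =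
      (numU hσ k i (u * v) : Fin _) := by
  unfold rmI
  rw [elL_numU, ← toL_mul hσ, numU_val]
  rfl

theorem lmI_num (u v : U hσ k i) :
    lmI σ k i (toL ((v : (R σ k)ˣ) : R σ k)) (numU hσ k i u : Fin _) =
      (numU hσ k i (v * u) : Fin _) := by
  unfold lmI
  rw [elL_numU, ← toL_mul hσ, numU_val]
  rfl

theorem num_one : ((numU hσ k i 1 : Fin _) : ℕ) = ixL σ k i (sone K (k + 1)) := by
  rw [numU_val, ← toL_one (σ := σ)]
  rfl

theorem mulI_lt {a b : ℕ} (ha : a < nU σ k i) (hb : b < nU σ k i)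
    (hσ : ∀ x, σ (σ x) = x) : mulI σ k i a b < nU σ k i := by
  have h := mulI_num hσ ((numU hσ k i).symm ⟨a, ha⟩) ((numU hσ k i).symm ⟨b, hb⟩)
  rw [Equiv.apply_symm_apply, Equiv.apply_symm_apply] at h
  rw [h]
  exact Fin.is_lt _

theorem invI_lt {a : ℕ} (ha : a < nU σ k i) (hσ : ∀ x, σ (σ x) = x) :
    invI σ k i a < nU σ k i := by
  have h := invI_num hσ ((numU hσ k i).symm ⟨a, ha⟩)
  rw [Equiv.apply_symm_apply] at h
  rw [h]
  exact Fin.is_lt _

theorem nU_pos (hσ : ∀ x, σ (σ x) = x) : 0 < nU σ k i :=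
  lt_of_le_of_lt (Nat.zero_le _) (numU hσ k i 1).2

end num

/-! ### polynomial time -/

section pt

variable {K : Type} [Field K] [Finite K] [PTCode K] {σ : K →+* K}
variable {α : Type} [PTCode α]

theorem ptf_okU {n i : α → ℕ} {l : α → List K} (hn : PTU n) (hi : PTU i) (hl : PTF l) :
    PTF (fun a => okU σ (n a) (i a) (l a)) := by
  classical
  have h : PTPred (fun a => tabK (i a) (getK (l a)) = tabK (i a) (cone K) ∧
      smul σ (n a) (l a) (sconj σ (n a) (l a)) = sone K (n a)) := by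
    refine PTPred.and (PTPred.eq (ptf_tabK hi (ptf_getK' hl)) (ptf_tabK hi ?_))
      (PTPred.eq (ptf_smul σ hn hl (ptf_sconj σ hn hl)) (ptf_sone hn))
    unfold cone
    exact PTF.ite (PTPred.natEq PTF.snd (PTF.const 0)) (PTF.const 1) (PTF.const 0)
  refine PTF.of_eq h.toPTF (fun a => ?_)
  rw [Bool.eq_iff_iff, decide_eq_true_iff, okU_eq]

variable {k i : α → ℕ}

theorem ptf_okU' (hk : PTU k) (hi : PTU i) :
    PTF (fun p : α × List K => okU σ (k p.1 + 1) (i p.1) p.2) :=
  ptf_okU (PTU.comp (n := fun a => k a + 1) (PTU.succ hk) PTF.fst)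
    (PTU.comp (n := i) hi PTF.fst) PTF.snd

theorem ptf_elsU (hk : PTU k) (hi : PTU i) (hN : PTU (fun a => qK K ^ (k a + 1))) :
    PTF (fun a => els (okU σ (k a + 1) (i a)) (k a + 1)) :=
  ptf_els (PTU.succ hk) hN (ptf_okU' hk hi)

theorem ptu_nU (hk : PTU k) (hi : PTU i) (hN : PTU (fun a => qK K ^ (k a + 1))) :
    PTU (fun a => nU σ (k a) (i a)) := PTU.length (ptf_elsU hk hi hN)

theorem ptf_elL {j : α → ℕ} (hk : PTU k) (hi : PTU i) (hN : PTU (fun a => qK K ^ (k a + 1)))
    (hj : PTF j) : PTF (fun a => elL σ (k a) (i a) (j a)) :=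
  ptf_getB (ptf_elsU hk hi hN) hj (PTF.const _)

theorem ptf_ixL {l : α → List K} (hk : PTU k) (hi : PTU i)
    (hN : PTU (fun a => qK K ^ (k a + 1))) (hl : PTF l) :
    PTF (fun a => ixL σ (k a) (i a) (l a)) :=
  ptf_pos (PTU.succ hk) hN (ptf_okU' hk hi) hl

theorem ptf_mulI {a b : α → ℕ} (hk : PTU k) (hi : PTU i) (hN : PTU (fun a => qK K ^ (k a + 1)))
    (ha : PTF a) (hb : PTF b) : PTF (fun x => mulI σ (k x) (i x) (a x) (b x)) :=
  ptf_ixL hk hi hN (ptf_smul σ (PTU.succ hk) (ptf_elL hk hi hN ha) (ptf_elL hk hi hN hb))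

theorem ptf_invI {a : α → ℕ} (hk : PTU k) (hi : PTU i) (hN : PTU (fun a => qK K ^ (k a + 1)))
    (ha : PTF a) : PTF (fun x => invI σ (k x) (i x) (a x)) :=
  ptf_ixL hk hi hN (ptf_sconj σ (PTU.succ hk) (ptf_elL hk hi hN ha))

theorem ptf_rmI {a : α → ℕ} {l : α → List K} (hk : PTU k) (hi : PTU i)
    (hN : PTU (fun a => qK K ^ (k a + 1))) (hl : PTF l) (ha : PTF a) :
    PTF (fun x => rmI σ (k x) (i x) (l x) (a x)) :=
  ptf_ixL hk hi hN (ptf_smul σ (PTU.succ hk) (ptf_elL hk hi hN ha) hl)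

theorem ptf_lmI {a : α → ℕ} {l : α → List K} (hk : PTU k) (hi : PTU i)
    (hN : PTU (fun a => qK K ^ (k a + 1))) (hl : PTF l) (ha : PTF a) :
    PTF (fun x => lmI σ (k x) (i x) (l x) (a x)) :=
  ptf_ixL hk hi hN (ptf_smul σ (PTU.succ hk) hl (ptf_elL hk hi hN ha))

end pt

end Crest.Agent.R289.SkPTb92
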