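import Crest.Agent.R289.Tan_846

/-!
Row 289, block B: slaved chains of ONE-SIDED Tanner words are sound (helper344, LEMMA 289-344).

* `gap` : an array which is close to a Tanner word `c` and violates few local checks is VERY close
  to `c` (one-sided, static, arbitrary alphabet).
* `chain` : rows `X 0, .., X L`, row `0` = `c 0` outside the bad vertices, row `j+1` at a good vertex
  is determined by the earlier rows at `|D|` translates in the same way as for the exact words
  `c j`; then the set of vertices where SOME row is wrong is `O(#bad)`, for every length `L`.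
-/

set_option autoImplicit false
set_option linter.unusedSectionVars false

namespace Crest.Agent.R289.Slave344

open Finset Crest.Agent.R289.Tan846

variable {U U' I B : Type} [Fintype U] [Fintype U'] [Fintype I]

/-- bundle of local codes (alphabet `J → B`) -/
def Bun {J : Type} (R : J → Set (I → B)) : Set (I → J → B) :=
  {w | ∀ j, (fun z => w z j) ∈ R j}

theorem dist_bun {J : Type} {R : J → Set (I → B)} {d : ℕ} (h : ∀ j, Dist (R j) d) :
    Dist (Bun R) d := by
  intro c hc c' hc' hne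
  obtain ⟨z, hz⟩ := Function.ne_iff.1 hne
  obtain ⟨j, hj⟩ := Function.ne_iff.1 hz
  refine (h j _ (hc j) _ (hc' j) fun he => hj (congrFun he z)).trans
    (cnt_le fun z hz he => hz (congrFun he j))

theorem tan_bun {J : Type} {pi : I → U ≃ U'} {R0 R1 : J → Set (I → B)} {c : J → U → I → B}
    (h : ∀ j, c j ∈ Tan pi (R0 j) (R1 j)) :
    (fun u z j => c j u z) ∈ Tan pi (Bun R0) (Bun R1) :=
  ⟨fun u j => (h j).1 u, fun v j => (h j).2 v⟩

/-- **gap lemma** -/
theorem gap {pi : I → U ≃ U'} {N lam : ℝ} (hN : 0 < N) (hE : Ex pi N lam)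
    {R0 R1 : Set (I → B)} {d : ℕ} (hd : 0 < d) (h0 : Dist R0 d) (h1 : Dist R1 d)
    {c : U → I → B} (hc : c ∈ Tan pi R0 R1) (X : U → I → B)
    (hs : 2 * (Fintype.card I : ℝ) ^ 2 * ((cnt (fun u => X u ≠ c u) : ℝ) + lam ^ 2 * N) ≤
      (d : ℝ) ^ 2 * N) :
    (d : ℝ) * (cnt (fun u => X u ≠ c u) : ℝ) ≤ 2 * d * (cnt (fun u => X u ∉ R0) : ℝ) +
      2 * (Fintype.card I : ℝ) *
        (cnt (fun h : U' => (fun z => X ((pi z).symm h) z) ∉ R1) : ℝ) := by
  classical
  obtain ⟨n, hn⟩ : ∃ n : ℕ, n = Fintype.card I := ⟨_, rfl⟩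
  obtain ⟨s, hsd⟩ : ∃ s : ℕ, s = cnt (fun u => X u ≠ c u) := ⟨_, rfl⟩
  obtain ⟨b0, hb0⟩ : ∃ b : ℕ, b = cnt (fun u => X u ∉ R0) := ⟨_, rfl⟩
  obtain ⟨b1, hb1⟩ : ∃ b : ℕ, b = cnt (fun h : U' => (fun z => X ((pi z).symm h) z) ∉ R1) :=
    ⟨_, rfl⟩
  obtain ⟨T, hT⟩ : ∃ T : U' → Prop, T = fun h => (fun z => X ((pi z).symm h) z) ∈ R1 ∧
      ∃ z, X ((pi z).symm h) z ≠ c ((pi z).symm h) z := ⟨_, rfl⟩
  obtain ⟨E, hEdef⟩ : ∃ E : ℕ, E = ∑ u : U, cnt (fun z => X u z ≠ c u z) := ⟨_, rfl⟩
  have hE' : E = ∑ h : U', cnt (fun z => X ((pi z).symm h) z ≠ c ((pi z).symm h) z) := by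
    rw [hEdef]
    exact count_swap pi (fun u z => X u z ≠ c u z)
  rw [← hn] at hs
  rw [← hsd] at hs
  rw [← hn, ← hsd, ← hb0, ← hb1]
  -- lower bound for `E`
  have hE1 : d * s ≤ E + d * b0 := by
    have h2 : s ≤ cnt (fun u => X u ≠ c u ∧ X u ∈ R0) + b0 := by
      rw [hsd, hb0]
      refine le_trans (cnt_le ?_) (cnt_or _ _)
      intro u hu
      by_cases hR : X u ∈ R0
      · exact Or.inl ⟨hu, hR⟩
      · exact Or.inr hR
    have h3 : d * cnt (fun u => X u ≠ c u ∧ X u ∈ R0) ≤ E := by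
      rw [hEdef]
      exact mul_cnt_le _ _ _ fun u hu => h0 _ hu.2 _ (hc.1 u) hu.1
    calc d * s ≤ d * (cnt (fun u => X u ≠ c u ∧ X u ∈ R0) + b0) := Nat.mul_le_mul_left _ h2
      _ = d * cnt (fun u => X u ≠ c u ∧ X u ∈ R0) + d * b0 := by ring
      _ ≤ E + d * b0 := Nat.add_le_add_right h3 _
  -- upper bound
  obtain ⟨a, ha⟩ : ∃ a : U' → ℕ, a = fun h =>
      cnt (fun z : I => X ((pi z).symm h) ≠ c ((pi z).symm h)) := ⟨_, rfl⟩
  obtain ⟨TT, hTT⟩ : ∃ TT : Finset U', TT = univ.filter T := ⟨_, rfl⟩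
  obtain ⟨BB, hBB⟩ : ∃ BB : Finset U', BB = univ.filter
      (fun h : U' => (fun z => X ((pi z).symm h) z) ∉ R1) := ⟨_, rfl⟩
  have hTc : TT.card = cnt T := by
    rw [hTT]
    unfold cnt
    congr
  have hBc : BB.card = b1 := by
    rw [hBB, hb1]
    unfold cnt
    congr
  have hea : ∀ h, cnt (fun z => X ((pi z).symm h) z ≠ c ((pi z).symm h) z) ≤ a h := by
    intro h
    rw [ha]
    exact cnt_le fun z hz he => hz (congrFun he z)
  have hen : ∀ h, cnt (fun z => X ((pi z).symm h) z ≠ c ((pi z).symm h) z) ≤ n := by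
    intro h
    rw [hn]
    unfold cnt
    exact Finset.card_le_univ _
  have hE2 : E ≤ ∑ h ∈ TT, a h + n * b1 := by
    have hpt : ∀ h : U', cnt (fun z => X ((pi z).symm h) z ≠ c ((pi z).symm h) z) ≤
        (if h ∈ TT then a h else 0) + (if h ∈ BB then n else 0) := by
      intro h
      by_cases hB : h ∈ BB
      · rw [if_pos hB]
        exact le_trans (hen h) (Nat.le_add_left _ _)
      · by_cases hTh : h ∈ TT
        · rw [if_pos hTh]
          exact le_trans (hea h) (Nat.le_add_right _ _)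
        · have hz : cnt (fun z => X ((pi z).symm h) z ≠ c ((pi z).symm h) z) = 0 := by
            have hB' : (fun z => X ((pi z).symm h) z) ∈ R1 := by
              by_contra hcon
              exact hB (by rw [hBB]; simpa using hcon)
            have hT' : ¬ T h := fun hcon => hTh (by rw [hTT]; simpa using hcon)
            rw [hT] at hT'
            have hno : ∀ z, X ((pi z).symm h) z = c ((pi z).symm h) z := by
              intro z
              by_contra hcon
              exact hT' ⟨hB', z, hcon⟩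
            rw [cnt_congr (q := fun _ => False) (fun z => by simp [hno z])]
            unfold cnt
            simp
          rw [hz]
          exact Nat.zero_le _
    calc E = ∑ h : U', cnt (fun z => X ((pi z).symm h) z ≠ c ((pi z).symm h) z) := hE'
      _ ≤ ∑ h : U', ((if h ∈ TT then a h else 0) + (if h ∈ BB then n else 0)) :=
          Finset.sum_le_sum fun h _ => hpt h
      _ = ∑ h ∈ TT, a h + n * b1 := by
          rw [Finset.sum_add_distrib, ← hBc]
          congr 1
          · rw [Finset.sum_ite_mem, Finset.univ_inter]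
          · rw [Finset.sum_ite_mem, Finset.univ_inter, Finset.sum_const, smul_eq_mul, mul_comm]
  -- the good odd vertices
  have hdT : d * TT.card ≤ ∑ h ∈ TT, a h := by
    calc d * TT.card = ∑ h ∈ TT, d := by rw [Finset.sum_const, smul_eq_mul, mul_comm]
      _ ≤ ∑ h ∈ TT, a h := by
          refine Finset.sum_le_sum fun h hh => ?_
          have hTh : T h := by simpa [hTT] using hh
          rw [hT] at hTh
          obtain ⟨hR, z, hz⟩ := hTh
          exact (h1 _ hR _ (hc.2 h) fun he => hz (congrFun he z)).trans (hea h)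
  obtain ⟨A, hA⟩ : ∃ A : ℝ, A = ∑ h ∈ TT, (a h : ℝ) := ⟨_, rfl⟩
  have hA0 : 0 ≤ A := by
    rw [hA]
    exact Finset.sum_nonneg fun h _ => Nat.cast_nonneg _
  have hdT' : (d : ℝ) * TT.card ≤ A := by
    rw [hA]
    exact_mod_cast hdT
  have hsq : A ^ 2 ≤ TT.card * ∑ h ∈ TT, (a h : ℝ) ^ 2 := by
    rw [hA]
    exact sq_sum_le_card_mul_sum_sq
  have hQ : ∑ h ∈ TT, (a h : ℝ) ^ 2 ≤ (n : ℝ) ^ 2 * ((s : ℝ) ^ 2 / N + lam ^ 2 * s) := by
    refine le_trans (Finset.sum_le_univ_sum_of_nonneg fun h => by positivity) ?_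
    have h := sum_sq_le hE (fun u => X u ≠ c u)
    rw [← hn, ← hsd] at h
    rw [ha]
    exact h
  obtain ⟨Q, hQd⟩ : ∃ Q : ℝ, Q = (n : ℝ) ^ 2 * ((s : ℝ) ^ 2 / N + lam ^ 2 * s) := ⟨_, rfl⟩
  rw [← hQd] at hQ
  have hQ0 : 0 ≤ Q := le_trans (Finset.sum_nonneg fun h _ => by positivity) hQ
  have hd' : (0 : ℝ) < d := by exact_mod_cast hd
  have hdA : (d : ℝ) * A ≤ Q := by
    rcases hA0.eq_or_lt with h | h
    · rw [← h, mul_zero]
      exact hQ0
    · have h4 : A * (d * A) ≤ A * Q := by
        have h5 : A ^ 2 ≤ TT.card * Q :=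
          hsq.trans (mul_le_mul_of_nonneg_left hQ (Nat.cast_nonneg _))
        have h6 : (d : ℝ) * A ^ 2 ≤ (d * TT.card) * Q := by
          have := mul_le_mul_of_nonneg_left h5 hd'.le
          linarith
        have h7 : (d * TT.card : ℝ) * Q ≤ A * Q := mul_le_mul_of_nonneg_right hdT' hQ0
        nlinarith
      exact le_of_mul_le_mul_left h4 h
  have hQs : Q ≤ (d : ℝ) ^ 2 * s / 2 := by
    have hs0 : (0 : ℝ) ≤ s := Nat.cast_nonneg _
    have h8 : (n : ℝ) ^ 2 * ((s : ℝ) ^ 2 / N + lam ^ 2 * s) * N =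
        (n : ℝ) ^ 2 * (s + lam ^ 2 * N) * s := by
      field_simp
    have h9 : Q * N ≤ ((d : ℝ) ^ 2 * s / 2) * N := by
      rw [hQd, h8]
      nlinarith [mul_le_mul_of_nonneg_right hs hs0]
    exact le_of_mul_le_mul_right h9 hN
  have hAs : A ≤ d * s / 2 := by
    have h10 : (d : ℝ) * A ≤ d * (d * s / 2) := by
      calc (d : ℝ) * A ≤ Q := hdA
        _ ≤ (d : ℝ) ^ 2 * s / 2 := hQs
        _ = d * (d * s / 2) := by ring
    exact le_of_mul_le_mul_left h10 hd'
  have hE1' : (d : ℝ) * s ≤ E + d * b0 := by exact_mod_cast hE1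
  have hE2' : (E : ℝ) ≤ A + n * b1 := by
    rw [hA]
    exact_mod_cast hE2
  linarith

/-- **slaved chain of one-sided rows** -/
theorem chain {pi : I → U ≃ U'} {N lam : ℝ} (hN : 0 < N) (hE : Ex pi N lam)
    {R0 R1 : ℕ → Set (I → B)} {d : ℕ} (hd : 0 < d)
    (h0 : ∀ j, Dist (R0 j) d) (h1 : ∀ j, Dist (R1 j) d)
    {D : Type} [Fintype D] (nu : D → U → U) (hnu : ∀ i, Function.Injective (nu i))
    (c X : ℕ → U → I → B) (hc : ∀ j, c j ∈ Tan pi (R0 j) (R1 j)) (L : ℕ)
    (bad : U → Prop) (bad' : U' → Prop)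
    (hb0 : ∀ u, ¬ bad u → ∀ j ≤ L, X j u ∈ R0 j)
    (hb1 : ∀ h, ¬ bad' h → ∀ j ≤ L, (fun z => X j ((pi z).symm h) z) ∈ R1 j)
    (hbase : ∀ u, ¬ bad u → X 0 u = c 0 u)
    (hstep : ∀ j < L, ∀ u, ¬ bad u →
      (∀ j' ≤ j, X j' u = c j' u ∧ ∀ i : D, X j' (nu i u) = c j' (nu i u)) →
        X (j + 1) u = c (j + 1) u)
    (hsmall : 2 * (Fintype.card I : ℝ) ^ 2 *
      ((1 + (Fintype.card D : ℝ)) * (2 * (cnt bad : ℝ) + 2 * (Fintype.card I : ℝ) / d * (cnt bad' : ℝ))
        + (cnt bad : ℝ) + lam ^ 2 * N) ≤ (d : ℝ) ^ 2 * N) :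
    (d : ℝ) * (cnt (fun u => ∃ j ≤ L, X j u ≠ c j u) : ℝ) ≤
      2 * d * (cnt bad : ℝ) + 2 * (Fintype.card I : ℝ) * (cnt bad' : ℝ) := by
  classical
  have hd' : (0 : ℝ) < d := by exact_mod_cast hd
  have key : ∀ m, m ≤ L → (d : ℝ) * (cnt (fun u => ∃ j ≤ m, X j u ≠ c j u) : ℝ) ≤
      2 * d * (cnt bad : ℝ) + 2 * (Fintype.card I : ℝ) * (cnt bad' : ℝ) := by
    intro m
    induction m with
    | zero =>
      intro _
      have h : cnt (fun u => ∃ j ≤ 0, X j u ≠ c j u) ≤ cnt bad := by
        refine cnt_le fun u hu => ?_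
        obtain ⟨j, hj, hne⟩ := hu
        obtain rfl : j = 0 := by omega
        by_contra hb
        exact hne (hbase u hb)
      have h' : (cnt (fun u => ∃ j ≤ 0, X j u ≠ c j u) : ℝ) ≤ cnt bad := by exact_mod_cast h
      have h2 : (0 : ℝ) ≤ 2 * (Fintype.card I : ℝ) * (cnt bad' : ℝ) := by positivity
      have h3 : (0 : ℝ) ≤ d * (cnt bad : ℝ) := by positivity
      nlinarith [mul_le_mul_of_nonneg_left h' hd'.le]
    | succ m ih =>
      intro hm
      have ih' := ih (by omega)
      obtain ⟨s, hs⟩ : ∃ s : ℕ, s = cnt (fun u => ∃ j ≤ m, X j u ≠ c j u) := ⟨_, rfl⟩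
      obtain ⟨s1, hs1⟩ : ∃ s : ℕ, s = cnt (fun u => ∃ j ≤ m + 1, X j u ≠ c j u) := ⟨_, rfl⟩
      rw [← hs] at ih'
      rw [← hs1]
      -- growth by one row
      have hgrow : s1 ≤ (1 + Fintype.card D) * s + cnt bad := by
        have hsub : s1 ≤ cnt (fun u => (∃ j ≤ m, X j u ≠ c j u) ∨
            (bad u ∨ ∃ i : D, ∃ j ≤ m, X j (nu i u) ≠ c j (nu i u))) := by
          rw [hs1]
          refine cnt_le fun u hu => ?_
          obtain ⟨j, hj, hne⟩ := hu
          by_contra hcon
          push Not at hcon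
          obtain ⟨hc1, hc2, hc3⟩ := hcon
          rcases Nat.lt_or_ge j (m + 1) with hlt | hge
          · exact hne (hc1 j (by omega))
          · obtain rfl : j = m + 1 := by omega
            exact hne (hstep m (by omega) u hc2 fun j' hj' => ⟨hc1 j' hj', fun i => hc3 i j' hj'⟩)
        have h2 : cnt (fun u => ∃ i : D, ∃ j ≤ m, X j (nu i u) ≠ c j (nu i u)) ≤
            Fintype.card D * s := by
          have h3 : cnt (fun u => ∃ i : D, ∃ j ≤ m, X j (nu i u) ≠ c j (nu i u)) ≤
              ∑ i : D, cnt (fun u => ∃ j ≤ m, X j (nu i u) ≠ c j (nu i u)) := by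
            unfold cnt
            refine le_trans (Finset.card_le_card ?_) Finset.card_biUnion_le
            intro u hu
            simp only [Finset.mem_filter, Finset.mem_univ, true_and, Finset.mem_biUnion] at hu ⊢
            exact hu
          have h4 : ∀ i : D, cnt (fun u => ∃ j ≤ m, X j (nu i u) ≠ c j (nu i u)) ≤ s := by
            intro i
            rw [hs]
            unfold cnt
            refine Finset.card_le_card_of_injOn (nu i) ?_ (hnu i).injOn
            intro u hu
            simpa using hu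
          calc _ ≤ _ := h3
            _ ≤ ∑ _i : D, s := Finset.sum_le_sum fun i _ => h4 i
            _ = Fintype.card D * s := by
                rw [Finset.sum_const, smul_eq_mul, Finset.card_univ]
        have h5 := cnt_or (fun u => ∃ j ≤ m, X j u ≠ c j u)
          (fun u => bad u ∨ ∃ i : D, ∃ j ≤ m, X j (nu i u) ≠ c j (nu i u))
        have h6 := cnt_or bad (fun u => ∃ i : D, ∃ j ≤ m, X j (nu i u) ≠ c j (nu i u))
        rw [← hs] at h5
        calc s1 ≤ s + (cnt bad + Fintype.card D * s) := by omega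
          _ = (1 + Fintype.card D) * s + cnt bad := by ring
      have hgrow' : (s1 : ℝ) ≤ (1 + (Fintype.card D : ℝ)) * s + cnt bad := by exact_mod_cast hgrow
      have hsle : (s : ℝ) ≤ 2 * (cnt bad : ℝ) + 2 * (Fintype.card I : ℝ) / d * (cnt bad' : ℝ) := by
        have h7 : (d : ℝ) * (s : ℝ) ≤ d * (2 * (cnt bad : ℝ) +
            2 * (Fintype.card I : ℝ) / d * (cnt bad' : ℝ)) := by
          have e : (d : ℝ) * (2 * (cnt bad : ℝ) + 2 * (Fintype.card I : ℝ) / d * (cnt bad' : ℝ)) =
              2 * d * (cnt bad : ℝ) + 2 * (Fintype.card I : ℝ) * (cnt bad' : ℝ) := by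
            field_simp
          rw [e]
          exact ih'
        exact le_of_mul_le_mul_left h7 hd'
      -- the bundle of the rows `≤ m + 1`
      obtain ⟨Xm, hXm⟩ : ∃ Xm : U → I → ℕ → B, Xm = fun u z j =>
          if j ≤ m + 1 then X j u z else c j u z := ⟨_, rfl⟩
      obtain ⟨cB, hcB⟩ : ∃ cB : U → I → ℕ → B, cB = fun u z j => c j u z := ⟨_, rfl⟩
      have hcT : cB ∈ Tan pi (Bun R0) (Bun R1) := by
        rw [hcB]
        exact tan_bun hc
      have hiff : ∀ u, Xm u ≠ cB u ↔ ∃ j ≤ m + 1, X j u ≠ c j u := by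
        intro u
        constructor
        · intro h
          obtain ⟨z, hz⟩ := Function.ne_iff.1 h
          obtain ⟨j, hj⟩ := Function.ne_iff.1 hz
          rw [hXm, hcB] at hj
          by_cases hjm : j ≤ m + 1
          · refine ⟨j, hjm, fun he => hj ?_⟩
            simp only [if_pos hjm]
            exact congrFun he z
          · exact absurd (by simp only [if_neg hjm]) hj
        · rintro ⟨j, hj, hne⟩ he
          apply hne
          funext z
          have h8 := congrFun (congrFun he z) j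
          rw [hXm, hcB] at h8
          simpa [hj] using h8
      have hcount : cnt (fun u => Xm u ≠ cB u) = s1 := by
        rw [hs1]
        exact cnt_congr hiff
      have hg := gap hN hE hd (dist_bun h0) (dist_bun h1) hcT Xm (by
        rw [hcount]
        refine le_trans ?_ hsmall
        have h9 : (0 : ℝ) ≤ 2 * (Fintype.card I : ℝ) ^ 2 := by positivity
        refine mul_le_mul_of_nonneg_left ?_ h9
        have h10 : (0 : ℝ) ≤ 1 + (Fintype.card D : ℝ) := by positivity
        have h11 := mul_le_mul_of_nonneg_left hsle h10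
        linarith)
      rw [hcount] at hg
      have hbl : cnt (fun u => Xm u ∉ Bun R0) ≤ cnt bad := by
        refine cnt_le fun u hu => ?_
        by_contra hb
        apply hu
        intro j
        rw [hXm]
        by_cases hj : j ≤ m + 1
        · simp only [if_pos hj]
          exact hb0 u hb j (by omega)
        · simp only [if_neg hj]
          exact (hc j).1 u
      have hbl' : cnt (fun h : U' => (fun z => Xm ((pi z).symm h) z) ∉ Bun R1) ≤ cnt bad' := by
        refine cnt_le fun h hu => ?_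
        by_contra hb
        apply hu
        intro j
        rw [hXm]
        by_cases hj : j ≤ m + 1
        · simp only [if_pos hj]
          exact hb1 h hb j (by omega)
        · simp only [if_neg hj]
          exact (hc j).2 h
      have hbl1 : (cnt (fun u => Xm u ∉ Bun R0) : ℝ) ≤ cnt bad := by exact_mod_cast hbl
      have hbl2 : (cnt (fun h : U' => (fun z => Xm ((pi z).symm h) z) ∉ Bun R1) : ℝ) ≤ cnt bad' := by
        exact_mod_cast hbl'
      have h12 := mul_le_mul_of_nonneg_left hbl1 (by positivity : (0 : ℝ) ≤ 2 * d)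
      have h13 := mul_le_mul_of_nonneg_left hbl2
        (by positivity : (0 : ℝ) ≤ 2 * (Fintype.card I : ℝ))
      linarith
  exact key L le_rfl

end Crest.Agent.R289.Slave344
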