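import Crest.Agent.R289.SlotPT_239
import Crest.Agent.R289.InsTabObj_117
import Crest.Agent.R289.MemB_12

/-!
# Row 289, E31: tables of all slots of the label code in the form of TopH (helper239)

`SlotPT_239.labNbO_psl` restated with `PubBits92.Mp` and the numbering of `InsTabObj_117`
(`eQ (eGi D raw kP kR) (eTi D raw kT)`); `Mp` and `UMap965.PMap` are the same proposition.
-/

set_option autoImplicit false
set_option linter.unusedSectionVars false

namespace Crest.Agent.R289.SlotMem239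

open Crest.Agent.Lib.PT Crest.Agent.Lib.PT.Arith Crest.Agent.R289 Crest.Agent.R289.Asm12
open Crest.Agent.R289.YIdx901 Crest.Agent.R289.FamComb715 Crest.Agent.R289.UMap965
open Crest.Agent.R289.PubBits92 Crest.Agent.R289.InsTab117 Crest.Agent.R289.SlotPT239
open Crest.Agent.R289.RegsObj335 Crest.Agent.R289.LUofTP239 Crest.Agent.R289.ClockU698

variable {ι α : Type} [PTCode α] {raw : ι → α}

/-- `Mp` is `PMap` -/
theorem mp_iff {U V : ι → Type} {n m : α → ℕ} {e : ∀ i, U i ≃ Fin (n (raw i))}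
    {f : ∀ i, V i ≃ Fin (m (raw i))} {g : ∀ i, U i → V i} :
    Mp raw e f g ↔ PMap raw e f g := Iff.rfl

variable {D : Obj} {M0 : ℕ} {lam0 Kr : ℝ} {kP kR kT : α → ℕ}

/-- the numbering of the units of `insTab` -/
abbrev eUi (D : Obj) (raw : ι → α) (kP kR kT : α → ℕ) (i : ι) :
    (D.P (kP (raw i)) × D.P (kR (raw i))) × D.P (kT (raw i)) ≃
      Fin (pn (nGa D kP kR) (nTa D kT) (raw i)) :=
  eQ (n := nGa D kP kR) (m := nTa D kT) (eGi D raw kP kR) (eTi D raw kT) i

/-- **tables of all slots of the label code** in the numbering of `insTab` -/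
theorem mp_labNbO (hD : D.OK M0 lam0 Kr) (hP : PTU kP) (hQP : PTU fun a => D.Q ^ kP a)
    (hR : PTU kR) (hQR : PTU fun a => D.Q ^ kR a) (hT : PTU kT) (hQT : PTU fun a => D.Q ^ kT a)
    {ιc : Type}
    {nbc : ∀ i, ιc → (D.P (kP (raw i)) × D.P (kR (raw i))) × D.P (kT (raw i)) →
      (D.P (kP (raw i)) × D.P (kR (raw i))) × D.P (kT (raw i))}
    (hc : ∀ s, Mp raw (eUi D raw kP kR kT) (eUi D raw kP kR kT) (fun i u => nbc i s u))
    (s : SO D ιc) :
    Mp raw (eUi D raw kP kR kT) (eUi D raw kP kR kT) (fun i u => labNbO D (nbc i) s u) :=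
  labNbO_psl hD hP hQP hR hQR hT hQT hc s

end Crest.Agent.R289.SlotMem239
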