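import Crest.Agent.R289.UMap_965
import Crest.Agent.R289.RegsObj_335

/-!
# Row 289, E31: poly-time tables of all slots of the label code (helper239)

Vocabulary: `UMap965.PMap raw e f G` (families of unit maps given by one poly-time function of
numbers).

* `PSl raw e nb` : every slot `nb i s : U i → U i` is a `PMap`; closure under sums, options,
  tensor slots `nbT`, `nbC` (LU_846), rounds `nbIt` (LUb_443), `repNb`, doublings `inb` (508);
* one factor of `Asm12.Obj`: `nbP`, `nbP'` (LUofTP_239), `gaw` (RegsObj_335);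
* **`labNbO_psl`** : every slot of `RegsObj335.labNbO` on `(P × R) × T`, given the clock slots.
-/

set_option autoImplicit false
set_option linter.unusedSectionVars false

namespace Crest.Agent.R289.SlotPT239

open Crest.Agent.Lib.PT Crest.Agent.Lib.PT.Arith Crest.Agent.R289
open Crest.Agent.R289.Tab858 Crest.Agent.R289.YIdx901 Crest.Agent.R289.FamComb715
open Crest.Agent.R289.UMap965
open Crest.Agent.R289.LUb443 (repNb Slots nbIt)
open Crest.Agent.R289.LU846 (nbT nbC)

variable {α I : Type} [PTCode α] {raw : I → α}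

/-! ### generic closure -/

section generic
variable {U V W : I → Type} {l m n : I → ℕ} {e : ∀ i, U i ≃ Fin (m i)} {f : ∀ i, V i ≃ Fin (n i)}
  {h : ∀ i, W i ≃ Fin (l i)}

/-- every slot is a poly-time unit map -/
def PSl (raw : I → α) (e : ∀ i, U i ≃ Fin (m i)) {ι : Type} (nb : ∀ i, ι → U i → U i) : Prop :=
  ∀ s, PMap raw e e (fun i => nb i s)

variable {ι κ : Type}

theorem PSl.sum {nb : ∀ i, ι → U i → U i} {nb' : ∀ i, κ → U i → U i} (h1 : PSl raw e nb)
    (h2 : PSl raw e nb') : PSl raw e (fun i => Sum.elim (nb i) (nb' i)) := by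
  intro s
  cases s with
  | inl s => exact h1 s
  | inr s => exact h2 s

theorem PSl.repNb {ga : ∀ i, ι → U i → U i} (h1 : PSl raw e ga) :
    PSl raw e (fun i => LUb443.repNb (ga i)) := by
  intro s
  cases s with
  | none => exact PMap.id e
  | some s => exact h1 s

theorem PSl.nbIt {nb : ∀ i, ι → U i → U i} (h1 : PSl raw e nb) (r : ℕ) :
    PSl raw e (fun i => LUb443.nbIt (nb i) r) := by
  induction r with
  | zero => exact h1
  | succ r ih =>
    rintro ⟨s, t⟩
    exact PMap.comp (H := fun i => LUb443.nbIt (nb i) r t) (G := fun i => nb i s) (ih t) (h1 s)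

/-- slots acting on the first factor -/
theorem PSl.left (hn : PSz raw n) {nb : ∀ i, ι → U i → U i} (h1 : PSl raw e nb) (s : ι) :
    PMap raw (eP' e f) (eP' e f) (fun i u => (nb i s u.1, u.2)) :=
  PMap.map₁ hn (h1 s)

/-- slots acting on the second factor -/
theorem PSl.right (hn : PSz raw n) {nb : ∀ i, κ → V i → V i} (h1 : PSl raw f nb) (s : κ) :
    PMap raw (eP' e f) (eP' e f) (fun i u => (u.1, nb i s u.2)) :=
  PMap.map₂ hn hn (h1 s)

theorem PSl.nbT (hn : PSz raw n) {nb : ∀ i, ι → U i → U i} {nb' : ∀ i, κ → V i → V i}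
    (h1 : PSl raw e nb) (h2 : PSl raw f nb') :
    PSl raw (eP' e f) (fun i => LU846.nbT (nb i) (nb' i)) := by
  intro s
  cases s with
  | inl s => exact PSl.left hn h1 s
  | inr s => exact PSl.right hn h2 s

theorem PSl.nbC (hn : PSz raw n) {nb : ∀ i, ι → U i → U i} {nb' : ∀ i, κ → V i → V i}
    (h1 : PSl raw e nb) (h2 : PSl raw f nb') :
    PSl raw (eP' e f) (fun i => LU846.nbC (nb i) (nb' i)) := by
  rintro ⟨s, t⟩
  exact PMap.map hn hn (h1 s) (h2 t)

theorem PSl.prod (hn : PSz raw n) {nb : ∀ i, ι → U i → U i} {nb' : ∀ i, κ → V i → V i}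
    (h1 : PSl raw e nb) (h2 : PSl raw f nb') :
    PSl raw (eP' e f) (fun i (s : ι × κ) u => (nb i s.1 u.1, nb' i s.2 u.2)) := by
  rintro ⟨s, t⟩
  exact PMap.map hn hn (h1 s) (h2 t)

/-- doublings of `Word508` -/
theorem PSl.inb {nb : ∀ i, ι → U i → U i} (h1 : PSl raw e nb) (r : ℕ) :
    PSl raw e (fun i => Word508.inb (nb i) r) := by
  induction r with
  | zero => exact h1
  | succ r ih =>
    intro s
    rcases s with s | ⟨s, t⟩
    · exact ih s
    · exact PMap.comp (H := fun i => Word508.inb (nb i) r t) (G := fun i => Word508.inb (nb i) r s)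
        (ih t) (ih s)

end generic

/-! ### one factor of the object -/

section obj
open Crest.Agent.R289.Asm12 Crest.Agent.R289.LUofTP239 Crest.Agent.R289.RegsObj335

variable {D : Obj} {M0 : ℕ} {lam0 Kr : ℝ} {k : α → ℕ}

theorem ai_pel (hD : D.OK M0 lam0 Kr) (hk : PTU k) (hQ : PTU fun a => D.Q ^ k a) (b : Bool)
    (z : Option D.K) : PEl raw (eO D raw k) (fun i => (D.tp (k (raw i))).ai b z) := by
  cases b with
  | false => exact PEl.oneO hD hk hQ
  | true => exact PEl.aO hD hk hQ z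

theorem bj_pel (hD : D.OK M0 lam0 Kr) (hk : PTU k) (hQ : PTU fun a => D.Q ^ k a) (b : Bool)
    (z : Option D.K) : PEl raw (eO D raw k) (fun i => (D.tp (k (raw i))).bj b z) := by
  cases b with
  | false => exact PEl.oneO hD hk hQ
  | true => exact PEl.bO hD hk hQ z

theorem st_pel (hD : D.OK M0 lam0 Kr) (hk : PTU k) (hQ : PTU fun a => D.Q ^ k a)
    (s : VS (Option D.K)) :
    PEl raw (eO D raw k) (fun i => (D.tp (k (raw i))).st s.1 s.2.1 s.2.2.1 s.2.2.2) := by
  obtain ⟨b, j, l, m⟩ := s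
  refine PEl.congr (PEl.mulO hD hk hQ (ai_pel hD hk hQ b l)
    (bj_pel hD hk hQ j (if b then D.M l m else m))) fun i => ?_
  show (D.tp (k (raw i))).ai b l * (D.tp (k (raw i))).bj j ((D.tp (k (raw i))).yl b l m) = _
  unfold TP846.TP.yl
  rw [hD.M_eq]

/-- test slots of one factor -/
theorem nbP_psl (hD : D.OK M0 lam0 Kr) (hk : PTU k) (hQ : PTU fun a => D.Q ^ k a) :
    PSl raw (eO D raw k) (fun i => nbP D (k (raw i))) := fun s =>
  PMap.rightO hD hk hQ (PEl.invO hD hk hQ (st_pel hD hk hQ s))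

/-- correction slots of one factor -/
theorem nbP'_psl (hD : D.OK M0 lam0 Kr) (hk : PTU k) (hQ : PTU fun a => D.Q ^ k a) :
    PSl raw (eO D raw k) (fun i => nbP' D (k (raw i))) := fun s =>
  PMap.mulO hD hk hQ (PMap.rightO hD hk hQ (PEl.aO hD hk hQ s.1))
    (PMap.const (PEl.invO hD hk hQ (PEl.aO hD hk hQ s.2)))

/-- the walk of one factor -/
theorem gaw_psl (hD : D.OK M0 lam0 Kr) (hk : PTU k) (hQ : PTU fun a => D.Q ^ k a) :
    PSl raw (eO D raw k) (fun i => gaw D (k (raw i))) := fun s =>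
  PMap.rightO hD hk hQ (PEl.aO hD hk hQ s)

/-- sizes -/
theorem psz_Q (hQ : PTU fun a => D.Q ^ k a) : PSz raw (fun i => D.Q ^ k (raw i)) :=
  PSz.of (N := fun a => D.Q ^ k a) (PTU.toPTF hQ)

/-! ### all slots of the label -/

variable {kP kR kT : α → ℕ}

/-- numbering of the units `(P × R) × T` -/
def e3 (D : Obj) (raw : I → α) (kP kR kT : α → ℕ) :
    ∀ i, (D.P (kP (raw i)) × D.P (kR (raw i))) × D.P (kT (raw i)) ≃
      Fin (D.Q ^ kP (raw i) * D.Q ^ kR (raw i) * D.Q ^ kT (raw i)) :=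
  eP' (eP' (eO D raw kP) (eO D raw kR)) (eO D raw kT)

/-- **all slots of the label code are poly-time**, given the slots of the clock -/
theorem labNbO_psl (hD : D.OK M0 lam0 Kr) (hP : PTU kP) (hQP : PTU fun a => D.Q ^ kP a)
    (hR : PTU kR) (hQR : PTU fun a => D.Q ^ kR a) (hT : PTU kT) (hQT : PTU fun a => D.Q ^ kT a)
    {ιc : Type}
    {nbc : ∀ i, ιc → (D.P (kP (raw i)) × D.P (kR (raw i))) × D.P (kT (raw i)) →
      (D.P (kP (raw i)) × D.P (kR (raw i))) × D.P (kT (raw i))}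
    (hc : PSl raw (e3 D raw kP kR kT) nbc) :
    PSl raw (e3 D raw kP kR kT) (fun i => labNbO D (nbc i)) := by
  have sR : PSz raw (fun i => D.Q ^ kR (raw i)) := psz_Q hQR
  have sT : PSz raw (fun i => D.Q ^ kT (raw i)) := psz_Q hQT
  have hg : PSl raw (eP' (eO D raw kP) (eO D raw kR))
      (fun i => RegsFac335.gNb (nbP D) (kP (raw i)) (kR (raw i))) :=
    PSl.nbT sR (nbP_psl hD hP hQP) (nbP_psl hD hR hQR)
  have hg' : PSl raw (eP' (eO D raw kP) (eO D raw kR))
      (fun i => RegsFac335.gNb' (nbP' D) (kP (raw i)) (kR (raw i))) :=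
    PSl.nbC sR ((nbP'_psl hD hP hQP).nbIt 9) ((nbP'_psl hD hR hQR).nbIt 9)
  rintro ⟨j, s⟩
  cases j with
  | lt =>
    refine PSl.repNb (ga := fun i => RegsFac335.gl (gaw D) (kP (raw i)) (kR (raw i))
      (kT (raw i))) ?_ s
    exact PSl.prod sT (PSl.prod sR (gaw_psl hD hP hQP) (gaw_psl hD hR hQR)) (gaw_psl hD hT hQT)
  | ck => exact hc.inb 2 s
  | rg =>
    exact PSl.sum (PSl.nbT sT hg (gaw_psl hD hT hQT).repNb)
      (PSl.nbC sT hg' ((gaw_psl hD hT hQT).nbIt 9)) s
  | rx =>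
    exact PSl.sum (PSl.nbT sT hg (nbP_psl hD hT hQT))
      (PSl.nbC sT hg' ((nbP'_psl hD hT hQT).nbIt 9)) s
  | rz =>
    exact PSl.sum (PSl.nbT sT hg (nbP_psl hD hT hQT))
      (PSl.nbC sT hg' ((nbP'_psl hD hT hQT).nbIt 9)) s

end obj

end Crest.Agent.R289.SlotPT239
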