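import Crest.Agent.R289.UMap_965
import Crest.Agent.R289.LUofTP_239
import Crest.Agent.R289.LabCAx_560
import Crest.Agent.R289.RegsFac_335

/-!
# Row 289, E31 SlotPT: poly-time tables of all slots of the label code

`PNb raw e nb` : every slot of the family of neighbour maps `nb i : ι → U i → U i` is a poly-time
unit map (`UMap965.PMap`).

* closure: `elim`, `nbT`, `nbC`, `nbIt`, `repNb`, products, the slots of the label (`LabCAx560.labNb`
  and `LabCAx335.labNb`);
* `nbV`, `nbW` of the complexes of `Asm12.Obj`, i.e. `nbP`, `nbP'` of `LUofTP_239`, and the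
  right and left multiplications by `a z`, `b z` and their inverses;
* `RegsFac_335`: `gNb`, `gNb'`, the slots of `Fac.prodReg`, `Fac.constReg` and the letter walk `gl`.
-/

set_option autoImplicit false

namespace Crest.Agent.R289.SlotPT267

open Crest.Agent.Lib.PT Crest.Agent.R289
open Crest.Agent.R289.UMap965

variable {α I : Type} [PTCode α] {raw : I → α}

/-! ### slots -/

/-- all slots are poly-time unit maps -/
def PNb {U : I → Type} {m : I → ℕ} (raw : I → α) (e : ∀ i, U i ≃ Fin (m i)) {ι : Type}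
    (nb : ∀ i, ι → U i → U i) : Prop := ∀ s, PMap raw e e (fun i u => nb i s u)

section gen

variable {U V : I → Type} {m n : I → ℕ} {e : ∀ i, U i ≃ Fin (m i)} {f : ∀ i, V i ≃ Fin (n i)}
  {ι κ : Type}

theorem PNb.elim {nb : ∀ i, ι → U i → U i} {nb' : ∀ i, κ → U i → U i} (h : PNb raw e nb)
    (h' : PNb raw e nb') : PNb raw e (fun i => Sum.elim (nb i) (nb' i)) := by
  intro s
  cases s with
  | inl s => exact h s
  | inr s => exact h' s

theorem PNb.congr {nb nb' : ∀ i, ι → U i → U i} (h : PNb raw e nb)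
    (he : ∀ i s u, nb' i s u = nb i s u) : PNb raw e nb' :=
  fun s => (h s).congr fun i u => he i s u

theorem PNb.reindex {nb : ∀ i, ι → U i → U i} (h : PNb raw e nb) (r : κ → ι) :
    PNb raw e (fun i s u => nb i (r s) u) := fun s => h (r s)

theorem PNb.comp {nb : ∀ i, ι → U i → U i} {nb' : ∀ i, κ → U i → U i} (h : PNb raw e nb)
    (h' : PNb raw e nb') : PNb raw e (fun i (s : ι × κ) u => nb i s.1 (nb' i s.2 u)) :=
  fun s => (h s.1).comp (h' s.2)

/-- slots of a tensor product: tests -/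
theorem PNb.nbT (hn : PSz raw n) {nb : ∀ i, ι → U i → U i} {nb' : ∀ i, κ → V i → V i}
    (h : PNb raw e nb) (h' : PNb raw f nb') :
    PNb raw (eP' e f) (fun i => LU846.nbT (nb i) (nb' i)) := by
  intro s
  cases s with
  | inl s => exact PMap.map₁ hn (h s)
  | inr s => exact PMap.map₂ hn hn (h' s)

/-- slots of a tensor product: corrections -/
theorem PNb.nbC (hn : PSz raw n) {nb : ∀ i, ι → U i → U i} {nb' : ∀ i, κ → V i → V i}
    (h : PNb raw e nb) (h' : PNb raw f nb') :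
    PNb raw (eP' e f) (fun i => LU846.nbC (nb i) (nb' i)) :=
  fun s => PMap.map hn hn (h s.1) (h' s.2)

/-- rounds -/
theorem PNb.nbIt {nb : ∀ i, ι → U i → U i} (h : PNb raw e nb) (r : ℕ) :
    PNb raw e (fun i => LUb443.nbIt (nb i) r) := by
  induction r with
  | zero => exact h
  | succ r ih =>
    intro s
    obtain ⟨s, t⟩ := s
    exact (ih t).comp (h s)

/-- slots of the repetition code -/
theorem PNb.repNb {ga : ∀ i, ι → U i → U i} (h : PNb raw e ga) :
    PNb raw e (fun i => LUb443.repNb (ga i)) := by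
  intro s
  cases s with
  | none => exact PMap.id e
  | some s => exact h s

/-- products of walks -/
theorem PNb.prod (hn : PSz raw n) {nb : ∀ i, ι → U i → U i} {nb' : ∀ i, κ → V i → V i}
    (h : PNb raw e nb) (h' : PNb raw f nb') :
    PNb raw (eP' e f) (fun i (s : ι × κ) u => (nb i s.1 u.1, nb' i s.2 u.2)) :=
  fun s => PMap.map hn hn (h s.1) (h' s.2)

/-- a whole family of slots as one table (`UMap965.exists_nb`) -/
theorem PNb.exists_nb {k : ℕ} (eι : ι ≃ Fin k) {nb : ∀ i, ι → U i → U i} (h : PNb raw e nb) :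
    ∃ t : α → ℕ → ℕ → ℕ, (∀ j < k, PTF (fun p : α × ℕ => t p.1 p.2 j)) ∧
      PTF (fun p : α × ℕ × ℕ => t p.1 p.2.2 p.2.1) ∧
      (∀ i u s, t (raw i) ((e i u : Fin _) : ℕ) ((eι s : Fin k) : ℕ) =
        ((e i (nb i s u) : Fin _) : ℕ)) ∧
      ∀ i, ∀ j < k, ∀ u < m i, t (raw i) u j < m i :=
  UMap965.exists_nb eι (G := fun s i u => nb i s u) h

end gen

/-! ### the slots of the label -/

section lab

variable {U : I → Type} {m : I → ℕ} {e : ∀ i, U i ≃ Fin (m i)}
  {ιL ιC a1 a1' a2 a2' a3 a3' : Type}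

/-- 560's slots -/
theorem PNb.labNb560 {nbL : ∀ i, ιL → U i → U i} {nbC : ∀ i, ιC → U i → U i}
    {nbR : ∀ i, a1 → U i → U i} {nbR' : ∀ i, a1' → U i → U i} {nbX : ∀ i, a2 → U i → U i}
    {nbX' : ∀ i, a2' → U i → U i} {nbZ : ∀ i, a3 → U i → U i} {nbZ' : ∀ i, a3' → U i → U i}
    (hL : PNb raw e nbL) (hC : PNb raw e nbC) (hR : PNb raw e nbR) (hR' : PNb raw e nbR')
    (hX : PNb raw e nbX) (hX' : PNb raw e nbX') (hZ : PNb raw e nbZ) (hZ' : PNb raw e nbZ') :
    PNb raw e (fun i => LabCAx560.labNb (nbL i) (nbC i) (nbR i) (nbR' i) (nbX i) (nbX' i)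
      (nbZ i) (nbZ' i)) :=
  hL.elim (hC.elim ((hR.elim hR').elim ((hX.elim hX').elim (hZ.elim hZ'))))

/-- 335's slots -/
theorem PNb.labNb335 {gl : ∀ i, ιL → U i → U i} {nbC : ∀ i, ιC → U i → U i}
    {nbR : ∀ i, a1 → U i → U i} {nbR' : ∀ i, a1' → U i → U i} {nbX : ∀ i, a2 → U i → U i}
    {nbX' : ∀ i, a2' → U i → U i} {nbZ : ∀ i, a3 → U i → U i} {nbZ' : ∀ i, a3' → U i → U i}
    (hL : PNb raw e gl) (hC : PNb raw e nbC) (hR : PNb raw e nbR) (hR' : PNb raw e nbR')
    (hX : PNb raw e nbX) (hX' : PNb raw e nbX') (hZ : PNb raw e nbZ) (hZ' : PNb raw e nbZ') :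
    PNb raw e (fun i => LabCAx335.labNb (gl i) (nbC i) (nbR i) (nbR' i) (nbX i) (nbX' i)
      (nbZ i) (nbZ' i)) := by
  rintro ⟨j, s⟩
  cases j with
  | lt => exact hL.repNb s
  | ck => exact hC s
  | rg => exact hR.elim hR' s
  | rx => exact hX.elim hX' s
  | rz => exact hZ.elim hZ' s

end lab

/-! ### one factor -/

section obj

open Crest.Agent.R289.Asm12

variable {D : Obj} {M0 : ℕ} {lam0 Kr : ℝ} {k : α → ℕ}

theorem el_ai (hD : D.OK M0 lam0 Kr) (hk : PTU k) (hQ : PTU fun a => D.Q ^ k a) (i : Bool)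
    (z : Option D.K) : PEl raw (eO D raw k) (fun j => (D.tp (k (raw j))).ai i z) := by
  cases i with
  | false => exact (PEl.oneO hD hk hQ).congr fun j => rfl
  | true => exact (PEl.aO hD hk hQ z).congr fun j => rfl

theorem el_bj (hD : D.OK M0 lam0 Kr) (hk : PTU k) (hQ : PTU fun a => D.Q ^ k a) (i : Bool)
    (z : Option D.K) : PEl raw (eO D raw k) (fun j => (D.tp (k (raw j))).bj i z) := by
  cases i with
  | false => exact (PEl.oneO hD hk hQ).congr fun j => rfl
  | true => exact (PEl.bO hD hk hQ z).congr fun j => rfl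

/-- the corners of a square -/
theorem el_st (hD : D.OK M0 lam0 Kr) (hk : PTU k) (hQ : PTU fun a => D.Q ^ k a) (i j : Bool)
    (l m : Option D.K) :
    PEl raw (eO D raw k) (fun t => (D.tp (k (raw t))).st i j l m) := by
  have h : ∀ t, (D.tp (k (raw t))).yl i l m = if i then D.M l m else m := by
    intro t
    unfold TP846.TP.yl
    rw [hD.M_eq]
  refine (PEl.mulO hD hk hQ (el_ai hD hk hQ i l)
    (el_bj hD hk hQ j (if i then D.M l m else m))).congr fun t => ?_
  unfold TP846.TP.st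
  rw [h]

/-- test slots of one factor -/
theorem nbP (hD : D.OK M0 lam0 Kr) (hk : PTU k) (hQ : PTU fun a => D.Q ^ k a) :
    PNb raw (eO D raw k) (fun i => LUofTP239.nbP D (k (raw i))) := by
  rintro ⟨i, j, l, m⟩
  exact PMap.rightO hD hk hQ (PEl.invO hD hk hQ (el_st hD hk hQ i j l m))

/-- correction slots of one factor -/
theorem nbP' (hD : D.OK M0 lam0 Kr) (hk : PTU k) (hQ : PTU fun a => D.Q ^ k a) :
    PNb raw (eO D raw k) (fun i => LUofTP239.nbP' D (k (raw i))) := by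
  rintro ⟨z, z'⟩
  exact (PMap.rightO hD hk hQ (PEl.invO hD hk hQ (PEl.aO hD hk hQ z'))).comp
    (PMap.rightO hD hk hQ (PEl.aO hD hk hQ z))

/-- right multiplication by `a z` -/
theorem rightA (hD : D.OK M0 lam0 Kr) (hk : PTU k) (hQ : PTU fun a => D.Q ^ k a) :
    PNb raw (eO D raw k) (fun i (z : Option D.K) u => u * (D.tp (k (raw i))).a z) :=
  fun z => PMap.rightO hD hk hQ (PEl.aO hD hk hQ z)

/-- right multiplication by `(a z)⁻¹` -/
theorem rightA' (hD : D.OK M0 lam0 Kr) (hk : PTU k) (hQ : PTU fun a => D.Q ^ k a) :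
    PNb raw (eO D raw k) (fun i (z : Option D.K) u => u * ((D.tp (k (raw i))).a z)⁻¹) :=
  fun z => PMap.rightO hD hk hQ (PEl.invO hD hk hQ (PEl.aO hD hk hQ z))

/-- left multiplication by `a z` -/
theorem leftA (hD : D.OK M0 lam0 Kr) (hk : PTU k) (hQ : PTU fun a => D.Q ^ k a) :
    PNb raw (eO D raw k) (fun i (z : Option D.K) u => (D.tp (k (raw i))).a z * u) :=
  fun z => PMap.leftO hD hk hQ (PEl.aO hD hk hQ z)

/-- left multiplication by `(a z)⁻¹` -/
theorem leftA' (hD : D.OK M0 lam0 Kr) (hk : PTU k) (hQ : PTU fun a => D.Q ^ k a) :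
    PNb raw (eO D raw k) (fun i (z : Option D.K) u => ((D.tp (k (raw i))).a z)⁻¹ * u) :=
  fun z => PMap.leftO hD hk hQ (PEl.invO hD hk hQ (PEl.aO hD hk hQ z))

theorem rightB (hD : D.OK M0 lam0 Kr) (hk : PTU k) (hQ : PTU fun a => D.Q ^ k a) :
    PNb raw (eO D raw k) (fun i (z : Option D.K) u => u * (D.tp (k (raw i))).b z) :=
  fun z => PMap.rightO hD hk hQ (PEl.bO hD hk hQ z)

theorem rightB' (hD : D.OK M0 lam0 Kr) (hk : PTU k) (hQ : PTU fun a => D.Q ^ k a) :
    PNb raw (eO D raw k) (fun i (z : Option D.K) u => u * ((D.tp (k (raw i))).b z)⁻¹) :=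
  fun z => PMap.rightO hD hk hQ (PEl.invO hD hk hQ (PEl.bO hD hk hQ z))

theorem leftB (hD : D.OK M0 lam0 Kr) (hk : PTU k) (hQ : PTU fun a => D.Q ^ k a) :
    PNb raw (eO D raw k) (fun i (z : Option D.K) u => (D.tp (k (raw i))).b z * u) :=
  fun z => PMap.leftO hD hk hQ (PEl.bO hD hk hQ z)

theorem leftB' (hD : D.OK M0 lam0 Kr) (hk : PTU k) (hQ : PTU fun a => D.Q ^ k a) :
    PNb raw (eO D raw k) (fun i (z : Option D.K) u => ((D.tp (k (raw i))).b z)⁻¹ * u) :=
  fun z => PMap.leftO hD hk hQ (PEl.invO hD hk hQ (PEl.bO hD hk hQ z))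

end obj

/-! ### registers on `(P × T_r) × T` -/

section regs

variable {ιn ιn' ιw : Type} {U : ℕ → Type} {k k' kT : α → ℕ} {sz : ℕ → ℕ}
  {ix : ∀ k, U k ≃ Fin (sz k)} {nb : ∀ k, ιn → U k → U k} {nb' : ∀ k, ιn' → U k → U k}
  {ga : ∀ k, ιw → U k → U k}

/-- numbering of `(P × T_r) × T` -/
abbrev e3 (raw : I → α) (ix : ∀ k, U k ≃ Fin (sz k)) (k k' kT : α → ℕ) :=
  eP' (eP' (fun i : I => ix (k (raw i))) (fun i : I => ix (k' (raw i))))
    (fun i : I => ix (kT (raw i)))

/-- tests of a product register -/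
theorem prod_nb (hk' : PSz raw fun i => sz (k' (raw i))) (hkT : PSz raw fun i => sz (kT (raw i)))
    (h : PNb raw (fun i => ix (k (raw i))) fun i => nb (k (raw i)))
    (h' : PNb raw (fun i => ix (k' (raw i))) fun i => nb (k' (raw i)))
    (hT : PNb raw (fun i => ix (kT (raw i))) fun i => nb (kT (raw i))) :
    PNb raw (e3 raw ix k k' kT)
      (fun i => LU846.nbT (RegsFac335.gNb nb (k (raw i)) (k' (raw i))) (nb (kT (raw i)))) :=
  PNb.nbT hkT (PNb.nbT hk' h h') hT

/-- corrections of a product register -/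
theorem prod_nb' (hk' : PSz raw fun i => sz (k' (raw i))) (hkT : PSz raw fun i => sz (kT (raw i)))
    (h : PNb raw (fun i => ix (k (raw i))) fun i => nb' (k (raw i)))
    (h' : PNb raw (fun i => ix (k' (raw i))) fun i => nb' (k' (raw i)))
    (hT : PNb raw (fun i => ix (kT (raw i))) fun i => nb' (kT (raw i))) :
    PNb raw (e3 raw ix k k' kT)
      (fun i => LU846.nbC (RegsFac335.gNb' nb' (k (raw i)) (k' (raw i)))
        (LUb443.nbIt (nb' (kT (raw i))) 9)) :=
  PNb.nbC hkT (PNb.nbC hk' (h.nbIt 9) (h'.nbIt 9)) (hT.nbIt 9)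

/-- tests of a content register -/
theorem const_nb (hk' : PSz raw fun i => sz (k' (raw i))) (hkT : PSz raw fun i => sz (kT (raw i)))
    (h : PNb raw (fun i => ix (k (raw i))) fun i => nb (k (raw i)))
    (h' : PNb raw (fun i => ix (k' (raw i))) fun i => nb (k' (raw i)))
    (hT : PNb raw (fun i => ix (kT (raw i))) fun i => ga (kT (raw i))) :
    PNb raw (e3 raw ix k k' kT)
      (fun i => LU846.nbT (RegsFac335.gNb nb (k (raw i)) (k' (raw i)))
        (LUb443.repNb (ga (kT (raw i))))) :=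
  PNb.nbT hkT (PNb.nbT hk' h h') hT.repNb

/-- corrections of a content register -/
theorem const_nb' (hk' : PSz raw fun i => sz (k' (raw i))) (hkT : PSz raw fun i => sz (kT (raw i)))
    (h : PNb raw (fun i => ix (k (raw i))) fun i => nb' (k (raw i)))
    (h' : PNb raw (fun i => ix (k' (raw i))) fun i => nb' (k' (raw i)))
    (hT : PNb raw (fun i => ix (kT (raw i))) fun i => ga (kT (raw i))) :
    PNb raw (e3 raw ix k k' kT)
      (fun i => LU846.nbC (RegsFac335.gNb' nb' (k (raw i)) (k' (raw i)))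
        (LUb443.nbIt (ga (kT (raw i))) 9)) :=
  PNb.nbC hkT (PNb.nbC hk' (h.nbIt 9) (h'.nbIt 9)) (hT.nbIt 9)

/-- the walk of the letter -/
theorem letter_nb (hk' : PSz raw fun i => sz (k' (raw i)))
    (hkT : PSz raw fun i => sz (kT (raw i)))
    (h : PNb raw (fun i => ix (k (raw i))) fun i => ga (k (raw i)))
    (h' : PNb raw (fun i => ix (k' (raw i))) fun i => ga (k' (raw i)))
    (hT : PNb raw (fun i => ix (kT (raw i))) fun i => ga (kT (raw i))) :
    PNb raw (e3 raw ix k k' kT)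
      (fun i => RegsFac335.gl ga (k (raw i)) (k' (raw i)) (kT (raw i))) :=
  fun s => PMap.map hkT hkT (PMap.map hk' hk' (h s.1.1) (h' s.1.2)) (hT s.2)

/-- **all slots of the label, 335's form** -/
theorem lab_nb {ιC : Type} (hk' : PSz raw fun i => sz (k' (raw i)))
    (hkT : PSz raw fun i => sz (kT (raw i)))
    (h1 : PNb raw (fun i => ix (k (raw i))) fun i => nb (k (raw i)))
    (h1' : PNb raw (fun i => ix (k' (raw i))) fun i => nb (k' (raw i)))
    (h1T : PNb raw (fun i => ix (kT (raw i))) fun i => nb (kT (raw i)))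
    (h2 : PNb raw (fun i => ix (k (raw i))) fun i => nb' (k (raw i)))
    (h2' : PNb raw (fun i => ix (k' (raw i))) fun i => nb' (k' (raw i)))
    (h2T : PNb raw (fun i => ix (kT (raw i))) fun i => nb' (kT (raw i)))
    (h3 : PNb raw (fun i => ix (k (raw i))) fun i => ga (k (raw i)))
    (h3' : PNb raw (fun i => ix (k' (raw i))) fun i => ga (k' (raw i)))
    (h3T : PNb raw (fun i => ix (kT (raw i))) fun i => ga (kT (raw i)))
    {nbC : ∀ i, ιC → (U (k (raw i)) × U (k' (raw i))) × U (kT (raw i)) →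
      (U (k (raw i)) × U (k' (raw i))) × U (kT (raw i))}
    (hC : PNb raw (e3 raw ix k k' kT) nbC) :
    PNb raw (e3 raw ix k k' kT) (fun i => LabCAx335.labNb
      (RegsFac335.gl ga (k (raw i)) (k' (raw i)) (kT (raw i))) (nbC i)
      (LU846.nbT (RegsFac335.gNb nb (k (raw i)) (k' (raw i))) (LUb443.repNb (ga (kT (raw i)))))
      (LU846.nbC (RegsFac335.gNb' nb' (k (raw i)) (k' (raw i))) (LUb443.nbIt (ga (kT (raw i))) 9))
      (LU846.nbT (RegsFac335.gNb nb (k (raw i)) (k' (raw i))) (nb (kT (raw i))))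
      (LU846.nbC (RegsFac335.gNb' nb' (k (raw i)) (k' (raw i))) (LUb443.nbIt (nb' (kT (raw i))) 9))
      (LU846.nbT (RegsFac335.gNb nb (k (raw i)) (k' (raw i))) (nb (kT (raw i))))
      (LU846.nbC (RegsFac335.gNb' nb' (k (raw i)) (k' (raw i)))
        (LUb443.nbIt (nb' (kT (raw i))) 9))) :=
  PNb.labNb335 (letter_nb hk' hkT h3 h3' h3T) hC (const_nb hk' hkT h1 h1' h3T)
    (const_nb' hk' hkT h2 h2' h3T) (prod_nb hk' hkT h1 h1' h1T) (prod_nb' hk' hkT h2 h2' h2T)
    (prod_nb hk' hkT h1 h1' h1T) (prod_nb' hk' hkT h2 h2' h2T)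

end regs

end Crest.Agent.R289.SlotPT267
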