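import Mathlib

/-!
Row 289, block A, module part (#5366 (1), #5399).
`P` a finite `p`-group acting on a finite set `Ω`, `K` a finite field of characteristic `p`,
`V` a `P`-stable subspace of `Ω → K`, `h : B → Ω` base points.
* `restrict_injective`: if a fixed word of `V` vanishing at all `h b` is zero, then `V → Fun(P × B)`
  is injective;
* `restrict_surjective`: if the trace vectors `b ↦ Σ_g F (g • h b)`, `F ∈ V`, span (= are) everything,
  then it is surjective;
* rank one: `restrict_bijective_one`, delta words, `finrank`.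
-/

set_option autoImplicit false
set_option linter.unusedSectionVars false

namespace Crest.Agent.R289.Socle608

open Finset

section action

variable {P Ω K : Type*} [Group P] [MulAction P Ω]

/-- left translation of words: `(tr g f) ω = f (g⁻¹ • ω)` -/
def tr (g : P) (f : Ω → K) : Ω → K := fun ω => f (g⁻¹ • ω)

@[simp] theorem tr_apply (g : P) (f : Ω → K) (ω : Ω) : tr g f ω = f (g⁻¹ • ω) := rfl

theorem tr_one (f : Ω → K) : tr (1 : P) f = f := by
  funext ω; simp [tr]

theorem tr_mul (g h : P) (f : Ω → K) : tr (g * h) f = tr g (tr h f) := by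
  funext ω; simp [tr, mul_smul]

theorem tr_add [Add K] (g : P) (f f' : Ω → K) : tr g (f + f') = tr g f + tr g f' := rfl

theorem tr_smul [Mul K] (g : P) (c : K) (f : Ω → K) : tr g (c • f) = c • tr g f := rfl

theorem tr_zero [Zero K] (g : P) : tr g (0 : Ω → K) = 0 := rfl

end action

variable {P Ω K B : Type*} [Group P] [MulAction P Ω] [Field K]

/-- a subspace of words stable under left translations -/
def Stable (P : Type*) {Ω K : Type*} [Group P] [MulAction P Ω] [Field K]
    (V : Submodule K (Ω → K)) : Prop :=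
  ∀ g : P, ∀ f ∈ V, tr g f ∈ V

/-- the `P`-set structure on a stable subspace -/
@[reducible] def Stable.mulAction {V : Submodule K (Ω → K)} (hV : Stable P V) : MulAction P V where
  smul g f := ⟨tr g f.1, hV g _ f.2⟩
  one_smul f := Subtype.ext (tr_one f.1)
  mul_smul g h f := Subtype.ext (tr_mul g h f.1)

/-- socle lemma: a non-zero stable subspace contains a non-zero fixed word -/
theorem exists_fixed {p : ℕ} [Fact p.Prime] [CharP K p] [Finite K] [Finite Ω] (hP : IsPGroup p P)
    {V : Submodule K (Ω → K)} (hV : Stable P V) (hne : V ≠ ⊥) :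
    ∃ f ∈ V, f ≠ 0 ∧ ∀ g : P, tr g f = f := by
  obtain ⟨f, hf, hf0⟩ := V.exists_mem_ne_zero_of_ne_bot hne
  let _inst : MulAction P V := hV.mulAction
  have _fin : Finite V := inferInstance
  have hord : addOrderOf (⟨f, hf⟩ : V) = p := by
    refine addOrderOf_eq_prime ?_ ?_
    · refine Subtype.ext ?_
      funext ω
      show p • f ω = 0
      rw [nsmul_eq_mul, CharP.cast_eq_zero, zero_mul]
    · intro h
      exact hf0 (congrArg Subtype.val h)
  have hdvd : p ∣ Nat.card V := by
    rw [← hord]; exact addOrderOf_dvd_natCard _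
  have h0 : (0 : V) ∈ MulAction.fixedPoints P V := by
    intro g
    refine Subtype.ext ?_
    exact tr_zero g
  obtain ⟨b, hb, hb0⟩ := hP.exists_fixed_point_of_prime_dvd_card_of_fixed_point V hdvd h0
  refine ⟨b.1, b.2, fun h => hb0 (Subtype.ext h.symm), fun g => ?_⟩
  exact congrArg Subtype.val (hb g)

/-- `V → Fun(P × B, K)` is injective as soon as fixed words are determined by the base values -/
theorem restrict_injective {p : ℕ} [Fact p.Prime] [CharP K p] [Finite K] [Finite Ω]
    (hP : IsPGroup p P) {V : Submodule K (Ω → K)} (hV : Stable P V) (h : B → Ω)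
    (hfix : ∀ f ∈ V, (∀ g : P, tr g f = f) → (∀ b, f (h b) = 0) → f = 0)
    {f : Ω → K} (hf : f ∈ V) (h0 : ∀ (g : P) (b : B), f (g • h b) = 0) : f = 0 := by
  let N : Submodule K (Ω → K) :=
    { carrier := {f | f ∈ V ∧ ∀ (g : P) (b : B), f (g • h b) = 0}
      add_mem' := by
        rintro a c ⟨ha, ha'⟩ ⟨hc, hc'⟩
        exact ⟨V.add_mem ha hc, fun g b => by simp [ha' g b, hc' g b]⟩
      zero_mem' := ⟨V.zero_mem, fun g b => rfl⟩
      smul_mem' := by
        rintro c a ⟨ha, ha'⟩
        exact ⟨V.smul_mem c ha, fun g b => by simp [ha' g b]⟩ }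
  by_contra hf0
  have hN : Stable P N := by
    rintro g a ⟨ha, ha'⟩
    refine ⟨hV g a ha, fun g' b => ?_⟩
    show a (g⁻¹ • g' • h b) = 0
    rw [← mul_smul]
    exact ha' _ b
  have hNne : N ≠ ⊥ := by
    intro hbot
    have : f ∈ N := ⟨hf, h0⟩
    rw [hbot, Submodule.mem_bot] at this
    exact hf0 this
  obtain ⟨w, hw, hw0, hwf⟩ := exists_fixed hP hN hNne
  exact hw0 (hfix w hw.1 hwf fun b => by simpa using hw.2 1 b)

/-- duality form of the surjectivity lemma, on `P × B` -/
theorem eq_top_of_trace {p : ℕ} [Fact p.Prime] [CharP K p] [Finite K] [Fintype P] [Fintype B]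
    [DecidableEq B] (hP : IsPGroup p P) (M : Submodule K (P × B → K))
    (hM : ∀ g : P, ∀ φ ∈ M, (fun x : P × B => φ (g⁻¹ * x.1, x.2)) ∈ M)
    (htr : ∀ c : B → K, ∃ φ ∈ M, ∀ b, ∑ g : P, φ (g, b) = c b) : M = ⊤ := by
  classical
  by_contra hne
  obtain ⟨ℓ, hℓ0, hℓ⟩ := Submodule.exists_le_ker_of_lt_top M (lt_top_iff_ne_top.2 hne)
  -- the orthogonal complement
  let _inst : MulAction P (P × B) :=
    { smul := fun g x => (g * x.1, x.2)
      one_smul := fun x => by
        show (1 * x.1, x.2) = x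
        rw [one_mul]
      mul_smul := fun g g' x => by
        show (g * g' * x.1, x.2) = (g * (g' * x.1), x.2)
        rw [mul_assoc] }
  have hsm : ∀ (g : P) (x : P × B), g • x = (g * x.1, x.2) := fun _ _ => rfl
  let N : Submodule K (P × B → K) :=
    { carrier := {ψ | ∀ φ ∈ M, ∑ x, φ x * ψ x = 0}
      add_mem' := by
        intro a c ha hc φ hφ
        simp only [Pi.add_apply, mul_add, sum_add_distrib, ha φ hφ, hc φ hφ, add_zero]
      zero_mem' := by intro φ _; simp
      smul_mem' := by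
        intro k a ha φ hφ
        have : ∀ x, φ x * (k • a) x = k * (φ x * a x) := fun x => by
          simp only [Pi.smul_apply, smul_eq_mul]; ring
        rw [sum_congr rfl fun x _ => this x, ← mul_sum, ha φ hφ, mul_zero] }
  have hN : Stable P N := by
    intro g ψ hψ φ hφ
    have h1 := hψ _ (hM g⁻¹ φ hφ)
    rw [← h1]
    refine Fintype.sum_equiv (MulAction.toPerm (g⁻¹ : P)) _ _ fun x => ?_
    simp only [MulAction.toPerm_apply, hsm, tr_apply, inv_inv, mul_inv_cancel_left]
  have hNne : N ≠ ⊥ := by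
    intro hbot
    have hψ : (fun x => ℓ (Pi.single x 1)) ∈ N := by
      intro φ hφ
      have h1 : φ = ∑ x, φ x • (Pi.single x (1 : K) : P × B → K) := by
        funext y
        simp [Finset.sum_apply, Pi.single_apply]
      have h2 : ℓ φ = 0 := hℓ hφ
      rw [h1, map_sum] at h2
      simpa [map_smul, smul_eq_mul] using h2
    rw [hbot, Submodule.mem_bot] at hψ
    apply hℓ0
    refine LinearMap.pi_ext' fun x => ?_
    refine LinearMap.ext_ring ?_
    simpa using congrFun hψ x
  obtain ⟨ψ, hψ, hψ0, hψf⟩ := exists_fixed hP hN hNne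
  have hconst : ∀ (g : P) (b : B), ψ (g, b) = ψ (1, b) := by
    intro g b
    have h1 := congrFun (hψf g) (g, b)
    simpa [hsm] using h1.symm
  apply hψ0
  funext x
  obtain ⟨g, b⟩ := x
  rw [hconst g b]
  obtain ⟨φ, hφ, hφt⟩ := htr (Pi.single b 1)
  have h1 := hψ φ hφ
  rw [Fintype.sum_prod_type_right] at h1
  have h2 : ∀ b', ∑ g' : P, φ (g', b') * ψ (g', b') = (Pi.single b 1 : B → K) b' * ψ (1, b') := by
    intro b'
    rw [← hφt b', sum_mul]
    exact sum_congr rfl fun g' _ => by rw [hconst g' b']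
  rw [sum_congr rfl fun b' _ => h2 b'] at h1
  simpa [Pi.single_apply] using h1

variable [Fintype P]

/-- the restriction map -/
def restrict (h : B → Ω) : (Ω → K) →ₗ[K] (P × B → K) where
  toFun f x := f (x.1 • h x.2)
  map_add' _ _ := rfl
  map_smul' _ _ := rfl

@[simp] theorem restrict_apply (h : B → Ω) (f : Ω → K) (x : P × B) :
    restrict (P := P) h f x = f (x.1 • h x.2) := rfl

theorem restrict_surjective {p : ℕ} [Fact p.Prime] [CharP K p] [Finite K] [Fintype B]
    [DecidableEq B] (hP : IsPGroup p P) {V : Submodule K (Ω → K)} (hV : Stable P V) (h : B → Ω)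
    (htr : ∀ c : B → K, ∃ F ∈ V, ∀ b, ∑ g : P, F (g • h b) = c b) (φ : P × B → K) :
    ∃ f ∈ V, ∀ (g : P) (b : B), f (g • h b) = φ (g, b) := by
  have htop : V.map (restrict (P := P) h) = ⊤ := by
    refine eq_top_of_trace hP _ ?_ ?_
    · rintro g _ ⟨f, hf, rfl⟩
      refine ⟨tr g f, hV g f hf, ?_⟩
      funext x
      simp [mul_smul]
    · intro c
      obtain ⟨F, hF, hFc⟩ := htr c
      exact ⟨_, ⟨F, hF, rfl⟩, fun b => by simpa using hFc b⟩
  have : φ ∈ V.map (restrict (P := P) h) := by rw [htop]; exact Submodule.mem_top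
  obtain ⟨f, hf, hfφ⟩ := this
  exact ⟨f, hf, fun g b => congrFun hfφ (g, b)⟩

/-- **Rigidity, rank `|B|`**: the restriction of `V` to the orbits of the base points is bijective. -/
theorem restrict_bijective {p : ℕ} [Fact p.Prime] [CharP K p] [Finite K] [Finite Ω] [Fintype B]
    [DecidableEq B] (hP : IsPGroup p P) {V : Submodule K (Ω → K)} (hV : Stable P V) (h : B → Ω)
    (hfix : ∀ f ∈ V, (∀ g : P, tr g f = f) → (∀ b, f (h b) = 0) → f = 0)
    (htr : ∀ c : B → K, ∃ F ∈ V, ∀ b, ∑ g : P, F (g • h b) = c b) :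
    Function.Bijective fun (f : V) (x : P × B) => f.1 (x.1 • h x.2) := by
  constructor
  · intro f f' hff
    refine Subtype.ext (sub_eq_zero.1 ?_)
    refine restrict_injective hP hV h hfix (V.sub_mem f.2 f'.2) fun g b => ?_
    have := congrFun hff (g, b)
    simpa [sub_eq_zero] using this
  · intro φ
    obtain ⟨f, hf, hfφ⟩ := restrict_surjective hP hV h htr φ
    exact ⟨⟨f, hf⟩, by funext x; exact hfφ x.1 x.2⟩

/-! ### rank one -/

theorem trace_const {V : Submodule K (Ω → K)} {h0 : Ω} {F : Ω → K}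
    (hF : F ∈ V) (hF0 : ∑ g : P, F (g • h0) ≠ 0) (c : K) :
    ∃ F' ∈ V, ∑ g : P, F' (g • h0) = c := by
  refine ⟨(c * (∑ g : P, F (g • h0))⁻¹) • F, V.smul_mem _ hF, ?_⟩
  simp only [Pi.smul_apply, smul_eq_mul]
  rw [← mul_sum, mul_assoc, inv_mul_cancel₀ hF0, mul_one]

/-- **Rigidity, rank one** (#5399): fixed words of `V` vanishing at `h0` are zero and some word of
`V` has non-zero trace at `h0`; then `V → Fun(P, K)` is bijective. -/
theorem restrict_bijective_one {p : ℕ} [Fact p.Prime] [CharP K p] [Finite K] [Finite Ω]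
    (hP : IsPGroup p P) {V : Submodule K (Ω → K)} (hV : Stable P V) (h0 : Ω)
    (hfix : ∀ f ∈ V, (∀ g : P, tr g f = f) → f h0 = 0 → f = 0)
    {F : Ω → K} (hF : F ∈ V) (hF0 : ∑ g : P, F (g • h0) ≠ 0) :
    Function.Bijective fun (f : V) (g : P) => f.1 (g • h0) := by
  have key := restrict_bijective (B := Unit) hP hV (fun _ => h0)
    (fun f hf hf' h => hfix f hf hf' (h ()))
    (fun c => by
      obtain ⟨F', hF', hF'c⟩ := trace_const hF hF0 (c ())
      exact ⟨F', hF', fun _ => hF'c⟩)
  constructor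
  · intro f f' hff
    refine key.1 ?_
    funext x
    exact congrFun hff x.1
  · intro φ
    obtain ⟨f, hf⟩ := key.2 fun x => φ x.1
    exact ⟨f, by funext g; exact congrFun hf (g, ())⟩

/-- the form with the base word `w0`: `V^P = K w0`, `w0 h0 ≠ 0`, `Σ_P F = w0` -/
theorem restrict_bijective_base {p : ℕ} [Fact p.Prime] [CharP K p] [Finite K] [Finite Ω]
    (hP : IsPGroup p P) {V : Submodule K (Ω → K)} (hV : Stable P V) (h0 : Ω) {w0 : Ω → K}
    (hw0 : w0 h0 ≠ 0) (hfix : ∀ f ∈ V, (∀ g : P, tr g f = f) → ∃ c : K, f = c • w0)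
    {F : Ω → K} (hF : F ∈ V) (hFw : ∑ g : P, tr g F = w0) :
    Function.Bijective fun (f : V) (g : P) => f.1 (g • h0) := by
  refine restrict_bijective_one hP hV h0 (fun f hf hf' h => ?_) hF ?_
  · obtain ⟨c, rfl⟩ := hfix f hf hf'
    have : c = 0 := by simpa [hw0] using h
    rw [this, zero_smul]
  · have h1 : ∑ g : P, F (g • h0) = w0 h0 := by
      rw [← hFw, Finset.sum_apply]
      exact Fintype.sum_equiv (Equiv.inv P) _ _ fun g => by simp
    rw [h1]; exact hw0

/-- the rank-one coordinate equivalence -/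
noncomputable def coords {V : Submodule K (Ω → K)} (h0 : Ω)
    (hb : Function.Bijective fun (f : V) (g : P) => f.1 (g • h0)) : V ≃ₗ[K] (P → K) :=
  LinearEquiv.ofBijective
    { toFun := fun (f : V) (g : P) => f.1 (g • h0)
      map_add' := fun _ _ => rfl
      map_smul' := fun _ _ => rfl } hb

theorem finrank_eq {V : Submodule K (Ω → K)} (h0 : Ω)
    (hb : Function.Bijective fun (f : V) (g : P) => f.1 (g • h0)) :
    Module.finrank K V = Fintype.card P := by
  rw [(coords h0 hb).finrank_eq, Module.finrank_fintype_fun_eq_card]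

/-- extension of a content to the unique word of `V` -/
theorem exists_ext {V : Submodule K (Ω → K)} {h0 : Ω}
    (hb : Function.Bijective fun (f : V) (g : P) => f.1 (g • h0)) (c : P → K) :
    ∃ f ∈ V, ∀ g : P, f (g • h0) = c g := by
  obtain ⟨f, hf⟩ := hb.2 c
  exact ⟨f.1, f.2, fun g => congrFun hf g⟩

theorem ext_of_content {V : Submodule K (Ω → K)} {h0 : Ω}
    (hb : Function.Bijective fun (f : V) (g : P) => f.1 (g • h0)) {f f' : Ω → K} (hf : f ∈ V)
    (hf' : f' ∈ V) (h : ∀ g : P, f (g • h0) = f' (g • h0)) : f = f' :=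
  congrArg Subtype.val (hb.1 (a₁ := ⟨f, hf⟩) (a₂ := ⟨f', hf'⟩) (funext h))

/-- delta word and its translates: `f = Σ_g f (g • h0) • tr g D` -/
theorem exists_delta [DecidableEq P] {V : Submodule K (Ω → K)} (hV : Stable P V) {h0 : Ω}
    (hb : Function.Bijective fun (f : V) (g : P) => f.1 (g • h0)) :
    ∃ D ∈ V, (∀ g : P, D (g • h0) = if g = 1 then 1 else 0) ∧
      ∀ f ∈ V, f = ∑ g : P, f (g • h0) • tr g D := by
  obtain ⟨D, hD, hD1⟩ := exists_ext hb fun g => if g = 1 then 1 else 0
  refine ⟨D, hD, hD1, fun f hf => ?_⟩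
  refine ext_of_content hb hf (V.sum_mem fun g _ => V.smul_mem _ (hV g D hD)) fun g => ?_
  simp only [Finset.sum_apply, Pi.smul_apply, tr_apply, smul_eq_mul, ← mul_smul, hD1,
    inv_mul_eq_one]
  simp

end Crest.Agent.R289.Socle608
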