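import Crest.Agent.R289.DefE_217
import Crest.Agent.R289.DefD_721

/-!
# Row 289, block D, leaf D2: soft Kleene logic on `PExp` (helper180)

`Rep v k`: the rational `v ∈ [0,1]` represents the Kleene value `k`.  Comparators on sampled
averages, connectives, the two force formulas of `DefD.MRest`, and the scalar rules.
-/

set_option autoImplicit false

namespace Crest.Agent.R289.Soft180

open Crest.Agent.R289 Crest.Agent.R289.DefD

/-! ### expressions -/

/-- `1 - a` -/
def notP (a : PExp) : PExp := .sub (.const 1) a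
/-- `max 0 (a + b - 1)` -/
def andP (a b : PExp) : PExp := .sub a (notP b)
/-- `min 1 (a + b)` -/
def orP (a b : PExp) : PExp := .add a b
/-- `a` if `s = 1`, `b` if `s = 0`, the common Boolean value for every `s` -/
def muxP (s a b : PExp) : PExp := .add (.sub a (notP s)) (.sub b s)
/-- `min 1 (n a)` -/
def nmulP : ℕ → PExp → PExp
  | 0, _ => .const 0
  | n + 1, a => .add (nmulP n a) a
/-- `min 1 (n * max 0 (t - a))` -/
def ltP (t : ℚ) (n : ℕ) (a : PExp) : PExp := nmulP n (.sub (.const t) a)
/-- `min 1 (n * max 0 (a - t))` -/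
def gtP (t : ℚ) (n : ℕ) (a : PExp) : PExp := nmulP n (.sub a (.const t))
/-- `min 1 (8/7 * max 0 (a - 1/16))` -/
def strP (a : PExp) : PExp := .add (.sub a (.const (1 / 16))) (.scale (1 / 7) (.sub a (.const (1 / 16))))
/-- capped sum -/
def sumP : List PExp → PExp
  | [] => .const 0
  | a :: l => .add a (sumP l)
/-- mean of a list (`q` = 1 / length) -/
def avgP (q : ℚ) (l : List PExp) : PExp := sumP (l.map (.scale q))

section evals
variable (x : ℕ → ℕ → ℚ)

/-- value in `[0,1]` -/
def In (a : PExp) : Prop := 0 ≤ a.eval x ∧ a.eval x ≤ 1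

variable {x}

theorem In_of_WF {K L : ℕ} {a : PExp} (hx : ∀ k l, 0 ≤ x k l ∧ x k l ≤ 1) (h : a.WF K L) : In x a := by
  unfold In
  induction a with
  | var k l => exact hx k l
  | const q => exact h
  | scale q e ih =>
    obtain ⟨h1, h2⟩ := ih h.2
    simp only [PExp.eval]
    obtain ⟨h3, h4⟩ := h.1
    constructor
    · positivity
    · calc q * e.eval x ≤ 1 * 1 := by gcongr
        _ = 1 := by norm_num
  | add a b iha ihb =>
    obtain ⟨h1, h2⟩ := iha h.1
    obtain ⟨h3, h4⟩ := ihb h.2
    simp only [PExp.eval]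
    exact ⟨le_min (by linarith) (by norm_num), min_le_right _ _⟩
  | sub a b iha ihb =>
    obtain ⟨h1, h2⟩ := iha h.1
    obtain ⟨h3, h4⟩ := ihb h.2
    simp only [PExp.eval]
    exact ⟨le_max_right _ _, max_le (by linarith) (by norm_num)⟩

theorem eval_notP {a : PExp} (ha : In x a) : (notP a).eval x = 1 - a.eval x := by
  simp only [notP, PExp.eval]
  exact max_eq_left (by have := ha.2; linarith)

theorem eval_andP {a b : PExp} (hb : In x b) :
    (andP a b).eval x = max (a.eval x + b.eval x - 1) 0 := by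
  simp only [andP]
  rw [PExp.eval, eval_notP hb]
  congr 1
  ring

theorem eval_orP {a b : PExp} : (orP a b).eval x = min (a.eval x + b.eval x) 1 := rfl

theorem eval_muxP {s a b : PExp} (hs : In x s) : (muxP s a b).eval x =
    min (max (a.eval x - (1 - s.eval x)) 0 + max (b.eval x - s.eval x) 0) 1 := by
  simp only [muxP]
  rw [PExp.eval, PExp.eval, PExp.eval, eval_notP hs]

theorem eval_nmulP {a : PExp} (ha : 0 ≤ a.eval x) (n : ℕ) :
    (nmulP n a).eval x = min (n * a.eval x) 1 := by
  induction n with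
  | zero => simp [nmulP, PExp.eval]
  | succ n ih =>
    simp only [nmulP, PExp.eval, ih]
    push_cast
    have h1 : 0 ≤ (n : ℚ) * a.eval x := by positivity
    rcases le_total ((n : ℚ) * a.eval x) 1 with h | h
    · rw [min_eq_left h]
      congr 1
      ring
    · rw [min_eq_right h, min_eq_right (by linarith), min_eq_right (by nlinarith)]

theorem eval_ltP (t : ℚ) (n : ℕ) (a : PExp) :
    (ltP t n a).eval x = min (n * max (t - a.eval x) 0) 1 := by
  unfold ltP
  rw [eval_nmulP]
  · rfl
  · exact le_max_right _ _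

theorem eval_gtP (t : ℚ) (n : ℕ) (a : PExp) :
    (gtP t n a).eval x = min (n * max (a.eval x - t) 0) 1 := by
  unfold gtP
  rw [eval_nmulP]
  · rfl
  · exact le_max_right _ _

/-- the stretch map -/
def stretch (y : ℚ) : ℚ := min (8 / 7 * max (y - 1 / 16) 0) 1

theorem eval_strP (a : PExp) : (strP a).eval x = stretch (a.eval x) := by
  simp only [strP, PExp.eval, stretch]
  congr 1
  ring

theorem stretch_mem (y : ℚ) : 0 ≤ stretch y ∧ stretch y ≤ 1 := by
  unfold stretch
  exact ⟨le_min (by positivity) (by norm_num), min_le_right _ _⟩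

theorem eval_sumP (l : List PExp) (hl : ∀ a ∈ l, 0 ≤ a.eval x) :
    (sumP l).eval x = min ((l.map fun a => a.eval x).sum) 1 := by
  induction l with
  | nil => simp [sumP, PExp.eval]
  | cons a l ih =>
    have h1 := ih fun b hb => hl b (List.mem_cons_of_mem _ hb)
    have h2 := hl a List.mem_cons_self
    simp only [sumP, PExp.eval, h1, List.map_cons, List.sum_cons]
    rcases le_total ((l.map fun a => a.eval x).sum) 1 with h | h
    · rw [min_eq_left h]
    · rw [min_eq_right h, min_eq_right (by linarith), min_eq_right (by linarith)]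

theorem eval_avgP {q : ℚ} (hq : 0 ≤ q) {l : List PExp} (hl : ∀ a ∈ l, In x a)
    (hql : q * l.length ≤ 1) :
    (avgP q l).eval x = q * (l.map fun a => a.eval x).sum := by
  unfold avgP
  rw [eval_sumP]
  · have h1 : ((l.map (PExp.scale q)).map fun a => a.eval x).sum = q * (l.map fun a => a.eval x).sum := by
      rw [List.map_map]
      have : ((fun a : PExp => a.eval x) ∘ PExp.scale q) = fun a => q * a.eval x := rfl
      rw [this, List.sum_map_mul_left]
    rw [h1]
    apply min_eq_left
    have h2 : (l.map fun a => a.eval x).sum ≤ l.length := by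
      calc (l.map fun a => a.eval x).sum ≤ (l.map fun _ => (1 : ℚ)).sum :=
            List.sum_le_sum fun a ha => (hl a ha).2
        _ = l.length := by simp
    calc q * (l.map fun a => a.eval x).sum ≤ q * l.length := by gcongr
      _ ≤ 1 := hql
  · intro a ha
    rw [List.mem_map] at ha
    obtain ⟨b, hb, rfl⟩ := ha
    have := (hl b hb).1
    simp only [PExp.eval]
    positivity

end evals

section wf
variable {K L : ℕ}

theorem WF_notP {a : PExp} (ha : a.WF K L) : (notP a).WF K L := ⟨by simp [PExp.WF], ha⟩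
theorem WF_andP {a b : PExp} (ha : a.WF K L) (hb : b.WF K L) : (andP a b).WF K L := ⟨ha, WF_notP hb⟩
theorem WF_orP {a b : PExp} (ha : a.WF K L) (hb : b.WF K L) : (orP a b).WF K L := ⟨ha, hb⟩
theorem WF_muxP {s a b : PExp} (hs : s.WF K L) (ha : a.WF K L) (hb : b.WF K L) :
    (muxP s a b).WF K L := ⟨⟨ha, WF_notP hs⟩, ⟨hb, hs⟩⟩
theorem WF_nmulP {a : PExp} (ha : a.WF K L) (n : ℕ) : (nmulP n a).WF K L := by
  induction n with
  | zero => simp [nmulP, PExp.WF]
  | succ n ih => exact ⟨ih, ha⟩
theorem WF_ltP {t : ℚ} (ht : 0 ≤ t ∧ t ≤ 1) (n : ℕ) {a : PExp} (ha : a.WF K L) :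
    (ltP t n a).WF K L := WF_nmulP (a := .sub (.const t) a) ⟨ht, ha⟩ n
theorem WF_gtP {t : ℚ} (ht : 0 ≤ t ∧ t ≤ 1) (n : ℕ) {a : PExp} (ha : a.WF K L) :
    (gtP t n a).WF K L := WF_nmulP (a := .sub a (.const t)) ⟨ha, ht⟩ n
theorem WF_strP {a : PExp} (ha : a.WF K L) : (strP a).WF K L := by
  have h : (PExp.sub a (.const (1 / 16))).WF K L := ⟨ha, by norm_num [PExp.WF]⟩
  exact ⟨h, ⟨by norm_num, h⟩⟩
theorem WF_sumP {l : List PExp} (hl : ∀ a ∈ l, a.WF K L) : (sumP l).WF K L := by
  induction l with
  | nil => simp [sumP, PExp.WF]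
  | cons a l ih => exact ⟨hl a List.mem_cons_self, ih fun b hb => hl b (List.mem_cons_of_mem _ hb)⟩
theorem WF_avgP {q : ℚ} (hq : 0 ≤ q ∧ q ≤ 1) {l : List PExp} (hl : ∀ a ∈ l, a.WF K L) :
    (avgP q l).WF K L := by
  refine WF_sumP fun a ha => ?_
  rw [List.mem_map] at ha
  obtain ⟨b, hb, rfl⟩ := ha
  exact ⟨hq, hl b hb⟩

end wf

/-! ### representation of Kleene values -/

/-- `v` represents the Kleene value `k` -/
def Rep (v : ℚ) (k : K3) : Prop := (k = some true → v = 1) ∧ (k = some false → v = 0) ∧ 0 ≤ v ∧ v ≤ 1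

section rep
variable {x : ℕ → ℕ → ℚ}

theorem Rep.in {a : PExp} {k : K3} (h : Rep (a.eval x) k) : In x a := h.2.2

theorem Rep.not {a : PExp} {k : K3} (h : Rep (a.eval x) k) : Rep ((notP a).eval x) (k3not k) := by
  rw [eval_notP h.in]
  obtain ⟨h1, h2, h3, h4⟩ := h
  rcases k with _ | _ | _
  · exact ⟨by simp [k3not], by simp [k3not], by linarith, by linarith⟩
  · have := h2 rfl
    exact ⟨by intro _; linarith, by simp [k3not], by linarith, by linarith⟩
  · have := h1 rfl
    exact ⟨by simp [k3not], by intro _; linarith, by linarith, by linarith⟩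

theorem Rep.and {a b : PExp} {k k' : K3} (h : Rep (a.eval x) k) (h' : Rep (b.eval x) k') :
    Rep ((andP a b).eval x) (k3and k k') := by
  rw [eval_andP h'.in]
  obtain ⟨h1, h2, h3, h4⟩ := h
  obtain ⟨g1, g2, g3, g4⟩ := h'
  refine ⟨fun hk => ?_, fun hk => ?_, le_max_right _ _, max_le (by linarith) (by norm_num)⟩
  · have : k = some true ∧ k' = some true := by
      rcases k with _ | _ | _ <;> rcases k' with _ | _ | _ <;> simp_all [k3and]
    rw [h1 this.1, g1 this.2]
    norm_num
  · have : k = some false ∨ k' = some false := by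
      rcases k with _ | _ | _ <;> rcases k' with _ | _ | _ <;> simp_all [k3and]
    apply max_eq_right
    rcases this with h | h
    · rw [h2 h]; linarith
    · rw [g2 h]; linarith

theorem Rep.or {a b : PExp} {k k' : K3} (h : Rep (a.eval x) k) (h' : Rep (b.eval x) k') :
    Rep ((orP a b).eval x) (k3or k k') := by
  rw [eval_orP]
  obtain ⟨h1, h2, h3, h4⟩ := h
  obtain ⟨g1, g2, g3, g4⟩ := h'
  refine ⟨fun hk => ?_, fun hk => ?_, le_min (by linarith) (by norm_num), min_le_right _ _⟩
  · have : k = some true ∨ k' = some true := by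
      rcases k with _ | _ | _ <;> rcases k' with _ | _ | _ <;> simp_all [k3or]
    apply min_eq_right
    rcases this with h | h
    · rw [h1 h]; linarith
    · rw [g1 h]; linarith
  · have : k = some false ∧ k' = some false := by
      rcases k with _ | _ | _ <;> rcases k' with _ | _ | _ <;> simp_all [k3or]
    rw [h2 this.1, g2 this.2]
    norm_num

theorem Rep.mux {s a b : PExp} {k k1 k2 : K3} (hs : Rep (s.eval x) k) (h : Rep (a.eval x) k1)
    (h' : Rep (b.eval x) k2) : Rep ((muxP s a b).eval x) (k3mux k k1 k2) := by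
  rw [eval_muxP hs.in]
  obtain ⟨s1, s2, s3, s4⟩ := hs
  obtain ⟨h1, h2, h3, h4⟩ := h
  obtain ⟨g1, g2, g3, g4⟩ := h'
  have m1 := le_max_right (a.eval x - (1 - s.eval x)) 0
  have m2 := le_max_right (b.eval x - s.eval x) 0
  refine ⟨fun hk => ?_, fun hk => ?_, le_min (by linarith) (by norm_num), min_le_right _ _⟩
  · have : (k = some true ∧ k1 = some true) ∨ (k = some false ∧ k2 = some true) ∨
        (k1 = some true ∧ k2 = some true) := by
      rcases k with _ | _ | _ <;> rcases k1 with _ | _ | _ <;> rcases k2 with _ | _ | _ <;>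
        simp_all [k3mux]
    apply min_eq_right
    rcases this with ⟨ha, hb⟩ | ⟨ha, hb⟩ | ⟨ha, hb⟩
    · have e1 := s1 ha
      have e2 := h1 hb
      rw [e1, e2] at *
      norm_num at *
    · have e1 := s2 ha
      have e2 := g1 hb
      rw [e1, e2] at *
      norm_num at *
    · have e1 := h1 ha
      have e2 := g1 hb
      rw [e1, e2, max_eq_left (by linarith), max_eq_left (by linarith)]
      linarith
  · have : (k = some true ∧ k1 = some false) ∨ (k = some false ∧ k2 = some false) ∨
        (k1 = some false ∧ k2 = some false) := by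
      rcases k with _ | _ | _ <;> rcases k1 with _ | _ | _ <;> rcases k2 with _ | _ | _ <;>
        simp_all [k3mux]
    rcases this with ⟨ha, hb⟩ | ⟨ha, hb⟩ | ⟨ha, hb⟩
    · rw [s1 ha, h2 hb, max_eq_right (by norm_num), max_eq_right (by linarith)]
      norm_num
    · rw [s2 ha, g2 hb, max_eq_right (by linarith), max_eq_right (by norm_num)]
      norm_num
    · rw [h2 ha, g2 hb, max_eq_right (by linarith), max_eq_right (by linarith)]
      norm_num

/-- the mux of two expressions on Booleans: exact value `g` whenever every possible branch has it -/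
theorem mux_bool {s a b : PExp} {k : K3} (hs : Rep (s.eval x) k) (g : Bool)
    (ha : k ≠ some false → a.eval x = if g then 1 else 0)
    (hb : k ≠ some true → b.eval x = if g then 1 else 0)
    (ha' : 0 ≤ a.eval x ∧ a.eval x ≤ 1) (hb' : 0 ≤ b.eval x ∧ b.eval x ≤ 1) :
    (muxP s a b).eval x = if g then 1 else 0 := by
  have := Rep.mux (k1 := if k = some false then none else some g)
    (k2 := if k = some true then none else some g) hs (a := a) (b := b) ?_ ?_
  · cases g
    · apply this.2.1
      rcases k with _ | _ | _ <;> simp [k3mux]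
    · apply this.1
      rcases k with _ | _ | _ <;> simp [k3mux]
  · refine ⟨fun h => ?_, fun h => ?_, ha'⟩
    · by_cases hk : k = some false
      · simp [hk] at h
      · rw [if_neg hk] at h
        rw [ha hk]
        simp_all
    · by_cases hk : k = some false
      · simp [hk] at h
      · rw [if_neg hk] at h
        rw [ha hk]
        simp_all
  · refine ⟨fun h => ?_, fun h => ?_, hb'⟩
    · by_cases hk : k = some true
      · simp [hk] at h
      · rw [if_neg hk] at h
        rw [hb hk]
        simp_all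
    · by_cases hk : k = some true
      · simp [hk] at h
      · rw [if_neg hk] at h
        rw [hb hk]
        simp_all

/-- comparator on a good estimate -/
theorem Rep.lt {e m : ℝ} {t : ℚ} {n : ℕ} {a : PExp} (he : 0 < e) (hn : 2 / e ≤ n)
    (h : |((a.eval x : ℚ) : ℝ) - m| ≤ e / 2) : Rep ((ltP t n a).eval x) (cmp e m t) := by
  rw [eval_ltP]
  rw [abs_le] at h
  refine ⟨fun hk => ?_, fun hk => ?_, le_min (by positivity) (by norm_num), min_le_right _ _⟩
  · have hm : m ≤ t - e := by
      unfold DefD.cmp at hk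
      by_contra h1
      rw [if_neg h1] at hk
      by_cases h2 : (t : ℝ) + e ≤ m
      · rw [if_pos h2] at hk; simp at hk
      · rw [if_neg h2] at hk; simp at hk
    apply min_eq_right
    have h1 : (e / 2 : ℝ) ≤ ((t - a.eval x : ℚ) : ℝ) := by push_cast; linarith
    have h2 : (1 : ℝ) ≤ (((n : ℚ) * max (t - a.eval x) 0 : ℚ) : ℝ) := by
      have h3 : ((t - a.eval x : ℚ) : ℝ) ≤ ((max (t - a.eval x) 0 : ℚ) : ℝ) := by
        exact_mod_cast le_max_left _ _
      rw [Rat.cast_mul, Rat.cast_natCast]
      calc (1 : ℝ) = 2 / e * (e / 2) := by field_simp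
        _ ≤ (n : ℝ) * (e / 2) := by gcongr
        _ ≤ (n : ℝ) * ((max (t - a.eval x) 0 : ℚ) : ℝ) := by
          gcongr
          linarith
    exact_mod_cast h2
  · have hm : (t : ℝ) + e ≤ m := by
      unfold DefD.cmp at hk
      by_contra h2
      rw [if_neg h2] at hk
      by_cases h1 : m ≤ (t : ℝ) - e
      · rw [if_pos h1] at hk; simp at hk
      · rw [if_neg h1] at hk; simp at hk
    have h1 : t - a.eval x ≤ 0 := by
      have : ((t - a.eval x : ℚ) : ℝ) ≤ 0 := by push_cast; linarith
      exact_mod_cast this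
    rw [max_eq_right h1]
    norm_num

end rep

/-! ### scalar rules -/

/-- rule of a scalar: `clamp (mean ± 1/4)` -/
def scalP (m F : PExp) : PExp := .sub (.add m (.scale (1 / 4) F)) (.scale (1 / 4) (notP F))

theorem WF_scalP {K L : ℕ} {m F : PExp} (hm : m.WF K L) (hF : F.WF K L) : (scalP m F).WF K L :=
  ⟨⟨hm, ⟨by norm_num, hF⟩⟩, ⟨by norm_num, WF_notP hF⟩⟩

theorem scal_up {x : ℕ → ℕ → ℚ} {m F : PExp} {k : K3} {S κ y : ℝ} {r : ℚ} (hF : Rep (F.eval x) k)
    (hk : k = some true) (hm : In x m) (hS : |((m.eval x : ℚ) : ℝ) - S| ≤ 1 / 100) (hκ : κ ≤ 1 / 10)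
    (hr : |r - (scalP m F).eval x| ≤ 1 / 64) (hy : y = ((stretch r : ℚ) : ℝ)) :
    min 1 (S + κ) ≤ y := by
  have hF1 := hF.1 hk
  have hv : (scalP m F).eval x = min (m.eval x + 1 / 4) 1 := by
    simp only [scalP, PExp.eval]
    rw [eval_notP hF.in, hF1]
    rw [max_eq_left]
    · norm_num
    · have := hm.1
      norm_num
      linarith
  rw [hv, abs_le] at hr
  subst hy
  rw [abs_le] at hS
  rcases le_total (m.eval x + 1 / 4) 1 with h | h
  · rw [min_eq_left h] at hr
    have h1 : m.eval x + 11 / 64 ≤ r - 1 / 16 := by linarith [hr.1]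
    have h2 : m.eval x + 11 / 56 ≤ 8 / 7 * max (r - 1 / 16) 0 := by
      have := le_max_left (r - 1 / 16) 0
      have := hm.1
      linarith
    have h3 : min 1 (m.eval x + 11 / 56) ≤ stretch r := by
      unfold stretch
      exact le_min (le_trans (min_le_right _ _) h2) (min_le_left _ _)
    have h4 : ((min 1 (m.eval x + 11 / 56) : ℚ) : ℝ) ≤ ((stretch r : ℚ) : ℝ) := by exact_mod_cast h3
    refine le_trans ?_ h4
    push_cast
    exact min_le_min (le_refl _) (by linarith)
  · rw [min_eq_right h] at hr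
    have h3 : stretch r = 1 := by
      unfold stretch
      apply min_eq_right
      have := le_max_left (r - 1 / 16) 0
      linarith [hr.1]
    rw [h3]
    exact le_trans (min_le_left _ _) (by norm_num)

theorem scal_dn {x : ℕ → ℕ → ℚ} {m F : PExp} {k : K3} {S κ y : ℝ} {r : ℚ} (hF : Rep (F.eval x) k)
    (hk : k = some false) (hm : In x m) (hS : |((m.eval x : ℚ) : ℝ) - S| ≤ 1 / 100) (hκ : κ ≤ 1 / 10)
    (hr : |r - (scalP m F).eval x| ≤ 1 / 64) (hy : y = ((stretch r : ℚ) : ℝ)) :
    y ≤ max 0 (S - κ) := by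
  have hF1 := hF.2.1 hk
  have hv : (scalP m F).eval x = max (m.eval x - 1 / 4) 0 := by
    simp only [scalP, PExp.eval]
    rw [eval_notP hF.in, hF1, min_eq_left (by have := hm.2; linarith)]
    norm_num
  rw [hv, abs_le] at hr
  subst hy
  rw [abs_le] at hS
  rcases le_total (m.eval x - 1 / 4) 0 with h | h
  · rw [max_eq_right h] at hr
    have h3 : stretch r = 0 := by
      unfold stretch
      rw [max_eq_right (by linarith [hr.2])]
      norm_num
    rw [h3]
    exact le_trans (by norm_num) (le_max_left _ _)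
  · rw [max_eq_left h] at hr
    have h1 : r - 1 / 16 ≤ m.eval x - 19 / 64 := by linarith [hr.2]
    have h2 : stretch r ≤ max 0 (m.eval x - 11 / 56) := by
      unfold stretch
      refine le_trans (min_le_left _ _) ?_
      rcases le_total (r - 1 / 16) 0 with h5 | h5
      · rw [max_eq_right h5]
        exact le_trans (by norm_num) (le_max_left _ _)
      · rw [max_eq_left h5]
        refine le_trans ?_ (le_max_right _ _)
        have := hm.2
        linarith
    have h4 : ((stretch r : ℚ) : ℝ) ≤ ((max 0 (m.eval x - 11 / 56) : ℚ) : ℝ) := by exact_mod_cast h2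
    refine le_trans h4 ?_
    push_cast
    exact max_le_max (le_refl _) (by linarith)

end Crest.Agent.R289.Soft180
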