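import Mathlib

/-!
R289, block B1: generic spectral tools.
* `finrank_mul_pow_le_trace`: multiplicity times power of the eigenvalue is at most the trace;
* `orbit_le_finrank`: the orbit of a character of an abelian subgroup bounds the dimension;
* `gap_of_eigen`: a bound for all eigenvalues on an invariant subspace bounds the quadratic form;
* `mixing`: expander mixing lemma for a bipartite biregular multigraph.
-/

set_option autoImplicit false

namespace Crest.Agent.R289.Spec686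

open scoped BigOperators ComplexConjugate InnerProductSpace
open Module

section abstract_inner
variable {V : Type*} [NormedAddCommGroup V] [InnerProductSpace ℂ V] [FiniteDimensional ℂ V]

omit [FiniteDimensional ℂ V] in
theorem re_inner_pow_nonneg {T : V →ₗ[ℂ] V} (hT : T.IsSymmetric)
    (hp : ∀ v, 0 ≤ (⟪T v, v⟫_ℂ).re) (L : ℕ) (v : V) : 0 ≤ (⟪v, (T ^ L) v⟫_ℂ).re := by
  have sym : ∀ k : ℕ, ∀ x y : V, ⟪(T ^ k) x, y⟫_ℂ = ⟪x, (T ^ k) y⟫_ℂ := by
    intro k
    induction k with
    | zero => intro x y; simp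
    | succ k ih =>
      intro x y
      rw [pow_succ, Module.End.mul_apply, ih, Module.End.mul_apply, hT]
      rw [← Module.End.mul_apply, ← Module.End.mul_apply, ← pow_succ, ← pow_succ']
  rcases Nat.even_or_odd L with ⟨k, hk⟩ | ⟨k, hk⟩
  · rw [hk, pow_add, Module.End.mul_apply, ← sym k]
    exact inner_self_nonneg (𝕜 := ℂ)
  · have : (T ^ L) v = (T ^ k) (T ((T ^ k) v)) := by
      rw [hk, show 2 * k + 1 = k + (1 + k) by ring, pow_add, pow_add, pow_one]
      rfl
    rw [this, ← sym k, ← hT]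
    exact hp _

/-- multiplicity times power of the eigenvalue is at most the trace -/
theorem finrank_mul_pow_le_trace {T : V →ₗ[ℂ] V} (hT : T.IsSymmetric)
    (hp : ∀ v, 0 ≤ (⟪T v, v⟫_ℂ).re) (μ : ℝ) (E : Submodule ℂ V)
    (hE : ∀ v ∈ E, T v = (μ : ℂ) • v) (L : ℕ) :
    (finrank ℂ E : ℝ) * μ ^ L ≤ (LinearMap.trace ℂ V (T ^ L)).re := by
  classical
  let b := stdOrthonormalBasis ℂ E
  let w : Set V := Set.range fun i => ((b i : E) : V)
  have hb : Orthonormal ℂ fun i => ((b i : E) : V) :=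
    b.orthonormal.comp_linearIsometry E.subtypeₗᵢ
  have hw : Orthonormal ℂ ((↑) : w → V) := hb.toSubtypeRange
  obtain ⟨u, c, hwu, hc⟩ := hw.exists_orthonormalBasis_extension
  rw [LinearMap.trace_eq_sum_inner _ c, Complex.re_sum]
  have hcu : ∀ i : u, c i = (i : V) := fun i => by rw [hc]
  have hpow : ∀ v ∈ E, (T ^ L) v = ((μ : ℂ) ^ L) • v := by
    intro v hv
    induction L with
    | zero => simp
    | succ L ih =>
      rw [pow_succ', Module.End.mul_apply, ih, map_smul, hE v hv, smul_smul, pow_succ]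
  have hterm : ∀ i : u, 0 ≤ (⟪c i, (T ^ L) (c i)⟫_ℂ).re := fun i =>
    re_inner_pow_nonneg hT hp L _
  let ι := Fin (finrank ℂ E)
  let φ : ι → u := fun i => ⟨((b i : E) : V), hwu ⟨i, rfl⟩⟩
  have hφ : Function.Injective φ := by
    intro i j hij
    have h0 : ((φ i : u) : V) = ((φ j : u) : V) := congrArg (fun z : u => (z : V)) hij
    exact hb.linearIndependent.injective h0
  calc (finrank ℂ E : ℝ) * μ ^ L = ∑ i : ι, (⟪c (φ i), (T ^ L) (c (φ i))⟫_ℂ).re := by
        rw [Finset.sum_congr rfl (g := fun _ => μ ^ L)]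
        · simp [ι]
        · intro i _
          rw [hcu]
          have h1 : ((φ i : u) : V) = ((b i : E) : V) := rfl
          rw [h1, hpow _ (b i).2, inner_smul_right]
          have h2 : ⟪((b i : E) : V), ((b i : E) : V)⟫_ℂ = 1 := by
            rw [inner_self_eq_norm_sq_to_K]
            have := hb.1 i
            simp only at this
            rw [this]; simp
          rw [h2, mul_one, ← Complex.ofReal_pow, Complex.ofReal_re]
    _ = ∑ i ∈ Finset.univ.image φ, (⟪c i, (T ^ L) (c i)⟫_ℂ).re := by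
        rw [Finset.sum_image (fun i _ j _ h => hφ h)]
    _ ≤ ∑ i : u, (⟪c i, (T ^ L) (c i)⟫_ℂ).re :=
        Finset.sum_le_sum_of_subset_of_nonneg (Finset.subset_univ _) fun i _ _ => hterm i

/-- a bound for all eigenvalues on an invariant subspace bounds the quadratic form there -/
theorem gap_of_eigen {T : V →ₗ[ℂ] V} (hT : T.IsSymmetric) (W : Submodule ℂ V)
    (hW : ∀ v ∈ W, T v ∈ W) (s : ℝ)
    (hs : ∀ (μ : ℝ), ∀ v ∈ W, v ≠ 0 → T v = (μ : ℂ) • v → μ ≤ s) :
    ∀ v ∈ W, (⟪T v, v⟫_ℂ).re ≤ s * ‖v‖ ^ 2 := by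
  intro v hv
  by_cases hv0 : v = 0
  · simp [hv0]
  let S : W →ₗ[ℂ] W := T.restrict hW
  have hS : S.IsSymmetric := hT.restrict_invariant hW
  have : Nontrivial W := ⟨⟨⟨v, hv⟩, 0, fun h => hv0 (congrArg Subtype.val h)⟩⟩
  obtain ⟨x, hx⟩ := hS.hasEigenvalue_iSup_of_finiteDimensional.exists_hasEigenvector
  set r : ℝ := ⨆ x : { x : W // x ≠ 0 }, RCLike.re ⟪S x, x⟫_ℂ / ‖(x : W)‖ ^ 2 with hr
  have h1 : T (x : V) = (r : ℂ) • (x : V) := by
    have := hx.apply_eq_smul
    have h2 := congrArg Subtype.val this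
    simpa [S, LinearMap.restrict_apply] using h2
  have h2 : r ≤ s := hs r x x.2 (fun h => hx.2 (Subtype.ext h)) h1
  have hbdd : BddAbove (Set.range fun x : { x : W // x ≠ 0 } =>
      RCLike.re ⟪S x, x⟫_ℂ / ‖(x : W)‖ ^ 2) := by
    let S' : W →L[ℂ] W := LinearMap.toContinuousLinearMap S
    refine ⟨‖S'‖, ?_⟩
    rintro _ ⟨y, rfl⟩
    have hy : 0 < ‖(y : W)‖ := norm_pos_iff.mpr y.2
    simp only
    rw [div_le_iff₀ (by positivity)]
    calc RCLike.re ⟪S y, y⟫_ℂ ≤ ‖⟪S y, y⟫_ℂ‖ := RCLike.re_le_norm _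
      _ ≤ ‖S y‖ * ‖(y : W)‖ := norm_inner_le_norm _ _
      _ ≤ (‖S'‖ * ‖(y : W)‖) * ‖(y : W)‖ := by
          gcongr
          exact S'.le_opNorm y
      _ = ‖S'‖ * ‖(y : W)‖ ^ 2 := by ring
  have h3 := le_ciSup hbdd ⟨⟨v, hv⟩, fun h => hv0 (congrArg Subtype.val h)⟩
  rw [← hr] at h3
  have hvn : 0 < ‖v‖ ^ 2 := by positivity
  have h4 : RCLike.re ⟪S ⟨v, hv⟩, (⟨v, hv⟩ : W)⟫_ℂ / ‖(⟨v, hv⟩ : W)‖ ^ 2 ≤ s := h3.trans h2
  rw [div_le_iff₀ (by simpa using hvn)] at h4
  simpa [S, LinearMap.restrict_apply] using h4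

end abstract_inner


section chars
variable {F V : Type*} [Field F] [AddCommGroup V] [Module F V]

/-- simultaneous eigenvectors with pairwise distinct characters are linearly independent -/
theorem linearIndependent_of_chars {N ι : Type*} (ρ : N → V →ₗ[F] V) (v : ι → V)
    (χ : ι → N → F) (hv : ∀ i, v i ≠ 0) (he : ∀ i n, ρ n (v i) = χ i n • v i)
    (hd : Function.Injective χ) : LinearIndependent F v := by
  classical
  rw [linearIndependent_iff']
  intro s
  induction s using Finset.induction_on with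
  | empty => intro g _ i hi; simp at hi
  | insert a s ha ih =>
    intro g hg
    rw [Finset.sum_insert ha] at hg
    have key : ∀ i ∈ s, g i = 0 := by
      intro i hi
      have hne : χ i ≠ χ a := fun h => ha (hd h ▸ hi)
      obtain ⟨n, hn⟩ := Function.ne_iff.mp hne
      have h1 : g a • χ a n • v a + ∑ i ∈ s, g i • χ i n • v i = 0 := by
        have := congrArg (ρ n) hg
        simpa [map_add, map_sum, map_smul, he] using this
      have h2 : ∑ i ∈ s, (g i * (χ i n - χ a n)) • v i = 0 := by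
        have h3 : χ a n • (g a • v a + ∑ i ∈ s, g i • v i) = 0 := by rw [hg, smul_zero]
        have h4 : ∑ i ∈ s, (g i * (χ i n - χ a n)) • v i =
            (g a • χ a n • v a + ∑ i ∈ s, g i • χ i n • v i) -
              χ a n • (g a • v a + ∑ i ∈ s, g i • v i) := by
          rw [smul_add, Finset.smul_sum, smul_comm (χ a n) (g a) (v a), add_sub_add_left_eq_sub,
            ← Finset.sum_sub_distrib]
          refine Finset.sum_congr rfl fun i _ => ?_
          rw [mul_sub, sub_smul, mul_smul, smul_smul (χ a n), mul_comm (χ a n) (g i)]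
        rw [h4, h1, h3, sub_zero]
      have h5 := ih _ h2 i hi
      exact (mul_eq_zero.mp h5).resolve_right (sub_ne_zero.mpr hn)
    intro i hi
    rcases Finset.mem_insert.mp hi with rfl | hi
    · have h6 : ∑ j ∈ s, g j • v j = 0 :=
        Finset.sum_eq_zero fun j hj => by rw [key j hj, zero_smul]
      rw [h6, add_zero] at hg
      exact (smul_eq_zero.mp hg).resolve_right (hv i)
    · exact key i hi

/-- the orbit of a character of a normal subgroup bounds the dimension -/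
theorem card_le_finrank {G : Type*} [Group G] (ρ : G →* Module.End F V) (N : Subgroup G)
    [hN : N.Normal] (χ : G → F) (v : V) (hv : v ≠ 0) (hχ : ∀ n ∈ N, ρ n v = χ n • v)
    (E : Submodule F V) [FiniteDimensional F E] (hE : ∀ g, ρ g v ∈ E) (S : Finset G)
    (hS : ∀ s ∈ S, ∀ s' ∈ S, s ≠ s' → ∃ n ∈ N, χ (s⁻¹ * n * s) ≠ χ (s'⁻¹ * n * s')) :
    S.card ≤ finrank F E := by
  classical
  let w : S → E := fun s => ⟨ρ s v, hE s⟩
  have hw : LinearIndependent F fun s : S => ρ (s : G) v := by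
    refine linearIndependent_of_chars (N := N) (fun n => ρ n) _
      (fun s n => χ ((s : G)⁻¹ * n * s)) (fun s h => hv ?_) (fun s n => ?_) ?_
    · have : ρ (s : G)⁻¹ (ρ (s : G) v) = 0 := by rw [h, map_zero]
      rwa [← Module.End.mul_apply, ← map_mul, inv_mul_cancel, map_one, Module.End.one_apply] at this
    · have h1 : (s : G)⁻¹ * (n : G) * s ∈ N := by
        simpa using hN.conj_mem n n.2 (s : G)⁻¹
      have h2 := hχ _ h1
      have h3 : ρ (n : G) (ρ (s : G) v) = ρ (s : G) (ρ ((s : G)⁻¹ * n * s) v) := by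
        rw [← Module.End.mul_apply, ← Module.End.mul_apply, ← map_mul, ← map_mul]
        congr 2
        group
      rw [h3, h2, map_smul]
    · intro s s' h
      by_contra hne
      obtain ⟨n, hn, h1⟩ := hS s s.2 s' s'.2 (fun h' => hne (Subtype.ext h'))
      exact h1 (congrFun h ⟨n, hn⟩)
  have hw' : LinearIndependent F w := by
    refine LinearIndependent.of_comp E.subtype ?_
    exact hw
  have := hw'.fintype_card_le_finrank
  simpa using this

/-- a commuting family of endomorphisms of a nontrivial finite dimensional complex space has a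
common eigenvector -/
theorem exists_common_eigenvector {N V : Type*} [AddCommGroup V] [Module ℂ V]
    [FiniteDimensional ℂ V] (T : N → V →ₗ[ℂ] V) (hc : ∀ m n v, T m (T n v) = T n (T m v)) :
    ∀ E : Submodule ℂ V, E ≠ ⊥ → (∀ n, ∀ v ∈ E, T n v ∈ E) →
      ∃ v ∈ E, v ≠ 0 ∧ ∀ n, ∃ c : ℂ, T n v = c • v := by
  suffices H : ∀ d : ℕ, ∀ E : Submodule ℂ V, finrank ℂ E = d → E ≠ ⊥ →
      (∀ n, ∀ v ∈ E, T n v ∈ E) → ∃ v ∈ E, v ≠ 0 ∧ ∀ n, ∃ c : ℂ, T n v = c • v by
    intro E h1 h2
    exact H _ E rfl h1 h2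
  intro d
  induction d using Nat.strong_induction_on with
  | _ d ih =>
    intro E hd hE hinv
    by_cases hall : ∀ n, ∃ c : ℂ, ∀ v ∈ E, T n v = c • v
    · obtain ⟨v, hv, hv0⟩ := E.exists_mem_ne_zero_of_ne_bot hE
      exact ⟨v, hv, hv0, fun n => (hall n).imp fun c hc => hc v hv⟩
    · push Not at hall
      obtain ⟨n, hn⟩ := hall
      have : Nontrivial E := Submodule.nontrivial_iff_ne_bot.mpr hE
      let S : E →ₗ[ℂ] E := (T n).restrict (hinv n)
      obtain ⟨c, hcS⟩ := Module.End.exists_eigenvalue S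
      obtain ⟨x, hx⟩ := hcS.exists_hasEigenvector
      have hx1 : T n (x : V) = c • (x : V) := by
        have := congrArg Subtype.val hx.apply_eq_smul
        simpa [S, LinearMap.restrict_apply] using this
      obtain ⟨y, hy, hy1⟩ := hn c
      let E' : Submodule ℂ V := E ⊓ LinearMap.ker (T n - c • LinearMap.id)
      have hmem : ∀ v, v ∈ E' ↔ v ∈ E ∧ T n v = c • v := by
        intro v
        simp [E', Submodule.mem_inf, LinearMap.mem_ker, sub_eq_zero]
      have hlt : E' < E := by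
        refine lt_of_le_of_ne inf_le_left fun h => hy1 ?_
        exact ((hmem y).mp (h ▸ hy)).2
      have hne : E' ≠ ⊥ := by
        intro h
        have : (x : V) ∈ E' := (hmem _).mpr ⟨x.2, hx1⟩
        rw [h, Submodule.mem_bot] at this
        exact hx.2 (Subtype.ext this)
      obtain ⟨v, hv, hv0, h⟩ := ih (finrank ℂ E') (hd ▸ Submodule.finrank_lt_finrank_of_lt hlt) E' rfl
        hne (fun m v hv => by
          rw [hmem] at hv ⊢
          refine ⟨hinv m v hv.1, ?_⟩
          rw [hc, hv.2, map_smul])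
      exact ⟨v, hlt.le hv, hv0, h⟩

end chars


section matrices
open Matrix
variable {X Y : Type*} [Fintype X] [Fintype Y] [DecidableEq X]

/-- complexification of a real matrix -/
def cx (A : Matrix X Y ℝ) : Matrix X Y ℂ := A.map (fun r => (r : ℂ))

omit [Fintype X] [Fintype Y] [DecidableEq X] in
@[simp] theorem cx_apply (A : Matrix X Y ℝ) (x : X) (y : Y) : cx A x y = (A x y : ℂ) := rfl

omit [Fintype X] [DecidableEq X] in
theorem cx_mul {Z : Type*} (A : Matrix X Y ℝ) (B : Matrix Y Z ℝ) : cx (A * B) = cx A * cx B := by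
  ext x z
  simp [cx, Matrix.mul_apply]

theorem cx_pow (M : Matrix X X ℝ) (L : ℕ) : cx (M ^ L) = cx M ^ L := by
  induction L with
  | zero =>
    ext x y
    by_cases h : x = y <;> simp [cx, h]
  | succ L ih => rw [pow_succ, pow_succ, cx_mul, ih]

omit [DecidableEq X] in
/-- the quadratic form of `A Aᵀ` -/
theorem quad_form (A : Matrix X Y ℝ) (v : X → ℂ) :
    v ⬝ᵥ star (cx (A * Aᵀ) *ᵥ v) = ((∑ y, ‖((cx A)ᵀ *ᵥ v) y‖ ^ 2 : ℝ) : ℂ) := by
  have h1 : star (cx (A * Aᵀ) *ᵥ v) = cx A *ᵥ star ((cx A)ᵀ *ᵥ v) := by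
    rw [cx_mul]
    ext x
    simp only [Pi.star_apply, Matrix.mulVec, dotProduct, Matrix.mul_apply, star_sum, star_mul',
      cx_apply, Matrix.transpose_apply]
    simp only [Finset.mul_sum, Finset.sum_mul, RCLike.star_def, Complex.conj_ofReal]
    rw [Finset.sum_comm]
    refine Finset.sum_congr rfl fun y _ => Finset.sum_congr rfl fun x' _ => ?_
    ring
  rw [h1, dotProduct_mulVec, ← Matrix.mulVec_transpose, dotProduct]
  push_cast
  refine Finset.sum_congr rfl fun y _ => ?_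
  rw [Pi.star_apply, RCLike.star_def, Complex.mul_conj, Complex.normSq_eq_norm_sq]
  push_cast; rfl

/-- **multiplicity bound**: `dim E * μ^L ≤ tr ((A Aᵀ)^L)` -/
theorem finrank_mul_pow_le_trace_matrix (A : Matrix X Y ℝ) (μ : ℝ) (E : Submodule ℂ (X → ℂ))
    (hE : ∀ v ∈ E, cx (A * Aᵀ) *ᵥ v = (μ : ℂ) • v) (L : ℕ) :
    (finrank ℂ E : ℝ) * μ ^ L ≤ ((A * Aᵀ) ^ L).trace := by
  let T := toEuclideanLin (cx (A * Aᵀ))
  have hherm : (cx (A * Aᵀ)).IsHermitian := by
    ext i j
    simp only [Matrix.conjTranspose_apply, cx_apply, RCLike.star_def, Complex.conj_ofReal]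
    congr 1
    have : (A * Aᵀ)ᵀ = A * Aᵀ := by rw [Matrix.transpose_mul, Matrix.transpose_transpose]
    exact congrFun (congrFun this i) j
  have hT : T.IsSymmetric := Matrix.isSymmetric_toEuclideanLin_iff.mpr hherm
  have hTv : ∀ v : EuclideanSpace ℂ X, T v = WithLp.toLp 2 (cx (A * Aᵀ) *ᵥ (WithLp.ofLp v)) :=
    fun v => rfl
  have hp : ∀ v, 0 ≤ (⟪T v, v⟫_ℂ).re := by
    intro v
    rw [EuclideanSpace.inner_eq_star_dotProduct, hTv, quad_form, Complex.ofReal_re]
    positivity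
  let e : (X → ℂ) ≃ₗ[ℂ] EuclideanSpace ℂ X := (WithLp.linearEquiv 2 ℂ (X → ℂ)).symm
  let E' : Submodule ℂ (EuclideanSpace ℂ X) := E.map e.toLinearMap
  have hE' : ∀ v ∈ E', T v = (μ : ℂ) • v := by
    rintro _ ⟨v, hv, rfl⟩
    rw [hTv]
    have := hE v hv
    change WithLp.toLp 2 (cx (A * Aᵀ) *ᵥ v) = (μ : ℂ) • WithLp.toLp 2 v
    rw [this]; rfl
  have h1 := finrank_mul_pow_le_trace hT hp μ E' hE' L
  have h2 : finrank ℂ E' = finrank ℂ E := LinearEquiv.finrank_map_eq e E
  have hpow : ∀ k : ℕ, ∀ v : EuclideanSpace ℂ X,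
      (T ^ k) v = WithLp.toLp 2 ((cx (A * Aᵀ)) ^ k *ᵥ (WithLp.ofLp v)) := by
    intro k
    induction k with
    | zero => intro v; simp
    | succ k ih =>
      intro v
      rw [pow_succ', Module.End.mul_apply, ih, hTv, pow_succ', Matrix.mulVec_mulVec]
  have h3 : LinearMap.trace ℂ (EuclideanSpace ℂ X) (T ^ L) = (((A * Aᵀ) ^ L).trace : ℂ) := by
    rw [LinearMap.trace_eq_sum_inner _ (EuclideanSpace.basisFun X ℂ), Matrix.trace]
    push_cast
    refine Finset.sum_congr rfl fun i _ => ?_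
    rw [hpow, EuclideanSpace.inner_eq_star_dotProduct, ← cx_pow]
    rw [dotProduct, Finset.sum_eq_single i]
    · simp [EuclideanSpace.basisFun_apply]
    · intro x _ hx
      simp [EuclideanSpace.basisFun_apply, hx]
    · intro h; exact absurd (Finset.mem_univ _) h
  rw [h2, h3, Complex.ofReal_re] at h1
  exact h1

/-- **gap**: if every eigenvalue of `A Aᵀ` on the invariant subspace `W` is at most `s` then
`|Aᵀ v|² ≤ s |v|²` on `W` -/
theorem gap_matrix (A : Matrix X Y ℝ) (W : Submodule ℂ (X → ℂ))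
    (hW : ∀ v ∈ W, cx (A * Aᵀ) *ᵥ v ∈ W) (s : ℝ)
    (hs : ∀ (μ : ℝ), ∀ v ∈ W, v ≠ 0 → cx (A * Aᵀ) *ᵥ v = (μ : ℂ) • v → μ ≤ s) :
    ∀ v ∈ W, ∑ y, ‖((cx A)ᵀ *ᵥ v) y‖ ^ 2 ≤ s * ∑ x, ‖v x‖ ^ 2 := by
  let T := toEuclideanLin (cx (A * Aᵀ))
  have hherm : (cx (A * Aᵀ)).IsHermitian := by
    ext i j
    simp only [Matrix.conjTranspose_apply, cx_apply, RCLike.star_def, Complex.conj_ofReal]
    congr 1
    have : (A * Aᵀ)ᵀ = A * Aᵀ := by rw [Matrix.transpose_mul, Matrix.transpose_transpose]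
    exact congrFun (congrFun this i) j
  have hT : T.IsSymmetric := Matrix.isSymmetric_toEuclideanLin_iff.mpr hherm
  have hTv : ∀ v : EuclideanSpace ℂ X, T v = WithLp.toLp 2 (cx (A * Aᵀ) *ᵥ (WithLp.ofLp v)) :=
    fun v => rfl
  let e : (X → ℂ) ≃ₗ[ℂ] EuclideanSpace ℂ X := (WithLp.linearEquiv 2 ℂ (X → ℂ)).symm
  let W' : Submodule ℂ (EuclideanSpace ℂ X) := W.map e.toLinearMap
  have hmem : ∀ v : X → ℂ, e v ∈ W' ↔ v ∈ W := fun v => by
    simp [W']
  intro v hv
  have h1 := gap_of_eigen hT W' (by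
      rintro _ ⟨w, hw, rfl⟩
      exact ⟨_, hW w hw, rfl⟩) s (by
      rintro μ _ ⟨w, hw, rfl⟩ hw0 h
      refine hs μ w hw (fun h' => hw0 (by rw [h']; simp)) ?_
      have h' := congrArg (WithLp.ofLp) h
      exact h') (e v) ((hmem v).mpr hv)
  rw [EuclideanSpace.inner_eq_star_dotProduct, hTv] at h1
  have h2 : WithLp.ofLp (e v) = v := rfl
  rw [h2] at h1
  simp only [quad_form, Complex.ofReal_re] at h1
  rw [EuclideanSpace.norm_sq_eq] at h1
  exact h1

/-- **expander mixing lemma** (bipartite biregular multigraph with adjacency matrix `A`) -/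
theorem mixing (A : Matrix X Y ℝ) (b s : ℝ)
    (hb : ∀ y, ∑ x, A x y = b) (hs0 : 0 ≤ s)
    (hs : ∀ f : X → ℝ, ∑ x, f x = 0 → ∑ y, (∑ x, A x y * f x) ^ 2 ≤ s * ∑ x, f x ^ 2)
    (S : Finset X) (T : Finset Y) :
    |∑ x ∈ S, ∑ y ∈ T, A x y - b * S.card * T.card / Fintype.card X| ≤
      Real.sqrt (s * S.card * T.card) := by
  classical
  rcases isEmpty_or_nonempty X with hX | hX
  · have : S = ∅ := Finset.eq_empty_of_isEmpty S
    subst this
    simp
  have hn : (0 : ℝ) < Fintype.card X := by exact_mod_cast Fintype.card_pos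
  set n : ℝ := (Fintype.card X : ℝ) with hndef
  let f : X → ℝ := fun x => (if x ∈ S then 1 else 0) - S.card / n
  have hf0 : ∑ x, f x = 0 := by
    simp only [f, Finset.sum_sub_distrib, Finset.sum_ite_mem, Finset.univ_inter, Finset.sum_const,
      nsmul_eq_mul, mul_one, Finset.card_univ]
    rw [← hndef]
    field_simp
    ring
  have hf2 : ∑ x, f x ^ 2 ≤ S.card := by
    have h1 : ∀ x, f x ^ 2 = (if x ∈ S then (1 : ℝ) else 0) - 2 * (S.card / n) * (if x ∈ S then 1 else 0)
        + (S.card / n) ^ 2 := by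
      intro x
      simp only [f]
      split_ifs <;> ring
    simp only [h1, Finset.sum_add_distrib, Finset.sum_sub_distrib, ← Finset.mul_sum,
      Finset.sum_ite_mem, Finset.univ_inter, Finset.sum_const, nsmul_eq_mul, mul_one,
      Finset.card_univ]
    rw [← hndef]
    have h2 : (S.card : ℝ) - 2 * (S.card / n) * S.card + n * (S.card / n) ^ 2 =
        S.card - S.card ^ 2 / n := by
      field_simp
      ring
    rw [h2]
    have : 0 ≤ (S.card : ℝ) ^ 2 / n := by positivity
    linarith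
  have hval : ∀ y, ∑ x, A x y * f x = ∑ x ∈ S, A x y - b * S.card / n := by
    intro y
    simp only [f, mul_sub, Finset.sum_sub_distrib, mul_ite, mul_one, mul_zero, Finset.sum_ite_mem,
      Finset.univ_inter, ← Finset.sum_mul, hb]
    ring
  have hsum : ∑ y ∈ T, ∑ x, A x y * f x =
      ∑ x ∈ S, ∑ y ∈ T, A x y - b * S.card * T.card / n := by
    simp only [hval, Finset.sum_sub_distrib, Finset.sum_const, nsmul_eq_mul]
    rw [Finset.sum_comm]
    ring
  rw [← hsum]
  refine Real.abs_le_sqrt ?_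
  calc (∑ y ∈ T, ∑ x, A x y * f x) ^ 2
      ≤ T.card * ∑ y ∈ T, (∑ x, A x y * f x) ^ 2 := sq_sum_le_card_mul_sum_sq
    _ ≤ T.card * ∑ y, (∑ x, A x y * f x) ^ 2 := by
        gcongr
        exact Finset.subset_univ T
    _ ≤ T.card * (s * ∑ x, f x ^ 2) := by
        gcongr
        exact hs f hf0
    _ ≤ T.card * (s * S.card) := by gcongr
    _ = s * S.card * T.card := by ring

end matrices

end Crest.Agent.R289.Spec686
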