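import Crest.Agent.R289.LTC_509
import Crest.Agent.R289.Tan_846

/-!
Row 289, block B, leaf B9_Sq2 (helper57).  The abstract TWO-PLACE square complex, invariant under
left translations: finite group `P`, labels `al : I → P`, `be : J → P` and the unique factorisation
`al l * be (B l m) = be m * al (A m l)`.

Vertices `(b, b', h)`, `b`, `b'` = parity in the x- resp. y-direction.  The x-edges are
`(false, b', h) - (true, b', h * al i)`, the y-edges `(b, false, h) - (b, true, h * be j)`; an odd
vertex labels an edge by the label of its even end.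
-/

set_option autoImplicit false
set_option linter.unusedSectionVars false
set_option linter.unusedSimpArgs false

namespace Crest.Agent.R289.Sq257

open Finset Crest.Agent.R289.LTC509

/-- the data of a two-place square complex: `A m l = l*`, `B l m = m*` -/
structure Fac (P I J : Type*) [Group P] where
  al : I → P
  be : J → P
  A : J → I ≃ I
  B : I → J ≃ J
  star : I × J ≃ I × J
  star_apply : ∀ l m, star (l, m) = (A m l, B l m)
  rel : ∀ l m, al l * be (B l m) = be m * al (A m l)

variable {P I J K : Type*} [Group P]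

namespace Fac

variable (F : Fac P I J)

theorem star_symm (l : I) (m : J) : F.star.symm (F.A m l, F.B l m) = (l, m) := by
  rw [← F.star_apply, Equiv.symm_apply_apply]

/-- the two components of `star.symm` -/
theorem A_symm_star (l' : I) (m' : J) :
    F.A (F.star.symm (l', m')).2 (F.star.symm (l', m')).1 = l' := by
  have h := F.star_apply (F.star.symm (l', m')).1 (F.star.symm (l', m')).2
  rw [Prod.mk.eta, Equiv.apply_symm_apply] at h
  exact (congrArg Prod.fst h).symm

theorem B_symm_star (l' : I) (m' : J) :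
    F.B (F.star.symm (l', m')).1 (F.star.symm (l', m')).2 = m' := by
  have h := F.star_apply (F.star.symm (l', m')).1 (F.star.symm (l', m')).2
  rw [Prod.mk.eta, Equiv.apply_symm_apply] at h
  exact (congrArg Prod.snd h).symm

theorem star_symm_of (l' : I) (m : J) :
    F.star.symm (l', F.B ((F.A m).symm l') m) = ((F.A m).symm l', m) := by
  have h := F.star_symm ((F.A m).symm l') m
  rwa [Equiv.apply_symm_apply] at h

theorem star_symm_of' (l : I) (m' : J) :
    F.star.symm (F.A ((F.B l).symm m') l, m') = (l, (F.B l).symm m') := by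
  have h := F.star_symm l ((F.B l).symm m')
  rwa [Equiv.apply_symm_apply] at h

/-- x-neighbour -/
def xn : Bool × Bool × P → I → Bool × Bool × P
  | (false, b, h), i => (true, b, h * F.al i)
  | (true, b, h), i => (false, b, h * (F.al i)⁻¹)

/-- y-neighbour -/
def yn : Bool × Bool × P → J → Bool × Bool × P
  | (b, false, h), j => (b, true, h * F.be j)
  | (b, true, h), j => (b, false, h * (F.be j)⁻¹)

/-- transport of the y-label along an x-edge -/
def xj : Bool × Bool × P → I → J → J
  | (false, false, _), i, j => F.B i j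
  | (true, false, _), i, j => (F.B i).symm j
  | (false, true, _), i, j => F.B ((F.A j).symm i) j
  | (true, true, _), i, j => (F.star.symm (i, j)).2

/-- transport of the x-label along a y-edge -/
def yi : Bool × Bool × P → J → I → I
  | (false, false, _), j, i => F.A j i
  | (false, true, _), j, i => (F.A j).symm i
  | (true, false, _), j, i => F.A ((F.B i).symm j) i
  | (true, true, _), j, i => (F.star.symm (i, j)).1

theorem rel1 (l : I) (m : J) : (F.al l)⁻¹ * F.be m = F.be (F.B l m) * (F.al (F.A m l))⁻¹ := by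
  rw [inv_mul_eq_iff_eq_mul, ← mul_assoc, F.rel, mul_assoc, mul_inv_cancel, mul_one]

theorem rel2 (l : I) (m : J) : F.al (F.A m l) * (F.be (F.B l m))⁻¹ = (F.be m)⁻¹ * F.al l := by
  rw [mul_inv_eq_iff_eq_mul, mul_assoc, F.rel, ← mul_assoc, inv_mul_cancel, one_mul]

theorem rel3 (l : I) (m : J) : (F.al (F.A m l))⁻¹ * (F.be m)⁻¹ = (F.be (F.B l m))⁻¹ * (F.al l)⁻¹ := by
  rw [← mul_inv_rev, ← mul_inv_rev, F.rel]

/-- **the two-place square complex** -/
def S : SqC (Bool × Bool × P) I J where
  xn := F.xn
  xi := fun _ i => i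
  xj := F.xj
  yn := F.yn
  yj := fun _ j => j
  yi := F.yi
  xxn := by
    rintro ⟨b, b', h⟩ i
    cases b <;> simp [xn]
  xxi := fun _ _ => rfl
  xxj := by
    rintro ⟨b, b', h⟩ i j
    cases b <;> cases b'
    · simp [xn, xj]
    · simp [xn, xj, F.star_symm_of]
    · simp [xn, xj]
    · simp only [xn, xj]
      have h1 : (F.A (F.star.symm (i, j)).2).symm i = (F.star.symm (i, j)).1 := by
        rw [Equiv.symm_apply_eq, F.A_symm_star]
      rw [h1, F.B_symm_star]
  yyn := by
    rintro ⟨b, b', h⟩ i
    cases b' <;> simp [yn]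
  yyj := fun _ _ => rfl
  yyi := by
    rintro ⟨b, b', h⟩ j i
    cases b <;> cases b'
    · simp [yn, yi]
    · simp [yn, yi]
    · simp [yn, yi, F.star_symm_of']
    · simp only [yn, yi]
      have h1 : (F.B (F.star.symm (i, j)).1).symm j = (F.star.symm (i, j)).2 := by
        rw [Equiv.symm_apply_eq, F.B_symm_star]
      rw [h1, F.A_symm_star]
  comm_v := by
    rintro ⟨b, b', h⟩ i j
    cases b <;> cases b'
    · simp only [xn, yn, xj, yi, mul_assoc, F.rel]
    · simp only [xn, yn, xj, yi]
      have h1 := F.rel2 ((F.A j).symm i) j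
      rw [Equiv.apply_symm_apply] at h1
      rw [mul_assoc, h1, ← mul_assoc]
    · simp only [xn, yn, xj, yi]
      have h1 := F.rel1 i ((F.B i).symm j)
      rw [Equiv.apply_symm_apply] at h1
      rw [mul_assoc, h1, ← mul_assoc]
    · simp only [xn, yn, xj, yi]
      have h1 := F.rel3 (F.star.symm (i, j)).1 (F.star.symm (i, j)).2
      rw [F.A_symm_star, F.B_symm_star] at h1
      rw [mul_assoc, h1, ← mul_assoc]
  comm_i := by
    rintro ⟨b, b', h⟩ i j
    cases b <;> cases b'
    · simp [xn, yn, xj, yi]
    · simp [xn, yn, xj, yi, F.star_symm_of]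
    · simp [xn, yn, xj, yi]
    · simp only [xn, xj, yi]
      rw [Equiv.symm_apply_eq, F.A_symm_star]
  comm_j := by
    rintro ⟨b, b', h⟩ i j
    cases b <;> cases b'
    · simp [xn, yn, xj, yi]
    · simp [xn, yn, xj, yi]
    · simp [xn, yn, xj, yi, F.star_symm_of']
    · simp only [yn, xj, yi]
      rw [eq_comm, Equiv.symm_apply_eq, F.B_symm_star]
  xne := by
    rintro ⟨b, b', h⟩ i
    cases b <;> simp [xn]
  yne := by
    rintro ⟨b, b', h⟩ j
    cases b' <;> simp [yn]

/-! ### expansion -/

section Expansion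

variable [Fintype P] [Fintype I] [Fintype J]

/-- one-graph vertex expansion of the labels `a` -/
def OneExp {P I : Type*} [Group P] [Fintype P] [Fintype I] (a : I → P) (lam : ℝ) : Prop :=
  ∀ f : P → ℝ, (∀ p, 0 ≤ f p) → ∑ p, (∑ i, f (p * a i)) ^ 2 ≤
    (Fintype.card I : ℝ) ^ 2 * ((∑ p, f p) ^ 2 / Fintype.card P + lam ^ 2 * ∑ p, f p ^ 2)

theorem OneExp.avg [Nonempty I] {a : I → P} {lam : ℝ} (h : OneExp a lam) (f : P → ℝ)
    (hf : ∀ p, 0 ≤ f p) : ∑ p, ((∑ i, f (p * a i)) / Fintype.card I) ^ 2 ≤
      (∑ p, f p) ^ 2 / Fintype.card P + lam ^ 2 * ∑ p, f p ^ 2 := by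
  have hc : (0 : ℝ) < (Fintype.card I : ℝ) ^ 2 := by
    have : 0 < Fintype.card I := Fintype.card_pos
    positivity
  have h1 : ∑ p, ((∑ i, f (p * a i)) / Fintype.card I) ^ 2 =
      (∑ p, (∑ i, f (p * a i)) ^ 2) / (Fintype.card I : ℝ) ^ 2 := by
    rw [Finset.sum_div]
    exact Finset.sum_congr rfl fun p _ => by rw [div_pow]
  rw [h1, div_le_iff₀ hc, mul_comm]
  exact h f hf

theorem four {A B C D a b c d : ℝ} {N l : ℝ} (hN : 0 < N) (hA : 0 ≤ A) (hB : 0 ≤ B) (hC : 0 ≤ C)
    (hD : 0 ≤ D) {w x y z : ℝ} (h1 : w ≤ A ^ 2 / N + l * a) (h2 : x ≤ B ^ 2 / N + l * b)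
    (h3 : y ≤ C ^ 2 / N + l * c) (h4 : z ≤ D ^ 2 / N + l * d) :
    w + x + (y + z) ≤ 4 / (4 * N) * (D + C + (B + A)) ^ 2 + l * (d + c + (b + a)) := by
  have e1 : 4 / (4 * N) * (D + C + (B + A)) ^ 2 = (D + C + (B + A)) ^ 2 / N := by
    field_simp
  have e2 : A ^ 2 / N + B ^ 2 / N + C ^ 2 / N + D ^ 2 / N ≤ (D + C + (B + A)) ^ 2 / N := by
    rw [← add_div, ← add_div, ← add_div]
    apply div_le_div_of_nonneg_right _ hN.le
    have := mul_nonneg hA hB
    have := mul_nonneg hA hC
    have := mul_nonneg hA hD
    have := mul_nonneg hB hC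
    have := mul_nonneg hB hD
    have := mul_nonneg hC hD
    nlinarith
  rw [e1]
  linarith

/-- **the two-place complex expands** -/
theorem exp [Nonempty I] [Nonempty J] {lam : ℝ} (h1 : OneExp F.al lam)
    (h2 : OneExp (fun i => (F.al i)⁻¹) lam) (h3 : OneExp F.be lam)
    (h4 : OneExp (fun j => (F.be j)⁻¹) lam) : F.S.Exp 4 lam := by
  have hN : (0 : ℝ) < Fintype.card P := by
    have : 0 < Fintype.card P := Fintype.card_pos
    exact_mod_cast this
  have hcV : ((Fintype.card (Bool × Bool × P) : ℕ) : ℝ) = 4 * Fintype.card P := by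
    simp only [Fintype.card_prod, Fintype.card_bool]
    push_cast
    ring
  constructor
  · intro h hh
    rw [hcV]
    simp only [Fintype.sum_prod_type, Fintype.sum_bool]
    have k1 := h2.avg (fun p => h (false, true, p)) (fun p => hh _)
    have k2 := h2.avg (fun p => h (false, false, p)) (fun p => hh _)
    have k3 := h1.avg (fun p => h (true, true, p)) (fun p => hh _)
    have k4 := h1.avg (fun p => h (true, false, p)) (fun p => hh _)
    have k := four (N := Fintype.card P) (l := lam ^ 2) hN (Finset.sum_nonneg fun p _ => hh (false, true, p))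
      (Finset.sum_nonneg fun p _ => hh (false, false, p)) (Finset.sum_nonneg fun p _ => hh (true, true, p))
      (Finset.sum_nonneg fun p _ => hh (true, false, p)) k1 k2 k3 k4
    refine le_trans (le_of_eq ?_) (le_trans k (le_of_eq ?_))
    · rfl
    · ring
  · intro h hh
    rw [hcV]
    simp only [Fintype.sum_prod_type, Fintype.sum_bool]
    have k1 := h4.avg (fun p => h (true, false, p)) (fun p => hh _)
    have k2 := h3.avg (fun p => h (true, true, p)) (fun p => hh _)
    have k3 := h4.avg (fun p => h (false, false, p)) (fun p => hh _)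
    have k4 := h3.avg (fun p => h (false, true, p)) (fun p => hh _)
    have k := four (N := Fintype.card P) (l := lam ^ 2) hN (Finset.sum_nonneg fun p _ => hh (true, false, p))
      (Finset.sum_nonneg fun p _ => hh (true, true, p)) (Finset.sum_nonneg fun p _ => hh (false, false, p))
      (Finset.sum_nonneg fun p _ => hh (false, true, p)) k1 k2 k3 k4
    refine le_trans (le_of_eq ?_) (le_trans k (le_of_eq ?_))
    · rfl
    · ring

end Expansion

/-! ### squares, tables, words -/

/-- the square of a flag, given by its even-even corner and the labels there -/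
def cor : Bool × Bool × P → I → J → P × I × J
  | (false, false, p), i, j => (p, i, j)
  | (true, false, p), i, j => (p * (F.al i)⁻¹, i, (F.B i).symm j)
  | (false, true, p), i, j => (p * (F.be j)⁻¹, (F.A j).symm i, j)
  | (true, true, p), i, j => (p * (F.be j)⁻¹ * (F.al (F.star.symm (i, j)).1)⁻¹, F.star.symm (i, j))

/-- the table of a function on squares at a vertex -/
def tab (w : P × I × J → K) (v : Bool × Bool × P) (i : I) (j : J) : K := w (F.cor v i j)

theorem cor_x (v : Bool × Bool × P) (i : I) (j : J) :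
    F.cor (F.S.xn v i) (F.S.xi v i) (F.S.xj v i j) = F.cor v i j := by
  obtain ⟨b, b', p⟩ := v
  cases b <;> cases b'
  · simp [S, xn, xj, cor]
  · simp only [S, xn, xj, cor, F.star_symm_of]
    have h1 := F.rel2 ((F.A j).symm i) j
    rw [Equiv.apply_symm_apply] at h1
    rw [mul_assoc p, h1, ← mul_assoc, mul_assoc _ (F.al _), mul_inv_cancel, mul_one]
  · simp [S, xn, xj, cor]
  · simp only [S, xn, xj, cor]
    have h1 := F.rel3 (F.star.symm (i, j)).1 (F.star.symm (i, j)).2
    rw [F.A_symm_star, F.B_symm_star] at h1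
    have h2 : (F.A (F.star.symm (i, j)).2).symm i = (F.star.symm (i, j)).1 := by
      rw [Equiv.symm_apply_eq, F.A_symm_star]
    rw [h2, mul_assoc, h1, ← mul_assoc]

theorem cor_y (v : Bool × Bool × P) (i : I) (j : J) :
    F.cor (F.S.yn v j) (F.S.yi v j i) (F.S.yj v j) = F.cor v i j := by
  obtain ⟨b, b', p⟩ := v
  cases b <;> cases b'
  · simp [S, yn, yi, cor]
  · simp [S, yn, yi, cor]
  · simp [S, yn, yi, cor, F.star_symm_of']
  · simp only [S, yn, yi, cor]
    have h1 : (F.B (F.star.symm (i, j)).1).symm j = (F.star.symm (i, j)).2 := by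
      rw [Equiv.symm_apply_eq, F.B_symm_star]
    rw [h1]

/-- tables of a function on squares form a word -/
theorem tab_word (w : P × I × J → K) : F.S.Word (F.tab w) := by
  refine ⟨fun v i j => ?_, fun v i j => ?_⟩
  · show w (F.cor v i j) = w (F.cor (F.S.xn v i) (F.S.xi v i) (F.S.xj v i j))
    rw [F.cor_x]
  · show w (F.cor v i j) = w (F.cor (F.S.yn v j) (F.S.yi v j i) (F.S.yj v j))
    rw [F.cor_y]

/-- every word comes from a function on squares -/
theorem word_tab {T : Bool × Bool × P → I → J → K} (hT : F.S.Word T) :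
    T = F.tab fun w => T (false, false, w.1) w.2.1 w.2.2 := by
  have h00 : ∀ p i j, T (false, false, p) i j = F.tab (fun w => T (false, false, w.1) w.2.1 w.2.2)
      (false, false, p) i j := fun _ _ _ => rfl
  have h10 : ∀ p i j, T (true, false, p) i j = F.tab (fun w => T (false, false, w.1) w.2.1 w.2.2)
      (true, false, p) i j := by
    intro p i j
    rw [hT.1, (F.tab_word _).1]
    exact h00 _ _ _
  have h01 : ∀ p i j, T (false, true, p) i j = F.tab (fun w => T (false, false, w.1) w.2.1 w.2.2)
      (false, true, p) i j := by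
    intro p i j
    rw [hT.2, (F.tab_word _).2]
    exact h00 _ _ _
  have h11 : ∀ p i j, T (true, true, p) i j = F.tab (fun w => T (false, false, w.1) w.2.1 w.2.2)
      (true, true, p) i j := by
    intro p i j
    rw [hT.1, (F.tab_word _).1]
    exact h01 _ _ _
  funext v i j
  obtain ⟨b, b', p⟩ := v
  cases b <;> cases b'
  · exact h00 p i j
  · exact h01 p i j
  · exact h10 p i j
  · exact h11 p i j

/-- left translation of vertices -/
def mv (g : P) (v : Bool × Bool × P) : Bool × Bool × P := (v.1, v.2.1, g * v.2.2)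

theorem cor_mv (g : P) (v : Bool × Bool × P) (i : I) (j : J) :
    F.cor (mv g v) i j = (g * (F.cor v i j).1, (F.cor v i j).2) := by
  obtain ⟨b, b', p⟩ := v
  cases b <;> cases b' <;> simp [mv, cor, mul_assoc]

/-- left translation of functions on squares -/
def tr (g : P) (w : P × I × J → K) : P × I × J → K := fun x => w (g * x.1, x.2)

theorem tab_tr (g : P) (w : P × I × J → K) (v : Bool × Bool × P) :
    F.tab (tr g w) v = F.tab w (mv g v) := by
  funext i j
  show w (g * (F.cor v i j).1, (F.cor v i j).2) = w (F.cor (mv g v) i j)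
  rw [F.cor_mv]

/-- for every vertex type, `(vertex, labels) ↦ square` is a bijection -/
def corEquiv (b b' : Bool) : P × I × J ≃ P × I × J where
  toFun x := F.cor (b, b', x.1) x.2.1 x.2.2
  invFun x := match b, b' with
    | false, false => x
    | true, false => (x.1 * F.al x.2.1, x.2.1, F.B x.2.1 x.2.2)
    | false, true => (x.1 * F.be x.2.2, F.A x.2.2 x.2.1, x.2.2)
    | true, true => (x.1 * F.al x.2.1 * F.be (F.B x.2.1 x.2.2), F.star (x.2.1, x.2.2))
  left_inv := by
    rintro ⟨p, i, j⟩
    cases b <;> cases b'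
    · simp [cor]
    · simp [cor]
    · simp [cor]
    · simp [cor, F.B_symm_star, Prod.ext_iff]
  right_inv := by
    rintro ⟨p, i, j⟩
    cases b <;> cases b'
    · simp [cor]
    · simp [cor]
    · simp [cor]
    · simp [cor, F.star_apply, F.star_symm]

theorem cor_eq_corEquiv (b b' : Bool) (p : P) (i : I) (j : J) :
    F.cor (b, b', p) i j = F.corEquiv b b' (p, i, j) := rfl

end Fac

end Crest.Agent.R289.Sq257
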