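import Crest.Agent.R289.Sq2_57
import Crest.Agent.R289.Tensor_560

/-!
Row 289, block B, leaf B9_Sq2, second part (helper57): the linear two-place code
`C L ≤ (P × I × J → K)` of a family `L b b' ≤ (I → J → K)` of local codes (one for each vertex
type), in the vocabulary of `Tensor_560`: local testability, distance, views, left translations,
products.
-/

set_option autoImplicit false
set_option linter.unusedSectionVars false
set_option linter.unusedSimpArgs false

namespace Crest.Agent.R289.Sq257

open Finset Crest.Agent.R289.LTC509 Crest.Agent.R289.Tensor560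

namespace Fac

section general

variable {P I J K : Type*} [Group P] (F : Fac P I J) [Fintype P] [Fintype I] [Fintype J]

open Classical in
/-- **local testability**, general alphabet -/
theorem ltc2 (hI : Nonempty I) (hJ : Nonempty J) {LC : Bool → Bool → Set (I → J → K)} {κ a l : ℝ}
    (hκ : 0 ≤ κ) (ha : 0 ≤ a) (hl : 4 * κ ^ 2 * l ^ 2 ≤ 1)
    (hR : F.S.Rob (fun v => LC v.1 v.2.1) κ) (hE : F.S.Exp a l)
    (hne : ∀ b b', (LC b b').Nonempty) (f : P × I × J → K)
    (hsmall : 16 * κ ^ 2 * a * (Fintype.card I * Fintype.card J) *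
      ((univ.filter fun v : Bool × Bool × P => F.tab f v ∉ LC v.1 v.2.1).card : ℝ) <
        4 * Fintype.card P) :
    ∃ g : P × I × J → K, (∀ v, F.tab g v ∈ LC v.1 v.2.1) ∧
      (univ.filter fun p : P => ∃ i j, g (p, i, j) ≠ f (p, i, j)).card ≤
        (2 * (Fintype.card I * Fintype.card J) + 1) *
          (univ.filter fun v : Bool × Bool × P => F.tab f v ∉ LC v.1 v.2.1).card := by
  have hcV : ((Fintype.card (Bool × Bool × P) : ℕ) : ℝ) = 4 * Fintype.card P := by
    simp only [Fintype.card_prod, Fintype.card_bool]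
    push_cast
    ring
  obtain ⟨g, hg1, hg2, hg3⟩ := F.S.ltc hI hJ hκ ha hl hR hE (fun v => hne v.1 v.2.1)
    (F.tab f) (F.tab_word f) (by rw [hcV]; exact hsmall)
  refine ⟨fun w => g (false, false, w.1) w.2.1 w.2.2, fun v => ?_, le_trans ?_ hg3⟩
  · rw [← F.word_tab hg2]
    exact hg1 v
  · refine Finset.card_le_card_of_injOn (fun p => ((false, false, p) : Bool × Bool × P)) ?_ ?_
    · intro p hp
      simp only [coe_filter, mem_univ, true_and, Set.mem_ofPred_eq] at hp ⊢
      obtain ⟨i, j, hij⟩ := hp
      intro h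
      exact hij (congrFun (congrFun h i) j)
    · intro p _ p' _ h
      simpa using h

end general

section linear

variable {P I J K : Type*} [Group P] (F : Fac P I J) [Field K]

/-- the table at a vertex as a linear map -/
def tabL (v : Bool × Bool × P) : (P × I × J → K) →ₗ[K] (I → J → K) where
  toFun w := F.tab w v
  map_add' _ _ := rfl
  map_smul' _ _ := rfl

/-- the test at a vertex -/
def T (L : Bool → Bool → Submodule K (I → J → K)) (v : Bool × Bool × P) :
    Submodule K (P × I × J → K) := (L v.1 v.2.1).comap (F.tabL v)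

/-- the two-place code -/
def C (L : Bool → Bool → Submodule K (I → J → K)) : Submodule K (P × I × J → K) :=
  ⨅ v, F.T L v

theorem mem_T {L : Bool → Bool → Submodule K (I → J → K)} {v : Bool × Bool × P}
    {w : P × I × J → K} : w ∈ F.T L v ↔ F.tab w v ∈ L v.1 v.2.1 := Iff.rfl

theorem mem_C {L : Bool → Bool → Submodule K (I → J → K)} {w : P × I × J → K} :
    w ∈ F.C L ↔ ∀ v, F.tab w v ∈ L v.1 v.2.1 := by
  simp only [C, Submodule.mem_iInf, mem_T]

theorem C_le (L : Bool → Bool → Submodule K (I → J → K)) (v : Bool × Bool × P) :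
    F.C L ≤ F.T L v := iInf_le _ v

theorem C_mono {L L' : Bool → Bool → Submodule K (I → J → K)} (h : ∀ b b', L b b' ≤ L' b b') :
    F.C L ≤ F.C L' := by
  intro w hw
  rw [mem_C] at hw ⊢
  exact fun v => h _ _ (hw v)

/-- products -/
theorem C_mul {L L' L'' : Bool → Bool → Submodule K (I → J → K)}
    (h : ∀ b b', ∀ t ∈ L b b', ∀ t' ∈ L' b b', (t * t' : I → J → K) ∈ L'' b b')
    {w w' : P × I × J → K} (hw : w ∈ F.C L) (hw' : w' ∈ F.C L') : w * w' ∈ F.C L'' := by
  rw [mem_C] at hw hw' ⊢
  exact fun v => h _ _ _ (hw v) _ (hw' v)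

/-- left translations: tests -/
theorem tr_mem_T {L : Bool → Bool → Submodule K (I → J → K)} {g : P} {v : Bool × Bool × P}
    {w : P × I × J → K} : tr g w ∈ F.T L v ↔ w ∈ F.T L (mv g v) := by
  rw [mem_T, mem_T, F.tab_tr]
  exact Iff.rfl

theorem tr_mem_C {L : Bool → Bool → Submodule K (I → J → K)} (g : P)
    {w : P × I × J → K} (hw : w ∈ F.C L) : tr g w ∈ F.C L := by
  rw [C, Submodule.mem_iInf] at hw ⊢
  intro v
  rw [tr_mem_T]
  exact hw _

theorem tr_one (w : P × I × J → K) : tr (1 : P) w = w := by
  funext x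
  simp [tr]

theorem tr_tr (g g' : P) (w : P × I × J → K) : tr g (tr g' w) = tr (g' * g) w := by
  funext x
  simp [tr, mul_assoc]

theorem tr_mem_C_iff {L : Bool → Bool → Submodule K (I → J → K)} (g : P)
    {w : P × I × J → K} : tr g w ∈ F.C L ↔ w ∈ F.C L := by
  refine ⟨fun h => ?_, F.tr_mem_C g⟩
  have h1 := F.tr_mem_C g⁻¹ h
  rwa [tr_tr, mul_inv_cancel, tr_one] at h1

variable [Fintype P] [Fintype I] [Fintype J]

open Classical in
/-- the squares at a vertex -/
noncomputable def view (v : Bool × Bool × P) : Finset (P × I × J) :=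
  univ.image fun x : I × J => F.cor v x.1 x.2

open Classical in
theorem view_loc (L : Bool → Bool → Submodule K (I → J → K)) (v : Bool × Bool × P)
    (f : P × I × J → K) (h : ∀ ω ∈ F.view v, f ω = 0) : f ∈ F.T L v := by
  have h1 : F.tab f v = 0 := by
    funext i j
    exact h _ (Finset.mem_image.2 ⟨(i, j), mem_univ _, rfl⟩)
  rw [mem_T, h1]
  exact Submodule.zero_mem _

open Classical in
theorem view_four (ω : P × I × J) : (univ.filter fun v => ω ∈ F.view v).card ≤ 4 := by
  have h : (univ.filter fun v => ω ∈ F.view v) ⊆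
      (univ : Finset (Bool × Bool)).image fun t => (t.1, t.2, ((F.corEquiv t.1 t.2).symm ω).1) := by
    rintro ⟨b, b', p⟩ hv
    simp only [mem_filter, mem_univ, true_and, view, mem_image, Prod.exists] at hv
    obtain ⟨i, j, hij⟩ := hv
    rw [Finset.mem_image]
    refine ⟨(b, b'), mem_univ _, ?_⟩
    rw [F.cor_eq_corEquiv] at hij
    rw [← hij, Equiv.symm_apply_apply]
  exact le_trans (Finset.card_le_card h) (le_trans Finset.card_image_le (by simp))

open Classical in
/-- **local testability** in the form of `Tensor_560`, with an absolute constant -/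
theorem LTC_C (hI : Nonempty I) (hJ : Nonempty J) {L : Bool → Bool → Submodule K (I → J → K)}
    {κ a l : ℝ} (hκ : 0 ≤ κ) (ha : 0 ≤ a) (hl : 4 * κ ^ 2 * l ^ 2 ≤ 1)
    (hR : F.S.Rob (fun v => (L v.1 v.2.1 : Set (I → J → K))) κ) (hE : F.S.Exp a l) :
    LTC (F.C L) (F.T L) (max ((Fintype.card I * Fintype.card J : ℝ) *
      (2 * (Fintype.card I * Fintype.card J) + 1))
      (4 * κ ^ 2 * a * (Fintype.card I * Fintype.card J : ℝ) ^ 2)) := by
  intro f
  have hc : (univ.filter fun v : Bool × Bool × P => F.tab f v ∉ (L v.1 v.2.1 : Set (I → J → K))).card =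
      vcount (F.T L) f := by
    unfold vcount
    rfl
  by_cases hs : 16 * κ ^ 2 * a * (Fintype.card I * Fintype.card J) * (vcount (F.T L) f : ℝ) <
      4 * Fintype.card P
  · obtain ⟨g, hg1, hg2⟩ := F.ltc2 hI hJ (LC := fun b b' => (L b b' : Set (I → J → K))) hκ ha hl hR hE
      (fun b b' => ⟨0, (L b b').zero_mem⟩) f (by rw [hc]; exact hs)
    refine ⟨g, F.mem_C.2 hg1, ?_⟩
    rw [hc] at hg2
    have h1 : dcount f g ≤ (Fintype.card I * Fintype.card J) *
        (univ.filter fun p : P => ∃ i j, g (p, i, j) ≠ f (p, i, j)).card := by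
      have h2 : (univ.filter fun ω => f ω ≠ g ω) ⊆
          (univ.filter fun p : P => ∃ i j, g (p, i, j) ≠ f (p, i, j)) ×ˢ (univ : Finset (I × J)) := by
        rintro ⟨p, i, j⟩ h
        simp only [mem_filter, mem_univ, true_and, mem_product, and_true] at h ⊢
        exact ⟨i, j, Ne.symm h⟩
      refine le_trans (Finset.card_le_card h2) ?_
      rw [Finset.card_product, Finset.card_univ, Fintype.card_prod, mul_comm]
    have h3 : (dcount f g : ℝ) ≤ ((Fintype.card I * Fintype.card J : ℝ) *
        (2 * (Fintype.card I * Fintype.card J) + 1)) * vcount (F.T L) f := by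
      have h4 : dcount f g ≤ (Fintype.card I * Fintype.card J) *
        ((2 * (Fintype.card I * Fintype.card J) + 1) * vcount (F.T L) f) :=
        le_trans h1 (Nat.mul_le_mul_left _ hg2)
      have h5 : (dcount f g : ℝ) ≤ (((Fintype.card I * Fintype.card J) *
        ((2 * (Fintype.card I * Fintype.card J) + 1) * vcount (F.T L) f) : ℕ) : ℝ) := by
        exact_mod_cast h4
      refine le_trans h5 (le_of_eq ?_)
      push_cast
      ring
    refine le_trans h3 ?_
    gcongr
    exact le_max_left _ _
  · refine ⟨0, Submodule.zero_mem _, ?_⟩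
    push Not at hs
    have h1 : (dcount f (0 : P × I × J → K) : ℝ) ≤
        Fintype.card P * (Fintype.card I * Fintype.card J) := by
      have h2 := dcount_le f (0 : P × I × J → K)
      rw [Fintype.card_prod, Fintype.card_prod] at h2
      exact_mod_cast h2
    have h2 : (Fintype.card P : ℝ) * (Fintype.card I * Fintype.card J) ≤
        (4 * κ ^ 2 * a * (Fintype.card I * Fintype.card J : ℝ) ^ 2) * vcount (F.T L) f := by
      have h3 : (Fintype.card P : ℝ) ≤
          4 * κ ^ 2 * a * (Fintype.card I * Fintype.card J) * (vcount (F.T L) f : ℝ) := by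
        linarith
      calc (Fintype.card P : ℝ) * (Fintype.card I * Fintype.card J)
          ≤ (4 * κ ^ 2 * a * (Fintype.card I * Fintype.card J) * (vcount (F.T L) f : ℝ)) *
            (Fintype.card I * Fintype.card J) := by gcongr
        _ = _ := by ring
    refine le_trans (le_trans h1 h2) ?_
    gcongr
    exact le_max_right _ _

end linear

section distance

variable {P I J K : Type} [Group P] (F : Fac P I J) [Field K] [Fintype P] [Fintype I] [Fintype J]

open Classical in
/-- **distance**: `d` = x-distance of the local codes at the vertices `(ff, ff)` and `(tt, ff)`,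
`dd` = minimum weight of the local code at `(ff, ff)` -/
theorem minDist [Nonempty I] [Nonempty J] {L : Bool → Bool → Submodule K (I → J → K)} {lam : ℝ}
    (hE : OneExp (fun i => (F.al i)⁻¹) lam) {d dd : ℕ}
    (h0 : ∀ t ∈ L false false, t ≠ 0 → d ≤ (univ.filter fun i => t i ≠ 0).card)
    (h1 : ∀ t ∈ L true false, t ≠ 0 → d ≤ (univ.filter fun i => t i ≠ 0).card)
    (h2 : ∀ t ∈ L false false, t ≠ 0 →
      dd ≤ (univ.filter fun x : I × J => t x.1 x.2 ≠ 0).card) :
    MinDist (F.C L) ((dd : ℝ) / (Fintype.card I * Fintype.card J) *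
      (((d : ℝ) / Fintype.card I) ^ 2 - lam ^ 2)) := by
  intro f hf hne
  have hP : 0 < Fintype.card P := Fintype.card_pos
  have hIc : 0 < Fintype.card I := Fintype.card_pos
  have hJc : 0 < Fintype.card J := Fintype.card_pos
  have hmem := F.mem_C.1 hf
  set pi : I → P ≃ P := fun i => Equiv.mulRight (F.al i) with hpi
  have hpis : ∀ i h, (pi i).symm h = h * (F.al i)⁻¹ := fun i h => rfl
  have hEx : Tan846.Ex pi (Fintype.card P) lam := by
    intro g hg
    simp only [hpis]
    exact hE g hg
  -- local distances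
  have hD0 : Tan846.Dist ({t | t ∈ L false false} : Set (I → J → K)) d := by
    intro c hc c' hc' hcc
    have h := h0 (c - c') (Submodule.sub_mem _ hc hc') (sub_ne_zero.2 hcc)
    refine le_trans h (le_of_eq ?_)
    unfold Tan846.cnt
    congr 1
    ext i
    simp only [mem_filter, mem_univ, true_and, Pi.sub_apply, ne_eq, sub_eq_zero]
  let ρ : (I → J → K) → (I → J → K) := fun c i j => c i ((F.B i).symm j)
  have hρ : ∀ c c' i, ρ c i = ρ c' i ↔ c i = c' i := by
    intro c c' i
    constructor
    · intro h
      funext j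
      have := congrFun h (F.B i j)
      simpa [ρ] using this
    · intro h
      funext j
      simp [ρ, h]
  have hD1 : Tan846.Dist ({t | ρ t ∈ L true false} : Set (I → J → K)) d := by
    intro c hc c' hc' hcc
    have hne' : ρ c - ρ c' ≠ 0 := by
      intro h
      apply hcc
      funext i
      exact (hρ c c' i).1 (congrFun (sub_eq_zero.1 h) i)
    have h := h1 (ρ c - ρ c') (Submodule.sub_mem _ hc hc') hne'
    refine le_trans h (le_of_eq ?_)
    unfold Tan846.cnt
    congr 1
    ext i
    simp only [mem_filter, mem_univ, true_and, Pi.sub_apply, ne_eq, sub_eq_zero, hρ]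
  let Y : P → I → J → K := fun p i j => f (p, i, j)
  have hY : Y ∈ Tan846.Tan pi ({t | t ∈ L false false} : Set (I → J → K)) {t | ρ t ∈ L true false} :=
    ⟨fun p => hmem (false, false, p), fun h => hmem (true, false, h)⟩
  have hZ : (0 : P → I → J → K) ∈
      Tan846.Tan pi ({t | t ∈ L false false} : Set (I → J → K)) {t | ρ t ∈ L true false} :=
    ⟨fun p => Submodule.zero_mem _, fun h => Submodule.zero_mem (L true false)⟩
  have hYne : Y ≠ 0 := by
    intro h
    apply hne
    funext ⟨p, i, j⟩
    exact congrFun (congrFun (congrFun h p) i) j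
  have hsep := Tan846.sep (N := Fintype.card P) (by exact_mod_cast hP) hEx hD0 hD1 hY hZ hYne
  set s : ℕ := Tan846.cnt (fun u => Y u ≠ (0 : P → I → J → K) u) with hs
  -- weight
  have hwt : dd * s ≤ wt f := by
    have e1 : wt f = ∑ p : P, (univ.filter fun x : I × J => Y p x.1 x.2 ≠ 0).card := by
      unfold wt
      simp only [Finset.card_filter]
      rw [Fintype.sum_prod_type]
    rw [e1, hs, ← Tan846.cnt_sum_nat, Finset.mul_sum]
    refine Finset.sum_le_sum fun u _ => ?_
    split_ifs with hu
    · rw [mul_one]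
      exact h2 _ (hmem (false, false, u)) hu
    · simp
  have hIr : (0 : ℝ) < Fintype.card I := by exact_mod_cast hIc
  have hJr : (0 : ℝ) < Fintype.card J := by exact_mod_cast hJc
  have hPr : (0 : ℝ) < Fintype.card P := by exact_mod_cast hP
  have h3 : (((d : ℝ) / Fintype.card I) ^ 2 - lam ^ 2) * Fintype.card P ≤ s := by
    have e : (d : ℝ) ^ 2 * Fintype.card P =
        (Fintype.card I : ℝ) ^ 2 * (((d : ℝ) / Fintype.card I) ^ 2 * Fintype.card P) := by
      field_simp
    rw [e] at hsep
    have h4 := le_of_mul_le_mul_left hsep (by positivity)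
    linarith
  have h4 : ((dd * s : ℕ) : ℝ) ≤ wt f := by exact_mod_cast hwt
  refine le_trans (le_of_eq ?_) (le_trans (mul_le_mul_of_nonneg_left h3 (Nat.cast_nonneg dd)) ?_)
  · rw [Fintype.card_prod, Fintype.card_prod]
    push_cast
    field_simp
  · push_cast at h4
    exact h4

end distance


end Fac

end Crest.Agent.R289.Sq257
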