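import Mathlib

/-!
Row 289, block C: the content level of the End-of-Line machine, with OVERLAPPING transcripts
(fix of (M5) of post 5393).

Names are arrays `Fin n → α`, the two maps are computed by straight line programs (`Prog`), a
transcript is the array of all values of the program.  A state is a stage, a progress counter
and a name; `X Y TS TP` are the contents of the four blocks.

Main results
* `nx_iff_pv`      : successor and predecessor are inverse partial maps;
* `N_iff_M`        : `N w = w' ∧ w' ≠ w ↔ M w' = w ∧ w ≠ w'`;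
* `sink`, `source` : the ends are the start state and solutions;
* `legal_iff`      : the static relations of a stage hold iff the four blocks are the content of
  the state of a unique name.
-/

set_option autoImplicit false

namespace Crest.Agent.R289.Stages435

/-! ### prefixes and suffixes of arrays -/

section arrays
variable {α : Type*} [Zero α] {L : ℕ}

/-- the first `t` entries, the rest is `0` -/
def pre (t : ℕ) (f : Fin L → α) : Fin L → α := fun i => if i.1 < t then f i else 0

/-- the first `t` entries are erased -/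
def suf (t : ℕ) (f : Fin L → α) : Fin L → α := fun i => if i.1 < t then 0 else f i

@[simp] theorem pre_zero (f : Fin L → α) : pre 0 f = 0 := by
  funext i; simp [pre]

@[simp] theorem suf_zero (f : Fin L → α) : suf 0 f = f := by
  funext i; simp [suf]

theorem pre_of_le {t : ℕ} (h : L ≤ t) (f : Fin L → α) : pre t f = f := by
  funext i; simp [pre, lt_of_lt_of_le i.2 h]

theorem suf_of_le {t : ℕ} (h : L ≤ t) (f : Fin L → α) : suf t f = 0 := by
  funext i; simp [suf, lt_of_lt_of_le i.2 h]

@[simp] theorem pre_self (f : Fin L → α) : pre L f = f := pre_of_le le_rfl f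

@[simp] theorem suf_self (f : Fin L → α) : suf L f = 0 := suf_of_le le_rfl f

theorem pre_succ {t : ℕ} (h : t < L) (f : Fin L → α) :
    pre (t + 1) f = Function.update (pre t f) ⟨t, h⟩ (f ⟨t, h⟩) := by
  funext i
  by_cases hi : i = ⟨t, h⟩
  · subst hi; simp [pre]
  · have : i.1 ≠ t := fun h' => hi (Fin.ext h')
    rw [Function.update_of_ne hi]
    simp only [pre]
    by_cases h1 : i.1 < t
    · rw [if_pos h1, if_pos (by omega)]
    · rw [if_neg h1, if_neg (by omega)]

theorem suf_succ {t : ℕ} (h : t < L) (f : Fin L → α) :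
    suf (t + 1) f = Function.update (suf t f) ⟨t, h⟩ 0 := by
  funext i
  by_cases hi : i = ⟨t, h⟩
  · subst hi; simp [suf]
  · have : i.1 ≠ t := fun h' => hi (Fin.ext h')
    rw [Function.update_of_ne hi]
    simp only [suf]
    by_cases h1 : i.1 < t
    · rw [if_pos h1, if_pos (by omega)]
    · rw [if_neg h1, if_neg (by omega)]

end arrays

/-! ### straight line programs -/

/-- A straight line program with `n` inputs, `L` values and `m` outputs: the `i`-th value is
`g i x f` where `f` is the array of values (only the entries before `i` matter). -/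
structure Prog (α : Type*) (n L m : ℕ) where
  g : Fin L → (Fin n → α) → (Fin L → α) → α
  dep : ∀ i x f f', (∀ j, j < i → f j = f' j) → g i x f = g i x f'
  o : Fin m → (Fin L → α) → α

namespace Prog
variable {α : Type*} [Zero α] {n L m : ℕ} (p : Prog α n L m)

/-- the array after `t` steps -/
def run (x : Fin n → α) : ℕ → Fin L → α
  | 0 => 0
  | t + 1 => fun i => if i.1 = t then p.g i x (run x t) else run x t i

/-- the transcript -/
def tr (x : Fin n → α) : Fin L → α := p.run x L

/-- the output -/
def out (x : Fin n → α) : Fin m → α := fun j => p.o j (p.tr x)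

theorem run_ge (x : Fin n → α) (t : ℕ) (i : Fin L) (h : t ≤ i.1) : p.run x t i = 0 := by
  induction t with
  | zero => rfl
  | succ t ih =>
    have e : p.run x (t + 1) i = if i.1 = t then p.g i x (p.run x t) else p.run x t i := rfl
    rw [e, if_neg (by omega), ih (by omega)]

theorem run_lt (x : Fin n → α) (t : ℕ) (i : Fin L) (h : i.1 < t) :
    p.run x t i = p.run x (i.1 + 1) i := by
  induction t with
  | zero => omega
  | succ t ih =>
    by_cases hi : i.1 = t
    · rw [hi]
    · have e : p.run x (t + 1) i = if i.1 = t then p.g i x (p.run x t) else p.run x t i := rfl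
      rw [e, if_neg hi, ih (by omega)]

theorem run_eq (x : Fin n → α) (t : ℕ) : p.run x t = pre t (p.tr x) := by
  funext i
  unfold pre tr
  split_ifs with h
  · rw [p.run_lt x t i h, p.run_lt x L i i.2]
  · exact p.run_ge x t i (by omega)

theorem tr_eq (x : Fin n → α) (i : Fin L) : p.tr x i = p.g i x (p.tr x) := by
  have h1 : p.tr x i = p.g i x (p.run x i.1) := by
    unfold tr
    have e : p.run x (i.1 + 1) i = if i.1 = i.1 then p.g i x (p.run x i.1) else p.run x i.1 i := rfl
    rw [p.run_lt x L i i.2, e, if_pos rfl]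
  rw [h1, p.run_eq x i.1]
  refine p.dep i x _ _ fun j hj => ?_
  unfold pre
  rw [if_pos (by exact hj)]

/-- the static relation of a partial transcript -/
theorem pre_tr_iff (x : Fin n → α) (t : ℕ) (f : Fin L → α) :
    (∀ i, f i = if i.1 < t then p.g i x f else 0) ↔ f = pre t (p.tr x) := by
  constructor
  · intro h
    have key : ∀ k : ℕ, ∀ i : Fin L, i.1 < k → f i = pre t (p.tr x) i := by
      intro k
      induction k with
      | zero => intro i hi; omega
      | succ k ih =>
        intro i hi
        rw [h i]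
        unfold pre
        split_ifs with hit
        · rw [p.tr_eq x i]
          refine p.dep i x _ _ fun j hj => ?_
          have hj' : j.1 < i.1 := hj
          rw [ih j (by omega)]
          unfold pre
          rw [if_pos (by omega)]
        · rfl
    funext i
    exact key (i.1 + 1) i (by omega)
  · rintro rfl i
    unfold pre
    split_ifs with hit
    · rw [p.tr_eq x i]
      refine p.dep i x _ _ fun j hj => ?_
      have hj' : j.1 < i.1 := hj
      rw [if_pos (by omega)]
    · rfl

theorem tr_iff (x : Fin n → α) (f : Fin L → α) : (∀ i, f i = p.g i x f) ↔ f = p.tr x := by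
  have h := p.pre_tr_iff x L f
  rw [pre_self] at h
  rw [← h]
  refine forall_congr' fun i => ?_
  rw [if_pos i.2]

end Prog

/-! ### the machine -/

/-- the End-of-Line data -/
structure Data (α : Type*) [Zero α] (n LS LP : ℕ) where
  pS : Prog α n LS n
  pP : Prog α n LP n
  hP : pP.out 0 = 0
  hS : pS.out 0 ≠ 0
  hPS : pP.out (pS.out 0) = 0

/-- stages: `A` fill `TS(X)`, `B` copy out to `Y`, `C` fill `TP(Y)`, `E` unfill `TS(X)`,
`F` erase `X`, `G` unfill `TP(Y)`, `H` copy `Y` to `X`, `I` erase `Y`. -/
inductive Stage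
  | A | B | C | E | F | G | H | I
  deriving DecidableEq

namespace Stage

/-- the next stage -/
def next : Stage → Stage
  | A => B | B => C | C => E | E => F | F => G | G => H | H => I | I => A

/-- the previous stage -/
def prev : Stage → Stage
  | A => I | B => A | C => B | E => C | F => E | G => F | H => G | I => H

@[simp] theorem prev_next (s : Stage) : s.next.prev = s := by cases s <;> rfl
@[simp] theorem next_prev (s : Stage) : s.prev.next = s := by cases s <;> rfl

/-- the length of a stage -/
def len (n LS LP : ℕ) : Stage → ℕ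
  | A => LS | B => n | C => LP | E => LS | F => n | G => LP | H => n | I => n

end Stage

variable {α : Type*} [Zero α] [DecidableEq α] {n LS LP : ℕ}

/-- states -/
@[ext] structure St (α : Type*) (n LS LP : ℕ) where
  s : Stage
  t : ℕ
  v : Fin n → α
  ht : t ≤ s.len n LS LP

namespace Data
variable (D : Data α n LS LP)

/-- the successor map of the instance -/
def S (v : Fin n → α) : Fin n → α := D.pS.out v
/-- the predecessor map of the instance -/
def P (v : Fin n → α) : Fin n → α := D.pP.out v

omit [DecidableEq α] in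
theorem S0 : D.S 0 ≠ 0 := D.hS
omit [DecidableEq α] in
theorem P0 : D.P 0 = 0 := D.hP
omit [DecidableEq α] in
theorem PS0 : D.P (D.S 0) = 0 := D.hPS

/-- successor -/
def nx (w : St α n LS LP) : Option (St α n LS LP) :=
  if h : w.t < w.s.len n LS LP then some ⟨w.s, w.t + 1, w.v, h⟩
  else if w.s = Stage.C then
    (if D.P (D.S w.v) = w.v then some ⟨Stage.E, 0, D.S w.v, Nat.zero_le _⟩ else none)
  else some ⟨w.s.next, 0, w.v, Nat.zero_le _⟩

/-- predecessor -/
def pv (w : St α n LS LP) : Option (St α n LS LP) :=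
  if h : 0 < w.t then some ⟨w.s, w.t - 1, w.v, by have := w.ht; omega⟩
  else if w.s = Stage.E then
    (if D.S (D.P w.v) = w.v then some ⟨Stage.C, Stage.C.len n LS LP, D.P w.v, le_rfl⟩ else none)
  else some ⟨w.s.prev, w.s.prev.len n LS LP, w.v, le_rfl⟩

theorem nx_iff_pv (w w' : St α n LS LP) : D.nx w = some w' ↔ D.pv w' = some w := by
  obtain ⟨s, t, v, ht⟩ := w
  obtain ⟨s', t', v', ht'⟩ := w'
  unfold nx pv
  simp only
  constructor
  · intro h
    split_ifs at h with h1 h2 h3
    · simp only [Option.some.injEq, St.mk.injEq] at h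
      obtain ⟨rfl, rfl, rfl⟩ := h
      simp
    · simp only [Option.some.injEq, St.mk.injEq] at h
      obtain ⟨rfl, rfl, rfl⟩ := h
      subst h2
      have : t = Stage.C.len n LS LP := by omega
      simp [h3, this]
    · simp only [Option.some.injEq, St.mk.injEq] at h
      obtain ⟨rfl, rfl, rfl⟩ := h
      have hs : s.next ≠ Stage.E := by
        intro h; apply h2; rw [← Stage.prev_next s, h]; rfl
      have : t = s.len n LS LP := by omega
      simp [hs, this]
  · intro h
    split_ifs at h with h1 h2 h3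
    · simp only [Option.some.injEq, St.mk.injEq] at h
      obtain ⟨rfl, rfl, rfl⟩ := h
      have : t' - 1 < s'.len n LS LP := by omega
      rw [dif_pos this]
      simp only [Option.some.injEq, St.mk.injEq, true_and, and_true]
      omega
    · simp only [Option.some.injEq, St.mk.injEq] at h
      obtain ⟨rfl, rfl, rfl⟩ := h
      subst h2
      have : t' = 0 := by omega
      subst this
      simp [h3]
    · simp only [Option.some.injEq, St.mk.injEq] at h
      obtain ⟨rfl, rfl, rfl⟩ := h
      have hs : s'.prev ≠ Stage.C := by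
        intro h; apply h2; rw [← Stage.next_prev s', h]; rfl
      have : t' = 0 := by omega
      subst this
      simp [hs]

theorem nx_ne (w : St α n LS LP) : D.nx w ≠ some w := by
  obtain ⟨s, t, v, ht⟩ := w
  unfold nx
  simp only
  split_ifs with h1 h2 h3
  · intro h
    simp only [Option.some.injEq, St.mk.injEq] at h
    omega
  · intro h
    simp only [Option.some.injEq, St.mk.injEq] at h
    obtain ⟨h, -⟩ := h
    rw [h2] at h
    cases h
  · simp
  · intro h
    simp only [Option.some.injEq, St.mk.injEq] at h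
    obtain ⟨h, -⟩ := h
    cases s <;> cases h

theorem pv_ne (w : St α n LS LP) : D.pv w ≠ some w := by
  intro h
  rw [← D.nx_iff_pv] at h
  exact D.nx_ne w h

/-- total successor -/
def N (w : St α n LS LP) : St α n LS LP := (D.nx w).getD w
/-- total predecessor -/
def M (w : St α n LS LP) : St α n LS LP := (D.pv w).getD w

theorem N_iff (w w' : St α n LS LP) : (D.N w = w' ∧ w' ≠ w) ↔ D.nx w = some w' := by
  unfold N
  cases h : D.nx w with
  | none => simp; intro h; exact h.symm
  | some u =>
    simp only [Option.getD_some, Option.some.injEq]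
    constructor
    · exact fun h => h.1
    · rintro rfl
      refine ⟨rfl, fun h' => ?_⟩
      rw [h'] at h
      exact D.nx_ne w h

theorem M_iff (w w' : St α n LS LP) : (D.M w' = w ∧ w ≠ w') ↔ D.pv w' = some w := by
  unfold M
  cases h : D.pv w' with
  | none => simp; intro h; exact h.symm
  | some u =>
    simp only [Option.getD_some, Option.some.injEq]
    constructor
    · exact fun h => h.1
    · rintro rfl
      refine ⟨rfl, fun h' => ?_⟩
      rw [h'] at h
      exact D.pv_ne w' h

theorem N_iff_M (w w' : St α n LS LP) : (D.N w = w' ∧ w' ≠ w) ↔ (D.M w' = w ∧ w ≠ w') := by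
  rw [N_iff, M_iff, nx_iff_pv]

theorem N_self_iff (w : St α n LS LP) : D.N w = w ↔ D.nx w = none := by
  constructor
  · intro h
    cases h' : D.nx w with
    | none => rfl
    | some u =>
      have := (D.N_iff w u).2 h'
      exact absurd (this.1.symm.trans h) this.2
  · intro h; unfold N; rw [h]; rfl

theorem M_self_iff (w : St α n LS LP) : D.M w = w ↔ D.pv w = none := by
  constructor
  · intro h
    cases h' : D.pv w with
    | none => rfl
    | some u =>
      have := (D.M_iff u w).2 h'
      exact absurd (this.1.symm.trans h) this.2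
  · intro h; unfold M; rw [h]; rfl

/-- the start state: `X = Y = 0`, both transcripts full -/
def start : St α n LS LP := ⟨Stage.E, 0, 0, Nat.zero_le _⟩

theorem M_start : D.M start = start := by
  rw [M_self_iff]
  unfold pv start
  simp only [lt_self_iff_false, dite_false, if_true]
  rw [if_neg]
  rw [D.P0]
  exact D.S0

/-- forward ends are solutions -/
theorem sink (w : St α n LS LP) (h : D.N w = w) :
    w.s = Stage.C ∧ w.t = LP ∧ w.v ≠ 0 ∧ D.P (D.S w.v) ≠ w.v := by
  rw [N_self_iff] at h
  obtain ⟨s, t, v, ht⟩ := w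
  unfold nx at h
  simp only at h ⊢
  split_ifs at h with h1 h2 h3
  subst h2
  refine ⟨rfl, ?_, ?_, h3⟩
  · have h4 : t ≤ LP := ht
    have h5 : ¬ t < LP := h1
    omega
  · rintro rfl
    exact h3 D.PS0

/-- backward ends are the start or solutions -/
theorem source (w : St α n LS LP) (h : D.M w = w) :
    w = start ∨ (w.s = Stage.E ∧ w.t = 0 ∧ w.v ≠ 0 ∧ D.S (D.P w.v) ≠ w.v) := by
  rw [M_self_iff] at h
  obtain ⟨s, t, v, ht⟩ := w
  unfold pv at h
  simp only at h ⊢
  split_ifs at h with h1 h2 h3
  subst h2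
  have : t = 0 := by omega
  subst this
  by_cases hv : v = 0
  · left; subst hv; rfl
  · exact Or.inr ⟨rfl, rfl, hv, h3⟩

theorem start_isNotSink : D.N start ≠ start := by
  intro h
  have := (D.sink _ h).1
  cases this

/-! ### the contents of the four blocks -/

/-- block `X` -/
def X (w : St α n LS LP) : Fin n → α :=
  match w.s with
  | Stage.A => w.v
  | Stage.B => w.v
  | Stage.C => w.v
  | Stage.E => D.P w.v
  | Stage.F => suf w.t (D.P w.v)
  | Stage.G => 0
  | Stage.H => pre w.t w.v
  | Stage.I => w.v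

/-- block `Y` -/
def Y (w : St α n LS LP) : Fin n → α :=
  match w.s with
  | Stage.A => 0
  | Stage.B => pre w.t (D.S w.v)
  | Stage.C => D.S w.v
  | Stage.E => w.v
  | Stage.F => w.v
  | Stage.G => w.v
  | Stage.H => w.v
  | Stage.I => suf w.t w.v

/-- transcript of `S` on `X` -/
def TS (w : St α n LS LP) : Fin LS → α :=
  match w.s with
  | Stage.A => pre w.t (D.pS.tr w.v)
  | Stage.B => D.pS.tr w.v
  | Stage.C => D.pS.tr w.v
  | Stage.E => pre (LS - w.t) (D.pS.tr (D.P w.v))
  | _ => 0

/-- transcript of `P` on `Y` -/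
def TP (w : St α n LS LP) : Fin LP → α :=
  match w.s with
  | Stage.C => pre w.t (D.pP.tr (D.S w.v))
  | Stage.E => D.pP.tr w.v
  | Stage.F => D.pP.tr w.v
  | Stage.G => pre (LP - w.t) (D.pP.tr w.v)
  | _ => 0

/-- the four blocks -/
def blocks (w : St α n LS LP) : (Fin n → α) × (Fin n → α) × (Fin LS → α) × (Fin LP → α) :=
  (D.X w, D.Y w, D.TS w, D.TP w)

/-- the static relations of stage `s` at progress `t` -/
def Rel (s : Stage) (t : ℕ) (X Y : Fin n → α) (TS : Fin LS → α) (TP : Fin LP → α) : Prop :=
  match s with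
  | Stage.A => (∀ j, Y j = 0) ∧ (∀ i, TP i = 0) ∧
      ∀ i, TS i = if i.1 < t then D.pS.g i X TS else 0
  | Stage.B => (∀ i, TP i = 0) ∧ (∀ i, TS i = D.pS.g i X TS) ∧
      ∀ j, Y j = if j.1 < t then D.pS.o j TS else 0
  | Stage.C => (∀ i, TS i = D.pS.g i X TS) ∧ (∀ j, Y j = D.pS.o j TS) ∧
      ∀ i, TP i = if i.1 < t then D.pP.g i Y TP else 0
  | Stage.E => (∀ i, TP i = D.pP.g i Y TP) ∧ (∀ j, X j = D.pP.o j TP) ∧
      ∀ i, TS i = if i.1 < LS - t then D.pS.g i X TS else 0
  | Stage.F => (∀ i, TP i = D.pP.g i Y TP) ∧ (∀ i, TS i = 0) ∧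
      ∀ j, X j = if j.1 < t then 0 else D.pP.o j TP
  | Stage.G => (∀ j, X j = 0) ∧ (∀ i, TS i = 0) ∧
      ∀ i, TP i = if i.1 < LP - t then D.pP.g i Y TP else 0
  | Stage.H => (∀ i, TS i = 0) ∧ (∀ i, TP i = 0) ∧ ∀ j, X j = if j.1 < t then Y j else 0
  | Stage.I => (∀ i, TS i = 0) ∧ (∀ i, TP i = 0) ∧ ∀ j, Y j = if j.1 < t then 0 else X j

omit [DecidableEq α] in
theorem legal_iff (s : Stage) (t : ℕ) (ht : t ≤ s.len n LS LP) (X Y : Fin n → α)
    (TS : Fin LS → α) (TP : Fin LP → α) :
    D.Rel s t X Y TS TP ↔ ∃ v : Fin n → α, (X, Y, TS, TP) = D.blocks ⟨s, t, v, ht⟩ := by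
  have z1 : ∀ {m : ℕ} (f : Fin m → α), (∀ j, f j = 0) ↔ f = 0 := fun f =>
    ⟨fun h => funext h, fun h j => by rw [h]; rfl⟩
  have z2 : ∀ {m m' : ℕ} (f : Fin m → α) (k : ℕ) (g : Fin m → α),
      (∀ j, f j = if j.1 < k then g j else 0) ↔ f = pre k g := fun f k g =>
    ⟨fun h => funext h, fun h j => by rw [h]; rfl⟩
  have z3 : ∀ {m m' : ℕ} (f : Fin m → α) (k : ℕ) (g : Fin m → α),
      (∀ j, f j = if j.1 < k then 0 else g j) ↔ f = suf k g := fun f k g =>
    ⟨fun h => funext h, fun h j => by rw [h]; rfl⟩
  cases s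
  · simp only [Rel, blocks, Data.X, Data.Y, Data.TS, Data.TP, Prod.mk.injEq, z1, Prog.pre_tr_iff]
    constructor
    · rintro ⟨rfl, rfl, rfl⟩; exact ⟨X, rfl, rfl, rfl, rfl⟩
    · rintro ⟨v, rfl, rfl, rfl, rfl⟩; exact ⟨rfl, rfl, rfl⟩
  · simp only [Rel, blocks, Data.X, Data.Y, Data.TS, Data.TP, Prod.mk.injEq, z1, Prog.tr_iff]
    constructor
    · rintro ⟨rfl, rfl, h⟩
      exact ⟨X, rfl, funext h, rfl, rfl⟩
    · rintro ⟨v, rfl, h, rfl, rfl⟩
      exact ⟨rfl, rfl, fun j => by rw [h]; rfl⟩
  · simp only [Rel, blocks, Data.X, Data.Y, Data.TS, Data.TP, Prod.mk.injEq, Prog.tr_iff,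
      Prog.pre_tr_iff]
    constructor
    · rintro ⟨rfl, h, rfl⟩
      have hY : Y = D.S X := funext h
      exact ⟨X, rfl, hY, rfl, by rw [hY]⟩
    · rintro ⟨v, rfl, rfl, rfl, rfl⟩
      exact ⟨rfl, fun j => rfl, rfl⟩
  · simp only [Rel, blocks, Data.X, Data.Y, Data.TS, Data.TP, Prod.mk.injEq, Prog.tr_iff,
      Prog.pre_tr_iff]
    constructor
    · rintro ⟨rfl, h, rfl⟩
      have hX : X = D.P Y := funext h
      exact ⟨Y, hX, rfl, by rw [hX], rfl⟩
    · rintro ⟨v, rfl, rfl, rfl, rfl⟩
      exact ⟨rfl, fun j => rfl, rfl⟩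
  · simp only [Rel, blocks, Data.X, Data.Y, Data.TS, Data.TP, Prod.mk.injEq, Prog.tr_iff, z1]
    constructor
    · rintro ⟨rfl, rfl, h⟩
      exact ⟨Y, funext h, rfl, rfl, rfl⟩
    · rintro ⟨v, h, rfl, rfl, rfl⟩
      exact ⟨rfl, rfl, fun j => by rw [h]; rfl⟩
  · simp only [Rel, blocks, Data.X, Data.Y, Data.TS, Data.TP, Prod.mk.injEq, Prog.pre_tr_iff, z1]
    constructor
    · rintro ⟨rfl, rfl, rfl⟩; exact ⟨Y, rfl, rfl, rfl, rfl⟩
    · rintro ⟨v, rfl, rfl, rfl, rfl⟩; exact ⟨rfl, rfl, rfl⟩
  · simp only [Rel, blocks, Data.X, Data.Y, Data.TS, Data.TP, Prod.mk.injEq, z1]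
    constructor
    · rintro ⟨rfl, rfl, h⟩; exact ⟨Y, funext h, rfl, rfl, rfl⟩
    · rintro ⟨v, h, rfl, rfl, rfl⟩; exact ⟨rfl, rfl, fun j => by rw [h]; rfl⟩
  · simp only [Rel, blocks, Data.X, Data.Y, Data.TS, Data.TP, Prod.mk.injEq, z1]
    constructor
    · rintro ⟨rfl, rfl, h⟩; exact ⟨X, rfl, funext h, rfl, rfl⟩
    · rintro ⟨v, rfl, h, rfl, rfl⟩; exact ⟨rfl, rfl, fun j => by rw [h]; rfl⟩

end Data

end Crest.Agent.R289.Stages435
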