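import Crest.Agent.R289.StartTab_810

/-!
# Row 289, E28 part 3: tables of the public data of `DefI` and of the start label

* `PDIx c` : all `K`-symbols of `Cst.PD`; `PDIx.get`, `mkPD` (`mkPD_get`).
* `codeFin X` : a code of a finite type; `finite_PD`, `finite_Lab`, ..
* `exists_pdTab` : tables of all symbols of `pd` (and of the flags of `tdL`) give a `PTF₂` table of
  `(pd u, pc u)`.
* **`exists_pb`**, **`exists_wb`** : the bit tables `pb`, `wb` of `Fam289`.
-/

set_option autoImplicit false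

namespace Crest.Agent.R289.StartTab810

open Finset Crest.Agent.Lib.PT Crest.Agent.R289 Crest.Agent.R289.Local782
open Crest.Agent.R289.FamComb715
open Crest.Agent.R289.DefC Crest.Agent.R289.DefI Crest.Agent.R289.Compile827

/-- a code of a finite type -/
@[instance_reducible] noncomputable def codeFin (X : Type) [Finite X] : PTCode X :=
  PTCode.ofInj (Finite.equivFin X) (Finite.equivFin X).injective

section pd

variable {K : Type} [Field K] (c : Cst K)

/-- the symbols of the clock data at `t = L` -/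
abbrev TDIx : Type :=
  (c.S' ⊕ c.S' ⊕ c.S') ⊕ (c.C × c.S' ⊕ c.C × c.S') ⊕ (c.C × c.S' ⊕ c.C × c.S')

/-- the symbols of the public data -/
abbrev PDIx : Type :=
  ((c.A.Pub × c.S) ⊕ (c.A.Reg × c.S)) ⊕ (c.S' ⊕ (c.J1 × c.S') ⊕ (c.J2 × c.S')) ⊕
    (c.S' ⊕ (c.C × c.S') ⊕ (c.C × c.S')) ⊕ TDIx c

variable {c}

/-- value of a symbol of the clock data -/
def tdGet (d : c.TD) : TDIx c → K
  | .inl (.inl s) => d.D s
  | .inl (.inr (.inl s)) => d.Dm s
  | .inl (.inr (.inr s)) => d.Dp s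
  | .inr (.inl (.inl x)) => d.A x.1 x.2
  | .inr (.inl (.inr x)) => d.B x.1 x.2
  | .inr (.inr (.inl x)) => d.Am x.1 x.2
  | .inr (.inr (.inr x)) => d.Bm x.1 x.2

/-- value of a symbol of the public data -/
def pdGet (d : c.PD) : PDIx c → K
  | .inl (.inl x) => d.b x.1 x.2
  | .inl (.inr x) => d.x0 x.1 x.2
  | .inr (.inl (.inl s)) => d.one s
  | .inr (.inl (.inr (.inl x))) => d.E1 x.1 x.2
  | .inr (.inl (.inr (.inr x))) => d.E2 x.1 x.2
  | .inr (.inr (.inl (.inl s))) => d.D0 s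
  | .inr (.inr (.inl (.inr (.inl x)))) => d.A0 x.1 x.2
  | .inr (.inr (.inl (.inr (.inr x)))) => d.B0 x.1 x.2
  | .inr (.inr (.inr x)) => tdGet d.tdL x

/-- clock data from the symbols and the flags -/
def mkTD (y : TDIx c → K) (f l : Bool) : c.TD where
  fst := f
  lst := l
  D := fun s => y (.inl (.inl s))
  Dm := fun s => y (.inl (.inr (.inl s)))
  Dp := fun s => y (.inl (.inr (.inr s)))
  A := fun q s => y (.inr (.inl (.inl (q, s))))
  B := fun q s => y (.inr (.inl (.inr (q, s))))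
  Am := fun q s => y (.inr (.inr (.inl (q, s))))
  Bm := fun q s => y (.inr (.inr (.inr (q, s))))

/-- public data from the symbols and the flags -/
def mkPD (y : PDIx c → K) (f l : Bool) : c.PD where
  b := fun x s => y (.inl (.inl (x, s)))
  x0 := fun x s => y (.inl (.inr (x, s)))
  one := fun s => y (.inr (.inl (.inl s)))
  E1 := fun j s => y (.inr (.inl (.inr (.inl (j, s)))))
  E2 := fun j s => y (.inr (.inl (.inr (.inr (j, s)))))
  D0 := fun s => y (.inr (.inr (.inl (.inl s))))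
  A0 := fun q s => y (.inr (.inr (.inl (.inr (.inl (q, s))))))
  B0 := fun q s => y (.inr (.inr (.inl (.inr (.inr (q, s))))))
  tdL := mkTD (fun x => y (.inr (.inr (.inr x)))) f l

theorem mkTD_get (d : c.TD) : mkTD (tdGet d) d.fst d.lst = d := rfl

theorem mkPD_get (d : c.PD) : mkPD (pdGet d) d.tdL.fst d.tdL.lst = d := rfl

instance finite_TD [Finite K] : Finite c.TD :=
  Finite.of_surjective (fun p : (TDIx c → K) × Bool × Bool => mkTD p.1 p.2.1 p.2.2)
    fun d => ⟨(tdGet d, d.fst, d.lst), rfl⟩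

instance finite_PD [Finite K] : Finite c.PD :=
  Finite.of_surjective (fun p : (PDIx c → K) × Bool × Bool => mkPD p.1 p.2.1 p.2.2)
    fun d => ⟨(pdGet d, d.tdL.fst, d.tdL.lst), rfl⟩

theorem finite_aux (A B C D : Type) [Finite A] [Finite B] [Finite C] [Finite D] :
    Finite (A × B × C × C × D × D) := inferInstance

instance finite_Bank [Finite K] : Finite c.Bank :=
  have := finite_aux c.A.Stg (c.A.Reg → c.S → K) (c.S' → c.S → c.V) (c.C → c.S' → c.S → c.V)
  Finite.of_surjective (fun p : c.A.Stg × (c.A.Reg → c.S → K) × (c.S' → c.S → c.V) ×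
      (c.S' → c.S → c.V) × (c.C → c.S' → c.S → c.V) × (c.C → c.S' → c.S → c.V) =>
      (⟨p.1, p.2.1, p.2.2.1, p.2.2.2.1, p.2.2.2.2.1, p.2.2.2.2.2⟩ : c.Bank))
    fun d => ⟨(d.stg, d.R, d.X, d.Xm, d.Z, d.Zm), rfl⟩

/-- number of letters is finite -/
instance finite_Letter {R : Type} [Finite R] : Finite (Letter R) :=
  Finite.of_surjective (fun p : Bool ⊕ (R ⊕ R) => match p with
      | .inl true => Letter.boot
      | .inl false => Letter.rest
      | .inr (.inl ρ) => Letter.fw ρ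
      | .inr (.inr ρ) => Letter.bw ρ) fun l => by
    cases l with
    | boot => exact ⟨.inl true, rfl⟩
    | rest => exact ⟨.inl false, rfl⟩
    | fw ρ => exact ⟨.inr (.inl ρ), rfl⟩
    | bw ρ => exact ⟨.inr (.inr ρ), rfl⟩

instance finite_Lab [Finite K] {Ck : Type} [Finite Ck] : Finite (c.Lab Ck) :=
  Finite.of_surjective (fun p : Letter c.A.Tr × Ck × c.Bank × c.Bank =>
      (⟨p.1, p.2.1, p.2.2.1, p.2.2.2⟩ : c.Lab Ck))
    fun d => ⟨(d.l, d.ck, d.b1, d.b2), rfl⟩

end pd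

/-! ### tables -/

section tab

variable {K : Type} [Field K] [Finite K] [PTCode K] {c : Cst K} {Gc Pc Ck : Type} [Finite Pc]
  [PTCode Pc]
variable {α : Type} [PTCode α]

/-- table of the public data from the tables of its symbols -/
def pdN (T : PDIx c → α → ℕ → K) (f l : α → Bool) (p : α → ℕ → Pc) (a : α) (u : ℕ) :
    c.PD × Pc := (mkPD (fun s => T s a u) (f a) (l a), p a u)

omit [PTCode K] [Finite Pc] [PTCode Pc] [PTCode α] [Finite K] in
theorem pdN_spec {T : PDIx c → α → ℕ → K} {f l : α → Bool} {p : α → ℕ → Pc} {a : α} {u : ℕ}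
    {d : c.PD} {q : Pc} (hT : ∀ s, T s a u = pdGet d s) (hf : f a = d.tdL.fst)
    (hl : l a = d.tdL.lst) (hp : p a u = q) : pdN T f l p a u = (d, q) := by
  unfold pdN
  rw [hf, hl, hp, show (fun s => T s a u) = pdGet d from funext hT, mkPD_get]

theorem ptf_pdN {T : PDIx c → α → ℕ → K} (hT : ∀ s, PTF₂ (T s)) {f l : α → Bool} (hf : PTF f)
    (hl : PTF l) {p : α → ℕ → Pc} (hp : PTF₂ p) :
    @PTF₂ α ℕ (c.PD × Pc) _ _ (codeFin _) (pdN T f l p) := by
  let _ : PTCode (c.PD × Pc) := codeFin _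
  have h := ptf_family (α := α × ℕ) (β := c.PD × Pc) (κ := PDIx c ⊕ Unit)
    (B := fun _ => K × Bool × Bool × Pc)
    (v := fun s w => match s with
      | .inl s => (T s w.1 w.2, f w.1, l w.1, p w.1 w.2)
      | .inr _ => ((0 : K), f w.1, l w.1, p w.1 w.2))
    (fun s => by
      have h1 : PTF (fun w : α × ℕ => (f w.1, l w.1, p w.1 w.2)) :=
        (PTF.comp hf PTF.fst).prodMk ((PTF.comp hl PTF.fst).prodMk hp)
      cases s with
      | inl s => exact PTF.prodMk (hT s) h1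
      | inr s => exact PTF.prodMk (PTF.const (0 : K)) h1)
    (fun y => (mkPD (fun s => (y (.inl s)).1) (y (.inr ())).2.1 (y (.inr ())).2.2.1,
      (y (.inr ())).2.2.2))
  exact PTF.of_eq h fun w => rfl

/-- **the bit table `pb`** : public data of the units -/
theorem exists_pb {r : ℕ} (enc : c.PD × Pc → Fin r → Bool) (I : α → Ins c)
    (pc : ∀ a, (I a).U → Pc) {n : α → ℕ} (e : ∀ a, (I a).U ≃ Fin (n a))
    (hT : ∀ s : PDIx c, ∃ T : α → ℕ → K, PTF₂ T ∧
      ∀ a u, T a (e a u : Fin (n a)) = pdGet ((I a).pd u) s)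
    (hL : PTF fun a => decide ((I a).L = 0))
    (hp : ∃ p : α → ℕ → Pc, PTF₂ p ∧ ∀ a u, p a (e a u : Fin (n a)) = pc a u) :
    ∃ pb : α × ℕ × ℕ → Bool, PTF pb ∧ ∀ a u (j : Fin r),
      pb (a, ((e a u : Fin (n a)) : ℕ), (j : ℕ)) = enc ((I a).pd u, pc a u) j := by
  choose T hT1 hT2 using hT
  obtain ⟨p, hp1, hp2⟩ := hp
  let _ : PTCode (c.PD × Pc) := codeFin _
  refine ⟨bitN enc (pdN T (fun a => decide ((I a).L = 0)) (fun _ => true) p),
    ptf_bitN enc (ptf_pdN hT1 hL (PTF.const true) hp1), fun a u j => ?_⟩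
  rw [bitN_fin, pdN_spec (d := (I a).pd u) (q := pc a u) (fun s => hT2 s a u) rfl
    (by simp [Ins.pd, Ins.td]) (hp2 a u)]

/-- **the bit table `wb`** : start label. `st0`, `stz`, `ck0` are absolute. -/
theorem exists_wb {r : ℕ} (enc : c.Lab Ck → Fin r → Bool) (st0 stz : c.A.Stg)
    (ck0 : c.PD × Pc → Ck) (I : α → Ins c) (h0 : ∀ a, (I a).stg0 = st0)
    (hz : ∀ a, (I a).stgz = stz) (mc : ∀ a, Gc → (I a).U → (I a).U) (pc : ∀ a, (I a).U → Pc)
    (cw : ∀ a, ℕ → (I a).U → Ck) (hck : ∀ a u, cw a 0 u = ck0 ((I a).pd u, pc a u)) {n : α → ℕ}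
    (e : ∀ a, (I a).U ≃ Fin (n a)) {mv : c.Gen Gc → α → ℕ → ℕ} (hmv : ∀ g, PTF₂ (mv g))
    (hmv' : ∀ a g u, mv g a (e a u : Fin (n a)) =
      (e a (((I a).frame (mc a) (pc a)).act g u) : Fin (n a)))
    (hT : ∀ s : PDIx c, ∃ T : α → ℕ → K, PTF₂ T ∧
      ∀ a u, T a (e a u : Fin (n a)) = pdGet ((I a).pd u) s)
    (hL : PTF fun a => decide ((I a).L = 0))
    (hp : ∃ p : α → ℕ → Pc, PTF₂ p ∧ ∀ a u, p a (e a u : Fin (n a)) = pc a u) :
    ∃ wb : α × ℕ × ℕ → Bool, PTF wb ∧ ∀ a u (j : Fin r),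
      wb (a, ((e a u : Fin (n a)) : ℕ), (j : ℕ)) =
        enc ((I a).labE (cw a) ⟨.boot, 0, (I a).xz, (I a).zz, (I a).xs, (I a).ent (I a).xs⟩ u) j := by
  choose T hT1 hT2 using hT
  obtain ⟨p, hp1, hp2⟩ := hp
  let _ : PTCode (c.PD × Pc) := codeFin _
  refine ⟨bitN enc (runN (startL st0 stz ck0 : Ru c Gc Pc Unit (c.Lab Ck)) mv (fun _ _ => ())
      (pdN T (fun a => decide ((I a).L = 0)) (fun _ => true) p)),
    ptf_bitN_run0 _ enc hmv (ptf_pdN hT1 hL (PTF.const true) hp1), fun a u j => ?_⟩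
  rw [bitN_fin]
  have h1 := runN_spec (startL st0 stz ck0 : Ru c Gc Pc Unit (c.Lab Ck)) mv (fun _ _ => ())
    (pdN T (fun a => decide ((I a).L = 0)) (fun _ => true) p) (a := a)
    (F := (I a).frame (mc a) (pc a)) (e a) (hmv' a) (X := fun _ => ()) (fun _ => rfl)
    (fun u => pdN_spec (d := (I a).pd u) (q := pc a u) (fun s => hT2 s a u) rfl
      (by simp [Ins.pd, Ins.td]) (hp2 a u)) u
  have h2 := run_startL (I a) (mc a) (pc a) (fun _ => ()) (cw a) ck0 (hck a) u
  rw [h0, hz] at h2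
  exact congrArg (fun x => enc x j) (h1.trans h2)

end tab

end Crest.Agent.R289.StartTab810
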