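import Crest.Agent.R289.StartTabB_810

/-!
# Row 289, E28 part 4: product numbering of the units `Γ × T` of `DefI`

* `exists_mv` : tables of all moves of `Ins.frame` on the numbering `eP (eΓ) (eT)` from tables on `Γ`
  and `T` (clock moves: a table on the units is given).
* `exists_symP`, `exists_symT`, `exists_sym` : tables of the symbols of `pd` on the product numbering
  from tables on `Γ` and on `T`.
* `exists_nb` : neighbour table of finitely many address words; `nb_lt`.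
-/

set_option autoImplicit false

namespace Crest.Agent.R289.StartTab810

open Finset Crest.Agent.Lib.PT Crest.Agent.R289 Crest.Agent.R289.Local782
open Crest.Agent.R289.FamComb715 Crest.Agent.R289.YIdx901
open Crest.Agent.R289.DefC Crest.Agent.R289.DefI Crest.Agent.R289.Compile827

section prod

variable {K : Type} [Field K] {c : Cst K} {Gc Pc : Type} {α : Type} [PTCode α]

/-- tables of all moves on the product numbering -/
theorem exists_mv (I : α → Ins c) (mc : ∀ a, Gc → (I a).U → (I a).U) (pc : ∀ a, (I a).U → Pc)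
    {nΓ nT : α → ℕ} (eΓ : ∀ a, (I a).Γ ≃ Fin (nΓ a)) (eT : ∀ a, (I a).T ≃ Fin (nT a))
    (hnT : PTF nT)
    (hf : ∀ g, ∃ f : α → ℕ → ℕ, PTF₂ f ∧
      ∀ a x, f a (eΓ a x : Fin (nΓ a)) = (eΓ a ((I a).act g x) : Fin (nΓ a)))
    (hb : ∀ g, ∃ f : α → ℕ → ℕ, PTF₂ f ∧
      ∀ a x, f a (eΓ a x : Fin (nΓ a)) = (eΓ a (((I a).act g).symm x) : Fin (nΓ a)))
    (hj : ∀ j, ∃ f : α → ℕ → ℕ, PTF₂ f ∧
      ∀ a x, f a (eΓ a x : Fin (nΓ a)) = (eΓ a ((I a).mv j x) : Fin (nΓ a)))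
    (h1 : ∀ j, ∃ f : α → ℕ → ℕ, PTF₂ f ∧
      ∀ a x, f a (eT a x : Fin (nT a)) = (eT a ((I a).h1 j * x) : Fin (nT a)))
    (h2 : ∀ j, ∃ f : α → ℕ → ℕ, PTF₂ f ∧
      ∀ a x, f a (eT a x : Fin (nT a)) = (eT a ((I a).h2 j * x) : Fin (nT a)))
    (hm : ∀ j, ∃ f : α → ℕ → ℕ, PTF₂ f ∧
      ∀ a x, f a (eT a x : Fin (nT a)) = (eT a (((I a).gam j)⁻¹ * x) : Fin (nT a)))
    (hk : ∀ g : Gc, ∃ f : α → ℕ → ℕ, PTF₂ f ∧ ∀ a u,
      f a (eP (eΓ a) (eT a) u : Fin (nΓ a * nT a)) =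
        (eP (eΓ a) (eT a) (mc a g u) : Fin (nΓ a * nT a))) :
    ∃ mv : c.Gen Gc → α → ℕ → ℕ, (∀ g, PTF₂ (mv g)) ∧ ∀ a g u,
      mv g a (eP (eΓ a) (eT a) u : Fin (nΓ a * nT a)) =
        (eP (eΓ a) (eT a) (((I a).frame (mc a) (pc a)).act g u) : Fin (nΓ a * nT a)) := by
  choose ff hf1 hf2 using hf
  choose fb hb1 hb2 using hb
  choose fj hj1 hj2 using hj
  choose f1 h11 h12 using h1
  choose f2 h21 h22 using h2
  choose fm hm1 hm2 using hm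
  choose fk hk1 hk2 using hk
  refine ⟨fun g => match g with
    | .fwd g => fun a u => l1 (nT a) (ff g a) u
    | .bwd g => fun a u => l1 (nT a) (fb g a) u
    | .cas j => fun a u => l1 (nT a) (fj j a) u
    | .t1 j => fun a u => l2 (nT a) (f1 j a) u
    | .t2 j => fun a u => l2 (nT a) (f2 j a) u
    | .tm j => fun a u => l2 (nT a) (fm j a) u
    | .ck g => fk g, fun g => ?_, fun a g u => ?_⟩
  · cases g with
    | fwd g => exact ptf₂_l1 hnT (hf1 g)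
    | bwd g => exact ptf₂_l1 hnT (hb1 g)
    | cas j => exact ptf₂_l1 hnT (hj1 j)
    | t1 j => exact ptf₂_l2 hnT (h11 j)
    | t2 j => exact ptf₂_l2 hnT (h21 j)
    | tm j => exact ptf₂_l2 hnT (hm1 j)
    | ck g => exact hk1 g
  · obtain ⟨x, τ⟩ := u
    cases g with
    | fwd g => exact l1_spec (eΓ a) (eT a) (hf2 g a) x τ
    | bwd g => exact l1_spec (eΓ a) (eT a) (hb2 g a) x τ
    | cas j => exact l1_spec (eΓ a) (eT a) (hj2 j a) x τ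
    | t1 j => exact l2_spec (eΓ a) (eT a) (h12 j a) x τ
    | t2 j => exact l2_spec (eΓ a) (eT a) (h22 j a) x τ
    | tm j => exact l2_spec (eΓ a) (eT a) (hm2 j a) x τ
    | ck g => exact hk2 g a (x, τ)

/-- a function of the first factor -/
theorem exists_symP {β : Type} [PTCode β] {U V : α → Type} {nΓ nT : α → ℕ}
    (eΓ : ∀ a, U a ≃ Fin (nΓ a)) (eT : ∀ a, V a ≃ Fin (nT a)) (hnT : PTF nT)
    {val : ∀ a, U a × V a → β}
    (h : ∃ T : α → ℕ → β, PTF₂ T ∧ ∀ a (u : U a × V a), T a (eΓ a u.1 : Fin (nΓ a)) = val a u) :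
    ∃ T : α → ℕ → β, PTF₂ T ∧ ∀ a u, T a (eP (eΓ a) (eT a) u : Fin (nΓ a * nT a)) = val a u := by
  obtain ⟨T, h1, h2⟩ := h
  refine ⟨fun a w => T a (w / nT a), ptf₂_div hnT h1, fun a u => ?_⟩
  obtain ⟨x, τ⟩ := u
  show T a (((eP (eΓ a) (eT a) (x, τ) : Fin (nΓ a * nT a)) : ℕ) / nT a) = val a (x, τ)
  rw [eP_div]
  exact h2 a (x, τ)

/-- a function of the second factor -/
theorem exists_symT {β : Type} [PTCode β] {U V : α → Type} {nΓ nT : α → ℕ}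
    (eΓ : ∀ a, U a ≃ Fin (nΓ a)) (eT : ∀ a, V a ≃ Fin (nT a)) (hnT : PTF nT)
    {val : ∀ a, U a × V a → β}
    (h : ∃ T : α → ℕ → β, PTF₂ T ∧ ∀ a (u : U a × V a), T a (eT a u.2 : Fin (nT a)) = val a u) :
    ∃ T : α → ℕ → β, PTF₂ T ∧ ∀ a u, T a (eP (eΓ a) (eT a) u : Fin (nΓ a * nT a)) = val a u := by
  obtain ⟨T, h1, h2⟩ := h
  refine ⟨fun a w => T a (w % nT a), ptf₂_mod hnT h1, fun a u => ?_⟩
  obtain ⟨x, τ⟩ := u
  show T a (((eP (eΓ a) (eT a) (x, τ) : Fin (nΓ a * nT a)) : ℕ) % nT a) = val a (x, τ)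
  rw [eP_mod]
  exact h2 a (x, τ)

/-- tables of all symbols of `pd` on the product numbering: hypothesis `hT` of `exists_pb`,
`exists_wb` -/
theorem exists_sym [PTCode K] (I : α → Ins c) {nΓ nT : α → ℕ} (eΓ : ∀ a, (I a).Γ ≃ Fin (nΓ a))
    (eT : ∀ a, (I a).T ≃ Fin (nT a)) (hnT : PTF nT)
    (hP : ∀ b s, ∃ T : α → ℕ → K, PTF₂ T ∧
      ∀ a x, T a (eΓ a x : Fin (nΓ a)) = (I a).pubP b (x, s))
    (hX : ∀ r s, ∃ T : α → ℕ → K, PTF₂ T ∧ ∀ a x, T a (eΓ a x : Fin (nΓ a)) = (I a).x0 r (x, s))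
    (h1 : ∀ s, ∃ T : α → ℕ → K, PTF₂ T ∧ ∀ a τ, T a (eT a τ : Fin (nT a)) = (I a).one (τ, s))
    (hE1 : ∀ j s, ∃ T : α → ℕ → K, PTF₂ T ∧ ∀ a τ, T a (eT a τ : Fin (nT a)) = (I a).E1 j (τ, s))
    (hE2 : ∀ j s, ∃ T : α → ℕ → K, PTF₂ T ∧ ∀ a τ, T a (eT a τ : Fin (nT a)) = (I a).E2 j (τ, s))
    (hD0 : ∀ s, ∃ T : α → ℕ → K, PTF₂ T ∧ ∀ a τ, T a (eT a τ : Fin (nT a)) = (I a).D 0 (τ, s))
    (hA0 : ∀ q s, ∃ T : α → ℕ → K, PTF₂ T ∧ ∀ a τ, T a (eT a τ : Fin (nT a)) = (I a).A0 q (τ, s))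
    (hB0 : ∀ q s, ∃ T : α → ℕ → K, PTF₂ T ∧ ∀ a τ, T a (eT a τ : Fin (nT a)) = (I a).B0 q (τ, s))
    (hL : ∀ s : TDIx c, ∃ T : α → ℕ → K, PTF₂ T ∧
      ∀ a τ, T a (eT a τ : Fin (nT a)) = tdGet ((I a).td (I a).L τ) s) (s : PDIx c) :
    ∃ T : α → ℕ → K, PTF₂ T ∧ ∀ a u,
      T a (eP (eΓ a) (eT a) u : Fin (nΓ a * nT a)) = pdGet ((I a).pd u) s := by
  rcases s with (x | x) | (s | x | x) | (s | x | x) | x
  · obtain ⟨T, h, h'⟩ := hP x.1 x.2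
    exact exists_symP eΓ eT hnT ⟨T, h, fun a u => h' a u.1⟩
  · obtain ⟨T, h, h'⟩ := hX x.1 x.2
    exact exists_symP eΓ eT hnT ⟨T, h, fun a u => h' a u.1⟩
  · obtain ⟨T, h, h'⟩ := h1 s
    exact exists_symT eΓ eT hnT ⟨T, h, fun a u => h' a u.2⟩
  · obtain ⟨T, h, h'⟩ := hE1 x.1 x.2
    exact exists_symT eΓ eT hnT ⟨T, h, fun a u => h' a u.2⟩
  · obtain ⟨T, h, h'⟩ := hE2 x.1 x.2
    exact exists_symT eΓ eT hnT ⟨T, h, fun a u => h' a u.2⟩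
  · obtain ⟨T, h, h'⟩ := hD0 s
    exact exists_symT eΓ eT hnT ⟨T, h, fun a u => h' a u.2⟩
  · obtain ⟨T, h, h'⟩ := hA0 x.1 x.2
    exact exists_symT eΓ eT hnT ⟨T, h, fun a u => h' a u.2⟩
  · obtain ⟨T, h, h'⟩ := hB0 x.1 x.2
    exact exists_symT eΓ eT hnT ⟨T, h, fun a u => h' a u.2⟩
  · obtain ⟨T, h, h'⟩ := hL x
    exact exists_symT eΓ eT hnT ⟨T, h, fun a u => h' a u.2⟩

end prod

/-! ### neighbour tables of address words -/

section nb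

variable {α Gen Pub : Type} [PTCode α] {k : ℕ}

/-- neighbour table of the address words `adr i` -/
theorem exists_nb (F : α → Frame Gen Pub) {n : α → ℕ} (e : ∀ a, (F a).U ≃ Fin (n a))
    {mv : Gen → α → ℕ → ℕ} (hmv : ∀ g, PTF₂ (mv g))
    (hmv' : ∀ a g u, mv g a (e a u : Fin (n a)) = (e a ((F a).act g u) : Fin (n a)))
    (adr : Fin k → List Gen) :
    ∃ nb : α × ℕ × ℕ → ℕ, PTF nb ∧
      (∀ a (i : Fin k) u, nb (a, (i : ℕ), ((e a u : Fin (n a)) : ℕ)) =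
        (e a ((F a).go (adr i) u) : Fin (n a))) ∧
      ∀ a, ∀ i < k, ∀ u < n a, nb (a, i, u) < n a := by
  refine ⟨nbN (Equiv.refl (Fin k)) fun i => goN mv (adr i),
    ptf_nbN _ fun i => ptf_goN hmv _, fun a i u => ?_, fun a => ?_⟩
  · rw [nbN_fin]
    exact goN_spec mv (e a) (hmv' a) _ u
  · exact nbN_lt_of_spec _ (e a) (G := fun i => (F a).go (adr i))
      fun i u => goN_spec mv (e a) (hmv' a) _ u

end nb

end Crest.Agent.R289.StartTab810
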