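import Crest.Agent.R289.StartTabC_810
import Crest.Agent.R289.FamPub_715

/-!
# Row 289, E28 part 5: relative forms (instances `i : ι`, tables on `α`, `raw : ι → α`) in the
vocabulary of `FamPub_715` / `FamGlue_715` (`FP₂`, no code on `PD`, `Lab`).

* `fp_runN` : the value table of a rule is `FP₂`.
* `rel_mv`, `rel_sym`, `rel_pd`, **`rel_w0`**, `rel_nb`.
-/

set_option autoImplicit false

namespace Crest.Agent.R289.StartTab810

open Finset Crest.Agent.Lib.PT Crest.Agent.R289 Crest.Agent.R289.Local782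
open Crest.Agent.R289.FamComb715 Crest.Agent.R289.FamPub715 Crest.Agent.R289.YIdx901
open Crest.Agent.R289.DefC Crest.Agent.R289.DefI Crest.Agent.R289.Compile827

/-- the value table of a rule is computable in polynomial time, no codes needed -/
theorem fp_runN {α Gen Pub Γ Δ : Type} [PTCode α] [Finite Γ] [Finite Pub] (A : LMap Gen Pub Γ Δ)
    {mv : Gen → α → ℕ → ℕ} (hmv : ∀ g, PTF₂ (mv g)) {x : α → ℕ → Γ} (hx : FP₂ x)
    {p : α → ℕ → Pub} (hp : FP₂ p) : FP₂ (runN A mv x p) := by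
  have h1 : ∀ i : A.ι, FP₂ (fun a u => (x a (goN mv (A.adr i) a u), p a (goN mv (A.adr i) a u))) :=
    fun i => FP₂.prodMk (hx.slot (ptf_goN hmv _)) (hp.slot (ptf_goN hmv _))
  exact FP₂.map (FP₂.pi h1) fun y => A.f (fun i => (y i).1) fun i => (y i).2

section rel

variable {K : Type} [Field K] {c : Cst K} {Gc Pc Ck : Type} {α : Type} [PTCode α] {ι : Type}

/-- tables of all moves on the product numbering, relative form -/
theorem rel_mv (raw : ι → α) (I : ι → Ins c) (mc : ∀ a, Gc → (I a).U → (I a).U)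
    (pc : ∀ a, (I a).U → Pc)
    {nΓ nT : α → ℕ} (eΓ : ∀ i, (I i).Γ ≃ Fin (nΓ (raw i))) (eT : ∀ i, (I i).T ≃ Fin (nT (raw i)))
    (hnT : PTF nT)
    (hf : ∀ g, ∃ f : α → ℕ → ℕ, PTF₂ f ∧
      ∀ i x, f (raw i) (eΓ i x : Fin (nΓ (raw i))) = (eΓ i ((I i).act g x) : Fin (nΓ (raw i))))
    (hb : ∀ g, ∃ f : α → ℕ → ℕ, PTF₂ f ∧
      ∀ i x, f (raw i) (eΓ i x : Fin (nΓ (raw i))) =
        (eΓ i (((I i).act g).symm x) : Fin (nΓ (raw i))))
    (hj : ∀ j, ∃ f : α → ℕ → ℕ, PTF₂ f ∧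
      ∀ i x, f (raw i) (eΓ i x : Fin (nΓ (raw i))) = (eΓ i ((I i).mv j x) : Fin (nΓ (raw i))))
    (h1 : ∀ j, ∃ f : α → ℕ → ℕ, PTF₂ f ∧
      ∀ i x, f (raw i) (eT i x : Fin (nT (raw i))) = (eT i ((I i).h1 j * x) : Fin (nT (raw i))))
    (h2 : ∀ j, ∃ f : α → ℕ → ℕ, PTF₂ f ∧
      ∀ i x, f (raw i) (eT i x : Fin (nT (raw i))) = (eT i ((I i).h2 j * x) : Fin (nT (raw i))))
    (hm : ∀ j, ∃ f : α → ℕ → ℕ, PTF₂ f ∧
      ∀ i x, f (raw i) (eT i x : Fin (nT (raw i))) = (eT i (((I i).gam j)⁻¹ * x) : Fin (nT (raw i))))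
    (hk : ∀ g : Gc, ∃ f : α → ℕ → ℕ, PTF₂ f ∧ ∀ i u,
      f (raw i) (eP (eΓ i) (eT i) u : Fin (nΓ (raw i) * nT (raw i))) =
        (eP (eΓ i) (eT i) (mc i g u) : Fin (nΓ (raw i) * nT (raw i)))) :
    ∃ mv : c.Gen Gc → α → ℕ → ℕ, (∀ g, PTF₂ (mv g)) ∧ ∀ i g u,
      mv g (raw i) (eP (eΓ i) (eT i) u : Fin (nΓ (raw i) * nT (raw i))) =
        (eP (eΓ i) (eT i) (((I i).frame (mc i) (pc i)).act g u) :
          Fin (nΓ (raw i) * nT (raw i))) := by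
  choose ff hf1 hf2 using hf
  choose fb hb1 hb2 using hb
  choose fj hj1 hj2 using hj
  choose f1 h11 h12 using h1
  choose f2 h21 h22 using h2
  choose fm hm1 hm2 using hm
  choose fk hk1 hk2 using hk
  refine ⟨fun g => match g with
    | .fwd g => fun a u => l1 (nT a) (ff g a) u
    | .bwd g => fun a u => l1 (nT a) (fb g a) u
    | .cas j => fun a u => l1 (nT a) (fj j a) u
    | .t1 j => fun a u => l2 (nT a) (f1 j a) u
    | .t2 j => fun a u => l2 (nT a) (f2 j a) u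
    | .tm j => fun a u => l2 (nT a) (fm j a) u
    | .ck g => fk g, fun g => ?_, fun i g u => ?_⟩
  · cases g with
    | fwd g => exact ptf₂_l1 hnT (hf1 g)
    | bwd g => exact ptf₂_l1 hnT (hb1 g)
    | cas j => exact ptf₂_l1 hnT (hj1 j)
    | t1 j => exact ptf₂_l2 hnT (h11 j)
    | t2 j => exact ptf₂_l2 hnT (h21 j)
    | tm j => exact ptf₂_l2 hnT (hm1 j)
    | ck g => exact hk1 g
  · obtain ⟨x, τ⟩ := u
    cases g with
    | fwd g => exact l1_spec (eΓ i) (eT i) (hf2 g i) x τ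
    | bwd g => exact l1_spec (eΓ i) (eT i) (hb2 g i) x τ
    | cas j => exact l1_spec (eΓ i) (eT i) (hj2 j i) x τ
    | t1 j => exact l2_spec (eΓ i) (eT i) (h12 j i) x τ
    | t2 j => exact l2_spec (eΓ i) (eT i) (h22 j i) x τ
    | tm j => exact l2_spec (eΓ i) (eT i) (hm2 j i) x τ
    | ck g => exact hk2 g i (x, τ)

/-- tables of all symbols of `pd` on the product numbering, relative form -/
theorem rel_sym [PTCode K] (raw : ι → α) (I : ι → Ins c) {nΓ nT : α → ℕ}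
    (eΓ : ∀ i, (I i).Γ ≃ Fin (nΓ (raw i))) (eT : ∀ i, (I i).T ≃ Fin (nT (raw i))) (hnT : PTF nT)
    (hP : ∀ b s, ∃ T : α → ℕ → K, PTF₂ T ∧
      ∀ i x, T (raw i) (eΓ i x : Fin (nΓ (raw i))) = (I i).pubP b (x, s))
    (hX : ∀ r s, ∃ T : α → ℕ → K, PTF₂ T ∧
      ∀ i x, T (raw i) (eΓ i x : Fin (nΓ (raw i))) = (I i).x0 r (x, s))
    (h1 : ∀ s, ∃ T : α → ℕ → K, PTF₂ T ∧
      ∀ i τ, T (raw i) (eT i τ : Fin (nT (raw i))) = (I i).one (τ, s))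
    (hE1 : ∀ j s, ∃ T : α → ℕ → K, PTF₂ T ∧
      ∀ i τ, T (raw i) (eT i τ : Fin (nT (raw i))) = (I i).E1 j (τ, s))
    (hE2 : ∀ j s, ∃ T : α → ℕ → K, PTF₂ T ∧
      ∀ i τ, T (raw i) (eT i τ : Fin (nT (raw i))) = (I i).E2 j (τ, s))
    (hD0 : ∀ s, ∃ T : α → ℕ → K, PTF₂ T ∧
      ∀ i τ, T (raw i) (eT i τ : Fin (nT (raw i))) = (I i).D 0 (τ, s))
    (hA0 : ∀ q s, ∃ T : α → ℕ → K, PTF₂ T ∧
      ∀ i τ, T (raw i) (eT i τ : Fin (nT (raw i))) = (I i).A0 q (τ, s))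
    (hB0 : ∀ q s, ∃ T : α → ℕ → K, PTF₂ T ∧
      ∀ i τ, T (raw i) (eT i τ : Fin (nT (raw i))) = (I i).B0 q (τ, s))
    (hL : ∀ s : TDIx c, ∃ T : α → ℕ → K, PTF₂ T ∧
      ∀ i τ, T (raw i) (eT i τ : Fin (nT (raw i))) = tdGet ((I i).td (I i).L τ) s) (s : PDIx c) :
    ∃ T : α → ℕ → K, PTF₂ T ∧ ∀ i u,
      T (raw i) (eP (eΓ i) (eT i) u : Fin (nΓ (raw i) * nT (raw i))) = pdGet ((I i).pd u) s := by
  have keyP : ∀ {val : ∀ i, (I i).U → K}, (∃ T : α → ℕ → K, PTF₂ T ∧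
      ∀ i (u : (I i).U), T (raw i) (eΓ i u.1 : Fin (nΓ (raw i))) = val i u) →
      ∃ T : α → ℕ → K, PTF₂ T ∧ ∀ i u,
        T (raw i) (eP (eΓ i) (eT i) u : Fin (nΓ (raw i) * nT (raw i))) = val i u := by
    rintro val ⟨T, h1, h2⟩
    refine ⟨fun a w => T a (w / nT a), ptf₂_div hnT h1, fun i u => ?_⟩
    obtain ⟨x, τ⟩ := u
    show T (raw i) (((eP (eΓ i) (eT i) (x, τ) : Fin (nΓ (raw i) * nT (raw i))) : ℕ) / nT (raw i))
      = val i (x, τ)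
    rw [eP_div]
    exact h2 i (x, τ)
  have keyT : ∀ {val : ∀ i, (I i).U → K}, (∃ T : α → ℕ → K, PTF₂ T ∧
      ∀ i (u : (I i).U), T (raw i) (eT i u.2 : Fin (nT (raw i))) = val i u) →
      ∃ T : α → ℕ → K, PTF₂ T ∧ ∀ i u,
        T (raw i) (eP (eΓ i) (eT i) u : Fin (nΓ (raw i) * nT (raw i))) = val i u := by
    rintro val ⟨T, h1, h2⟩
    refine ⟨fun a w => T a (w % nT a), ptf₂_mod hnT h1, fun i u => ?_⟩
    obtain ⟨x, τ⟩ := u
    show T (raw i) (((eP (eΓ i) (eT i) (x, τ) : Fin (nΓ (raw i) * nT (raw i))) : ℕ) % nT (raw i))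
      = val i (x, τ)
    rw [eP_mod]
    exact h2 i (x, τ)
  rcases s with (x | x) | (s | x | x) | (s | x | x) | x
  · obtain ⟨T, h, h'⟩ := hP x.1 x.2
    exact keyP ⟨T, h, fun a u => h' a u.1⟩
  · obtain ⟨T, h, h'⟩ := hX x.1 x.2
    exact keyP ⟨T, h, fun a u => h' a u.1⟩
  · obtain ⟨T, h, h'⟩ := h1 s
    exact keyT ⟨T, h, fun a u => h' a u.2⟩
  · obtain ⟨T, h, h'⟩ := hE1 x.1 x.2
    exact keyT ⟨T, h, fun a u => h' a u.2⟩
  · obtain ⟨T, h, h'⟩ := hE2 x.1 x.2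
    exact keyT ⟨T, h, fun a u => h' a u.2⟩
  · obtain ⟨T, h, h'⟩ := hD0 s
    exact keyT ⟨T, h, fun a u => h' a u.2⟩
  · obtain ⟨T, h, h'⟩ := hA0 x.1 x.2
    exact keyT ⟨T, h, fun a u => h' a u.2⟩
  · obtain ⟨T, h, h'⟩ := hB0 x.1 x.2
    exact keyT ⟨T, h, fun a u => h' a u.2⟩
  · obtain ⟨T, h, h'⟩ := hL x
    exact keyT ⟨T, h, fun a u => h' a u.2⟩

/-- table of the public data, relative form -/
theorem rel_pd [Finite K] [PTCode K] [Finite Pc] (raw : ι → α) (I : ι → Ins c)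
    (pc : ∀ i, (I i).U → Pc) {n : α → ℕ} (e : ∀ i, (I i).U ≃ Fin (n (raw i)))
    (hT : ∀ s : PDIx c, ∃ T : α → ℕ → K, PTF₂ T ∧
      ∀ i u, T (raw i) (e i u : Fin (n (raw i))) = pdGet ((I i).pd u) s)
    (hL : ∃ f : α → Bool, PTF f ∧ ∀ i, f (raw i) = decide ((I i).L = 0))
    (hp : ∃ p : α → ℕ → Pc, FP₂ p ∧ ∀ i u, p (raw i) (e i u : Fin (n (raw i))) = pc i u) :
    ∃ p : α → ℕ → c.PD × Pc, FP₂ p ∧
      ∀ i u, p (raw i) (e i u : Fin (n (raw i))) = ((I i).pd u, pc i u) := by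
  choose T hT1 hT2 using hT
  obtain ⟨f, hf1, hf2⟩ := hL
  obtain ⟨p, hp1, hp2⟩ := hp
  refine ⟨pdN T f (fun _ => true) p, ?_, fun i u => ?_⟩
  · have h1 : FP₂ (fun (a : α) (u : ℕ) (s : PDIx c) => T s a u) :=
      FP₂.pi fun s => FP.of_ptf (hT1 s)
    have h2 : FP₂ (fun (a : α) (_ : ℕ) => f a) := FP.of_ptf (PTF.comp hf1 PTF.fst)
    have h3 : FP₂ (fun (a : α) (u : ℕ) => ((fun s => T s a u), f a)) := FP₂.prodMk h1 h2
    have h4 : FP₂ (fun (a : α) (u : ℕ) => (((fun s => T s a u), f a), p a u)) :=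
      FP₂.prodMk h3 hp1
    exact FP₂.map h4 fun y => (mkPD y.1.1 y.1.2 true, y.2)
  · exact pdN_spec (d := (I i).pd u) (q := pc i u) (fun s => hT2 s i u) (hf2 i)
      (by simp [Ins.pd, Ins.td]) (hp2 i u)

/-- **table of the start labels (`FamT.w0`), relative form** -/
theorem rel_w0 [Finite K] [Finite Pc] (st0 stz : c.A.Stg)
    (ck0 : c.PD × Pc → Ck) (raw : ι → α) (I : ι → Ins c) (h0 : ∀ a, (I a).stg0 = st0)
    (hz : ∀ a, (I a).stgz = stz) (mc : ∀ a, Gc → (I a).U → (I a).U) (pc : ∀ a, (I a).U → Pc)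
    (cw : ∀ a, ℕ → (I a).U → Ck) (hck : ∀ a u, cw a 0 u = ck0 ((I a).pd u, pc a u)) {n : α → ℕ}
    (e : ∀ i, (I i).U ≃ Fin (n (raw i))) {mv : c.Gen Gc → α → ℕ → ℕ} (hmv : ∀ g, PTF₂ (mv g))
    (hmv' : ∀ i g u, mv g (raw i) (e i u : Fin (n (raw i))) =
      (e i (((I i).frame (mc i) (pc i)).act g u) : Fin (n (raw i))))
    {p : α → ℕ → c.PD × Pc} (hp : FP₂ p)
    (hp' : ∀ i u, p (raw i) (e i u : Fin (n (raw i))) = ((I i).pd u, pc i u)) :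
    ∃ w0 : α → ℕ → c.Lab Ck, FP₂ w0 ∧ ∀ i u,
      w0 (raw i) (e i u : Fin (n (raw i))) =
        (I i).labE (cw i) ⟨.boot, 0, (I i).xz, (I i).zz, (I i).xs, (I i).ent (I i).xs⟩ u := by
  refine ⟨runN (startL st0 stz ck0 : Ru c Gc Pc Unit (c.Lab Ck)) mv (fun _ _ => ()) p,
    fp_runN _ hmv (x := fun _ _ => ()) (FP.const ()) hp, fun i u => ?_⟩
  have h1 := runN_spec (startL st0 stz ck0 : Ru c Gc Pc Unit (c.Lab Ck)) mv (fun _ _ => ())
    p (a := raw i) (F := (I i).frame (mc i) (pc i)) (e i) (hmv' i) (X := fun _ => ())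
    (fun _ => rfl) (fun u => hp' i u) u
  have h2 := run_startL (I i) (mc i) (pc i) (fun _ => ()) (cw i) ck0 (hck i) u
  rw [h0, hz] at h2
  exact h1.trans h2

end rel

/-- neighbour tables of finitely many address words, relative form (`FamT.nb`) -/
theorem rel_nb {α Gen Pub ι κ : Type} [PTCode α] (raw : ι → α) (F : ι → Frame Gen Pub)
    {n : α → ℕ} (e : ∀ i, (F i).U ≃ Fin (n (raw i))) {mv : Gen → α → ℕ → ℕ}
    (hmv : ∀ g, PTF₂ (mv g))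
    (hmv' : ∀ i g u, mv g (raw i) (e i u : Fin (n (raw i))) =
      (e i ((F i).act g u) : Fin (n (raw i))))
    (adr : κ → List Gen) :
    ∃ nb : κ → α → ℕ → ℕ, (∀ s, PTF₂ (nb s)) ∧ ∀ i s u,
      nb s (raw i) (e i u : Fin (n (raw i))) = (e i ((F i).go (adr s) u) : Fin (n (raw i))) :=
  ⟨fun s => goN mv (adr s), fun _ => ptf_goN hmv _, fun i _ u => goN_spec mv (e i) (hmv' i) _ u⟩

end Crest.Agent.R289.StartTab810
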