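import Crest.Agent.R289.DefI_306
import Crest.Agent.R289.FamComb_715

/-!
# Row 289, E28 (second): the table of the start label

The label word of the start configuration `⟨boot, 0, xz, zz, xs, ent xs⟩` of `DefI` is a
poly-time table, computed directly from poly-time tables of the moves and of the public words
(`Tab`, `Tab.Spec`): `evN` (expressions), `wvN` (component vector), `lamN` (one cascade step),
`startN` (label), `ptf_startBits`, `startN_spec`, `startBits_spec`.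
-/

set_option autoImplicit false

namespace Crest.Agent.R289.StartTab234

open Finset Crest.Agent.Lib.PT Crest.Agent.R289.DefC Crest.Agent.R289.Compile827
open Crest.Agent.R289.DefI Crest.Agent.R289.FamComb715

variable {K : Type} [Field K] {c : Cst K} {α : Type}

/-- tables (on unit numbers) of the P-moves, the public P-words, the start registers and the
T-words at `t = 0` -/
structure Tab (c : Cst K) (α : Type) where
  fw : c.G → α → ℕ → ℕ
  bw : c.G → α → ℕ → ℕ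
  ca : c.Jc → α → ℕ → ℕ
  pub : c.A.Pub → c.S → α → ℕ → K
  x0 : c.A.Reg → c.S → α → ℕ → K
  D0 : c.S' → α → ℕ → K
  A0 : c.C → c.S' → α → ℕ → K
  B0 : c.C → c.S' → α → ℕ → K
  sg0 : c.A.Stg
  sgz : c.A.Stg

namespace Tab

variable (τ : Tab c α)

/-- the tables describe the instance `I` with the numbering `e` -/
structure Spec (a : α) (I : Ins c) {n : ℕ} (e : I.U ≃ Fin n) : Prop where
  fw : ∀ g u, τ.fw g a (e u : Fin n) = (e (I.act g u.1, u.2) : Fin n)
  bw : ∀ g u, τ.bw g a (e u : Fin n) = (e ((I.act g).symm u.1, u.2) : Fin n)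
  ca : ∀ j u, τ.ca j a (e u : Fin n) = (e (I.mv j u.1, u.2) : Fin n)
  pub : ∀ b s u, τ.pub b s a (e u : Fin n) = I.pubP b (u.1, s)
  x0 : ∀ i s u, τ.x0 i s a (e u : Fin n) = I.x0 i (u.1, s)
  D0 : ∀ s u, τ.D0 s a (e u : Fin n) = I.D 0 (u.2, s)
  A0 : ∀ q s u, τ.A0 q s a (e u : Fin n) = I.A0 q (u.2, s)
  B0 : ∀ q s u, τ.B0 q s a (e u : Fin n) = I.B0 q (u.2, s)
  sg0 : I.stg0 = τ.sg0
  sgz : I.stgz = τ.sgz

/-- all tables are poly-time -/
structure Ptf [PTCode α] [PTCode K] : Prop where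
  fw : ∀ g, PTF₂ (τ.fw g)
  bw : ∀ g, PTF₂ (τ.bw g)
  ca : ∀ j, PTF₂ (τ.ca j)
  pub : ∀ b s, PTF₂ (τ.pub b s)
  x0 : ∀ i s, PTF₂ (τ.x0 i s)
  D0 : ∀ s, PTF₂ (τ.D0 s)
  A0 : ∀ q s, PTF₂ (τ.A0 q s)
  B0 : ∀ q s, PTF₂ (τ.B0 q s)

/-- value of an expression of the start registers -/
def evN : PE K c.A.Reg c.A.Pub c.G → c.S → α → ℕ → K
  | .zero, _, _, _ => 0
  | .reg i, s, a, u => τ.x0 i s a u
  | .pub b, s, a, u => τ.pub b s a u
  | .smul k e, s, a, u => k * evN e s a u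
  | .add e f, s, a, u => evN e s a u + evN f s a u
  | .mul e f, s, a, u => evN e s a u * evN f s a u
  | .tr g e, s, a, u => evN e s a (τ.fw g a u)
  | .ti g e, s, a, u => evN e s a (τ.bw g a u)

/-- component vector of the start registers -/
def wvN (b : Fin (c.r + 1)) (m : c.A.Comp) (s : c.S) (a : α) (u : ℕ) : K :=
  if b = 0 then τ.evN (c.A.comp m) s a u else 0

/-- one cascade step -/
def lamN (b : Fin (c.r + 1)) (m : c.A.Comp) (s : c.S) (a : α) (u : ℕ) : K :=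
  ∑ j, ∑ d, c.lam j b d * τ.wvN d m s a (τ.ca j a u)

/-- the start label from its symbols -/
def mkLab {Ck : Type} (R : c.A.Reg → c.S → K) (X : c.S' → c.S → c.V)
    (Z : c.C → c.S' → c.S → c.V) (k : Ck) : c.Lab Ck where
  l := Letter.boot
  ck := k
  b1 := ⟨τ.sgz, 0, 0, 0, 0, 0⟩
  b2 := ⟨τ.sg0, R, X, 0, Z, 0⟩

/-- the start label, as a function of the unit number -/
def startN {Ck : Type} (ck : α → ℕ → Ck) (a : α) (u : ℕ) : c.Lab Ck :=
  τ.mkLab (fun i s => τ.x0 i s a u) (fun s' s b m => τ.D0 s' a u * τ.wvN b m s a u)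
    (fun q s' s b m => τ.A0 q s' a u * τ.lamN b m s a u + τ.B0 q s' a u * τ.wvN b m s a u)
    (ck a u)

/-! ### specification -/

section spec

variable {τ} {a : α} {I : Ins c} {n : ℕ} {e : I.U ≃ Fin n} (h : τ.Spec a I e)
include h

theorem evN_spec (x : PE K c.A.Reg c.A.Pub c.G) (s : c.S) (u : I.U) :
    τ.evN x s a (e u : Fin n) = I.evalW x I.x0 (u.1, s) := by
  induction x generalizing u with
  | zero => rfl
  | reg i => exact h.x0 i s u
  | pub b => exact h.pub b s u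
  | smul k x ih =>
    change k * τ.evN x s a _ = k * I.evalW x I.x0 (u.1, s)
    rw [ih]
  | add x y ih ih' =>
    change τ.evN x s a _ + τ.evN y s a _ = I.evalW x I.x0 (u.1, s) + I.evalW y I.x0 (u.1, s)
    rw [ih, ih']
  | mul x y ih ih' =>
    change τ.evN x s a _ * τ.evN y s a _ = I.evalW x I.x0 (u.1, s) * I.evalW y I.x0 (u.1, s)
    rw [ih, ih']
  | tr g x ih =>
    change τ.evN x s a (τ.fw g a _) = I.evalW x I.x0 (I.act g u.1, s)
    rw [h.fw, ih]
  | ti g x ih =>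
    change τ.evN x s a (τ.bw g a _) = I.evalW x I.x0 ((I.act g).symm u.1, s)
    rw [h.bw, ih]

theorem wvN_spec (b : Fin (c.r + 1)) (m : c.A.Comp) (s : c.S) (u : I.U) :
    τ.wvN b m s a (e u : Fin n) = I.wv I.x0 (u.1, s) b m := by
  unfold wvN Ins.wv
  rw [evN_spec h]

theorem lamN_spec (b : Fin (c.r + 1)) (m : c.A.Comp) (s : c.S) (u : I.U) :
    τ.lamN b m s a (e u : Fin n) = I.Lam (I.wv I.x0) (u.1, s) b m := by
  unfold lamN
  refine sum_congr rfl fun j _ => sum_congr rfl fun d _ => ?_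
  rw [h.ca, wvN_spec h]
  rfl

/-- **the start label** -/
theorem startN_spec {Ck : Type} {ck : α → ℕ → Ck} {cw : ℕ → I.U → Ck}
    (hc : ∀ u, ck a (e u : Fin n) = cw 0 u) (u : I.U) :
    τ.startN ck a (e u : Fin n) =
      I.labE cw ⟨Letter.boot, 0, I.xz, I.zz, I.xs, I.ent I.xs⟩ u := by
  unfold startN mkLab Ins.labE
  congr 1
  · exact hc u
  · simp only [Ins.bankE, Ins.xz, Ins.zz, h.sgz]
    rfl
  · simp only [Ins.bankE, Ins.xs, Ins.ent, h.sg0]
    congr 1
    · funext i s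
      exact h.x0 i s u
    · funext s' s b m
      rw [h.D0, wvN_spec h]
      rfl
    · funext q s' s b m
      rw [h.A0, h.B0, wvN_spec h, lamN_spec h]
      rfl

end spec

/-! ### poly-time -/

section ptf

variable [PTCode α] [PTCode K] [Finite K]
variable {τ} (h : τ.Ptf)
include h

theorem ptf_evN (x : PE K c.A.Reg c.A.Pub c.G) (s : c.S) : PTF₂ (τ.evN x s) := by
  induction x with
  | zero => exact PTF.const 0
  | reg i => exact h.x0 i s
  | pub b => exact h.pub b s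
  | smul k x ih => exact ptf_fin (p := fun p : α × ℕ => τ.evN x s p.1 p.2) ih fun y => k * y
  | add x y ih ih' =>
    exact ptf_fin₂ (p := fun p : α × ℕ => τ.evN x s p.1 p.2)
      (q := fun p : α × ℕ => τ.evN y s p.1 p.2) ih ih' fun a b => a + b
  | mul x y ih ih' =>
    exact ptf_fin₂ (p := fun p : α × ℕ => τ.evN x s p.1 p.2)
      (q := fun p : α × ℕ => τ.evN y s p.1 p.2) ih ih' fun a b => a * b
  | tr g x ih => exact PTF.comp₂ ih PTF.fst (h.fw g)
  | ti g x ih => exact PTF.comp₂ ih PTF.fst (h.bw g)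

theorem ptf_wvN (b : Fin (c.r + 1)) (m : c.A.Comp) (s : c.S) : PTF₂ (τ.wvN b m s) := by
  by_cases hb : b = 0
  · refine PTF.of_eq (ptf_evN h (c.A.comp m) s) fun p => ?_
    simp [wvN, hb]
  · refine PTF.of_eq (PTF.const 0) fun p => ?_
    simp [wvN, hb]

theorem ptf_lamN (b : Fin (c.r + 1)) (m : c.A.Comp) (s : c.S) : PTF₂ (τ.lamN b m s) := by
  have h1 := ptf_family (κ := c.Jc × Fin (c.r + 1)) (B := fun _ => K)
    (v := fun i (p : α × ℕ) => τ.wvN i.2 m s p.1 (τ.ca i.1 p.1 p.2))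
    (fun i => PTF.comp₂ (ptf_wvN h i.2 m s) PTF.fst (h.ca i.1))
    (fun y => ∑ j, ∑ d, c.lam j b d * y (j, d))
  exact h1

variable {Ck : Type} [PTCode Ck] [Finite Ck]

/-- **bits of the start label** -/
theorem ptf_startBits {ck : α → ℕ → Ck} (hck : PTF₂ ck) {l : ℕ} (enc : c.Lab Ck → Fin l → Bool) :
    PTF (bitN enc (τ.startN ck)) := by
  refine PTF.of_eq (ptf_disp (α := α × ℕ × ℕ) (β := Bool) (k := l)
    (f := fun j x => enc (τ.startN ck x.1 x.2.1) j) (d := fun _ => false) (i := fun x => x.2.2)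
    (fun j => ?_) (PTF.const false) (PTF.comp PTF.snd PTF.snd)) fun x => rfl
  have hx : PTF (fun x : α × ℕ × ℕ => x.2.1) := PTF.comp PTF.fst PTF.snd
  have e1 := ptf_family' (α := α × ℕ × ℕ) (β := Bool)
    (κ := (c.A.Reg × c.S) ⊕ (c.S' ⊕ (c.C × c.S') ⊕ (c.C × c.S')) ⊕
      ((Fin (c.r + 1) × c.A.Comp × c.S) ⊕ (Fin (c.r + 1) × c.A.Comp × c.S)))
    (B := fun _ => K)
    (v := fun i x => match i with
      | .inl (i, s) => τ.x0 i s x.1 x.2.1
      | .inr (.inl (.inl s)) => τ.D0 s x.1 x.2.1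
      | .inr (.inl (.inr (.inl (q, s)))) => τ.A0 q s x.1 x.2.1
      | .inr (.inl (.inr (.inr (q, s)))) => τ.B0 q s x.1 x.2.1
      | .inr (.inr (.inl (b, m, s))) => τ.wvN b m s x.1 x.2.1
      | .inr (.inr (.inr (b, m, s))) => τ.lamN b m s x.1 x.2.1)
    (fun i => by
      rcases i with ⟨i, s⟩ | (s | ⟨q, s⟩ | ⟨q, s⟩) | ⟨b, m, s⟩ | ⟨b, m, s⟩
      · exact PTF.comp₂ (h.x0 i s) PTF.fst hx
      · exact PTF.comp₂ (h.D0 s) PTF.fst hx
      · exact PTF.comp₂ (h.A0 q s) PTF.fst hx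
      · exact PTF.comp₂ (h.B0 q s) PTF.fst hx
      · exact PTF.comp₂ (ptf_wvN h b m s) PTF.fst hx
      · exact PTF.comp₂ (ptf_lamN h b m s) PTF.fst hx)
    (fun y x => enc (τ.mkLab (fun i s => y (.inl (i, s)))
      (fun s' s b m => y (.inr (.inl (.inl s'))) * y (.inr (.inr (.inl (b, m, s)))))
      (fun q s' s b m => y (.inr (.inl (.inr (.inl (q, s'))))) * y (.inr (.inr (.inr (b, m, s))))
        + y (.inr (.inl (.inr (.inr (q, s'))))) * y (.inr (.inr (.inl (b, m, s)))))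
      (ck x.1 x.2.1)) j)
    (fun y => ptf_fin (p := fun x : α × ℕ × ℕ => ck x.1 x.2.1) (PTF.comp₂ hck PTF.fst hx)
      (fun k => enc (τ.mkLab _ _ _ k) j))
  exact e1

end ptf

/-- the bits of the start label at the units -/
theorem startBits_spec {a : α} {I : Ins c} {n : ℕ} {e : I.U ≃ Fin n} {τ : Tab c α}
    (h : τ.Spec a I e) {Ck : Type} {ck : α → ℕ → Ck} {cw : ℕ → I.U → Ck}
    (hc : ∀ u, ck a (e u : Fin n) = cw 0 u) {l : ℕ} (enc : c.Lab Ck → Fin l → Bool) (u : I.U)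
    (j : Fin l) :
    bitN enc (τ.startN ck) (a, ((e u : Fin n) : ℕ), (j : ℕ)) =
      enc (I.labE cw ⟨Letter.boot, 0, I.xz, I.zz, I.xs, I.ent I.xs⟩ u) j := by
  rw [bitN_fin, startN_spec h hc]

end Tab

end Crest.Agent.R289.StartTab234
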