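import Crest.Agent.R289.DefC_143

/-!
# Row 289, block C, leaf C_STEP (helper193): Theorem C1 for the content machine of `DefC_143`

`mach_ok_of : legal_iff_stmt → mach_ok_stmt` and `blocked_of : blocked_stmt` (the latter needs no
`legal_iff_stmt`).
-/

set_option autoImplicit false
set_option linter.unusedSectionVars false
set_option linter.unusedVariables false

namespace Crest.Agent.R289.Step193

open Crest.Agent.R289.DefC Crest.Agent.R289.DefC.PE

section
variable {Γ G Λ : Type} {J : ℕ} (act : G → Equiv.Perm Γ) (out : Λ) (P : Layout Γ G Λ J)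
  (K : Type) [CommRing K] [DecidableEq Γ] [DecidableEq Λ]

theorem bt_inj [Nontrivial K] {a b : Bool} (h : bt K a = bt K b) : a = b := by
  cases a <;> cases b <;> simp [bt] at h ⊢

@[simp] theorem bt_true : bt K true = 1 := rfl
@[simp] theorem bt_false : bt K false = 0 := rfl

/-! ### facts on `run` -/

variable {P} in
theorem run_succ_none {c : Bool} {x : Γ → Bool} {t : ℕ} (h : P.ins c t = none) (a : Γ) (l : Λ) :
    P.run act c x (t + 1) a l = P.run act c x t a l := by
  simp [Layout.run, h]

variable {P} in
theorem run_succ_some {c : Bool} {x : Γ → Bool} {t : ℕ} {l' : Λ} {k : Op G Λ}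
    (h : P.ins c t = some (l', k)) (a : Γ) (l : Λ) :
    P.run act c x (t + 1) a l =
      if (P.vis t).1 = a ∧ l' = l then k.eval act x (P.run act c x t) a
      else P.run act c x t a l := by
  simp [Layout.run, h]

variable {P} in
theorem run_true {c : Bool} {x : Γ → Bool} {t : ℕ} {a : Γ} {l : Λ}
    (h : P.run act c x t a l = true) :
    ∃ s < t, ∃ k, P.ins c s = some (l, k) ∧ (P.vis s).1 = a := by
  induction t with
  | zero => simp [Layout.run] at h
  | succ t ih =>
    cases hi : P.ins c t with
    | none =>
      rw [run_succ_none act hi] at h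
      obtain ⟨s, hs, k, hk⟩ := ih h
      exact ⟨s, by omega, k, hk⟩
    | some lk =>
      obtain ⟨l', k⟩ := lk
      rw [run_succ_some act hi] at h
      split_ifs at h with hc
      · exact ⟨t, by omega, k, by rw [hi, hc.2], hc.1⟩
      · obtain ⟨s, hs, k, hk⟩ := ih h
        exact ⟨s, by omega, k, hk⟩

variable {P out act}

theorem run_fresh (hP : P.OK act out) {c : Bool} {x : Γ → Bool} {t : ℕ} (ht : t < P.L) {l : Λ}
    {k : Op G Λ} (h : P.ins c t = some (l, k)) : P.run act c x t (P.vis t).1 l = false := by
  by_contra hh
  have hh : P.run act c x t (P.vis t).1 l = true := by simpa using hh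
  obtain ⟨s, hs, k', hk', ha⟩ := run_true act hh
  have := hP.once c s t l k' k (by omega) ht hk' h ha
  omega

theorem nm_al (hP : P.OK act out) (v : Fin P.n → Bool) (i : Fin P.n) : P.nm v (P.al i) = v i := by
  unfold Layout.nm
  by_cases h : v i = true
  · rw [h]; exact decide_eq_true ⟨i, rfl, h⟩
  · have hf : v i = false := by simpa using h
    rw [hf]
    refine decide_eq_false ?_
    rintro ⟨j, hj, hv⟩
    rw [hP.al_inj hj] at hv
    exact h hv

theorem nm_zero (a : Γ) : P.nm (fun _ => false) a = false := by
  unfold Layout.nm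
  exact decide_eq_false (by rintro ⟨i, _, h⟩; simp at h)

theorem run_out (hP : P.OK act out) (c : Bool) (v : Fin P.n → Bool) (a : Γ) :
    P.run act c (P.nm v) P.L a out = P.nm (P.outp act out c v) a := by
  by_cases h : P.run act c (P.nm v) P.L a out = true
  · rw [h]
    obtain ⟨s, hs, k, hk, ha⟩ := run_true act h
    obtain ⟨i, hi⟩ := hP.out_al c s k hs hk
    symm
    unfold Layout.nm
    refine decide_eq_true ⟨i, by rw [hi, ha], ?_⟩
    unfold Layout.outp
    rw [hi, ha]; exact h
  · have hf : P.run act c (P.nm v) P.L a out = false := by simpa using h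
    rw [hf]
    symm
    unfold Layout.nm
    refine decide_eq_false ?_
    rintro ⟨i, hi, hv⟩
    unfold Layout.outp at hv
    rw [hi] at hv
    exact h hv

/-! ### states -/

variable (act out P) in
/-- input word of program `c` in the state `(s, t, v)` -/
def inw (s : Sg) (v : Fin P.n → Bool) (c : Bool) : Γ → Bool :=
  P.nm (if c then P.nY act out s v else P.nX act out s v)

variable (act out P) in
/-- bit of an argument -/
def bit (s : Sg) (t : ℕ) (v : Fin P.n → Bool) : Ar G Λ → Γ → Bool
  | .no, _ => false
  | .name c, a => inw act out P s v c a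
  | .cell c g l, a => P.run act c (inw act out P s v c) (s.amt P.L t c) (act g a) l

/-- value of an argument word -/
theorem ex_ar (s : Sg) (t : ℕ) (v : Fin P.n → Bool) (q : Ar G Λ) (a : Γ) :
    (q.ex : Ex K G Λ J).evalC act (pubC P K) (encC act out P K s t v) a
      = bt K (bit act out P s t v q a) := by
  cases q with
  | no => simp [Ar.ex, evalC, bit]
  | name c => cases c <;> simp [Ar.ex, evalC, bit, encC, inw]
  | cell c g l => simp [Ar.ex, evalC, bit, encC, inw]

theorem op_val (s : Sg) (t : ℕ) (v : Fin P.n → Bool) (k : Op G Λ) (a : Γ) :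
    k.eval act (inw act out P s v s.prog)
      (P.run act s.prog (inw act out P s v s.prog) t) a
      = k.val (bit act out P s t v (k.a1 s.prog) a) (bit act out P s t v (k.a2 s.prog) a) := by
  cases k with
  | inp => simp [Op.eval, Op.val, Op.a1, bit]
  | cst b => simp [Op.eval, Op.val]
  | nand g l g' l' => simp [Op.eval, Op.val, Op.a1, Op.a2, bit, Sg.amt]

variable (act out P) in
/-- write part of the canonical label of instruction `i` in the state `(s, t, v)` -/
def wr (s : Sg) (i t : ℕ) (v : Fin P.n → Bool) : Wr G Λ :=
  match P.ins s.prog i with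
  | none => .idle
  | some (l, k) => .put l k (bit act out P s t v (k.a1 s.prog) (P.vis i).1)
      (bit act out P s t v (k.a2 s.prog) (P.vis i).1)

theorem amt_prog (s : Sg) (L t : ℕ) : s.amt L t s.prog = t := by simp [Sg.amt]

theorem amt_ne (s : Sg) (L t t' : ℕ) (c : Bool) (h : c ≠ s.prog) : s.amt L t c = s.amt L t' c := by
  simp [Sg.amt, h]

/-- the arguments of an instruction are not changed by executing it -/
theorem bit_stable (hP : P.OK act out) (s : Sg) {i : ℕ} (hi : i < P.L) (v : Fin P.n → Bool)
    {l : Λ} {k : Op G Λ} (h : P.ins s.prog i = some (l, k)) :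
    bit act out P s i v (k.a1 s.prog) (P.vis i).1
        = bit act out P s (i + 1) v (k.a1 s.prog) (P.vis i).1 ∧
      bit act out P s i v (k.a2 s.prog) (P.vis i).1
        = bit act out P s (i + 1) v (k.a2 s.prog) (P.vis i).1 := by
  cases k with
  | inp => simp [Op.a1, Op.a2, bit]
  | cst b => simp [Op.a1, Op.a2, bit]
  | nand g1 l1 g2 l2 =>
    obtain ⟨⟨s1, hs1, k1, hk1, ha1⟩, ⟨s2, hs2, k2, hk2, ha2⟩⟩ := hP.arg s.prog i l g1 l1 g2 l2 hi h
    have key : ∀ (g' : G) (l' : Λ) (s' : ℕ) (k' : Op G Λ), s' < i →
        P.ins s.prog s' = some (l', k') → (P.vis s').1 = act g' (P.vis i).1 →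
        P.run act s.prog (inw act out P s v s.prog) (i + 1) (act g' (P.vis i).1) l'
          = P.run act s.prog (inw act out P s v s.prog) i (act g' (P.vis i).1) l' := by
      intro g' l' s' k' hs' hk' ha'
      rw [run_succ_some act h]
      rw [if_neg]
      rintro ⟨e1, e2⟩
      subst e2
      have := hP.once s.prog s' i l k' _ (by omega) hi hk' h (by rw [ha', ← e1])
      omega
    constructor
    · simp only [Op.a1, bit, amt_prog]
      exact (key g1 l1 s1 k1 hs1 hk1 ha1).symm
    · simp only [Op.a2, bit, amt_prog]
      exact (key g2 l2 s2 k2 hs2 hk2 ha2).symm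

theorem wr_stable (hP : P.OK act out) (s : Sg) {i : ℕ} (hi : i < P.L) (v : Fin P.n → Bool) :
    wr act out P s i (i + 1) v = wr act out P s i i v := by
  unfold wr
  cases h : P.ins s.prog i with
  | none => rfl
  | some lk =>
    obtain ⟨l, k⟩ := lk
    obtain ⟨h1, h2⟩ := bit_stable hP s hi v h
    simp only [h1, h2]

/-! ### guards -/

variable [Nontrivial K]

theorem ite_one_eq_one {p : Prop} [Decidable p] : ((if p then (1 : K) else 0) = 1) ↔ p := by
  by_cases h : p <;> simp [h]

theorem one_sub_ite {p : Prop} [Decidable p] : (1 - (if p then (1 : K) else 0) = 0) ↔ p := by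
  by_cases h : p <;> simp [h]

variable (act out P) in
/-- the condition on the written part of a guard -/
def WOK (c : Bool) (j : Fin J) (a : Γ) (r : Rg Λ J → Γ → K) : Wr G Λ → Prop
  | .idle => ¬ ∃ s < P.L, P.vis s = (a, j) ∧ P.ins c s ≠ none
  | .put l k β β' => (∃ s < P.L, P.vis s = (a, j) ∧ P.ins c s = some (l, k)) ∧
      ((k.a1 c).ex : Ex K G Λ J).evalC act (pubC P K) r a = bt K β ∧
      ((k.a2 c).ex : Ex K G Λ J).evalC act (pubC P K) r a = bt K β'

theorem gd_iff (c : Bool) (j : Fin J) (g : G) (j' : Fin J) (w : Wr G Λ) (p : Pt G J)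
    (r : Rg Λ J → Γ → K) (a : Γ)
    (hp : ∀ x, (p.ex : Ex K G Λ J).evalC act (pubC P K) r x = if x = a then 1 else 0) :
    (∀ q, gd c j g j' w p q → (mach (K := K) (G := G) (J := J) out).CZ act (pubC P K) r q) ↔
      (∃ s < P.L, P.vis s = (a, j) ∧ P.dir s = g ∧ (P.vis (s + 1)).2 = j') ∧
        WOK act P K c j a r w := by
  have hE : (mach (K := K) (G := G) (J := J) out).CZ act (pubC P K) r (.gE j g j' p) ↔
      ∃ s < P.L, P.vis s = (a, j) ∧ P.dir s = g ∧ (P.vis (s + 1)).2 = j' := by
    unfold PMach.CZ
    simp only [mach, cex, u, PE.sub, evalC, hp, pubC]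
    constructor
    · intro h
      have := h a
      simp only [if_true, mul_one, one_mul, ← sub_eq_add_neg, neg_mul] at this
      by_contra hh
      rw [if_neg hh] at this
      simp at this
    · intro h x
      by_cases hx : x = a
      · subst hx
        rw [if_pos h]; ring
      · rw [if_neg hx]; ring
  have hN : (mach (K := K) (G := G) (J := J) out).CZ act (pubC P K) r (.gN c j p) ↔
      ¬ ∃ s < P.L, P.vis s = (a, j) ∧ P.ins c s ≠ none := by
    unfold PMach.CZ
    simp only [mach, cex, u, evalC, hp, pubC]
    constructor
    · intro h hh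
      have := h a
      rw [if_pos hh, if_pos rfl] at this
      simp at this
    · intro h x
      by_cases hx : x = a
      · subst hx
        rw [if_neg h]; ring
      · rw [if_neg hx]; ring
  have hW : ∀ l k, (mach (K := K) (G := G) (J := J) out).CZ act (pubC P K) r (.gW c j l k p) ↔
      ∃ s < P.L, P.vis s = (a, j) ∧ P.ins c s = some (l, k) := by
    intro l k
    unfold PMach.CZ
    simp only [mach, cex, u, PE.sub, evalC, hp, pubC]
    constructor
    · intro h
      have := h a
      simp only [if_true, mul_one, one_mul, ← sub_eq_add_neg, neg_mul] at this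
      by_contra hh
      rw [if_neg hh] at this
      simp at this
    · intro h x
      by_cases hx : x = a
      · subst hx
        rw [if_pos h]; ring
      · rw [if_neg hx]; ring
  have hA : ∀ (q : Ar G Λ) (β : Bool),
      (mach (K := K) (G := G) (J := J) out).CZ act (pubC P K) r (.gA q β p) ↔
      (q.ex : Ex K G Λ J).evalC act (pubC P K) r a = bt K β := by
    intro q β
    unfold PMach.CZ
    simp only [mach, cex, u, PE.sub, evalC, hp, pubC]
    constructor
    · intro h
      have := h a
      simp only [if_true, mul_one, one_mul, neg_mul] at this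
      have h2 := add_neg_eq_zero.1 this
      exact h2
    · intro h x
      by_cases hx : x = a
      · subst hx
        rw [h]; ring
      · rw [if_neg hx]; ring
  cases w with
  | idle =>
    constructor
    · intro h
      exact ⟨hE.1 (h _ (Or.inl rfl)), hN.1 (h _ (Or.inr rfl))⟩
    · rintro ⟨h1, h2⟩ q hq
      rcases hq with rfl | hq
      · exact hE.2 h1
      · simp only at hq
        subst hq
        exact hN.2 h2
  | put l k β β' =>
    constructor
    · intro h
      exact ⟨hE.1 (h _ (Or.inl rfl)), (hW l k).1 (h _ (Or.inr (Or.inl rfl))),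
        (hA _ β).1 (h _ (Or.inr (Or.inr (Or.inl rfl)))),
        (hA _ β').1 (h _ (Or.inr (Or.inr (Or.inr rfl))))⟩
    · rintro ⟨h1, h2, h3, h4⟩ q hq
      rcases hq with rfl | hq
      · exact hE.2 h1
      · simp only at hq
        rcases hq with rfl | rfl | rfl
        · exact (hW l k).2 h2
        · exact (hA _ β).2 h3
        · exact (hA _ β').2 h4


theorem vis_inj (hP : P.OK act out) {s t : ℕ} (hs : s ≤ P.L) (ht : t ≤ P.L)
    (h : P.vis s = P.vis t) : s = t := hP.inj s t hs ht h

theorem lane_of (s : Sg) (t : ℕ) (v : Fin P.n → Bool) (j : Fin J)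
    (h : ∀ i, i ≠ j → ∀ x, encC act out P K s t v (.D i) x = 0) : j = (P.vis t).2 := by
  by_contra hne
  have := h (P.vis t).2 (fun e => hne e.symm) (P.vis t).1
  simp [encC] at this

theorem other_zero (s : Sg) (t : ℕ) (v : Fin P.n → Bool) (i : Fin J) (h : i ≠ (P.vis t).2)
    (x : Γ) : encC act out P K s t v (.D i) x = 0 := by
  simp only [encC]
  rw [if_neg]
  intro e
  exact h (by rw [e])

theorem up_iff (hP : P.OK act out) (s : Sg) {t : ℕ} (ht : t ≤ P.L) (v : Fin P.n → Bool)
    (j : Fin J) (g : G) (j' : Fin J) (w : Wr G Λ) :
    ((∀ q, gd s.prog j g j' w (.cur j) q →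
        (mach (K := K) (G := G) (J := J) out).CZ act (pubC P K) (encC act out P K s t v) q) ∧
      (∀ i, i ≠ j → ∀ x, encC act out P K s t v (.D i) x = 0)) ↔
    t < P.L ∧ j = (P.vis t).2 ∧ g = P.dir t ∧ j' = (P.vis (t + 1)).2 ∧
      w = wr act out P s t t v := by
  have hp : ∀ x, ((Pt.cur (P.vis t).2 : Pt G J).ex : Ex K G Λ J).evalC act (pubC P K)
      (encC act out P K s t v) x = if x = (P.vis t).1 then 1 else 0 := by
    intro x
    simp only [Pt.ex, evalC, encC]
    by_cases hx : x = (P.vis t).1
    · rw [if_pos hx, if_pos]
      rw [hx]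
    · rw [if_neg hx, if_neg]
      intro e
      exact hx (by rw [e])
  constructor
  · rintro ⟨h1, h2⟩
    have hj := lane_of K s t v j h2
    subst hj
    rw [gd_iff K s.prog _ g j' w _ _ _ hp] at h1
    obtain ⟨⟨s', hs', hv, hd, hj'⟩, hw⟩ := h1
    have e : s' = t := vis_inj hP (by omega) ht hv
    subst e
    refine ⟨hs', rfl, hd.symm, hj'.symm, ?_⟩
    cases w with
    | idle =>
      have : P.ins s.prog s' = none := by
        by_contra hh
        exact hw ⟨s', hs', rfl, hh⟩
      simp only [wr, this]
    | put l k β β' =>
      obtain ⟨⟨s2, hs2, hv2, hi2⟩, ha1, ha2⟩ := hw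
      have e2 : s2 = s' := vis_inj hP (by omega) ht hv2
      subst e2
      rw [ex_ar] at ha1 ha2
      simp only [wr, hi2]
      rw [bt_inj K ha1, bt_inj K ha2]
  · rintro ⟨htL, rfl, rfl, rfl, rfl⟩
    refine ⟨?_, fun i hi x => other_zero K s t v i hi x⟩
    rw [gd_iff K s.prog _ _ _ _ _ _ _ hp]
    refine ⟨⟨t, htL, rfl, rfl, rfl⟩, ?_⟩
    cases h : P.ins s.prog t with
    | none =>
      simp only [wr, h, WOK]
      rintro ⟨s', hs', hv, hi⟩
      have e : s' = t := vis_inj hP (by omega) ht hv
      subst e
      exact hi h
    | some lk =>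
      obtain ⟨l, k⟩ := lk
      simp only [wr, h, WOK]
      refine ⟨⟨t, htL, rfl, h⟩, ?_, ?_⟩
      · rw [ex_ar]
      · rw [ex_ar]

theorem dn_iff (hP : P.OK act out) (s : Sg) {t : ℕ} (ht : t ≤ P.L) (v : Fin P.n → Bool)
    (j : Fin J) (g : G) (j' : Fin J) (w : Wr G Λ) :
    ((∀ q, gd s.prog j g j' w (.old g j') q →
        (mach (K := K) (G := G) (J := J) out).CZ act (pubC P K) (encC act out P K s t v) q) ∧
      (∀ i, i ≠ j' → ∀ x, encC act out P K s t v (.D i) x = 0)) ↔
    ∃ i, i + 1 = t ∧ j = (P.vis i).2 ∧ g = P.dir i ∧ j' = (P.vis (i + 1)).2 ∧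
      w = wr act out P s i t v := by
  have hp : ∀ g, ∀ x, ((Pt.old g (P.vis t).2 : Pt G J).ex : Ex K G Λ J).evalC act (pubC P K)
      (encC act out P K s t v) x = if x = (act g).symm (P.vis t).1 then 1 else 0 := by
    intro g x
    simp only [Pt.ex, evalC, encC]
    by_cases hx : x = (act g).symm (P.vis t).1
    · rw [if_pos hx, if_pos]
      rw [hx, Equiv.apply_symm_apply]
    · rw [if_neg hx, if_neg]
      intro e
      apply hx
      have : (P.vis t).1 = act g x := by rw [e]
      rw [this, Equiv.symm_apply_apply]
  constructor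
  · rintro ⟨h1, h2⟩
    have hj := lane_of K s t v j' h2
    subst hj
    rw [gd_iff K s.prog _ g _ w _ _ _ (hp g)] at h1
    obtain ⟨⟨s', hs', hv, hd, hj'⟩, hw⟩ := h1
    have hst := hP.step s' hs'
    have e : s' + 1 = t := by
      apply vis_inj hP (by omega) ht
      apply Prod.ext
      · rw [hst, hv, hd, Equiv.apply_symm_apply]
      · exact hj'
    subst e
    have hv1 : (act g).symm (P.vis (s' + 1)).1 = (P.vis s').1 := by rw [hv]
    have hj1 : j = (P.vis s').2 := by rw [hv]
    refine ⟨s', rfl, hj1, hd.symm, rfl, ?_⟩
    cases w with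
    | idle =>
      have : P.ins s.prog s' = none := by
        by_contra hh
        exact hw ⟨s', hs', hv, hh⟩
      simp only [wr, this]
    | put l k β β' =>
      obtain ⟨⟨s2, hs2, hv2, hi2⟩, ha1, ha2⟩ := hw
      have e2 : s2 = s' := vis_inj hP (by omega) (by omega) (hv2.trans hv.symm)
      subst e2
      rw [ex_ar] at ha1 ha2
      simp only [wr, hi2]
      rw [hv1] at ha1 ha2
      rw [bt_inj K ha1, bt_inj K ha2]
  · rintro ⟨i, rfl, rfl, rfl, rfl, rfl⟩
    refine ⟨?_, fun i' hi' x => other_zero K s (i + 1) v i' hi' x⟩
    rw [gd_iff K s.prog _ _ _ _ _ _ _ (hp (P.dir i))]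
    have hst := hP.step i (by omega)
    have ha : (act (P.dir i)).symm (P.vis (i + 1)).1 = (P.vis i).1 := by
      rw [hst, Equiv.symm_apply_apply]
    rw [ha]
    refine ⟨⟨i, by omega, rfl, rfl, rfl⟩, ?_⟩
    cases h : P.ins s.prog i with
    | none =>
      simp only [wr, h, WOK]
      rintro ⟨s', hs', hv, hi⟩
      have e : s' = i := vis_inj hP (by omega) (by omega) hv
      subst e
      exact hi h
    | some lk =>
      obtain ⟨l, k⟩ := lk
      simp only [wr, h, WOK]
      refine ⟨⟨i, by omega, rfl, h⟩, ?_, ?_⟩
      · rw [ex_ar]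
      · rw [ex_ar]

/-! ### updates -/

theorem fup_enc (hP : P.OK act out) (s : Sg) {t : ℕ} (ht : t < P.L) (v : Fin P.n → Bool) :
    (fun i => (fup s.prog (P.vis t).2 (P.dir t) (P.vis (t + 1)).2 (wr act out P s t t v) i :
        Ex K G Λ J).evalC act (pubC P K) (encC act out P K s t v))
      = encC act out P K s (t + 1) v := by
  have hst := hP.step t ht
  funext i x
  cases i with
  | X => rfl
  | Y => rfl
  | F c l =>
    by_cases hc : c = s.prog
    · subst hc
      have hx0 : encC act out P K s t v (.F s.prog l) x
          = bt K (P.run act s.prog (inw act out P s v s.prog) t x l) := by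
        simp only [encC, amt_prog, inw]
      have hx1 : encC act out P K s (t + 1) v (.F s.prog l) x
          = bt K (P.run act s.prog (inw act out P s v s.prog) (t + 1) x l) := by
        simp only [encC, amt_prog, inw]
      rw [hx1]
      cases h : P.ins s.prog t with
      | none =>
        simp only [wr, h, fup, evalC]
        rw [hx0, run_succ_none act h]
      | some lk =>
        obtain ⟨l', k⟩ := lk
        rw [run_succ_some act h]
        by_cases hl : l' = l
        · subst hl
          have hf : (fup s.prog (P.vis t).2 (P.dir t) (P.vis (t + 1)).2 (wr act out P s t t v)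
              (.F s.prog l') : Ex K G Λ J) = add (reg (.F s.prog l')) (smul (bt K
                (k.val (bit act out P s t v (k.a1 s.prog) (P.vis t).1)
                  (bit act out P s t v (k.a2 s.prog) (P.vis t).1))) (reg (.D (P.vis t).2))) := by
            simp [wr, h, fup]
          rw [hf]
          simp only [evalC]
          rw [hx0]
          by_cases hx : (P.vis t).1 = x
          · rw [if_pos ⟨hx, trivial⟩]
            have hD : encC act out P K s t v (.D (P.vis t).2) x = 1 := by
              simp only [encC]
              rw [if_pos]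
              rw [← hx]
            rw [hD, ← hx, run_fresh hP ht h, op_val]
            simp
          · rw [if_neg (fun e => hx e.1)]
            have hD : encC act out P K s t v (.D (P.vis t).2) x = 0 := by
              simp only [encC]
              rw [if_neg]
              intro e
              exact hx (by rw [e])
            rw [hD]
            simp
        · have hf : (fup s.prog (P.vis t).2 (P.dir t) (P.vis (t + 1)).2 (wr act out P s t t v)
              (.F s.prog l) : Ex K G Λ J) = reg (.F s.prog l) := by
            simp [wr, h, fup, hl]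
          rw [hf, if_neg (fun e => hl e.2)]
          simp only [evalC]
          rw [hx0]
    · have : (fup s.prog (P.vis t).2 (P.dir t) (P.vis (t + 1)).2 (wr act out P s t t v) (.F c l) :
          Ex K G Λ J) = reg (.F c l) := by
        cases h : P.ins s.prog t with
        | none => simp only [wr, h, fup]
        | some lk =>
          obtain ⟨l', k⟩ := lk
          simp only [wr, h, fup]
          rw [if_neg (fun e => hc e.1)]
      simp only [this, evalC, encC]
      rw [amt_ne s P.L t (t + 1) c hc]
  | D i =>
    simp only [fup]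
    by_cases hi : i = (P.vis (t + 1)).2
    · subst hi
      rw [if_pos rfl]
      simp only [evalC, encC]
      by_cases hx : (P.vis (t + 1)).1 = x
      · rw [if_pos, if_pos]
        · rw [← hx]
        · rw [← hx, hst, Equiv.symm_apply_apply]
      · rw [if_neg, if_neg]
        · intro e
          exact hx (by rw [e])
        · intro e
          apply hx
          rw [hst]
          have : (P.vis t).1 = (act (P.dir t)).symm x := by rw [e]
          rw [this, Equiv.apply_symm_apply]
    · rw [if_neg hi]
      simp only [evalC, encC]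
      rw [if_neg]
      intro e
      exact hi (by rw [e])
  | M i =>
    simp only [fup]
    by_cases hi : i = (P.vis t).2
    · subst hi
      rw [if_pos rfl]
      simp only [evalC, encC]
      by_cases hx : P.vis t = (x, (P.vis t).2)
      · rw [if_pos hx]
        rw [if_neg, if_pos ⟨t, by omega, hx⟩]
        · simp
        · rintro ⟨s', hs', e⟩
          have := vis_inj hP (s := s') (t := t) (by omega) (by omega) (e.trans hx.symm)
          omega
      · rw [if_neg hx]
        by_cases hh : ∃ s' < t, P.vis s' = (x, (P.vis t).2)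
        · rw [if_pos hh, if_pos]
          · simp
          · obtain ⟨s', hs', e⟩ := hh
            exact ⟨s', by omega, e⟩
        · rw [if_neg hh, if_neg]
          · simp
          · rintro ⟨s', hs', e⟩
            rcases Nat.lt_succ_iff_lt_or_eq.1 hs' with h | h
            · exact hh ⟨s', h, e⟩
            · subst h
              exact hx e
    · rw [if_neg hi]
      simp only [evalC, encC]
      by_cases hh : ∃ s' < t, P.vis s' = (x, i)
      · rw [if_pos hh, if_pos]
        obtain ⟨s', hs', e⟩ := hh
        exact ⟨s', by omega, e⟩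
      · rw [if_neg hh, if_neg]
        rintro ⟨s', hs', e⟩
        rcases Nat.lt_succ_iff_lt_or_eq.1 hs' with h | h
        · exact hh ⟨s', h, e⟩
        · subst h
          exact hi (by rw [e])

omit [Nontrivial K] in
theorem fdn_fup (c : Bool) (j : Fin J) (g : G) (j' : Fin J) (w : Wr G Λ)
    (r : Rg Λ J → Γ → K) (h : ∀ i, i ≠ j → ∀ x, r (.D i) x = 0) :
    (fun i => (fdn c j g j' w i : Ex K G Λ J).evalC act (pubC P K)
      (fun i => (fup c j g j' w i : Ex K G Λ J).evalC act (pubC P K) r)) = r := by
  funext i x
  cases i with
  | X => rfl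
  | Y => rfl
  | F c' l =>
    cases w with
    | idle => simp only [fdn, fup, evalC]
    | put l' k β β' =>
      by_cases hc : c' = c ∧ l' = l
      · have h1 : (fdn c j g j' (.put l' k β β') (.F c' l) : Ex K G Λ J)
            = PE.sub (reg (.F c' l)) (smul (bt K (k.val β β')) (tr g (reg (.D j')))) := by
          simp only [fdn]; rw [if_pos hc]
        have h2 : (fup c j g j' (.put l' k β β') (.F c' l) : Ex K G Λ J)
            = add (reg (.F c' l)) (smul (bt K (k.val β β')) (reg (.D j))) := by
          simp only [fup]; rw [if_pos hc]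
        have h3 : (fup c j g j' (.put l' k β β') (.D j') : Ex K G Λ J)
            = ti g (reg (.D j)) := by
          simp [fup]
        rw [h1]
        simp only [evalC, PE.sub, h2, h3, Equiv.symm_apply_apply]
        ring
      · simp only [fdn, fup, if_neg hc, evalC]
  | D i =>
    by_cases hi : i = j
    · subst hi
      simp only [fdn, fup, if_true, evalC, Equiv.symm_apply_apply]
    · simp only [fdn, if_neg hi, evalC]
      exact (h i hi x).symm
  | M i =>
    by_cases hi : i = j
    · subst hi
      simp only [fdn, fup, if_true, evalC, PE.sub, Equiv.symm_apply_apply]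
      ring
    · simp only [fdn, fup, if_neg hi, evalC]

theorem fdn_enc (hP : P.OK act out) (s : Sg) {t : ℕ} (ht : t < P.L) (v : Fin P.n → Bool) :
    (fun i => (fdn s.prog (P.vis t).2 (P.dir t) (P.vis (t + 1)).2 (wr act out P s t t v) i :
        Ex K G Λ J).evalC act (pubC P K) (encC act out P K s (t + 1) v))
      = encC act out P K s t v := by
  rw [← fup_enc K hP s ht v]
  exact fdn_fup K _ _ _ _ _ _ (fun i hi x => other_zero K s t v i hi x)


/-! ### ends of the walk -/

theorem dL_iff (hP : P.OK act out) (s : Sg) {t : ℕ} (ht : t ≤ P.L) (v : Fin P.n → Bool) :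
    (∀ j, (mach (K := K) (G := G) (J := J) out).IZ act (pubC P K) (encC act out P K s t v)
      (.dL j)) ↔ t = P.L := by
  constructor
  · intro h
    have := h (P.vis t).2 (P.vis t).1
    simp only [mach, iex, PE.sub, evalC, encC, pubC] at this
    rw [if_pos trivial] at this
    by_contra hne
    rw [if_neg] at this
    · simp at this
    · intro e
      exact hne (vis_inj hP ht le_rfl e.symm)
  · rintro rfl j x
    simp only [mach, iex, PE.sub, evalC, encC, pubC]
    by_cases hx : P.vis P.L = (x, j)
    · rw [if_pos hx, if_pos hx]; ring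
    · rw [if_neg hx, if_neg hx]; ring

theorem d0_iff (hP : P.OK act out) (s : Sg) {t : ℕ} (ht : t ≤ P.L) (v : Fin P.n → Bool) :
    (∀ j, (mach (K := K) (G := G) (J := J) out).IZ act (pubC P K) (encC act out P K s t v)
      (.d0 j)) ↔ t = 0 := by
  constructor
  · intro h
    have := h (P.vis t).2 (P.vis t).1
    simp only [mach, iex, PE.sub, evalC, encC, pubC] at this
    rw [if_pos trivial] at this
    by_contra hne
    rw [if_neg] at this
    · simp at this
    · intro e
      exact hne (vis_inj hP ht (Nat.zero_le _) e.symm)
  · rintro rfl j x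
    simp only [mach, iex, PE.sub, evalC, encC, pubC]
    by_cases hx : P.vis 0 = (x, j)
    · rw [if_pos hx, if_pos hx]; ring
    · rw [if_neg hx, if_neg hx]; ring

omit [Nontrivial K] in
theorem XP_of (hP : P.OK act out) (v : Fin P.n → Bool) :
    ∀ a, encC act out P K .b P.L v (.F true out) a
      = bt K (P.nm (P.outp act out true (P.outp act out false v)) a) := by
  intro a
  simp only [encC, Layout.nY, if_true]
  have : (Sg.b).amt P.L P.L true = P.L := by simp [Sg.amt, Sg.prog]
  rw [this, run_out hP]

omit [Nontrivial K] in
theorem YS_of (hP : P.OK act out) (v : Fin P.n → Bool) :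
    ∀ a, encC act out P K .c P.L v (.F false out) a
      = bt K (P.nm (P.outp act out false (P.outp act out true v)) a) := by
  intro a
  simp only [encC, Layout.nX]
  have : (Sg.c).amt P.L P.L false = P.L := by simp [Sg.amt, Sg.prog]
  rw [this]
  simp only [Bool.false_eq_true, if_false]
  rw [run_out hP]

theorem nm_inj (hP : P.OK act out) {v w : Fin P.n → Bool}
    (h : ∀ a, bt K (P.nm v a) = bt K (P.nm w a)) : v = w := by
  funext i
  have := bt_inj K (h (P.al i))
  rw [nm_al hP, nm_al hP] at this
  exact this

theorem XP_iff (hP : P.OK act out) (v : Fin P.n → Bool) :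
    (mach (K := K) (G := G) (J := J) out).IZ act (pubC P K) (encC act out P K .b P.L v) .XP ↔
      P.outp act out true (P.outp act out false v) = v := by
  have h0 : (mach (K := K) (G := G) (J := J) out).IZ act (pubC P K) (encC act out P K .b P.L v)
      .XP ↔ ∀ a, bt K (P.nm v a)
        = bt K (P.nm (P.outp act out true (P.outp act out false v)) a) := by
    unfold PMach.IZ
    refine forall_congr' fun a => ?_
    simp only [mach, iex, PE.sub, evalC]
    rw [XP_of K hP]
    simp only [encC, Layout.nX]
    rw [neg_one_mul, ← sub_eq_add_neg, sub_eq_zero]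
  rw [h0]
  constructor
  · intro h
    exact (nm_inj K hP h).symm
  · intro h a
    rw [h]

theorem YS_iff (hP : P.OK act out) (v : Fin P.n → Bool) :
    (mach (K := K) (G := G) (J := J) out).IZ act (pubC P K) (encC act out P K .c P.L v) .YS ↔
      P.outp act out false (P.outp act out true v) = v := by
  have h0 : (mach (K := K) (G := G) (J := J) out).IZ act (pubC P K) (encC act out P K .c P.L v)
      .YS ↔ ∀ a, bt K (P.nm v a)
        = bt K (P.nm (P.outp act out false (P.outp act out true v)) a) := by
    unfold PMach.IZ
    refine forall_congr' fun a => ?_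
    simp only [mach, iex, PE.sub, evalC]
    rw [YS_of K hP]
    simp only [encC, Layout.nY]
    rw [neg_one_mul, ← sub_eq_add_neg, sub_eq_zero]
  rw [h0]
  constructor
  · intro h
    exact (nm_inj K hP h).symm
  · intro h a
    rw [h]

/-! ### labels on encoded states -/

variable (act out P) in
/-- canonical data of a fill label for the instruction `i` in the state `(s, t, v)` -/
def Can (s : Sg) (i t : ℕ) (v : Fin P.n → Bool) (j : Fin J) (g : G) (j' : Fin J) (w : Wr G Λ) :
    Prop :=
  j = (P.vis i).2 ∧ g = P.dir i ∧ j' = (P.vis (i + 1)).2 ∧ w = wr act out P s i t v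

variable (act out P) in
/-- when a label is enabled forward on `(src, t, v)` -/
def EnC (t : ℕ) (v : Fin P.n → Bool) : Lb G Λ J → Prop
  | .fill s j g j' w =>
      if s.inv then ∃ i, i + 1 = t ∧ Can act out P s i t v j g j' w
      else t < P.L ∧ Can act out P s t t v j g j' w
  | .ab => t = P.L
  | .bc => t = P.L ∧ P.outp act out true (P.outp act out false v) = v
  | .cd => t = 0
  | .da => t = 0

variable (act out P) in
/-- when a label is enabled backward on `(tgt, t, v)` -/
def BkC (t : ℕ) (v : Fin P.n → Bool) : Lb G Λ J → Prop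
  | .fill s j g j' w =>
      if s.inv then t < P.L ∧ Can act out P s t t v j g j' w
      else ∃ i, i + 1 = t ∧ Can act out P s i t v j g j' w
  | .ab => t = 0
  | .bc => t = P.L ∧ P.outp act out false (P.outp act out true v) = v
  | .cd => t = P.L
  | .da => t = 0

theorem en_iff (hP : P.OK act out) (ρ : Lb G Λ J) {t : ℕ} (ht : t ≤ P.L) (v : Fin P.n → Bool) :
    (mach (K := K) (G := G) (J := J) out).En act (pubC P K) ρ
      (encC act out P K ((mach (K := K) (G := G) (J := J) out).src ρ) t v) ↔
      EnC act out P t v ρ := by
  cases ρ with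
  | fill s j g j' w =>
    by_cases hi : s.inv = true
    · have h1 := dn_iff K hP s ht v j g j' w
      simp only [EnC, if_pos hi]
      rw [show (∃ i, i + 1 = t ∧ Can act out P s i t v j g j' w) ↔ _ from h1.symm]
      unfold PMach.En
      constructor
      · rintro ⟨a1, a2⟩
        refine ⟨fun q hq => a1 q ?_, fun i hne x => a2 (.D i) ?_ x⟩
        · show enC (Lb.fill s j g j' w) q
          simp only [enC, if_pos hi]
          exact hq
        · show enI (Lb.fill s j g j' w) (Id1.D i)
          simp only [enI, if_pos hi]
          exact hne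
      · rintro ⟨a1, a2⟩
        refine ⟨fun q hq => a1 q ?_, fun i hne => ?_⟩
        · replace hq : enC (Lb.fill s j g j' w) q := hq
          simp only [enC, if_pos hi] at hq
          exact hq
        · replace hne : enI (Lb.fill s j g j' w) i := hne
          cases i with
          | D i =>
            simp only [enI, if_pos hi] at hne
            exact a2 i hne
          | _ => exact hne.elim
    · have h1 := up_iff K hP s ht v j g j' w
      simp only [EnC, if_neg hi]
      rw [show (t < P.L ∧ Can act out P s t t v j g j' w) ↔ _ from h1.symm]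
      unfold PMach.En
      constructor
      · rintro ⟨a1, a2⟩
        refine ⟨fun q hq => a1 q ?_, fun i hne x => a2 (.D i) ?_ x⟩
        · show enC (Lb.fill s j g j' w) q
          simp only [enC, if_neg hi]
          exact hq
        · show enI (Lb.fill s j g j' w) (Id1.D i)
          simp only [enI, if_neg hi]
          exact hne
      · rintro ⟨a1, a2⟩
        refine ⟨fun q hq => a1 q ?_, fun i hne => ?_⟩
        · replace hq : enC (Lb.fill s j g j' w) q := hq
          simp only [enC, if_neg hi] at hq
          exact hq
        · replace hne : enI (Lb.fill s j g j' w) i := hne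
          cases i with
          | D i =>
            simp only [enI, if_neg hi] at hne
            exact a2 i hne
          | _ => exact hne.elim
  | ab =>
    rw [show EnC act out P t v (.ab : Lb G Λ J) ↔ t = P.L from Iff.rfl, ← dL_iff K hP _ ht v]
    constructor
    · rintro ⟨_, h⟩ j
      exact h (.dL j) trivial
    · intro h
      refine ⟨fun q hq => (hq : False).elim, fun i hi => ?_⟩
      replace hi : enI _ i := hi
      cases i with
      | dL j => exact h j
      | _ => exact (hi : False).elim
  | bc =>
    rw [show EnC act out P t v (.bc : Lb G Λ J) ↔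
      (t = P.L ∧ P.outp act out true (P.outp act out false v) = v) from Iff.rfl]
    constructor
    · rintro ⟨_, h⟩
      have e : t = P.L := (dL_iff K hP _ ht v).1 fun j => h (.dL j) trivial
      subst e
      exact ⟨rfl, (XP_iff K hP v).1 (h .XP trivial)⟩
    · rintro ⟨e, hx⟩
      subst e
      refine ⟨fun q hq => (hq : False).elim, fun i hi => ?_⟩
      replace hi : enI _ i := hi
      cases i with
      | dL j => exact (dL_iff K hP _ ht v).2 rfl j
      | XP => exact (XP_iff K hP v).2 hx
      | _ => exact (hi : False).elim
  | cd =>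
    rw [show EnC act out P t v (.cd : Lb G Λ J) ↔ t = 0 from Iff.rfl, ← d0_iff K hP _ ht v]
    constructor
    · rintro ⟨_, h⟩ j
      exact h (.d0 j) trivial
    · intro h
      refine ⟨fun q hq => (hq : False).elim, fun i hi => ?_⟩
      replace hi : enI _ i := hi
      cases i with
      | d0 j => exact h j
      | _ => exact (hi : False).elim
  | da =>
    rw [show EnC act out P t v (.da : Lb G Λ J) ↔ t = 0 from Iff.rfl, ← d0_iff K hP _ ht v]
    constructor
    · rintro ⟨_, h⟩ j
      exact h (.d0 j) trivial
    · intro h
      refine ⟨fun q hq => (hq : False).elim, fun i hi => ?_⟩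
      replace hi : enI _ i := hi
      cases i with
      | d0 j => exact h j
      | _ => exact (hi : False).elim

theorem bk_iff (hP : P.OK act out) (ρ : Lb G Λ J) {t : ℕ} (ht : t ≤ P.L) (v : Fin P.n → Bool) :
    (mach (K := K) (G := G) (J := J) out).Bk act (pubC P K) ρ
      (encC act out P K ((mach (K := K) (G := G) (J := J) out).tgt ρ) t v) ↔
      BkC act out P t v ρ := by
  cases ρ with
  | fill s j g j' w =>
    by_cases hi : s.inv = true
    · have h1 := up_iff K hP s ht v j g j' w
      simp only [BkC, if_pos hi]
      rw [show (t < P.L ∧ Can act out P s t t v j g j' w) ↔ _ from h1.symm]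
      unfold PMach.Bk
      constructor
      · rintro ⟨a1, a2⟩
        refine ⟨fun q hq => a1 q ?_, fun i hne x => a2 (.D i) ?_ x⟩
        · show bkC (Lb.fill s j g j' w) q
          simp only [bkC, if_pos hi]
          exact hq
        · show bkI (Lb.fill s j g j' w) (Id1.D i)
          simp only [bkI, if_pos hi]
          exact hne
      · rintro ⟨a1, a2⟩
        refine ⟨fun q hq => a1 q ?_, fun i hne => ?_⟩
        · replace hq : bkC (Lb.fill s j g j' w) q := hq
          simp only [bkC, if_pos hi] at hq
          exact hq
        · replace hne : bkI (Lb.fill s j g j' w) i := hne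
          cases i with
          | D i =>
            simp only [bkI, if_pos hi] at hne
            exact a2 i hne
          | _ => exact hne.elim
    · have h1 := dn_iff K hP s ht v j g j' w
      simp only [BkC, if_neg hi]
      rw [show (∃ i, i + 1 = t ∧ Can act out P s i t v j g j' w) ↔ _ from h1.symm]
      unfold PMach.Bk
      constructor
      · rintro ⟨a1, a2⟩
        refine ⟨fun q hq => a1 q ?_, fun i hne x => a2 (.D i) ?_ x⟩
        · show bkC (Lb.fill s j g j' w) q
          simp only [bkC, if_neg hi]
          exact hq
        · show bkI (Lb.fill s j g j' w) (Id1.D i)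
          simp only [bkI, if_neg hi]
          exact hne
      · rintro ⟨a1, a2⟩
        refine ⟨fun q hq => a1 q ?_, fun i hne => ?_⟩
        · replace hq : bkC (Lb.fill s j g j' w) q := hq
          simp only [bkC, if_neg hi] at hq
          exact hq
        · replace hne : bkI (Lb.fill s j g j' w) i := hne
          cases i with
          | D i =>
            simp only [bkI, if_neg hi] at hne
            exact a2 i hne
          | _ => exact hne.elim
  | ab =>
    rw [show BkC act out P t v (.ab : Lb G Λ J) ↔ t = 0 from Iff.rfl, ← d0_iff K hP _ ht v]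
    constructor
    · rintro ⟨_, h⟩ j
      exact h (.d0 j) trivial
    · intro h
      refine ⟨fun q hq => (hq : False).elim, fun i hi => ?_⟩
      replace hi : bkI _ i := hi
      cases i with
      | d0 j => exact h j
      | _ => exact (hi : False).elim
  | bc =>
    rw [show BkC act out P t v (.bc : Lb G Λ J) ↔
      (t = P.L ∧ P.outp act out false (P.outp act out true v) = v) from Iff.rfl]
    constructor
    · rintro ⟨_, h⟩
      have e : t = P.L := (dL_iff K hP _ ht v).1 fun j => h (.dL j) trivial
      subst e
      exact ⟨rfl, (YS_iff K hP v).1 (h .YS trivial)⟩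
    · rintro ⟨e, hx⟩
      subst e
      refine ⟨fun q hq => (hq : False).elim, fun i hi => ?_⟩
      replace hi : bkI _ i := hi
      cases i with
      | dL j => exact (dL_iff K hP _ ht v).2 rfl j
      | YS => exact (YS_iff K hP v).2 hx
      | _ => exact (hi : False).elim
  | cd =>
    rw [show BkC act out P t v (.cd : Lb G Λ J) ↔ t = P.L from Iff.rfl, ← dL_iff K hP _ ht v]
    constructor
    · rintro ⟨_, h⟩ j
      exact h (.dL j) trivial
    · intro h
      refine ⟨fun q hq => (hq : False).elim, fun i hi => ?_⟩
      replace hi : bkI _ i := hi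
      cases i with
      | dL j => exact h j
      | _ => exact (hi : False).elim
  | da =>
    rw [show BkC act out P t v (.da : Lb G Λ J) ↔ t = 0 from Iff.rfl, ← d0_iff K hP _ ht v]
    constructor
    · rintro ⟨_, h⟩ j
      exact h (.d0 j) trivial
    · intro h
      refine ⟨fun q hq => (hq : False).elim, fun i hi => ?_⟩
      replace hi : bkI _ i := hi
      cases i with
      | d0 j => exact h j
      | _ => exact (hi : False).elim

/-! ### updates of the joints -/

omit [Nontrivial K] in
theorem up_ab (hP : P.OK act out) (v : Fin P.n → Bool) :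
    (mach (K := K) (G := G) (J := J) out).upC act (pubC P K) .ab (encC act out P K .a P.L v)
      = encC act out P K .b 0 v := by
  funext i x
  cases i with
  | X => rfl
  | Y =>
    change encC act out P K .a P.L v (.F false out) x = encC act out P K .b 0 v .Y x
    simp only [encC, Layout.nX, Layout.nY, Sg.amt, Sg.prog, if_true, Bool.false_eq_true, if_false]
    rw [run_out hP]
  | F c l =>
    change encC act out P K .a P.L v (.F c l) x = encC act out P K .b 0 v (.F c l) x
    cases c <;> simp [encC, Layout.nX, Layout.nY, Sg.amt, Sg.prog, Layout.run]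
  | D i =>
    change pubC P K (.D0 i) x = encC act out P K .b 0 v (.D i) x
    simp only [pubC, encC]
    by_cases hx : P.vis 0 = (x, i)
    · rw [if_pos hx, if_pos hx]
    · rw [if_neg hx, if_neg hx]
  | M i =>
    change (0 : K) = encC act out P K .b 0 v (.M i) x
    simp [encC]

omit [Nontrivial K] in
theorem dn_ab (hP : P.OK act out) (v : Fin P.n → Bool) :
    (mach (K := K) (G := G) (J := J) out).dnC act (pubC P K) .ab (encC act out P K .b 0 v)
      = encC act out P K .a P.L v := by
  funext i x
  cases i with
  | X => rfl
  | Y =>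
    change (0 : K) = encC act out P K .a P.L v .Y x
    simp only [encC, Layout.nY, nm_zero, bt_false]
  | F c l =>
    change encC act out P K .b 0 v (.F c l) x = encC act out P K .a P.L v (.F c l) x
    cases c <;> simp [encC, Layout.nX, Layout.nY, Sg.amt, Sg.prog, Layout.run]
  | D i =>
    change pubC P K (.DL i) x = encC act out P K .a P.L v (.D i) x
    simp only [pubC, encC]
    by_cases hx : P.vis P.L = (x, i)
    · rw [if_pos hx, if_pos hx]
    · rw [if_neg hx, if_neg hx]
  | M i =>
    change pubC P K (.Full i) x = encC act out P K .a P.L v (.M i) x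
    simp only [pubC, encC]
    by_cases hx : ∃ s < P.L, P.vis s = (x, i)
    · rw [if_pos hx, if_pos hx]
    · rw [if_neg hx, if_neg hx]

omit [Nontrivial K] in
theorem enc_bc (v : Fin P.n → Bool) (h : P.outp act out true (P.outp act out false v) = v) :
    encC act out P K .b P.L v = encC act out P K .c P.L (P.outp act out false v) := by
  funext i x
  cases i with
  | X => simp only [encC, Layout.nX, h]
  | Y => simp only [encC, Layout.nY]
  | F c l =>
    cases c <;> simp [encC, Layout.nX, Layout.nY, Sg.amt, Sg.prog, h]
  | D i => rfl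
  | M i => rfl

omit [Nontrivial K] in
theorem enc_cb (v : Fin P.n → Bool) (h : P.outp act out false (P.outp act out true v) = v) :
    encC act out P K .c P.L v = encC act out P K .b P.L (P.outp act out true v) := by
  rw [enc_bc K (P.outp act out true v) (by rw [h]), h]

omit [Nontrivial K] in
theorem up_cd (hP : P.OK act out) (v : Fin P.n → Bool) :
    (mach (K := K) (G := G) (J := J) out).upC act (pubC P K) .cd (encC act out P K .c 0 v)
      = encC act out P K .d P.L v := by
  funext i x
  cases i with
  | X =>
    change (0 : K) = encC act out P K .d P.L v .X x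
    simp only [encC, Layout.nX, nm_zero, bt_false]
  | Y => rfl
  | F c l =>
    change encC act out P K .c 0 v (.F c l) x = encC act out P K .d P.L v (.F c l) x
    cases c <;> simp [encC, Layout.nX, Layout.nY, Sg.amt, Sg.prog, Layout.run]
  | D i =>
    change pubC P K (.DL i) x = encC act out P K .d P.L v (.D i) x
    simp only [pubC, encC]
    by_cases hx : P.vis P.L = (x, i)
    · rw [if_pos hx, if_pos hx]
    · rw [if_neg hx, if_neg hx]
  | M i =>
    change pubC P K (.Full i) x = encC act out P K .d P.L v (.M i) x
    simp only [pubC, encC]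
    by_cases hx : ∃ s < P.L, P.vis s = (x, i)
    · rw [if_pos hx, if_pos hx]
    · rw [if_neg hx, if_neg hx]

omit [Nontrivial K] in
theorem dn_cd (hP : P.OK act out) (v : Fin P.n → Bool) :
    (mach (K := K) (G := G) (J := J) out).dnC act (pubC P K) .cd (encC act out P K .d P.L v)
      = encC act out P K .c 0 v := by
  funext i x
  cases i with
  | X =>
    change encC act out P K .d P.L v (.F true out) x = encC act out P K .c 0 v .X x
    simp only [encC, Layout.nX, Layout.nY, Sg.amt, Sg.prog, if_true]
    rw [run_out hP]
  | Y => rfl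
  | F c l =>
    change encC act out P K .d P.L v (.F c l) x = encC act out P K .c 0 v (.F c l) x
    cases c <;> simp [encC, Layout.nX, Layout.nY, Sg.amt, Sg.prog, Layout.run]
  | D i =>
    change pubC P K (.D0 i) x = encC act out P K .c 0 v (.D i) x
    simp only [pubC, encC]
    by_cases hx : P.vis 0 = (x, i)
    · rw [if_pos hx, if_pos hx]
    · rw [if_neg hx, if_neg hx]
  | M i =>
    change (0 : K) = encC act out P K .c 0 v (.M i) x
    simp [encC]

omit [Nontrivial K] in
theorem up_da (v : Fin P.n → Bool) :
    (mach (K := K) (G := G) (J := J) out).upC act (pubC P K) .da (encC act out P K .d 0 v)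
      = encC act out P K .a 0 v := by
  funext i x
  cases i with
  | X => rfl
  | Y =>
    change (0 : K) = encC act out P K .a 0 v .Y x
    simp only [encC, Layout.nY, nm_zero, bt_false]
  | F c l =>
    change encC act out P K .d 0 v (.F c l) x = encC act out P K .a 0 v (.F c l) x
    cases c <;> simp [encC, Sg.amt, Sg.prog, Layout.run]
  | D i => rfl
  | M i => rfl

omit [Nontrivial K] in
theorem dn_da (v : Fin P.n → Bool) :
    (mach (K := K) (G := G) (J := J) out).dnC act (pubC P K) .da (encC act out P K .a 0 v)
      = encC act out P K .d 0 v := by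
  funext i x
  cases i with
  | X =>
    change (0 : K) = encC act out P K .d 0 v .X x
    simp only [encC, Layout.nX, nm_zero, bt_false]
  | Y => rfl
  | F c l =>
    change encC act out P K .a 0 v (.F c l) x = encC act out P K .d 0 v (.F c l) x
    cases c <;> simp [encC, Sg.amt, Sg.prog, Layout.run]
  | D i => rfl
  | M i => rfl


/-! ### the steps -/

theorem up_fill (hP : P.OK act out) (s : Sg) {t : ℕ} (ht : t < P.L) (v : Fin P.n → Bool) :
    (mach (K := K) (G := G) (J := J) out).upC act (pubC P K)
        (.fill s (P.vis t).2 (P.dir t) (P.vis (t + 1)).2 (wr act out P s t t v))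
        (encC act out P K s (if s.inv then t + 1 else t) v)
      = encC act out P K s (if s.inv then t else t + 1) v := by
  by_cases hi : s.inv = true
  · rw [if_pos hi, if_pos hi, ← fdn_enc K hP s ht v]
    funext i
    show ((if s.inv then _ else _ : Rg Λ J → Ex K G Λ J) i).evalC _ _ _ = _
    rw [if_pos hi]
  · rw [if_neg hi, if_neg hi, ← fup_enc K hP s ht v]
    funext i
    show ((if s.inv then _ else _ : Rg Λ J → Ex K G Λ J) i).evalC _ _ _ = _
    rw [if_neg hi]

theorem dn_fill (hP : P.OK act out) (s : Sg) {t : ℕ} (ht : t < P.L) (v : Fin P.n → Bool) :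
    (mach (K := K) (G := G) (J := J) out).dnC act (pubC P K)
        (.fill s (P.vis t).2 (P.dir t) (P.vis (t + 1)).2 (wr act out P s t t v))
        (encC act out P K s (if s.inv then t else t + 1) v)
      = encC act out P K s (if s.inv then t + 1 else t) v := by
  by_cases hi : s.inv = true
  · rw [if_pos hi, if_pos hi, ← fup_enc K hP s ht v]
    funext i
    show ((if s.inv then _ else _ : Rg Λ J → Ex K G Λ J) i).evalC _ _ _ = _
    rw [if_pos hi]
  · rw [if_neg hi, if_neg hi, ← fdn_enc K hP s ht v]
    funext i
    show ((if s.inv then _ else _ : Rg Λ J → Ex K G Λ J) i).evalC _ _ _ = _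
    rw [if_neg hi]

/-- forward step on encoded states -/
theorem step_fwd (hP : P.OK act out) (ρ : Lb G Λ J) {t : ℕ} (ht : t ≤ P.L)
    (v : Fin P.n → Bool) (h : EnC act out P t v ρ) :
    ∃ t' ≤ P.L, ∃ v', BkC act out P t' v' ρ ∧
      (mach (K := K) (G := G) (J := J) out).upC act (pubC P K) ρ
        (encC act out P K ((mach (K := K) (G := G) (J := J) out).src ρ) t v)
          = encC act out P K ((mach (K := K) (G := G) (J := J) out).tgt ρ) t' v' ∧
      (mach (K := K) (G := G) (J := J) out).dnC act (pubC P K) ρ
        (encC act out P K ((mach (K := K) (G := G) (J := J) out).tgt ρ) t' v')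
          = encC act out P K ((mach (K := K) (G := G) (J := J) out).src ρ) t v := by
  cases ρ with
  | fill s j g j' w =>
    by_cases hi : s.inv = true
    · simp only [EnC, if_pos hi] at h
      obtain ⟨i, rfl, rfl, rfl, rfl, hw⟩ := h
      rw [wr_stable hP s (by omega) v] at hw
      subst hw
      have h1 := up_fill K hP s (t := i) (by omega) v
      have h2 := dn_fill K hP s (t := i) (by omega) v
      simp only [if_pos hi] at h1 h2
      refine ⟨i, by omega, v, ?_, h1, h2⟩
      simp only [BkC, if_pos hi]
      exact ⟨by omega, rfl, rfl, rfl, rfl⟩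
    · simp only [EnC, if_neg hi] at h
      obtain ⟨hL, rfl, rfl, rfl, rfl⟩ := h
      have h1 := up_fill K hP s hL v
      have h2 := dn_fill K hP s hL v
      simp only [if_neg hi] at h1 h2
      refine ⟨t + 1, by omega, v, ?_, h1, h2⟩
      simp only [BkC, if_neg hi]
      exact ⟨t, rfl, rfl, rfl, rfl, (wr_stable hP s hL v).symm⟩
  | ab =>
    have e : t = P.L := h
    subst e
    exact ⟨0, Nat.zero_le _, v, rfl, up_ab K hP v, dn_ab K hP v⟩
  | bc =>
    obtain ⟨e, hx⟩ : t = P.L ∧ P.outp act out true (P.outp act out false v) = v := h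
    subst e
    refine ⟨P.L, le_rfl, P.outp act out false v, ⟨rfl, by rw [hx]⟩, ?_, ?_⟩
    · exact enc_bc K v hx
    · exact (enc_bc K v hx).symm
  | cd =>
    have e : t = 0 := h
    subst e
    exact ⟨P.L, le_rfl, v, rfl, up_cd K hP v, dn_cd K hP v⟩
  | da =>
    have e : t = 0 := h
    subst e
    exact ⟨0, Nat.zero_le _, v, rfl, up_da K v, dn_da K v⟩

/-- backward step on encoded states -/
theorem step_bwd (hP : P.OK act out) (ρ : Lb G Λ J) {t : ℕ} (ht : t ≤ P.L)
    (v : Fin P.n → Bool) (h : BkC act out P t v ρ) :
    ∃ t' ≤ P.L, ∃ v', EnC act out P t' v' ρ ∧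
      (mach (K := K) (G := G) (J := J) out).dnC act (pubC P K) ρ
        (encC act out P K ((mach (K := K) (G := G) (J := J) out).tgt ρ) t v)
          = encC act out P K ((mach (K := K) (G := G) (J := J) out).src ρ) t' v' ∧
      (mach (K := K) (G := G) (J := J) out).upC act (pubC P K) ρ
        (encC act out P K ((mach (K := K) (G := G) (J := J) out).src ρ) t' v')
          = encC act out P K ((mach (K := K) (G := G) (J := J) out).tgt ρ) t v := by
  cases ρ with
  | fill s j g j' w =>
    by_cases hi : s.inv = true
    · simp only [BkC, if_pos hi] at h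
      obtain ⟨hL, rfl, rfl, rfl, rfl⟩ := h
      have h1 := up_fill K hP s hL v
      have h2 := dn_fill K hP s hL v
      simp only [if_pos hi] at h1 h2
      refine ⟨t + 1, by omega, v, ?_, h2, h1⟩
      simp only [EnC, if_pos hi]
      exact ⟨t, rfl, rfl, rfl, rfl, (wr_stable hP s hL v).symm⟩
    · simp only [BkC, if_neg hi] at h
      obtain ⟨i, rfl, rfl, rfl, rfl, hw⟩ := h
      rw [wr_stable hP s (by omega) v] at hw
      subst hw
      have h1 := up_fill K hP s (t := i) (by omega) v
      have h2 := dn_fill K hP s (t := i) (by omega) v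
      simp only [if_neg hi] at h1 h2
      refine ⟨i, by omega, v, ?_, h2, h1⟩
      simp only [EnC, if_neg hi]
      exact ⟨by omega, rfl, rfl, rfl, rfl⟩
  | ab =>
    have e : t = 0 := h
    subst e
    exact ⟨P.L, le_rfl, v, rfl, dn_ab K hP v, up_ab K hP v⟩
  | bc =>
    obtain ⟨e, hx⟩ : t = P.L ∧ P.outp act out false (P.outp act out true v) = v := h
    subst e
    refine ⟨P.L, le_rfl, P.outp act out true v, ⟨rfl, by rw [hx]⟩, ?_, ?_⟩
    · exact enc_cb K v hx
    · exact (enc_cb K v hx).symm
  | cd =>
    have e : t = P.L := h
    subst e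
    exact ⟨0, Nat.zero_le _, v, rfl, dn_cd K hP v, up_cd K hP v⟩
  | da =>
    have e : t = 0 := h
    subst e
    exact ⟨0, Nat.zero_le _, v, rfl, dn_da K v, up_da K v⟩

omit [Nontrivial K] in
theorem enC_uniq (t : ℕ) (v : Fin P.n → Bool) (hL : t ≤ P.L) (ρ ρ' : Lb G Λ J)
    (hs : (mach (K := K) (G := G) (J := J) out).src ρ
      = (mach (K := K) (G := G) (J := J) out).src ρ')
    (h : EnC act out P t v ρ) (h' : EnC act out P t v ρ') : ρ = ρ' := by
  cases ρ with
  | fill s j g j' w =>
    cases ρ' with
    | fill s2 j2 g2 j2' w2 =>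
      have e : s = s2 := hs
      subst e
      by_cases hi : s.inv = true
      · simp only [EnC, if_pos hi] at h h'
        obtain ⟨i, h0, rfl, rfl, rfl, rfl⟩ := h
        obtain ⟨i2, h02, rfl, rfl, rfl, rfl⟩ := h'
        have : i = i2 := by omega
        subst this
        rfl
      · simp only [EnC, if_neg hi] at h h'
        obtain ⟨_, rfl, rfl, rfl, rfl⟩ := h
        obtain ⟨_, rfl, rfl, rfl, rfl⟩ := h'
        rfl
    | ab =>
      have e : s = .a := hs
      subst e
      have h1 : t < P.L := h.1
      have h2 : t = P.L := h'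
      omega
    | bc =>
      have e : s = .b := hs
      subst e
      have h1 : t < P.L := h.1
      have h2 : t = P.L := h'.1
      omega
    | cd =>
      have e : s = .c := hs
      subst e
      obtain ⟨i, hi, _⟩ := (h : ∃ i, i + 1 = t ∧ _)
      have h2 : t = 0 := h'
      omega
    | da =>
      have e : s = .d := hs
      subst e
      obtain ⟨i, hi, _⟩ := (h : ∃ i, i + 1 = t ∧ _)
      have h2 : t = 0 := h'
      omega
  | ab =>
    cases ρ' with
    | fill s j g j' w =>
      have e : .a = s := hs
      subst e
      have h1 : t < P.L := h'.1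
      have h2 : t = P.L := h
      omega
    | ab => rfl
    | _ => exact absurd hs (by simp [mach])
  | bc =>
    cases ρ' with
    | fill s j g j' w =>
      have e : .b = s := hs
      subst e
      have h1 : t < P.L := h'.1
      have h2 : t = P.L := h.1
      omega
    | bc => rfl
    | _ => exact absurd hs (by simp [mach])
  | cd =>
    cases ρ' with
    | fill s j g j' w =>
      have e : .c = s := hs
      subst e
      obtain ⟨i, hi, _⟩ := (h' : ∃ i, i + 1 = t ∧ _)
      have h2 : t = 0 := h
      omega
    | cd => rfl
    | _ => exact absurd hs (by simp [mach])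
  | da =>
    cases ρ' with
    | fill s j g j' w =>
      have e : .d = s := hs
      subst e
      obtain ⟨i, hi, _⟩ := (h' : ∃ i, i + 1 = t ∧ _)
      have h2 : t = 0 := h
      omega
    | da => rfl
    | _ => exact absurd hs (by simp [mach])

omit [Nontrivial K] in
theorem bkC_uniq (t : ℕ) (v : Fin P.n → Bool) (hL : t ≤ P.L) (ρ ρ' : Lb G Λ J)
    (hs : (mach (K := K) (G := G) (J := J) out).tgt ρ
      = (mach (K := K) (G := G) (J := J) out).tgt ρ')
    (h : BkC act out P t v ρ) (h' : BkC act out P t v ρ') : ρ = ρ' := by
  cases ρ with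
  | fill s j g j' w =>
    cases ρ' with
    | fill s2 j2 g2 j2' w2 =>
      have e : s = s2 := hs
      subst e
      by_cases hi : s.inv = true
      · simp only [BkC, if_pos hi] at h h'
        obtain ⟨_, rfl, rfl, rfl, rfl⟩ := h
        obtain ⟨_, rfl, rfl, rfl, rfl⟩ := h'
        rfl
      · simp only [BkC, if_neg hi] at h h'
        obtain ⟨i, h0, rfl, rfl, rfl, rfl⟩ := h
        obtain ⟨i2, h02, rfl, rfl, rfl, rfl⟩ := h'
        have : i = i2 := by omega
        subst this
        rfl
    | ab =>
      have e : s = .b := hs
      subst e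
      obtain ⟨i, hi, _⟩ := (h : ∃ i, i + 1 = t ∧ _)
      have h2 : t = 0 := h'
      omega
    | bc =>
      have e : s = .c := hs
      subst e
      have h1 : t < P.L := h.1
      have h2 : t = P.L := h'.1
      omega
    | cd =>
      have e : s = .d := hs
      subst e
      have h1 : t < P.L := h.1
      have h2 : t = P.L := h'
      omega
    | da =>
      have e : s = .a := hs
      subst e
      obtain ⟨i, hi, _⟩ := (h : ∃ i, i + 1 = t ∧ _)
      have h2 : t = 0 := h'
      omega
  | ab =>
    cases ρ' with
    | fill s j g j' w =>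
      have e : .b = s := hs
      subst e
      obtain ⟨i, hi, _⟩ := (h' : ∃ i, i + 1 = t ∧ _)
      have h2 : t = 0 := h
      omega
    | ab => rfl
    | _ => exact absurd hs (by simp [mach])
  | bc =>
    cases ρ' with
    | fill s j g j' w =>
      have e : .c = s := hs
      subst e
      have h1 : t < P.L := h'.1
      have h2 : t = P.L := h.1
      omega
    | bc => rfl
    | _ => exact absurd hs (by simp [mach])
  | cd =>
    cases ρ' with
    | fill s j g j' w =>
      have e : .d = s := hs
      subst e
      have h1 : t < P.L := h'.1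
      have h2 : t = P.L := h
      omega
    | cd => rfl
    | _ => exact absurd hs (by simp [mach])
  | da =>
    cases ρ' with
    | fill s j g j' w =>
      have e : .a = s := hs
      subst e
      obtain ⟨i, hi, _⟩ := (h' : ∃ i, i + 1 = t ∧ _)
      have h2 : t = 0 := h
      omega
    | da => rfl
    | _ => exact absurd hs (by simp [mach])

/-- encoded states determine the time -/
theorem enc_time (hP : P.OK act out) (s s' : Sg) {t t' : ℕ} (ht : t ≤ P.L) (ht' : t' ≤ P.L)
    (v v' : Fin P.n → Bool) (h : encC act out P K s t v = encC act out P K s' t' v') :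
    t = t' := by
  have := congrFun (congrFun h (.D (P.vis t).2)) (P.vis t).1
  simp only [encC] at this
  rw [if_pos trivial] at this
  by_contra hne
  rw [if_neg] at this
  · exact one_ne_zero this
  · intro e
    exact hne (vis_inj hP ht ht' e.symm)

/-- the machine axioms from the list of legal states -/
theorem ok_of_legal (hP : P.OK act out)
    (hl : ∀ (s : Sg) (r : Rg Λ J → Γ → K),
      (mach (K := K) (G := G) (J := J) out).Legal act (pubC P K) s r ↔
        ∃ t ≤ P.L, ∃ v, r = encC act out P K s t v) :
    (mach (K := K) (G := G) (J := J) out).OK act (pubC P K) where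
  fwd := by
    intro ρ r h1 h2
    obtain ⟨t, ht, v, rfl⟩ := (hl _ r).1 h1
    rw [en_iff K hP ρ ht v] at h2
    obtain ⟨t', ht', v', hb, e1, e2⟩ := step_fwd K hP ρ ht v h2
    refine ⟨(hl _ _).2 ⟨t', ht', v', e1⟩, ?_, ?_⟩
    · rw [e1]
      exact (bk_iff K hP ρ ht' v').2 hb
    · rw [e1]
      exact e2
  bwd := by
    intro ρ r h1 h2
    obtain ⟨t, ht, v, rfl⟩ := (hl _ r).1 h1
    rw [bk_iff K hP ρ ht v] at h2
    obtain ⟨t', ht', v', hb, e1, e2⟩ := step_bwd K hP ρ ht v h2
    refine ⟨(hl _ _).2 ⟨t', ht', v', e1⟩, ?_, ?_⟩
    · rw [e1]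
      exact (en_iff K hP ρ ht' v').2 hb
    · rw [e1]
      exact e2
  detF := by
    intro ρ ρ' r hs h1 h2 h3
    obtain ⟨t, ht, v, rfl⟩ := (hl _ r).1 h1
    have h4 := (en_iff K hP ρ ht v).1 h2
    rw [hs] at h3
    have h5 := (en_iff K hP ρ' ht v).1 h3
    exact enC_uniq K t v ht ρ ρ' hs h4 h5
  detB := by
    intro ρ ρ' r hs h1 h2 h3
    obtain ⟨t, ht, v, rfl⟩ := (hl _ r).1 h1
    have h4 := (bk_iff K hP ρ ht v).1 h2
    rw [hs] at h3
    have h5 := (bk_iff K hP ρ' ht v).1 h3
    exact bkC_uniq K t v ht ρ ρ' hs h4 h5
  moves := by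
    intro ρ r h1 h2
    obtain ⟨t, ht, v, rfl⟩ := (hl _ r).1 h1
    rw [en_iff K hP ρ ht v] at h2
    cases ρ with
    | fill s j g j' w =>
      right
      by_cases hi : s.inv = true
      · simp only [EnC, if_pos hi] at h2
        obtain ⟨i, rfl, rfl, rfl, rfl, hw⟩ := h2
        rw [wr_stable hP s (by omega) v] at hw
        subst hw
        have h3 := up_fill K hP s (t := i) (by omega) v
        simp only [if_pos hi] at h3
        intro e
        have e2 := h3.symm.trans e
        have := enc_time K hP s s (by omega) ht v v e2
        omega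
      · simp only [EnC, if_neg hi] at h2
        obtain ⟨hL, rfl, rfl, rfl, rfl⟩ := h2
        have h3 := up_fill K hP s hL v
        simp only [if_neg hi] at h3
        intro e
        have e2 := h3.symm.trans e
        have := enc_time K hP s s (by omega) ht v v e2
        omega
    | ab => left; simp [mach]
    | bc => left; simp [mach]
    | cd => left; simp [mach]
    | da => left; simp [mach]

end

section final
variable {Γ G Λ : Type} {J : ℕ} {act : G → Equiv.Perm Γ} {out : Λ} {P : Layout Γ G Λ J}
  {K : Type} [CommRing K] [DecidableEq Γ] [DecidableEq Λ]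

/-- THEOREM C1 from the list of legal states -/
theorem mach_ok_of (p : ℕ) [CharP K p] [Fact p.Prime] [IsDomain K]
    (h : legal_iff_stmt (G := G) (J := J) act out P K p) :
    mach_ok_stmt (G := G) (J := J) act out P K p :=
  fun h2 hP => ok_of_legal K hP (h h2 hP)

/-- the ends of the machine -/
theorem blocked_of (p : ℕ) [CharP K p] [Fact p.Prime] [IsDomain K] :
    blocked_stmt (G := G) (J := J) act out P K p := by
  intro h2 hP s t v ht
  constructor
  · constructor
    · intro h
      have key : ∀ ρ : Lb G Λ J, (mach (K := K) (G := G) (J := J) out).src ρ = s →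
          ¬ EnC act out P t v ρ := by
        intro ρ hs he
        exact h ⟨ρ, hs, by rw [← hs]; exact (en_iff K hP ρ ht v).2 he⟩
      cases s with
      | a =>
        exfalso
        rcases Nat.lt_or_ge t P.L with hL | hL
        · exact key (.fill .a (P.vis t).2 (P.dir t) (P.vis (t + 1)).2 (wr act out P .a t t v)) rfl
            ⟨hL, rfl, rfl, rfl, rfl⟩
        · exact key .ab rfl (show t = P.L by omega)
      | b =>
        rcases Nat.lt_or_ge t P.L with hL | hL
        · exact (key (.fill .b (P.vis t).2 (P.dir t) (P.vis (t + 1)).2 (wr act out P .b t t v))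
            rfl ⟨hL, rfl, rfl, rfl, rfl⟩).elim
        · have e : t = P.L := by omega
          exact ⟨rfl, e, fun hx => key .bc rfl ⟨e, hx⟩⟩
      | c =>
        exfalso
        cases t with
        | zero => exact key .cd rfl rfl
        | succ i =>
          exact key (.fill .c (P.vis i).2 (P.dir i) (P.vis (i + 1)).2 (wr act out P .c i (i+1) v))
            rfl ⟨i, rfl, rfl, rfl, rfl, rfl⟩
      | d =>
        exfalso
        cases t with
        | zero => exact key .da rfl rfl
        | succ i =>
          exact key (.fill .d (P.vis i).2 (P.dir i) (P.vis (i + 1)).2 (wr act out P .d i (i+1) v))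
            rfl ⟨i, rfl, rfl, rfl, rfl, rfl⟩
    · rintro ⟨rfl, rfl, hx⟩ ⟨ρ, hs, he⟩
      rw [← hs] at he
      have he2 := (en_iff K hP ρ ht v).1 he
      cases ρ with
      | fill s j g j' w =>
        have e : s = .b := hs
        subst e
        have h1 : P.L < P.L := he2.1
        omega
      | bc => exact hx he2.2
      | _ => exact absurd hs (by simp [mach])
  · constructor
    · intro h
      have key : ∀ ρ : Lb G Λ J, (mach (K := K) (G := G) (J := J) out).tgt ρ = s →
          ¬ BkC act out P t v ρ := by
        intro ρ hs he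
        exact h ⟨ρ, hs, by rw [← hs]; exact (bk_iff K hP ρ ht v).2 he⟩
      cases s with
      | a =>
        exfalso
        cases t with
        | zero => exact key .da rfl rfl
        | succ i =>
          exact key (.fill .a (P.vis i).2 (P.dir i) (P.vis (i + 1)).2 (wr act out P .a i (i+1) v))
            rfl ⟨i, rfl, rfl, rfl, rfl, rfl⟩
      | b =>
        exfalso
        cases t with
        | zero => exact key .ab rfl rfl
        | succ i =>
          exact key (.fill .b (P.vis i).2 (P.dir i) (P.vis (i + 1)).2 (wr act out P .b i (i+1) v))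
            rfl ⟨i, rfl, rfl, rfl, rfl, rfl⟩
      | c =>
        rcases Nat.lt_or_ge t P.L with hL | hL
        · exact (key (.fill .c (P.vis t).2 (P.dir t) (P.vis (t + 1)).2 (wr act out P .c t t v))
            rfl ⟨hL, rfl, rfl, rfl, rfl⟩).elim
        · have e : t = P.L := by omega
          exact ⟨rfl, e, fun hx => key .bc rfl ⟨e, hx⟩⟩
      | d =>
        exfalso
        rcases Nat.lt_or_ge t P.L with hL | hL
        · exact key (.fill .d (P.vis t).2 (P.dir t) (P.vis (t + 1)).2 (wr act out P .d t t v)) rfl
            ⟨hL, rfl, rfl, rfl, rfl⟩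
        · exact key .cd rfl (show t = P.L by omega)
    · rintro ⟨rfl, rfl, hx⟩ ⟨ρ, hs, he⟩
      rw [← hs] at he
      have he2 := (bk_iff K hP ρ ht v).1 he
      cases ρ with
      | fill s j g j' w =>
        have e : s = .c := hs
        subst e
        have h1 : P.L < P.L := he2.1
        omega
      | bc => exact hx he2.2
      | _ => exact absurd hs (by simp [mach])

end final

end Crest.Agent.R289.Step193
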