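import Mathlib
import Crest.Agent.R289.Compile_827
import Crest.Agent.R289.Word2_508

/-!
# Row 289, block C, leaf C_STEP: step rules of the compiled machine at word level (helper250)

`m : Compile827.LM X Z R` = labelled content machine; `rx : X → U → AX`, `rz : Z → U → AZ` =
(injective) realisations of content words and certificates as words on the units `U`;
`clk t` = clock word; `cw c` = word of a configuration over the alphabet `Sy R AC AX AZ`.

`Loc` = local formulas of the machine, `Loc.OK` = they compute the machine; `SN`, `SM` = the two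
step rules with sampled flags (`Word508.SRule`); `wN`, `wM` = the exact maps on words.  Proved: all
step hypotheses of `Word508.asm_Ax`, the dead ends at word level, and the assembled theorem
`step_Ax`.
-/

set_option autoImplicit false

namespace Crest.Agent.R289.Step250

open Finset Crest.Agent.R289.DefD Crest.Agent.R289.Word508 Crest.Agent.R289.Compile827

/-! ### the alphabet -/

/-- label of a unit: letter, clock symbol, content and certificate symbols of the two banks -/
@[ext] structure Sy (R AC AX AZ : Type) where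
  l : Letter R
  t : AC
  x1 : AX
  z1 : AZ
  x2 : AX
  z2 : AZ

/-- letters are finite -/
def Letter.equivOpt (R : Type) : Letter R ≃ Option (Option (R ⊕ R)) where
  toFun
    | .boot => none
    | .rest => some none
    | .fw ρ => some (some (Sum.inl ρ))
    | .bw ρ => some (some (Sum.inr ρ))
  invFun
    | none => .boot
    | some none => .rest
    | some (some (Sum.inl ρ)) => .fw ρ
    | some (some (Sum.inr ρ)) => .bw ρ
  left_inv x := by cases x <;> rfl
  right_inv x := by rcases x with _ | _ | _ | _ <;> rfl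

instance {R : Type} [Finite R] : Finite (Letter R) :=
  Finite.of_equiv _ (Letter.equivOpt R).symm

instance {R : Type} : Nonempty (Letter R) := ⟨.boot⟩

/-- labels as tuples -/
def Sy.equiv (R AC AX AZ : Type) : Sy R AC AX AZ ≃ Letter R × AC × AX × AZ × AX × AZ where
  toFun a := (a.l, a.t, a.x1, a.z1, a.x2, a.z2)
  invFun a := ⟨a.1, a.2.1, a.2.2.1, a.2.2.2.1, a.2.2.2.2.1, a.2.2.2.2.2⟩
  left_inv _ := rfl
  right_inv _ := rfl

instance {R AC AX AZ : Type} [Finite R] [Finite AC] [Finite AX] [Finite AZ] :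
    Finite (Sy R AC AX AZ) := Finite.of_equiv _ (Sy.equiv R AC AX AZ).symm

instance {R AC AX AZ : Type} [Nonempty AC] [Nonempty AX] [Nonempty AZ] :
    Nonempty (Sy R AC AX AZ) :=
  ⟨⟨.boot, Classical.arbitrary _, Classical.arbitrary _, Classical.arbitrary _,
    Classical.arbitrary _, Classical.arbitrary _⟩⟩

variable {U ι P AX AZ AC R TV X Z : Type}

/-- word of a configuration -/
def cw (rx : X → U → AX) (rz : Z → U → AZ) (clk : ℕ → U → AC) (c : Conf X Z R) :
    U → Sy R AC AX AZ :=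
  fun u => ⟨c.l, clk c.t u, rx c.x1 u, rz c.z1 u, rx c.x2 u, rz c.z2 u⟩

/-! ### local formulas -/

/-- local formulas: `TV` = what a unit knows about the clock value -/
structure Loc (ι P AX AZ AC R TV : Type) where
  i0 : ι
  tread : (ι → AC) → P → TV
  isZ : TV → Prop
  isL : TV → Prop
  cz : P → AC
  cL : P → AC
  cs : TV → P → AC
  cp : TV → P → AC
  push : TV → P → (ι → AX) → (ι → AZ) → AZ
  pop : TV → P → (ι → AX) → (ι → AZ) → AZ
  xz : P → AX
  zz : P → AZ
  x0 : P → AX
  up : R → P → (ι → AX) → AX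
  dn : R → P → (ι → AX) → AX
  eup : R → P → (ι → AX) → AZ
  edn : R → P → (ι → AX) → AZ
  enV : R → P → (ι → AX) → (ι → AZ) → Prop
  bkV : R → P → (ι → AX) → (ι → AZ) → Prop

/-- the local formulas compute the machine `m` (on exact words only); `T t u` = clock value `t` as
known at `u`; `th` = density of a violated flag -/
structure Loc.OK [Fintype U] (F : Loc ι P AX AZ AC R TV) (m : LM X Z R) (rx : X → U → AX)
    (rz : Z → U → AZ) (clk : ℕ → U → AC) (nb : ι → U → U) (pub : U → P) (T : ℕ → U → TV)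
    (th : ℝ) : Prop where
  i0 : ∀ u, nb F.i0 u = u
  rx_inj : Function.Injective rx
  rz_inj : Function.Injective rz
  clk_inj : ∀ s t, s ≤ m.L → t ≤ m.L → clk s = clk t → s = t
  tread : ∀ t, t ≤ m.L → ∀ u, F.tread (fun i => clk t (nb i u)) (pub u) = T t u
  isZ : ∀ t, t ≤ m.L → ∀ u, (F.isZ (T t u) ↔ t = 0)
  isL : ∀ t, t ≤ m.L → ∀ u, (F.isL (T t u) ↔ t = m.L)
  cz : ∀ u, F.cz (pub u) = clk 0 u
  cL : ∀ u, F.cL (pub u) = clk m.L u
  cs : ∀ t, t < m.L → ∀ u, F.cs (T t u) (pub u) = clk (t + 1) u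
  cp : ∀ t, t < m.L → ∀ u, F.cp (T (t + 1) u) (pub u) = clk t u
  push : ∀ t, t < m.L → ∀ x, m.IsL x → ∀ u,
    F.push (T t u) (pub u) (fun i => rx x (nb i u)) (fun i => rz (m.cert x t) (nb i u)) =
      rz (m.cert x (t + 1)) u
  pop : ∀ t, t < m.L → ∀ x, m.IsL x → ∀ u,
    F.pop (T (t + 1) u) (pub u) (fun i => rx x (nb i u))
      (fun i => rz (m.cert x (t + 1)) (nb i u)) = rz (m.cert x t) u
  xz : ∀ u, F.xz (pub u) = rx m.xz u
  zz : ∀ u, F.zz (pub u) = rz m.zz u
  x0 : ∀ u, F.x0 (pub u) = rx m.x0 u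
  up : ∀ ρ x, m.IsL x → m.en ρ x → ∀ u,
    F.up ρ (pub u) (fun i => rx x (nb i u)) = rx (m.up ρ x) u
  dn : ∀ ρ x, m.IsL x → m.bk ρ x → ∀ u,
    F.dn ρ (pub u) (fun i => rx x (nb i u)) = rx (m.dn ρ x) u
  eup : ∀ ρ x, m.IsL x → m.en ρ x → ∀ u,
    F.eup ρ (pub u) (fun i => rx x (nb i u)) = rz (m.cert (m.up ρ x) 0) u
  edn : ∀ ρ x, m.IsL x → m.bk ρ x → ∀ u,
    F.edn ρ (pub u) (fun i => rx x (nb i u)) = rz (m.cert (m.dn ρ x) 0) u
  en_none : ∀ ρ x, m.IsL x → m.En ρ x (m.cert x m.L) → ∀ u,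
    ¬ F.enV ρ (pub u) (fun i => rx x (nb i u)) (fun i => rz (m.cert x m.L) (nb i u))
  en_dense : ∀ ρ x, m.IsL x → ¬ m.En ρ x (m.cert x m.L) →
    th ≤ frac fun u =>
      F.enV ρ (pub u) (fun i => rx x (nb i u)) (fun i => rz (m.cert x m.L) (nb i u))
  bk_none : ∀ ρ x, m.IsL x → m.Bk ρ x (m.cert x m.L) → ∀ u,
    ¬ F.bkV ρ (pub u) (fun i => rx x (nb i u)) (fun i => rz (m.cert x m.L) (nb i u))
  bk_dense : ∀ ρ x, m.IsL x → ¬ m.Bk ρ x (m.cert x m.L) →
    th ≤ frac fun u =>
      F.bkV ρ (pub u) (fun i => rx x (nb i u)) (fun i => rz (m.cert x m.L) (nb i u))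
  x0_dense : ∀ x, m.IsL x → x ≠ m.x0 → th ≤ frac fun u => rx x u ≠ rx m.x0 u

/-! ### the two step rules -/

namespace Loc
variable (F : Loc ι P AX AZ AC R TV)

open Classical in
/-- forward rule; flag `ρ` = "some claim of the guard of `ρ` is violated" -/
noncomputable def SN : SRule ι (Sy R AC AX AZ) P R (fun _ => Unit) where
  val ρ x p := if (x F.i0).l = .rest ∧ F.enV ρ p (fun i => (x i).x1) (fun i => (x i).z1)
    then some () else none
  F x p r :=
    let a := x F.i0
    let tv := F.tread (fun i => (x i).t) p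
    match a.l with
    | .boot => if F.isL tv then ⟨.rest, F.cz p, a.x2, a.z2, F.xz p, F.zz p⟩
        else ⟨.boot, F.cs tv p, a.x1, a.z1, a.x2,
          F.push tv p (fun i => (x i).x2) (fun i => (x i).z2)⟩
    | .rest => if h : ∃ ρ, r ρ = none then
        ⟨.fw h.choose, F.cz p, a.x1, a.z1, F.up h.choose p (fun i => (x i).x1),
          F.eup h.choose p (fun i => (x i).x1)⟩ else a
    | .fw ρ => if F.isL tv then ⟨.bw ρ, a.t, a.x1, a.z1, a.x2, a.z2⟩
        else ⟨.fw ρ, F.cs tv p, a.x1, a.z1, a.x2,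
          F.push tv p (fun i => (x i).x2) (fun i => (x i).z2)⟩
    | .bw ρ => if F.isZ tv then ⟨.rest, F.cz p, a.x2, a.z2, F.xz p, F.zz p⟩
        else ⟨.bw ρ, F.cp tv p, a.x1, F.pop tv p (fun i => (x i).x1) (fun i => (x i).z1),
          a.x2, a.z2⟩

open Classical in
/-- backward rule; flag `some ρ` = "some claim of the backward guard of `ρ` is violated",
flag `none` = "the content word differs from the start word" -/
noncomputable def SM : SRule ι (Sy R AC AX AZ) P (Option R) (fun _ => Unit) where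
  val j x p := match j with
    | some ρ => if (x F.i0).l = .rest ∧ F.bkV ρ p (fun i => (x i).x1) (fun i => (x i).z1)
        then some () else none
    | none => if (x F.i0).l = .rest ∧ (x F.i0).x1 ≠ F.x0 p then some () else none
  F x p r :=
    let a := x F.i0
    let tv := F.tread (fun i => (x i).t) p
    match a.l with
    | .boot => if F.isZ tv then a
        else ⟨.boot, F.cp tv p, a.x1, a.z1, a.x2,
          F.pop tv p (fun i => (x i).x2) (fun i => (x i).z2)⟩
    | .rest => if h : ∃ ρ, r (some ρ) = none then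
        ⟨.bw h.choose, F.cz p, F.dn h.choose p (fun i => (x i).x1),
          F.edn h.choose p (fun i => (x i).x1), a.x1, a.z1⟩
        else if r none = none then ⟨.boot, F.cL p, F.xz p, F.zz p, a.x1, a.z1⟩ else a
    | .fw ρ => if F.isZ tv then ⟨.rest, F.cz p, a.x1, a.z1, F.xz p, F.zz p⟩
        else ⟨.fw ρ, F.cp tv p, a.x1, a.z1, a.x2,
          F.pop tv p (fun i => (x i).x2) (fun i => (x i).z2)⟩
    | .bw ρ => if F.isL tv then ⟨.fw ρ, a.t, a.x1, a.z1, a.x2, a.z2⟩
        else ⟨.bw ρ, F.cs tv p, a.x1, F.push tv p (fun i => (x i).x1) (fun i => (x i).z1),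
          a.x2, a.z2⟩

open Classical in
theorem SN_F_rest (x : ι → Sy R AC AX AZ) (p : P) (r : R → Option Unit)
    (h : (x F.i0).l = .rest) : F.SN.F x p r =
      if h : ∃ ρ, r ρ = none then
        ⟨.fw h.choose, F.cz p, (x F.i0).x1, (x F.i0).z1, F.up h.choose p (fun i => (x i).x1),
          F.eup h.choose p (fun i => (x i).x1)⟩ else x F.i0 := by
  simp only [SN, h]

open Classical in
theorem SM_F_rest (x : ι → Sy R AC AX AZ) (p : P) (r : Option R → Option Unit)
    (h : (x F.i0).l = .rest) : F.SM.F x p r =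
      if h : ∃ ρ, r (some ρ) = none then
        ⟨.bw h.choose, F.cz p, F.dn h.choose p (fun i => (x i).x1),
          F.edn h.choose p (fun i => (x i).x1), (x F.i0).x1, (x F.i0).z1⟩
        else if r none = none then
          ⟨.boot, F.cL p, F.xz p, F.zz p, (x F.i0).x1, (x F.i0).z1⟩ else x F.i0 := by
  simp only [SM, h]

end Loc

/-! ### the exact maps on words -/

section words
variable (m : LM X Z R) (rx : X → U → AX) (rz : Z → U → AZ) (clk : ℕ → U → AC)

/-- legal words -/
def LW : Set (U → Sy R AC AX AZ) := {w | ∃ c, m.Legal c ∧ w = cw rx rz clk c}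

open Classical in
/-- transport of a map on configurations -/
noncomputable def wmap (f : Conf X Z R → Conf X Z R)
    (w : U → Sy R AC AX AZ) : U → Sy R AC AX AZ :=
  if h : ∃ c, m.Legal c ∧ w = cw rx rz clk c then cw rx rz clk (f h.choose) else w

/-- forward map on words -/
noncomputable def wN : (U → Sy R AC AX AZ) → U → Sy R AC AX AZ := wmap m rx rz clk m.stepN

/-- backward map on words -/
noncomputable def wM : (U → Sy R AC AX AZ) → U → Sy R AC AX AZ := wmap m rx rz clk m.stepM

variable {m rx rz clk}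

theorem legal_t {c : Conf X Z R} (hc : m.Legal c) : c.t ≤ m.L := by
  obtain ⟨a, rfl⟩ := (m.legal_iff c).1 hc
  cases a with
  | boot t ht => exact ht
  | rest x hx => exact Nat.zero_le _
  | fw ρ x hx h t ht => exact ht
  | bw ρ x hx h t ht => exact ht

/-- injectivity of the realisations -/
structure Inj (m : LM X Z R) (rx : X → U → AX) (rz : Z → U → AZ) (clk : ℕ → U → AC) : Prop where
  x : Function.Injective rx
  z : Function.Injective rz
  t : ∀ s t, s ≤ m.L → t ≤ m.L → clk s = clk t → s = t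

theorem cw_inj [Nonempty U] (hi : Inj m rx rz clk) {c c' : Conf X Z R} (hc : m.Legal c)
    (hc' : m.Legal c') (h : cw rx rz clk c = cw rx rz clk c') : c = c' := by
  have hu := fun u => congrFun h u
  simp only [cw, Sy.mk.injEq] at hu
  obtain ⟨u0⟩ := ‹Nonempty U›
  refine Conf.ext (hu u0).1 ?_ (hi.x (funext fun u => (hu u).2.2.1))
    (hi.z (funext fun u => (hu u).2.2.2.1)) (hi.x (funext fun u => (hu u).2.2.2.2.1))
    (hi.z (funext fun u => (hu u).2.2.2.2.2))
  exact hi.t _ _ (legal_t hc) (legal_t hc') (funext fun u => (hu u).2.1)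

theorem wmap_cw [Nonempty U] (hi : Inj m rx rz clk) (f : Conf X Z R → Conf X Z R)
    {c : Conf X Z R} (hc : m.Legal c) :
    wmap m rx rz clk f (cw rx rz clk c) = cw rx rz clk (f c) := by
  have h : ∃ c', m.Legal c' ∧ cw rx rz clk c = cw rx rz clk c' := ⟨c, hc, rfl⟩
  unfold wmap
  rw [dif_pos h]
  have := cw_inj hi hc h.choose_spec.1 h.choose_spec.2
  rw [← this]

variable [Nonempty U] (hi : Inj m rx rz clk)
include hi

theorem wN_cw {c : Conf X Z R} (hc : m.Legal c) :
    wN m rx rz clk (cw rx rz clk c) = cw rx rz clk (m.stepN c) := wmap_cw hi _ hc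

theorem wM_cw {c : Conf X Z R} (hc : m.Legal c) :
    wM m rx rz clk (cw rx rz clk c) = cw rx rz clk (m.stepM c) := wmap_cw hi _ hc

omit hi [Nonempty U] in
theorem w0_mem : cw rx rz clk m.c0 ∈ LW m rx rz clk := ⟨m.c0, m.legal_c0, rfl⟩

theorem wN_mem {w : U → Sy R AC AX AZ} (hw : w ∈ LW m rx rz clk) :
    wN m rx rz clk w ∈ LW m rx rz clk := by
  obtain ⟨c, hc, rfl⟩ := hw
  rw [wN_cw hi hc]
  exact ⟨_, m.legal_stepN hc, rfl⟩

theorem wM_mem {w : U → Sy R AC AX AZ} (hw : w ∈ LW m rx rz clk) :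
    wM m rx rz clk w ∈ LW m rx rz clk := by
  obtain ⟨c, hc, rfl⟩ := hw
  rw [wM_cw hi hc]
  exact ⟨_, m.legal_stepM hc, rfl⟩

theorem wMN {w : U → Sy R AC AX AZ} (hw : w ∈ LW m rx rz clk) (h : wN m rx rz clk w ≠ w) :
    wM m rx rz clk (wN m rx rz clk w) = w := by
  obtain ⟨c, hc, rfl⟩ := hw
  rw [wN_cw hi hc] at h ⊢
  rw [wM_cw hi (m.legal_stepN hc), m.stepM_stepN hc (fun h' => h (by rw [h']))]

theorem wNM {w : U → Sy R AC AX AZ} (hw : w ∈ LW m rx rz clk) (h : wM m rx rz clk w ≠ w) :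
    wN m rx rz clk (wM m rx rz clk w) = w := by
  obtain ⟨c, hc, rfl⟩ := hw
  rw [wM_cw hi hc] at h ⊢
  rw [wN_cw hi (m.legal_stepM hc), m.stepN_stepM hc (fun h' => h (by rw [h']))]

theorem wM_w0 : wM m rx rz clk (cw rx rz clk m.c0) = cw rx rz clk m.c0 := by
  rw [wM_cw hi m.legal_c0, m.stepM_c0]

theorem wN_w0 : wN m rx rz clk (cw rx rz clk m.c0) ≠ cw rx rz clk m.c0 := by
  rw [wN_cw hi m.legal_c0]
  intro h
  exact m.stepN_c0 (cw_inj hi (m.legal_stepN m.legal_c0) m.legal_c0 h)

/-- **forward dead ends at word level** -/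
theorem wN_eq_self {w : U → Sy R AC AX AZ} (hw : w ∈ LW m rx rz clk) :
    wN m rx rz clk w = w ↔
      ∃ x, ∃ hx : m.IsL x, w = cw rx rz clk (m.conf (.rest x hx)) ∧ ∀ ρ, ¬ m.en ρ x := by
  obtain ⟨c, hc, rfl⟩ := hw
  rw [wN_cw hi hc]
  constructor
  · intro h
    obtain ⟨x, hx, h1, h2⟩ := (m.stepN_eq_self hc).1 (cw_inj hi (m.legal_stepN hc) hc h)
    exact ⟨x, hx, by rw [h1], h2⟩
  · rintro ⟨x, hx, h1, h2⟩
    have h3 := cw_inj hi hc (m.legal_conf _) h1
    rw [(m.stepN_eq_self hc).2 ⟨x, hx, h3, h2⟩]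

/-- **backward dead ends at word level** -/
theorem wM_eq_self {w : U → Sy R AC AX AZ} (hw : w ∈ LW m rx rz clk) :
    wM m rx rz clk w = w ↔ w = cw rx rz clk m.c0 ∨ ∃ x, ∃ hx : m.IsL x,
      w = cw rx rz clk (m.conf (.rest x hx)) ∧ (∀ ρ, ¬ m.bk ρ x) ∧ x ≠ m.x0 := by
  obtain ⟨c, hc, rfl⟩ := hw
  rw [wM_cw hi hc]
  constructor
  · intro h
    rcases (m.stepM_eq_self hc).1 (cw_inj hi (m.legal_stepM hc) hc h) with h1 | ⟨x, hx, h1, h2⟩
    · exact Or.inl (by rw [h1])
    · exact Or.inr ⟨x, hx, by rw [h1], h2⟩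
  · rintro (h1 | ⟨x, hx, h1, h2⟩)
    · rw [(m.stepM_eq_self hc).2 (Or.inl (cw_inj hi hc m.legal_c0 h1))]
    · rw [(m.stepM_eq_self hc).2 (Or.inr ⟨x, hx, cw_inj hi hc (m.legal_conf _) h1, h2⟩)]

end words

/-! ### the rules compute the maps -/

section rules
variable [Fintype U] {F : Loc ι P AX AZ AC R TV} {m : LM X Z R} {rx : X → U → AX}
  {rz : Z → U → AZ} {clk : ℕ → U → AC} {nb : ι → U → U} {pub : U → P} {T : ℕ → U → TV} {th : ℝ}

theorem Loc.OK.inj (hF : F.OK m rx rz clk nb pub T th) : Inj m rx rz clk :=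
  ⟨hF.rx_inj, hF.rz_inj, hF.clk_inj⟩

theorem frac_pos_exists {p : U → Prop} (h : 0 < frac p) : ∃ u, p u := by
  by_contra hcon
  push Not at hcon
  rw [frac_eq_zero hcon] at h
  exact lt_irrefl _ h

/-- flag of the forward rule on a legal word -/
theorem gvalN_rest (hF : F.OK m rx rz clk nb pub T th) (hth : 0 < th) {x : X} (hx : m.IsL x)
    (ρ : R) : F.SN.gval nb pub (cw rx rz clk (m.conf (.rest x hx))) ρ = none ↔
      m.En ρ x (m.cert x m.L) := by
  classical
  unfold SRule.gval
  constructor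
  · intro h
    by_contra hne
    obtain ⟨u, hu⟩ := frac_pos_exists (hth.trans_le (hF.en_dense ρ x hx hne))
    have h1 : pick (fun u => F.SN.val ρ
        (fun i => cw rx rz clk (m.conf (.rest x hx)) (nb i u)) (pub u)) = some () := by
      refine pick_eq_some (fun _ _ _ => rfl) ⟨u, ?_⟩
      have : F.SN.val ρ (fun i => cw rx rz clk (m.conf (.rest x hx)) (nb i u)) (pub u)
          = some () := if_pos ⟨rfl, hu⟩
      rw [this]; simp
    rw [h1] at h
    cases h
  · intro h
    refine pick_eq_none fun u => ?_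
    exact if_neg fun hu => hF.en_none ρ x hx h u hu.2

theorem gvalM_rest (hF : F.OK m rx rz clk nb pub T th) (hth : 0 < th) {x : X} (hx : m.IsL x)
    (ρ : R) : F.SM.gval nb pub (cw rx rz clk (m.conf (.rest x hx))) (some ρ) = none ↔
      m.Bk ρ x (m.cert x m.L) := by
  classical
  unfold SRule.gval
  constructor
  · intro h
    by_contra hne
    obtain ⟨u, hu⟩ := frac_pos_exists (hth.trans_le (hF.bk_dense ρ x hx hne))
    have h1 : pick (fun u => F.SM.val (some ρ)
        (fun i => cw rx rz clk (m.conf (.rest x hx)) (nb i u)) (pub u)) = some () := by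
      refine pick_eq_some (fun _ _ _ => rfl) ⟨u, ?_⟩
      have : F.SM.val (some ρ) (fun i => cw rx rz clk (m.conf (.rest x hx)) (nb i u)) (pub u)
          = some () := if_pos ⟨rfl, hu⟩
      rw [this]; simp
    rw [h1] at h
    cases h
  · intro h
    refine pick_eq_none fun u => ?_
    exact if_neg fun hu => hF.bk_none ρ x hx h u hu.2

open Classical in
theorem valM_x0 (hF : F.OK m rx rz clk nb pub T th) {x : X} (hx : m.IsL x) (u : U) :
    F.SM.val none (fun i => cw rx rz clk (m.conf (.rest x hx)) (nb i u)) (pub u) =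
      if rx x u ≠ rx m.x0 u then some () else none := by
  by_cases h : rx x u = rx m.x0 u
  · rw [if_neg (not_not.mpr h)]
    refine if_neg fun hu => hu.2 ?_
    show rx x (nb F.i0 u) = F.x0 (pub u)
    rw [hF.i0, hF.x0, h]
  · rw [if_pos h]
    refine if_pos ⟨rfl, fun h' => h ?_⟩
    have h2 : rx x (nb F.i0 u) = F.x0 (pub u) := h'
    rwa [hF.i0, hF.x0] at h2

theorem gvalM_x0 (hF : F.OK m rx rz clk nb pub T th) {x : X} (hx : m.IsL x) :
    F.SM.gval nb pub (cw rx rz clk (m.conf (.rest x hx))) none = none ↔ x = m.x0 := by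
  classical
  unfold SRule.gval
  have hval := fun u => valM_x0 hF hx u
  constructor
  · intro h
    by_contra hne
    obtain ⟨u, hu⟩ : ∃ u, rx x u ≠ rx m.x0 u := by
      by_contra hcon
      push Not at hcon
      exact hne (hF.rx_inj (funext hcon))
    have h1 : pick (fun u => F.SM.val none
        (fun i => cw rx rz clk (m.conf (.rest x hx)) (nb i u)) (pub u)) = some () := by
      refine pick_eq_some (fun _ _ _ => rfl) ⟨u, ?_⟩
      rw [hval, if_pos hu]; simp
    rw [h1] at h
    cases h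
  · intro h
    refine pick_eq_none fun u => ?_
    rw [hval, if_neg]
    rw [h]; simp

/-- **the forward rule computes the forward map** -/
theorem wN_eq [Nonempty U] (hF : F.OK m rx rz clk nb pub T th) (hth : 0 < th)
    {w : U → Sy R AC AX AZ} (hw : w ∈ LW m rx rz clk) :
    wN m rx rz clk w = F.SN.glob nb pub w := by
  classical
  obtain ⟨c, hc, rfl⟩ := hw
  rw [wN_cw hF.inj hc]
  obtain ⟨a, rfl⟩ := (m.legal_iff c).1 hc
  funext u
  cases a with
  | boot t ht =>
    have htr := hF.tread t ht u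
    have hz := hF.isL t ht u
    rcases lt_or_eq_of_le ht with h | h
    · have h1 : ¬ F.isL (T t u) := by rw [hz]; omega
      rw [m.stepN_boot_lt h]
      simp only [SRule.glob, Loc.SN, cw, LM.conf, hF.i0, htr, h1, if_false, hF.cs t h u,
        hF.push t h _ m.isL0]
    · have h1 : F.isL (T t u) := by rw [hz]; exact h
      subst h
      rw [m.stepN_boot_L]
      simp only [SRule.glob, Loc.SN, cw, LM.conf, hF.i0, htr, h1, if_true, hF.cz, hF.xz, hF.zz]
  | rest x hx =>
    show _ = F.SN.F (fun i => cw rx rz clk (m.conf (.rest x hx)) (nb i u)) (pub u)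
      (F.SN.gval nb pub (cw rx rz clk (m.conf (.rest x hx))))
    rw [F.SN_F_rest _ _ _ rfl]
    by_cases h : ∃ ρ, m.en ρ x
    · obtain ⟨ρ, hρ⟩ := h
      have hex : ∃ ρ, F.SN.gval nb pub (cw rx rz clk (m.conf (.rest x hx))) ρ = none :=
        ⟨ρ, (gvalN_rest hF hth hx ρ).2 ((m.En_iff ρ x hx).2 hρ)⟩
      have hch : hex.choose = ρ := m.en_uniq _ _ x hx
        ((m.En_iff _ x hx).1 ((gvalN_rest hF hth hx _).1 hex.choose_spec)) hρ
      rw [dif_pos hex, hch, m.stepN_rest hx hρ]
      show (⟨.fw ρ, clk 0 u, rx x u, rz (m.cert x m.L) u, rx (m.up ρ x) u,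
          rz (m.cert (m.up ρ x) 0) u⟩ : Sy R AC AX AZ) =
        ⟨.fw ρ, F.cz (pub u), rx x (nb F.i0 u), rz (m.cert x m.L) (nb F.i0 u),
          F.up ρ (pub u) (fun i => rx x (nb i u)), F.eup ρ (pub u) (fun i => rx x (nb i u))⟩
      rw [hF.i0, hF.cz, hF.up ρ x hx hρ, hF.eup ρ x hx hρ]
    · have hex : ¬ ∃ ρ, F.SN.gval nb pub (cw rx rz clk (m.conf (.rest x hx))) ρ = none := by
        rintro ⟨ρ, hρ⟩
        exact h ⟨ρ, (m.En_iff ρ x hx).1 ((gvalN_rest hF hth hx ρ).1 hρ)⟩
      push Not at h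
      rw [dif_neg hex, m.stepN_rest_none hx h]
      show _ = cw rx rz clk (m.conf (.rest x hx)) (nb F.i0 u)
      rw [hF.i0]
  | fw ρ x hx h t ht =>
    have htr := hF.tread t ht u
    have hz := hF.isL t ht u
    rcases lt_or_eq_of_le ht with h' | h'
    · have h1 : ¬ F.isL (T t u) := by rw [hz]; omega
      rw [m.stepN_fw_lt hx h h']
      simp only [SRule.glob, Loc.SN, cw, LM.conf, hF.i0, htr, h1, if_false, hF.cs t h' u,
        hF.push t h' _ (m.fwd ρ x hx h).1]
    · have h1 : F.isL (T t u) := by rw [hz]; exact h'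
      subst h'
      have h3 := (m.fwd ρ x hx h).2.2
      rw [m.stepN_fw_L hx h]
      simp only [SRule.glob, Loc.SN, cw, LM.conf, hF.i0, htr, h1, if_true, h3]
  | bw ρ x hx h t ht =>
    have htr := hF.tread t ht u
    have hz := hF.isZ t ht u
    cases t with
    | zero =>
      have h1 : F.isZ (T 0 u) := by rw [hz]
      rw [m.stepN_bw_zero hx h]
      simp only [SRule.glob, Loc.SN, cw, LM.conf, hF.i0, htr, h1, if_true, hF.cz, hF.xz, hF.zz]
    | succ t =>
      have h1 : ¬ F.isZ (T (t + 1) u) := by rw [hz]; omega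
      rw [m.stepN_bw_pos hx h ht]
      simp only [SRule.glob, Loc.SN, cw, LM.conf, hF.i0, htr, h1, if_false,
        hF.cp t (by omega) u, hF.pop t (by omega) _ (m.bwd ρ x hx h).1]

/-- **the backward rule computes the backward map** -/
theorem wM_eq [Nonempty U] (hF : F.OK m rx rz clk nb pub T th) (hth : 0 < th)
    {w : U → Sy R AC AX AZ} (hw : w ∈ LW m rx rz clk) :
    wM m rx rz clk w = F.SM.glob nb pub w := by
  classical
  obtain ⟨c, hc, rfl⟩ := hw
  rw [wM_cw hF.inj hc]
  obtain ⟨a, rfl⟩ := (m.legal_iff c).1 hc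
  funext u
  cases a with
  | boot t ht =>
    have htr := hF.tread t ht u
    have hz := hF.isZ t ht u
    cases t with
    | zero =>
      have h1 : F.isZ (T 0 u) := by rw [hz]
      rw [m.stepM_boot_zero]
      simp only [SRule.glob, Loc.SM, cw, LM.conf, hF.i0, htr, h1, if_true]
    | succ t =>
      have h1 : ¬ F.isZ (T (t + 1) u) := by rw [hz]; omega
      rw [m.stepM_boot_pos ht]
      simp only [SRule.glob, Loc.SM, cw, LM.conf, hF.i0, htr, h1, if_false,
        hF.cp t (by omega) u, hF.pop t (by omega) _ m.isL0]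
  | rest x hx =>
    show _ = F.SM.F (fun i => cw rx rz clk (m.conf (.rest x hx)) (nb i u)) (pub u)
      (F.SM.gval nb pub (cw rx rz clk (m.conf (.rest x hx))))
    rw [F.SM_F_rest _ _ _ rfl]
    by_cases h : ∃ ρ, m.bk ρ x
    · obtain ⟨ρ, hρ⟩ := h
      have hex : ∃ ρ, F.SM.gval nb pub (cw rx rz clk (m.conf (.rest x hx))) (some ρ) = none :=
        ⟨ρ, (gvalM_rest hF hth hx ρ).2 ((m.Bk_iff ρ x hx).2 hρ)⟩
      have hch : hex.choose = ρ := m.bk_uniq _ _ x hx
        ((m.Bk_iff _ x hx).1 ((gvalM_rest hF hth hx _).1 hex.choose_spec)) hρ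
      rw [dif_pos hex, hch, m.stepM_rest hx hρ]
      show (⟨.bw ρ, clk 0 u, rx (m.dn ρ x) u, rz (m.cert (m.dn ρ x) 0) u, rx x u,
          rz (m.cert x m.L) u⟩ : Sy R AC AX AZ) =
        ⟨.bw ρ, F.cz (pub u), F.dn ρ (pub u) (fun i => rx x (nb i u)),
          F.edn ρ (pub u) (fun i => rx x (nb i u)), rx x (nb F.i0 u),
          rz (m.cert x m.L) (nb F.i0 u)⟩
      rw [hF.i0, hF.cz, hF.dn ρ x hx hρ, hF.edn ρ x hx hρ]
    · have hex : ¬ ∃ ρ, F.SM.gval nb pub (cw rx rz clk (m.conf (.rest x hx))) (some ρ) =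
          none := by
        rintro ⟨ρ, hρ⟩
        exact h ⟨ρ, (m.Bk_iff ρ x hx).1 ((gvalM_rest hF hth hx ρ).1 hρ)⟩
      push Not at h
      rw [dif_neg hex]
      by_cases h0 : x = m.x0
      · subst h0
        rw [if_pos ((gvalM_x0 hF hx).2 rfl), m.stepM_rest_x0]
        show (⟨.boot, clk m.L u, rx m.xz u, rz m.zz u, rx m.x0 u, rz (m.cert m.x0 m.L) u⟩ :
          Sy R AC AX AZ) = ⟨.boot, F.cL (pub u), F.xz (pub u), F.zz (pub u),
            rx m.x0 (nb F.i0 u), rz (m.cert m.x0 m.L) (nb F.i0 u)⟩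
        rw [hF.i0, hF.cL, hF.xz, hF.zz]
      · rw [if_neg (fun h' => h0 ((gvalM_x0 hF hx).1 h')), m.stepM_rest_none hx h h0]
        show _ = cw rx rz clk (m.conf (.rest x hx)) (nb F.i0 u)
        rw [hF.i0]
  | fw ρ x hx h t ht =>
    have htr := hF.tread t ht u
    have hz := hF.isZ t ht u
    cases t with
    | zero =>
      have h1 : F.isZ (T 0 u) := by rw [hz]
      rw [m.stepM_fw_zero hx h]
      simp only [SRule.glob, Loc.SM, cw, LM.conf, hF.i0, htr, h1, if_true, hF.cz, hF.xz, hF.zz]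
    | succ t =>
      have h1 : ¬ F.isZ (T (t + 1) u) := by rw [hz]; omega
      rw [m.stepM_fw_pos hx h ht]
      simp only [SRule.glob, Loc.SM, cw, LM.conf, hF.i0, htr, h1, if_false,
        hF.cp t (by omega) u, hF.pop t (by omega) _ (m.fwd ρ x hx h).1]
  | bw ρ x hx h t ht =>
    have htr := hF.tread t ht u
    have hz := hF.isL t ht u
    rcases lt_or_eq_of_le ht with h' | h'
    · have h1 : ¬ F.isL (T t u) := by rw [hz]; omega
      rw [m.stepM_bw_lt hx h h']
      simp only [SRule.glob, Loc.SM, cw, LM.conf, hF.i0, htr, h1, if_false, hF.cs t h' u,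
        hF.push t h' _ (m.bwd ρ x hx h).1]
    · have h1 : F.isL (T t u) := by rw [hz]; exact h'
      subst h'
      have h3 := (m.bwd ρ x hx h).2.2
      rw [m.stepM_bw_L hx h]
      simp only [SRule.glob, Loc.SM, cw, LM.conf, hF.i0, htr, h1, if_true, h3]

/-- **coherence of the forward flags** -/
theorem cohN (hF : F.OK m rx rz clk nb pub T th) {w : U → Sy R AC AX AZ}
    (hw : w ∈ LW m rx rz clk) (ρ : R) :
    Coh (fun u => F.SN.val ρ (fun i => w (nb i u)) (pub u)) th := by
  classical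
  refine ⟨fun _ _ _ _ _ _ => rfl, ?_⟩
  obtain ⟨c, hc, rfl⟩ := hw
  obtain ⟨a, rfl⟩ := (m.legal_iff c).1 hc
  cases a with
  | boot t ht =>
    exact Or.inl fun u => if_neg fun hu => by
      have := hu.1
      simp [cw, LM.conf] at this
  | rest x hx =>
    by_cases h : m.En ρ x (m.cert x m.L)
    · exact Or.inl fun u => if_neg fun hu => hF.en_none ρ x hx h u hu.2
    · refine Or.inr ((hF.en_dense ρ x hx h).trans (frac_mono fun u hu => ?_))
      have : F.SN.val ρ (fun i => cw rx rz clk (m.conf (.rest x hx)) (nb i u)) (pub u)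
          = some () := if_pos ⟨rfl, hu⟩
      rw [this]; simp
  | fw ρ' x hx h t ht =>
    exact Or.inl fun u => if_neg fun hu => by
      have := hu.1
      simp [cw, LM.conf] at this
  | bw ρ' x hx h t ht =>
    exact Or.inl fun u => if_neg fun hu => by
      have := hu.1
      simp [cw, LM.conf] at this

/-- **coherence of the backward flags** -/
theorem cohM (hF : F.OK m rx rz clk nb pub T th) {w : U → Sy R AC AX AZ}
    (hw : w ∈ LW m rx rz clk) (j : Option R) :
    Coh (fun u => F.SM.val j (fun i => w (nb i u)) (pub u)) th := by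
  classical
  refine ⟨fun _ _ _ _ _ _ => rfl, ?_⟩
  obtain ⟨c, hc, rfl⟩ := hw
  obtain ⟨a, rfl⟩ := (m.legal_iff c).1 hc
  cases a with
  | boot t ht =>
    refine Or.inl fun u => ?_
    cases j <;> exact if_neg fun hu => by
      have := hu.1
      simp [cw, LM.conf] at this
  | rest x hx =>
    cases j with
    | none =>
      have hval := fun u => valM_x0 hF hx u
      by_cases h : x = m.x0
      · refine Or.inl fun u => ?_
        rw [hval, if_neg]
        rw [h]; simp
      · refine Or.inr ((hF.x0_dense x hx h).trans (frac_mono fun u hu => ?_))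
        rw [hval, if_pos hu]; simp
    | some ρ =>
      by_cases h : m.Bk ρ x (m.cert x m.L)
      · exact Or.inl fun u => if_neg fun hu => hF.bk_none ρ x hx h u hu.2
      · refine Or.inr ((hF.bk_dense ρ x hx h).trans (frac_mono fun u hu => ?_))
        have : F.SM.val (some ρ) (fun i => cw rx rz clk (m.conf (.rest x hx)) (nb i u)) (pub u)
            = some () := if_pos ⟨rfl, hu⟩
        rw [this]; simp
  | fw ρ' x hx h t ht =>
    refine Or.inl fun u => ?_
    cases j <;> exact if_neg fun hu => by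
      have := hu.1
      simp [cw, LM.conf] at this
  | bw ρ' x hx h t ht =>
    refine Or.inl fun u => ?_
    cases j <;> exact if_neg fun hu => by
      have := hu.1
      simp [cw, LM.conf] at this

end rules

/-! ### relabelling a code -/

/-- the rules over another name of the alphabet -/
def relabel {ι A B P : Type} (e : A ≃ B) (R : CRules ι A P) : CRules ι B P where
  viol x p := R.viol (fun i => e.symm (x i)) p
  corr x p := e (R.corr (fun i => e.symm (x i)) p)

/-- transport of a local code along a bijection of alphabets -/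
theorem relabel_CAx {ι U A B P : Type} [Fintype U] (e : A ≃ B) {R : CRules ι A P}
    {nb : ι → U → U} {pub : U → P} {C : Set (U → A)} {m zs r0 d0 c θ : ℝ}
    (h : CAx R nb pub C m zs r0 d0 c θ) :
    CAx (relabel e R) nb pub {w | (fun u => e.symm (w u)) ∈ C} m zs r0 d0 c θ := by
  refine ⟨h.mult, ?_, ?_, ?_, ?_⟩
  · intro v hv w hw hne
    have hne' : (fun u => e.symm (v u)) ≠ fun u => e.symm (w u) := fun h' =>
      hne (funext fun u => e.symm.injective (congrFun h' u))
    refine (h.sep _ hv _ hw hne').trans (frac_mono ?_)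
    intro u hu heq
    exact hu (congrArg e.symm heq)
  · intro X hX
    obtain ⟨w, hw, hle⟩ := h.sound (fun u => e.symm (X u)) hX
    have h1 : (fun u => e.symm (e (w u))) = w := funext fun u => e.symm_apply_apply _
    refine ⟨fun u => e (w u), ?_, le_trans (frac_mono ?_) hle⟩
    · show (fun u => e.symm (e (w u))) ∈ C
      rw [h1]; exact hw
    · intro u hu heq
      apply hu
      have h2 : e.symm (X u) = w u := heq
      show X u = e (w u)
      rw [← h2, Equiv.apply_symm_apply]
  · intro w hw u hu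
    exact h.compl _ hw u hu
  · intro w hw E hE
    refine (frac_mono ?_).trans (h.corr _ hw E hE)
    rintro u ⟨x, hx, hne⟩
    refine ⟨fun i => e.symm (x i), fun i hi => congrArg e.symm (hx i hi), fun heq => hne ?_⟩
    have h2 : R.corr (fun i => e.symm (x i)) (pub u) = e.symm (w u) := heq
    show e (R.corr (fun i => e.symm (x i)) (pub u)) = w u
    rw [h2, Equiv.apply_symm_apply]

/-! ### the assembled theorem -/

section assembled
variable [Fintype U] [Nonempty U] [Fintype ι] [Fintype R] [Nonempty P]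
  [Nonempty AC] [Nonempty AX] [Nonempty AZ]
  {F : Loc ι P AX AZ AC R TV} {m : LM X Z R} {rx : X → U → AX} {rz : Z → U → AZ}
  {clk : ℕ → U → AC} {nb : ι → U → U} {pub : U → P} {T : ℕ → U → TV} {th : ℝ}

/-- **STEP THEOREM**: a local code on the labels whose words with the relations `rel` are the words
of the legal configurations, and local formulas `F`, give a machine in the sense of `DefD` -/
theorem step_Ax {Jr : Type} {d k l r : ℕ}
    (Rc : CRules ι (Sy R AC AX AZ) P) (rel : Jr → (ι → Sy R AC AX AZ) → P → Prop)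
    (C : Set (U → Sy R AC AX AZ)) (hF : F.OK m rx rz clk nb pub T th)
    (hW : restrictC nb pub C rel = LW m rx rz clk)
    (sm : Fin d → U → U) {μ ms zs r0 d0 c θ g e γ : ℝ}
    (h : CAx Rc nb pub C μ zs r0 d0 c θ) (hm : 1 ≤ μ) (hms : NbMult sm ms) (hms1 : 1 ≤ ms)
    (hc : 0 ≤ c) (hg : 0 < g)
    (gap : ∀ w ∈ C, (¬ ∀ j u, rel j (fun i => w (nb i u)) (pub u)) →
      ∃ j, g ≤ frac fun u => ¬ rel j (fun i => w (nb i u)) (pub u))
    (hs : Sampler d sm e γ) (he0 : 0 ≤ e) (he : e < th) (hγ : 0 ≤ γ) (hθ : θ ≤ 1 / 4)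
    (eq : (ι ⊕ Fin d × ι) ≃ Fin k) (enc : Sy R AC AX AZ → (Fin l → Bool))
    (henc : Function.Injective enc)
    (encP : P × (Fin d → P) → (Fin r → Bool)) (hencP : Function.Injective encP)
    (K : MConst) (hzs : K.zs ≤ min zs (g / (2 * (1 + Fintype.card ι * μ * c))))
    (hr0 : K.r0 ≤ r0) (hd0 : K.d0 ≤ d0) (hcK : c + 1 ≤ K.c)
    (hcm : ((d : ℝ) + 1) * Fintype.card ι * (μ * ms) ≤ K.c)
    (hγN : ((Fintype.card R : ℝ) + 1) * γ ≤ K.γ) :
    (((asmRules d Rc rel F.SN F.SM).toL eq enc encP).data (fun i => snb nb sm (eq.symm i))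
      (fun u => encP (spub pub sm u))
      {X | ∃ w ∈ LW m rx rz clk, X = fun u => enc (w u)} (fun u => enc (cw rx rz clk m.c0 u))
      (liftMap enc (wN m rx rz clk)) (liftMap enc (wM m rx rz clk))).Ax K := by
  have hth : 0 < th := lt_of_le_of_lt he0 he
  have hi := hF.inj
  have := asm_Ax Rc rel F.SN F.SM nb pub C sm h hm hms hms1 hc hg gap hs he hγ
    (cw rx rz clk m.c0) (wN m rx rz clk) (wM m rx rz clk)
    (by rw [hW]; exact w0_mem)
    (fun w hw => by rw [hW] at hw ⊢; exact wN_mem hi hw)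
    (fun w hw => by rw [hW] at hw ⊢; exact wM_mem hi hw)
    (fun w hw hne => by rw [hW] at hw; exact wMN hi hw hne)
    (fun w hw hne => by rw [hW] at hw; exact wNM hi hw hne)
    (wM_w0 hi) (wN_w0 hi)
    (fun w hw => by rw [hW] at hw; exact wN_eq hF hth hw)
    (fun w hw => by rw [hW] at hw; exact wM_eq hF hth hw)
    (fun w hw j => by rw [hW] at hw; exact cohN hF hw j)
    (fun w hw j => by rw [hW] at hw; exact cohM hF hw j)
    F.i0 hF.i0 hθ eq enc henc encP hencP K hzs hr0 hd0 hcK hcm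
    (le_trans (by nlinarith) hγN)
    (le_trans (by rw [Fintype.card_option]; push_cast; exact le_rfl) hγN)
  rw [hW] at this
  exact this

end assembled

end Crest.Agent.R289.Step250
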