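import Crest.Agent.R289.Avg_277

/-!
Row 289, A.BASE, assembly (helper464): `T0 φ = w0 * ∑ conj w0 φ` for the Hecke operator over 605's
digits, from (A) bijectivity and (B) the torus average of 898, `avg`/`proj_sum` of 277.
-/

set_option autoImplicit false
set_option linter.unusedSectionVars false

namespace Crest.Agent.R289.T0Eq464

open Finset Crest.Agent.R289.Hecke622 Crest.Agent.R289.HeckeTwo622 Crest.Agent.R289.Avg277

section abstract_part

variable {K : Type*} [Field K] [Fintype K] [DecidableEq K]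

theorem pow_cancel {q : ℕ} (hq : 2 ≤ q) (hK : Fintype.card K = q ^ 2) {c : K} (hc : c ≠ 0) :
    c ^ (2 * (q - 1)) * (c ^ q) ^ (q - 1) = c ^ (q - 1) := by
  have h1 : c ^ (q ^ 2 - 1) = 1 := by rw [← hK]; exact FiniteField.pow_card_sub_one_eq_one c hc
  have h2 : 2 * (q - 1) + q * (q - 1) = (q - 1) + (q ^ 2 - 1) := by
    obtain ⟨r, rfl⟩ : ∃ r, q = r + 1 := ⟨q - 1, by omega⟩
    have : (r + 1) ^ 2 = r * (r + 2) + 1 := by ring
    rw [this]
    simp only [Nat.add_sub_cancel]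
    ring
  rw [← pow_mul, ← pow_add, h2, pow_add, h1, mul_one]

/-- abstract assembly -/
theorem sum_eq {q : ℕ} (hq : 2 ≤ q) (hK : Fintype.card K = q ^ 2) {Λ : Type*} [Fintype Λ]
    (A B : Λ → K × K) (hbij : Function.Bijective fun a => (A a, B a)) (Nx Ny : Λ → K)
    (wl : K × K → K × K → K)
    (hB : ∀ (u r : K × K) (a : K → K → Λ), (∀ c d, A (a c d) = c • u) →
      (∀ c d, B (a c d) = d • r) → ∃ g g' : K → K → K, (∀ c d, Nx (a c d) = c ^ q * g c d) ∧
        (∀ c d, Ny (a c d) = d ^ q * g' c d) ∧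
        ∑ c : K, ∑ d : K, (c * d * (g c d * g' c d)) ^ (q - 1) = wl u r)
    (F : K × K → K × K → K)
    (hF : ∀ (c d : K) (l m : K × K), c ≠ 0 → d ≠ 0 →
      F (c • l) (d • m) = c ^ (2 * (q - 1)) * d ^ (2 * (q - 1)) * F l m) :
    ∑ a, (Nx a * Ny a) ^ (q - 1) * F (A a) (B a) = ∑ u, ∑ r, F u r * wl u r := by
  classical
  let e : Λ ≃ (K × K) × (K × K) := Equiv.ofBijective _ hbij
  have he : ∀ a, e a = (A a, B a) := fun a => rfl
  have hA : ∀ p, A (e.symm p) = p.1 := fun p => by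
    have := congrArg Prod.fst (he (e.symm p))
    rw [Equiv.apply_symm_apply] at this
    exact this.symm
  have hB' : ∀ p, B (e.symm p) = p.2 := fun p => by
    have := congrArg Prod.snd (he (e.symm p))
    rw [Equiv.apply_symm_apply] at this
    exact this.symm
  have h1 : ∑ a, (Nx a * Ny a) ^ (q - 1) * F (A a) (B a)
      = ∑ l : K × K, ∑ m : K × K, (Nx (e.symm (l, m)) * Ny (e.symm (l, m))) ^ (q - 1) * F l m := by
    rw [← Fintype.sum_prod_type' (f := fun l m : K × K =>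
      (Nx (e.symm (l, m)) * Ny (e.symm (l, m))) ^ (q - 1) * F l m)]
    rw [← e.sum_comp]
    refine Finset.sum_congr rfl fun a _ => ?_
    rw [Prod.mk.eta, Equiv.symm_apply_apply, he]
  rw [h1, avg hK (fun l m => (Nx (e.symm (l, m)) * Ny (e.symm (l, m))) ^ (q - 1)) F _ hF]
  refine Finset.sum_congr rfl fun u _ => Finset.sum_congr rfl fun r _ => ?_
  congr 1
  obtain ⟨g, g', hg, hg', hs⟩ := hB u r (fun c d => e.symm (c • u, d • r))
    (fun c d => hA _) (fun c d => hB' _)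
  rw [← hs]
  refine Finset.sum_congr rfl fun c _ => Finset.sum_congr rfl fun d _ => ?_
  have hq1 : q - 1 ≠ 0 := by omega
  by_cases hc : c = 0
  · rw [if_pos (Or.inl hc), hc]; simp [hq1]
  by_cases hd : d = 0
  · rw [if_pos (Or.inr hd), hd]; simp [hq1]
  rw [if_neg (by tauto)]
  have e1 : Nx (e.symm (c • u, d • r)) = c ^ q * g c d := hg c d
  have e2 : Ny (e.symm (c • u, d • r)) = d ^ q * g' c d := hg' c d
  show c ^ (2 * (q - 1)) * d ^ (2 * (q - 1)) *
    (Nx (e.symm (c • u, d • r)) * Ny (e.symm (c • u, d • r))) ^ (q - 1) = _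
  rw [e1, e2]
  calc c ^ (2 * (q - 1)) * d ^ (2 * (q - 1)) * (c ^ q * g c d * (d ^ q * g' c d)) ^ (q - 1)
      = (c ^ (2 * (q - 1)) * (c ^ q) ^ (q - 1)) * (d ^ (2 * (q - 1)) * (d ^ q) ^ (q - 1))
        * (g c d * g' c d) ^ (q - 1) := by
        rw [mul_pow, mul_pow, mul_pow, mul_pow]; ring
    _ = _ := by
        rw [pow_cancel hq hK hc, pow_cancel hq hK hd, mul_pow (c * d), mul_pow c d,
          mul_pow (g c d)]

theorem w0_smul (q : ℕ) (x y : K) (c d : K) (l m : K × K) :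
    w0 q x y (c • l) (d • m) = c ^ (2 * (q - 1)) * d ^ (2 * (q - 1)) * w0 q x y l m := by
  unfold w0
  simp only [Prod.smul_fst, Prod.smul_snd, smul_eq_mul]
  rw [show (c * l.1 * (d * m.2) - c * l.2 * (d * m.1)) * (x * (c * l.2) * (d * m.1)
    - y * (c * l.1) * (d * m.2)) = (c ^ 2 * d ^ 2) * ((l.1 * m.2 - l.2 * m.1) * (x * l.2 * m.1
    - y * l.1 * m.2)) by ring, mul_pow, mul_pow, ← pow_mul, ← pow_mul]

theorem inv_pow_eq {q : ℕ} (hq : 2 ≤ q) (hK : Fintype.card K = q ^ 2) (n : K) :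
    (n⁻¹) ^ (q - 1) = (n ^ q) ^ (q - 1) := by
  have hq1 : q - 1 ≠ 0 := by omega
  rcases eq_or_ne n 0 with rfl | hn
  · rw [inv_zero, zero_pow hq1, zero_pow (by omega : q ≠ 0), zero_pow hq1]
  · have h1 : n ^ (q ^ 2 - 1) = 1 := by rw [← hK]; exact FiniteField.pow_card_sub_one_eq_one n hn
    have h2 : q ^ 2 - 1 = q * (q - 1) + (q - 1) := by
      obtain ⟨r, rfl⟩ : ∃ r, q = r + 1 := ⟨q - 1, by omega⟩
      have : (r + 1) ^ 2 = (r + 1) * r + r + 1 := by ring
      rw [this]; simp only [Nat.add_sub_cancel]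
    rw [h2, pow_add] at h1
    rw [inv_pow, ← pow_mul]
    exact inv_eq_of_mul_eq_one_left h1

end abstract_part

end Crest.Agent.R289.T0Eq464
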