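import Crest.Agent.R289.TP9_946
import Crest.Agent.R289.Dist_101

/-!
Row 289, block B, TP9 part 2 (helper946): minimum distance, bundles, views of the tests,
left translations and products for the two-place code `Ch.code D`.
-/

set_option autoImplicit false
set_option linter.unusedSectionVars false

open Finset Polynomial
open scoped Classical

namespace Crest.Agent.R289.TP9

open TwoPlace595 PS459

/-- the expansion inequality for arbitrary functions -/
theorem Gap.all {I P : Type} [Group P] [Fintype I] [Fintype P] {u : I → P} {Λ : ℝ} (hΛ : 0 ≤ Λ)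
    (h : Gap u Λ) (g : P → ℝ) :
    ∑ v, (∑ z, g (v * u z)) ^ 2 ≤
      (Fintype.card I : ℝ) ^ 2 * ((∑ v, g v) ^ 2 / Fintype.card P) + Λ * ∑ v, g v ^ 2 := by
  obtain ⟨N, hN⟩ : ∃ N : ℝ, N = (Fintype.card P : ℝ) := ⟨_, rfl⟩
  obtain ⟨n, hn⟩ : ∃ n : ℝ, n = (Fintype.card I : ℝ) := ⟨_, rfl⟩
  obtain ⟨s, hs⟩ : ∃ s : ℝ, s = ∑ v, g v := ⟨_, rfl⟩
  have hN0 : 0 < N := by rw [hN]; exact_mod_cast Fintype.card_pos
  obtain ⟨x, hx⟩ : ∃ x : P → ℝ, x = fun v => g v - s / N := ⟨_, rfl⟩
  have hx0 : ∑ v, x v = 0 := by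
    rw [hx, sum_sub_distrib, ← hs, sum_const, card_univ, nsmul_eq_mul, ← hN]
    field_simp
    ring
  have h1 := h x hx0
  have hA : ∀ v, ∑ z, g (v * u z) = (∑ z, x (v * u z)) + n * (s / N) := by
    intro v
    rw [hx]
    simp only [sum_sub_distrib, sum_const, card_univ, nsmul_eq_mul]
    rw [← hn]; ring
  have hS : ∑ v, ∑ z, x (v * u z) = 0 := by
    rw [sum_comm]
    refine sum_eq_zero fun z _ => ?_
    rw [← hx0]
    exact Equiv.sum_comp (Equiv.mulRight (u z)) x
  have h2 : ∑ v, (∑ z, g (v * u z)) ^ 2 =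
      ∑ v, (∑ z, x (v * u z)) ^ 2 + n ^ 2 * (s ^ 2 / N) := by
    calc ∑ v, (∑ z, g (v * u z)) ^ 2
        = ∑ v, ((∑ z, x (v * u z)) ^ 2 + 2 * (n * (s / N)) * (∑ z, x (v * u z)) +
            (n * (s / N)) ^ 2) := by
          refine sum_congr rfl fun v _ => ?_
          rw [hA v]; ring
      _ = ∑ v, (∑ z, x (v * u z)) ^ 2 + 2 * (n * (s / N)) * (∑ v, ∑ z, x (v * u z)) +
            N * (n * (s / N)) ^ 2 := by
          rw [sum_add_distrib, sum_add_distrib, ← mul_sum, sum_const, card_univ, nsmul_eq_mul, ← hN]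
      _ = _ := by
          rw [hS]
          field_simp
          ring
  have h3 : ∑ v, x v ^ 2 ≤ ∑ v, g v ^ 2 := by
    have e : ∑ v, x v ^ 2 = ∑ v, g v ^ 2 - s ^ 2 / N := by
      calc ∑ v, x v ^ 2 = ∑ v, (g v ^ 2 - 2 * (s / N) * g v + (s / N) ^ 2) := by
            refine sum_congr rfl fun v _ => ?_
            rw [hx]; ring
        _ = ∑ v, g v ^ 2 - 2 * (s / N) * ∑ v, g v + N * (s / N) ^ 2 := by
            rw [sum_add_distrib, sum_sub_distrib, ← mul_sum, sum_const, card_univ, nsmul_eq_mul, ← hN]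
        _ = _ := by
            rw [← hs]
            field_simp
            ring
    rw [e]
    have : 0 ≤ s ^ 2 / N := by positivity
    linarith
  rw [h2, ← hn, ← hN, ← hs]
  have h4 := mul_le_mul_of_nonneg_left h3 hΛ
  linarith

/-- the form of the expansion used by `Dist_101` -/
theorem Gap.exX {I P : Type} [Group P] [Fintype I] [Fintype P] [Nonempty I] {u : I → P} {Λ : ℝ}
    (hΛ : 0 ≤ Λ) (h : Gap (fun z => (u z)⁻¹) Λ) :
    Dist101.ExX u (Real.sqrt Λ / Fintype.card I) := by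
  intro g _
  have h1 := h.all hΛ g
  have hn : (0 : ℝ) < Fintype.card I := by exact_mod_cast Fintype.card_pos
  refine h1.trans (le_of_eq ?_)
  rw [div_pow, Real.sq_sqrt hΛ]
  field_simp

section dist

variable {K P : Type} [Field K] [Fintype K] [Group P] [Fintype P] {T : TPD (Option K) P} {w : ℕ}
  (C : Ch T w)

/-- the words of the two-place code satisfy the line conditions of `Dist_101` -/
theorem Ch.mem_dcode {D : ℕ} {f : P × Option K × Option K → K} (hf : f ∈ C.code D) :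
    (fun p l m => f (p, l, m)) ∈ Dist101.Code T.a (fun l => Equiv.ofBijective _ (T.hM l))
      (fun _ => Dist101.RS D)
      (fun m' => {c : Option K → K | (fun l' => C.soe ((Equiv.ofBijective _ C.hpx).symm l')
        ((Equiv.ofBijective _ (T.hM ((Equiv.ofBijective _ C.hpx).symm l'))).symm m') ^ D *
          c ((Equiv.ofBijective _ C.hpx).symm l')) ∈ Dist101.RS D})
      (fun _ => Dist101.RS D) := by
  rw [C.mem_code_iff] at hf
  refine ⟨fun p m => ?_, fun h m' => ?_, fun p l => ?_⟩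
  · obtain ⟨r, hr, h⟩ := hf.2 false (p, m)
    refine ⟨r, hr, fun l => ?_⟩
    have := h (p, l, m) rfl
    simpa using this
  · obtain ⟨r, hr, h0⟩ := hf.2 true (h, m')
    refine ⟨r, hr, fun l' => ?_⟩
    have h1 := h0 (T.sqV true (h, m') ((Equiv.ofBijective _ C.hpx).symm l'))
      ((T.ev_iff true _ _).2 ⟨_, rfl⟩)
    have h2 : C.px ((Equiv.ofBijective _ C.hpx).symm l') = l' :=
      (Equiv.ofBijective _ C.hpx).apply_symm_apply l'
    simpa [TPD.sqV, h2] using h1
  · obtain ⟨r, hr, h⟩ := hf.1 false (p, l)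
    refine ⟨r, hr, fun m => ?_⟩
    have := h (p, l, m) rfl
    simpa using this

/-- **(F2)** relative minimum distance `1/2` of the two-place code -/
theorem Ch.minDist {D : ℕ} (hK : 8 * D + 32 ≤ Fintype.card K) {Λ : ℝ} (hΛ : 0 ≤ Λ)
    (ha' : Gap (fun z => (T.a z)⁻¹) Λ)
    (hnum : 4 * (92 : ℝ) ^ 2 * Λ ≤ ((Fintype.card K : ℝ) + 1) ^ 2) :
    Tensor560.MinDist (C.code D) (1 / 2) := by
  have hd : Tan846.Dist (Dist101.RS (K := K) D) (Fintype.card K + 1 - D) := Dist101.dist_RS D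
  have h1 := Dist101.minDist (M := fun l => Equiv.ofBijective _ (T.hM l)) (Gap.exX hΛ ha')
    (Xe := fun _ => Dist101.RS D)
    (Xo := fun m' => {c : Option K → K | (fun l' => C.soe ((Equiv.ofBijective _ C.hpx).symm l')
        ((Equiv.ofBijective _ (T.hM ((Equiv.ofBijective _ C.hpx).symm l'))).symm m') ^ D *
          c ((Equiv.ofBijective _ C.hpx).symm l')) ∈ Dist101.RS D})
    (Ye := fun _ => Dist101.RS D) (fun _ => hd)
    (fun m' => Dist101.dist_chart hd (Equiv.ofBijective _ C.hpx)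
      (fun l c => C.soe l ((Equiv.ofBijective _ (T.hM l)).symm m') ^ D * c)
      (fun l => mul_right_injective₀ (pow_ne_zero _ (C.soe_ne _ _))))
    (fun _ => hd) (C.code D) (fun f hf => C.mem_dcode hf)
  intro f hf hne
  refine le_trans ?_ (h1 f hf hne)
  refine mul_le_mul_of_nonneg_right ?_ (Nat.cast_nonneg _)
  have hc : (Fintype.card (Option K) : ℝ) = (Fintype.card K : ℝ) + 1 := by
    rw [Fintype.card_option]; push_cast; ring
  rw [hc]
  obtain ⟨n, hn⟩ : ∃ n : ℝ, n = (Fintype.card K : ℝ) + 1 := ⟨_, rfl⟩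
  have hsub : ((Fintype.card K + 1 - D : ℕ) : ℝ) = n - D := by
    rw [Nat.cast_sub (by omega), hn]; push_cast; ring
  have hK' : 8 * (D : ℝ) + 32 ≤ Fintype.card K := by exact_mod_cast hK
  rw [hsub, ← hn]
  rw [← hn] at hnum
  have hn0 : 0 < n := by rw [hn]; positivity
  have h7 : 7 / 8 ≤ (n - D) / n := by
    rw [le_div_iff₀ hn0]; linarith
  have hlam : (Real.sqrt Λ / n) ^ 2 ≤ 1 / 100 := by
    rw [div_pow, Real.sq_sqrt hΛ, div_le_iff₀ (by positivity)]
    nlinarith
  have h8 : (7 / 8 : ℝ) ^ 2 ≤ ((n - D) / n) ^ 2 := pow_le_pow_left₀ (by norm_num) h7 2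
  have h9 : (3 / 4 : ℝ) ≤ ((n - D) / n) ^ 2 - (Real.sqrt Λ / n) ^ 2 := by nlinarith
  calc (1 / 2 : ℝ) ≤ 3 / 4 * (7 / 8) * (7 / 8) := by norm_num
    _ ≤ _ := by gcongr

/-- **bundles** (registers) of words of the two-place code -/
theorem Ch.bltc {D : ℕ} (hD : w ∣ D) (hK : 8 * D + 32 ≤ Fintype.card K) {Λ : ℝ} (hΛ : 0 ≤ Λ)
    (ha : Gap T.a Λ) (ha' : Gap (fun z => (T.a z)⁻¹) Λ) (hb : Gap T.b Λ)
    (hb' : Gap (fun z => (T.b z)⁻¹) Λ)
    (hnum : 4 * (92 : ℝ) ^ 2 * Λ ≤ ((Fintype.card K : ℝ) + 1) ^ 2)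
    (ι : Type) [Fintype ι] :
    Tensor560.BLTC ι (C.code D) (C.tst D) (6 * (16 * 92 ^ 2 * ((Fintype.card K : ℝ) + 1) ^ 3)) := by
  have h1 := C.ltc hD hK hΛ ha ha' hb hb' hnum
  have h2 := C.minDist hK hΛ ha' hnum
  have hκ : (0 : ℝ) ≤ 16 * 92 ^ 2 * ((Fintype.card K : ℝ) + 1) ^ 3 := by positivity
  have h3 := Tensor560.interleave (by norm_num : (0 : ℝ) < 1 / 2) hκ h2 h1 ι
  intro F
  obtain ⟨G, hG, hd⟩ := h3 F
  refine ⟨G, hG, hd.trans ?_⟩
  refine mul_le_mul_of_nonneg_right ?_ (Nat.cast_nonneg _)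
  refine max_le ?_ (le_of_eq ?_)
  · linarith
  · ring

/-! ### views of the tests -/

/-- the squares seen by the test `k` -/
noncomputable def TPD.view (T : TPD (Option K) P) (k : Bool × Bool × P) :
    Finset (P × Option K × Option K) :=
  univ.filter fun σ => T.hv k.1 (T.eh k.2.1 σ) = k.2.2

theorem Ch.tst_loc (D : ℕ) (k : Bool × Bool × P) (f : P × Option K × Option K → K)
    (h : ∀ σ ∈ T.view k, f σ = 0) : f ∈ C.tst D k := by
  constructor
  · intro e he
    refine C.cH_congr D _ e 0 f (fun σ hσ => ?_) (C.cH D _ e).zero_mem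
    have : f σ = 0 := h σ (by simp [TPD.view, hσ, he])
    rw [this]; rfl
  · intro e he
    refine C.cV_congr D _ e 0 f (fun σ hσ => ?_) (C.cV D _ e).zero_mem
    have : f σ = 0 := h σ (by
      simp only [TPD.view, mem_filter, mem_univ, true_and]
      rw [T.comp, hσ, he])
    rw [this]; rfl

/-- every square is seen by four tests -/
theorem TPD.view_card (T : TPD (Option K) P) (σ : P × Option K × Option K) :
    (univ.filter fun k => σ ∈ T.view k).card ≤ 4 := by
  have h : (univ.filter fun k => σ ∈ T.view k) =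
      univ.image (fun b : Bool × Bool => (b.1, b.2, T.hv b.1 (T.eh b.2 σ))) := by
    ext ⟨i, j, v⟩
    simp only [TPD.view, mem_filter, mem_univ, true_and, mem_image, Prod.mk.injEq, Prod.exists]
    constructor
    · rintro rfl
      exact ⟨i, j, rfl, rfl, rfl⟩
    · rintro ⟨i', j', rfl, rfl, h⟩
      exact h
  rw [h]
  refine card_image_le.trans ?_
  simp

/-- every test sees `(|K| + 1)²` squares -/
theorem TPD.view_size (T : TPD (Option K) P) (k : Bool × Bool × P) :
    (T.view k).card ≤ (Fintype.card K + 1) ^ 2 := by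
  obtain ⟨i, j, v⟩ := k
  have h : ((T.view (i, j, v)).card : ℕ) ≤ (univ : Finset (Option K × Option K)).card := by
    refine card_le_card_of_injOn (fun σ => σ.2) (fun _ _ => mem_univ _) ?_
    rintro ⟨g, l, m⟩ h1 ⟨g', l', m'⟩ h2 h3
    simp only [Prod.mk.injEq] at h3
    obtain ⟨h3, h4⟩ := h3
    subst h3; subst h4
    have h5 : T.hv i (T.eh j (g, l, m)) = T.hv i (T.eh j (g', l, m)) := by
      have e1 : T.hv i (T.eh j (g, l, m)) = v := by simpa [TPD.view] using h1
      have e2 : T.hv i (T.eh j (g', l, m)) = v := by simpa [TPD.view] using h2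
      rw [e1, e2]
    have h6 : g = g' := by
      cases i <;> cases j <;> simpa [TPD.hv, TPD.eh] using h5
    rw [h6]
  rw [card_univ, Fintype.card_prod, Fintype.card_option] at h
  rw [pow_two]; exact h

/-! ### left translations and products -/

/-- left translation by `γ` -/
def LT (γ : P) (f : P × Option K × Option K → K) : P × Option K × Option K → K :=
  fun σ => f (γ⁻¹ * σ.1, σ.2)

theorem RSon_comp {S S' : Type} {D : ℕ} {E : S → Prop} {μ : S → K} {c : S → Option K}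
    {E' : S' → Prop} {μ' : S' → K} {c' : S' → Option K} (π : S' → S)
    (hE : ∀ σ, E' σ → E (π σ)) (hμ : ∀ σ, μ (π σ) = μ' σ) (hc : ∀ σ, c (π σ) = c' σ) {x : S → K}
    (hx : x ∈ RSon D E μ c) : (fun σ => x (π σ)) ∈ RSon D E' μ' c' := by
  obtain ⟨p, hp, h⟩ := hx
  refine ⟨p, hp, fun σ hσ => ?_⟩
  rw [← hμ σ, ← hc σ]
  exact h _ (hE σ hσ)

theorem Ch.LT_cH {D : ℕ} (γ : P) (j : Bool) (e : P × Option K) {f : P × Option K × Option K → K}
    (hf : f ∈ C.cH D j (γ⁻¹ * e.1, e.2)) : LT γ f ∈ C.cH D j e := by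
  cases j
  · refine RSon_comp (fun σ : P × Option K × Option K => (γ⁻¹ * σ.1, σ.2)) (fun σ hσ => ?_)
      (fun _ => rfl) (fun _ => rfl) hf
    simp only [TPD.eh, Bool.false_eq_true, if_false] at hσ ⊢
    rw [← hσ]
  · refine RSon_comp (fun σ : P × Option K × Option K => (γ⁻¹ * σ.1, σ.2)) (fun σ hσ => ?_)
      (fun _ => rfl) (fun _ => rfl) hf
    simp only [TPD.eh, if_true] at hσ ⊢
    rw [← hσ, mul_assoc]

theorem Ch.LT_cV {D : ℕ} (γ : P) (i : Bool) (e : P × Option K) {f : P × Option K × Option K → K}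
    (hf : f ∈ C.cV D i (γ⁻¹ * e.1, e.2)) : LT γ f ∈ C.cV D i e := by
  cases i
  · refine RSon_comp (fun σ : P × Option K × Option K => (γ⁻¹ * σ.1, σ.2)) (fun σ hσ => ?_)
      (fun _ => rfl) (fun _ => rfl) hf
    simp only [TPD.ev, Bool.false_eq_true, if_false] at hσ ⊢
    rw [← hσ]
  · refine RSon_comp (fun σ : P × Option K × Option K => (γ⁻¹ * σ.1, σ.2)) (fun σ hσ => ?_)
      (fun _ => rfl) (fun _ => rfl) hf
    simp only [TPD.ev, if_true] at hσ ⊢
    rw [← hσ, mul_assoc]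

/-- **(F3)** left translations preserve the code -/
theorem Ch.LT_code {D : ℕ} (γ : P) {f : P × Option K × Option K → K} (hf : f ∈ C.code D) :
    LT γ f ∈ C.code D := by
  rw [C.mem_code_iff] at hf ⊢
  exact ⟨fun j e => C.LT_cH γ j e (hf.1 j _), fun i e => C.LT_cV γ i e (hf.2 i _)⟩

/-- left translations move the tests -/
theorem Ch.LT_tst {D : ℕ} (γ : P) (i j : Bool) (v : P) {f : P × Option K × Option K → K}
    (hf : f ∈ C.tst D (i, j, γ⁻¹ * v)) : LT γ f ∈ C.tst D (i, j, v) := by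
  constructor
  · intro e he
    refine C.LT_cH γ j e (hf.1 _ ?_)
    simp only at he ⊢
    rw [← he]
    cases i <;> simp [TPD.hv, mul_assoc]
  · intro e he
    refine C.LT_cV γ i e (hf.2 _ ?_)
    simp only at he ⊢
    rw [← he]
    cases j <;> simp [TPD.vv, mul_assoc]

theorem RSon_mul {S : Type} {D D' : ℕ} {E : S → Prop} {μ μ' : S → K} {c : S → Option K}
    {x y : S → K} (hx : x ∈ RSon D E μ c) (hy : y ∈ RSon D' E μ' c) :
    x * y ∈ RSon (D + D') E (fun σ => μ σ * μ' σ) c := by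
  obtain ⟨p, hp, hpx⟩ := hx
  obtain ⟨r, hr, hry⟩ := hy
  refine ⟨p * r, natDegree_mul_le.trans (by omega), fun σ hσ => ?_⟩
  rw [ev_mul hp hr, ← hpx σ hσ, ← hry σ hσ, Pi.mul_apply]
  ring

theorem Ch.mul_cH {D D' : ℕ} (j : Bool) (e : P × Option K) {f g : P × Option K × Option K → K}
    (hf : f ∈ C.cH D j e) (hg : g ∈ C.cH D' j e) : f * g ∈ C.cH (D + D') j e := by
  cases j
  · have h := RSon_mul (E := fun σ => T.eh false σ = e) hf hg
    simp only [mul_one] at h
    exact h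
  · have h := RSon_mul (E := fun σ => T.eh true σ = e) hf hg
    simp only [← pow_add] at h
    exact h

theorem Ch.mul_cV {D D' : ℕ} (i : Bool) (e : P × Option K) {f g : P × Option K × Option K → K}
    (hf : f ∈ C.cV D i e) (hg : g ∈ C.cV D' i e) : f * g ∈ C.cV (D + D') i e := by
  cases i
  · have h := RSon_mul (E := fun σ => T.ev false σ = e) hf hg
    simp only [mul_one] at h
    exact h
  · have h := RSon_mul (E := fun σ => T.ev true σ = e) hf hg
    simp only [← pow_add] at h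
    exact h

/-- **(F3)** products -/
theorem Ch.mul_code {D D' : ℕ} {f g : P × Option K × Option K → K} (hf : f ∈ C.code D)
    (hg : g ∈ C.code D') : f * g ∈ C.code (D + D') := by
  rw [C.mem_code_iff] at hf hg ⊢
  exact ⟨fun j e => C.mul_cH j e (hf.1 j e) (hg.1 j e), fun i e => C.mul_cV i e (hf.2 i e) (hg.2 i e)⟩

end dist

end Crest.Agent.R289.TP9
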