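import Crest.Agent.R289.FacB_281
import Crest.Agent.R289.RobG_459

/-!
Row 289, block B (helper203): ONE definition of the intrinsic edge codes of the concrete two-place
complex (#6348): `xcD σ x y D`, `ycD σ x y D : Bool → Option K → Submodule K (Option K → K)`, with
products.  `D` = degree (the register of degree `d` has `D = d * s`, `s = 2 (q - 1)`).
-/

set_option autoImplicit false
set_option linter.unusedSectionVars false

namespace Crest.Agent.R289.TPInst203

open Polynomial
open Crest.Agent.R289.PS459 Crest.Agent.R289.Mob459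
open Crest.Agent.R289.FacB281 (L M px px_inj px_bij moe meo moo moe_ne_zero meo_ne_zero
  moo_ne_zero LM_inj L_bij M_bij)

section codes

variable {K : Type} [Field K]

variable (σ : K →+* K) (x y : K)

/-- intrinsic code of an x-edge of type `j` with label `z`, functions of the `y`-label `m` of the
even-even corner -/
def xcD (s : ℕ) : Bool → Option K → Submodule K (Option K → K)
  | false, _ =>
    { carrier := {u | ∃ p : K[X], p.natDegree ≤ s ∧ ∀ m, u m = ev s p m}
      zero_mem' := ⟨0, by simp, fun m => (ev_zero s m).symm⟩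
      add_mem' := by
        rintro u v ⟨p, hp, hpe⟩ ⟨q, hq, hqe⟩
        exact ⟨p + q, (natDegree_add_le p q).trans (max_le hp hq),
          fun m => by rw [ev_add, ← hpe, ← hqe]; rfl⟩
      smul_mem' := by
        rintro a u ⟨p, hp, hpe⟩
        exact ⟨a • p, (natDegree_smul_le a p).trans hp, fun m => by rw [ev_smul, ← hpe]; rfl⟩ }
  | true, z =>
    { carrier := {u | ∃ p : K[X], p.natDegree ≤ s ∧ ∀ l m, L σ x y l m = z →
        meo σ x y s l m * u m = ev s p (px σ y m)}
      zero_mem' := ⟨0, by simp, fun l m _ => by rw [Pi.zero_apply, mul_zero, ev_zero]⟩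
      add_mem' := by
        rintro u v ⟨p, hp, hpe⟩ ⟨q, hq, hqe⟩
        exact ⟨p + q, (natDegree_add_le p q).trans (max_le hp hq),
          fun l m e => by rw [ev_add, ← hpe l m e, ← hqe l m e, Pi.add_apply, mul_add]⟩
      smul_mem' := by
        rintro a u ⟨p, hp, hpe⟩
        exact ⟨a • p, (natDegree_smul_le a p).trans hp,
          fun l m e => by rw [ev_smul, ← hpe l m e, Pi.smul_apply, smul_eq_mul]; ring⟩ }

/-- intrinsic code of a y-edge of type `i` with label `w`, functions of the `x`-label `l` of the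
even-even corner -/
def ycD (s : ℕ) : Bool → Option K → Submodule K (Option K → K)
  | false, _ =>
    { carrier := {u | ∃ p : K[X], p.natDegree ≤ s ∧ ∀ l, u l = ev s p l}
      zero_mem' := ⟨0, by simp, fun m => (ev_zero s m).symm⟩
      add_mem' := by
        rintro u v ⟨p, hp, hpe⟩ ⟨q, hq, hqe⟩
        exact ⟨p + q, (natDegree_add_le p q).trans (max_le hp hq),
          fun m => by rw [ev_add, ← hpe, ← hqe]; rfl⟩
      smul_mem' := by
        rintro a u ⟨p, hp, hpe⟩
        exact ⟨a • p, (natDegree_smul_le a p).trans hp, fun m => by rw [ev_smul, ← hpe]; rfl⟩ }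
  | true, w =>
    { carrier := {u | ∃ p : K[X], p.natDegree ≤ s ∧ ∀ l m, M σ x y l m = w →
        moe σ x y s l m * u l = ev s p (px σ x l)}
      zero_mem' := ⟨0, by simp, fun l m _ => by rw [Pi.zero_apply, mul_zero, ev_zero]⟩
      add_mem' := by
        rintro u v ⟨p, hp, hpe⟩ ⟨q, hq, hqe⟩
        exact ⟨p + q, (natDegree_add_le p q).trans (max_le hp hq),
          fun l m e => by rw [ev_add, ← hpe l m e, ← hqe l m e, Pi.add_apply, mul_add]⟩
      smul_mem' := by
        rintro a u ⟨p, hp, hpe⟩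
        exact ⟨a • p, (natDegree_smul_le a p).trans hp,
          fun l m e => by rw [ev_smul, ← hpe l m e, Pi.smul_apply, smul_eq_mul]; ring⟩ }

variable {σ x y}

theorem mem_xcD_false {s : ℕ} {z : Option K} {u : Option K → K} :
    u ∈ xcD σ x y s false z ↔ ∃ p : K[X], p.natDegree ≤ s ∧ ∀ m, u m = ev s p m := Iff.rfl

theorem mem_xcD_true {s : ℕ} {z : Option K} {u : Option K → K} :
    u ∈ xcD σ x y s true z ↔ ∃ p : K[X], p.natDegree ≤ s ∧ ∀ l m, L σ x y l m = z →
      meo σ x y s l m * u m = ev s p (px σ y m) := Iff.rfl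

theorem mem_ycD_false {s : ℕ} {w : Option K} {u : Option K → K} :
    u ∈ ycD σ x y s false w ↔ ∃ p : K[X], p.natDegree ≤ s ∧ ∀ l, u l = ev s p l := Iff.rfl

theorem mem_ycD_true {s : ℕ} {w : Option K} {u : Option K → K} :
    u ∈ ycD σ x y s true w ↔ ∃ p : K[X], p.natDegree ≤ s ∧ ∀ l m, M σ x y l m = w →
      moe σ x y s l m * u l = ev s p (px σ x l) := Iff.rfl

/-- products of edge code words (field `mulX` of `Obj.OK`) -/
theorem xcD_mul {s t : ℕ} {j : Bool} {z : Option K} {u v : Option K → K}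
    (hu : u ∈ xcD σ x y s j z) (hv : v ∈ xcD σ x y t j z) :
    u * v ∈ xcD σ x y (s + t) j z := by
  cases j
  · obtain ⟨p, hp, hpe⟩ := hu
    obtain ⟨q, hq, hqe⟩ := hv
    exact ⟨p * q, natDegree_mul_le.trans (add_le_add hp hq),
      fun m => by rw [ev_mul hp hq, ← hpe, ← hqe]; rfl⟩
  · obtain ⟨p, hp, hpe⟩ := hu
    obtain ⟨q, hq, hqe⟩ := hv
    refine ⟨p * q, natDegree_mul_le.trans (add_le_add hp hq), fun l m e => ?_⟩
    rw [ev_mul hp hq, ← hpe l m e, ← hqe l m e, Pi.mul_apply]
    simp only [meo, pow_add, mul_inv]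
    ring

theorem ycD_mul {s t : ℕ} {i : Bool} {w : Option K} {u v : Option K → K}
    (hu : u ∈ ycD σ x y s i w) (hv : v ∈ ycD σ x y t i w) :
    u * v ∈ ycD σ x y (s + t) i w := by
  cases i
  · obtain ⟨p, hp, hpe⟩ := hu
    obtain ⟨q, hq, hqe⟩ := hv
    exact ⟨p * q, natDegree_mul_le.trans (add_le_add hp hq),
      fun m => by rw [ev_mul hp hq, ← hpe, ← hqe]; rfl⟩
  · obtain ⟨p, hp, hpe⟩ := hu
    obtain ⟨q, hq, hqe⟩ := hv
    refine ⟨p * q, natDegree_mul_le.trans (add_le_add hp hq), fun l m e => ?_⟩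
    rw [ev_mul hp hq, ← hpe l m e, ← hqe l m e, Pi.mul_apply]
    simp only [moe, pow_add, mul_inv]
    ring

end codes

end Crest.Agent.R289.TPInst203
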