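import Crest.Agent.R289.TP_846
import Crest.Agent.R289.FDRob_367

/-!
Row 289, block B (helper367).  Agreement robustness `TP846.TP.Rob` at a vertex of type `(i,j)` of the
abstract two-place complex of helper846 from `RobAt` (vertex labels), and from Reed-Solomon charts
with an arbitrary non-zero scalar for every square and register (constant 92).
-/

set_option autoImplicit false
set_option linter.unusedSectionVars false

namespace Crest.Agent.R289.TPRob367

open Finset Polynomial
open Crest.Agent.R289.LTC846 Crest.Agent.R289.Tan846 Crest.Agent.R289.TP846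
open Crest.Agent.R289.FD367 Crest.Agent.R289.PS459

variable {P I A : Type} [Group P] [Fintype I] (D : TP P I) (i j : Bool)

/-- labels at the corner of type `(i,j)` as a function of the labels at the even-even corner -/
def th (p : I × I) : I × I := (D.xl j p.1 p.2, D.yl i p.1 p.2)

theorem th_inj : Function.Injective (th D i j) := by
  rintro ⟨l, m⟩ ⟨l', m'⟩ h
  simp only [th, Prod.mk.injEq] at h
  obtain ⟨h1, h2⟩ := h
  cases i <;> cases j
  · simpa [TP.xl, TP.yl] using And.intro h1 h2
  · simp only [TP.xl, TP.yl, if_true] at h1 h2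
    have h2' : m = m' := by simpa using h2
    subst h2'
    have := (D.L_bij m).1 h1
    rw [this]
  · simp only [TP.xl, TP.yl, if_true] at h1 h2
    have h1' : l = l' := by simpa using h1
    subst h1'
    have := (D.M_bij l).1 h2
    rw [this]
  · simp only [TP.xl, TP.yl, if_true] at h1 h2
    obtain ⟨e1, e2⟩ := D.LM_inj _ _ _ _ h1 h2
    rw [e1, e2]

/-- the same as an equivalence -/
noncomputable def Th : I × I ≃ I × I :=
  Equiv.ofBijective (th D i j) (Finite.injective_iff_bijective.1 (th_inj D i j))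

/-- the x-label at the even-even corner -/
noncomputable def lo (z w : I) : I := ((Th D i j).symm (z, w)).1

/-- the y-label at the even-even corner -/
noncomputable def mo (z w : I) : I := ((Th D i j).symm (z, w)).2

theorem th_lomo (z w : I) : th D i j (lo D i j z w, mo D i j z w) = (z, w) :=
  (Th D i j).apply_symm_apply (z, w)

theorem xl_lomo (z w : I) : D.xl j (lo D i j z w) (mo D i j z w) = z :=
  congrArg Prod.fst (th_lomo D i j z w)

theorem yl_lomo (z w : I) : D.yl i (lo D i j z w) (mo D i j z w) = w :=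
  congrArg Prod.snd (th_lomo D i j z w)

theorem lomo_th (l m : I) :
    lo D i j (D.xl j l m) (D.yl i l m) = l ∧ mo D i j (D.xl j l m) (D.yl i l m) = m := by
  have h := (Th D i j).symm_apply_apply (l, m)
  exact ⟨congrArg Prod.fst h, congrArg Prod.snd h⟩

theorem lo_eq (z w : I) : D.li j (mo D i j z w) z = lo D i j z w := by
  have h := D.li_xl j (lo D i j z w) (mo D i j z w)
  rwa [xl_lomo] at h

theorem mo_eq (z w : I) : D.mi i (lo D i j z w) w = mo D i j z w := by
  have h := D.mi_yl i (lo D i j z w) (mo D i j z w)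
  rwa [yl_lomo] at h

theorem mo_li (m z : I) : mo D i j z (D.yl i (D.li j m z) m) = m := by
  have h := (lomo_th D i j (D.li j m z) m).2
  rwa [D.xl_li] at h

theorem lo_li (m z : I) : lo D i j z (D.yl i (D.li j m z) m) = D.li j m z := by
  have h := (lomo_th D i j (D.li j m z) m).1
  rwa [D.xl_li] at h

theorem lo_mi (l w : I) : lo D i j (D.xl j l (D.mi i l w)) w = l := by
  have h := (lomo_th D i j l (D.mi i l w)).1
  rwa [D.yl_mi] at h

theorem mo_mi (l w : I) : mo D i j (D.xl j l (D.mi i l w)) w = D.mi i l w := by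
  have h := (lomo_th D i j l (D.mi i l w)).2
  rwa [D.yl_mi] at h

/-- **from vertex labels to the intrinsic form** -/
theorem rob_of_robAt {xc yc : Bool → I → Set (I → A)} {κ : ℝ} {LC : Set (I → I → A)}
    {R C : I → Set (I → A)} (h : RobAt LC R C κ)
    (hR : ∀ z, ∀ u ∈ xc j z, (fun w => u (mo D i j z w)) ∈ R z)
    (hC : ∀ w, ∀ u ∈ yc i w, (fun z => u (lo D i j z w)) ∈ C w)
    (hX : ∀ W ∈ LC, ∀ z, (fun m => W z (D.yl i (D.li j m z) m)) ∈ xc j z)
    (hY : ∀ W ∈ LC, ∀ w, (fun l => W (D.xl j l (D.mi i l w)) w) ∈ yc i w) :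
    D.Rob xc yc i j κ := by
  classical
  intro c r hc hr
  obtain ⟨W, hW, hle⟩ := h (fun z w => c z (mo D i j z w)) (fun z w => r w (lo D i j z w))
    (fun z => hR z _ (hc z)) (fun w => hC w _ (hr w))
  refine ⟨fun l m => W (D.xl j l m) (D.yl i l m), ?_, ?_, ?_⟩
  · intro z
    have := hX W hW z
    simpa only [D.xl_li] using this
  · intro w
    have := hY W hW w
    simpa only [D.yl_mi] using this
  · have e1 : (cnt fun z => (fun m => W (D.xl j (D.li j m z) m) (D.yl i (D.li j m z) m)) ≠ c z) =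
        cnt fun z => ∃ w, W z w ≠ c z (mo D i j z w) := by
      refine cnt_congr fun z => ?_
      rw [Function.ne_iff]
      simp only [D.xl_li]
      constructor
      · rintro ⟨m, hm⟩
        exact ⟨D.yl i (D.li j m z) m, by rwa [mo_li]⟩
      · rintro ⟨w, hw⟩
        refine ⟨mo D i j z w, ?_⟩
        rwa [lo_eq, yl_lomo]
    have e2 : (cnt fun w => (fun l => W (D.xl j l (D.mi i l w)) (D.yl i l (D.mi i l w))) ≠ r w) =
        cnt fun w => ∃ z, W z w ≠ r w (lo D i j z w) := by
      refine cnt_congr fun w => ?_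
      rw [Function.ne_iff]
      simp only [D.yl_mi]
      constructor
      · rintro ⟨l, hl⟩
        exact ⟨D.xl j l (D.mi i l w), by rwa [lo_mi]⟩
      · rintro ⟨z, hz⟩
        refine ⟨lo D i j z w, ?_⟩
        rwa [mo_eq, xl_lomo]
    have e3 : (cnt fun p : I × I => c (D.xl j p.1 p.2) p.2 ≠ r (D.yl i p.1 p.2) p.1) =
        cnt fun p : I × I => r p.2 (lo D i j p.1 p.2) ≠ c p.1 (mo D i j p.1 p.2) := by
      unfold cnt
      refine Finset.card_equiv (Th D i j) fun p => ?_
      simp only [mem_filter, mem_univ, true_and]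
      have h1 : Th D i j p = (D.xl j p.1 p.2, D.yl i p.1 p.2) := rfl
      rw [h1]
      simp only [(lomo_th D i j p.1 p.2).1, (lomo_th D i j p.1 p.2).2]
      exact ne_comm
    change (Fintype.card I : ℝ) * (((cnt fun z => (fun m => W (D.xl j (D.li j m z) m)
      (D.yl i (D.li j m z) m)) ≠ c z) : ℕ) + ((cnt fun w => (fun l =>
        W (D.xl j l (D.mi i l w)) (D.yl i l (D.mi i l w))) ≠ r w) : ℕ)) ≤ κ *
      ((cnt fun p : I × I => c (D.xl j p.1 p.2) p.2 ≠ r (D.yl i p.1 p.2) p.1) : ℕ)
    rw [e1, e2, e3]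
    push_cast at hle
    rw [card_eq_cnt, card_eq_cnt, card_eq_cnt] at hle
    rw [mul_add]
    exact hle

/-- **Charts.**  Reed-Solomon edge codes with arbitrary scalars on the squares. -/
theorem rob_chart {K ι : Type} [Field K] [Fintype K] [Fintype ι] (s : ℕ)
    (hn : 8 * s + 32 ≤ Fintype.card K) (φ ψ : I ≃ Option K) (dx dy : ι → ℕ)
    (hdx : ∀ r, dx r ≤ s) (hdy : ∀ r, dy r ≤ s) (μ : I → I → ι → K) (hμ : ∀ l m r, μ l m r ≠ 0)
    {xc yc : Bool → I → Set (I → ι → K)}
    (hx : ∀ z u, u ∈ xc j z ↔ ∀ r, ∃ p : K[X], p.natDegree ≤ dx r ∧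
      ∀ m, μ (D.li j m z) m r * u m r = ev (dx r) p (ψ (D.yl i (D.li j m z) m)))
    (hy : ∀ w u, u ∈ yc i w ↔ ∀ r, ∃ p : K[X], p.natDegree ≤ dy r ∧
      ∀ l, μ l (D.mi i l w) r * u l r = ev (dy r) p (φ (D.xl j l (D.mi i l w)))) :
    D.Rob xc yc i j 92 := by
  have h := robAt_RS (I := I) (J := I) s hn φ ψ dx dy hdx hdy
    (fun z w r => μ (lo D i j z w) (mo D i j z w) r) (fun z w r => hμ _ _ r)
  refine rob_of_robAt D i j h ?_ ?_ ?_ ?_
  · intro z u hu r
    obtain ⟨p, hp, hpe⟩ := (hx z u).1 hu r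
    refine ⟨p, hp, fun w => ?_⟩
    have h1 := hpe (mo D i j z w)
    rw [lo_eq, yl_lomo] at h1
    rw [one_mul]
    exact h1
  · intro w u hu r
    obtain ⟨p, hp, hpe⟩ := (hy w u).1 hu r
    refine ⟨p, hp, fun z => ?_⟩
    have h1 := hpe (lo D i j z w)
    rw [mo_eq, xl_lomo] at h1
    rw [one_mul]
    exact h1
  · intro W hW z
    refine (hx z _).2 fun r => ?_
    obtain ⟨p, hp, hpe⟩ := hW.1 z r
    refine ⟨p, hp, fun m => ?_⟩
    have h1 := hpe (D.yl i (D.li j m z) m)
    simp only [one_mul, lo_li, mo_li] at h1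
    exact h1
  · intro W hW w
    refine (hy w _).2 fun r => ?_
    obtain ⟨p, hp, hpe⟩ := hW.2 w r
    refine ⟨p, hp, fun l => ?_⟩
    have h1 := hpe (D.xl j l (D.mi i l w))
    simp only [one_mul, lo_mi, mo_mi] at h1
    exact h1

end Crest.Agent.R289.TPRob367
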