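import Crest.Agent.R289.TPDef_203
import Crest.Agent.R289.TPgrpB_547
import Crest.Agent.R289.TPRob_367

/-!
Row 289, block B (helper203): the CONCRETE two-place complex in the vocabulary of `TP846.TP`.

* `xcD`, `ycD` : intrinsic edge codes (literal forms of #6162);
* `mem_xcD`, `mem_ycD` : the same codes in the chart of every corner `(i,j)` (form of `TPRob_367`);
* `rob` : agreement robustness of the bundles at every corner, constant `92`;
* `dist_xcT`, `dist_ycT` : distance of the edge codes;
* closure under sums, scalars and products of the edge codes and of `TP.Code`.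

All statements hold for EVERY `D : TP P (Option K)` with `D.L = L σ x y`, `D.M = M σ x y` (labels of
`FacB_281`), e.g. the instance of `TPBr_281`.
-/

set_option autoImplicit false
set_option linter.unusedSectionVars false

namespace Crest.Agent.R289.TPInst203

open Polynomial
open Crest.Agent.R289.TP846 Crest.Agent.R289.PS459 Crest.Agent.R289.Mob459
open Crest.Agent.R289.Tan846 (cnt)
open Crest.Agent.R289.FacB281 (L M px px_inj px_bij moe meo moo moe_ne_zero meo_ne_zero
  moo_ne_zero LM_inj L_bij M_bij)

section codes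

variable {K : Type} [Field K]

/-- two places in general position -/
structure Place2 (σ : K →+* K) (x y : K) : Prop where
  hσ : ∀ a, σ (σ a) = a
  hx : σ x ≠ x
  hy : σ y ≠ y
  hxy : x ≠ y
  hxy' : σ x ≠ y

theorem Place2.symm {σ : K →+* K} {x y : K} (h : Place2 σ x y) : Place2 σ y x :=
  ⟨h.hσ, h.hy, h.hx, h.hxy.symm, fun e => h.hxy' (by rw [← e, h.hσ])⟩

variable (σ : K →+* K) (x y : K)

/-- bundles: registers `r : ι`, degrees `d r` -/
def xcT {ι : Type} (d : ι → ℕ) (j : Bool) (z : Option K) : Set (Option K → ι → K) :=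
  {u | ∀ r, (fun m => u m r) ∈ xcD σ x y (d r) j z}

def ycT {ι : Type} (d : ι → ℕ) (i : Bool) (w : Option K) : Set (Option K → ι → K) :=
  {u | ∀ r, (fun l => u l r) ∈ ycD σ x y (d r) i w}

/-- weight of the square `(l,m)` at the corner of type `(i,j)` -/
noncomputable def mu (s : ℕ) : Bool → Bool → Option K → Option K → K
  | false, false => fun _ _ => 1
  | true, false => moe σ x y s
  | false, true => meo σ x y s
  | true, true => moo σ x y s

variable {σ x y}

theorem mu_ne (h : Place2 σ x y) (s : ℕ) (i j : Bool) (l m : Option K) :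
    mu σ x y s i j l m ≠ 0 := by
  cases i <;> cases j
  · exact one_ne_zero
  · exact meo_ne_zero h.hσ h.hy h.hxy h.hxy' s l m
  · exact moe_ne_zero h.hσ h.hx h.hxy h.hxy' s l m
  · exact moo_ne_zero h.hσ h.hx h.hy h.hxy h.hxy' s l m

theorem mu_add (s t : ℕ) (i j : Bool) (l m : Option K) :
    mu σ x y (s + t) i j l m = mu σ x y s i j l m * mu σ x y t i j l m := by
  cases i <;> cases j
  · simp only [mu, one_mul]
  · simp only [mu, meo, pow_add, mul_inv]
  · simp only [mu, moe, pow_add, mul_inv]
  · simp only [mu, moo, pow_add, mul_inv]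

variable [Finite K]

/-- x-coordinate at a corner which is odd (`i = true`) or even in `x` -/
noncomputable def phi (h : Place2 σ x y) : Bool → (Option K ≃ Option K)
  | false => Equiv.refl _
  | true => Equiv.ofBijective (px σ x) (px_bij h.hσ h.hx)

/-- y-coordinate at a corner which is odd (`j = true`) or even in `y` -/
noncomputable def psi (h : Place2 σ x y) : Bool → (Option K ≃ Option K)
  | false => Equiv.refl _
  | true => Equiv.ofBijective (px σ y) (px_bij h.hσ h.hy)

@[simp] theorem phi_false (h : Place2 σ x y) (l : Option K) : phi h false l = l := rfl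
@[simp] theorem phi_true (h : Place2 σ x y) (l : Option K) : phi h true l = px σ x l := rfl
@[simp] theorem psi_false (h : Place2 σ x y) (l : Option K) : psi h false l = l := rfl
@[simp] theorem psi_true (h : Place2 σ x y) (l : Option K) : psi h true l = px σ y l := rfl

section TP

variable {P : Type} [Group P] (D : TP P (Option K))

/-- **x-edges in the chart of the corner `(i,j)`** -/
theorem mem_xcD (h : Place2 σ x y) (hL : D.L = L σ x y) (hM : D.M = M σ x y) {s : ℕ}
    (hs : ∀ c : K, c ≠ 0 → (c * σ c) ^ s = 1) (i j : Bool) (z : Option K) (u : Option K → K) :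
    u ∈ xcD σ x y s j z ↔ ∃ p : K[X], p.natDegree ≤ s ∧
      ∀ m, mu σ x y s i j (D.li j m z) m * u m = ev s p (psi h j (D.yl i (D.li j m z) m)) := by
  cases j
  · cases i
    · simp only [mem_xcD_false, mu, one_mul, psi_false, TP.yl, Bool.false_eq_true, if_false]
    · simp only [mem_xcD_false, mu, psi_false, TP.yl, TP.li, Bool.false_eq_true, if_false,
        if_true, hM]
      exact FacB281.h0 h.hσ h.hx h.hxy h.hxy' s z u
  · have hll : ∀ m, L σ x y (D.li true m z) m = z := fun m => by
      have := D.xl_li true m z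
      simpa only [TP.xl, if_true, hL] using this
    have key : u ∈ xcD σ x y s true z ↔ ∃ p : K[X], p.natDegree ≤ s ∧
        ∀ m, meo σ x y s (D.li true m z) m * u m = ev s p (px σ y m) := by
      constructor
      · rintro ⟨p, hp, hpe⟩
        exact ⟨p, hp, fun m => hpe _ m (hll m)⟩
      · rintro ⟨p, hp, hpe⟩
        refine ⟨p, hp, fun l m e => ?_⟩
        have : D.li true m z = l := by
          have e1 : D.xl true l m = z := by simpa only [TP.xl, if_true, hL] using e
          rw [← e1, D.li_xl]
        rw [← this]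
        exact hpe m
    rw [key]
    cases i
    · simp only [mu, psi_true, TP.yl, Bool.false_eq_true, if_false]
    · simp only [mu, psi_true, TP.yl, if_true, hM]
      exact FacB281.h1 h.hσ h.hx h.hy h.hxy h.hxy' hs z (fun m => D.li true m z) hll u

/-- **y-edges in the chart of the corner `(i,j)`** -/
theorem mem_ycD (h : Place2 σ x y) (hL : D.L = L σ x y) (hM : D.M = M σ x y) {s : ℕ}
    (hs : ∀ c : K, c ≠ 0 → (c * σ c) ^ s = 1) (i j : Bool) (w : Option K) (u : Option K → K) :
    u ∈ ycD σ x y s i w ↔ ∃ p : K[X], p.natDegree ≤ s ∧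
      ∀ l, mu σ x y s i j l (D.mi i l w) * u l = ev s p (phi h i (D.xl j l (D.mi i l w))) := by
  cases i
  · cases j
    · simp only [mem_ycD_false, mu, one_mul, phi_false, TP.xl, Bool.false_eq_true, if_false]
    · simp only [mem_ycD_false, mu, phi_false, TP.xl, TP.mi, Bool.false_eq_true, if_false,
        if_true, hL]
      exact FacB281.v0 h.hσ h.hy h.hxy h.hxy' s w u
  · have hmm : ∀ l, M σ x y l (D.mi true l w) = w := fun l => by
      have := D.yl_mi true l w
      simpa only [TP.yl, if_true, hM] using this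
    have key : u ∈ ycD σ x y s true w ↔ ∃ p : K[X], p.natDegree ≤ s ∧
        ∀ l, moe σ x y s l (D.mi true l w) * u l = ev s p (px σ x l) := by
      constructor
      · rintro ⟨p, hp, hpe⟩
        exact ⟨p, hp, fun l => hpe l _ (hmm l)⟩
      · rintro ⟨p, hp, hpe⟩
        refine ⟨p, hp, fun l m e => ?_⟩
        have : D.mi true l w = m := by
          have e1 : D.yl true l m = w := by simpa only [TP.yl, if_true, hM] using e
          rw [← e1, D.mi_yl]
        rw [← this]
        exact hpe l
    rw [key]
    cases j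
    · simp only [mu, phi_true, TP.xl, Bool.false_eq_true, if_false]
    · simp only [mu, phi_true, TP.xl, if_true, hL]
      exact FacB281.v1 h.hσ h.hx h.hy h.hxy h.hxy' hs w (fun l => D.mi true l w) hmm u

/-- **agreement robustness of the bundles at every corner**, constant `92` -/
theorem rob [Fintype K] {ι : Type} [Fintype ι] (h : Place2 σ x y) (hL : D.L = L σ x y)
    (hM : D.M = M σ x y) (d : ι → ℕ) (s : ℕ) (hd : ∀ r, d r ≤ s)
    (hds : ∀ r, ∀ c : K, c ≠ 0 → (c * σ c) ^ d r = 1) (hn : 8 * s + 32 ≤ Fintype.card K)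
    (i j : Bool) : D.Rob (xcT σ x y d) (ycT σ x y d) i j 92 :=
  TPRob367.rob_chart D i j s hn (phi h i) (psi h j) d d hd hd
    (fun l m r => mu σ x y (d r) i j l m) (fun l m r => mu_ne h (d r) i j l m)
    (fun z u => forall_congr' fun r => mem_xcD D h hL hM (hds r) i j z fun m => u m r)
    (fun w u => forall_congr' fun r => mem_ycD D h hL hM (hds r) i j w fun l => u l r)

/-- distance of the bundled x-edge codes -/
theorem dist_xcT [Fintype K] {ι : Type} (h : Place2 σ x y) (hL : D.L = L σ x y)
    (d : ι → ℕ) (s : ℕ) (hd : ∀ r, d r ≤ s) (j : Bool) (z : Option K) :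
    Tan846.Dist (xcT σ x y d j z) (Fintype.card K + 1 - s) := by
  classical
  intro c hc c' hc' hne
  have key : ∃ μ : ι → Option K → K, (∀ r m, μ r m ≠ 0) ∧
      (∀ r, (fun m => c m r) ∈ RSC (d r) (psi h j) (μ r)) ∧
      ∀ r, (fun m => c' m r) ∈ RSC (d r) (psi h j) (μ r) := by
    cases j
    · refine ⟨fun _ _ => 1, fun _ _ => one_ne_zero, fun r => ?_, fun r => ?_⟩
      · obtain ⟨p, hp, hpe⟩ := hc r
        exact ⟨p, hp, fun m => by rw [one_mul]; exact hpe m⟩
      · obtain ⟨p, hp, hpe⟩ := hc' r
        exact ⟨p, hp, fun m => by rw [one_mul]; exact hpe m⟩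
    · have hll : ∀ m, L σ x y (D.li true m z) m = z := fun m => by
        have := D.xl_li true m z
        simpa only [TP.xl, if_true, hL] using this
      refine ⟨fun r m => meo σ x y (d r) (D.li true m z) m,
        fun r m => meo_ne_zero h.hσ h.hy h.hxy h.hxy' _ _ _, fun r => ?_, fun r => ?_⟩
      · obtain ⟨p, hp, hpe⟩ := hc r
        exact ⟨p, hp, fun m => hpe _ m (hll m)⟩
      · obtain ⟨p, hp, hpe⟩ := hc' r
        exact ⟨p, hp, fun m => hpe _ m (hll m)⟩
  obtain ⟨μ, hμ, h1, h2⟩ := key
  have h3 := RSC_dist_bundle (psi h j).injective d hd hμ h1 h2 hne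
  have h4 : (Finset.univ.filter fun m : Option K => c m = c' m).card +
      (Finset.univ.filter fun m : Option K => ¬ c m = c' m).card = Fintype.card K + 1 := by
    rw [Finset.card_filter_add_card_filter_not, Finset.card_univ, Fintype.card_option]
  have h5 : cnt (fun m => c m ≠ c' m) =
      (Finset.univ.filter fun m : Option K => ¬ c m = c' m).card := by
    unfold cnt
    congr
  omega

/-- distance of the bundled y-edge codes -/
theorem dist_ycT [Fintype K] {ι : Type} (h : Place2 σ x y) (hM : D.M = M σ x y)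
    (d : ι → ℕ) (s : ℕ) (hd : ∀ r, d r ≤ s) (i : Bool) (w : Option K) :
    Tan846.Dist (ycT σ x y d i w) (Fintype.card K + 1 - s) := by
  classical
  intro c hc c' hc' hne
  have key : ∃ μ : ι → Option K → K, (∀ r m, μ r m ≠ 0) ∧
      (∀ r, (fun m => c m r) ∈ RSC (d r) (phi h i) (μ r)) ∧
      ∀ r, (fun m => c' m r) ∈ RSC (d r) (phi h i) (μ r) := by
    cases i
    · refine ⟨fun _ _ => 1, fun _ _ => one_ne_zero, fun r => ?_, fun r => ?_⟩
      · obtain ⟨p, hp, hpe⟩ := hc r
        exact ⟨p, hp, fun m => by rw [one_mul]; exact hpe m⟩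
      · obtain ⟨p, hp, hpe⟩ := hc' r
        exact ⟨p, hp, fun m => by rw [one_mul]; exact hpe m⟩
    · have hmm : ∀ l, M σ x y l (D.mi true l w) = w := fun l => by
        have := D.yl_mi true l w
        simpa only [TP.yl, if_true, hM] using this
      refine ⟨fun r l => moe σ x y (d r) l (D.mi true l w),
        fun r m => moe_ne_zero h.hσ h.hx h.hxy h.hxy' _ _ _, fun r => ?_, fun r => ?_⟩
      · obtain ⟨p, hp, hpe⟩ := hc r
        exact ⟨p, hp, fun l => hpe l _ (hmm l)⟩
      · obtain ⟨p, hp, hpe⟩ := hc' r
        exact ⟨p, hp, fun l => hpe l _ (hmm l)⟩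
  obtain ⟨μ, hμ, h1, h2⟩ := key
  have h3 := RSC_dist_bundle (phi h i).injective d hd hμ h1 h2 hne
  have h4 : (Finset.univ.filter fun m : Option K => c m = c' m).card +
      (Finset.univ.filter fun m : Option K => ¬ c m = c' m).card = Fintype.card K + 1 := by
    rw [Finset.card_filter_add_card_filter_not, Finset.card_univ, Fintype.card_option]
  have h5 : cnt (fun m => c m ≠ c' m) =
      (Finset.univ.filter fun m : Option K => ¬ c m = c' m).card := by
    unfold cnt
    congr
  omega

end TP

/-! ### closure -/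

section closure

omit [Finite K]

variable {P : Type} [Group P] (D : TP P (Option K))

/-- the code of degree `s` -/
def cd (σ : K →+* K) (x y : K) (s : ℕ) : Set (P → Option K → Option K → K) :=
  D.Code (fun j z => (xcD σ x y s j z : Set (Option K → K)))
    (fun i w => (ycD σ x y s i w : Set (Option K → K)))

theorem code_zero (s : ℕ) : (0 : P → Option K → Option K → K) ∈ cd D σ x y s :=
  ⟨fun j _ z => (xcD σ x y s j z).zero_mem, fun i _ w => (ycD σ x y s i w).zero_mem⟩

theorem code_add {s : ℕ} {X Y : P → Option K → Option K → K} (hX : X ∈ cd D σ x y s)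
    (hY : Y ∈ cd D σ x y s) : X + Y ∈ cd D σ x y s :=
  ⟨fun j g z => (xcD σ x y s j z).add_mem (hX.1 j g z) (hY.1 j g z),
    fun i g w => (ycD σ x y s i w).add_mem (hX.2 i g w) (hY.2 i g w)⟩

theorem code_smul {s : ℕ} (a : K) {X : P → Option K → Option K → K} (hX : X ∈ cd D σ x y s) :
    a • X ∈ cd D σ x y s :=
  ⟨fun j g z => (xcD σ x y s j z).smul_mem a (hX.1 j g z),
    fun i g w => (ycD σ x y s i w).smul_mem a (hX.2 i g w)⟩

theorem code_mul {s t : ℕ} {X Y : P → Option K → Option K → K} (hX : X ∈ cd D σ x y s)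
    (hY : Y ∈ cd D σ x y t) : X * Y ∈ cd D σ x y (s + t) :=
  ⟨fun j g z => xcD_mul (hX.1 j g z) (hY.1 j g z), fun i g w => ycD_mul (hX.2 i g w) (hY.2 i g w)⟩

/-- the code as a subspace -/
def cdS (σ : K →+* K) (x y : K) (s : ℕ) : Submodule K (P → Option K → Option K → K) where
  carrier := cd D σ x y s
  zero_mem' := code_zero D s
  add_mem' hX hY := code_add D hX hY
  smul_mem' a _ hX := code_smul D a hX

/-- a tuple of registers is a code word iff every register is -/
theorem mem_tuple {ι : Type} (d : ι → ℕ) (X : P → Option K → Option K → ι → K) :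
    X ∈ D.Code (xcT σ x y d) (ycT σ x y d) ↔ ∀ r, (fun g l m => X g l m r) ∈ cd D σ x y (d r) :=
  TP.code_pi D (Ak := fun _ => K) (xc := fun r j z => (xcD σ x y (d r) j z : Set (Option K → K)))
    (yc := fun r i w => (ycD σ x y (d r) i w : Set (Option K → K)))

end closure

end codes

end Crest.Agent.R289.TPInst203
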