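import Crest.Agent.R289.ObjDef_233
import Crest.Agent.R289.TPInst_203

/-!
Row 289, block B (helper203): fields `L_eq`, `M_eq`, `mulX`, `mulY`, `dist`, `rob` of
`Asm12.Obj.OK` for the concrete object `ObjDef233.Par.obj`, from `TPInst_203`.
-/

set_option autoImplicit false

namespace Crest.Agent.R289.TPObj203

open Polynomial
open Crest.Agent.R289.TP846 Crest.Agent.R289.ObjDef233 Crest.Agent.R289.TPInst203

variable (D : Par)

theorem place2 : Place2 D.σ D.x D.y := ⟨D.hσ, D.hx, D.hy, D.hxy, D.hxy'⟩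

theorem X_eq (d : ℕ) (j : Bool) (z : Option D.K) :
    D.X d j z = xcD D.σ D.x D.y (D.dg d) j z := by
  ext u
  cases j
  · rw [D.mem_X_false, mem_xcD_false]
  · rw [D.mem_X_true, mem_xcD_true]
    rfl

theorem Y_eq (d : ℕ) (i : Bool) (w : Option D.K) :
    D.Y d i w = ycD D.σ D.x D.y (D.dg d) i w := by
  ext u
  cases i
  · rw [D.mem_Y_false, mem_ycD_false]
  · rw [D.mem_Y_true, mem_ycD_true]
    rfl

theorem dg_add (d d' : ℕ) : D.dg (d + d') = D.dg d + D.dg d' := by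
  unfold Par.dg; ring

theorem dg_mono {d d' : ℕ} (h : d ≤ d') : D.dg d ≤ D.dg d' := Nat.mul_le_mul_right _ h

/-- the norms are killed by the degrees -/
theorem norm_pow (d : ℕ) (c : D.K) (hc : c ≠ 0) : (c * D.σ c) ^ D.dg d = 1 := by
  have h1 : c ^ (D.q ^ 2 - 1) = 1 := by
    rw [← D.card]; exact FiniteField.pow_card_sub_one_eq_one c hc
  have e : (c * D.σ c) = c ^ (D.q + 1) := by rw [D.frob]; ring
  have h2 : (D.q + 1) * (D.q - 1) = D.q ^ 2 - 1 := by
    rcases Nat.eq_zero_or_pos D.q with h | h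
    · rw [h]; rfl
    · obtain ⟨r, hr⟩ := Nat.exists_eq_add_of_le h
      rw [hr]
      have : (1 + r) ^ 2 = 1 + (r ^ 2 + 2 * r) := by ring
      rw [this, Nat.add_sub_cancel_left, Nat.add_sub_cancel_left]
      ring
  rw [e, ← pow_mul]
  have h3 : (D.q + 1) * D.dg d = (D.q ^ 2 - 1) * (d * 2) := by
    rw [← h2]; unfold Par.dg; ring
  rw [h3, pow_mul, h1, one_pow]

theorem mulX (d d' : ℕ) (j : Bool) (z : Option D.K) (f g : Option D.K → D.K)
    (hf : f ∈ D.X d j z) (hg : g ∈ D.X d' j z) : f * g ∈ D.X (d + d') j z := by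
  rw [X_eq] at hf hg ⊢
  rw [dg_add]
  exact xcD_mul hf hg

theorem mulY (d d' : ℕ) (i : Bool) (w : Option D.K) (f g : Option D.K → D.K)
    (hf : f ∈ D.Y d i w) (hg : g ∈ D.Y d' i w) : f * g ∈ D.Y (d + d') i w := by
  rw [Y_eq] at hf hg ⊢
  rw [dg_add]
  exact ycD_mul hf hg

theorem card_option : Fintype.card (Option D.K) = D.q ^ 2 + 1 := by
  rw [Fintype.card_option, D.card]

/-- distance, numerically -/
theorem dist {M0 : ℕ} (hq : 8 * D.dg M0 + 32 ≤ D.q ^ 2) :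
    ∃ n : ℕ, 3 * Fintype.card (Option D.K) ≤ 4 * n ∧
    (∀ d ≤ M0, ∀ j z, Tan846.Dist (D.X d j z : Set (Option D.K → D.K)) n) ∧
    ∀ d ≤ M0, ∀ i w, Tan846.Dist (D.Y d i w : Set (Option D.K → D.K)) n := by
  refine ⟨Fintype.card D.K + 1 - D.dg M0, ?_, ?_, ?_⟩
  · rw [card_option, D.card]; omega
  · intro d hd j z c hc c' hc' hne
    have h := dist_xcT (D := D.tp 0) (ι := Unit) (place2 D) rfl (fun _ => D.dg d) (D.dg M0)
      (fun _ => dg_mono D hd) j z (fun m _ => c m)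
      (fun _ => by have := hc; rwa [X_eq] at this) (fun m _ => c' m)
      (fun _ => by have := hc'; rwa [X_eq] at this)
      (fun e => hne (funext fun m => congrFun (congrFun e m) ()))
    refine h.trans (Tan846.cnt_le fun m hm => ?_)
    exact fun e => hm (funext fun _ => e)
  · intro d hd i w c hc c' hc' hne
    have h := dist_ycT (D := D.tp 0) (ι := Unit) (place2 D) rfl (fun _ => D.dg d) (D.dg M0)
      (fun _ => dg_mono D hd) i w (fun m _ => c m)
      (fun _ => by have := hc; rwa [Y_eq] at this) (fun m _ => c' m)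
      (fun _ => by have := hc'; rwa [Y_eq] at this)
      (fun e => hne (funext fun m => congrFun (congrFun e m) ()))
    refine h.trans (Tan846.cnt_le fun m hm => ?_)
    exact fun e => hm (funext fun _ => e)

/-- robustness of the bundles -/
theorem rob {M0 : ℕ} (hq : 8 * D.dg M0 + 32 ≤ D.q ^ 2) (κ : Type) [Fintype κ] (deg : κ → ℕ)
    (hdeg : ∀ ρ, deg ρ ≤ M0) (k : ℕ) (i j : Bool) :
    (D.tp k).Rob (fun j z => {c : Option D.K → κ → D.K | ∀ ρ, (fun m => c m ρ) ∈ D.X (deg ρ) j z})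
      (fun i w => {c : Option D.K → κ → D.K | ∀ ρ, (fun l => c l ρ) ∈ D.Y (deg ρ) i w}) i j 92 := by
  have h := TPInst203.rob (D := D.tp k) (ι := κ) (place2 D) rfl rfl (fun ρ => D.dg (deg ρ))
    (D.dg M0) (fun ρ => dg_mono D (hdeg ρ)) (fun ρ => norm_pow D (deg ρ))
    (by rw [D.card]; exact hq) i j
  have e1 : (fun j z => {c : Option D.K → κ → D.K | ∀ ρ, (fun m => c m ρ) ∈ D.X (deg ρ) j z}) =
      xcT D.σ D.x D.y fun ρ => D.dg (deg ρ) := by
    funext j z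
    simp only [X_eq]
    rfl
  have e2 : (fun i w => {c : Option D.K → κ → D.K | ∀ ρ, (fun l => c l ρ) ∈ D.Y (deg ρ) i w}) =
      ycT D.σ D.x D.y fun ρ => D.dg (deg ρ) := by
    funext i w
    simp only [Y_eq]
    rfl
  rw [e1, e2]
  exact h

/-- field `rob` of `Asm12.Obj.OK` (`Kr = 92`) -/
theorem rob_obj (T : D.Tabs) {M0 : ℕ} (hq : 8 * D.dg M0 + 32 ≤ D.q ^ 2) :
    ∀ (κ : Type) [Fintype κ] (deg : κ → ℕ), (∀ ρ, deg ρ ≤ M0) → ∀ k i j,
      ((D.obj T).tp k).Rob ((D.obj T).bX deg) ((D.obj T).bY deg) i j 92 :=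
  fun κ _ deg hdeg k i j => rob D hq κ deg hdeg k i j

/-- field `dist` of `Asm12.Obj.OK` -/
theorem dist_obj (T : D.Tabs) {M0 : ℕ} (hq : 8 * D.dg M0 + 32 ≤ D.q ^ 2) :
    ∃ n : ℕ, 3 * Fintype.card (Option (D.obj T).K) ≤ 4 * n ∧
    (∀ d ≤ M0, ∀ j z, Tan846.Dist ((D.obj T).X d j z : Set (Option (D.obj T).K → (D.obj T).K)) n) ∧
    ∀ d ≤ M0, ∀ i w, Tan846.Dist ((D.obj T).Y d i w : Set (Option (D.obj T).K → (D.obj T).K)) n :=
  dist D hq

theorem L_eq (T : D.Tabs) : ∀ k, ((D.obj T).tp k).L = (D.obj T).L := fun _ => rfl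

theorem M_eq (T : D.Tabs) : ∀ k, ((D.obj T).tp k).M = (D.obj T).M := fun _ => rfl

theorem mulX_obj (T : D.Tabs) : ∀ d d' j z f g, f ∈ (D.obj T).X d j z → g ∈ (D.obj T).X d' j z →
    f * g ∈ (D.obj T).X (d + d') j z := mulX D

theorem mulY_obj (T : D.Tabs) : ∀ d d' i w f g, f ∈ (D.obj T).Y d i w → g ∈ (D.obj T).Y d' i w →
    f * g ∈ (D.obj T).Y (d + d') i w := mulY D

end Crest.Agent.R289.TPObj203
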