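import Crest.Agent.R289.ExpCnt_820

/-!
Row 289, block B, TP4 (helper431, second of 591).

The algebra of the two-place square complex of `K{τ}`.  Elements of `K[t] + K[t] τ` are 820's
`Sk σ`.  `act x l r` is the row action of `r` on `l ∈ K²` at the place `x`
(`l.a = (ā l₀, a l₁)`, `l.τ = (-x l₁, -l₀)`), `be x l` the unique element `1 + b₁ τ + b₂ τ²`
which kills `l`.

* `act_mul`, `act_conj`, `eval_N_of_act`
* `act_be`, `be_unique`, `N_be`
* `uniq_two` : elements of degree `≤ 4` with the same constant term killing `l` at `x` and `m` at `y`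
* `comm` : `be y m * be x (l.be y m) = be x l * be y (m.be x l)`
* `act_be_eq` : `v.be x l = [v;l] • rr x l`, `rr_transport`
-/

set_option autoImplicit false
set_option linter.unusedSectionVars false

namespace Crest.Agent.R289.TPalg431

open Polynomial Crest.Agent.R289.Exp820 Crest.Agent.R289.Exp820.Sk

variable {K : Type*} [Field K] {σ : K →+* K}

/-- row action at the place `x` -/
noncomputable def act (x : K) (l : K × K) (r : Sk σ) : K × K :=
  ((sg σ r.re).eval x * l.1 - x * r.im.eval x * l.2, r.re.eval x * l.2 - (sg σ r.im).eval x * l.1)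

theorem act_mul (hσ : ∀ a, σ (σ a) = a) (x : K) (l : K × K) (r s : Sk σ) :
    act x l (r * s) = act x (act x l r) s := by
  simp only [act, mul_re, mul_im, map_add, map_mul, sg_sg hσ, sg_X, eval_add, eval_mul, eval_X]
  ext <;> simp only <;> ring

theorem act_one (x : K) (l : K × K) : act x l (1 : Sk σ) = l := by
  simp [act]

theorem act_smul (x c : K) (l : K × K) (r : Sk σ) : act x (c • l) r = c • act x l r := by
  simp only [act, Prod.smul_fst, Prod.smul_snd, smul_eq_mul]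
  ext <;> simp only [Prod.smul_fst, Prod.smul_snd, smul_eq_mul] <;> ring

theorem act_zero (x : K) (r : Sk σ) : act x (0 : K × K) r = 0 := by
  simp [act]

/-- `[v;l]` -/
def dt (v l : K × K) : K := v.1 * l.2 - v.2 * l.1

theorem dt_act (x : K) (v l : K × K) (r : Sk σ) :
    dt (act x v r) (act x l r) = (N r).eval x * dt v l := by
  simp only [dt, act, N, eval_sub, eval_mul, eval_X]
  ring

theorem act_conj (hσ : ∀ a, σ (σ a) = a) (x : K) (l : K × K) (r : Sk σ) :
    act x (act x l r) (conj r) = (N r).eval x • l := by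
  simp only [act, conj, N, sg_sg hσ, map_neg, eval_neg, eval_sub, eval_mul, eval_X]
  ext <;> simp only [Prod.smul_fst, Prod.smul_snd, smul_eq_mul] <;> ring

theorem act_conj' (hσ : ∀ a, σ (σ a) = a) (x : K) (l : K × K) (r : Sk σ) :
    act x (act x l (conj r)) r = (N r).eval x • l := by
  simp only [act, conj, N, sg_sg hσ, map_neg, eval_neg, eval_sub, eval_mul, eval_X]
  ext <;> simp only [Prod.smul_fst, Prod.smul_snd, smul_eq_mul] <;> ring

theorem eval_N_of_act (hσ : ∀ a, σ (σ a) = a) {x : K} {l : K × K} {r : Sk σ} (hl : l ≠ 0)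
    (h : act x l r = 0) : (N r).eval x = 0 := by
  have h1 := act_conj hσ x l r
  rw [h, act_zero] at h1
  rcases smul_eq_zero.1 h1.symm with h2 | h2
  · exact h2
  · exact absurd h2 hl

theorem act_ne_zero (hσ : ∀ a, σ (σ a) = a) {x : K} {l : K × K} {r : Sk σ} (hl : l ≠ 0)
    (h : (N r).eval x ≠ 0) : act x l r ≠ 0 := fun h0 => h (eval_N_of_act hσ hl h0)

theorem sg_N (hσ : ∀ a, σ (σ a) = a) (r : Sk σ) : sg σ (N r) = N r := by
  simp only [N, map_sub, map_mul, sg_sg hσ, sg_X]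
  ring

theorem eval_sg (x : K) (p : K[X]) : (sg σ p).eval (σ x) = σ (p.eval x) := by
  simp only [sg, coe_mapRingHom, eval_map, eval₂_hom]

theorem XX_dvd_N (hσ : ∀ a, σ (σ a) = a) {x : K} (hx : σ x ≠ x) {r : Sk σ}
    (h : (N r).eval x = 0) : XX σ x ∣ N r := by
  have h1 : (N r).eval (σ x) = 0 := by
    rw [← sg_N hσ, eval_sg, h, map_zero]
  have c : IsCoprime (X - C x : K[X]) (X - C (σ x)) :=
    isCoprime_X_sub_C_of_isUnit_sub (IsUnit.mk0 _ (sub_ne_zero.2 (Ne.symm hx)))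
  exact c.mul_dvd (dvd_iff_isRoot.2 h) (dvd_iff_isRoot.2 h1)

theorem sg_natDegree' (p : K[X]) : (sg σ p).natDegree = p.natDegree := by
  simp only [sg, coe_mapRingHom]
  exact natDegree_map_eq_of_injective σ.injective p

theorem sg_eq_zero {p : K[X]} : sg σ p = 0 ↔ p = 0 := by
  simp only [sg, coe_mapRingHom]
  exact Polynomial.map_eq_zero σ

/-- anisotropy -/
theorem eq_zero_of_N {r : Sk σ} (h : N r = 0) : r.re = 0 ∧ r.im = 0 := by
  have h1 : r.re * sg σ r.re = X * r.im * sg σ r.im := sub_eq_zero.1 h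
  by_cases hr : r.re = 0
  · refine ⟨hr, ?_⟩
    rw [hr, zero_mul] at h1
    rcases mul_eq_zero.1 h1.symm with h2 | h2
    · rcases mul_eq_zero.1 h2 with h3 | h3
      · exact absurd h3 X_ne_zero
      · exact h3
    · exact sg_eq_zero.1 h2
  · exfalso
    have hi : r.im ≠ 0 := by
      intro hi
      rw [hi, mul_zero, zero_mul] at h1
      rcases mul_eq_zero.1 h1 with h2 | h2
      · exact hr h2
      · exact hr (sg_eq_zero.1 h2)
    have h2 := congrArg natDegree h1
    rw [natDegree_mul hr (fun h => hr (sg_eq_zero.1 h)),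
      natDegree_mul (mul_ne_zero X_ne_zero hi) (fun h => hi (sg_eq_zero.1 h)),
      natDegree_mul X_ne_zero hi, natDegree_X, sg_natDegree', sg_natDegree'] at h2
    omega

/-- an element of degree `≤ 3` killing a line at `x` and a line at `y` is zero -/
theorem zero_of_two (hσ : ∀ a, σ (σ a) = a) {x y : K} (hx : σ x ≠ x) (hy : σ y ≠ y)
    (hxy : x ≠ y) (hxy' : σ x ≠ y) {r : Sk σ} (h1 : r.re.natDegree ≤ 1) (h2 : r.im.natDegree ≤ 1)
    (ex : (N r).eval x = 0) (ey : (N r).eval y = 0) : r.re = 0 ∧ r.im = 0 := by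
  apply eq_zero_of_N
  by_contra hN
  have d1 := XX_dvd_N hσ hx ex
  have d2 := XX_dvd_N hσ hy ey
  have hxy3 : σ x ≠ σ y := fun h => hxy (by rw [← hσ x, h, hσ])
  have hxy4 : x ≠ σ y := fun h => hxy' (by rw [h, hσ])
  have cop : IsCoprime (XX σ x) (XX σ y) := by
    unfold XX
    refine IsCoprime.mul_left ?_ ?_ <;> refine IsCoprime.mul_right ?_ ?_ <;>
      apply isCoprime_X_sub_C_of_isUnit_sub <;> apply IsUnit.mk0 <;> apply sub_ne_zero.2 <;>
      assumption
  have d3 := cop.mul_dvd d1 d2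
  have h3 := natDegree_le_of_dvd d3 hN
  rw [natDegree_mul XX_ne_zero XX_ne_zero, XX_natDegree, XX_natDegree] at h3
  have h4 : (N r).natDegree ≤ 3 := by
    unfold N
    refine (natDegree_sub_le _ _).trans (max_le ?_ ?_)
    · refine natDegree_mul_le.trans ?_
      rw [sg_natDegree']; omega
    · refine natDegree_mul_le.trans ?_
      rw [sg_natDegree']
      have := natDegree_mul_le (p := (X : K[X])) (q := r.im)
      rw [natDegree_X] at this
      omega
  omega


section be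

variable (σ) (x : K)

/-- norm -/
def nm (a : K) : K := a * σ a

/-- `N(l₀) - x N(l₁)` -/
def Q (l : K × K) : K := nm σ l.1 - x * nm σ l.2

/-- its conjugate -/
def Qb (l : K × K) : K := nm σ l.1 - σ x * nm σ l.2

/-- coefficient of `τ` -/
def bet (l : K × K) : K := (x - σ x) / x * (l.1 * σ l.2 / Qb σ x l)

/-- coefficient of `τ²` -/
def gam (l : K × K) : K := - (Qb σ x l / Q σ x l) / σ x

/-- the element `1 + b τ + g τ²` killing `l` -/
noncomputable def be (l : K × K) : Sk σ := ⟨1 + C (gam σ x l) * X, C (bet σ x l)⟩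

end be

section facts

variable {x : K}

theorem sig_nm (hσ : ∀ a, σ (σ a) = a) (a : K) : σ (nm σ a) = nm σ a := by
  simp only [nm, map_mul, hσ]; ring

theorem nm_mul (a b : K) : nm σ (a * b) = nm σ a * nm σ b := by
  simp only [nm, map_mul]; ring

theorem nm_eq_zero {a : K} : nm σ a = 0 ↔ a = 0 := by
  simp [nm]

theorem sig_Q (hσ : ∀ a, σ (σ a) = a) (l : K × K) : σ (Q σ x l) = Qb σ x l := by
  simp only [Q, Qb, map_sub, map_mul, sig_nm hσ]

theorem sig_Qb (hσ : ∀ a, σ (σ a) = a) (l : K × K) : σ (Qb σ x l) = Q σ x l := by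
  rw [← sig_Q hσ, hσ]

theorem Q_ne_zero (hσ : ∀ a, σ (σ a) = a) (hx : σ x ≠ x) {l : K × K} (hl : l ≠ 0) :
    Q σ x l ≠ 0 := by
  intro h
  have h2 : Qb σ x l = 0 := by rw [← sig_Q hσ, h, map_zero]
  have h3 : (σ x - x) * nm σ l.2 = 0 := by
    have : (σ x - x) * nm σ l.2 = Q σ x l - Qb σ x l := by simp only [Q, Qb]; ring
    rw [this, h, h2, sub_zero]
  have h4 : nm σ l.2 = 0 := by
    rcases mul_eq_zero.1 h3 with h5 | h5
    · exact absurd (sub_eq_zero.1 h5) hx
    · exact h5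
  have h5 : nm σ l.1 = 0 := by
    have := h; simp only [Q, h4, mul_zero, sub_zero] at this; exact this
  apply hl
  ext
  · exact nm_eq_zero.1 h5
  · exact nm_eq_zero.1 h4

theorem Qb_ne_zero (hσ : ∀ a, σ (σ a) = a) (hx : σ x ≠ x) {l : K × K} (hl : l ≠ 0) :
    Qb σ x l ≠ 0 := by
  rw [← sig_Q hσ]
  exact (map_ne_zero σ).2 (Q_ne_zero hσ hx hl)

theorem ne_zero_of (hx : σ x ≠ x) : x ≠ 0 := by
  rintro rfl; exact hx (map_zero σ)

theorem sx_ne_zero_of (hx : σ x ≠ x) : σ x ≠ 0 := (map_ne_zero σ).2 (ne_zero_of hx)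

theorem sig_gam (hσ : ∀ a, σ (σ a) = a) (l : K × K) :
    σ (gam σ x l) = - (Q σ x l / Qb σ x l) / x := by
  simp only [gam, map_div₀, map_neg, sig_Q hσ, sig_Qb hσ, hσ]

theorem sig_bet (hσ : ∀ a, σ (σ a) = a) (l : K × K) :
    σ (bet σ x l) = (σ x - x) / σ x * (σ l.1 * l.2 / Q σ x l) := by
  simp only [bet, map_div₀, map_mul, map_sub, sig_Qb hσ, hσ]

/-- the right kernel vector (before conjugation): `u.be l = [u;l] rr l` -/
def rr (σ : K →+* K) (x : K) (l : K × K) : K × K :=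
  ((x - σ x) * (σ l.2 / Qb σ x l), (x - σ x) * (σ l.1 / (σ x * Q σ x l)))

theorem act_be_eq (hσ : ∀ a, σ (σ a) = a) (hx : σ x ≠ x) {l : K × K} (hl : l ≠ 0)
    (v : K × K) : act x v (be σ x l) = dt v l • rr σ x l := by
  have hQ := Q_ne_zero hσ hx hl
  have hQb := Qb_ne_zero hσ hx hl
  have hx0 := ne_zero_of hx
  have hsx0 := sx_ne_zero_of hx
  ext
  · simp only [act, be, dt, rr, map_add, map_mul, map_one, sg_C, sg_X, eval_add, eval_one,
      eval_mul, eval_C, eval_X, sig_gam hσ, Prod.smul_fst, smul_eq_mul]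
    rw [bet]
    field_simp
    simp only [Q, Qb, nm]
    ring
  · simp only [act, be, dt, rr, map_add, map_mul, map_one, sg_C, sg_X, eval_add, eval_one,
      eval_mul, eval_C, eval_X, sig_bet hσ, Prod.smul_snd, smul_eq_mul]
    rw [gam]
    field_simp
    simp only [Q, Qb, nm]
    ring

theorem act_be (hσ : ∀ a, σ (σ a) = a) (hx : σ x ≠ x) {l : K × K} (hl : l ≠ 0) :
    act x l (be σ x l) = 0 := by
  rw [act_be_eq hσ hx hl]
  have : dt l l = 0 := by simp [dt]; ring
  rw [this, zero_smul]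

theorem Q_smul (c : K) (l : K × K) : Q σ x (c • l) = nm σ c * Q σ x l := by
  simp only [Q, Prod.smul_fst, Prod.smul_snd, smul_eq_mul, nm_mul]; ring

theorem Qb_smul (c : K) (l : K × K) : Qb σ x (c • l) = nm σ c * Qb σ x l := by
  simp only [Qb, Prod.smul_fst, Prod.smul_snd, smul_eq_mul, nm_mul]; ring

theorem be_smul {c : K} (hc : c ≠ 0) (l : K × K) : be σ x (c • l) = be σ x l := by
  have hn : nm σ c ≠ 0 := fun h => hc (nm_eq_zero.1 h)
  have h1 : gam σ x (c • l) = gam σ x l := by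
    simp only [gam, Q_smul, Qb_smul]
    rw [mul_div_mul_left _ _ hn]
  have h2 : bet σ x (c • l) = bet σ x l := by
    simp only [bet, Qb_smul, Prod.smul_fst, Prod.smul_snd, smul_eq_mul, map_mul]
    congr 1
    have : c * l.1 * (σ c * σ l.2) = nm σ c * (l.1 * σ l.2) := by simp only [nm]; ring
    rw [this, mul_div_mul_left _ _ hn]
  simp only [be, h1, h2]

theorem rr_smul {c : K} (hc : c ≠ 0) (l : K × K) : rr σ x (c • l) = c⁻¹ • rr σ x l := by
  have hsc : σ c ≠ 0 := (map_ne_zero σ).2 hc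
  by_cases hQ : Q σ x l = 0
  · by_cases hQb : Qb σ x l = 0
    · ext <;> simp [rr, Q_smul, Qb_smul, hQ, hQb]
    · ext
      · simp only [rr, Qb_smul, Prod.smul_fst, Prod.smul_snd, smul_eq_mul, map_mul]
        simp only [nm]; field_simp
      · simp [rr, Q_smul, hQ]
  · by_cases hQb : Qb σ x l = 0
    · ext
      · simp [rr, Qb_smul, hQb]
      · simp only [rr, Q_smul, Prod.smul_fst, Prod.smul_snd, smul_eq_mul, map_mul]
        simp only [nm]; field_simp
    · ext
      · simp only [rr, Qb_smul, Prod.smul_fst, Prod.smul_snd, smul_eq_mul, map_mul]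
        simp only [nm]; field_simp
      · simp only [rr, Q_smul, Prod.smul_fst, Prod.smul_snd, smul_eq_mul, map_mul]
        simp only [nm]; field_simp

theorem rr_ne_zero (hσ : ∀ a, σ (σ a) = a) (hx : σ x ≠ x) {l : K × K} (hl : l ≠ 0) :
    rr σ x l ≠ 0 := by
  intro h
  have hQ := Q_ne_zero hσ hx hl
  have hQb := Qb_ne_zero hσ hx hl
  have hd : x - σ x ≠ 0 := sub_ne_zero.2 (Ne.symm hx)
  have hsx0 := sx_ne_zero_of hx
  have h1 : (x - σ x) * (σ l.2 / Qb σ x l) = 0 := congrArg Prod.fst h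
  have h2 : (x - σ x) * (σ l.1 / (σ x * Q σ x l)) = 0 := congrArg Prod.snd h
  apply hl
  ext
  · rcases mul_eq_zero.1 h2 with h3 | h3
    · exact absurd h3 hd
    · rcases div_eq_zero_iff.1 h3 with h4 | h4
      · exact (map_eq_zero σ).1 h4
      · exact absurd h4 (mul_ne_zero hsx0 hQ)
  · rcases mul_eq_zero.1 h1 with h3 | h3
    · exact absurd h3 hd
    · rcases div_eq_zero_iff.1 h3 with h4 | h4
      · exact (map_eq_zero σ).1 h4
      · exact absurd h4 hQb

theorem N_be (hσ : ∀ a, σ (σ a) = a) (hx : σ x ≠ x) {l : K × K} (hl : l ≠ 0) :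
    C (x * σ x) * N (be σ x l) = XX σ x := by
  have hQ := Q_ne_zero hσ hx hl
  have hQb := Qb_ne_zero hσ hx hl
  have hx0 := ne_zero_of hx
  have hsx0 := sx_ne_zero_of hx
  have e1 : x * σ x * (gam σ x l * σ (gam σ x l)) = 1 := by
    rw [sig_gam hσ, gam]; field_simp
  have e2 : x * σ x * (gam σ x l + σ (gam σ x l) - bet σ x l * σ (bet σ x l)) = -(x + σ x) := by
    rw [sig_gam hσ, gam, sig_bet hσ, bet]; field_simp; simp only [Q, Qb, nm]; ring
  have : C (x * σ x) * N (be σ x l) = C (x * σ x) +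
      C (x * σ x * (gam σ x l + σ (gam σ x l) - bet σ x l * σ (bet σ x l))) * X +
      C (x * σ x * (gam σ x l * σ (gam σ x l))) * X ^ 2 := by
    simp only [N, be, map_add, map_mul, map_one, sg_C, sg_X, C_sub]
    ring
  rw [this, e1, e2]
  simp only [XX, C_neg, C_add, C_mul, C_1]
  ring

theorem N_be_eval (hσ : ∀ a, σ (σ a) = a) (hx : σ x ≠ x) {l : K × K} (hl : l ≠ 0) (y : K) :
    (N (be σ x l)).eval y = (x * σ x)⁻¹ * ((y - x) * (y - σ x)) := by
  have h := congrArg (eval y) (N_be hσ hx hl)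
  have hx0 : x * σ x ≠ 0 := mul_ne_zero (ne_zero_of hx) (sx_ne_zero_of hx)
  simp only [XX, eval_mul, eval_C, eval_sub, eval_X] at h
  rw [← h, inv_mul_cancel_left₀ hx0]

theorem N_be_eval_ne (hσ : ∀ a, σ (σ a) = a) (hx : σ x ≠ x) {l : K × K} (hl : l ≠ 0) {y : K}
    (h1 : x ≠ y) (h2 : σ x ≠ y) : (N (be σ x l)).eval y ≠ 0 := by
  rw [N_be_eval hσ hx hl]
  exact mul_ne_zero (inv_ne_zero (mul_ne_zero (ne_zero_of hx) (sx_ne_zero_of hx)))
    (mul_ne_zero (sub_ne_zero.2 (Ne.symm h1)) (sub_ne_zero.2 (Ne.symm h2)))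

end facts


section two

variable {x y : K}

/-- difference of two elements -/
noncomputable def df (r s : Sk σ) : Sk σ := ⟨r.re - s.re, r.im - s.im⟩

theorem act_df (x : K) (l : K × K) (r s : Sk σ) : act x l (df r s) = act x l r - act x l s := by
  simp only [act, df, map_sub, eval_sub]
  ext <;> simp only [Prod.fst_sub, Prod.snd_sub] <;> ring

theorem df_mul (r s u : Sk σ) : df r s * u = df (r * u) (s * u) := by
  simp only [df]
  ext1 <;> simp only [mul_re, mul_im] <;> ring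

theorem mul_df (r s u : Sk σ) : u * df r s = df (u * r) (u * s) := by
  simp only [df]
  ext1 <;> simp only [mul_re, mul_im, map_sub] <;> ring

theorem eq_of_df {r s : Sk σ} (h : N (df r s) = 0) : r = s := by
  obtain ⟨h1, h2⟩ := eq_zero_of_N h
  ext1
  · exact sub_eq_zero.1 h1
  · exact sub_eq_zero.1 h2

/-- a product of two `be`'s is `⟨1 + X P, R⟩` with `P, R` of degree `≤ 1` -/
theorem shape (_hσ : ∀ a, σ (σ a) = a) (x y : K) (l m : K × K) :
    ∃ P R : K[X], P.natDegree ≤ 1 ∧ R.natDegree ≤ 1 ∧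
      be σ x l * be σ y m = ⟨1 + X * P, R⟩ := by
  refine ⟨C (gam σ x l + gam σ y m + bet σ x l * σ (bet σ y m)) +
    C (gam σ x l * gam σ y m) * X, C (bet σ x l + bet σ y m) +
    C (gam σ x l * bet σ y m + bet σ x l * σ (gam σ y m)) * X, ?_, ?_, ?_⟩
  · compute_degree
  · compute_degree
  · ext1
    · simp only [mul_re, be, sg_C, C_add, C_mul]; ring
    · simp only [mul_im, be, map_add, map_mul, map_one, sg_C, sg_X, C_add, C_mul]; ring

/-- uniqueness of the quartic killing `l` at `x` and `m` at `y` (in terms of norms) -/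
theorem uniq4 (hσ : ∀ a, σ (σ a) = a) (hx : σ x ≠ x) (hy : σ y ≠ y)
    (hxy : x ≠ y) (hxy' : σ x ≠ y) {r s : Sk σ} {P R P' R' : K[X]} (hP : P.natDegree ≤ 1)
    (hR : R.natDegree ≤ 1) (hP' : P'.natDegree ≤ 1) (hR' : R'.natDegree ≤ 1)
    (hr : r = ⟨1 + X * P, R⟩) (hs : s = ⟨1 + X * P', R'⟩)
    (ex : (N (df r s)).eval x = 0) (ey : (N (df r s)).eval y = 0) : r = s := by
  have hN : N (df r s) = - X * N (⟨R - R', P - P'⟩ : Sk σ) := by
    subst hr hs
    simp only [N, df, map_sub, map_add, map_mul, map_one, sg_X]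
    ring
  have ex' : (N (⟨R - R', P - P'⟩ : Sk σ)).eval x = 0 := by
    rw [hN, eval_mul, eval_neg, eval_X] at ex
    rcases mul_eq_zero.1 ex with h | h
    · exact absurd (neg_eq_zero.1 h) (ne_zero_of hx)
    · exact h
  have ey' : (N (⟨R - R', P - P'⟩ : Sk σ)).eval y = 0 := by
    rw [hN, eval_mul, eval_neg, eval_X] at ey
    rcases mul_eq_zero.1 ey with h | h
    · exact absurd (neg_eq_zero.1 h) (ne_zero_of hy)
    · exact h
  have h := zero_of_two hσ hx hy hxy hxy' (r := (⟨R - R', P - P'⟩ : Sk σ))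
    ((natDegree_sub_le _ _).trans (max_le hR hR')) ((natDegree_sub_le _ _).trans (max_le hP hP'))
    ex' ey'
  have h1 : R = R' := sub_eq_zero.1 h.1
  have h2 : P = P' := sub_eq_zero.1 h.2
  rw [hr, hs, h1, h2]

/-- **unique factorisation in the two orders** -/
theorem comm (hσ : ∀ a, σ (σ a) = a) (hx : σ x ≠ x) (hy : σ y ≠ y)
    (hxy : x ≠ y) (hxy' : σ x ≠ y) {l m : K × K} (hl : l ≠ 0) (hm : m ≠ 0) :
    be σ y m * be σ x (act x l (be σ y m)) = be σ x l * be σ y (act y m (be σ x l)) := by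
  have hyx' : σ y ≠ x := fun h => hxy' (by rw [← h, hσ])
  have hL : act x l (be σ y m) ≠ 0 :=
    act_ne_zero hσ hl (N_be_eval_ne hσ hy hm (Ne.symm hxy) hyx')
  have hM : act y m (be σ x l) ≠ 0 :=
    act_ne_zero hσ hm (N_be_eval_ne hσ hx hl hxy hxy')
  obtain ⟨P, R, hP, hR, e1⟩ := shape (σ := σ) hσ y x m (act x l (be σ y m))
  obtain ⟨P', R', hP', hR', e2⟩ := shape (σ := σ) hσ x y l (act y m (be σ x l))
  refine uniq4 hσ hx hy hxy hxy' hP hR hP' hR' e1 e2 ?_ ?_
  · refine eval_N_of_act hσ hl ?_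
    rw [act_df, act_mul hσ, act_be hσ hx hL, act_mul hσ, act_be hσ hx hl, act_zero, sub_zero]
  · refine eval_N_of_act hσ hm ?_
    rw [act_df, act_mul hσ, act_be hσ hy hm, act_zero, act_mul hσ, act_be hσ hy hM, sub_zero]

theorem dt_of_be_eq (hσ : ∀ a, σ (σ a) = a) (hx : σ x ≠ x) {l l' : K × K} (hl : l ≠ 0)
    (hl' : l' ≠ 0) (h : be σ x l = be σ x l') : dt l l' = 0 := by
  have h1 := act_be hσ hx hl
  rw [h, act_be_eq hσ hx hl'] at h1
  rcases smul_eq_zero.1 h1 with h2 | h2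
  · exact h2
  · exact absurd h2 (rr_ne_zero hσ hx hl')

theorem exists_smul_of_dt {l l' : K × K} (hl : l ≠ 0) (hl' : l' ≠ 0) (h : dt l l' = 0) :
    ∃ c : K, c ≠ 0 ∧ l = c • l' := by
  have h' : l.1 * l'.2 = l.2 * l'.1 := sub_eq_zero.1 h
  by_cases h1 : l'.1 = 0
  · have h2 : l'.2 ≠ 0 := fun h2 => hl' (Prod.ext h1 h2)
    have h3 : l.1 = 0 := by
      rw [h1, mul_zero] at h'
      rcases mul_eq_zero.1 h' with h4 | h4
      · exact h4
      · exact absurd h4 h2
    have h4 : l.2 ≠ 0 := fun h4 => hl (Prod.ext h3 h4)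
    refine ⟨l.2 / l'.2, div_ne_zero h4 h2, Prod.ext ?_ ?_⟩
    · simp [h1, h3]
    · simp only [Prod.smul_snd, smul_eq_mul]; field_simp
  · have h4 : l.1 ≠ 0 := by
      intro h4
      rw [h4, zero_mul] at h'
      rcases mul_eq_zero.1 h'.symm with h5 | h5
      · exact hl (Prod.ext h4 h5)
      · exact h1 h5
    refine ⟨l.1 / l'.1, div_ne_zero h4 h1, Prod.ext ?_ ?_⟩
    · simp only [Prod.smul_fst, smul_eq_mul]; field_simp
    · simp only [Prod.smul_snd, smul_eq_mul]; field_simp; exact h'.symm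

theorem be_eq_of_dt {l l' : K × K} (hl : l ≠ 0) (hl' : l' ≠ 0) (h : dt l l' = 0) :
    be σ x l = be σ x l' := by
  obtain ⟨c, hc, rfl⟩ := exists_smul_of_dt hl hl' h
  exact be_smul hc l'

/-- corner injectivity: `(l, m) ↦ (l.be m, m.be l)` is injective on pairs of lines -/
theorem corner_inj (hσ : ∀ a, σ (σ a) = a) (hx : σ x ≠ x) (hy : σ y ≠ y)
    (hxy : x ≠ y) (hxy' : σ x ≠ y) {l m l' m' : K × K} (hl : l ≠ 0) (hm : m ≠ 0) (hl' : l' ≠ 0)
    (hm' : m' ≠ 0) (h1 : dt (act x l (be σ y m)) (act x l' (be σ y m')) = 0)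
    (h2 : dt (act y m (be σ x l)) (act y m' (be σ x l')) = 0) : dt l l' = 0 ∧ dt m m' = 0 := by
  have hyx' : σ y ≠ x := fun h => hxy' (by rw [← h, hσ])
  have hL : act x l (be σ y m) ≠ 0 :=
    act_ne_zero hσ hl (N_be_eval_ne hσ hy hm (Ne.symm hxy) hyx')
  have hM : act y m (be σ x l) ≠ 0 :=
    act_ne_zero hσ hm (N_be_eval_ne hσ hx hl hxy hxy')
  have hL' : act x l' (be σ y m') ≠ 0 :=
    act_ne_zero hσ hl' (N_be_eval_ne hσ hy hm' (Ne.symm hxy) hyx')
  have hM' : act y m' (be σ x l') ≠ 0 :=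
    act_ne_zero hσ hm' (N_be_eval_ne hσ hx hl' hxy hxy')
  have c1 := comm hσ hx hy hxy hxy' hl hm
  have c2 := comm hσ hx hy hxy hxy' hl' hm'
  have eL : be σ x (act x l (be σ y m)) = be σ x (act x l' (be σ y m')) := be_eq_of_dt hL hL' h1
  have eM : be σ y (act y m (be σ x l)) = be σ y (act y m' (be σ x l')) := be_eq_of_dt hM hM' h2
  obtain ⟨P, R, hP, hR, e1⟩ := shape (σ := σ) hσ y x m (act x l (be σ y m))
  obtain ⟨P', R', hP', hR', e2⟩ := shape (σ := σ) hσ y x m' (act x l' (be σ y m'))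
  have key : be σ y m * be σ x (act x l (be σ y m)) =
      be σ y m' * be σ x (act x l' (be σ y m')) := by
    refine uniq4 hσ hx hy hxy hxy' hP hR hP' hR' e1 e2 ?_ ?_
    · rw [← eL, ← df_mul, N_mul hσ, eval_mul, N_be_eval hσ hx hL]
      simp
    · rw [c1, c2, ← eM, ← df_mul, N_mul hσ, eval_mul, N_be_eval hσ hy hM]
      simp
  have hbe : ∀ {z : K} (hz : σ z ≠ z) {v : K × K} (hv : v ≠ 0), N (be σ z v) ≠ 0 := by
    intro z hz v hv h
    have := N_be hσ hz hv
    rw [h, mul_zero] at this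
    exact XX_ne_zero this.symm
  constructor
  · refine dt_of_be_eq hσ hx hl hl' (eq_of_df ?_)
    have h3 : N (df (be σ x l) (be σ x l') * be σ y (act y m (be σ x l))) = 0 := by
      rw [df_mul, ← c1, eM, ← c2, key]
      simp [df, N]
    rw [N_mul hσ] at h3
    rcases mul_eq_zero.1 h3 with h4 | h4
    · exact h4
    · exact absurd h4 (hbe hy hM)
  · refine dt_of_be_eq hσ hy hm hm' (eq_of_df ?_)
    have h3 : N (df (be σ y m) (be σ y m') * be σ x (act x l (be σ y m))) = 0 := by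
      rw [df_mul, eL, ← key, eL]
      simp [df, N]
    rw [N_mul hσ] at h3
    rcases mul_eq_zero.1 h3 with h4 | h4
    · exact h4
    · exact absurd h4 (hbe hx hL)

theorem exists_dt_one {l : K × K} (hl : l ≠ 0) : ∃ v, dt v l = 1 := by
  by_cases h : l.2 = 0
  · have h1 : l.1 ≠ 0 := fun h1 => hl (Prod.ext h1 h)
    exact ⟨(0, -l.1⁻¹), by simp [dt, h1]⟩
  · exact ⟨(l.2⁻¹, 0), by simp [dt, h]⟩

/-- **(F4)** transport of the odd coordinate across an edge of the other place -/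
theorem rr_transport (hσ : ∀ a, σ (σ a) = a) (hx : σ x ≠ x) (hy : σ y ≠ y)
    (hxy : x ≠ y) (hxy' : σ x ≠ y) {l m : K × K} (hl : l ≠ 0) (hm : m ≠ 0) :
    (N (be σ y m)).eval x • rr σ x (act x l (be σ y m)) =
      act x (rr σ x l) (be σ y (act y m (be σ x l))) := by
  have hyx' : σ y ≠ x := fun h => hxy' (by rw [← h, hσ])
  have hL : act x l (be σ y m) ≠ 0 :=
    act_ne_zero hσ hl (N_be_eval_ne hσ hy hm (Ne.symm hxy) hyx')
  obtain ⟨v, hv⟩ := exists_dt_one hl
  have h := congrArg (act x v) (comm hσ hx hy hxy hxy' hl hm)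
  rw [act_mul hσ, act_mul hσ, act_be_eq hσ hx hL, act_be_eq hσ hx hl, dt_act, hv, mul_one,
    one_smul] at h
  exact h

/-- conjugate of a vector -/
def sp (σ : K →+* K) (v : K × K) : K × K := (σ v.1, σ v.2)

/-- conjugate of the action -/
noncomputable def actc (x : K) (v : K × K) (r : Sk σ) : K × K :=
  (r.re.eval (σ x) * v.1 - σ x * (sg σ r.im).eval (σ x) * v.2,
    (sg σ r.re).eval (σ x) * v.2 - r.im.eval (σ x) * v.1)

theorem sp_act (hσ : ∀ a, σ (σ a) = a) (x : K) (v : K × K) (r : Sk σ) :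
    sp σ (act x v r) = actc x (sp σ v) r := by
  have h : ∀ p : K[X], σ ((sg σ p).eval x) = p.eval (σ x) := by
    intro p; rw [← eval_sg, sg_sg hσ]
  simp only [sp, act, actc, map_sub, map_mul, h, eval_sg]

theorem sp_smul (c : K) (v : K × K) : sp σ (c • v) = σ c • sp σ v := by
  simp [sp]

theorem sp_ne_zero {v : K × K} (hv : v ≠ 0) : sp σ v ≠ 0 := by
  intro h
  apply hv
  ext
  · exact (map_eq_zero σ).1 (congrArg Prod.fst h)
  · exact (map_eq_zero σ).1 (congrArg Prod.snd h)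

/-- the odd coordinate -/
def psi (σ : K →+* K) (x : K) (l : K × K) : K × K := sp σ (rr σ x l)

theorem psi_ne_zero (hσ : ∀ a, σ (σ a) = a) (hx : σ x ≠ x) {l : K × K} (hl : l ≠ 0) :
    psi σ x l ≠ 0 := sp_ne_zero (rr_ne_zero hσ hx hl)

theorem psi_smul {c : K} (hc : c ≠ 0) (l : K × K) : psi σ x (c • l) = (σ c)⁻¹ • psi σ x l := by
  rw [psi, rr_smul hc, sp_smul, map_inv₀]; rfl

theorem psi_transport (hσ : ∀ a, σ (σ a) = a) (hx : σ x ≠ x) (hy : σ y ≠ y)
    (hxy : x ≠ y) (hxy' : σ x ≠ y) {l m : K × K} (hl : l ≠ 0) (hm : m ≠ 0) :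
    σ ((N (be σ y m)).eval x) • psi σ x (act x l (be σ y m)) =
      actc x (psi σ x l) (be σ y (act y m (be σ x l))) := by
  rw [psi, psi, ← sp_act hσ, ← rr_transport hσ hx hy hxy hxy' hl hm, sp_smul]

theorem psi_eq (hσ : ∀ a, σ (σ a) = a) (l : K × K) : psi σ x l =
    ((σ x - x) * (l.2 / Q σ x l), (σ x - x) * (l.1 / (x * Qb σ x l))) := by
  simp only [psi, sp, rr, map_mul, map_sub, map_div₀, sig_Qb hσ, sig_Q hσ, hσ]

/-- `psi` is injective on lines -/
theorem psi_line_inj (hσ : ∀ a, σ (σ a) = a) (hx : σ x ≠ x) {l l' : K × K} (hl : l ≠ 0)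
    (hl' : l' ≠ 0) (h : dt (psi σ x l) (psi σ x l') = 0) : dt l l' = 0 := by
  have hQ := Q_ne_zero hσ hx hl
  have hQb := Qb_ne_zero hσ hx hl
  have hQ' := Q_ne_zero hσ hx hl'
  have hQb' := Qb_ne_zero hσ hx hl'
  have hx0 := ne_zero_of hx
  have hd : σ x - x ≠ 0 := sub_ne_zero.2 hx
  rw [psi_eq hσ, psi_eq hσ, dt] at h
  simp only at h
  -- l₂ l'₁ Qb Q' = l₁ l'₂ Q Qb'
  have e : l.2 * l'.1 * (Qb σ x l * Q σ x l') = l.1 * l'.2 * (Q σ x l * Qb σ x l') := by
    have h3 : (σ x - x) ^ 2 * (l.2 * l'.1 * (Qb σ x l * Q σ x l') -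
        l.1 * l'.2 * (Q σ x l * Qb σ x l')) = 0 := by
      field_simp at h
      linear_combination h
    rcases mul_eq_zero.1 h3 with h4 | h4
    · exact absurd h4 (pow_ne_zero 2 hd)
    · exact sub_eq_zero.1 h4
  have n1 := congrArg (nm σ) e
  simp only [nm_mul] at n1
  have q1 : nm σ (Qb σ x l) = nm σ (Q σ x l) := by
    simp only [nm, sig_Qb hσ, sig_Q hσ]; ring
  have q2 : nm σ (Qb σ x l') = nm σ (Q σ x l') := by
    simp only [nm, sig_Qb hσ, sig_Q hσ]; ring
  rw [q1, q2] at n1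
  have hnQ : nm σ (Q σ x l) ≠ 0 := fun h => hQ (nm_eq_zero.1 h)
  have hnQ' : nm σ (Q σ x l') ≠ 0 := fun h => hQ' (nm_eq_zero.1 h)
  have n2 : nm σ l.2 * nm σ l'.1 = nm σ l.1 * nm σ l'.2 :=
    mul_right_cancel₀ (mul_ne_zero hnQ hnQ') n1
  have e2 : Qb σ x l * Q σ x l' = Q σ x l * Qb σ x l' := by
    simp only [Q, Qb]
    linear_combination (σ x - x) * (-n2)
  rw [e2] at e
  have e3 := mul_right_cancel₀ (mul_ne_zero hQ hQb') e
  rw [dt, ← e3, sub_self]

end two

end Crest.Agent.R289.TPalg431
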