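import Crest.Agent.R289.ExpCnt_820

/-!
Row 289, block B / TP4a (helper922).  Algebra core of the concrete two-place square complex of
`K{τ}` (`τ² = t`, `τ a = (σ a) τ`), on top of helper820's `Sk σ`.

* `act c l r` : right action of `r = re + im τ` on row vectors `l = (l0, l1)` at the place `t = c`;
* `be c l`   : the element `1 + bet τ + gam τ²` of norm `XX/XX(0)` killed by `l`;
* `fact`     : `be x l * be y (m.be x l) = be y m * be x (l.be y m)`;
* bijectivity statements on lines.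
-/

set_option autoImplicit false
set_option linter.unusedSectionVars false

namespace Crest.Agent.R289.TPalg922

open Polynomial Crest.Agent.R289.Exp820 Crest.Agent.R289.Exp820.Sk

variable {K : Type*} [Field K] {σ : K →+* K}

/-- right action on row vectors at the place `c` (helper223 (N1)) -/
noncomputable def act (c : K) (l : K × K) (r : Sk σ) : K × K :=
  ((sg σ r.re).eval c * l.1 - c * r.im.eval c * l.2, r.re.eval c * l.2 - (sg σ r.im).eval c * l.1)

theorem act_one (c : K) (l : K × K) : act c l (1 : Sk σ) = l := by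
  simp [act]

theorem act_mul (hσ : ∀ a, σ (σ a) = a) (c : K) (l : K × K) (r s : Sk σ) :
    act c l (r * s) = act c (act c l r) s := by
  ext
  · simp only [act, mul_re, mul_im, map_add, map_mul, sg_sg hσ, sg_X, eval_add, eval_mul, eval_X]
    ring
  · simp only [act, mul_re, mul_im, map_add, map_mul, sg_sg hσ, sg_X, eval_add, eval_mul, eval_X]
    ring

theorem act_zero (c : K) (r : Sk σ) : act c (0, 0) r = (0, 0) := by
  simp [act]

/-- the action is linear -/
theorem act_smul (c a : K) (l : K × K) (r : Sk σ) :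
    act c (a * l.1, a * l.2) r = (a * (act c l r).1, a * (act c l r).2) := by
  ext <;> simp only [act] <;> ring

/-- norm and determinant -/
theorem act_adj1 (c : K) (l : K × K) (r : Sk σ) :
    r.re.eval c * (act c l r).1 + c * r.im.eval c * (act c l r).2 = (N r).eval c * l.1 := by
  simp only [act, N, eval_sub, eval_mul, eval_X]
  ring

theorem act_adj2 (c : K) (l : K × K) (r : Sk σ) :
    (sg σ r.im).eval c * (act c l r).1 + (sg σ r.re).eval c * (act c l r).2
      = (N r).eval c * l.2 := by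
  simp only [act, N, eval_sub, eval_mul, eval_X]
  ring

theorem N_eval_of_ker {c : K} {l : K × K} {r : Sk σ} (hl : l ≠ (0, 0)) (h : act c l r = (0, 0)) :
    (N r).eval c = 0 := by
  have h1 := act_adj1 c l r
  have h2 := act_adj2 c l r
  rw [h] at h1 h2
  simp only [mul_zero, add_zero] at h1 h2
  by_contra hN
  apply hl
  have e1 : l.1 = 0 := by
    rcases mul_eq_zero.1 h1.symm with h | h
    · exact absurd h hN
    · exact h
  have e2 : l.2 = 0 := by
    rcases mul_eq_zero.1 h2.symm with h | h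
    · exact absurd h hN
    · exact h
  exact Prod.ext e1 e2

theorem act_ne_zero {c : K} {l : K × K} {r : Sk σ} (hl : l ≠ (0, 0)) (hN : (N r).eval c ≠ 0) :
    act c l r ≠ (0, 0) := fun h => hN (N_eval_of_ker hl h)

/-! ### norms -/

theorem sg_N (hσ : ∀ a, σ (σ a) = a) (r : Sk σ) : sg σ (N r) = N r := by
  simp only [N, map_sub, map_mul, sg_sg hσ, sg_X]
  ring

theorem eval_sg (p : K[X]) (hσ : ∀ a, σ (σ a) = a) (c : K) :
    (sg σ p).eval c = σ (p.eval (σ c)) := by
  rw [sg, coe_mapRingHom, eval_map, ← eval₂_at_apply, hσ]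

theorem N_eval_conj (hσ : ∀ a, σ (σ a) = a) (r : Sk σ) (c : K) :
    (N r).eval (σ c) = σ ((N r).eval c) := by
  have h := eval_sg (N r) hσ (σ c)
  rw [hσ, sg_N hσ] at h
  exact h

/-- the norm form is anisotropic -/
theorem N_eq_zero {r : Sk σ} (h : N r = 0) : r.re = 0 ∧ r.im = 0 := by
  have hE : r.re * sg σ r.re = X * (r.im * sg σ r.im) := by
    have := sub_eq_zero.1 h
    rw [this]; ring
  by_cases hi : r.im = 0
  · refine ⟨?_, hi⟩
    rw [hi] at hE
    simp only [zero_mul, mul_zero] at hE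
    rcases mul_eq_zero.1 hE with h | h
    · exact h
    · exact (map_eq_zero_iff _ (sg_injective (σ := σ))).1 h
  · exfalso
    have hi' : sg σ r.im ≠ 0 := (map_ne_zero_iff _ (sg_injective (σ := σ))).2 hi
    have hr : r.re ≠ 0 := by
      intro h0
      rw [h0, zero_mul] at hE
      exact mul_ne_zero X_ne_zero (mul_ne_zero hi hi') hE.symm
    have hr' : sg σ r.re ≠ 0 := (map_ne_zero_iff _ (sg_injective (σ := σ))).2 hr
    have h1 := congrArg natDegree hE
    rw [natDegree_mul hr hr', natDegree_X_mul (mul_ne_zero hi hi'), natDegree_mul hi hi',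
      sg_natDegree, sg_natDegree] at h1
    omega

/-- difference -/
noncomputable def dif (r s : Sk σ) : Sk σ := ⟨r.re - s.re, r.im - s.im⟩

theorem dif_eq_zero {r s : Sk σ} (h : N (dif r s) = 0) : r = s := by
  obtain ⟨h1, h2⟩ := N_eq_zero h
  exact Sk.ext (sub_eq_zero.1 h1) (sub_eq_zero.1 h2)

theorem dif_mul (r s u : Sk σ) : dif (r * u) (s * u) = dif r s * u := by
  ext1 <;> simp only [dif, mul_re, mul_im] <;> ring

theorem act_dif (c : K) (l : K × K) (r s : Sk σ) :
    act c l (dif r s) = ((act c l r).1 - (act c l s).1, (act c l r).2 - (act c l s).2) := by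
  ext <;> simp only [act, dif, map_sub, eval_sub] <;> ring

/-- the shape of a product of two quadratic elements with constant term 1 -/
structure Q4 (r : Sk σ) : Prop where
  re_deg : r.re.natDegree ≤ 2
  im_deg : r.im.natDegree ≤ 1
  re_zero : r.re.coeff 0 = 1

theorem N_dif_degree {r s : Sk σ} (hr : Q4 r) (hs : Q4 s) : (N (dif r s)).degree < 5 := by
  have n1 : (r.re - s.re).natDegree ≤ 2 :=
    (natDegree_sub_le _ _).trans (max_le hr.re_deg hs.re_deg)
  have n2 : (r.im - s.im).natDegree ≤ 1 :=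
    (natDegree_sub_le _ _).trans (max_le hr.im_deg hs.im_deg)
  have n3 : (N (dif r s)).natDegree ≤ 4 := by
    simp only [N, dif]
    refine (natDegree_sub_le _ _).trans (max_le ?_ ?_)
    · refine natDegree_mul_le.trans ?_
      rw [sg_natDegree]; omega
    · refine natDegree_mul_le.trans ?_
      have := natDegree_mul_le (p := (X : K[X])) (q := r.im - s.im)
      have hX := natDegree_X_le (R := K)
      rw [sg_natDegree]; omega
  exact lt_of_le_of_lt (natDegree_le_iff_degree_le.1 n3) (by norm_num)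

theorem N_dif_zero {r s : Sk σ} (hr : Q4 r) (hs : Q4 s) : (N (dif r s)).eval 0 = 0 := by
  have : (r.re - s.re).eval 0 = 0 := by
    rw [eval_sub, ← coeff_zero_eq_eval_zero, ← coeff_zero_eq_eval_zero, hr.re_zero, hs.re_zero,
      sub_self]
  simp only [N, dif, eval_sub, eval_mul, eval_X, zero_mul, sub_zero] at this ⊢
  rw [this, zero_mul]

/-- the two places are distinct, non-rational and non-zero -/
structure Two (σ : K →+* K) (x y : K) : Prop where
  x0 : x ≠ 0
  y0 : y ≠ 0
  xs : σ x ≠ x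
  ys : σ y ≠ y
  xy : x ≠ y
  xsy : x ≠ σ y

theorem Two.symm (hσ : ∀ a, σ (σ a) = a) {x y : K} (h : Two σ x y) : Two σ y x :=
  ⟨h.y0, h.x0, h.ys, h.xs, h.xy.symm, fun e => h.xsy (by rw [e, hσ])⟩

/-- a `Q4` difference whose norm vanishes at both places is zero -/
theorem eq_of_N (hσ : ∀ a, σ (σ a) = a) {x y : K} (h : Two σ x y) {r s : Sk σ} (hr : Q4 r)
    (hs : Q4 s) (h1 : (N (dif r s)).eval x = 0) (h2 : (N (dif r s)).eval y = 0) : r = s := by
  classical
  apply dif_eq_zero
  have h1' : (N (dif r s)).eval (σ x) = 0 := by rw [N_eval_conj hσ, h1, map_zero]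
  have h2' : (N (dif r s)).eval (σ y) = 0 := by rw [N_eval_conj hσ, h2, map_zero]
  have h0 := N_dif_zero hr hs
  have sx0 : σ x ≠ 0 := (map_ne_zero σ).2 h.x0
  have sy0 : σ y ≠ 0 := (map_ne_zero σ).2 h.y0
  have sxy : σ x ≠ y := fun e => h.xsy (by rw [← e, hσ])
  have sxsy : σ x ≠ σ y := fun e => h.xy (by rw [← hσ x, e, hσ])
  have hcard : ({0, x, σ x, y, σ y} : Finset K).card = 5 := by
    have a1 : (0 : K) ∉ ({x, σ x, y, σ y} : Finset K) := by
      simp [h.x0.symm, sx0.symm, h.y0.symm, sy0.symm]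
    have a2 : x ∉ ({σ x, y, σ y} : Finset K) := by
      simp [h.xs.symm, h.xy, h.xsy]
    have a3 : σ x ∉ ({y, σ y} : Finset K) := by
      simp [sxy, sxsy]
    have a4 : y ∉ ({σ y} : Finset K) := by
      simp [h.ys.symm]
    rw [Finset.card_insert_of_notMem a1, Finset.card_insert_of_notMem a2,
      Finset.card_insert_of_notMem a3, Finset.card_insert_of_notMem a4, Finset.card_singleton]
  refine eq_zero_of_degree_lt_of_eval_finset_eq_zero ({0, x, σ x, y, σ y} : Finset K) ?_ ?_
  · rw [hcard]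
    exact_mod_cast N_dif_degree hr hs
  · intro a ha
    simp only [Finset.mem_insert, Finset.mem_singleton] at ha
    rcases ha with rfl | rfl | rfl | rfl | rfl <;> assumption

/-- **uniqueness**: a `Q4` element killed by `l` at `x` and by `m` at `y` is unique -/
theorem eq_of_ker (hσ : ∀ a, σ (σ a) = a) {x y : K} (h : Two σ x y) {r s : Sk σ} (hr : Q4 r)
    (hs : Q4 s) {l m : K × K} (hl : l ≠ (0, 0)) (hm : m ≠ (0, 0))
    (r1 : act x l r = (0, 0)) (r2 : act y m r = (0, 0))
    (s1 : act x l s = (0, 0)) (s2 : act y m s = (0, 0)) : r = s := by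
  refine eq_of_N hσ h hr hs (N_eval_of_ker hl ?_) (N_eval_of_ker hm ?_)
  · rw [act_dif, r1, s1]; simp
  · rw [act_dif, r2, s2]; simp

/-! ### the elements `be` -/

section be

variable (σ) (c : K)

/-- `D(l) = N(l0) - c N(l1)` -/
def DD (l : K × K) : K := l.1 * σ l.1 - c * (l.2 * σ l.2)

/-- its conjugate -/
def Db (l : K × K) : K := l.1 * σ l.1 - σ c * (l.2 * σ l.2)

variable {σ c}

theorem map_DD (hσ : ∀ a, σ (σ a) = a) (l : K × K) : σ (DD σ c l) = Db σ c l := by
  simp only [DD, Db, map_sub, map_mul, hσ]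
  ring

theorem map_Db (hσ : ∀ a, σ (σ a) = a) (l : K × K) : σ (Db σ c l) = DD σ c l := by
  simp only [DD, Db, map_sub, map_mul, hσ]
  ring

theorem DD_ne_zero (hσ : ∀ a, σ (σ a) = a) (hc : σ c ≠ c) {l : K × K} (hl : l ≠ (0, 0)) :
    DD σ c l ≠ 0 := by
  intro h
  by_cases h2 : l.2 = 0
  · simp only [DD, h2, zero_mul, mul_zero, sub_zero] at h
    rcases mul_eq_zero.1 h with h | h
    · exact hl (Prod.ext h h2)
    · exact hl (Prod.ext ((map_eq_zero σ).1 h) h2)
  · have hn : l.2 * σ l.2 ≠ 0 := mul_ne_zero h2 ((map_ne_zero σ).2 h2)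
    have e : c = l.1 * σ l.1 / (l.2 * σ l.2) := by
      rw [eq_div_iff hn]
      exact (sub_eq_zero.1 h).symm
    apply hc
    rw [e, map_div₀, map_mul, map_mul, hσ, hσ, mul_comm (σ l.1), mul_comm (σ l.2)]

theorem Db_ne_zero (hσ : ∀ a, σ (σ a) = a) (hc : σ c ≠ c) {l : K × K} (hl : l ≠ (0, 0)) :
    Db σ c l ≠ 0 := by
  rw [← map_DD hσ]
  exact (map_ne_zero σ).2 (DD_ne_zero hσ hc hl)

variable (σ c)

/-- coefficient of `τ` (helper622) -/
noncomputable def bet (l : K × K) : K := (c - σ c) / c * (l.1 * σ l.2 / Db σ c l)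

/-- coefficient of `τ²` (helper622) -/
noncomputable def gam (l : K × K) : K := - (Db σ c l / DD σ c l) / σ c

/-- the element `1 + bet τ + gam τ²` -/
noncomputable def be (l : K × K) : Sk σ := ⟨1 + C (gam σ c l) * X, C (bet σ c l)⟩

variable {σ c}

theorem map_bet (hσ : ∀ a, σ (σ a) = a) (l : K × K) :
    σ (bet σ c l) = (σ c - c) / σ c * (σ l.1 * l.2 / DD σ c l) := by
  simp only [bet, map_mul, map_div₀, map_sub, hσ, map_Db hσ]

theorem map_gam (hσ : ∀ a, σ (σ a) = a) (l : K × K) :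
    σ (gam σ c l) = - (DD σ c l / Db σ c l) / c := by
  simp only [gam, map_neg, map_div₀, hσ, map_Db hσ, map_DD hσ]

/-- `be` is killed by its line -/
theorem act_be (hσ : ∀ a, σ (σ a) = a) (hc : σ c ≠ c) (hc0 : c ≠ 0) {l : K × K}
    (hl : l ≠ (0, 0)) : act c l (be σ c l) = (0, 0) := by
  have hD := DD_ne_zero hσ hc hl
  have hDb := Db_ne_zero hσ hc hl
  have hsc : σ c ≠ 0 := (map_ne_zero σ).2 hc0
  ext
  · simp only [act, be, map_add, map_mul, map_one, sg_C, sg_X, eval_add, eval_mul, eval_one,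
      eval_C, eval_X, map_gam hσ, bet]
    field_simp
    simp only [DD, Db]
    ring
  · simp only [act, be, map_add, map_mul, map_one, sg_C, sg_X, eval_add, eval_mul, eval_one,
      eval_C, eval_X, map_bet hσ, gam]
    field_simp
    simp only [DD, Db]
    ring

/-- the norm of `be` -/
theorem N_be (hσ : ∀ a, σ (σ a) = a) (hc : σ c ≠ c) (hc0 : c ≠ 0) {l : K × K}
    (hl : l ≠ (0, 0)) : N (be σ c l) = C (c * σ c)⁻¹ * XX σ c := by
  have hD := DD_ne_zero hσ hc hl
  have hDb := Db_ne_zero hσ hc hl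
  have hsc : σ c ≠ 0 := (map_ne_zero σ).2 hc0
  have e1 : gam σ c l * σ (gam σ c l) = (c * σ c)⁻¹ := by
    rw [map_gam hσ, gam]
    field_simp
  have e2 : gam σ c l + σ (gam σ c l) - bet σ c l * σ (bet σ c l) = - (c + σ c) * (c * σ c)⁻¹ := by
    rw [map_gam hσ, map_bet hσ, gam, bet]
    field_simp
    simp only [DD, Db]
    ring
  have e3 : (c * σ c) * (c * σ c)⁻¹ = 1 := mul_inv_cancel₀ (mul_ne_zero hc0 hsc)
  have f1 := congrArg (C : K → K[X]) e1
  have f2 := congrArg (C : K → K[X]) e2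
  have f3 := congrArg (C : K → K[X]) e3
  simp only [C_mul, C_add, C_sub, C_neg, C_1] at f1 f2 f3
  simp only [N, be, map_add, map_mul, map_one, sg_C, sg_X, XX]
  linear_combination X * X * f1 + X * f2 - f3
  
/-- leading part: `be` determines its line -/
theorem be_smul (hσ : ∀ a, σ (σ a) = a) (hc : σ c ≠ c) {a : K} (ha : a ≠ 0) {l : K × K}
    (hl : l ≠ (0, 0)) : be σ c (a * l.1, a * l.2) = be σ c l := by
  have hD := DD_ne_zero hσ hc hl
  have hDb := Db_ne_zero hσ hc hl
  have hsa : σ a ≠ 0 := (map_ne_zero σ).2 ha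
  have e1 : DD σ c (a * l.1, a * l.2) = a * σ a * DD σ c l := by
    simp only [DD, map_mul]; ring
  have e2 : Db σ c (a * l.1, a * l.2) = a * σ a * Db σ c l := by
    simp only [Db, map_mul]; ring
  have e3 : gam σ c (a * l.1, a * l.2) = gam σ c l := by
    simp only [gam, e1, e2]
    rw [mul_div_mul_left _ _ (mul_ne_zero ha hsa)]
  have e4 : bet σ c (a * l.1, a * l.2) = bet σ c l := by
    simp only [bet, e2, map_mul]
    rw [show a * l.1 * (σ a * σ l.2) = a * σ a * (l.1 * σ l.2) by ring,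
      mul_div_mul_left _ _ (mul_ne_zero ha hsa)]
  simp only [be, e3, e4]

/-- the product of two `be`'s has shape `Q4` -/
theorem Q4_mul {c c' : K} (l l' : K × K) : Q4 (be σ c l * be σ c' l') := by
  have h1 : (1 + C (gam σ c l) * X : K[X]).natDegree ≤ 1 := by
    refine (natDegree_add_le _ _).trans (max_le (by simp) ?_)
    exact (natDegree_C_mul_le _ _).trans natDegree_X_le
  have h2 : (1 + C (gam σ c' l') * X : K[X]).natDegree ≤ 1 := by
    refine (natDegree_add_le _ _).trans (max_le (by simp) ?_)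
    exact (natDegree_C_mul_le _ _).trans natDegree_X_le
  refine ⟨?_, ?_, ?_⟩
  · simp only [mul_re, be, sg_C]
    refine (natDegree_add_le _ _).trans (max_le (natDegree_mul_le.trans (by omega)) ?_)
    refine natDegree_mul_le.trans ?_
    have := natDegree_mul_le (p := (X : K[X])) (q := C (bet σ c l))
    have hX := natDegree_X_le (R := K)
    simp only [natDegree_C] at this ⊢
    omega
  · simp only [mul_im, be]
    refine (natDegree_add_le _ _).trans (max_le (natDegree_mul_le.trans ?_)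
      (natDegree_mul_le.trans ?_))
    · simp only [natDegree_C]; omega
    · rw [sg_natDegree, natDegree_C]; omega
  · simp only [mul_re, be, sg_C, coeff_zero_eq_eval_zero, eval_add, eval_mul, eval_one, eval_C,
      eval_X]
    ring

theorem N_be_eval_ne (hσ : ∀ a, σ (σ a) = a) (hc : σ c ≠ c) (hc0 : c ≠ 0) {l : K × K}
    (hl : l ≠ (0, 0)) {y : K} (h1 : y ≠ c) (h2 : y ≠ σ c) : (N (be σ c l)).eval y ≠ 0 := by
  have hsc : σ c ≠ 0 := (map_ne_zero σ).2 hc0
  rw [N_be hσ hc hc0 hl, XX]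
  simp only [eval_mul, eval_C, eval_sub, eval_X]
  exact mul_ne_zero (inv_ne_zero (mul_ne_zero hc0 hsc))
    (mul_ne_zero (sub_ne_zero.2 h1) (sub_ne_zero.2 h2))

theorem N_be_eval_self (hσ : ∀ a, σ (σ a) = a) (hc : σ c ≠ c) (hc0 : c ≠ 0) {l : K × K}
    (hl : l ≠ (0, 0)) : (N (be σ c l)).eval c = 0 := by
  rw [N_be hσ hc hc0 hl, XX]
  simp

end be

/-! ### factorisation -/

section fact

variable {x y : K}

/-- `m` transported along the x-edge `l` -/
noncomputable def trM (σ : K →+* K) (x y : K) (l m : K × K) : K × K := act y m (be σ x l)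

/-- `l` transported along the y-edge `m` -/
noncomputable def trL (σ : K →+* K) (x y : K) (l m : K × K) : K × K := act x l (be σ y m)

theorem trM_ne (hσ : ∀ a, σ (σ a) = a) (h : Two σ x y) {l m : K × K} (hl : l ≠ (0, 0))
    (hm : m ≠ (0, 0)) : trM σ x y l m ≠ (0, 0) :=
  act_ne_zero hm (N_be_eval_ne hσ h.xs h.x0 hl h.xy.symm (h.symm hσ).xsy)

theorem trL_ne (hσ : ∀ a, σ (σ a) = a) (h : Two σ x y) {l m : K × K} (hl : l ≠ (0, 0))
    (hm : m ≠ (0, 0)) : trL σ x y l m ≠ (0, 0) :=
  act_ne_zero hl (N_be_eval_ne hσ h.ys h.y0 hm h.xy h.xsy)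

/-- **factorisation** -/
theorem fact (hσ : ∀ a, σ (σ a) = a) (h : Two σ x y) {l m : K × K} (hl : l ≠ (0, 0))
    (hm : m ≠ (0, 0)) :
    be σ x l * be σ y (trM σ x y l m) = be σ y m * be σ x (trL σ x y l m) := by
  have hM := trM_ne hσ h hl hm
  have hL := trL_ne hσ h hl hm
  refine eq_of_ker hσ h (Q4_mul _ _) (Q4_mul _ _) hl hm ?_ ?_ ?_ ?_
  · rw [act_mul hσ, act_be hσ h.xs h.x0 hl, act_zero]
  · rw [act_mul hσ]
    exact act_be hσ h.ys h.y0 hM
  · rw [act_mul hσ]
    exact act_be hσ h.xs h.x0 hL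
  · rw [act_mul hσ, act_be hσ h.ys h.y0 hm, act_zero]

/-- proportionality of vectors -/
def Pr (l l' : K × K) : Prop := l.1 * l'.2 = l.2 * l'.1

theorem exists_of_Pr {l l' : K × K} (hl : l ≠ (0, 0)) (hl' : l' ≠ (0, 0)) (h : Pr l l') :
    ∃ a : K, a ≠ 0 ∧ l' = (a * l.1, a * l.2) := by
  unfold Pr at h
  by_cases h1 : l.1 = 0
  · have h2 : l.2 ≠ 0 := fun h2 => hl (Prod.ext h1 h2)
    rw [h1, zero_mul] at h
    have h3 : l'.1 = 0 := by
      rcases mul_eq_zero.1 h.symm with h | h
      · exact absurd h h2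
      · exact h
    have h4 : l'.2 ≠ 0 := fun h4 => hl' (Prod.ext h3 h4)
    refine ⟨l'.2 / l.2, div_ne_zero h4 h2, ?_⟩
    ext
    · simp [h1, h3]
    · simp [h2]
  · have h3 : l'.1 ≠ 0 := by
      intro h3
      rw [h3, mul_zero] at h
      rcases mul_eq_zero.1 h with h | h
      · exact h1 h
      · exact hl' (Prod.ext h3 h)
    refine ⟨l'.1 / l.1, div_ne_zero h3 h1, ?_⟩
    ext
    · simp [h1]
    · simp only
      rw [div_mul_eq_mul_div, eq_div_iff h1, mul_comm l'.2, h, mul_comm]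

theorem be_congr (hσ : ∀ a, σ (σ a) = a) {c : K} (hc : σ c ≠ c) {l l' : K × K}
    (hl : l ≠ (0, 0)) (hl' : l' ≠ (0, 0)) (h : Pr l l') : be σ c l = be σ c l' := by
  obtain ⟨a, ha, rfl⟩ := exists_of_Pr hl hl' h
  exact (be_smul hσ hc ha hl).symm

/-- the kernel line is unique -/
theorem Pr_of_ker {c : K} {l l' : K × K} {r : Sk σ} (h1 : act c l r = (0, 0))
    (h2 : act c l' r = (0, 0)) (hr : ¬ (r.re.eval c = 0 ∧ c * r.im.eval c = 0 ∧
      (sg σ r.re).eval c = 0 ∧ (sg σ r.im).eval c = 0)) : Pr l l' := by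
  have a1 := congrArg Prod.fst h1
  have a2 := congrArg Prod.snd h1
  have b1 := congrArg Prod.fst h2
  have b2 := congrArg Prod.snd h2
  simp only [act] at a1 a2 b1 b2
  unfold Pr
  by_contra hne
  have hne' : l.1 * l'.2 - l.2 * l'.1 ≠ 0 := sub_ne_zero.2 hne
  apply hr
  refine ⟨?_, ?_, ?_, ?_⟩
  · have : r.re.eval c * (l.1 * l'.2 - l.2 * l'.1) = 0 := by
      linear_combination l.1 * b2 - l'.1 * a2
    exact (mul_eq_zero.1 this).resolve_right hne'
  · have : c * r.im.eval c * (l.1 * l'.2 - l.2 * l'.1) = 0 := by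
      linear_combination l'.1 * a1 - l.1 * b1
    exact (mul_eq_zero.1 this).resolve_right hne'
  · have : (sg σ r.re).eval c * (l.1 * l'.2 - l.2 * l'.1) = 0 := by
      linear_combination l'.2 * a1 - l.2 * b1
    exact (mul_eq_zero.1 this).resolve_right hne'
  · have : (sg σ r.im).eval c * (l.1 * l'.2 - l.2 * l'.1) = 0 := by
      linear_combination l.2 * b2 - l'.2 * a2
    exact (mul_eq_zero.1 this).resolve_right hne'

theorem Pr_of_be (hσ : ∀ a, σ (σ a) = a) {c : K} (hc : σ c ≠ c) (hc0 : c ≠ 0) {l l' : K × K}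
    (hl : l ≠ (0, 0)) (hl' : l' ≠ (0, 0)) (h : be σ c l = be σ c l') : Pr l l' := by
  refine Pr_of_ker (r := be σ c l) (act_be hσ hc hc0 hl) (by rw [h]; exact act_be hσ hc hc0 hl') ?_
  rintro ⟨h1, -, h3, -⟩
  have hsc : σ c ≠ 0 := (map_ne_zero σ).2 hc0
  have hD := DD_ne_zero hσ hc hl
  have hDb := Db_ne_zero hσ hc hl
  simp only [be, map_add, map_mul, map_one, sg_C, sg_X, eval_add, eval_mul, eval_one,
      eval_C, eval_X, map_gam hσ] at h1 h3
  rw [gam] at h1
  -- `1 + gam c = 0` and `1 + σ gam c = 0`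
  have e3 : Db σ c l = DD σ c l := by
    field_simp at h3
    linear_combination h3
  have e1 : DD σ c l * σ c = Db σ c l * c := by
    field_simp at h1
    linear_combination h1
  rw [e3] at e1
  exact hc (mul_left_cancel₀ hD e1)

/-- transport is injective on lines -/
theorem trM_inj (hσ : ∀ a, σ (σ a) = a) (h : Two σ x y) {l m m' : K × K} (hl : l ≠ (0, 0))
    (hP : Pr (trM σ x y l m) (trM σ x y l m')) : Pr m m' := by
  have hN := N_be_eval_ne hσ h.xs h.x0 hl h.xy.symm (h.symm hσ).xsy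
  have a1 := act_adj1 y m (be σ x l)
  have a2 := act_adj2 y m (be σ x l)
  have b1 := act_adj1 y m' (be σ x l)
  have b2 := act_adj2 y m' (be σ x l)
  unfold Pr trM at *
  have : (N (be σ x l)).eval y * (N (be σ x l)).eval y * (m.1 * m'.2 - m.2 * m'.1) = 0 := by
    have e : (N (be σ x l)).eval y * (N (be σ x l)).eval y * (m.1 * m'.2 - m.2 * m'.1)
        = ((N (be σ x l)).eval y * m.1) * ((N (be σ x l)).eval y * m'.2)
          - ((N (be σ x l)).eval y * m.2) * ((N (be σ x l)).eval y * m'.1) := by ring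
    rw [e, ← a1, ← a2, ← b1, ← b2]
    linear_combination ((be σ x l).re.eval y * (sg σ (be σ x l).re).eval y
      - y * (be σ x l).im.eval y * (sg σ (be σ x l).im).eval y) * hP
  rcases mul_eq_zero.1 this with h1 | h1
  · exact absurd h1 (mul_ne_zero hN hN)
  · exact sub_eq_zero.1 h1

theorem trL_inj (hσ : ∀ a, σ (σ a) = a) (h : Two σ x y) {m l l' : K × K} (hm : m ≠ (0, 0))
    (hP : Pr (trL σ x y l m) (trL σ x y l' m)) : Pr l l' :=
  trM_inj hσ (h.symm hσ) hm hP

/-- the pair of transports is injective on pairs of lines -/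
theorem tr_inj (hσ : ∀ a, σ (σ a) = a) (h : Two σ x y) {l m l' m' : K × K} (hl : l ≠ (0, 0))
    (hm : m ≠ (0, 0)) (hl' : l' ≠ (0, 0)) (hm' : m' ≠ (0, 0))
    (h1 : Pr (trM σ x y l m) (trM σ x y l' m')) (h2 : Pr (trL σ x y l m) (trL σ x y l' m')) :
    Pr l l' ∧ Pr m m' := by
  have e1 := be_congr hσ h.ys (trM_ne hσ h hl hm) (trM_ne hσ h hl' hm') h1
  have e2 := be_congr hσ h.xs (trL_ne hσ h hl hm) (trL_ne hσ h hl' hm') h2
  have f1 := fact hσ h hl hm
  have f2 := fact hσ h hl' hm'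
  have hM := trM_ne hσ h hl hm
  have hL := trL_ne hσ h hl hm
  have key : be σ x l * be σ y (trM σ x y l m) = be σ x l' * be σ y (trM σ x y l m) := by
    refine eq_of_N hσ h (Q4_mul _ _) (Q4_mul _ _) ?_ ?_
    · rw [f1, e1, f2, ← e2, dif_mul, N_mul hσ, eval_mul, N_be_eval_self hσ h.xs h.x0 hL,
        mul_zero]
    · rw [dif_mul, N_mul hσ, eval_mul, N_be_eval_self hσ h.ys h.y0 hM, mul_zero]
  have key2 : be σ y m * be σ x (trL σ x y l m) = be σ y m' * be σ x (trL σ x y l m) := by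
    rw [← f1, key, e1, f2, ← e2]
  have nz : ∀ {c : K} (hc : σ c ≠ c) (hc0 : c ≠ 0) {v : K × K} (hv : v ≠ (0, 0)),
      N (be σ c v) ≠ 0 := by
    intro c hc hc0 v hv
    rw [N_be hσ hc hc0 hv]
    exact mul_ne_zero (C_ne_zero.2 (inv_ne_zero (mul_ne_zero hc0 ((map_ne_zero σ).2 hc0))))
      XX_ne_zero
  have canc : ∀ {r s u : Sk σ}, N u ≠ 0 → r * u = s * u → r = s := by
    intro r s u hu hrs
    apply dif_eq_zero
    have : N (dif r s) * N u = 0 := by
      rw [← N_mul hσ, ← dif_mul, hrs]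
      simp [N, dif]
    exact (mul_eq_zero.1 this).resolve_right hu
  exact ⟨Pr_of_be hσ h.xs h.x0 hl hl' (canc (nz h.ys h.y0 hM) key),
    Pr_of_be hσ h.ys h.y0 hm hm' (canc (nz h.xs h.x0 hL) key2)⟩

end fact

end Crest.Agent.R289.TPalg922
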