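import Crest.Agent.R289.SkewGrp_877

/-!
Row 289, block B, TP4b: the two-place left-invariant object, group part.

* elements `1 + b τ + g τ²` killing a line `l` at the place `x`
  (`bet`, `gam`, natural normalisation of #5603/#5789: constant term one);
* exchange law `be^x_l * be^y_{m.be^x_l} = be^y_m * be^x_{l.be^y_m}`;
* bijectivity of the label maps;
* normalisation into the norm-one group `U hσ k 1` of `SkewGrp877`.
-/

set_option autoImplicit false
set_option linter.unusedSectionVars false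
set_option linter.unusedVariables false
set_option linter.unusedSimpArgs false

namespace Crest.Agent.R289.TPgrp547

open Finset Crest.Agent.R289.SkewGrp877

variable {K : Type*} [Field K]

section scalars

variable (σ : K →+* K)

/-- norm `a σ(a)` -/
def nm (a : K) : K := a * σ a

/-- `Q_x(l) = N(l₀) - x N(l₁)` -/
def Qx (x : K) (l : K × K) : K := nm σ l.1 - x * nm σ l.2

/-- coefficient of `τ` in `be^x_l` -/
def bet (x : K) (l : K × K) : K := (x - σ x) / x * (l.1 * σ l.2 / Qx σ (σ x) l)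

/-- coefficient of `τ²` in `be^x_l` -/
def gam (x : K) (l : K × K) : K := - (Qx σ (σ x) l / Qx σ x l) / σ x

/-- `l . (1 + b τ + g τ²)` at the place `x` (row vectors, right action) -/
def act (x b g : K) (l : K × K) : K × K :=
  ((1 + x * σ g) * l.1 - x * b * l.2, (1 + x * g) * l.2 - σ b * l.1)

/-- reduced norm of `1 + b τ + g τ²` at `t = x` -/
def Pn (x b g : K) : K := 1 + (g + σ g - nm σ b) * x + nm σ g * x ^ 2

/-- the determinant of two row vectors -/
def det2 (l m : K × K) : K := l.1 * m.2 - l.2 * m.1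

variable {σ}

theorem nm_eq_zero {a : K} : nm σ a = 0 ↔ a = 0 := by
  unfold nm
  rw [mul_eq_zero, map_eq_zero, or_self]

theorem sg_nm (hσ : ∀ a, σ (σ a) = a) (a : K) : σ (nm σ a) = nm σ a := by
  unfold nm
  rw [map_mul, hσ, mul_comm]

theorem sg_Qx (hσ : ∀ a, σ (σ a) = a) (x : K) (l : K × K) : σ (Qx σ x l) = Qx σ (σ x) l := by
  unfold Qx
  rw [map_sub, map_mul, sg_nm hσ, sg_nm hσ]

theorem Qx_ne (hσ : ∀ a, σ (σ a) = a) {x : K} (hx : σ x ≠ x) {l : K × K} (hl : l ≠ 0) :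
    Qx σ x l ≠ 0 := by
  intro h
  have h' : Qx σ (σ x) l = 0 := by rw [← sg_Qx hσ, h, map_zero]
  unfold Qx at h h'
  have h1 : (x - σ x) * nm σ l.2 = 0 := by linear_combination h' - h
  have h2 : nm σ l.2 = 0 := by
    rcases mul_eq_zero.1 h1 with h | h
    · exact absurd (sub_eq_zero.1 h).symm hx
    · exact h
  have h3 : nm σ l.1 = 0 := by
    rw [h2, mul_zero, sub_zero] at h
    exact h
  exact hl (Prod.ext (nm_eq_zero.1 h3) (nm_eq_zero.1 h2))

theorem ne_zero_of_place {x : K} (hx : σ x ≠ x) : x ≠ 0 := by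
  rintro rfl
  exact hx (map_zero σ)

theorem sg_ne {x : K} (hσ : ∀ a, σ (σ a) = a) (hx : σ x ≠ x) : σ (σ x) ≠ σ x := by
  rw [hσ]; exact hx.symm

/-- `be^x_l` kills `l` at the place `x` -/
theorem act_be (hσ : ∀ a, σ (σ a) = a) {x : K} (hx : σ x ≠ x) {l : K × K} (hl : l ≠ 0) :
    act σ x (bet σ x l) (gam σ x l) l = 0 := by
  have hx0 := ne_zero_of_place hx
  have hsx0 : σ x ≠ 0 := (map_ne_zero σ).2 hx0
  have hQ := Qx_ne hσ hx hl
  have hQ' := Qx_ne hσ (sg_ne hσ hx) hl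
  have e1 : σ (gam σ x l) = - (Qx σ x l / Qx σ (σ x) l) / x := by
    unfold gam
    rw [map_div₀, map_neg, map_div₀, sg_Qx hσ, sg_Qx hσ, hσ]
  have e2 : σ (bet σ x l) = (σ x - x) / σ x * (σ l.1 * l.2 / Qx σ x l) := by
    unfold bet
    rw [map_mul, map_div₀, map_sub, map_div₀, map_mul, sg_Qx hσ, hσ, hσ]
  unfold act
  rw [e1, e2]
  refine Prod.ext ?_ ?_
  · change (1 + x * (-(Qx σ x l / Qx σ (σ x) l) / x)) * l.1 - x * bet σ x l * l.2 = 0
    unfold bet
    field_simp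
    unfold Qx nm
    ring
  · change (1 + x * gam σ x l) * l.2 - (σ x - x) / σ x * (σ l.1 * l.2 / Qx σ x l) * l.1 = 0
    unfold gam
    field_simp
    unfold Qx nm
    ring

theorem det_act (x b g : K) (l m : K × K) :
    det2 (act σ x b g l) (act σ x b g m) = Pn σ x b g * det2 l m := by
  unfold det2 act Pn nm
  ring

theorem det2_swap (l m : K × K) : det2 l m = - det2 m l := by unfold det2; ring

theorem exists_det2_ne {l : K × K} (hl : l ≠ 0) : ∃ m : K × K, det2 l m ≠ 0 := by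
  by_cases h : l.1 = 0
  · refine ⟨(1, 0), ?_⟩
    have h2 : l.2 ≠ 0 := fun h2 => hl (Prod.ext h h2)
    simpa [det2] using h2
  · exact ⟨(0, 1), by simpa [det2] using h⟩

theorem Pn_eq_zero_of_kernel {x b g : K} {l : K × K} (hl : l ≠ 0) (h : act σ x b g l = 0) :
    Pn σ x b g = 0 := by
  obtain ⟨m, hm⟩ := exists_det2_ne hl
  have := det_act (σ := σ) x b g l m
  rw [h] at this
  have h0 : det2 (0 : K × K) (act σ x b g m) = 0 := by simp [det2]
  rw [h0] at this
  rcases mul_eq_zero.1 this.symm with h | h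
  · exact h
  · exact absurd h hm

theorem act_ne {x b g : K} (hP : Pn σ x b g ≠ 0) {l : K × K} (hl : l ≠ 0) :
    act σ x b g l ≠ 0 := fun h => hP (Pn_eq_zero_of_kernel hl h)

theorem sg_Pn (hσ : ∀ a, σ (σ a) = a) (x b g : K) : σ (Pn σ x b g) = Pn σ (σ x) b g := by
  unfold Pn
  simp only [map_add, map_sub, map_mul, map_one, map_pow, sg_nm hσ, hσ]
  ring

/-- the norm of `be^x_l`: `gᵍ = 1/(x x̄)` and `g + ḡ - b b̄ = -(x + x̄)/(x x̄)` -/
theorem be_norm (hσ : ∀ a, σ (σ a) = a) {x : K} (hx : σ x ≠ x) {l : K × K} (hl : l ≠ 0) :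
    nm σ (gam σ x l) = 1 / (x * σ x) ∧
      gam σ x l + σ (gam σ x l) - nm σ (bet σ x l) = - (x + σ x) / (x * σ x) := by
  have hx0 := ne_zero_of_place hx
  have hsx0 : σ x ≠ 0 := (map_ne_zero σ).2 hx0
  have h1 : Pn σ x (bet σ x l) (gam σ x l) = 0 := Pn_eq_zero_of_kernel hl (act_be hσ hx hl)
  have h2 : Pn σ (σ x) (bet σ x l) (gam σ x l) = 0 := by rw [← sg_Pn hσ, h1, map_zero]
  unfold Pn at h1 h2
  set s1 := gam σ x l + σ (gam σ x l) - nm σ (bet σ x l)
  set s2 := nm σ (gam σ x l)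
  have hne : x - σ x ≠ 0 := sub_ne_zero.2 hx.symm
  have h3 : s1 + s2 * (x + σ x) = 0 := by
    have : (x - σ x) * (s1 + s2 * (x + σ x)) = 0 := by linear_combination h1 - h2
    rcases mul_eq_zero.1 this with h | h
    · exact absurd h hne
    · exact h
  have h4 : s2 * (x * σ x) = 1 := by linear_combination x * h3 - h1
  constructor
  · rw [eq_div_iff (mul_ne_zero hx0 hsx0)]; exact h4
  · rw [eq_div_iff (mul_ne_zero hx0 hsx0)]
    linear_combination (x * σ x) * h3 - (x + σ x) * h4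

theorem Pn_be (hσ : ∀ a, σ (σ a) = a) {x : K} (hx : σ x ≠ x) {l : K × K} (hl : l ≠ 0) (y : K) :
    Pn σ y (bet σ x l) (gam σ x l) = (y - x) * (y - σ x) / (x * σ x) := by
  have hx0 := ne_zero_of_place hx
  have hsx0 : σ x ≠ 0 := (map_ne_zero σ).2 hx0
  obtain ⟨h1, h2⟩ := be_norm hσ hx hl
  unfold Pn
  rw [h1, h2]
  field_simp
  ring

theorem Pn_be_ne (hσ : ∀ a, σ (σ a) = a) {x y : K} (hx : σ x ≠ x) {l : K × K} (hl : l ≠ 0)
    (h1 : y ≠ x) (h2 : y ≠ σ x) : Pn σ y (bet σ x l) (gam σ x l) ≠ 0 := by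
  rw [Pn_be hσ hx hl]
  have hx0 := ne_zero_of_place hx
  have hsx0 : σ x ≠ 0 := (map_ne_zero σ).2 hx0
  exact div_ne_zero (mul_ne_zero (sub_ne_zero.2 h1) (sub_ne_zero.2 h2)) (mul_ne_zero hx0 hsx0)

/-! ### products -/

/-- action of `a₀ + a₁ τ + a₂ τ² + a₃ τ³ + a₄ τ⁴` (`a₀` in the prime field part: only `0, 1`). -/
def act4 (σ : K →+* K) (a0 : K) (x a1 a2 a3 a4 : K) (l : K × K) : K × K :=
  ((a0 + x * σ a2 + x ^ 2 * σ a4) * l.1 - x * (a1 + x * a3) * l.2,
    (a0 + x * a2 + x ^ 2 * a4) * l.2 - (σ a1 + x * σ a3) * l.1)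

theorem act_act (hσ : ∀ a, σ (σ a) = a) (x b g b' g' : K) (l : K × K) :
    act σ x b' g' (act σ x b g l) =
      act4 σ 1 x (b + b') (g + g' + b * σ b') (b * σ g' + g * b') (g * g') l := by
  unfold act act4
  refine Prod.ext ?_ ?_
  · simp only [map_add, map_mul, hσ]
    ring
  · simp only [map_add, map_mul, hσ]
    ring

theorem cubic_zero {c0 c1 c2 c3 : K} {t1 t2 t3 t4 : K} (h12 : t1 ≠ t2) (h13 : t1 ≠ t3)
    (h14 : t1 ≠ t4) (h23 : t2 ≠ t3) (h24 : t2 ≠ t4) (h34 : t3 ≠ t4)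
    (e1 : c0 + c1 * t1 + c2 * t1 ^ 2 + c3 * t1 ^ 3 = 0)
    (e2 : c0 + c1 * t2 + c2 * t2 ^ 2 + c3 * t2 ^ 3 = 0)
    (e3 : c0 + c1 * t3 + c2 * t3 ^ 2 + c3 * t3 ^ 3 = 0)
    (e4 : c0 + c1 * t4 + c2 * t4 ^ 2 + c3 * t4 ^ 3 = 0) :
    c0 = 0 ∧ c1 = 0 ∧ c2 = 0 ∧ c3 = 0 := by
  have key : ∀ {a b : K}, a ≠ 0 → a * b = 0 → b = 0 := fun ha h =>
    (mul_eq_zero.1 h).resolve_left ha
  have d12 : c1 + c2 * (t1 + t2) + c3 * (t1 ^ 2 + t1 * t2 + t2 ^ 2) = 0 :=
    key (sub_ne_zero.2 h12) (by linear_combination e1 - e2)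
  have d13 : c1 + c2 * (t1 + t3) + c3 * (t1 ^ 2 + t1 * t3 + t3 ^ 2) = 0 :=
    key (sub_ne_zero.2 h13) (by linear_combination e1 - e3)
  have d14 : c1 + c2 * (t1 + t4) + c3 * (t1 ^ 2 + t1 * t4 + t4 ^ 2) = 0 :=
    key (sub_ne_zero.2 h14) (by linear_combination e1 - e4)
  have f23 : c2 + c3 * (t1 + t2 + t3) = 0 :=
    key (sub_ne_zero.2 h23) (by linear_combination d12 - d13)
  have f24 : c2 + c3 * (t1 + t2 + t4) = 0 :=
    key (sub_ne_zero.2 h24) (by linear_combination d12 - d14)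
  have g34 : c3 = 0 := key (sub_ne_zero.2 h34) (by linear_combination f23 - f24)
  have hc2 : c2 = 0 := by rw [g34] at f23; linear_combination f23
  have hc1 : c1 = 0 := by rw [g34, hc2] at d12; linear_combination d12
  refine ⟨?_, hc1, hc2, g34⟩
  rw [g34, hc2, hc1] at e1; linear_combination e1

/-- `N(a₁τ + a₂τ² + a₃τ³ + a₄τ⁴) = t * Dn(t)` -/
def Dn (σ : K →+* K) (a1 a2 a3 a4 t : K) : K :=
  t * ((a2 + t * a4) * (σ a2 + t * σ a4)) - (a1 + t * a3) * (σ a1 + t * σ a3)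

theorem sg_Dn (hσ : ∀ a, σ (σ a) = a) (a1 a2 a3 a4 t : K) :
    σ (Dn σ a1 a2 a3 a4 t) = Dn σ a1 a2 a3 a4 (σ t) := by
  unfold Dn
  simp only [map_add, map_sub, map_mul, hσ]
  ring

/-- places in general position -/
structure Two (σ : K →+* K) (x y : K) : Prop where
  hx : σ x ≠ x
  hy : σ y ≠ y
  hxy : y ≠ x
  hxy' : y ≠ σ x

theorem Two.symm (hσ : ∀ a, σ (σ a) = a) {x y : K} (h : Two σ x y) : Two σ y x :=
  ⟨h.hy, h.hx, h.hxy.symm, fun e => h.hxy' (by rw [e, hσ])⟩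

theorem Dn_zero (hσ : ∀ a, σ (σ a) = a) {x y : K} (h : Two σ x y) {a1 a2 a3 a4 : K}
    (h1 : Dn σ a1 a2 a3 a4 x = 0) (h2 : Dn σ a1 a2 a3 a4 y = 0) :
    a1 = 0 ∧ a2 = 0 ∧ a3 = 0 ∧ a4 = 0 := by
  have h1' : Dn σ a1 a2 a3 a4 (σ x) = 0 := by rw [← sg_Dn hσ, h1, map_zero]
  have h2' : Dn σ a1 a2 a3 a4 (σ y) = 0 := by rw [← sg_Dn hσ, h2, map_zero]
  have e : ∀ t, Dn σ a1 a2 a3 a4 t = (- nm σ a1) + (nm σ a2 - (a1 * σ a3 + a3 * σ a1)) * t +
      ((a2 * σ a4 + a4 * σ a2) - nm σ a3) * t ^ 2 + nm σ a4 * t ^ 3 := by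
    intro t; unfold Dn nm; ring
  rw [e] at h1 h2 h1' h2'
  have hsxy : σ x ≠ σ y := fun hh => h.hxy (σ.injective hh).symm
  have hxsy : x ≠ σ y := fun hh => h.hxy' (by rw [hh, hσ])
  obtain ⟨k0, k1, k2, k3⟩ := cubic_zero (t1 := x) (t2 := σ x) (t3 := y) (t4 := σ y)
    h.hx.symm h.hxy.symm hxsy h.hxy'.symm hsxy h.hy.symm h1 h1' h2 h2'
  have ha1 : a1 = 0 := nm_eq_zero.1 (neg_eq_zero.1 k0)
  have ha4 : a4 = 0 := nm_eq_zero.1 k3
  subst ha1
  subst ha4
  have ha2 : a2 = 0 := by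
    have : nm σ a2 = 0 := by simpa using k1
    exact nm_eq_zero.1 this
  subst ha2
  have ha3 : a3 = 0 := by
    have : nm σ a3 = 0 := by simpa using k2
    exact nm_eq_zero.1 this
  exact ⟨rfl, rfl, ha3, rfl⟩

theorem Dn_of_kernel {x : K} (hx0 : x ≠ 0) {a1 a2 a3 a4 : K} {l : K × K} (hl : l ≠ 0)
    (h : act4 σ 0 x a1 a2 a3 a4 l = 0) : Dn σ a1 a2 a3 a4 x = 0 := by
  have h1 := congrArg Prod.fst h
  have h2 := congrArg Prod.snd h
  simp only [act4, zero_add, Prod.fst_zero, Prod.snd_zero] at h1 h2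
  by_cases hl1 : l.1 = 0
  · have hl2 : l.2 ≠ 0 := fun h2 => hl (Prod.ext hl1 h2)
    rw [hl1] at h1 h2
    have : x * l.2 * Dn σ a1 a2 a3 a4 x = 0 := by
      unfold Dn
      linear_combination (σ a1 + x * σ a3) * h1 + (x * σ a2 + x ^ 2 * σ a4) * h2
    rcases mul_eq_zero.1 this with h | h
    · rcases mul_eq_zero.1 h with h | h
      · exact absurd h hx0
      · exact absurd h hl2
    · exact h
  · have : x * l.1 * Dn σ a1 a2 a3 a4 x = 0 := by
      unfold Dn
      linear_combination (x * a2 + x ^ 2 * a4) * h1 + x * (a1 + x * a3) * h2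
    rcases mul_eq_zero.1 this with h | h
    · rcases mul_eq_zero.1 h with h | h
      · exact absurd h hx0
      · exact absurd h hl1
    · exact h

/-- the coefficients of `(1 + bτ + gτ²)(1 + b'τ + g'τ²)` -/
def m4 (σ : K →+* K) (b g b' g' : K) : K × K × K × K :=
  (b + b', g + g' + b * σ b', b * σ g' + g * b', g * g')

/-- EXCHANGE LAW (scalar form) -/
theorem exchange (hσ : ∀ a, σ (σ a) = a) {x y : K} (h : Two σ x y) {l m : K × K}
    (hl : l ≠ 0) (hm : m ≠ 0) :
    m4 σ (bet σ x l) (gam σ x l)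
        (bet σ y (act σ y (bet σ x l) (gam σ x l) m)) (gam σ y (act σ y (bet σ x l) (gam σ x l) m)) =
      m4 σ (bet σ y m) (gam σ y m)
        (bet σ x (act σ x (bet σ y m) (gam σ y m) l)) (gam σ x (act σ x (bet σ y m) (gam σ y m) l)) := by
  have hx0 := ne_zero_of_place h.hx
  have hy0 := ne_zero_of_place h.hy
  have hs := h.symm hσ
  set b := bet σ x l
  set g := gam σ x l
  set β := bet σ y m
  set γ := gam σ y m
  set m' := act σ y b g m with hm'
  set l' := act σ x β γ l with hl'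
  set b' := bet σ y m'
  set g' := gam σ y m'
  set β' := bet σ x l'
  set γ' := gam σ x l'
  have hm'0 : m' ≠ 0 := act_ne (Pn_be_ne hσ h.hx hl h.hxy h.hxy') hm
  have hl'0 : l' ≠ 0 := act_ne (Pn_be_ne hσ h.hy hm hs.hxy hs.hxy') hl
  have k1 : act σ x b g l = 0 := act_be hσ h.hx hl
  have k2 : act σ y b' g' m' = 0 := act_be hσ h.hy hm'0
  have k3 : act σ y β γ m = 0 := act_be hσ h.hy hm
  have k4 : act σ x β' γ' l' = 0 := act_be hσ h.hx hl'0
  have z : ∀ (t u v : K), act σ t u v 0 = 0 := by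
    intro t u v; unfold act; simp
  have A1 := act_act hσ x b g b' g' l
  rw [k1, z] at A1
  have A2 := act_act hσ y b g b' g' m
  rw [← hm', k2] at A2
  have A3 := act_act hσ y β γ β' γ' m
  rw [k3, z] at A3
  have A4 := act_act hσ x β γ β' γ' l
  rw [← hl', k4] at A4
  have sub4 : ∀ (t a1 a2 a3 a4 b1 b2 b3 b4 : K) (v : K × K),
      act4 σ 0 t (a1 - b1) (a2 - b2) (a3 - b3) (a4 - b4) v =
        act4 σ 1 t a1 a2 a3 a4 v - act4 σ 1 t b1 b2 b3 b4 v := by
    intro t a1 a2 a3 a4 b1 b2 b3 b4 v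
    unfold act4
    refine Prod.ext ?_ ?_
    · simp only [map_sub, Prod.fst_sub]; ring
    · simp only [map_sub, Prod.snd_sub]; ring
  have B1 := sub4 x (b + b') (g + g' + b * σ b') (b * σ g' + g * b') (g * g')
    (β + β') (γ + γ' + β * σ β') (β * σ γ' + γ * β') (γ * γ') l
  rw [← A1, ← A4, sub_zero] at B1
  have B2 := sub4 y (b + b') (g + g' + b * σ b') (b * σ g' + g * b') (g * g')
    (β + β') (γ + γ' + β * σ β') (β * σ γ' + γ * β') (γ * γ') m
  rw [← A2, ← A3, sub_zero] at B2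
  obtain ⟨e1, e2, e3, e4⟩ := Dn_zero hσ h (Dn_of_kernel hx0 hl B1) (Dn_of_kernel hy0 hm B2)
  unfold m4
  rw [sub_eq_zero.1 e1, sub_eq_zero.1 e2, sub_eq_zero.1 e3, sub_eq_zero.1 e4]

/-! ### homogeneity and labels -/

theorem smul_ne_zero' {c : K} (hc : c ≠ 0) {l : K × K} (hl : l ≠ 0) : c • l ≠ 0 :=
  smul_ne_zero hc hl

theorem Qx_smul (x c : K) (l : K × K) : Qx σ x (c • l) = nm σ c * Qx σ x l := by
  unfold Qx nm
  simp only [Prod.smul_fst, Prod.smul_snd, smul_eq_mul, map_mul]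
  ring

theorem bet_smul (x : K) {c : K} (hc : c ≠ 0) (l : K × K) : bet σ x (c • l) = bet σ x l := by
  have hn : nm σ c ≠ 0 := fun h => hc (nm_eq_zero.1 h)
  unfold bet
  rw [Qx_smul]
  simp only [Prod.smul_fst, Prod.smul_snd, smul_eq_mul, map_mul]
  have e : c * l.1 * (σ c * σ l.2) = nm σ c * (l.1 * σ l.2) := by unfold nm; ring
  rw [e, mul_div_mul_left _ _ hn]

theorem gam_smul (x : K) {c : K} (hc : c ≠ 0) (l : K × K) : gam σ x (c • l) = gam σ x l := by
  have hn : nm σ c ≠ 0 := fun h => hc (nm_eq_zero.1 h)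
  unfold gam
  rw [Qx_smul, Qx_smul, mul_div_mul_left _ _ hn]

theorem act_smul (x b g c : K) (l : K × K) : act σ x b g (c • l) = c • act σ x b g l := by
  unfold act
  refine Prod.ext ?_ ?_
  · simp only [Prod.smul_fst, Prod.smul_snd, smul_eq_mul]; ring
  · simp only [Prod.smul_fst, Prod.smul_snd, smul_eq_mul]; ring

end scalars

section labels

/-- the section `P¹(K) = Option K → K²`: `none ↦ (1,0)`, `some z ↦ (z,1)` -/
def rp : Option K → K × K
  | none => (1, 0)
  | some z => (z, 1)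

open Classical in
/-- the point of a non-zero vector -/
noncomputable def pt (l : K × K) : Option K := if l.2 = 0 then none else some (l.1 / l.2)

open Classical in
/-- the scalar of a non-zero vector: `l = sc l • rp (pt l)` -/
noncomputable def sc (l : K × K) : K := if l.2 = 0 then l.1 else l.2

theorem rp_ne (i : Option K) : rp i ≠ 0 := by
  cases i with
  | none => intro h; exact one_ne_zero (congrArg Prod.fst h)
  | some z => intro h; exact one_ne_zero (congrArg Prod.snd h)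

theorem pt_rp (i : Option K) : pt (rp i) = i := by
  cases i with
  | none => simp [pt, rp]
  | some z => simp [pt, rp]

theorem sc_rp (i : Option K) : sc (rp i) = 1 := by
  cases i with
  | none => simp [sc, rp]
  | some z => simp [sc, rp]

theorem sc_smul_rp {l : K × K} (hl : l ≠ 0) : sc l • rp (pt l) = l := by
  by_cases h : l.2 = 0
  · simp only [sc, pt, h, if_true, rp]
    refine Prod.ext ?_ ?_
    · simp
    · simp [h]
  · simp only [sc, pt, h, if_false, rp]
    refine Prod.ext ?_ ?_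
    · simp only [Prod.smul_fst, smul_eq_mul]; field_simp
    · simp

theorem sc_ne {l : K × K} (hl : l ≠ 0) : sc l ≠ 0 := by
  by_cases h : l.2 = 0
  · simp only [sc, h, if_true]
    exact fun h1 => hl (Prod.ext h1 h)
  · simp only [sc, h, if_false]
    exact h

theorem pt_smul {c : K} (hc : c ≠ 0) (l : K × K) : pt (c • l) = pt l := by
  unfold pt
  simp only [Prod.smul_fst, Prod.smul_snd, smul_eq_mul]
  by_cases h : l.2 = 0
  · rw [if_pos (by rw [h, mul_zero]), if_pos h]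
  · rw [if_neg (mul_ne_zero hc h), if_neg h, mul_div_mul_left _ _ hc]

theorem sc_smul {c : K} (hc : c ≠ 0) (l : K × K) : sc (c • l) = c * sc l := by
  unfold sc
  simp only [Prod.smul_fst, Prod.smul_snd, smul_eq_mul]
  by_cases h : l.2 = 0
  · rw [if_pos (by rw [h, mul_zero]), if_pos h]
  · rw [if_neg (mul_ne_zero hc h), if_neg h]

theorem pt_eq_iff {l m : K × K} (hl : l ≠ 0) (hm : m ≠ 0) : pt l = pt m ↔ det2 l m = 0 := by
  constructor
  · intro h
    rw [← sc_smul_rp hl, ← sc_smul_rp hm, h]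
    unfold det2
    simp only [Prod.smul_fst, Prod.smul_snd, smul_eq_mul]
    ring
  · intro h
    unfold det2 at h
    unfold pt
    by_cases h1 : l.2 = 0
    · have hl1 : l.1 ≠ 0 := fun h2 => hl (Prod.ext h2 h1)
      have hm2 : m.2 = 0 := by
        rw [h1, zero_mul, sub_zero] at h
        exact (mul_eq_zero.1 h).resolve_left hl1
      rw [if_pos h1, if_pos hm2]
    · have hm2 : m.2 ≠ 0 := by
        intro hm2
        rw [hm2, mul_zero, zero_sub, neg_eq_zero] at h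
        rcases mul_eq_zero.1 h with h | h
        · exact h1 h
        · exact hm (Prod.ext h hm2)
      rw [if_neg h1, if_neg hm2]
      congr 1
      rw [div_eq_div_iff h1 hm2]
      linear_combination h

variable (σ : K →+* K)

/-- label at the place `x` after the step with label `m` at the place `y` -/
noncomputable def lab (x y : K) (l m : Option K) : Option K :=
  pt (act σ x (bet σ y (rp m)) (gam σ y (rp m)) (rp l))

/-- scalar picked up by the section at the place `x` under the step `m` at the place `y` -/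
noncomputable def scl (x y : K) (l m : Option K) : K :=
  sc (act σ x (bet σ y (rp m)) (gam σ y (rp m)) (rp l))

variable {σ}

theorem act_rp_ne (hσ : ∀ a, σ (σ a) = a) {x y : K} (h : Two σ x y) (l m : Option K) :
    act σ x (bet σ y (rp m)) (gam σ y (rp m)) (rp l) ≠ 0 :=
  act_ne (Pn_be_ne hσ h.hy (rp_ne m) (h.symm hσ).hxy (h.symm hσ).hxy') (rp_ne l)

theorem scl_ne (hσ : ∀ a, σ (σ a) = a) {x y : K} (h : Two σ x y) (l m : Option K) :
    scl σ x y l m ≠ 0 := sc_ne (act_rp_ne hσ h l m)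

/-- `l . be^y_m = scl • rp (lab)` -/
theorem act_eq (hσ : ∀ a, σ (σ a) = a) {x y : K} (h : Two σ x y) (l m : Option K) :
    act σ x (bet σ y (rp m)) (gam σ y (rp m)) (rp l) = scl σ x y l m • rp (lab σ x y l m) :=
  (sc_smul_rp (act_rp_ne hσ h l m)).symm

theorem bet_lab (hσ : ∀ a, σ (σ a) = a) {x y : K} (h : Two σ x y) (l m : Option K) :
    bet σ x (rp (lab σ x y l m)) =
      bet σ x (act σ x (bet σ y (rp m)) (gam σ y (rp m)) (rp l)) := by
  rw [act_eq hσ h, bet_smul x (scl_ne hσ h l m)]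

theorem gam_lab (hσ : ∀ a, σ (σ a) = a) {x y : K} (h : Two σ x y) (l m : Option K) :
    gam σ x (rp (lab σ x y l m)) =
      gam σ x (act σ x (bet σ y (rp m)) (gam σ y (rp m)) (rp l)) := by
  rw [act_eq hσ h, gam_smul x (scl_ne hσ h l m)]

/-- EXCHANGE LAW for labels -/
theorem exchange_lab (hσ : ∀ a, σ (σ a) = a) {x y : K} (h : Two σ x y) (l m : Option K) :
    m4 σ (bet σ x (rp l)) (gam σ x (rp l))
        (bet σ y (rp (lab σ y x m l))) (gam σ y (rp (lab σ y x m l))) =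
      m4 σ (bet σ y (rp m)) (gam σ y (rp m))
        (bet σ x (rp (lab σ x y l m))) (gam σ x (rp (lab σ x y l m))) := by
  rw [bet_lab hσ h, gam_lab hσ h, bet_lab hσ (h.symm hσ), gam_lab hσ (h.symm hσ)]
  exact exchange hσ h (rp_ne l) (rp_ne m)

theorem lab_injective (hσ : ∀ a, σ (σ a) = a) {x y : K} (h : Two σ x y) (m : Option K) :
    Function.Injective (fun l => lab σ x y l m) := by
  intro l l' e
  have e1 := (pt_eq_iff (act_rp_ne hσ h l m) (act_rp_ne hσ h l' m)).1 e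
  rw [det_act] at e1
  have e2 := (mul_eq_zero.1 e1).resolve_left
    (Pn_be_ne hσ h.hy (rp_ne m) (h.symm hσ).hxy (h.symm hσ).hxy')
  have e3 := (pt_eq_iff (rp_ne l) (rp_ne l')).2 e2
  rwa [pt_rp, pt_rp] at e3

theorem lab_bijective [Finite K] (hσ : ∀ a, σ (σ a) = a) {x y : K} (h : Two σ x y)
    (m : Option K) : Function.Bijective (fun l => lab σ x y l m) :=
  Finite.injective_iff_bijective.1 (lab_injective hσ h m)

/-- the kernel line of `be^x_l` is `l` -/
theorem kernel_unique (hσ : ∀ a, σ (σ a) = a) {x : K} (hx : σ x ≠ x) {l l' : Option K}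
    (hb : bet σ x (rp l) = bet σ x (rp l')) (hg : gam σ x (rp l) = gam σ x (rp l')) : l = l' := by
  have hx0 := ne_zero_of_place hx
  have k1 := act_be hσ hx (rp_ne l)
  have k2 := act_be hσ hx (rp_ne l')
  rw [← hb, ← hg] at k2
  by_contra hne
  have hd : det2 (rp l) (rp l') ≠ 0 := by
    intro hd
    apply hne
    have := (pt_eq_iff (rp_ne l) (rp_ne l')).2 hd
    rwa [pt_rp, pt_rp] at this
  set b := bet σ x (rp l)
  set g := gam σ x (rp l)
  have a1 := congrArg Prod.fst k1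
  have a2 := congrArg Prod.snd k1
  have b1 := congrArg Prod.fst k2
  have b2 := congrArg Prod.snd k2
  simp only [act, Prod.fst_zero, Prod.snd_zero] at a1 a2 b1 b2
  have c1 : (1 + x * σ g) * det2 (rp l) (rp l') = 0 := by
    unfold det2; linear_combination (rp l').2 * a1 - (rp l).2 * b1
  have c2 : (1 + x * g) * det2 (rp l) (rp l') = 0 := by
    unfold det2; linear_combination (rp l).1 * b2 - (rp l').1 * a2
  have d1 : 1 + x * σ g = 0 := (mul_eq_zero.1 c1).resolve_right hd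
  have d2 : 1 + x * g = 0 := (mul_eq_zero.1 c2).resolve_right hd
  have d3 : 1 + σ x * σ g = 0 := by
    have := congrArg σ d2
    simpa using this
  have hg0 : σ g ≠ 0 := by
    intro hg0
    rw [hg0, mul_zero, add_zero] at d1
    exact one_ne_zero d1
  have : (x - σ x) * σ g = 0 := by linear_combination d1 - d3
  rcases mul_eq_zero.1 this with h | h
  · exact hx (sub_eq_zero.1 h).symm
  · exact hg0 h

theorem Dn_mul (hσ : ∀ a, σ (σ a) = a) (b g b' g' t : K) :
    Dn σ b (g + b * σ b') (b * σ g' + g * b') (g * g') t =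
      (t * nm σ g - nm σ b) * Pn σ t b' g' := by
  unfold Dn Pn nm
  simp only [map_add, map_mul, hσ]
  ring

theorem labels_injective (hσ : ∀ a, σ (σ a) = a) {x y : K} (h : Two σ x y) :
    Function.Injective
      (fun p : Option K × Option K => (lab σ x y p.1 p.2, lab σ y x p.2 p.1)) := by
  rintro ⟨l1, m1⟩ ⟨l2, m2⟩ e
  have eL : lab σ x y l1 m1 = lab σ x y l2 m2 := congrArg Prod.fst e
  have eM : lab σ y x m1 l1 = lab σ y x m2 l2 := congrArg Prod.snd e
  have X1 := exchange_lab hσ h l1 m1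
  have X2 := exchange_lab hσ h l2 m2
  rw [← eL, ← eM] at X2
  set b' := bet σ y (rp (lab σ y x m1 l1)) with hb'
  set g' := gam σ y (rp (lab σ y x m1 l1)) with hg'
  set β' := bet σ x (rp (lab σ x y l1 m1)) with hβ'
  set γ' := gam σ x (rp (lab σ x y l1 m1)) with hγ'
  have P1 : Pn σ y b' g' = 0 := by
    rw [hb', hg', Pn_be hσ h.hy (rp_ne _)]; simp
  have P2 : Pn σ x β' γ' = 0 := by
    rw [hβ', hγ', Pn_be hσ h.hx (rp_ne _)]; simp
  set b1 := bet σ x (rp l1)
  set g1 := gam σ x (rp l1)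
  set b2 := bet σ x (rp l2)
  set g2 := gam σ x (rp l2)
  set β1 := bet σ y (rp m1)
  set γ1 := gam σ y (rp m1)
  set β2 := bet σ y (rp m2)
  set γ2 := gam σ y (rp m2)
  unfold m4 at X1 X2
  simp only [Prod.mk.injEq] at X1 X2
  obtain ⟨x1, x2, x3, x4⟩ := X1
  obtain ⟨y1, y2, y3, y4⟩ := X2
  have E1 : b1 - b2 = β1 - β2 := by linear_combination x1 - y1
  have E2 : g1 - g2 + (b1 - b2) * σ b' = γ1 - γ2 + (β1 - β2) * σ β' := by
    linear_combination x2 - y2
  have E3 : (b1 - b2) * σ g' + (g1 - g2) * b' = (β1 - β2) * σ γ' + (γ1 - γ2) * β' := by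
    linear_combination x3 - y3
  have E4 : (g1 - g2) * g' = (γ1 - γ2) * γ' := by linear_combination x4 - y4
  have D1 : Dn σ (b1 - b2) (g1 - g2 + (b1 - b2) * σ b') ((b1 - b2) * σ g' + (g1 - g2) * b')
      ((g1 - g2) * g') y = 0 := by rw [Dn_mul hσ, P1, mul_zero]
  have D2 : Dn σ (b1 - b2) (g1 - g2 + (b1 - b2) * σ b') ((b1 - b2) * σ g' + (g1 - g2) * b')
      ((g1 - g2) * g') x = 0 := by
    rw [E4, E3, E2, E1, Dn_mul hσ, P2, mul_zero]
  obtain ⟨z1, z2, z3, z4⟩ := Dn_zero hσ h D2 D1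
  have w1 : b1 = b2 := sub_eq_zero.1 z1
  have w2 : g1 = g2 := by
    rw [z1, zero_mul, add_zero] at z2
    exact sub_eq_zero.1 z2
  have w3 : β1 = β2 := by
    rw [z1] at E1
    exact sub_eq_zero.1 E1.symm
  have w4 : γ1 = γ2 := by
    rw [← E1, z1, w2, sub_self, zero_mul, zero_mul, zero_add, add_zero] at E2
    exact sub_eq_zero.1 E2.symm
  have hl : l1 = l2 := kernel_unique hσ h.hx w1 w2
  have hm : m1 = m2 := kernel_unique hσ h.hy w3 w4
  rw [hl, hm]

theorem labels_bijective [Finite K] (hσ : ∀ a, σ (σ a) = a) {x y : K} (h : Two σ x y) :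
    Function.Bijective
      (fun p : Option K × Option K => (lab σ x y p.1 p.2, lab σ y x p.2 p.1)) :=
  Finite.injective_iff_bijective.1 (labels_injective hσ h)

end labels

end Crest.Agent.R289.TPgrp547
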