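import Crest.Agent.R289.Lev_954
import Crest.Agent.R289.PTabW_480
import Crest.Agent.R289.ExpTr_820

/-!
# Row 289: the table fields of `Obj.OK` (AsmObj_12, final form) for `P k = U hσ (2 k) 1`

Numbering `eP` of `PTab_480`, size `card_even` of `Lev_954`.  The poly-time statements are
relative to a unary bound of the group order, literally as in `Obj.OK`.  Steps: digit lists, with
the normalised elements `nrm (eN p k) (tr k r)` (`r : Sk σ` fixed) as the intended instance.
-/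

set_option autoImplicit false
set_option linter.unusedSectionVars false

namespace Crest.Agent.R289.TabObj480

open Crest.Agent.Lib.PT
open Crest.Agent.R289.SkewGrp877
open Crest.Agent.R289.PTab480 Crest.Agent.R289.Gauss115 Crest.Agent.R288.PtDp115
open Crest.Agent.R289.GkIdx594

section grp

variable {K : Type} [Field K] [Finite K] [Inhabited K] {σ : K →+* K}
variable (hσ : ∀ x, σ (σ x) = x)

include hσ in
theorem nP_two_mul (h2 : (2 : K) ≠ 0) (hne : ∃ x, σ x ≠ x) (k : ℕ) :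
    nP σ (2 * k) = (q σ ^ 3) ^ k := by
  rw [nP_eq_card hσ, Lev954.card_even hσ h2 hne]

/-- the numbering `ix k` of `Obj` -/
noncomputable def ixQ (h2 : (2 : K) ≠ 0) (hne : ∃ x, σ x ≠ x) (k : ℕ) :
    U hσ (2 * k) 1 ≃ Fin ((q σ ^ 3) ^ k) :=
  (eP hσ).trans (finCongr (nP_two_mul hσ h2 hne k))

variable (h2 : (2 : K) ≠ 0) (hne : ∃ x, σ x ≠ x)

theorem ixQ_val (k : ℕ) (u : U hσ (2 * k) 1) : (ixQ hσ h2 hne k u : ℕ) = ix σ (2 * k) (toP u) := rfl

theorem ixQ_eP (k : ℕ) (u : U hσ (2 * k) 1) : (ixQ hσ h2 hne k u : ℕ) = eP hσ u := rfl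

theorem elt_ixQ (k : ℕ) (u : U hσ (2 * k) 1) : elt σ (2 * k) (ixQ hσ h2 hne k u : ℕ) = toP u :=
  elt_eP hσ u

variable (σ) in
/-- `mulN` of `Obj` -/
noncomputable def mulN (x : Un × ℕ × ℕ) : ℕ :=
  mulR σ (2 * x.1.val) x.2.1 (elt σ (2 * x.1.val) x.2.2)

variable (σ) in
/-- `invN` of `Obj` -/
noncomputable def invN (x : Un × ℕ) : ℕ :=
  ix σ (2 * x.1.val) (lconj σ (2 * x.1.val) (elt σ (2 * x.1.val) x.2))

variable (σ) in
/-- `aN z`, `bN z` of `Obj` from a family of digit lists -/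
noncomputable def genN (gl : ℕ → List K) (x : Un) : ℕ := ix σ (2 * x.val) (gl (2 * x.val))

theorem mul_eq (k : ℕ) (u v : U hσ (2 * k) 1) :
    mulN σ (Un.mk k, (ixQ hσ h2 hne k u : ℕ), (ixQ hσ h2 hne k v : ℕ)) = ixQ hσ h2 hne k (u * v) := by
  rw [ixQ_eP, ixQ_eP, ixQ_eP, eP_mul_right]
  change mulR σ (2 * k) _ (elt σ (2 * k) _) = _
  rw [elt_eP]

theorem inv_eq (k : ℕ) (u : U hσ (2 * k) 1) :
    invN σ (Un.mk k, (ixQ hσ h2 hne k u : ℕ)) = ixQ hσ h2 hne k u⁻¹ := by
  rw [ixQ_eP, ixQ_eP, eP_inv]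
  rfl

theorem gen_eq (gl : ℕ → List K) (k : ℕ) (g : U hσ (2 * k) 1) (h : gl (2 * k) = toP g) :
    genN σ gl (Un.mk k) = ixQ hσ h2 hne k g := by
  rw [ixQ_val, ← h]
  rfl

end grp

/-! ### polynomial time relative to a unary bound of `Q ^ k` -/

section pt

variable {K : Type} [Field K] [Finite K] [Inhabited K] [PTCode K] {σ : K →+* K}
variable (hσ : ∀ x, σ (σ x) = x) (h2 : (2 : K) ≠ 0) (hne : ∃ x, σ x ≠ x)
include hσ h2 hne

/-- the hypothesis of the enumeration tables from the relative one -/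
theorem ptu_qK {α : Type} [PTCode α] {k : α → ℕ} (hk : PTU k)
    (hQ : PTU (fun a => (q σ ^ 3) ^ k a)) : PTU (fun a => qK K ^ (2 * k a + 1)) := by
  refine Size954.ptu_pow_of_pb (qK K) (PTU.add (PTU.mul (PTU.const 2) hk) (PTU.const 1)) ?_
  refine ((hQ.pb.pow 2).mul (PB.const (q σ * q σ))).mono fun a => ?_
  have h1 := Lev954.two_le_q hσ
  rw [qK_eq_card, Lev954.card_K hσ h2 hne, pow_succ]
  refine Nat.mul_le_mul_right _ ?_
  rw [← pow_two, ← pow_mul, ← pow_mul, ← pow_mul]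
  exact Nat.pow_le_pow_right (by omega) (by omega)

theorem ptf_mul {α : Type} [PTCode α] (k u v : α → ℕ) (hk : PTU k)
    (hQ : PTU (fun x => (q σ ^ 3) ^ k x)) (hu : PTF u) (hv : PTF v) :
    PTF (fun x => mulN σ (Un.mk (k x), u x, v x)) := by
  have hk2 : PTU (fun x => 2 * k x) := PTU.mul (PTU.const 2) hk
  have hN := ptu_qK hσ h2 hne hk hQ
  exact ptf_mulR (k := fun x => 2 * k x) hk2 hN hu (ptf_elt (k := fun x => 2 * k x) hk2 hN hv)

theorem ptf_inv {α : Type} [PTCode α] (k u : α → ℕ) (hk : PTU k)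
    (hQ : PTU (fun x => (q σ ^ 3) ^ k x)) (hu : PTF u) :
    PTF (fun x => invN σ (Un.mk (k x), u x)) := by
  have hk2 : PTU (fun x => 2 * k x) := PTU.mul (PTU.const 2) hk
  have hN := ptu_qK hσ h2 hne hk hQ
  exact ptf_ix (k := fun x => 2 * k x) hk2 hN
    (ptf_lconj (k := fun x => 2 * k x) hk2 (ptf_elt (k := fun x => 2 * k x) hk2 hN hu))
    (fun a => by simp)

/-- steps: `gl m` is computed in polynomial time from a unary bound of `|K| ^ (m + 1)` -/
theorem ptf_gen (gl : ℕ → List K) (hlen : ∀ m, (gl m).length = m + 1)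
    (hgl : ∀ {α : Type} [PTCode α] (m : α → ℕ), PTU m → PTU (fun x => qK K ^ (m x + 1)) →
      PTF (fun x => gl (m x)))
    {α : Type} [PTCode α] (k : α → ℕ) (hk : PTU k) (hQ : PTU (fun x => (q σ ^ 3) ^ k x)) :
    PTF (fun x => genN σ gl (Un.mk (k x))) := by
  have hk2 : PTU (fun x => 2 * k x) := PTU.mul (PTU.const 2) hk
  have hN := ptu_qK hσ h2 hne hk hQ
  exact ptf_ix (k := fun x => 2 * k x) hk2 hN (hgl _ hk2 hN) (fun a => hlen _)

end pt

/-! ### the normalised elements `nrm (eN p k) (tr k r)` -/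

section nrm

open Crest.Agent.R289.Exp820

variable {K : Type} [Field K] {σ : K →+* K}

/-- the non-zero coefficients of an element of `Sk σ` -/
noncomputable def coefs (r : Sk σ) : List K :=
  (List.range (2 * max r.re.natDegree r.im.natDegree + 2)).map (cf r)

theorem getK_coefs (r : Sk σ) (n : ℕ) : getK (coefs r) n = cf r n := by
  unfold getK coefs
  by_cases h : n < 2 * max r.re.natDegree r.im.natDegree + 2
  · simp [List.getD_eq_getElem?_getD, h]
  · have h0 : cf r n = 0 := by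
      rcases Nat.even_or_odd' n with ⟨m, rfl | rfl⟩
      · rw [cf_even]
        exact Polynomial.coeff_eq_zero_of_natDegree_lt (by omega)
      · rw [cf_odd]
        exact Polynomial.coeff_eq_zero_of_natDegree_lt (by omega)
    rw [h0, List.getD_eq_default]
    simpa using h

theorem toL_tr (k : ℕ) (r : Sk σ) : toL (tr k r) = trunc k (coefs r) := by
  refine list_ext (length_toL _) (length_tabK _ _) fun n hn => ?_
  rw [getK_toL _ (by omega), c_tr _ (by omega)]
  unfold trunc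
  rw [getK_tabK _ hn, getK_coefs]

variable [Finite K]

/-- digit list of the normalised `tr k r` -/
noncomputable def glN (p : ℕ) (r : Sk σ) (k : ℕ) : List K := nrmL σ p k (trunc k (coefs r))

theorem length_glN (p : ℕ) (r : Sk σ) (k : ℕ) : (glN p r k).length = k + 1 := by
  unfold glN nrmL
  simp

theorem glN_eq {p k : ℕ} (hσ : ∀ x, σ (σ x) = x) (r : Sk σ) (g : U hσ k 1)
    (h : ((g : (R σ k)ˣ) : R σ k) = nrm (eN p k) (tr k r)) : glN p r k = toP g := by
  unfold toP glN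
  rw [h, toL_nrm p hσ, toL_tr]

theorem ptf_glN [Inhabited K] [PTCode K] {p : ℕ} (hp : p ≤ qK K) (r : Sk σ)
    {α : Type} [PTCode α] (m : α → ℕ) (hm : PTU m) (hN : PTU (fun x => qK K ^ (m x + 1))) :
    PTF (fun x => glN p r (m x)) := by
  unfold glN
  exact ptf_nrmL hm hN hp (ptf_trunc hm (PTF.const _))

end nrm

end Crest.Agent.R289.TabObj480
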