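import Crest.Agent.R289.MemF_12
import Crest.Agent.R289.SlotPTO_267
import Crest.Agent.R289.ClockTab_698

/-!
# Row 289, TopH (T2): tables of the code slots over the family `MemF12.Fd`

* `fs` : the clock sizes of the members (`ClockTab698.FS`);
* `mp_nbc` : the clock slots `(F.mem i).nbc`;
* **`mp_nb0`** : the code slots `(F.mem i).nb0`;
* **`mp_mc`** : the clock moves `(F.mem i).mc`;
* **`mp_mvF`**, **`mp_mv`** : all moves of the frame and all steps.
-/

set_option autoImplicit false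

namespace Crest.Agent.R289.TabSlot267

open Crest.PPADPCP Crest.Agent.Lib.PT Crest.Agent.R289 Crest.Agent.R289.Asm12
open Crest.Agent.R289.DefI Crest.Agent.R289.InsObj576 Crest.Agent.R289.UMap965
open Crest.Agent.R289.PubBits92 Crest.Agent.R289.Mem12 Crest.Agent.R289.MemF12
open Crest.Agent.R289.ClockTab698 Crest.Agent.R289.ClockE698 Crest.Agent.R289.SlotPT267
open Crest.Agent.R289.ClockPT484 Crest.Agent.R289.YIdx901 Crest.Agent.R289.InsTab117

variable {D : Obj} {M0 : ℕ} {lam0 Kr : ℝ} {h : D.OK M0 lam0 Kr} (F : Fd h)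

/-- the clock sizes of the members -/
theorem fs : FS (p := 3) (n := fun i => (F.mem i).P.L + 1) rI (fun i => (F.mem i).siz) where
  n := ⟨fun a => F.L a + 1, PTU.add F.uL (PTU.const 1), fun _ => rfl⟩
  a := ⟨fun a => F.e * F.kP a, PTU.mul (PTU.const _) F.uP, fun _ => rfl⟩
  b := ⟨fun a => F.e * F.kR a, PTU.mul (PTU.const _) F.uR, fun _ => rfl⟩
  t := ⟨fun a => F.e * F.kT a, PTU.mul (PTU.const _) F.uT, fun _ => rfl⟩

/-- the clock slots -/
theorem pm_nbc (s : Clock425.Slot (ClockU698.SJ 3)) :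
    PMap rI F.eU F.eU (fun i u => (F.mem i).nbc s u) :=
  pmap_nbU (raw := rI) (p := 3) (n := fun i => (F.mem i).P.L + 1)
    (s := fun i => (F.mem i).siz) (P := fun i => D.P (F.mem i).kP)
    (R := fun i => D.P (F.mem i).kR) (T := fun i => D.P (F.mem i).kT)
    (fun i => D.ix (F.mem i).kP) (fun i => D.ix (F.mem i).kR) (fun i => D.ix (F.mem i).kT)
    (fs F) s

theorem mp_nbc (s : Clock425.Slot (ClockU698.SJ 3)) :
    Mp rI F.eU F.eU (fun i u => (F.mem i).nbc s u) := pm_nbc F s

/-- **the code slots** -/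
theorem mp_nb0 (s : RegsObj335.SO D (Clock425.Slot (ClockU698.SJ 3))) :
    Mp rI F.eU F.eU (fun i u => (F.mem i).nb0 s u) :=
  labNbO_nb (raw := rI) (kP := F.kP) (kR := F.kR) (kT := F.kT) h F.uP F.uQP F.uR F.uQR F.uT F.uQT
    (nbc := fun i => (F.mem i).nbc) (fun s => pm_nbc F s) s

end Crest.Agent.R289.TabSlot267
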