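import Crest.Agent.R289.TabSlot_267
import Crest.Agent.R289.ClockMem_698
import Crest.Agent.R289.PcTab_92

/-!
# Row 289, TopH (T): all tables over the family `MemF12.Fd`

* `mp_mc` : clock moves; `mp_mvF` : moves of the frame; **`mp_mv`** : all steps `(F.mem i).mv`;
* **`tabF_pub`** : public data; **`tabF_w0`** : start label.
-/

set_option autoImplicit false

namespace Crest.Agent.R289.TabSlot267

open Crest.PPADPCP Crest.Agent.Lib.PT Crest.Agent.R289 Crest.Agent.R289.Asm12
open Crest.Agent.R289.DefI Crest.Agent.R289.InsObj576 Crest.Agent.R289.UMap965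
open Crest.Agent.R289.PubBits92 Crest.Agent.R289.Mem12 Crest.Agent.R289.MemF12
open Crest.Agent.R289.ClockTab698 Crest.Agent.R289.ClockE698 Crest.Agent.R289.ClockMem698
open Crest.Agent.R289.BaseTab92 Crest.Agent.R289.PcTab92 Crest.Agent.R289.InsTab117

variable {D : Obj} {M0 : ℕ} {lam0 Kr : ℝ} {h : D.OK M0 lam0 Kr} (F : Fd h)

/-- clock moves -/
theorem mp_mc (g : ClkTD766.CG (cst h ((PathObj992.dT D + 1) ^ 3))) :
    Mp rI F.eU F.eU (fun i u => (F.mem i).mc g u) :=
  pmap_mcM (raw := rI) F.mem F.insTab (fun _ _ => rfl) (fs F) g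

/-- moves of the frame -/
theorem mp_mvF (g : (cst h ((PathObj992.dT D + 1) ^ 3)).Gen
    (ClkTD766.CG (cst h ((PathObj992.dT D + 1) ^ 3)))) :
    Mp rI F.eU F.eU (fun i u => (F.mem i).mvF g u) :=
  F.insTab.mp_frame (mc := fun i => (F.mem i).mc) (pc := fun _ _ => ()) (fun g => mp_mc F g) g

/-- **all steps** -/
theorem mp_mv (s : (cst h ((PathObj992.dT D + 1) ^ 3)).Gen
    (ClkTD766.CG (cst h ((PathObj992.dT D + 1) ^ 3))) ⊕
      RegsObj335.SO D (Clock425.Slot (ClockU698.SJ 3))) :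
    Mp rI F.eU F.eU (fun i u => (F.mem i).mv s u) := by
  cases s with
  | inl g => exact mp_mvF F g
  | inr s => exact mp_nb0 F s

/-- **public data** -/
theorem tabF_pub : TabF rI F.eU (fun i u => (F.mem i).pub u) :=
  TabF.pair (TabF.pair F.insTab.tabF_pd (TabF.const ())) (TabF.const ())

/-- clock word of the value `0` -/
theorem tabF_cw0 : TabF rI F.eU (fun i u => (F.mem i).cw 0 u) := by
  obtain ⟨fr, hr, sr⟩ := (fs F).rho
  exact tabF_cw (mem := F.mem) (e := F.eU) (nL := fun a => F.L a + 1) (ρ := fr)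
    (fun _ _ => rfl) (PTU.add F.uL (PTU.const 1)) hr (fun _ => rfl) sr (t := fun _ => 0)
    (tN := fun _ => 0) (PTF.const 0) (fun _ => rfl)

/-- **start label** -/
theorem tabF_w0 : TabF rI F.eU (fun i u => (F.mem i).w0 u) :=
  tabF_start (I := fun i => (F.mem i).I) F.insTab (fun _ => rfl) (fun _ => rfl)
    (cw := fun i => (F.mem i).cw) (tabF_cw0 F)

end Crest.Agent.R289.TabSlot267
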