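import Crest.Agent.R289.MemF_12
import Crest.Agent.R289.ClockFd_698
import Crest.Agent.R289.SlotPT_239
import Crest.Agent.R289.PcTab_92
import Crest.Agent.R289.BaseTab_987

/-!
# Row 289, part (T) of TopH (second of helper92): tables of the family `MemF12.Fd`

`mp_mv` : all steps, `tabF_pub` : public data, `tabF_w0` : start labels, in the numbering `F.eU`;
`exists_base` : the base tables `UFam715.BaseT` with `PT` and the three descriptions.
-/

set_option autoImplicit false
set_option linter.unusedVariables false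
set_option linter.unusedSectionVars false
set_option linter.dupNamespace false

namespace Crest.Agent.R289.TabTop987

open Crest.PPADPCP Crest.Agent.Lib.PT Crest.Agent.R289 Crest.Agent.R289.Asm12
  Crest.Agent.R289.DefI Crest.Agent.R289.InsObj576 Crest.Agent.R289.PubBits92
  Crest.Agent.R289.InsTab117 Crest.Agent.R289.MemF12 Crest.Agent.R289.ClkTD766
  Crest.Agent.R289.RegsObj335 Crest.Agent.R289.ClockU698 Crest.Agent.R289.UMap965
  Crest.Agent.R289.FamPub715 Crest.Agent.R289.UFam715

variable {D : Obj} {M0 : ℕ} {lam0 Kr : ℝ} {h : D.OK M0 lam0 Kr} (F : Fd h)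

/-- slots of the label code -/
theorem mp_nb0 (s : SO D (Clock425.Slot (SJ 3))) :
    Mp rI F.eU F.eU (fun i u => (F.mem i).nb0 s u) := by
  have hc : SlotPT239.PSl rI (SlotPT239.e3 D rI F.kP F.kR F.kT) (fun i => (F.mem i).nbc) := by
    intro q
    obtain ⟨t, ht, hs⟩ := ClockFd698.mp_nbc F q
    exact ⟨t, ht, fun i u => hs i u⟩
  obtain ⟨t, ht, hs⟩ := SlotPT239.labNbO_psl h F.uP F.uQP F.uR F.uQR F.uT F.uQT hc s
  exact ⟨t, ht, fun i u => hs i u⟩

/-- **all steps** -/
theorem mp_mv (s : (cst h ((PathObj992.dT D + 1) ^ 3)).Gen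
      (CG (cst h ((PathObj992.dT D + 1) ^ 3))) ⊕ SO D (Clock425.Slot (SJ 3))) :
    Mp rI F.eU F.eU (fun i u => (F.mem i).mv s u) := by
  rcases s with g | s
  · exact F.insTab.mp_frame (mc := fun i => (F.mem i).mc) (pc := fun _ _ => ())
      (fun g => ClockFd698.mp_mc F g) g
  · exact mp_nb0 F s

/-- **public data** -/
theorem tabF_pub [Finite D.K] : TabF rI F.eU (fun i u => (F.mem i).pub u) := by
  have h1 : TabF rI F.eU (fun i u => (((F.mem i).I.pd u, ()), ())) :=
    (F.insTab.tabF_pd.pair (TabF.const ())).pair (TabF.const ())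
  exact h1

/-- clock word of the value `0` -/
theorem tabF_cw0 : TabF rI F.eU (fun i u => (F.mem i).cw 0 u) := by
  obtain ⟨f, hf, sf⟩ := (ClockFd698.fs F).rho
  exact PcTab92.tabF_cw (mem := F.mem) (nL := fun a => F.L a + 1) (ρ := f) (fun _ _ => rfl)
    (PTU.succ F.uL) hf (fun _ => rfl) sf (t := fun _ => 0) (PTF.const 0) fun _ => rfl

/-- **start labels** -/
theorem tabF_w0 [Finite D.K] [Finite ((cst h ((PathObj992.dT D + 1) ^ 3)).Lab (ZMod 3))] :
    TabF rI F.eU (fun i u => (F.mem i).w0 u) :=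
  BaseTab987.tabF_start F.insTab (fun i => (F.mem i).cw) (tabF_cw0 F) _ _ (fun _ => rfl)
    fun _ => rfl

end Crest.Agent.R289.TabTop987
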