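import Crest.Agent.R289.ObjTabs_480
import Crest.Agent.R289.Obj289_233

/-!
# Row 289: leaf `htab` of `obj289_of` (helper480)
-/

set_option autoImplicit false

namespace Crest.Agent.R289.ObjTabs480

open Crest.Agent.R289.ObjDef233 Crest.Agent.R289.Obj289233

/-- the tables of the concrete object -/
noncomputable def tabs (D : Par) : D.Tabs where
  ix := ix D
  aN := aN D
  bN := bN D
  mulN := mulN D
  invN := invN D

theorem tabs_ok (D : Par) : TabsOK D (tabs D) where
  ptf_a z k hk hQ := ptf_a D z k hk hQ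
  ptf_b w k hk hQ := ptf_b D w k hk hQ
  ptf_mul k u v hk hQ hu hv := ptf_mul D k u v hk hQ hu hv
  ptf_inv k u hk hQ hu := ptf_inv D k u hk hQ hu
  aN_eq z k := aN_eq D z k
  bN_eq w k := bN_eq D w k
  mul_eq k u v := mul_eq D k u v
  inv_eq k u := inv_eq D k u

/-- **leaf `htab`** -/
theorem htab (D : Par) : ∃ T : D.Tabs, TabsOK D T := ⟨tabs D, tabs_ok D⟩

end Crest.Agent.R289.ObjTabs480
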