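import Crest.Agent.R289.PubBits_92
import Crest.Agent.R289.ClkMcPT_766

/-!
# R289, leaf E32: the clock data as a table in (instance, time, unit); tables of the clock moves

* `Tab.lift`, `Mp.lift`, `TabT.lift`, `InsTab.lift` : tables over instances `r q` with an additional
  number `s q`, raw type `α × ℕ`.
* `tdTab` : for a family with `PubBits92.InsTab`: `∃ B : α → ℕ → ℕ → β, PTF ∧ ∀ i, ∀ t ≤ L,
  B (raw i) t (eT i τ) = F ((I i).td t τ)` (any function `F` of the clock data).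
* `mp_mc` : the clock moves of `ClkTD_766` in the numbering `eQ eG eT` have number tables.
-/

set_option autoImplicit false
set_option linter.dupNamespace false
set_option linter.unusedSectionVars false

namespace Crest.Agent.R289.TdTab117

open Crest.Agent.Lib.PT Crest.Agent.Lib.PT.Arith Crest.Agent.R289.YIdx901
  Crest.Agent.R289.FamComb715 Crest.Agent.R289.DefI Crest.Agent.R289.PubBits92
  Crest.Agent.R289.GkIdx594

/-! ### an additional number -/

section lift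

variable {ι α κ : Type} [PTCode α] (raw : ι → α) (r : κ → ι) (s : κ → ℕ)

/-- raw data with a number -/
def rawS (q : κ) : α × ℕ := (raw (r q), s q)

/-- sizes -/
def nS (n : α → ℕ) (a : α × ℕ) : ℕ := n a.1

variable {raw} {U V : ι → Type} {n m : α → ℕ} {e : ∀ i, U i ≃ Fin (n (raw i))}
  {e' : ∀ i, V i ≃ Fin (m (raw i))}

variable (e) in
/-- the numbering of the instance `r q` -/
def eS (q : κ) : U (r q) ≃ Fin (nS n (rawS raw r s q)) := e (r q)

theorem Tab_lift {β : Type} [PTCode β] {f : ∀ i, U i → β} (h : Tab raw e f) :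
    Tab (rawS raw r s) (eS r s e) (fun q => f (r q)) := by
  obtain ⟨t, ht, hs⟩ := h
  refine ⟨fun a u => t a.1 u, ?_, fun q u => hs (r q) u⟩
  exact PTF.comp (g := fun p : α × ℕ => t p.1 p.2)
    (f := fun p : (α × ℕ) × ℕ => (p.1.1, p.2)) ht (by fun_prop)

theorem Mp_lift {g : ∀ i, U i → V i} (h : Mp raw e e' g) :
    Mp (rawS raw r s) (eS r s e) (eS r s e') (fun q => g (r q)) := by
  obtain ⟨t, ht, hs⟩ := h
  refine ⟨fun a u => t a.1 u, ?_, fun q u => hs (r q) u⟩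
  exact PTF.comp (g := fun p : α × ℕ => t p.1 p.2)
    (f := fun p : (α × ℕ) × ℕ => (p.1.1, p.2)) ht (by fun_prop)

theorem TabT_lift {β : Type} [PTCode β] {T : ι → ℕ} {f : ∀ i, ℕ → U i → β}
    (h : TabT raw e T f) : TabT (rawS raw r s) (eS r s e) (fun q => T (r q)) (fun q => f (r q)) := by
  obtain ⟨t, ht, hs⟩ := h
  refine ⟨fun a k u => t a.1 k u, ?_, fun q k hk u => hs (r q) k hk u⟩
  exact PTF.comp (g := fun p : α × ℕ × ℕ => t p.1 p.2.1 p.2.2)
    (f := fun p : (α × ℕ) × ℕ × ℕ => (p.1.1, p.2.1, p.2.2)) ht (by fun_prop)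

variable {K : Type} [Field K] {c : Cst K} [PTCode K] {I : ι → Ins c} {nG nT : α → ℕ}
  {eG : ∀ i, (I i).Γ ≃ Fin (nG (raw i))} {eT : ∀ i, (I i).T ≃ Fin (nT (raw i))}

theorem InsTab_lift (h : InsTab raw I nG nT eG eT) :
    InsTab (rawS raw r s) (fun q => I (r q)) (nS nG) (nS nT) (eS r s eG)
      (eS r s eT) where
  nG := PTF.comp (g := nG) (f := fun a : α × ℕ => a.1) h.nG PTF.fst
  nT := PTF.comp (g := nT) (f := fun a : α × ℕ => a.1) h.nT PTF.fst
  L := by
    obtain ⟨L, hL, hs⟩ := h.L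
    exact ⟨fun a => L a.1, PTF.comp hL PTF.fst, fun q => hs (r q)⟩
  act g := Mp_lift r s (h.act g)
  acti g := Mp_lift r s (h.acti g)
  mv j := Mp_lift r s (h.mv j)
  h1 j := Mp_lift r s (h.h1 j)
  h2 j := Mp_lift r s (h.h2 j)
  gam j := Mp_lift r s (h.gam j)
  pubP b x := Tab_lift r s (h.pubP b x)
  x0 b x := Tab_lift r s (h.x0 b x)
  one x := Tab_lift r s (h.one x)
  E1 j x := Tab_lift r s (h.E1 j x)
  E2 j x := Tab_lift r s (h.E2 j x)
  D x := TabT_lift r s (h.D x)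
  A q x := TabT_lift r s (h.A q x)
  B q x := TabT_lift r s (h.B q x)
  A0 q x := Tab_lift r s (h.A0 q x)
  B0 q x := Tab_lift r s (h.B0 q x)

end lift

/-! ### the clock data with a time -/

section td

variable {ι α : Type} [PTCode α] {raw : ι → α} {K : Type} [Field K] [Finite K] [PTCode K]
  {c : Cst K} {I : ι → Ins c} {nG nT : α → ℕ}
  {eG : ∀ i, (I i).Γ ≃ Fin (nG (raw i))} {eT : ∀ i, (I i).T ≃ Fin (nT (raw i))}

/-- **any function of the clock data as a table in (instance, time, unit number)** -/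
theorem tdTab (h : InsTab raw I nG nT eG eT) {β : Type} [PTCode β] (F : c.TD → β) :
    ∃ B : α → ℕ → ℕ → β, PTF (fun q : α × ℕ × ℕ => B q.1 q.2.1 q.2.2) ∧
      ∀ i t, t ≤ (I i).L → ∀ τ, B (raw i) t ((eT i τ : Fin _) : ℕ) = F ((I i).td t τ) := by
  let κ : Type := {q : ι × ℕ // q.2 ≤ (I q.1).L}
  have h1 := InsTab_lift (κ := κ) (fun q => q.1.1) (fun q => q.1.2) h
  have h2 := h1.tabF_td (k := fun q => q.1.2) (kN := fun a => a.2) PTF.snd (fun _ => rfl)
    fun q => q.2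
  obtain ⟨t, ht, hs⟩ := h2.out F
  refine ⟨fun a k u => t (a, k) u, ?_, fun i k hk τ => hs ⟨(i, k), hk⟩ τ⟩
  exact PTF.comp (g := fun p : (α × ℕ) × ℕ => t p.1 p.2)
    (f := fun q : α × ℕ × ℕ => ((q.1, q.2.1), q.2.2)) ht (by fun_prop)

/-- **number tables of the clock moves** in the numbering `eQ eG eT` -/
theorem mp_mc (h : InsTab raw I nG nT eG eT) {p : ℕ} [NeZero p] [Inhabited (ZMod p)]
    [PTCode (ZMod p)] {ρ : ι → ℕ} {ρN : α → ℕ} (hρ : PTF ρN) (hρe : ∀ i, ρN (raw i) = ρ i)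
    {Ln : α → ℕ} (hL : PTU Ln) (hLe : ∀ i, Ln (raw i) = (I i).L)
    (hsz : ∀ i, pn nG nT (raw i) = qK (ZMod p) ^ ((I i).L + 1) *
      (qK (ZMod p) ^ ((I i).L + 1) * (qK (ZMod p) ^ ((I i).L + 1) * ρ i)))
    (tq : ∀ i, Fin (ρ i) → (I i).T)
    (htq : ∀ i (r : Fin (ρ i)), ((eT i (tq i r) : Fin _) : ℕ) = (r : ℕ) % nT (raw i))
    (g : ClkTD766.CG c) :
    Mp raw (eQ eG eT) (eQ eG eT)
      (fun i u => ClkTD766.mc (I i) (ClkMcPT766.eR (I i) p (hsz i) (eQ eG eT i)) (tq i) g u) := by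
  classical
  choose B hB hBs using fun b : c.TD => tdTab h (fun x => decide (x = b))
  refine ⟨fun a w => ClkMcPT766.mcN p (fun b t r => B b a t (r % nT a)) (Ln a + 1) (ρN a) g w,
    ?_, fun i u => ?_⟩
  · refine ClkMcPT766.ptf_mcN (α := α × ℕ) p (m := fun q => Ln q.1 + 1) (ρ := fun q => ρN q.1)
      (w := fun q => q.2) (B := fun q b t r => B b q.1 t (r % nT q.1))
      (PTU.add (PTU.comp (n := Ln) hL PTF.fst) (PTU.const 1)) (PTF.comp hρ PTF.fst) PTF.snd
      (fun b => ?_) g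
    have h1 : PTF (fun q : (α × ℕ) × ℕ × ℕ => q.2.2 % nT q.1.1) :=
      PTF.natMod (PTF.comp PTF.snd PTF.snd)
        (PTF.comp (g := nT) h.nT (PTF.comp PTF.fst PTF.fst))
    exact PTF.comp (g := fun q : α × ℕ × ℕ => B b q.1 q.2.1 q.2.2)
      (f := fun q : (α × ℕ) × ℕ × ℕ => (q.1.1, q.2.1, q.2.2 % nT q.1.1)) (hB b)
      (PTF.prodMk (PTF.comp PTF.fst PTF.fst) (PTF.prodMk (PTF.comp PTF.fst PTF.snd) h1))
  · show ClkMcPT766.mcN p (fun b t r => B b (raw i) t (r % nT (raw i))) (Ln (raw i) + 1)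
      (ρN (raw i)) g _ = _
    rw [hLe i, hρe i]
    refine ClkMcPT766.mcN_spec (I i) (hsz i) (eQ eG eT i) (tq i) _ (fun b t r ht => ?_) g u
    rw [← htq i r, hBs b i t ht (tq i r), decide_eq_true_iff]

end td

end Crest.Agent.R289.TdTab117
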