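import Crest.Agent.R289.PcTab_92
import Crest.Agent.R289.ClkMcPT_766

/-!
# Row 289, leaf E32 (second of helper117): clock data with a time argument, tables of the clock moves

* `fp_td` : table of `td t τ` with the time as an argument, from `InsTab`.
* `exists_B` : the Boolean table `B b t r = (td t (r % nT) = b)`.
* `mp_mc` : tables of the clock moves `Mem.mc` for a family of members of `Mem_12`.
-/

set_option autoImplicit false
set_option linter.unusedVariables false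
set_option linter.unusedSectionVars false
set_option linter.dupNamespace false

namespace Crest.Agent.R289.TdTab987

open Crest.Agent.Lib.PT Crest.Agent.Lib.PT.Arith Crest.Agent.R289 Crest.Agent.R289.YIdx901
  Crest.Agent.R289.FamComb715 Crest.Agent.R289.FamPub715 Crest.Agent.R289.DefC
  Crest.Agent.R289.DefI Crest.Agent.R289.PubBits92 Crest.Agent.R289.ClkTD766
  Crest.Agent.R289.ClkMcPT766 Crest.Agent.R289.ClockE698 Crest.Agent.R289.Asm12
  Crest.Agent.R289.InsObj576 Crest.Agent.R289.PcTab92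

section td

variable {K : Type} [Field K] [Finite K] [PTCode K] {c : Cst K} {ι α : Type} [PTCode α]
  {raw : ι → α} {I : ι → Ins c} {nG nT : α → ℕ}
  {eG : ∀ i, (I i).Γ ≃ Fin (nG (raw i))} {eT : ∀ i, (I i).T ≃ Fin (nT (raw i))}

theorem fp3 {β : Type} [Finite β] [PTCode β] {t : α → ℕ → ℕ → β}
    (ht : PTF (fun p : α × ℕ × ℕ => t p.1 p.2.1 p.2.2)) {k : ℕ → ℕ} (hk : PTF k) :
    FP (fun q : α × ℕ × ℕ => t q.1 (k q.2.1) q.2.2) :=
  FP.of_ptf (PTF.comp (g := fun p : α × ℕ × ℕ => t p.1 p.2.1 p.2.2)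
    (f := fun q : α × ℕ × ℕ => (q.1, k q.2.1, q.2.2)) ht
    (PTF.fst.prodMk ((PTF.comp hk (PTF.comp PTF.fst PTF.snd)).prodMk (PTF.comp PTF.snd PTF.snd))))

/-- **the clock data, with the time as an argument** -/
theorem fp_td (h : InsTab raw I nG nT eG eT) :
    ∃ t : α → ℕ → ℕ → c.TD, FP (fun q : α × ℕ × ℕ => t q.1 q.2.1 q.2.2) ∧
      ∀ i k, k ≤ (I i).L → ∀ τ, t (raw i) k (eT i τ : Fin _) = (I i).td k τ := by
  classical
  obtain ⟨L, hLp, hLe⟩ := h.L
  choose tD htD hsD using h.D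
  choose tA htA hsA using h.A
  choose tB htB hsB using h.B
  have p1 : PTF (fun k : ℕ => k - 1) := PTF.natSub PTF.id (PTF.const 1)
  have p2 : PTF (fun k : ℕ => k + 1) := PTF.natAdd PTF.id (PTF.const 1)
  have p0 : PTF (fun k : ℕ => k) := PTF.id
  have f1 : FP (fun q : α × ℕ × ℕ => decide (q.2.1 = 0)) :=
    FP.of_ptf (PTPred.natEq (PTF.comp PTF.fst PTF.snd) (PTF.const 0)).toPTF
  have f2 : FP (fun q : α × ℕ × ℕ => decide (q.2.1 = L q.1)) :=
    FP.of_ptf (PTPred.natEq (PTF.comp PTF.fst PTF.snd) (PTF.comp hLp PTF.fst)).toPTF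
  have f3 : FP (fun (q : α × ℕ × ℕ) (s : c.S') => tD s q.1 q.2.1 q.2.2) :=
    FP.pi fun s => fp3 (htD s) p0
  have f4 : FP (fun (q : α × ℕ × ℕ) (s : c.S') =>
      if decide (q.2.1 = 0) = true then (0 : K) else tD s q.1 (q.2.1 - 1) q.2.2) :=
    FP.pi fun s => f1.map₂ (fp3 (htD s) p1) fun b x => if b = true then (0 : K) else x
  have f5 : FP (fun (q : α × ℕ × ℕ) (s : c.S') => tD s q.1 (q.2.1 + 1) q.2.2) :=
    FP.pi fun s => fp3 (htD s) p2
  have f6 : FP (fun (q : α × ℕ × ℕ) (x : c.C) (s : c.S') => tA x s q.1 q.2.1 q.2.2) :=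
    FP.pi fun x => FP.pi fun s => fp3 (htA x s) p0
  have f7 : FP (fun (q : α × ℕ × ℕ) (x : c.C) (s : c.S') => tB x s q.1 q.2.1 q.2.2) :=
    FP.pi fun x => FP.pi fun s => fp3 (htB x s) p0
  have f8 : FP (fun (q : α × ℕ × ℕ) (x : c.C) (s : c.S') => tA x s q.1 (q.2.1 - 1) q.2.2) :=
    FP.pi fun x => FP.pi fun s => fp3 (htA x s) p1
  have f9 : FP (fun (q : α × ℕ × ℕ) (x : c.C) (s : c.S') => tB x s q.1 (q.2.1 - 1) q.2.2) :=
    FP.pi fun x => FP.pi fun s => fp3 (htB x s) p1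
  have F := (((f1.prodMk f2).prodMk (f3.prodMk (f4.prodMk f5))).prodMk
    ((f6.prodMk f7).prodMk (f8.prodMk f9))).map
    (fun x => (⟨x.1.1.1, x.1.1.2, x.1.2.1, x.1.2.2.1, x.1.2.2.2, x.2.1.1, x.2.1.2, x.2.2.1,
      x.2.2.2⟩ : c.TD))
  refine ⟨fun a k v => ⟨decide (k = 0), decide (k = L a), fun s => tD s a k v,
    fun s => if decide (k = 0) = true then 0 else tD s a (k - 1) v, fun s => tD s a (k + 1) v,
    fun x s => tA x s a k v, fun x s => tB x s a k v, fun x s => tA x s a (k - 1) v,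
    fun x s => tB x s a (k - 1) v⟩, F, fun i k hk τ => ?_⟩
  have e1 : ∀ s, tD s (raw i) k (eT i τ : Fin _) = (I i).D k (τ, s) :=
    fun s => hsD s i k (hk.trans (Nat.le_succ _)) τ
  have e2 : ∀ s, tD s (raw i) (k + 1) (eT i τ : Fin _) = (I i).D (k + 1) (τ, s) :=
    fun s => hsD s i (k + 1) (Nat.succ_le_succ hk) τ
  have e3 : ∀ s, tD s (raw i) (k - 1) (eT i τ : Fin _) = (I i).D (k - 1) (τ, s) :=
    fun s => hsD s i (k - 1) (by show k - 1 ≤ (I i).L + 1; omega) τ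
  have e4 : ∀ x s, tA x s (raw i) k (eT i τ : Fin _) = (I i).A k x (τ, s) :=
    fun x s => hsA x s i k (hk.trans (Nat.le_succ _)) τ
  have e5 : ∀ x s, tB x s (raw i) k (eT i τ : Fin _) = (I i).B k x (τ, s) :=
    fun x s => hsB x s i k (hk.trans (Nat.le_succ _)) τ
  have e6 : ∀ x s, tA x s (raw i) (k - 1) (eT i τ : Fin _) = (I i).A (k - 1) x (τ, s) :=
    fun x s => hsA x s i (k - 1) (by show k - 1 ≤ (I i).L + 1; omega) τ
  have e7 : ∀ x s, tB x s (raw i) (k - 1) (eT i τ : Fin _) = (I i).B (k - 1) x (τ, s) :=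
    fun x s => hsB x s i (k - 1) (by show k - 1 ≤ (I i).L + 1; omega) τ
  have e8 : (fun s : c.S' => if decide (k = 0) = true then (0 : K) else
      tD s (raw i) (k - 1) (eT i τ : Fin _)) = fun s' => (I i).Dm k (τ, s') := by
    funext s
    show _ = Level492.Dm (I i).D k (τ, s)
    rcases k with _ | t
    · simp [Level492.Dm]
    · have := e3 s
      simp only [Nat.add_sub_cancel] at this
      simp [Level492.Dm, this]
  unfold Ins.td
  simp only [e1, e2, e4, e5, e6, e7, hLe]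
  rw [e8]

/-- **the Boolean table of the clock data** -/
theorem exists_B (h : InsTab raw I nG nT eG eT) :
    ∃ B : α → c.TD → ℕ → ℕ → Bool,
      (∀ b, PTF (fun q : α × ℕ × ℕ => B q.1 b q.2.1 q.2.2)) ∧
      ∀ i b k, k ≤ (I i).L → ∀ τ (r : ℕ), r % nT (raw i) = (eT i τ : Fin _) →
        (B (raw i) b k r = true ↔ (I i).td k τ = b) := by
  classical
  obtain ⟨t, ht, hs⟩ := fp_td h
  refine ⟨fun a b k r => decide (t a k (r % nT a) = b), fun b => ?_, fun i b k hk τ r hr => ?_⟩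
  · have h1 := (FP.comp ht (g := fun q : α × ℕ × ℕ => (q.1, q.2.1, q.2.2 % nT q.1))
      (PTF.fst.prodMk ((PTF.comp PTF.fst PTF.snd).prodMk
        (PTF.natMod (PTF.comp PTF.snd PTF.snd) (PTF.comp h.nT PTF.fst))))) fun x => decide (x = b)
    exact h1
  · rw [decide_eq_true_eq, hr, hs i k hk]

end td

section mem

variable {D : Obj} {M0 : ℕ} {lam0 Kr : ℝ} {h : D.OK M0 lam0 Kr} {W c0 : ℕ}
variable {ι α : Type} [PTCode α] {raw : ι → α} {mem : ι → Mem12.Mem h W c0}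
  {N nL ρ nG nT : α → ℕ} {e : ∀ i, (mem i).I.U ≃ Fin (N (raw i))}
  {eG : ∀ i, (mem i).I.Γ ≃ Fin (nG (raw i))} {eT : ∀ i, (mem i).I.T ≃ Fin (nT (raw i))}

/-- **tables of the clock moves** -/
theorem mp_mc [Finite D.K] [PTCode D.K] (he : Num mem e)
    (hn : PTU nL) (hρ : PTF ρ)
    (hnL : ∀ i, nL (raw i) = (mem i).P.L + 1) (hrho : ∀ i, ρ (raw i) = (mem i).siz.rho)
    (hI : InsTab raw (fun i => (mem i).I) nG nT eG eT)
    (heT : ∀ i (τ : (mem i).I.T), ((eT i τ : Fin _) : ℕ) = (D.ix (mem i).kT τ : Fin _))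
    (g : CG (cst h W)) : Mp raw e e (fun i u => (mem i).mc g u) := by
  let _ : PTCode (ZMod 3) := ClockPT484.ptcZ 3
  obtain ⟨B, hB, hBs⟩ := exists_B hI
  refine ⟨fun a w => mcN 3 (B a) (nL a) (ρ a) g w, ?_, fun i u => ?_⟩
  · exact ptf_mcN (α := α × ℕ) 3 (m := fun p => nL p.1) (ρ := fun p => ρ p.1)
      (w := fun p => p.2) (B := fun p => B p.1) (PTU.comp hn PTF.fst) (PTF.comp hρ PTF.fst)
      PTF.snd (fun b => PTF.comp (g := fun q : α × ℕ × ℕ => B q.1 b q.2.1 q.2.2)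
        (f := fun q : (α × ℕ) × ℕ × ℕ => (q.1.1, q.2.1, q.2.2)) (hB b)
        ((PTF.comp PTF.fst PTF.fst).prodMk
          ((PTF.comp PTF.fst PTF.snd).prodMk (PTF.comp PTF.snd PTF.snd)))) g
  · have hT : nT (raw i) = (mem i).siz.nT := by
      have h1 := Fintype.card_congr (eT i)
      have h2 := Fintype.card_congr (D.ix (mem i).kT)
      rw [Fintype.card_fin] at h1 h2
      exact h1.symm.trans h2
    have h1 := mcN_spec (p := 3) (mem i).I (mem i).siz.nU_eq
      (ixU (mem i).siz (D.ix (mem i).kP) (D.ix (mem i).kR) (D.ix (mem i).kT)) (mem i).tq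
      (B (raw i)) (fun b t r ht => hBs i b t ht ((mem i).tq r) r (by
        rw [heT i, hT]
        show (r : ℕ) % _ = ((D.ix (mem i).kT ((D.ix (mem i).kT).symm ⟨(r : ℕ) % (mem i).siz.nT,
          Nat.mod_lt _ (mem i).siz.nT_pos⟩) : Fin _) : ℕ)
        rw [Equiv.apply_symm_apply])) g u
    show mcN 3 (B (raw i)) (nL (raw i)) (ρ (raw i)) g ((e i u : Fin _) : ℕ) =
      ((e i ((mem i).mc g u) : Fin _) : ℕ)
    rw [he i u, he i, hnL i, hrho i]
    exact h1

end mem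

end Crest.Agent.R289.TdTab987
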