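import Mathlib
import Crest.Agent.R289.Tensor_560

/-!
Row 289, block BC4: codes with local tests as a package `Good C T S d κ r` (distance, local
testability, locality of the tests, every point in at most `r` views), closed under tensor products
(hence any number of factors), change of positions and finite products (tuples on the same
positions).  helper101.
-/

set_option autoImplicit false
set_option linter.unusedSectionVars false

namespace Crest.Agent.R289.Tens3

open Finset Crest.Agent.R289.Tensor560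

variable {K : Type*} [Field K]

open Classical in
/-- a code with local tests: `d` relative distance, `κ` testability constant (absolute counts),
`S j` the view of test `j`, every point in at most `r` views. -/
structure Good {Ω J : Type*} [Fintype Ω] [Fintype J] (C : Submodule K (Ω → K))
    (T : J → Submodule K (Ω → K)) (S : J → Finset Ω) (d κ : ℝ) (r : ℕ) : Prop where
  dpos : 0 < d
  dle : d ≤ 1
  kpos : 0 ≤ κ
  dist : MinDist C d
  ltc : LTC C T κ
  loc : ∀ j (f : Ω → K), (∀ ω ∈ S j, f ω = 0) → f ∈ T j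
  le : ∀ j, C ≤ T j
  reg : ∀ ω, (univ.filter fun j => ω ∈ S j).card ≤ r

section basic

variable {Ω J : Type*} [Fintype Ω] [Fintype J] {C : Submodule K (Ω → K)}
  {T : J → Submodule K (Ω → K)} {S : J → Finset Ω} {d κ : ℝ} {r : ℕ}

/-- bundles: constant `max (2κ) (3κ/d)`. -/
theorem Good.bltc [Fintype K] (h : Good C T S d κ r) (ι : Type*) [Fintype ι] :
    BLTC ι C T (max (2 * κ) (3 * κ / d)) :=
  interleave h.dpos h.kpos h.dist h.ltc ι

/-- only the values in the view of a test matter. -/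
theorem Good.congr (h : Good C T S d κ r) (j : J) {f g : Ω → K} (hfg : ∀ ω ∈ S j, f ω = g ω) :
    f ∈ T j ↔ g ∈ T j := by
  have h1 : f - g ∈ T j := h.loc j _ fun ω hω => by simp [hfg ω hω]
  constructor
  · intro hf
    have : g = f - (f - g) := by abel
    rw [this]
    exact (T j).sub_mem hf h1
  · intro hg
    have : f = g + (f - g) := by abel
    rw [this]
    exact (T j).add_mem hg h1

open Classical in
/-- a word at distance `D` of the code fails at most `r D` tests. -/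
theorem Good.vcount_le (h : Good C T S d κ r) {f g : Ω → K} (hg : g ∈ C) :
    vcount T f ≤ r * dcount f g := by
  unfold vcount dcount
  have h1 : (univ.filter fun j => f ∉ T j) ⊆
      (univ.filter fun ω => f ω ≠ g ω).biUnion fun ω => univ.filter fun j => ω ∈ S j := by
    intro j hj
    have hj' := (mem_filter.mp hj).2
    rw [mem_biUnion]
    by_contra hcon
    push Not at hcon
    apply hj'
    rw [h.congr j (g := g)]
    · exact h.le j hg
    · intro ω hω
      by_contra hne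
      exact hcon ω (mem_filter.mpr ⟨mem_univ _, hne⟩) (mem_filter.mpr ⟨mem_univ _, hω⟩)
  refine (card_le_card h1).trans (card_biUnion_le.trans ?_)
  refine (Finset.sum_le_sum fun ω _ => h.reg ω).trans ?_
  rw [Finset.sum_const, smul_eq_mul, mul_comm]

/-- two code words which agree on more than `(1-d)|Ω|` points are equal. -/
theorem Good.eq_of_dcount (h : Good C T S d κ r) {f g : Ω → K} (hf : f ∈ C) (hg : g ∈ C)
    (hd : (dcount f g : ℝ) < d * Fintype.card Ω) : f = g := by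
  by_contra hne
  have := h.dist (f - g) (C.sub_mem hf hg) (sub_ne_zero.mpr hne)
  rw [wt_sub] at this
  linarith

theorem Good.mono (h : Good C T S d κ r) {d' κ' : ℝ} {r' : ℕ} (hd0 : 0 < d') (hd : d' ≤ d)
    (hκ : κ ≤ κ') (hr : r ≤ r') : Good C T S d' κ' r' where
  dpos := hd0
  dle := hd.trans h.dle
  kpos := h.kpos.trans hκ
  dist := fun f hf hne => (mul_le_mul_of_nonneg_right hd (Nat.cast_nonneg _)).trans
    (h.dist f hf hne)
  ltc := fun f => by
    obtain ⟨g, hg, hgd⟩ := h.ltc f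
    exact ⟨g, hg, hgd.trans (mul_le_mul_of_nonneg_right hκ (Nat.cast_nonneg _))⟩
  loc := h.loc
  le := h.le
  reg := fun ω => (h.reg ω).trans hr

end basic

/-! ### tensor products -/

section tensor

variable {Ω₁ Ω₂ J₁ J₂ : Type*} [Fintype Ω₁] [Fintype Ω₂] [Fintype J₁] [Fintype J₂]

/-- views of the tests of a tensor product -/
def tensS (S₁ : J₁ → Finset Ω₁) (S₂ : J₂ → Finset Ω₂) :
    (J₁ × Ω₂) ⊕ (Ω₁ × J₂) → Finset (Ω₁ × Ω₂) :=
  Sum.elim (fun p => S₁ p.1 ×ˢ {p.2}) (fun p => {p.1} ×ˢ S₂ p.2)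

variable {C₁ : Submodule K (Ω₁ → K)} {C₂ : Submodule K (Ω₂ → K)}
  {T₁ : J₁ → Submodule K (Ω₁ → K)} {T₂ : J₂ → Submodule K (Ω₂ → K)}
  {S₁ : J₁ → Finset Ω₁} {S₂ : J₂ → Finset Ω₂} {d₁ d₂ κ₁ κ₂ : ℝ} {r₁ r₂ : ℕ}

/-- testability constant of a tensor product -/
noncomputable def kap (d₁ κ₁ : ℝ) (r₁ : ℕ) (d₂ κ₂ : ℝ) : ℝ :=
  κ₂ + max (2 * κ₁) (3 * κ₁ / d₁) * r₁ / (d₁ * d₂) * (κ₁ + κ₂)

/-- **tensor product of two codes with local tests.** -/
theorem Good.tens [Fintype K] (h₁ : Good C₁ T₁ S₁ d₁ κ₁ r₁) (h₂ : Good C₂ T₂ S₂ d₂ κ₂ r₂) :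
    Good (tens C₁ C₂) (tensT T₁ T₂) (tensS S₁ S₂) (d₁ * d₂) (kap d₁ κ₁ r₁ d₂ κ₂) (r₁ + r₂) := by
  classical
  have hb0 : 0 ≤ max (2 * κ₁) (3 * κ₁ / d₁) :=
    le_max_of_le_left (by have := h₁.kpos; positivity)
  have hd1 := h₁.dpos
  have hd2 := h₂.dpos
  have hk1 := h₁.kpos
  have hk2 := h₂.kpos
  refine ⟨mul_pos hd1 hd2, ?_, ?_, tensor_dist hd2.le h₁.dist h₂.dist, ?_, ?_, ?_, ?_⟩
  · calc d₁ * d₂ ≤ 1 * 1 := mul_le_mul h₁.dle h₂.dle hd2.le zero_le_one
      _ = 1 := one_mul 1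
  · unfold kap
    positivity
  · exact tensor_ltc hd1 h₁.dle hd2 hk1 hk2 hb0 h₁.dist h₂.dist h₁.ltc h₂.ltc
      (h₁.bltc Ω₂) S₁ h₁.loc h₁.le r₁ (fun ω => by convert h₁.reg ω)
  · rintro (⟨j, t⟩ | ⟨ω, j⟩) f hf
    · refine h₁.loc j _ fun ω hω => hf (ω, t) ?_
      simp [tensS, hω]
    · refine h₂.loc j _ fun t ht => hf (ω, t) ?_
      simp [tensS, ht]
  · rintro (⟨j, t⟩ | ⟨ω, j⟩) f hf
    · exact h₁.le j (hf.1 t)
    · exact h₂.le j (hf.2 ω)
  · rintro ⟨ω, t⟩
    have e : (univ.filter fun j => (ω, t) ∈ tensS S₁ S₂ j) ⊆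
        ((univ.filter fun j => ω ∈ S₁ j).image
          fun j => (Sum.inl (j, t) : (J₁ × Ω₂) ⊕ (Ω₁ × J₂))) ∪
        ((univ.filter fun j => t ∈ S₂ j).image
          fun j => (Sum.inr (ω, j) : (J₁ × Ω₂) ⊕ (Ω₁ × J₂))) := by
      rintro (⟨j, t'⟩ | ⟨ω', j⟩) hj
      · have := (mem_filter.mp hj).2
        simp only [tensS, Sum.elim_inl, mem_product, mem_singleton] at this
        obtain ⟨h1, rfl⟩ := this
        exact mem_union_left _ (mem_image.2 ⟨j, by simp [h1], rfl⟩)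
      · have := (mem_filter.mp hj).2
        simp only [tensS, Sum.elim_inr, mem_product, mem_singleton] at this
        obtain ⟨rfl, h2⟩ := this
        exact mem_union_right _ (mem_image.2 ⟨j, by simp [h2], rfl⟩)
    have h3 := (card_le_card e).trans (card_union_le _ _)
    have h4 := (card_image_le (s := univ.filter fun j => ω ∈ S₁ j)
      (f := fun j => (Sum.inl (j, t) : (J₁ × Ω₂) ⊕ (Ω₁ × J₂)))).trans
      (le_of_eq_of_le (by congr) (h₁.reg ω))
    have h5 := (card_image_le (s := univ.filter fun j => t ∈ S₂ j)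
      (f := fun j => (Sum.inr (ω, j) : (J₁ × Ω₂) ⊕ (Ω₁ × J₂)))).trans
      (le_of_eq_of_le (by congr) (h₂.reg t))
    exact le_of_eq_of_le (by congr) (h3.trans (Nat.add_le_add h4 h5))

variable {Ω₃ J₃ : Type*} [Fintype Ω₃] [Fintype J₃] {C₃ : Submodule K (Ω₃ → K)}
  {T₃ : J₃ → Submodule K (Ω₃ → K)} {S₃ : J₃ → Finset Ω₃} {d₃ κ₃ : ℝ} {r₃ : ℕ}

/-- **three factors** (positions `Ω₁ × Ω₂ × Ω₃`). -/
theorem Good.tens3 [Fintype K] (h₁ : Good C₁ T₁ S₁ d₁ κ₁ r₁) (h₂ : Good C₂ T₂ S₂ d₂ κ₂ r₂)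
    (h₃ : Good C₃ T₃ S₃ d₃ κ₃ r₃) :
    Good (Tensor560.tens C₁ (Tensor560.tens C₂ C₃)) (tensT T₁ (tensT T₂ T₃))
      (tensS S₁ (tensS S₂ S₃)) (d₁ * (d₂ * d₃))
      (kap d₁ κ₁ r₁ (d₂ * d₃) (kap d₂ κ₂ r₂ d₃ κ₃)) (r₁ + (r₂ + r₃)) :=
  h₁.tens (h₂.tens h₃)

theorem mem_tens3 {M : Ω₁ × Ω₂ × Ω₃ → K} :
    M ∈ Tensor560.tens C₁ (Tensor560.tens C₂ C₃) ↔ (∀ t u, (fun ω => M (ω, t, u)) ∈ C₁) ∧
      (∀ ω u, (fun t => M (ω, t, u)) ∈ C₂) ∧ ∀ ω t, (fun u => M (ω, t, u)) ∈ C₃ := by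
  constructor
  · rintro ⟨h1, h2⟩
    exact ⟨fun t u => h1 (t, u), fun ω u => (h2 ω).1 u, fun ω t => (h2 ω).2 t⟩
  · rintro ⟨h1, h2, h3⟩
    exact ⟨fun tu => h1 tu.1 tu.2, fun ω => ⟨fun u => h2 ω u, fun t => h3 ω t⟩⟩

end tensor

/-! ### change of positions -/

section reindex

variable {Ω Ω' J : Type*} [Fintype Ω] [Fintype Ω'] [Fintype J] {C : Submodule K (Ω → K)}
  {T : J → Submodule K (Ω → K)} {S : J → Finset Ω} {d κ : ℝ} {r : ℕ}

/-- the same code on renamed positions: `f ∘ e ∈ C`. -/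
def re (e : Ω ≃ Ω') (C : Submodule K (Ω → K)) : Submodule K (Ω' → K) :=
  C.comap (LinearMap.funLeft K K e)

omit [Fintype Ω] [Fintype Ω'] in
theorem mem_re {e : Ω ≃ Ω'} {C : Submodule K (Ω → K)} {f : Ω' → K} :
    f ∈ re e C ↔ (fun ω => f (e ω)) ∈ C := Iff.rfl

theorem dcount_comp {M : Type*} (e : Ω ≃ Ω') (f g : Ω' → M) :
    dcount (fun ω => f (e ω)) (fun ω => g (e ω)) = dcount f g := by
  classical
  unfold dcount
  refine Finset.card_bij (fun a _ => e a) ?_ ?_ ?_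
  · intro a ha
    simpa using ha
  · intro a _ b _ h
    exact e.injective h
  · intro b hb
    exact ⟨e.symm b, by simpa using hb, by simp⟩

theorem Good.re (h : Good C T S d κ r) (e : Ω ≃ Ω') :
    Good (re e C) (fun j => re e (T j)) (fun j => (S j).map e.toEmbedding) d κ r := by
  classical
  refine ⟨h.dpos, h.dle, h.kpos, ?_, ?_, ?_, ?_, ?_⟩
  · intro f hf hne
    have hne' : (fun ω => f (e ω)) ≠ 0 := by
      intro h0
      apply hne
      funext ω'
      have := congrFun h0 (e.symm ω')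
      simpa using this
    have h1 := h.dist _ (mem_re.1 hf) hne'
    have h2 : wt (fun ω => f (e ω)) = wt f := dcount_comp e f 0
    rw [h2, Fintype.card_congr e] at h1
    exact h1
  · intro f
    obtain ⟨g, hg, hgd⟩ := h.ltc (fun ω => f (e ω))
    refine ⟨fun ω' => g (e.symm ω'), ?_, ?_⟩
    · rw [mem_re]
      simpa using hg
    · have h1 : dcount f (fun ω' => g (e.symm ω')) = dcount (fun ω => f (e ω)) g := by
        rw [← dcount_comp e]
        simp
      rw [h1]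
      exact hgd
  · intro j f hf
    exact h.loc j _ fun ω hω => hf (e ω) (by simpa using hω)
  · intro j f hf
    exact h.le j hf
  · intro ω'
    refine le_trans (le_of_eq ?_) (h.reg (e.symm ω'))
    congr 1
    ext j
    simp only [mem_filter, mem_univ, true_and, mem_map_equiv]

end reindex

end Crest.Agent.R289.Tens3
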