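import Crest.Agent.R289.PExpLib_118
import Crest.Agent.R289.Expr_118

/-!
# Row 289, block E: translation `Ex (ℕ × ℕ) → PExp` (helper118)
-/

set_option autoImplicit false

namespace Crest.Agent.R289.Expr118

open Crest.Agent.R289

namespace Ex

/-- translation to the frozen language: input `(k, l)` = variable `l` of the `k`-th neighbour -/
def toP : Ex (ℕ × ℕ) → PExp
  | inp i => .var i.1 i.2
  | const q => .const q
  | scale q a => .scale q a.toP
  | add a b => .add a.toP b.toP
  | sub a b => .sub a.toP b.toP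

theorem eval_toP (x : ℕ → ℕ → ℚ) (e : Ex (ℕ × ℕ)) :
    e.toP.eval x = e.eval fun i => x i.1 i.2 := by
  induction e with
  | inp i => rfl
  | const q => rfl
  | scale q a ih => simp only [toP, eval, PExp.eval, ih]
  | add a b iha ihb => simp only [toP, eval, PExp.eval, iha, ihb]
  | sub a b iha ihb => simp only [toP, eval, PExp.eval, iha, ihb]

theorem WF_toP {K L : ℕ} {e : Ex (ℕ × ℕ)} (he : e.WF)
    (h : e.All fun i => i.1 < K ∧ i.2 < L) : e.toP.WF K L := by
  induction e with
  | inp i => exact h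
  | const q => exact he
  | scale q a ih => exact ⟨he.1, ih he.2 h⟩
  | add a b iha ihb => exact ⟨iha he.1 h.1, ihb he.2 h.2⟩
  | sub a b iha ihb => exact ⟨iha he.1 h.1, ihb he.2 h.2⟩

/-- translation for inputs in `Fin K × Fin L` -/
def toPF {K L : ℕ} (e : Ex (Fin K × Fin L)) : PExp := (e.map fun i => (i.1.val, i.2.val)).toP

theorem eval_toPF {K L : ℕ} (x : ℕ → ℕ → ℚ) (e : Ex (Fin K × Fin L)) :
    e.toPF.eval x = e.eval fun i => x i.1.val i.2.val := by
  rw [toPF, eval_toP, eval_map]

theorem All_bind_inp {ι κ : Type} {P : κ → Prop} (f : ι → κ) {e : Ex ι}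
    (h : e.All fun i => P (f i)) : (e.map f).All P := by
  induction e with
  | inp i => exact h
  | const q => trivial
  | scale q a ih => exact ih h
  | add a b iha ihb => exact ⟨iha h.1, ihb h.2⟩
  | sub a b iha ihb => exact ⟨iha h.1, ihb h.2⟩

theorem WF_toPF {K L : ℕ} {e : Ex (Fin K × Fin L)} (he : e.WF) : e.toPF.WF K L :=
  WF_toP (WF_map _ e he) (All_bind_inp _ (All.of_forall (fun i => ⟨i.1.isLt, i.2.isLt⟩) e))

end Ex

end Crest.Agent.R289.Expr118
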