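import Crest.Agent.R289.MemF_12
import Crest.Agent.R289.DecM_589

/-!
# Row 289, leaf E21 part 9 (helper589): the decoding half of TopH over the family `MemF12.Fd`

* `adF` : addresses of the units where the solution is read, from the addresses `al` of the name positions
  in the content group; `ptf_adF`, `adF_eq`;
* `decN`, `decM` : the two decoding clauses of `exists_baseT` / `BaseT.On` for the member of every well
  formed instance.
-/

set_option autoImplicit false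
set_option linter.dupNamespace false
set_option linter.unusedSectionVars false

namespace Crest.Agent.R289.TopD589

open Crest.PPADPCP Crest.Agent.Lib.PT
open Crest.Agent.R289 Crest.Agent.R289.Asm12 Crest.Agent.R289.Sol589 Crest.Agent.R289.DecI589
open Crest.Agent.R289.DefC Crest.Agent.R289.BootC515 Crest.Agent.R289.Compile827
open Crest.Agent.R289.DefI Crest.Agent.R289.InsObj576 Crest.Agent.R289.Mem12
open Crest.Agent.R289.MemF12 Crest.Agent.R289.FamComb715 Crest.Agent.R289.GlueD194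
open Crest.Agent.R289.YIdx901 Crest.Agent.R289.InsTab117 Crest.Agent.R289.PathObj992

variable {D : Obj} {M0 : ℕ} {lam0 Kr : ℝ} {h : D.OK M0 lam0 Kr} (F : Fd h)

/-- address of the unit where bit `j` is read -/
def adF (al : EI × ℕ → ℕ) (p : EI × ℕ) : ℕ := pI (nTa D F.kT p.1) (al p) 0

theorem ptf_adF {al : EI × ℕ → ℕ} (hal : PTF al) : PTF (adF F al) :=
  ptf_pI (PTF.comp (PTU.toPTF F.uQT) PTF.fst) hal (PTF.const 0)

/-- a fixed element of `T` -/
def tau (i : WI) : D.P (F.kT (rI i)) :=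
  (eTi D rI F.kT i).symm ⟨0, pow_pos (lt_of_lt_of_le Nat.zero_lt_two h.two_le) _⟩

theorem adF_eq {al : EI × ℕ → ℕ} (i : WI) (j : Fin (F.lay i).n)
    (hal : ((eGi D rI F.kP F.kR i ((F.lay i).al j) : Fin _) : ℕ) = al (rI i, (j : ℕ))) :
    ((F.eU i ((F.lay i).al j, tau F i) : Fin _) : ℕ) = adF F al (rI i, (j : ℕ)) := by
  refine (eP_val (eGi D rI F.kP F.kR i) (eTi D rI F.kT i) ((F.lay i).al j) (tau F i)).trans ?_
  rw [hal]
  unfold tau adF
  rw [Equiv.apply_symm_apply]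
  rfl

variable {al : EI × ℕ → ℕ}
  (hal : ∀ (i : WI) (j : Fin (F.lay i).n),
    ((eGi D rI F.kP F.kR i ((F.lay i).al j) : Fin _) : ℕ) = al (rI i, (j : ℕ)))
  (hreal : ∀ i : WI, Real i.1 (act D (F.kP (rI i)) (F.kR (rI i))) (26 : Fin 28) (F.lay i))
  {W' : ∀ m : Mem h ((dT D + 1) ^ 3) 0, Set (m.I.U → (cst h ((dT D + 1) ^ 3)).Lab (ZMod 3))}
  {N' M' : ∀ m : Mem h ((dT D + 1) ^ 3) 0, (m.I.U → (cst h ((dT D + 1) ^ 3)).Lab (ZMod 3)) →
    m.I.U → (cst h ((dT D + 1) ^ 3)).Lab (ZMod 3)}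
  (hW : ∀ m, ∀ w ∈ W' m, ∃ f, m.lm.Legal f ∧ w = m.word f)
  (hN : ∀ (m : Mem h ((dT D + 1) ^ 3) 0) f, m.lm.Legal f →
    N' m (m.word f) = m.word (m.lm.stepN f))
  (hM : ∀ (m : Mem h ((dT D + 1) ^ 3) 0) f, m.lm.Legal f →
    M' m (m.word f) = m.word (m.lm.stepM f))

include hal hreal hW

include hN in
/-- **forward decoding clause of the family** -/
theorem decN (i : WI) : ∀ w ∈ W' (F.mem i), N' (F.mem i) w = w →
    ∃ v : Fin i.1.n → Bool, i.1.IsSolution v ∧ ∀ j : Fin i.1.n, ∃ u : (F.mem i).I.U,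
      ((F.eU i u : Fin _) : ℕ) = adF F al (rI i, (j : ℕ)) ∧
        gReg (c := cst h ((dT D + 1) ^ 3)) Rg.X (w u) = v j :=
  DecM589.decN (F.mem i) (hreal i) (F.eU i) (fun j => adF F al (rI i, j)) (tau F i)
    (fun j => adF_eq F i j (hal i j)) (W' (F.mem i)) (hW (F.mem i)) i.2 (N' (F.mem i))
    (hN (F.mem i))

include hM in
/-- **backward decoding clause of the family** -/
theorem decM (i : WI) : ∀ w ∈ W' (F.mem i), M' (F.mem i) w = w → w ≠ (F.mem i).w0 →
    ∃ v : Fin i.1.n → Bool, i.1.IsSolution v ∧ ∀ j : Fin i.1.n, ∃ u : (F.mem i).I.U,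
      ((F.eU i u : Fin _) : ℕ) = adF F al (rI i, (j : ℕ)) ∧
        gReg (c := cst h ((dT D + 1) ^ 3)) Rg.Y (w u) = v j :=
  DecM589.decM (F.mem i) (hreal i) (F.eU i) (fun j => adF F al (rI i, j)) (tau F i)
    (fun j => adF_eq F i j (hal i j)) (W' (F.mem i)) (hW (F.mem i)) (M' (F.mem i))
    (hM (F.mem i))

end Crest.Agent.R289.TopD589
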