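import Crest.Agent.R289.BaseTab_987
import Crest.Agent.R289.TopU_782

/-!
# Row 289: clause `H` of `TopU782.fam_of_sem` from the tables of one instance family (helper987)

`exists_H` : `I : Inst → Ins c`, `mem : WI → Inst` = member that belongs to a well formed instance.  Tables
of the instance (`InsTab`), of the clock moves, of the clock public data, of the code slots, of the clock
word of the value `0` and the two decoding clauses give the base tables `T` of `fam_of_sem`.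
-/

set_option autoImplicit false
set_option linter.unusedVariables false
set_option linter.unusedSectionVars false
set_option linter.dupNamespace false

namespace Crest.Agent.R289.TopHA987

open Crest.PPADPCP Crest.Agent.Lib.PT Crest.Agent.Lib.PT.Arith Crest.Agent.R289
  Crest.Agent.R289.YIdx901 Crest.Agent.R289.FamComb715 Crest.Agent.R289.FamPub715
  Crest.Agent.R289.UFam715 Crest.Agent.R289.DefI Crest.Agent.R289.Local782
  Crest.Agent.R289.PubBits92 Crest.Agent.R289.BaseTab987 Crest.Agent.R289.TopU782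
  Crest.Agent.R289.DefIFin465

variable {K : Type} [Field K] [Finite K] [PTCode K] {c : Cst K} {Inst : Type} (I : Inst → Ins c)
  {Ck Gc Pc ι0 P0 : Type} (mc : ∀ i, Gc → (I i).U → (I i).U) (pc : ∀ i, (I i).U → Pc)
  (nb0 : ∀ i, ι0 → (I i).U → (I i).U) (pub0 : ∀ i, (I i).U → P0) (mem : WI → Inst)
  {nG nT : EI → ℕ} {eG : ∀ i : WI, (I (mem i)).Γ ≃ Fin (nG (rI i))}
  {eT : ∀ i : WI, (I (mem i)).T ≃ Fin (nT (rI i))}

/-- tables of the base steps -/
theorem mp_mvF (h : InsTab rI (fun i => I (mem i)) nG nT eG eT)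
    (hmc : ∀ g, Mp (U := fun i => (I (mem i)).U) (V := fun i => (I (mem i)).U) rI (eQ eG eT)
      (eQ eG eT) (fun i u => mc (mem i) g u))
    (hnb : ∀ s, Mp (U := fun i => (I (mem i)).U) (V := fun i => (I (mem i)).U) rI (eQ eG eT)
      (eQ eG eT) (fun i u => nb0 (mem i) s u)) (s : c.Gen Gc ⊕ ι0) :
    Mp (U := fun i => (I (mem i)).U) (V := fun i => (I (mem i)).U) rI (eQ eG eT) (eQ eG eT)
      (fun i u => mvF I mc pc nb0 (mem i) s u) := by
  rcases s with g | s
  · exact h.mp_frame (mc := fun i => mc (mem i)) (pc := fun i => pc (mem i)) hmc g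
  · exact hnb s

/-- tables of the public data -/
theorem tabF_pubF [Finite Pc] [Finite P0] (h : InsTab rI (fun i => I (mem i)) nG nT eG eT)
    (hpc : TabF (U := fun i => (I (mem i)).U) rI (eQ eG eT) (fun i u => pc (mem i) u))
    (hp0 : TabF (U := fun i => (I (mem i)).U) rI (eQ eG eT) (fun i u => pub0 (mem i) u)) :
    TabF (U := fun i => (I (mem i)).U) rI (eQ eG eT)
      (fun i u => pubF I mc pc pub0 (mem i) u) := by
  have h1 : TabF (U := fun i => (I (mem i)).U) rI (eQ eG eT)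
      (fun i u => (((I (mem i)).pd u, pc (mem i) u), pub0 (mem i) u)) :=
    (h.tabF_pd.pair hpc).pair hp0
  exact h1

/-- **clause `H` of `fam_of_sem`** -/
theorem exists_H [Finite Ck] [Finite Pc] [Finite P0]
    (h : InsTab rI (fun i => I (mem i)) nG nT eG eT)
    (hmc : ∀ g, Mp (U := fun i => (I (mem i)).U) (V := fun i => (I (mem i)).U) rI (eQ eG eT)
      (eQ eG eT) (fun i u => mc (mem i) g u))
    (hpc : TabF (U := fun i => (I (mem i)).U) rI (eQ eG eT) (fun i u => pc (mem i) u))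
    (hnb : ∀ s, Mp (U := fun i => (I (mem i)).U) (V := fun i => (I (mem i)).U) rI (eQ eG eT)
      (eQ eG eT) (fun i u => nb0 (mem i) s u))
    (hp0 : TabF (U := fun i => (I (mem i)).U) rI (eQ eG eT) (fun i u => pub0 (mem i) u))
    (cw : ∀ i, ℕ → (I i).U → Ck)
    (hcw : TabF (U := fun i => (I (mem i)).U) rI (eQ eG eT) (fun i u => cw (mem i) 0 u))
    (st0 stz : c.A.Stg) (h0 : ∀ i, (I i).stg0 = st0) (hz : ∀ i, (I i).stgz = stz)
    {len : EI → ℕ} (hlen : PTU len) {adN adM : EI × ℕ → ℕ} (hN : PTF adN) (hM : PTF adM)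
    {W : ∀ i, Set ((I i).U → c.Lab Ck)} {N M : ∀ i, ((I i).U → c.Lab Ck) → (I i).U → c.Lab Ck}
    {w0 : ∀ i, (I i).U → c.Lab Ck}
    (hw0 : ∀ i, w0 i = (I i).labE (cw i) ⟨.boot, 0, (I i).xz, (I i).zz, (I i).xs,
      (I i).ent (I i).xs⟩)
    {gN gM : c.Lab Ck → Bool} {n0 a b : ℕ}
    (h1 : ∀ E : EOL, E.WF → n0 ≤ nG (raw E) * nT (raw E))
    (h2 : ∀ E : EOL, E.WF → 0 < nG (raw E) * nT (raw E))
    (h3 : ∀ E : EOL, E.WF → nG (raw E) * nT (raw E) ≤
      a * E.encode.length * (Nat.clog 2 (E.encode.length + 2)) ^ b)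
    (h4 : ∀ E : EOL, E.WF → len (raw E) = E.n)
    (h5 : ∀ i : WI, ∀ w ∈ W (mem i), N (mem i) w = w →
      ∃ v : Fin i.1.n → Bool, i.1.IsSolution v ∧ ∀ j : Fin i.1.n, ∃ u : (I (mem i)).U,
        ((eQ eG eT i u : Fin _) : ℕ) = adN (raw i.1, (j : ℕ)) ∧ gN (w u) = v j)
    (h6 : ∀ i : WI, ∀ w ∈ W (mem i), M (mem i) w = w → w ≠ w0 (mem i) →
      ∃ v : Fin i.1.n → Bool, i.1.IsSolution v ∧ ∀ j : Fin i.1.n, ∃ u : (I (mem i)).U,
        ((eQ eG eT i u : Fin _) : ℕ) = adM (raw i.1, (j : ℕ)) ∧ gM (w u) = v j) :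
    ∃ T : BaseT (c.Gen Gc ⊕ ι0) (c.Lab Ck) ((c.PD × Pc) × P0), T.PT ∧
      ∀ E : EOL, E.WF → ∃ i : Inst,
        T.On E (mvF I mc pc nb0 i) (pubF I mc pc pub0 i) (w0 i) (W i) (N i) (M i)
          gN gM n0 a b := by
  have hw : TabF (U := fun i => (I (mem i)).U) rI (eQ eG eT) (fun i u => w0 (mem i) u) := by
    have h7 := tabF_start h (Ck := Ck) (fun i => cw (mem i)) hcw st0 stz (fun i => h0 (mem i))
      fun i => hz (mem i)
    have h8 : (fun (i : WI) (u : (I (mem i)).U) => w0 (mem i) u) = fun i u =>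
        (I (mem i)).labE (cw (mem i)) ⟨.boot, 0, (I (mem i)).xz, (I (mem i)).zz, (I (mem i)).xs,
          (I (mem i)).ent (I (mem i)).xs⟩ u := by
      funext i u
      rw [hw0]
    rw [h8]
    exact h7
  have hn : PTF (pn nG nT) := PTF.natMul h.nG h.nT
  exact exists_On (U := fun i => (I i).U) mem (n := pn nG nT) (e := eQ eG eT) hn
    (mp_mvF I mc pc nb0 mem h hmc hnb) (tabF_pubF I mc pc pub0 mem h hpc hp0) hw hlen hN hM
    h1 h2 h3 h4 h5 h6

end Crest.Agent.R289.TopHA987
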