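import Crest.Agent.R289.TabTop_987
import Crest.Agent.R289.TopD_589
import Crest.Agent.R289.LayObjD_896
import Crest.Agent.R289.FamU3_782

/-!
# Row 289: the instance clause of the family and `fam_of_obj` (helper987)

* `Q_eq` : the order of the groups is a power of 3;
* `hc` : **the instance clause `FamU782.HC`** over the members of `MemF_12`;
* `fam_of_obj` : **`Asm12.Obj289 → Asm12.Fam289`**.
-/

set_option autoImplicit false
set_option linter.unusedVariables false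
set_option linter.unusedSectionVars false
set_option linter.dupNamespace false

namespace Crest.Agent.R289.TopH987

open Crest.PPADPCP Crest.Agent.Lib.PT Crest.Agent.R289 Crest.Agent.R289.Asm12
  Crest.Agent.R289.DefC Crest.Agent.R289.DefI Crest.Agent.R289.InsObj576
  Crest.Agent.R289.PubBits92 Crest.Agent.R289.InsTab117 Crest.Agent.R289.MemF12
  Crest.Agent.R289.ClkTD766 Crest.Agent.R289.RegsObj335 Crest.Agent.R289.ClockU698
  Crest.Agent.R289.FamPub715 Crest.Agent.R289.UFam715 Crest.Agent.R289.LevObj782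
  Crest.Agent.R289.PathObj992 Crest.Agent.R289.BootC515 Crest.Agent.R289.DecI589
  Crest.Agent.R289.FamU782 Crest.Agent.R289.LayObj896

variable {D : Obj} {M0 : ℕ} {lam0 Kr : ℝ}

/-- the order of the groups is a power of the characteristic -/
theorem Q_eq (h : D.OK M0 lam0 Kr) (hp : D.p = 3) : ∃ e : ℕ, D.Q = 3 ^ e := by
  have h1 := h.isP 1
  rw [hp] at h1
  have : Fact (Nat.Prime 3) := ⟨by norm_num⟩
  obtain ⟨e, he⟩ := IsPGroup.iff_card.1 h1
  refine ⟨e, ?_⟩
  have h2 : Nat.card (D.P 1) = D.Q ^ 1 := by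
    rw [Nat.card_congr (D.ix 1), Nat.card_eq_fintype_card, Fintype.card_fin]
  rw [← he, h2, pow_one]

/-- **the instance clause** -/
theorem hc (h : D.OK M0 lam0 Kr) (hlam : lam0 ^ 2 ≤ 1 / 8) {e : ℕ} (hQe : D.Q = 3 ^ e) :
    HC h ((dT D + 1) ^ 3) 0 (gReg (c := cst h ((dT D + 1) ^ 3)) Rg.X)
      (gReg (c := cst h ((dT D + 1) ^ 3)) Rg.Y) := by
  intro W' N' M' hW hN hM n0
  obtain ⟨kP, kR, kT, L, lv⟩ := levels h.two_le 4 0 (max n0 4096) 2
    (3 ^ (3 * 5) * ((3 ^ 5) ^ (0 + 1)) ^ 3)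
  obtain ⟨PT⟩ := layE_PT_lv h lv
  have hreal : ∀ i : WI, Sol589.Real i.1 (InsObj576.act D (kP (rI i)) (kR (rI i)))
      (26 : Fin 28) (layE D (kP (rI i)) (kR (rI i)) (rI i)) := fun i =>
    layE_real_lv h lv hlam le_rfl i.2
  let F : Fd h := Fd.ofLv hlam hQe lv (by norm_num) le_rfl (le_max_right _ _)
    (fun i => layE D (kP (rI i)) (kR (rI i)) (rI i))
    (fun i => layE_ok_lv h lv hlam le_rfl i.2)
    (fun i => (hreal i).h0 i.2)
    (fun b => by
      obtain ⟨T, hT, hTs⟩ := PT.pub (K := D.K) b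
      exact ⟨T, hT, fun i x => hTs (rI i) x⟩)
  obtain ⟨A, b, hsize⟩ := lv.size
  have hfin : Finite ((cst h ((dT D + 1) ^ 3)).Lab (ZMod 3)) := inferInstance
  have hal : ∀ (i : WI) (j : Fin (F.lay i).n),
      ((eGi D rI F.kP F.kR i ((F.lay i).al j) : Fin _) : ℕ) =
        (fun p : EI × ℕ => PT.al p.1 p.2) (rI i, (j : ℕ)) := fun i j =>
    (PT.al_eq (rI i) j).symm
  have hlen : PTU (fun a : EI => a.2.1.2.length) :=
    PTU.length (PTF.comp PTF.snd (PTF.comp PTF.fst PTF.snd))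
  have hT := BaseTab987.exists_On (U := fun i : Mem12.Mem h ((dT D + 1) ^ 3) 0 => i.I.U)
    (mv := fun i => i.mv) (pub := fun i => i.pub) (w0 := fun i => i.w0) (W := W') (N := N')
    (M := M') (gN := gReg (c := cst h ((dT D + 1) ^ 3)) Rg.X)
    (gM := gReg (c := cst h ((dT D + 1) ^ 3)) Rg.Y) (n0 := n0) (a := A) (b := b) F.mem
    (n := F.nU) (e := F.eU) F.ptu_nU.toPTF (TabTop987.mp_mv F) (TabTop987.tabF_pub F)
    (TabTop987.tabF_w0 F) hlen (TopD589.ptf_adF F PT.hal) (TopD589.ptf_adF F PT.hal)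
    (fun I hI => ?_) (fun I hI => ?_) (fun I hI => ?_) (fun I hI => hI.2.1.1)
    (TopD589.decN F hal hreal hW hN) (TopD589.decM F hal hreal hW hM)
  · obtain ⟨T, hT1, hT2⟩ := hT
    exact ⟨T, A, b, hT1, hT2⟩
  · have h1 := lv.big (raw I)
    have h2 : 0 < D.Q := by have := h.two_le; omega
    show n0 ≤ D.Q ^ kP (raw I) * D.Q ^ kR (raw I) * D.Q ^ kT (raw I)
    refine (le_max_left _ _).trans (h1.trans ?_)
    rw [Nat.mul_assoc]
    exact Nat.le_mul_of_pos_right _ (Nat.mul_pos (Nat.pow_pos h2) (Nat.pow_pos h2))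
  · have h2 : 0 < D.Q := by have := h.two_le; omega
    show 0 < D.Q ^ kP (raw I) * D.Q ^ kR (raw I) * D.Q ^ kT (raw I)
    exact Nat.mul_pos (Nat.mul_pos (Nat.pow_pos h2) (Nat.pow_pos h2)) (Nat.pow_pos h2)
  · have h1 := hsize I
    rw [pow_add, pow_add] at h1
    exact h1

/-- **block C** -/
theorem fam_of_obj (H : Obj289) : Fam289 := by
  obtain ⟨Kr, hK, H⟩ := H
  obtain ⟨D, hp, h⟩ := H 8 (1 / 4096) (by norm_num)
  obtain ⟨e, hQe⟩ := Q_eq h hp
  exact fam_of_HC h _ 0 hK (by norm_num) le_rfl (hc h (by norm_num) hQe)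

end Crest.Agent.R289.TopH987
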