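import Crest.Agent.R289.FamU3_782
import Crest.Agent.R289.TopHA_987
import Crest.Agent.R289.TopD_589
import Crest.Agent.R289.LayObjD_896
import Crest.Agent.R289.ClockMem_698
import Crest.Agent.R289.SlotPTO_267
import Crest.Agent.R289.PcTab_92
import Crest.Agent.R289.Asm3_331

/-!
# Row 289: the instance clause and the last arrow (helper343, independent assembly)
-/

set_option autoImplicit false
set_option linter.dupNamespace false
set_option linter.unusedSectionVars false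

namespace Crest.Agent.R289.Top343

open Crest.PPADPCP Crest.Agent.Lib.PT Crest.Agent.R289 Crest.Agent.R289.Asm12
  Crest.Agent.R289.DefC Crest.Agent.R289.DefI Crest.Agent.R289.InsObj576
  Crest.Agent.R289.FamComb715 Crest.Agent.R289.PubBits92 Crest.Agent.R289.YIdx901
  Crest.Agent.R289.InsTab117 Crest.Agent.R289.GlueD194 Crest.Agent.R289.Mem12
  Crest.Agent.R289.MemF12 Crest.Agent.R289.PathObj992 Crest.Agent.R289.LayObj896

variable {D : Obj} {M0 : ℕ} {lam0 Kr : ℝ} {h : D.OK M0 lam0 Kr}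

/-- the layouts of the well formed instances -/
noncomputable def layW (D : Obj) (kP kR : EI → ℕ) (i : WI) :
    Layout (D.P (kP (rI i)) × D.P (kR (rI i))) (G D) (Fin 28) 128 :=
  layE D (kP (rI i)) (kR (rI i)) (rI i)

/-- content tables of the layouts -/
theorem hcW {kP kR : EI → ℕ}
    (H : PubC965.LayPT (fun a : EI => D.P (kP a) × D.P (kR a))
      (fun a => D.Q ^ kP a * D.Q ^ kR a) (fun a => eΓ D (kP a) (kR a))
      (fun a => layE D (kP a) (kR a) a)) (b : Pb (G D) (Fin 28) 128) :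
    Tab rI (n := nGa D kP kR) (eGi D rI kP kR) (fun i x => pubC (layW D kP kR i) D.K b x) := by
  obtain ⟨T, hT, hs⟩ := H.pub (K := D.K) b
  exact ⟨T, hT, fun i x => hs (rI i) x⟩

/-- the constant of the clock window -/
abbrev CW : ℕ := 3 ^ (3 * 5) * ((3 ^ 5) ^ (0 + 1)) ^ 3

/-- **the family of members**, with the addresses of the names, the circuits, and the sizes -/
theorem exists_fd (h : D.OK M0 lam0 Kr) (hlam : lam0 ^ 2 ≤ 1 / 8) {e : ℕ} (hQe : D.Q = 3 ^ e)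
    (n0 : ℕ) : ∃ F : Fd h,
      (∃ al : EI × ℕ → ℕ, PTF al ∧ ∀ (i : WI) (j : Fin (F.lay i).n),
        ((eGi D rI F.kP F.kR i ((F.lay i).al j) : Fin _) : ℕ) = al (rI i, (j : ℕ))) ∧
      (∀ i : WI, Sol589.Real i.1 (act D (F.kP (rI i)) (F.kR (rI i))) (26 : Fin 28) (F.lay i)) ∧
      (∀ a, n0 ≤ D.Q ^ F.kP a) ∧
      ∃ A b, ∀ I : EOL, D.Q ^ (F.kP (raw I) + F.kR (raw I) + F.kT (raw I)) ≤
        A * I.encode.length * (Nat.clog 2 (I.encode.length + 2)) ^ b := by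
  obtain ⟨kP, kR, kT, L, lv⟩ := LevObj782.levels h.two_le 4 0 (max 4096 n0) 1 CW
  obtain ⟨H⟩ := layE_PT_lv h lv
  have hreal : ∀ i : WI, Sol589.Real i.1 (act D (kP (rI i)) (kR (rI i))) (26 : Fin 28)
      (layW D kP kR i) := fun i => layE_real_lv h lv hlam le_rfl i.2
  refine ⟨Fd.ofLv hlam hQe lv le_rfl le_rfl (le_max_left _ _) (layW D kP kR)
    (fun i => layE_ok_lv h lv hlam le_rfl i.2) (fun i => (hreal i).h0 i.2) (hcW H), ?_, hreal,
    fun a => (le_max_right _ _).trans (lv.big a), lv.size⟩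
  exact ⟨fun p => H.al p.1 p.2, H.hal, fun i j => (H.al_eq (rI i) j).symm⟩

/-- **the instance clause** -/
theorem hcO (h : D.OK M0 lam0 Kr) (hlam : lam0 ^ 2 ≤ 1 / 8) {e : ℕ} (hQe : D.Q = 3 ^ e) :
    FamU782.HC h ((dT D + 1) ^ 3) 0
      (DecI589.gReg (c := cst h ((dT D + 1) ^ 3)) Rg.X)
      (DecI589.gReg (c := cst h ((dT D + 1) ^ 3)) Rg.Y) := by
  intro W' N' M' hW hN hM n0
  obtain ⟨F, ⟨al, hal, halE⟩, hreal, hn0, A, b, hsz⟩ := exists_fd h hlam hQe n0
  have hs : ClockTab698.FS rI (fun i => (F.mem i).siz) :=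
    ClockMem698.fs_mem F.mem F.hQe ⟨F.L, F.uL, fun _ => rfl⟩ ⟨F.kP, F.uP, fun _ => rfl⟩
      ⟨F.kR, F.uR, fun _ => rfl⟩ ⟨F.kT, F.uT, fun _ => rfl⟩
  obtain ⟨ρ, hρ, hρs⟩ := hs.rho
  have hpos : ∀ k, 0 < D.Q ^ k := fun k => Nat.pow_pos (by have := h.two_le; omega)
  have hcw : TabF (U := fun i => (F.mem i).I.U) (n := F.nU) rI F.eU
      (fun i u => (F.mem i).cw 0 u) :=
    PcTab92.tabF_cw (mem := F.mem) (e := F.eU) (nL := fun a => F.L a + 1) (ρ := ρ)
      (fun _ _ => rfl) (PTU.succ F.uL) hρ (fun _ => rfl) hρs (t := fun _ => 0)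
      (tN := fun _ => 0) (PTF.const 0) fun _ => rfl
  have s1 : ∀ E : EOL, n0 ≤ nGa D F.kP F.kR (raw E) * nTa D F.kT (raw E) := fun E =>
    (hn0 (raw E)).trans
      ((Nat.le_mul_of_pos_right _ (hpos _)).trans (Nat.le_mul_of_pos_right _ (hpos _)))
  have s2 : ∀ E : EOL, 0 < nGa D F.kP F.kR (raw E) * nTa D F.kT (raw E) := fun E =>
    Nat.mul_pos (Nat.mul_pos (hpos _) (hpos _)) (hpos _)
  have s3 : ∀ E : EOL, nGa D F.kP F.kR (raw E) * nTa D F.kT (raw E) ≤
      A * E.encode.length * (Nat.clog 2 (E.encode.length + 2)) ^ b := fun E => by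
    have h1 := hsz E
    rw [pow_add, pow_add] at h1
    exact h1
  obtain ⟨T, hT, hO⟩ := TopHA987.exists_H (fun i : Mem h ((dT D + 1) ^ 3) 0 => i.I)
    (fun i => i.mc) (fun _ _ => ()) (fun i => i.nb0) (fun _ _ => ()) F.mem
    (nG := nGa D F.kP F.kR) (nT := nTa D F.kT) (eG := eGi D rI F.kP F.kR) (eT := eTi D rI F.kT)
    F.insTab (fun g => ClockMem698.pmap_mcM F.mem F.insTab (fun _ _ => rfl) hs g)
    (TabF.const ()) (fun s => SlotPT267.mem_nb0 F.mem F.uP F.uQP F.uR F.uQR F.uT F.uQT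
      (fun _ => rfl) (fun _ => rfl) (fun _ => rfl) (ClockMem698.pmap_nbc F.mem hs) s)
    (TabF.const ()) (fun i => i.cw)
    hcw
    BootC515.SgB.e (BootC515.SgB.old Sg.a) (fun _ => rfl) (fun _ => rfl)
    (len := fun a : EI => a.2.1.2.length)
    (PTU.length (PTF.comp PTF.snd (PTF.comp PTF.fst PTF.snd)))
    (TopD589.ptf_adF F hal) (TopD589.ptf_adF F hal)
    (W := W') (N := N') (M := M') (w0 := fun i => i.w0) (fun _ => rfl)
    (gN := DecI589.gReg (c := cst h ((dT D + 1) ^ 3)) Rg.X)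
    (gM := DecI589.gReg (c := cst h ((dT D + 1) ^ 3)) Rg.Y) (n0 := n0) (a := A) (b := b)
    (fun E _ => s1 E) (fun E _ => s2 E) (fun E _ => s3 E) (fun E hE => hE.2.1.1)
    (TopD589.decN F halE hreal hW hN) (TopD589.decM F halE hreal hW hM)
  exact ⟨T, A, b, hT, hO⟩

/-- **the arrow of block C** -/
theorem fam_of_obj (H : Obj289) : Fam289 := by
  obtain ⟨Kr, hK, H⟩ := H
  obtain ⟨D, hp, h⟩ := H 8 (1 / 4096) (by norm_num)
  obtain ⟨e, -, he⟩ := ClockObj698.Q_pow h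
  rw [hp] at he
  exact FamU782.fam_of_HC h ((dT D + 1) ^ 3) 0 hK (by norm_num) le_rfl
    (hcO h (by norm_num) he)

/-- **row 289** -/
theorem s0434 : Asm331.S0434Stm := Asm331.S0434_of_arrow fam_of_obj

end Crest.Agent.R289.Top343
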