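import Crest.Agent.R288.PtDp_115

/-!
# R289, block E (E13): closed depth first tour of a connected graph in polynomial time (helper594)

`nb v g` (`g < d`) = neighbours of the vertex `v < N`; root `0`.
`tour N d nb : List ℕ` = list of vertices of length `2 * N - 1`, first and last vertex `0`,
consecutive vertices adjacent (`∃ g < d, nb u g = v`), every vertex `< N` occurs, every vertex
occurs at most `d + 1` times (`tour_spec`).  `ptf_tour`: poly-time.
`genOf d nb u v` = the first generator index from `u` to `v`; `firsts T` = vertices of `T` in the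
order of the first visit.
-/

set_option autoImplicit false
set_option linter.dupNamespace false
set_option linter.unusedSectionVars false

namespace Crest.Agent.R289.Tour594

open Crest.Agent.Lib.PT Crest.Agent.Lib.PT.Arith Crest.Agent.R288.PtDp115

/-- state: (visited, stack), output (both most recent first) -/
abbrev St := (List ℕ × List ℕ) × List ℕ

/-- one step of the search -/
def step (d : ℕ) (nb : ℕ → ℕ → ℕ) (s : St) : St :=
  match s.1.2 with
  | [] => s
  | v :: rest =>
    match (List.range d).find? (fun g => !decide (nb v g ∈ s.1.1)) with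
    | some g => ((nb v g :: s.1.1, nb v g :: v :: rest), nb v g :: s.2)
    | none =>
      match rest with
      | [] => ((s.1.1, []), s.2)
      | u :: r => ((s.1.1, u :: r), u :: s.2)

/-- the closed depth first tour -/
def tour (N d : ℕ) (nb : ℕ → ℕ → ℕ) : List ℕ := ((step d nb)^[2 * N] (([0], [0]), [0])).2

/-- adjacency -/
def Adj (d : ℕ) (nb : ℕ → ℕ → ℕ) (u v : ℕ) : Prop := ∃ g, g < d ∧ nb u g = v

/-- number of generators at `v` that lead to a visited vertex -/
def mvis (d : ℕ) (nb : ℕ → ℕ → ℕ) (vis : List ℕ) (v : ℕ) : ℕ :=
  ((List.range d).filter (fun g => decide (nb v g ∈ vis))).length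

theorem mvis_le (d : ℕ) (nb : ℕ → ℕ → ℕ) (vis : List ℕ) (v : ℕ) : mvis d nb vis v ≤ d := by
  unfold mvis
  exact (List.length_filter_le _ _).trans (by simp)

theorem mvis_mono (d : ℕ) (nb : ℕ → ℕ → ℕ) (vis : List ℕ) (w v : ℕ) :
    mvis d nb vis v ≤ mvis d nb (w :: vis) v := by
  unfold mvis
  rw [← List.countP_eq_length_filter, ← List.countP_eq_length_filter]
  apply List.countP_mono_left
  intro g _ h
  simp only [decide_eq_true_eq] at h ⊢
  exact List.mem_cons_of_mem _ h

theorem mvis_lt (d : ℕ) (nb : ℕ → ℕ → ℕ) (vis : List ℕ) (v g : ℕ) (hg : g < d)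
    (hn : nb v g ∉ vis) : mvis d nb vis v + 1 ≤ mvis d nb (nb v g :: vis) v := by
  unfold mvis
  rw [← List.countP_eq_length_filter, ← List.countP_eq_length_filter]
  have h1 : List.countP (fun g' => decide (nb v g' ∈ vis)) (List.range d) <
      List.countP (fun g' => decide (nb v g' ∈ nb v g :: vis)) (List.range d) := by
    have hp : List.Perm (List.range d) (g :: (List.range d).erase g) :=
      List.perm_cons_erase (List.mem_range.2 hg)
    rw [hp.countP_eq, hp.countP_eq, List.countP_cons, List.countP_cons]
    have h2 : List.countP (fun g' => decide (nb v g' ∈ vis)) ((List.range d).erase g) ≤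
        List.countP (fun g' => decide (nb v g' ∈ nb v g :: vis)) ((List.range d).erase g) := by
      apply List.countP_mono_left
      intro g' _ h
      simp only [decide_eq_true_eq] at h ⊢
      exact List.mem_cons_of_mem _ h
    simp only [hn, decide_false, List.mem_cons, true_or, decide_true, if_true]
    simp only [List.mem_cons] at h2
    simp only [Bool.false_eq_true, if_false]
    omega
  exact h1

/-- the invariant -/
structure Inv (N d : ℕ) (nb : ℕ → ℕ → ℕ) (s : St) : Prop where
  lt : ∀ v ∈ s.1.1, v < N
  nodup : s.1.1.Nodup
  root : 0 ∈ s.1.1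
  stkmem : ∀ v ∈ s.1.2, v ∈ s.1.1
  stknd : s.1.2.Nodup
  chs : s.1.2.IsChain (Adj d nb)
  cho : s.2.IsChain (Adj d nb)
  hd : s.2.head? = some (s.1.2.headD 0)
  stklast : s.1.2.getLast? = some 0 ∨ s.1.2 = []
  last : s.2.getLast? = some 0
  mem : ∀ v, v ∈ s.2 ↔ v ∈ s.1.1
  closed : ∀ v ∈ s.1.1, v ∉ s.1.2 → ∀ g, g < d → nb v g ∈ s.1.1
  cnt : ∀ v, s.2.count v + s.1.2.tail.count v ≤ 1 + mvis d nb s.1.1 v
  len : s.2.length + (1 - s.1.2.length) + s.1.2.length = 2 * s.1.1.length

theorem inv_init {N d : ℕ} (nb : ℕ → ℕ → ℕ) (hN : 0 < N) : Inv N d nb (([0], [0]), [0]) where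
  lt := by simpa using hN
  nodup := by simp
  root := by simp
  stkmem := by simp
  stknd := by simp
  chs := by simp
  cho := by simp
  hd := by simp
  stklast := by simp
  last := by simp
  mem := by simp
  closed := by
    intro v hv hn
    simp at hv hn
    exact absurd hv hn
  cnt := by
    intro v
    simp only [List.tail_cons, List.count_nil, Nat.add_zero]
    have : List.count v [0] ≤ 1 := by
      simpa using List.count_le_length (a := v) (l := [0])
    omega
  len := by simp

theorem inv_step {N d : ℕ} {nb : ℕ → ℕ → ℕ} (hnb : ∀ v, v < N → ∀ g, g < d → nb v g < N)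
    (hsym : ∀ v, v < N → ∀ g, g < d → ∃ g', g' < d ∧ nb (nb v g) g' = v) {s : St}
    (h : Inv N d nb s) : Inv N d nb (step d nb s) := by
  obtain ⟨⟨vis, stk⟩, out⟩ := s
  cases stk with
  | nil => simpa [step] using h
  | cons v rest =>
    have hv : v ∈ vis := h.stkmem v (by simp)
    have hvN : v < N := h.lt v hv
    cases hf : (List.range d).find? (fun g => !decide (nb v g ∈ vis)) with
    | some g =>
      have hg : g < d := List.mem_range.1 (List.mem_of_find?_eq_some hf)
      have hn : nb v g ∉ vis := by simpa using List.find?_some hf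
      have e : step d nb ((vis, v :: rest), out) =
          ((nb v g :: vis, nb v g :: v :: rest), nb v g :: out) := by
        simp [step, hf]
      rw [e]
      obtain ⟨g', hg', hgg⟩ := hsym v hvN g hg
      have hne : nb v g ≠ v := fun hh => hn (by rw [hh]; exact hv)
      have hns : nb v g ∉ v :: rest := fun hh => hn (h.stkmem _ hh)
      refine
        { lt := ?_, nodup := ?_, root := ?_, stkmem := ?_, stknd := ?_, chs := ?_, cho := ?_,
          hd := ?_, stklast := ?_, last := ?_, mem := ?_, closed := ?_, cnt := ?_, len := ?_ }
      · intro w hw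
        rcases List.mem_cons.1 hw with rfl | hw
        · exact hnb v hvN g hg
        · exact h.lt w hw
      · exact List.nodup_cons.2 ⟨hn, h.nodup⟩
      · exact List.mem_cons_of_mem _ h.root
      · intro w hw
        rcases List.mem_cons.1 hw with rfl | hw
        · simp
        · exact List.mem_cons_of_mem _ (h.stkmem w hw)
      · exact List.nodup_cons.2 ⟨hns, h.stknd⟩
      · exact List.isChain_cons_cons.2 ⟨⟨g', hg', hgg⟩, h.chs⟩
      · have h1 := h.hd
        have h2 := h.cho
        simp only [List.headD_cons] at h1
        cases out with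
        | nil => simp at h1
        | cons a out =>
          simp only [List.head?_cons, Option.some.injEq] at h1
          subst h1
          exact List.isChain_cons_cons.2 ⟨⟨g', hg', hgg⟩, h2⟩
      · simp
      · rcases h.stklast with h1 | h1
        · left
          simpa [List.getLast?_cons_cons] using h1
        · simp at h1
      · have h1 := h.last
        cases out with
        | nil => simp at h1
        | cons a out => simpa [List.getLast?_cons_cons] using h1
      · intro w
        have h1 := h.mem w
        simp only [List.mem_cons] at h1 ⊢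
        rw [h1]
      · intro w hw hws g1 hg1
        rcases List.mem_cons.1 hw with rfl | hw
        · exact absurd (by simp) hws
        · exact List.mem_cons_of_mem _ (h.closed w hw (fun hh => hws (List.mem_cons_of_mem _ hh)) g1 hg1)
      · intro w
        have h1 := h.cnt w
        have h2 := mvis_mono d nb vis (nb v g) w
        have hvr : v ∉ rest := (List.nodup_cons.1 h.stknd).1
        simp only [List.tail_cons] at h1 ⊢
        by_cases hw : w = nb v g
        · subst hw
          have h3 : nb v g ∉ out := fun hh => hn ((h.mem _).1 hh)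
          rw [List.count_cons_self, List.count_eq_zero_of_not_mem h3,
            List.count_eq_zero_of_not_mem hns]
          omega
        · rw [List.count_cons_of_ne (Ne.symm hw)]
          by_cases hwv : w = v
          · subst hwv
            have h3 := mvis_lt d nb vis w g hg hn
            rw [List.count_eq_zero_of_not_mem hvr] at h1
            rw [List.count_cons_self, List.count_eq_zero_of_not_mem hvr]
            omega
          · rw [List.count_cons_of_ne (Ne.symm hwv)]
            omega
      · have h1 := h.len
        simp only [List.length_cons] at h1 ⊢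
        omega
    | none =>
      have hall : ∀ g, g < d → nb v g ∈ vis := by
        intro g hg
        have := List.find?_eq_none.1 hf g (List.mem_range.2 hg)
        simpa using this
      cases rest with
      | nil =>
        have e : step d nb ((vis, [v]), out) = ((vis, []), out) := by simp [step, hf]
        rw [e]
        have hv0 : v = 0 := by
          rcases h.stklast with h1 | h1
          · simpa using h1
          · simp at h1
        refine
          { lt := h.lt, nodup := h.nodup, root := h.root, stkmem := by simp, stknd := by simp,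
            chs := by simp, cho := h.cho, hd := ?_, stklast := Or.inr rfl, last := h.last,
            mem := h.mem, closed := ?_, cnt := ?_, len := ?_ }
        · have h1 := h.hd
          simp only [List.headD_cons] at h1
          rw [h1, hv0]
          rfl
        · intro w hw _ g1 hg1
          by_cases hwv : w = v
          · subst hwv
            exact hall g1 hg1
          · exact h.closed w hw (by simpa using hwv) g1 hg1
        · intro w
          have h1 := h.cnt w
          simpa using h1
        · have h1 := h.len
          simp only [List.length_cons, List.length_nil] at h1 ⊢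
          omega
      | cons u r =>
        have e : step d nb ((vis, v :: u :: r), out) = ((vis, u :: r), u :: out) := by
          simp [step, hf]
        rw [e]
        have hnd := h.stknd
        have hnd2 : (u :: r).Nodup := (List.nodup_cons.1 hnd).2
        have hvu : v ∉ u :: r := (List.nodup_cons.1 hnd).1
        have hur : u ∉ r := (List.nodup_cons.1 hnd2).1
        have hch := List.isChain_cons_cons.1 h.chs
        have hu : u ∈ vis := h.stkmem u (by simp)
        refine
          { lt := h.lt, nodup := h.nodup, root := h.root,
            stkmem := fun w hw => h.stkmem w (List.mem_cons_of_mem _ hw), stknd := hnd2,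
            chs := hch.2, cho := ?_, hd := by simp, stklast := ?_, last := ?_,
            mem := ?_, closed := ?_, cnt := ?_, len := ?_ }
        · have h1 := h.hd
          have h2 := h.cho
          simp only [List.headD_cons] at h1
          cases out with
          | nil => simp at h1
          | cons a out =>
            simp only [List.head?_cons, Option.some.injEq] at h1
            subst h1
            obtain ⟨g1, hg1, hg2⟩ := hch.1
            obtain ⟨g2, hg3, hg4⟩ := hsym a hvN g1 hg1
            rw [hg2] at hg4
            exact List.isChain_cons_cons.2 ⟨⟨g2, hg3, hg4⟩, h2⟩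
        · rcases h.stklast with h1 | h1
          · left
            simpa [List.getLast?_cons_cons] using h1
          · simp at h1
        · have h1 := h.last
          cases out with
          | nil => simp at h1
          | cons a out => simpa [List.getLast?_cons_cons] using h1
        · intro w
          have h1 := h.mem w
          simp only [List.mem_cons]
          constructor
          · rintro (rfl | hw)
            · exact hu
            · exact h1.1 hw
          · intro hw
            exact Or.inr (h1.2 hw)
        · intro w hw hws g1 hg1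
          by_cases hwv : w = v
          · subst hwv
            exact hall g1 hg1
          · refine h.closed w hw (fun hh => ?_) g1 hg1
            rcases List.mem_cons.1 hh with h5 | h5
            · exact hwv h5
            · exact hws h5
        · intro w
          have h1 := h.cnt w
          simp only [List.tail_cons, List.count_cons] at h1 ⊢
          omega
        · have h1 := h.len
          simp only [List.length_cons] at h1 ⊢
          omega

theorem inv_iter {N d : ℕ} {nb : ℕ → ℕ → ℕ} (hN : 0 < N)
    (hnb : ∀ v, v < N → ∀ g, g < d → nb v g < N)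
    (hsym : ∀ v, v < N → ∀ g, g < d → ∃ g', g' < d ∧ nb (nb v g) g' = v) (i : ℕ) :
    Inv N d nb ((step d nb)^[i] (([0], [0]), [0])) := by
  induction i with
  | zero => exact inv_init nb hN
  | succ i ih =>
    rw [Function.iterate_succ_apply']
    exact inv_step hnb hsym ih

/-- while the stack is nonempty every step raises `2 * visited - stack` by one -/
theorem pot_step {d : ℕ} {nb : ℕ → ℕ → ℕ} {s : St} (hs : s.1.2 ≠ []) {i : ℕ}
    (h : 2 * s.1.1.length = s.1.2.length + i + 1) :
    2 * (step d nb s).1.1.length = (step d nb s).1.2.length + (i + 1) + 1 := by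
  obtain ⟨⟨vis, stk⟩, out⟩ := s
  cases stk with
  | nil => exact absurd rfl hs
  | cons v rest =>
    cases hf : (List.range d).find? (fun g => !decide (nb v g ∈ vis)) with
    | some g =>
      have e : step d nb ((vis, v :: rest), out) =
          ((nb v g :: vis, nb v g :: v :: rest), nb v g :: out) := by
        simp [step, hf]
      rw [e]
      simp only [List.length_cons] at h ⊢
      omega
    | none =>
      cases rest with
      | nil =>
        have e : step d nb ((vis, [v]), out) = ((vis, []), out) := by simp [step, hf]
        rw [e]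
        simp only [List.length_cons, List.length_nil] at h ⊢
        omega
      | cons u r =>
        have e : step d nb ((vis, v :: u :: r), out) = ((vis, u :: r), u :: out) := by
          simp [step, hf]
        rw [e]
        simp only [List.length_cons] at h ⊢
        omega

theorem step_nil {d : ℕ} {nb : ℕ → ℕ → ℕ} {s : St} (hs : s.1.2 = []) : step d nb s = s := by
  obtain ⟨⟨vis, stk⟩, out⟩ := s
  simp only at hs
  subst hs
  rfl

theorem pot_iter (d : ℕ) (nb : ℕ → ℕ → ℕ) (i : ℕ) :
    ((step d nb)^[i] (([0], [0]), [0])).1.2 = [] ∨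
      2 * ((step d nb)^[i] (([0], [0]), [0])).1.1.length =
        ((step d nb)^[i] (([0], [0]), [0])).1.2.length + i + 1 := by
  induction i with
  | zero => right; simp
  | succ i ih =>
    rw [Function.iterate_succ_apply']
    rcases ih with h | h
    · left
      rw [step_nil h]
      exact h
    · by_cases hs : ((step d nb)^[i] (([0], [0]), [0])).1.2 = []
      · left
        rw [step_nil hs]
        exact hs
      · right
        exact pot_step hs h

theorem stack_empty {N d : ℕ} {nb : ℕ → ℕ → ℕ} (hN : 0 < N)
    (hnb : ∀ v, v < N → ∀ g, g < d → nb v g < N)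
    (hsym : ∀ v, v < N → ∀ g, g < d → ∃ g', g' < d ∧ nb (nb v g) g' = v) :
    ((step d nb)^[2 * N] (([0], [0]), [0])).1.2 = [] := by
  have hI := inv_iter hN hnb hsym (2 * N)
  rcases pot_iter d nb (2 * N) with h | h
  · exact h
  · exfalso
    have h1 : ((step d nb)^[2 * N] (([0], [0]), [0])).1.1.length ≤ N := by
      have h2 := hI.nodup.subperm (l₂ := List.range N)
        (fun v hv => List.mem_range.2 (hI.lt v hv))
      simpa using h2.length_le
    omega

/-- **the closed tour** -/
theorem tour_spec {N d : ℕ} {nb : ℕ → ℕ → ℕ} (hN : 0 < N)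
    (hnb : ∀ v, v < N → ∀ g, g < d → nb v g < N)
    (hsym : ∀ v, v < N → ∀ g, g < d → ∃ g', g' < d ∧ nb (nb v g) g' = v)
    (hconn : ∀ S : ℕ → Prop, S 0 → (∀ v, v < N → S v → ∀ g, g < d → S (nb v g)) →
      ∀ v, v < N → S v) :
    (tour N d nb).length + 1 = 2 * N ∧ (tour N d nb).head? = some 0 ∧
      (tour N d nb).getLast? = some 0 ∧ (tour N d nb).IsChain (Adj d nb) ∧
      (∀ v, v ∈ tour N d nb ↔ v < N) ∧ ∀ v, (tour N d nb).count v ≤ d + 1 := by
  have hI := inv_iter hN hnb hsym (2 * N)
  have hE := stack_empty hN hnb hsym
  unfold tour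
  generalize (step d nb)^[2 * N] (([0], [0]), [0]) = s at hI hE
  have hall : ∀ v, v ∈ s.1.1 ↔ v < N := by
    intro v
    refine ⟨hI.lt v, hconn (fun v => v ∈ s.1.1) hI.root (fun v _ hv g hg => ?_) v⟩
    exact hI.closed v hv (by rw [hE]; simp) g hg
  have hlen : s.1.1.length = N := by
    have h1 : List.Perm s.1.1 (List.range N) :=
      (List.perm_ext_iff_of_nodup hI.nodup List.nodup_range).2
        (fun v => by rw [hall v, List.mem_range])
    simpa using h1.length_eq
  refine ⟨?_, ?_, hI.last, hI.cho, fun v => by rw [hI.mem v, hall v], fun v => ?_⟩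
  · have h1 := hI.len
    rw [hE, hlen] at h1
    simpa using h1
  · have h1 := hI.hd
    rw [hE] at h1
    simpa using h1
  · have h1 := hI.cnt v
    have h2 := mvis_le d nb s.1.1 v
    omega

/-! ### generators along the tour, first visits -/

/-- the first generator from `u` to `v` -/
def genOf (d : ℕ) (nb : ℕ → ℕ → ℕ) (u v : ℕ) : ℕ :=
  ((List.range d).find? (fun g => decide (nb u g = v))).getD 0

theorem genOf_spec {d : ℕ} {nb : ℕ → ℕ → ℕ} {u v : ℕ} (h : Adj d nb u v) :
    genOf d nb u v < d ∧ nb u (genOf d nb u v) = v := by
  obtain ⟨g, hg, hgv⟩ := h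
  unfold genOf
  cases hf : (List.range d).find? (fun g => decide (nb u g = v)) with
  | none =>
    have := List.find?_eq_none.1 hf g (List.mem_range.2 hg)
    simp [hgv] at this
  | some g' =>
    have h1 := List.mem_range.1 (List.mem_of_find?_eq_some hf)
    have h2 := List.find?_some hf
    exact ⟨h1, by simpa using h2⟩

/-- consecutive positions of a chain -/
theorem getD_adj {R : ℕ → ℕ → Prop} {T : List ℕ} (h : T.IsChain R) {i : ℕ} (hi : i + 1 < T.length)
    (e : ℕ) : R (T.getD i e) (T.getD (i + 1) e) := by
  rw [List.getD_eq_getElem _ _ (by omega), List.getD_eq_getElem _ _ hi]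
  exact (List.isChain_iff_getElem.1 h) i hi

/-- elements in the order of their first occurrence -/
def firsts (T : List ℕ) : List ℕ := T.foldl (fun acc v => if v ∈ acc then acc else acc ++ [v]) []

theorem firsts_aux (T acc : List ℕ) (h : acc.Nodup) :
    (T.foldl (fun acc v => if v ∈ acc then acc else acc ++ [v]) acc).Nodup ∧
      ∀ v, v ∈ T.foldl (fun acc v => if v ∈ acc then acc else acc ++ [v]) acc ↔ v ∈ acc ∨ v ∈ T := by
  induction T generalizing acc with
  | nil => simp [h]
  | cons a T ih =>
    rw [List.foldl_cons]
    by_cases ha : a ∈ acc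
    · rw [if_pos ha]
      obtain ⟨h1, h2⟩ := ih acc h
      refine ⟨h1, fun v => ?_⟩
      rw [h2 v, List.mem_cons]
      constructor
      · rintro (h | h)
        · exact Or.inl h
        · exact Or.inr (Or.inr h)
      · rintro (h | rfl | h)
        · exact Or.inl h
        · exact Or.inl ha
        · exact Or.inr h
    · rw [if_neg ha]
      have hn : (acc ++ [a]).Nodup := by
        rw [List.nodup_append]
        refine ⟨h, by simp, ?_⟩
        intro x hx y hy hxy
        simp only [List.mem_singleton] at hy
        subst hy
        subst hxy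
        exact ha hx
      obtain ⟨h1, h2⟩ := ih (acc ++ [a]) hn
      refine ⟨h1, fun v => ?_⟩
      rw [h2 v]
      simp only [List.mem_append, List.mem_cons, List.not_mem_nil, or_false]
      tauto

theorem nodup_firsts (T : List ℕ) : (firsts T).Nodup := (firsts_aux T [] (by simp)).1

theorem mem_firsts {T : List ℕ} {v : ℕ} : v ∈ firsts T ↔ v ∈ T := by
  have := (firsts_aux T [] (by simp)).2 v
  simpa [firsts] using this

theorem length_firsts_le (T : List ℕ) : (firsts T).length ≤ T.length :=
  (List.Nodup.subperm (nodup_firsts T) (fun _ h => mem_firsts.1 h)).length_le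

/-- the first visits of the tour are all the vertices -/
theorem length_firsts_tour {N d : ℕ} {nb : ℕ → ℕ → ℕ} (hm : ∀ v, v ∈ tour N d nb ↔ v < N) :
    (firsts (tour N d nb)).length = N := by
  have h1 : List.Perm (firsts (tour N d nb)) (List.range N) :=
    (List.perm_ext_iff_of_nodup (nodup_firsts _) List.nodup_range).2
      (fun v => by rw [mem_firsts, hm v, List.mem_range])
  simpa using h1.length_eq

/-! ### poly-time -/

section pt

variable {γ : Type} [PTCode γ]

theorem ptf_genOf {d : ℕ} {nb : γ → ℕ → ℕ → ℕ} {u v : γ → ℕ}
    (hnb : PTF (fun p : γ × ℕ × ℕ => nb p.1 p.2.1 p.2.2)) (hu : PTF u) (hv : PTF v) :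
    PTF (fun c => genOf d (nb c) (u c) (v c)) := by
  unfold genOf
  refine PTF.optionGetD (PTF.find? (l := fun _ : γ => List.range d)
    (p := fun c g => decide (nb c (u c) g = v c)) (PTF.const _) ?_) (PTF.const 0)
  refine PTF.beq (f := fun q : γ × ℕ => nb q.1 (u q.1) q.2) (g := fun q : γ × ℕ => v q.1) ?_ ?_
  · have hu' : PTF (fun q : γ × ℕ => u q.1) := PTF.comp (g := u) hu PTF.fst
    exact PTF.comp (g := fun p : γ × ℕ × ℕ => nb p.1 p.2.1 p.2.2)
      (f := fun q : γ × ℕ => (q.1, u q.1, q.2)) hnb (by fun_prop)
  · exact PTF.comp (g := v) hv PTF.fst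

theorem ptf_step {d : ℕ} {nb : γ → ℕ → ℕ → ℕ}
    (hnb : PTF (fun p : γ × ℕ × ℕ => nb p.1 p.2.1 p.2.2)) :
    PTF (fun p : γ × St => step d (nb p.1) p.2) := by
  have h3 : PTF (fun q : (γ × St) × ℕ × List ℕ =>
      (match q.2.2 with
      | [] => ((q.1.2.1.1, ([] : List ℕ)), q.1.2.2)
      | u :: r => ((q.1.2.1.1, u :: r), u :: q.1.2.2) : St)) := by
    have h := PTF.listCasesOn (s := fun q : (γ × St) × ℕ × List ℕ => q.2.2)
      (f := fun q => (((q.1.2.1.1, ([] : List ℕ)), q.1.2.2) : St))
      (g := fun q u r => (((q.1.2.1.1, u :: r), u :: q.1.2.2) : St)) (by fun_prop) (by fun_prop)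
      (by fun_prop)
    refine PTF.of_eq h (fun q => ?_)
    obtain ⟨q1, q2, q3⟩ := q
    cases q3 <;> rfl
  have h2 : PTF (fun q : (γ × St) × ℕ × List ℕ =>
      (match (List.range d).find? (fun g => !decide (nb q.1.1 q.2.1 g ∈ q.1.2.1.1)) with
      | some g => ((nb q.1.1 q.2.1 g :: q.1.2.1.1, nb q.1.1 q.2.1 g :: q.2.1 :: q.2.2),
          nb q.1.1 q.2.1 g :: q.1.2.2)
      | none => (match q.2.2 with
        | [] => ((q.1.2.1.1, ([] : List ℕ)), q.1.2.2)
        | u :: r => ((q.1.2.1.1, u :: r), u :: q.1.2.2)) : St)) := by
    have hf : PTF (fun q : (γ × St) × ℕ × List ℕ =>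
        (List.range d).find? (fun g => !decide (nb q.1.1 q.2.1 g ∈ q.1.2.1.1))) := by
      refine PTF.find? (l := fun _ => List.range d)
        (p := fun (q : (γ × St) × ℕ × List ℕ) g => !decide (nb q.1.1 q.2.1 g ∈ q.1.2.1.1))
        (PTF.const _) ?_
      refine PTF.not (PTPred.toPTF (PTPred.mem
        (f := fun r : ((γ × St) × ℕ × List ℕ) × ℕ => nb r.1.1.1 r.1.2.1 r.2)
        (l := fun r : ((γ × St) × ℕ × List ℕ) × ℕ => r.1.1.2.1.1) ?_ (by fun_prop)))
      exact PTF.comp (g := fun p : γ × ℕ × ℕ => nb p.1 p.2.1 p.2.2)
        (f := fun r : ((γ × St) × ℕ × List ℕ) × ℕ => (r.1.1.1, r.1.2.1, r.2)) hnb (by fun_prop)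
    have h4 := PTF.optionCasesOn (s := fun q : (γ × St) × ℕ × List ℕ =>
        (List.range d).find? (fun g => !decide (nb q.1.1 q.2.1 g ∈ q.1.2.1.1)))
      (f := fun q => (match q.2.2 with
        | [] => ((q.1.2.1.1, ([] : List ℕ)), q.1.2.2)
        | u :: r => ((q.1.2.1.1, u :: r), u :: q.1.2.2) : St))
      (g := fun q g => (((nb q.1.1 q.2.1 g :: q.1.2.1.1, nb q.1.1 q.2.1 g :: q.2.1 :: q.2.2),
          nb q.1.1 q.2.1 g :: q.1.2.2) : St)) hf h3 ?_
    · refine PTF.of_eq h4 (fun q => ?_)
      cases (List.range d).find? (fun g => !decide (nb q.1.1 q.2.1 g ∈ q.1.2.1.1)) <;> rfl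
    · have hw : PTF (fun r : ((γ × St) × ℕ × List ℕ) × ℕ => nb r.1.1.1 r.1.2.1 r.2) :=
        PTF.comp (g := fun p : γ × ℕ × ℕ => nb p.1 p.2.1 p.2.2)
          (f := fun r : ((γ × St) × ℕ × List ℕ) × ℕ => (r.1.1.1, r.1.2.1, r.2)) hnb (by fun_prop)
      refine PTF.prodMk (PTF.prodMk ?_ ?_) ?_
      · fun_prop
      · fun_prop
      · fun_prop
  have h1 := PTF.listCasesOn (s := fun p : γ × St => p.2.1.2)
    (f := fun p => p.2)
    (g := fun p v rest => (match (List.range d).find? (fun g => !decide (nb p.1 v g ∈ p.2.1.1)) with
      | some g => ((nb p.1 v g :: p.2.1.1, nb p.1 v g :: v :: rest), nb p.1 v g :: p.2.2)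
      | none => (match rest with
        | [] => ((p.2.1.1, ([] : List ℕ)), p.2.2)
        | u :: r => ((p.2.1.1, u :: r), u :: p.2.2)) : St)) (by fun_prop) (by fun_prop) h2
  refine PTF.of_eq h1 (fun p => ?_)
  obtain ⟨c, ⟨⟨vis, stk⟩, out⟩⟩ := p
  cases stk with
  | nil => rfl
  | cons v rest => rfl

theorem ptf_tour {d : ℕ} {N : γ → ℕ} {nb : γ → ℕ → ℕ → ℕ} (hN : PTU N)
    (hnb : PTF (fun p : γ × ℕ × ℕ => nb p.1 p.2.1 p.2.2))
    (hlt : ∀ c v g, nb c v g ≤ N c) : PTF (fun c => tour (N c) d (nb c)) := by
  have key : ∀ c i, (∀ v ∈ ((step d (nb c))^[i] (([0], [0]), [0])).1.1, v ≤ N c) ∧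
      (∀ v ∈ ((step d (nb c))^[i] (([0], [0]), [0])).1.2, v ≤ N c) ∧
      (∀ v ∈ ((step d (nb c))^[i] (([0], [0]), [0])).2, v ≤ N c) ∧
      ((step d (nb c))^[i] (([0], [0]), [0])).1.1.length ≤ i + 1 ∧
      ((step d (nb c))^[i] (([0], [0]), [0])).1.2.length ≤ i + 1 ∧
      ((step d (nb c))^[i] (([0], [0]), [0])).2.length ≤ i + 1 := by
    intro c i
    induction i with
    | zero => simp
    | succ i ih =>
      rw [Function.iterate_succ_apply']
      generalize (step d (nb c))^[i] (([0], [0]), [0]) = s at ih ⊢
      obtain ⟨⟨vis, stk⟩, out⟩ := s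
      obtain ⟨h1, h2, h3, h4, h5, h6⟩ := ih
      simp only at h1 h2 h3 h4 h5 h6
      cases stk with
      | nil =>
        simp only [step]
        exact ⟨h1, h2, h3, by omega, by simp, by omega⟩
      | cons v rest =>
        have hv := h2 v (by simp)
        simp only [List.length_cons] at h5
        cases hf : (List.range d).find? (fun g => !decide (nb c v g ∈ vis)) with
        | some g =>
          have e : step d (nb c) ((vis, v :: rest), out) =
              ((nb c v g :: vis, nb c v g :: v :: rest), nb c v g :: out) := by
            simp [step, hf]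
          rw [e]
          have hg := hlt c v g
          refine ⟨?_, ?_, ?_, ?_, ?_, ?_⟩
          · intro w hw
            rcases List.mem_cons.1 hw with rfl | hw
            · exact hg
            · exact h1 w hw
          · intro w hw
            rcases List.mem_cons.1 hw with rfl | hw
            · exact hg
            · exact h2 w hw
          · intro w hw
            rcases List.mem_cons.1 hw with rfl | hw
            · exact hg
            · exact h3 w hw
          · simp only [List.length_cons]; omega
          · simp only [List.length_cons]; omega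
          · simp only [List.length_cons]; omega
        | none =>
          cases rest with
          | nil =>
            have e : step d (nb c) ((vis, [v]), out) = ((vis, []), out) := by simp [step, hf]
            rw [e]
            exact ⟨h1, by simp, h3, by simp only; omega, by simp, by simp only; omega⟩
          | cons u r =>
            have e : step d (nb c) ((vis, v :: u :: r), out) = ((vis, u :: r), u :: out) := by
              simp [step, hf]
            rw [e]
            refine ⟨h1, fun w hw => h2 w (List.mem_cons_of_mem _ hw), ?_, ?_, ?_, ?_⟩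
            · intro w hw
              rcases List.mem_cons.1 hw with rfl | hw
              · exact h2 w (by simp)
              · exact h3 w hw
            · simp only; omega
            · simp only [List.length_cons] at h5 ⊢; omega
            · simp only [List.length_cons]; omega
  unfold tour
  refine PTF.comp (g := fun s : St => s.2) PTF.snd ?_
  refine PTF.iterate' (n := fun c => 2 * N c) (f := fun (c : γ) (s : St) => step d (nb c) s)
    (a := fun _ => (([0], [0]), [0]))
    (B := fun c => 7 * ((2 * N c + 1) * (2 * (N c + 1) + 1)) + 7) ?_ (ptf_step hnb) (PTF.const _)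
    ?_ ?_
  · exact PTU.mul (PTU.const 2) hN
  · have := hN.pb
    fun_prop
  · intro c i hi
    obtain ⟨h1, h2, h3, h4, h5, h6⟩ := key c i
    have hs : ∀ l : List ℕ, (∀ v ∈ l, v ≤ N c) → l.length ≤ i + 1 →
        sz l ≤ (2 * N c + 1) * (2 * (N c + 1) + 1) := by
      intro l hl hlen
      have h7 : sz l ≤ l.length * (2 * (N c + 1) + 1) := by
        refine sz_list_le (fun a ha => ?_)
        have h8 := hl a ha
        have h9 := sz_nat_le a
        omega
      refine h7.trans (Nat.mul_le_mul_right _ ?_)
      have : i ≤ 2 * N c := hi
      omega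
    have e1 := hs _ h1 h4
    have e2 := hs _ h2 h5
    have e3 := hs _ h3 h6
    show sz ((step d (nb c))^[i] (([0], [0]), [0])) ≤ _
    rw [sz_prod, sz_prod]
    omega

theorem ptf_firsts {T : γ → List ℕ} (hT : PTF T) : PTF (fun c => firsts (T c)) := by
  unfold firsts
  refine PTF.foldl (f := fun (_ : γ) (acc : List ℕ) (v : ℕ) => if v ∈ acc then acc else acc ++ [v])
    hT ?_ (PTF.const []) (B := fun c => sz (T c)) hT.sz ?_
  · refine PTF.ite (PTPred.mem (f := fun p : γ × List ℕ × ℕ => p.2.2)
      (l := fun p : γ × List ℕ × ℕ => p.2.1) (by fun_prop) (by fun_prop)) (by fun_prop) (by fun_prop)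
  · intro c i _
    have key : ∀ (l acc : List ℕ),
        sz (l.foldl (fun acc v => if v ∈ acc then acc else acc ++ [v]) acc) ≤ sz acc + sz l := by
      intro l
      induction l with
      | nil => intro acc; simp
      | cons a l ih =>
        intro acc
        rw [List.foldl_cons]
        refine (ih _).trans ?_
        by_cases ha : a ∈ acc
        · rw [if_pos ha, sz_cons]; omega
        · rw [if_neg ha, sz_append, sz_cons, sz_cons, sz_nil]; omega
    refine (key _ _).trans ?_
    have := sz_take_le (T c) i
    simp only [sz_nil]
    omega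

end pt

end Crest.Agent.R289.Tour594
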