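import Mathlib
import Crest.Agent.R289.BenesX_873

/-!
# Towers of rows with `f` places (row 289, block C, routing for `p` odd): definitions

A level `Lv = (f, dg, s, t)` consists of the number `f` of digits and three tables on the numbers
below `n`: the digit, the next element of the row and the previous element of the row.  In a group:
`V ⊲ W` of index `f`, representatives `h_0, .., h_(f-1)`, `dg x` = the class of `x`,
`s x = h_(c+1) h_c⁻¹ x` for `c = dg x`, `t` = the inverse.
-/

set_option autoImplicit false

namespace Crest.Agent.R289.RouteOdd992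

open Crest.Agent.Lib.PT Crest.Agent.R289.Benes873

/-- a level: number of digits, digit, next and previous element of the row -/
structure LevO where
  /-- number of digits -/
  f : ℕ
  /-- the digit -/
  dg : ℕ → ℕ
  /-- next element of the row -/
  s : ℕ → ℕ
  /-- previous element of the row -/
  t : ℕ → ℕ

/-- tables of a level: number of digits, digit table, next table, previous table -/
abbrev Lv := ℕ × List ℕ × List ℕ × List ℕ

/-- the level given by tables -/
def lvO (n : ℕ) (L : Lv) : LevO := ⟨L.1, look n L.2.1, look n L.2.2.1, look n L.2.2.2⟩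

/-- the rows of a level: every row has exactly one element for every digit `< f` -/
structure Rows (n : ℕ) (L : LevO) : Prop where
  dlt : ∀ x < n, L.dg x < L.f
  slt : ∀ x < n, L.dg x + 1 < L.f → L.s x < n
  sdg : ∀ x < n, L.dg x + 1 < L.f → L.dg (L.s x) = L.dg x + 1
  ts : ∀ x < n, L.dg x + 1 < L.f → L.t (L.s x) = x
  tlt : ∀ x < n, 0 < L.dg x → L.t x < n
  tdg : ∀ x < n, 0 < L.dg x → L.dg (L.t x) + 1 = L.dg x
  st : ∀ x < n, 0 < L.dg x → L.s (L.t x) = x

/-- a tower below the digits `U` (first level = top level): the `s` of a level keeps the digits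
of `U` and of the levels above; all digits together separate the numbers below `n` -/
def TowerO (n : ℕ) : List (ℕ → ℕ) → List LevO → Prop
  | U, [] => ∀ x < n, ∀ y < n, (∀ b ∈ U, b x = b y) → x = y
  | U, L :: ls => Rows n L ∧ (∀ b ∈ U, ∀ x < n, L.dg x + 1 < L.f → b (L.s x) = b x) ∧
      TowerO n (L.dg :: U) ls

/-- the exchange of the digits `c` and `c + 1` -/
def par (L : LevO) (c x : ℕ) : ℕ :=
  if L.dg x = c ∧ c + 1 < L.f then L.s x else if L.dg x = c + 1 then L.t x else x

end Crest.Agent.R289.RouteOdd992
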