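import Crest.Agent.R289.TowerP_784
import Crest.Agent.R289.RouteP_873
import Crest.Agent.R289.GkPTF_726

/-!
# Row 289, leaf C5_TowerP (helper784), part (B): the tower of the group `P_k`, tables and PTF

`P_k = U hσ k 1` (877) numbered by `r < NP σ k` (726).  Level `i < k`: coefficient of `τ^(i+1)`.

* `filP` : the filtration of `P_k` as a `Fil` of `TowerP_784`;
* `dgN σ k i x` (digit), `mvN σ k i d x` (element with digit `d` in the row of `x`),
  `nxN σ k i x` (cyclic successor) on numbers;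
* `lvP σ k : List TLv`, `towerP : TowerP (NP σ k) [] (lvP σ k)`, `ptf_lvP`;
* `at_lvP` : the element with digit `d` in the row of `x` is `uN i c d * x`, `c` = digit of `x`.
-/

set_option autoImplicit false
set_option linter.unusedSectionVars false
set_option linter.dupNamespace false

namespace Crest.Agent.R289.TowerPT784

open Crest.Agent.Lib.PT Crest.Agent.Lib.PT.Arith Crest.Agent.R288.PtDp115
open Crest.Agent.R289.GkIdx594 Crest.Agent.R289.Gauss115 Crest.Agent.R289.GkPTF726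
open Crest.Agent.R289.Benes873 Crest.Agent.R289.RouteP873
open Crest.Agent.R289.SkewGrp877 (R c mk conj mono SG U A)
open Crest.Agent.R289.TowerP784

variable {K : Type} [Field K] [Finite K] [Inhabited K] {σ : K →+* K} {k : ℕ}

section defs

variable (σ)

open Classical in
/-- the coefficients of `τ^(i+1)` of the elements `1 + x τ^(i+1) + …` of norm one -/
noncomputable def lst (i : ℕ) : List K :=
  if i % 2 = 0 then allK K else (allK K).filter (fun x => decide (σ x = -x))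

/-- value of a digit -/
noncomputable def valF (i d : ℕ) : K := (lst σ i).getD d 0

open Classical in
/-- digit of a value -/
noncomputable def plF (i : ℕ) (x : K) : ℕ := (lst σ i).idxOf x

/-- number of digits of a level -/
noncomputable def fL (i : ℕ) : ℕ := (lst σ i).length

variable (k)

open Classical in
/-- test: `r` is the number of an element `1 + (value of d) τ^(i+1) + …` -/
noncomputable def isH (i d r : ℕ) : Bool :=
  decide ((∀ j < i, c (elt σ k r) (j + 1) = 0) ∧ c (elt σ k r) (i + 1) = valF σ i d)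

/-- number of the representative of digit `d` at level `i` -/
noncomputable def hrN (i d : ℕ) : ℕ := (sel (NP σ k) (isH σ k i d)).getD 0 0

/-- the rest after `i` digits, as a number -/
noncomputable def redN : ℕ → ℕ → ℕ
  | 0, x => x
  | i + 1, x => num (conj (elt σ k (hrN σ k i (plF σ i (c (elt σ k (redN i x)) (i + 1))))) *
      elt σ k (redN i x))

/-- the `i`-th digit -/
noncomputable def dgN (i x : ℕ) : ℕ := plF σ i (c (elt σ k (redN σ k i x)) (i + 1))

/-- the element that moves digit `d` to digit `e` at level `i` (left multiplication) -/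
noncomputable def uE (i d e : ℕ) : R σ k := elt σ k (hrN σ k i e) * conj (elt σ k (hrN σ k i d))

/-- the element with digit `e` in the row of `x` -/
noncomputable def mvN (i e x : ℕ) : ℕ := lmulN σ k (uE σ k i (dgN σ k i x) e) x

/-- cyclic successor -/
noncomputable def nxN (i x : ℕ) : ℕ := mvN σ k i ((dgN σ k i x + 1) % fL σ i) x

/-- the levels -/
noncomputable def lvP : List TLv :=
  (List.range k).map fun i => (fL σ i, tabN (NP σ k) (nxN σ k i), tabN (NP σ k) (dgN σ k i))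

end defs

theorem mem_lst {i : ℕ} {x : K} : x ∈ lst σ i ↔ x ∈ A σ (i + 1) := by
  classical
  rw [SkewGrp877.mem_A, lst]
  split_ifs with h
  · constructor
    · intro _; left; omega
    · intro _; exact mem_allK x
  · rw [List.mem_filter]
    constructor
    · rintro ⟨_, h2⟩; right; simpa using h2
    · rintro (h2 | h2)
      · omega
      · exact ⟨mem_allK x, by simpa using h2⟩

theorem nodup_lst (i : ℕ) : (lst σ i).Nodup := by
  classical
  rw [lst]
  split_ifs with h
  · exact nodup_allK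
  · exact nodup_allK.filter _

theorem valF_mem {i d : ℕ} (hd : d < fL σ i) : valF σ i d ∈ lst σ i := by
  rw [valF, List.getD_eq_getElem _ _ hd]
  exact List.getElem_mem hd

theorem plF_lt {i : ℕ} {x : K} (hx : x ∈ lst σ i) : plF σ i x < fL σ i := by
  classical
  exact List.idxOf_lt_length_of_mem hx

theorem valF_plF {i : ℕ} {x : K} (hx : x ∈ lst σ i) : valF σ i (plF σ i x) = x := by
  classical
  have h := plF_lt hx
  rw [valF, List.getD_eq_getElem _ _ h]
  exact List.getElem_idxOf _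

theorem plF_valF {i d : ℕ} (hd : d < fL σ i) : plF σ i (valF σ i d) = d := by
  classical
  rw [valF, List.getD_eq_getElem _ _ hd, plF]
  exact (nodup_lst i).idxOf_getElem d hd

/-! ### elements of `P_k` deep in the filtration -/

theorem c_sub_one {f : R σ k} {n : ℕ} (hn : 1 ≤ n) : c (f - 1) n = c f n := by
  by_cases h : n ≤ k
  · rw [SkewGrp877.c_sub, SkewGrp877.c_one h, if_neg (by omega), sub_zero]
  · rw [SkewGrp877.c_gt _ (by omega), SkewGrp877.c_gt _ (by omega)]

theorem mem_U_iff (hσ : ∀ x, σ (σ x) = x) {u : (R σ k)ˣ} (hu : u ∈ U hσ k 1) (i : ℕ) :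
    u ∈ U hσ k (i + 1) ↔ ∀ j < i, c (u : R σ k) (j + 1) = 0 := by
  rw [SkewGrp877.mem_U] at hu ⊢
  constructor
  · rintro ⟨_, h⟩ j hj
    have := h (j + 1) (by omega)
    rwa [c_sub_one (by omega)] at this
  · intro h
    refine ⟨hu.1, fun n hn => ?_⟩
    rcases Nat.eq_zero_or_pos n with rfl | h1
    · exact hu.2 0 (by omega)
    · rw [c_sub_one h1]
      have := h (n - 1) (by omega)
      rwa [Nat.sub_add_cancel h1] at this

theorem isH_iff {i d r : ℕ} : isH σ k i d r = true ↔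
    (∀ j < i, c (elt σ k r) (j + 1) = 0) ∧ c (elt σ k r) (i + 1) = valF σ i d := by
  classical
  unfold isH
  exact decide_eq_true_iff

theorem hrN_spec (hσ : ∀ x, σ (σ x) = x) (h2 : (2 : K) ≠ 0) {i d : ℕ} (hi : i < k)
    (hd : d < fL σ i) : hrN σ k i d < NP σ k ∧ isH σ k i d (hrN σ k i d) = true := by
  obtain ⟨u, hu, hc⟩ := SkewGrp877.exists_lead (σ := σ) (k := k) hσ h2 (i := i + 1) (by omega)
    (by omega) (mem_lst.mp (valF_mem hd))
  have hu1 : u ∈ U hσ k 1 := SkewGrp877.U_mono hσ (by omega) hu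
  have hP := InP.of_mem hσ hu1
  have hmem : num (u : R σ k) ∈ sel (NP σ k) (isH σ k i d) := by
    refine mem_sel.mpr ⟨num_lt hP, isH_iff.mpr ?_⟩
    rw [elt_num hP]
    exact ⟨(mem_U_iff hσ hu1 i).mp hu, by rw [← hc, c_sub_one (by omega)]⟩
  have hlen : 0 < (sel (NP σ k) (isH σ k i d)).length := List.length_pos_of_mem hmem
  have h0 : hrN σ k i d ∈ sel (NP σ k) (isH σ k i d) := by
    rw [hrN, List.getD_eq_getElem _ _ hlen]
    exact List.getElem_mem hlen
  exact mem_sel.mp h0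

theorem hrN_lt (hσ : ∀ x, σ (σ x) = x) (i d : ℕ) : hrN σ k i d < NP σ k := by
  rw [hrN]
  rcases Nat.eq_zero_or_pos (sel (NP σ k) (isH σ k i d)).length with h | h
  · rw [List.getD_eq_default _ _ (by omega)]
    exact NP_pos hσ
  · rw [List.getD_eq_getElem _ _ h]
    exact (mem_sel.mp (List.getElem_mem h)).1

theorem inP_hr (hσ : ∀ x, σ (σ x) = x) (i d : ℕ) : InP (elt σ k (hrN σ k i d)) :=
  elt_mem (hrN_lt hσ i d)

theorem inP_uE (hσ : ∀ x, σ (σ x) = x) (i d e : ℕ) : InP (uE σ k i d e) :=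
  (inP_hr hσ i e).mul hσ ((inP_hr hσ i d).conj hσ)

/-- the representative as a group element -/
noncomputable def hrP (hσ : ∀ x, σ (σ x) = x) (k i d : ℕ) : U hσ k 1 :=
  (eqP hσ k).symm ⟨hrN σ k i d, hrN_lt hσ i d⟩

theorem hrP_val (hσ : ∀ x, σ (σ x) = x) (i d : ℕ) :
    (((hrP hσ k i d : U hσ k 1) : (R σ k)ˣ) : R σ k) = elt σ k (hrN σ k i d) := rfl

/-- the filtration of `P_k` -/
noncomputable def filP (hσ : ∀ x, σ (σ x) = x) (h2 : (2 : K) ≠ 0) (k : ℕ) :
    Fil (U hσ k 1) K where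
  r := k
  V i := (U hσ k (i + 1)).subgroupOf (U hσ k 1)
  V0 := Subgroup.subgroupOf_self _
  Vr := by
    rw [eq_bot_iff]
    intro u hu
    rw [Subgroup.mem_subgroupOf] at hu
    rw [Subgroup.mem_bot]
    exact Subtype.ext (SkewGrp877.U_top hσ hu)
  chi i u := c (((u : (R σ k)ˣ) : R σ k)) (i + 1)
  step := by
    intro i hi u
    rw [Subgroup.mem_subgroupOf, Subgroup.mem_subgroupOf, mem_U_iff hσ u.2, mem_U_iff hσ u.2]
    constructor
    · intro h
      exact ⟨fun j hj => h j (by omega), h i (by omega)⟩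
    · rintro ⟨h, h'⟩ j hj
      rcases Nat.lt_succ_iff_lt_or_eq.mp hj with h1 | rfl
      · exact h j h1
      · exact h'
  add := by
    intro i hi g u hg hu
    rw [Subgroup.mem_subgroupOf] at hg hu
    have := SkewGrp877.lead_mul hσ (i := i + 1) (by omega) hg hu
    rw [c_sub_one (by omega), c_sub_one (by omega), c_sub_one (by omega)] at this
    exact this
  conj := by
    intro i hi h u hu
    rw [Subgroup.mem_subgroupOf] at hu
    have hm : ((h⁻¹ * u * h : U hσ k 1) : (R σ k)ˣ) ∈ U hσ k (i + 1) := by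
      have := SkewGrp877.U_conj hσ (g := ((h⁻¹ : U hσ k 1) : (R σ k)ˣ)) (h⁻¹).2.1 hu
      simpa using this
    refine ⟨hm, ?_⟩
    have hu' : SkewGrp877.J (i + 1) (((u : (R σ k)ˣ) : R σ k) - 1) := hu.2
    have hh : SkewGrp877.J 1 (((h : (R σ k)ˣ) : R σ k) - 1) := h.2.2
    have hh' : SkewGrp877.J 1 ((((h⁻¹ : U hσ k 1) : (R σ k)ˣ) : R σ k) - 1) := (h⁻¹).2.2
    set a : R σ k := (((h⁻¹ : U hσ k 1) : (R σ k)ˣ) : R σ k) with ha
    set b : R σ k := ((h : (R σ k)ˣ) : R σ k) with hb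
    set v : R σ k := ((u : (R σ k)ˣ) : R σ k) with hv
    have hab : a * b = 1 := by
      rw [ha, hb]
      simp
    have hval : (((h⁻¹ * u * h : U hσ k 1) : (R σ k)ˣ) : R σ k) = a * v * b := by
      rw [ha, hb, hv]
      simp
    rw [hval, ← c_sub_one (f := a * v * b) (by omega : 1 ≤ i + 1),
      ← c_sub_one (f := v) (by omega : 1 ≤ i + 1)]
    have e : a * v * b - 1 = (v - 1) + (a - 1) * (v - 1) + ((v - 1) * (b - 1) +
        (a - 1) * (v - 1) * (b - 1)) + (a * b - 1) := by noncomm_ring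
    rw [e, hab, sub_self, add_zero, SkewGrp877.c_add, SkewGrp877.c_add, SkewGrp877.c_add,
      (hh'.mul hu') (i + 1) (by omega), (hu'.mul hh) (i + 1) (by omega),
      ((hh'.mul hu').mul hh) (i + 1) (by omega)]
    ring
  f := fL σ
  vals := valF σ
  pl := plF σ
  hr := hrP hσ k
  pl_lt := by
    intro i hi y hy
    refine plF_lt (mem_lst.mpr ?_)
    rw [Subgroup.mem_subgroupOf] at hy
    have := SkewGrp877.lead_mem hσ (i := i + 1) (by omega) (by omega) hy
    rwa [c_sub_one (by omega)] at this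
  vals_pl := by
    intro i hi y hy
    refine valF_plF (mem_lst.mpr ?_)
    rw [Subgroup.mem_subgroupOf] at hy
    have := SkewGrp877.lead_mem hσ (i := i + 1) (by omega) (by omega) hy
    rwa [c_sub_one (by omega)] at this
  pl_vals := fun i _ d hd => plF_valF hd
  hr_mem := by
    intro i hi d hd
    rw [Subgroup.mem_subgroupOf, mem_U_iff hσ (hrP hσ k i d).2, hrP_val]
    exact (isH_iff.mp (hrN_spec hσ h2 hi hd).2).1
  chi_hr := by
    intro i hi d hd
    rw [hrP_val]
    exact (isH_iff.mp (hrN_spec hσ h2 hi hd).2).2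

section link

variable (hσ : ∀ x, σ (σ x) = x) (h2 : (2 : K) ≠ 0)

/-- number of a group element -/
noncomputable def nu (u : U hσ k 1) : ℕ := num ((u : (R σ k)ˣ) : R σ k)

theorem nu_lt (u : U hσ k 1) : nu hσ u < NP σ k := num_lt (InP.of_mem hσ u.2)

theorem elt_nu (u : U hσ k 1) : elt σ k (nu hσ u) = ((u : (R σ k)ˣ) : R σ k) :=
  elt_num (InP.of_mem hσ u.2)

theorem nu_inj {u v : U hσ k 1} (h : nu hσ u = nu hσ v) : u = v := by
  have h1 := elt_nu hσ u
  rw [h, elt_nu hσ v] at h1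
  exact (Subtype.ext (Units.ext h1)).symm

theorem exists_nu {x : ℕ} (hx : x < NP σ k) : ∃ u : U hσ k 1, nu hσ u = x := by
  refine ⟨(eqP hσ k).symm ⟨x, hx⟩, ?_⟩
  rw [nu, eqP_symm_val]
  exact num_elt hx

theorem conj_val (u : U hσ k 1) :
    conj ((u : (R σ k)ˣ) : R σ k) = (((u⁻¹ : U hσ k 1) : (R σ k)ˣ) : R σ k) := by
  have h := (InP.of_mem hσ u.2).1
  have h1 : (((u⁻¹ : U hσ k 1) : (R σ k)ˣ) : R σ k) * ((u : (R σ k)ˣ) : R σ k) = 1 := by simp
  calc conj ((u : (R σ k)ˣ) : R σ k)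
      = ((((u⁻¹ : U hσ k 1) : (R σ k)ˣ) : R σ k) * ((u : (R σ k)ˣ) : R σ k)) *
          conj ((u : (R σ k)ˣ) : R σ k) := by rw [h1, one_mul]
    _ = _ := by rw [mul_assoc, h, mul_one]

theorem redN_nu (u : U hσ k 1) (i : ℕ) :
    redN σ k i (nu hσ u) = nu hσ ((filP hσ h2 k).red i u) := by
  induction i with
  | zero => rfl
  | succ i ih =>
    rw [redN, ih, elt_nu, Fil.red_succ]
    rw [nu]
    congr 1

theorem dgN_nu (u : U hσ k 1) (i : ℕ) : dgN σ k i (nu hσ u) = (filP hσ h2 k).dg i u := by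
  rw [dgN, redN_nu hσ h2, elt_nu]
  rfl

theorem mvN_nu (u : U hσ k 1) (i e : ℕ) :
    mvN σ k i e (nu hσ u) = nu hσ ((filP hσ h2 k).mv i e u) := by
  rw [mvN, dgN_nu hσ h2, lmulN, elt_nu, uE, nu, Fil.mv]
  congr 1

theorem nxN_nu (u : U hσ k 1) (i : ℕ) :
    nxN σ k i (nu hσ u) = nu hσ ((filP hσ h2 k).nx i u) := by
  rw [nxN, mvN_nu hσ h2, dgN_nu hσ h2]
  rfl

theorem fL_pos (i : ℕ) : 0 < fL σ i := by
  have : (0 : K) ∈ lst σ i := mem_lst.mpr (SkewGrp877.A_zero _)
  exact List.length_pos_of_mem this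

include hσ h2 in
theorem fL_le {i : ℕ} (hi : i < k) : fL σ i ≤ NP σ k := by
  have hinj : ∀ d < fL σ i, ∀ e < fL σ i, hrN σ k i d = hrN σ k i e → d = e := by
    intro d hd e he h
    have h3 := (isH_iff.mp (hrN_spec (k := k) hσ h2 hi hd).2).2
    have h4 := (isH_iff.mp (hrN_spec (k := k) hσ h2 hi he).2).2
    rw [h, h4] at h3
    rw [← plF_valF hd, ← plF_valF he, h3]
  have := Finset.card_le_card_of_injOn (s := Finset.range (fL σ i)) (t := Finset.range (NP σ k))
    (hrN σ k i) (fun d hd => Finset.mem_coe.mpr (Finset.mem_range.mpr (hrN_lt hσ i d)))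
    (fun d hd e he h => hinj d (Finset.mem_range.mp hd) e (Finset.mem_range.mp he) h)
  simpa using this

theorem fL_le_card (i : ℕ) : fL σ i ≤ qK K := by
  classical
  rw [fL, lst]
  split_ifs
  · exact le_rfl
  · exact List.length_filter_le _ _

/-- the `i`-th level -/
noncomputable def lvl (σ : K →+* K) (k i : ℕ) : TLv :=
  (fL σ i, tabN (NP σ k) (nxN σ k i), tabN (NP σ k) (dgN σ k i))

include hσ h2 in
theorem fl_lvl {i : ℕ} (hi : i < k) : fl (NP σ k) (lvl σ k i) = fL σ i := by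
  rw [fl, lvl]
  exact min_eq_left (fL_le hσ h2 hi)

include hσ h2 in
theorem dgN_lt {i x : ℕ} (hi : i < k) (hx : x < NP σ k) : dgN σ k i x < fL σ i := by
  obtain ⟨u, rfl⟩ := exists_nu hσ hx
  rw [dgN_nu hσ h2]
  exact (filP hσ h2 k).dg_lt hi u

include hσ in
theorem mvN_lt {i e x : ℕ} (hx : x < NP σ k) : mvN σ k i e x < NP σ k :=
  lmulN_lt hσ (inP_uE hσ _ _ _) hx

include hσ in
theorem nxN_lt {i x : ℕ} (hx : x < NP σ k) : nxN σ k i x < NP σ k := mvN_lt hσ hx

include hσ in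
theorem look_nx {i x : ℕ} (hx : x < NP σ k) :
    (lv (NP σ k) (lvl σ k i)).nx x = nxN σ k i x :=
  look_tabN hx (nxN_lt hσ hx).le

include hσ h2 in
theorem look_dg {i x : ℕ} (hi : i < k) (hx : x < NP σ k) :
    (lv (NP σ k) (lvl σ k i)).dg x = dgN σ k i x :=
  look_tabN hx ((dgN_lt hσ h2 hi hx).le.trans (fL_le hσ h2 hi))

include hσ h2 in
theorem nx_iterate {i x : ℕ} (hi : i < k) (hx : x < NP σ k) (m : ℕ) :
    (lv (NP σ k) (lvl σ k i)).nx^[m] x = mvN σ k i ((dgN σ k i x + m) % fL σ i) x := by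
  obtain ⟨u, rfl⟩ := exists_nu hσ hx
  rw [mvN_nu hσ h2, dgN_nu hσ h2]
  have h := (filP hσ h2 k).nx_iterate hi u m
  have hf : (filP hσ h2 k).f i = fL σ i := rfl
  rw [hf] at h
  rw [← h]
  clear h hx
  induction m with
  | zero => rfl
  | succ m ih =>
    rw [Function.iterate_succ_apply', Function.iterate_succ_apply', ih,
      look_nx hσ (nu_lt hσ _), nxN_nu hσ h2]

include hσ h2 in
theorem lvOK {i : ℕ} (hi : i < k) {W : List (ℕ → ℕ)}
    (hW : ∀ w ∈ W, ∃ j < i, ∀ x < NP σ k, w x = dgN σ k j x) :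
    LvOK (NP σ k) (fL σ i) W (lv (NP σ k) (lvl σ k i)) where
  lt x hx := by rw [look_nx hσ hx]; exact nxN_lt hσ hx
  dlt x hx := by rw [look_dg hσ h2 hi hx]; exact dgN_lt hσ h2 hi hx
  dnx x hx := by
    rw [look_nx hσ hx, look_dg hσ h2 hi (nxN_lt hσ hx), look_dg hσ h2 hi hx]
    obtain ⟨u, rfl⟩ := exists_nu hσ hx
    rw [nxN_nu hσ h2, dgN_nu hσ h2, dgN_nu hσ h2]
    exact (filP hσ h2 k).dg_nx hi u
  cyc x hx := by
    rw [nx_iterate hσ h2 hi hx, Nat.add_mod_right, Nat.mod_eq_of_lt (dgN_lt hσ h2 hi hx)]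
    obtain ⟨u, rfl⟩ := exists_nu hσ hx
    rw [mvN_nu hσ h2, dgN_nu hσ h2, Fil.mv_dg]
  up w hw x hx := by
    obtain ⟨j, hj, h⟩ := hW w hw
    rw [look_nx hσ hx, h _ (nxN_lt hσ hx), h x hx]
    obtain ⟨u, rfl⟩ := exists_nu hσ hx
    rw [nxN_nu hσ h2, dgN_nu hσ h2, dgN_nu hσ h2]
    have hlt := (filP hσ h2 k).dg_lt hi u
    exact (filP hσ h2 k).dg_mv_of_lt hi (Nat.mod_lt _ (by omega)) u hj

include hσ h2 in
theorem tower_aux (m : ℕ) : ∀ (i : ℕ) (W : List (ℕ → ℕ)), i + m = k →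
    (∀ w ∈ W, ∃ j < i, ∀ x < NP σ k, w x = dgN σ k j x) →
    (∀ j < i, ∃ w ∈ W, ∀ x < NP σ k, w x = dgN σ k j x) →
    TowerP (NP σ k) W ((List.range' i m).map (lvl σ k)) := by
  induction m with
  | zero =>
    intro i W him h1 h3
    show ∀ x < NP σ k, ∀ y < NP σ k, (∀ u ∈ W, u x = u y) → x = y
    intro x hx y hy hxy
    obtain ⟨u, rfl⟩ := exists_nu hσ hx
    obtain ⟨v, rfl⟩ := exists_nu hσ hy
    congr 1
    refine (filP hσ h2 k).dg_sep fun j hj => ?_
    have hj' : j < i := by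
      have : (filP hσ h2 k).r = k := rfl
      omega
    obtain ⟨w, hw, hwj⟩ := h3 j hj'
    rw [← dgN_nu hσ h2, ← dgN_nu hσ h2, ← hwj _ hx, ← hwj _ hy]
    exact hxy w hw
  | succ m ih =>
    intro i W him h1 h3
    rw [List.range'_succ, List.map_cons]
    have hi : i < k := by omega
    refine ⟨by rw [fl_lvl hσ h2 hi]; exact fL_pos i, ?_, ?_⟩
    · rw [fl_lvl hσ h2 hi]
      exact lvOK hσ h2 hi h1
    · refine ih (i + 1) _ (by omega) ?_ ?_
      · intro w hw
        rcases List.mem_cons.mp hw with rfl | hw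
        · exact ⟨i, by omega, fun x hx => look_dg hσ h2 hi hx⟩
        · obtain ⟨j, hj, h⟩ := h1 w hw
          exact ⟨j, by omega, h⟩
      · intro j hj
        rcases Nat.lt_succ_iff_lt_or_eq.mp hj with h | rfl
        · obtain ⟨w, hw, h'⟩ := h3 j h
          exact ⟨w, List.mem_cons_of_mem _ hw, h'⟩
        · exact ⟨_, List.mem_cons_self, fun x hx => look_dg hσ h2 hi hx⟩

include hσ h2 in
/-- **the tower of `P_k`** -/
theorem towerP : TowerP (NP σ k) [] (lvP σ k) := by
  have h := tower_aux (k := k) hσ h2 k 0 [] (by omega) (by simp) (by simp)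
  rw [← List.range_eq_range'] at h
  exact h

theorem length_lvP : (lvP σ k).length = k := by simp [lvP]

theorem lvP_getElem {i : ℕ} (hi : i < (lvP σ k).length) : (lvP σ k)[i] = lvl σ k i := by
  simp [lvP, lvl]

include hσ h2 in
/-- the element with digit `e` in the row of `x` is obtained from `x` by the left multiplication
by `uE i (digit of x) e` -/
theorem at_lvl {i x e : ℕ} (hi : i < k) (hx : x < NP σ k) (he : e < fL σ i) :
    at' (fL σ i) (lv (NP σ k) (lvl σ k i)) x e =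
      lmulN σ k (uE σ k i (dgN σ k i x) e) x := by
  have hd := dgN_lt hσ h2 hi hx
  have hc : cnt (fL σ i) e (dgN σ k i x) = (e + (fL σ i - dgN σ k i x)) % fL σ i := by
    unfold cnt
    exact min_eq_left (Nat.mod_lt _ (fL_pos i)).le
  rw [at', look_dg hσ h2 hi hx, nx_iterate hσ h2 hi hx, hc]
  have e1 : (dgN σ k i x + (e + (fL σ i - dgN σ k i x)) % fL σ i) % fL σ i = e := by
    rw [Nat.add_mod_mod]
    have : dgN σ k i x + (e + (fL σ i - dgN σ k i x)) = e + fL σ i := by omega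
    rw [this, Nat.add_mod_right, Nat.mod_eq_of_lt he]
  rw [e1]
  rfl

end link

/-! ### polynomial time -/

section PT

variable [PTCode K] {α : Type} [PTCode α] {k : α → ℕ}

theorem ptf_valF {i d : α → ℕ} (hi : PTF i) (hd : PTF d) : PTF (fun a => valF σ (i a) (d a)) := by
  classical
  have h : PTF (fun a => if i a % 2 = 0 then (allK K).getD (d a) 0 else
      ((allK K).filter (fun x => decide (σ x = -x))).getD (d a) 0) :=
    PTF.ite (PTPred.natEq (PTF.natMod hi (PTF.const 2)) (PTF.const 0))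
      (ptf_getB (PTF.const _) hd (PTF.const 0)) (ptf_getB (PTF.const _) hd (PTF.const 0))
  refine h.of_eq fun a => ?_
  unfold valF lst
  split_ifs <;> rfl

theorem ptf_plF {i : α → ℕ} {x : α → K} (hi : PTF i) (hx : PTF x) :
    PTF (fun a => plF σ (i a) (x a)) := by
  classical
  have h1 : PTF (fun a => (allK K).idxOf (x a)) :=
    PTF.comp (g := fun y : K => (allK K).idxOf y) (PTF.of_finite _) hx
  have h2 : PTF (fun a => ((allK K).filter (fun x => decide (σ x = -x))).idxOf (x a)) :=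
    PTF.comp (g := fun y : K => ((allK K).filter (fun x => decide (σ x = -x))).idxOf y)
      (PTF.of_finite _) hx
  have h := PTF.ite (PTPred.natEq (PTF.natMod hi (PTF.const 2)) (PTF.const 0)) h1 h2
  refine h.of_eq fun a => ?_
  unfold plF lst
  split_ifs <;> congr

theorem ptf_fL {i : α → ℕ} (hi : PTF i) : PTF (fun a => fL σ (i a)) := by
  classical
  have h : PTF (fun a => if i a % 2 = 0 then (allK K).length else
      ((allK K).filter (fun x => decide (σ x = -x))).length) :=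
    PTF.ite (PTPred.natEq (PTF.natMod hi (PTF.const 2)) (PTF.const 0)) (PTF.const _) (PTF.const _)
  refine h.of_eq fun a => ?_
  unfold fL lst
  split_ifs <;> rfl

variable (hσ : ∀ x, σ (σ x) = x) (hk : PTU k) (hQ : PTU (fun a => qK K ^ (k a + 1)))

include hσ hk hQ

theorem ptf_isH {i d r : α → ℕ} (hi : PTU i) (hd : PTF d) (hr : PTF r) :
    PTF (fun a => isH σ (k a) (i a) (d a) (r a)) := by
  classical
  have hk1 : PTU (fun p : α × ℕ => k p.1) := PTU.comp (n := k) hk PTF.fst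
  have hQ1 : PTU (fun p : α × ℕ => qK K ^ (k p.1 + 1)) :=
    PTU.comp (n := fun a => qK K ^ (k a + 1)) hQ PTF.fst
  have hr1 : PTF (fun p : α × ℕ => r p.1) := PTF.comp (g := r) hr PTF.fst
  have h1 : PTPred (fun a => ∀ j < i a, c (elt σ (k a) (r a)) (j + 1) = 0) := by
    refine PTPred.forall_lt hi (p := fun a j => c (elt σ (k a) (r a)) (j + 1) = 0) ?_
    refine PTPred.eq (f := fun q : α × ℕ => c (elt σ (k q.1) (r q.1)) (q.2 + 1))
      (g := fun _ => (0 : K)) ?_ (PTF.const 0)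
    exact PTR.coef (σ := σ) (k := fun p : α × ℕ => k p.1)
      (f := fun p : α × ℕ => elt σ (k p.1) (r p.1))
      (PTR.elt (σ := σ) (k := fun p : α × ℕ => k p.1) hσ hk1 hQ1 hr1)
      (PTF.natAdd PTF.snd (PTF.const 1))
  have h2 : PTPred (fun a => c (elt σ (k a) (r a)) (i a + 1) = valF σ (i a) (d a)) :=
    PTPred.eq (PTR.coef (PTR.elt hσ hk hQ hr) (PTF.natAdd hi.toPTF (PTF.const 1)))
      (ptf_valF hi.toPTF hd)
  have h := (h1.and h2).toPTF
  refine h.of_eq fun a => ?_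
  unfold isH
  congr

theorem ptf_hrN {i d : α → ℕ} (hi : PTU i) (hd : PTF d) :
    PTF (fun a => hrN σ (k a) (i a) (d a)) := by
  have hk1 : PTU (fun p : α × ℕ => k p.1) := PTU.comp (n := k) hk PTF.fst
  have hQ1 : PTU (fun p : α × ℕ => qK K ^ (k p.1 + 1)) :=
    PTU.comp (n := fun a => qK K ^ (k a + 1)) hQ PTF.fst
  have hi1 : PTU (fun p : α × ℕ => i p.1) := PTU.comp (n := i) hi PTF.fst
  have hd1 : PTF (fun p : α × ℕ => d p.1) := PTF.comp (g := d) hd PTF.fst
  unfold hrN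
  exact ptf_getB (ptf_sel (ptu_NP hσ hk hQ)
    (ptf_isH (k := fun p : α × ℕ => k p.1) hσ hk1 hQ1 hi1 hd1 PTF.snd)) (PTF.const 0)
    (PTF.const 0)

omit [PTCode K] hσ hk hQ in
theorem num_le {k : ℕ} (f : R σ k) : num f ≤ qK K ^ (k + 1) := by
  have h : num f ≤ enc f := by
    unfold num rnk
    exact (List.length_filter_le _ _).trans (by rw [List.length_range])
  exact h.trans (enc_lt f).le

theorem ptf_redN {i x : α → ℕ} (hi : PTU i) (hx : PTF x) :
    PTF (fun a => redN σ (k a) (i a) (x a)) := by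
  let s : α → ℕ → ℕ → ℕ := fun a j y =>
    num (conj (elt σ (k a) (hrN σ (k a) (min j (i a))
      (plF σ j (c (elt σ (k a) y) (j + 1))))) * elt σ (k a) y)
  have hk1 : PTU (fun p : α × ℕ × ℕ => k p.1) := PTU.comp (n := k) hk PTF.fst
  have hQ1 : PTU (fun p : α × ℕ × ℕ => qK K ^ (k p.1 + 1)) :=
    PTU.comp (n := fun a => qK K ^ (k a + 1)) hQ PTF.fst
  have hi1 : PTU (fun p : α × ℕ × ℕ => i p.1) := PTU.comp (n := i) hi PTF.fst
  have hj : PTF (fun p : α × ℕ × ℕ => p.2.1) := by fun_prop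
  have hy : PTF (fun p : α × ℕ × ℕ => p.2.2) := by fun_prop
  have hs : PTF (fun p : α × ℕ × ℕ => s p.1 p.2.1 p.2.2) := by
    have hE := PTR.elt (σ := σ) (k := fun p : α × ℕ × ℕ => k p.1) hσ hk1 hQ1 hy
    have hpl : PTF (fun p : α × ℕ × ℕ => plF σ p.2.1 (c (elt σ (k p.1) p.2.2) (p.2.1 + 1))) :=
      ptf_plF hj (PTR.coef hE (PTF.natAdd hj (PTF.const 1)))
    have hh := ptf_hrN (k := fun p : α × ℕ × ℕ => k p.1) hσ hk1 hQ1 (ptu_min hj hi1) hpl
    exact PTR.num hσ hk1 hQ1 (PTR.mul hσ hk1 (PTR.conj hσ hk1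
      (PTR.elt (σ := σ) (k := fun p : α × ℕ × ℕ => k p.1) hσ hk1 hQ1 hh)) hE)
  refine ptf_natRec (r := fun a j => redN σ (k a) j (x a)) (b := x) (s := s) hi hx hs
    (fun a => rfl) (fun a j hj => ?_) (B := fun a => sz (x a) + qK K ^ (k a + 1)) ?_
    (fun a j _ => ?_)
  · show redN σ (k a) (j + 1) (x a) = s a j (redN σ (k a) j (x a))
    show _ = num (conj (elt σ (k a) (hrN σ (k a) (min j (i a)) _)) * _)
    rw [min_eq_left (Nat.le_of_lt hj)]
    rfl
  · exact PB.add (PB.comp PB.sz hx) hQ.pb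
  · cases j with
    | zero => exact Nat.le_add_right _ _
    | succ j =>
      refine le_trans ?_ (Nat.le_add_left _ _)
      exact sz_le_of_le (num_le _)

theorem ptf_dgN {i x : α → ℕ} (hi : PTU i) (hx : PTF x) :
    PTF (fun a => dgN σ (k a) (i a) (x a)) := by
  unfold dgN
  exact ptf_plF hi.toPTF (PTR.coef (PTR.elt hσ hk hQ (ptf_redN hσ hk hQ hi hx))
    (PTF.natAdd hi.toPTF (PTF.const 1)))

theorem ptr_uE {i d e : α → ℕ} (hi : PTU i) (hd : PTF d) (he : PTF e) :
    PTR σ k (fun a => uE σ (k a) (i a) (d a) (e a)) := by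
  unfold uE
  exact PTR.mul hσ hk (PTR.elt hσ hk hQ (ptf_hrN hσ hk hQ hi he))
    (PTR.conj hσ hk (PTR.elt hσ hk hQ (ptf_hrN hσ hk hQ hi hd)))

theorem ptf_mvN {i e x : α → ℕ} (hi : PTU i) (he : PTF e) (hx : PTF x) :
    PTF (fun a => mvN σ (k a) (i a) (e a) (x a)) := by
  unfold mvN
  exact ptf_lmulN hσ hk hQ (ptr_uE hσ hk hQ hi (ptf_dgN hσ hk hQ hi hx) he) hx

theorem ptf_nxN {i x : α → ℕ} (hi : PTU i) (hx : PTF x) :
    PTF (fun a => nxN σ (k a) (i a) (x a)) := by
  unfold nxN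
  exact ptf_mvN hσ hk hQ hi (PTF.natMod (PTF.natAdd (ptf_dgN hσ hk hQ hi hx) (PTF.const 1))
    (ptf_fL hi.toPTF)) hx

/-- the number of the element that moves digit `d` to digit `e` -/
theorem ptf_uN {i d e : α → ℕ} (hi : PTU i) (hd : PTF d) (he : PTF e) :
    PTF (fun a => num (uE σ (k a) (i a) (d a) (e a))) :=
  PTR.num hσ hk hQ (ptr_uE hσ hk hQ hi hd he)

theorem ptf_lvl {i : α → ℕ} (hi : PTU i) : PTF (fun a => lvl σ (k a) (i a)) := by
  have hk1 : PTU (fun p : α × ℕ => k p.1) := PTU.comp (n := k) hk PTF.fst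
  have hQ1 : PTU (fun p : α × ℕ => qK K ^ (k p.1 + 1)) :=
    PTU.comp (n := fun a => qK K ^ (k a + 1)) hQ PTF.fst
  have hi1 : PTU (fun p : α × ℕ => i p.1) := PTU.comp (n := i) hi PTF.fst
  unfold lvl tabN
  exact PTF.prodMk (ptf_fL hi.toPTF) (PTF.prodMk
    (PTF.tabulate (ptu_NP hσ hk hQ)
      (ptf_nxN (k := fun p : α × ℕ => k p.1) hσ hk1 hQ1 hi1 PTF.snd))
    (PTF.tabulate (ptu_NP hσ hk hQ)
      (ptf_dgN (k := fun p : α × ℕ => k p.1) hσ hk1 hQ1 hi1 PTF.snd)))

/-- the tower is computed in polynomial time -/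
theorem ptf_lvP : PTF (fun a => lvP σ (k a)) := by
  have hk1 : PTU (fun p : α × ℕ => k p.1) := PTU.comp (n := k) hk PTF.fst
  have hQ1 : PTU (fun p : α × ℕ => qK K ^ (k p.1 + 1)) :=
    PTU.comp (n := fun a => qK K ^ (k a + 1)) hQ PTF.fst
  have h : PTF (fun a => (List.range (k a)).map (fun i => lvl σ (k a) (min i (k a)))) :=
    PTF.tabulate (f := fun a i => lvl σ (k a) (min i (k a))) hk
      (ptf_lvl (k := fun p : α × ℕ => k p.1) hσ hk1 hQ1 (ptu_min PTF.snd hk1))
  refine h.of_eq fun a => ?_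
  unfold lvP
  refine List.map_congr_left fun i hi => ?_
  rw [List.mem_range] at hi
  rw [min_eq_left hi.le]
  rfl

end PT

end Crest.Agent.R289.TowerPT784
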