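import Mathlib

/-!
# Row 289, leaf C5_TowerP (helper784): the tower of a filtered group, for the routing

`Fil P B`: a finite filtration `P = V 0 ≥ V 1 ≥ … ≥ V r = 1` of a group by subgroups that are normal
in `P`, together with additive coordinates `chi i : P → B` on the layers (`V (i+1)` = kernel of
`chi i` on `V i`, invariant under conjugation), a numbering `vals i` of the values and
representatives `hr i c`.

* `red i x` = what is left of `x` after the first `i` digits have been taken off from the left;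
  `dg i x` = `i`-th digit;
* `dg_sep`: the digits separate the points;
* `dg_mul_of_lt`: left multiplication by an element of `V i` keeps the digits `< i`;
* `dg_up`, `dg_down`: left multiplication by `up i c = hr i (c+1) * (hr i c)⁻¹` raises the `i`-th
  digit from `c` to `c+1`, left multiplication by `(up i c)⁻¹` lowers it.
-/

set_option autoImplicit false

namespace Crest.Agent.R289.TowerP784

/-- a filtered group with numbered layers -/
structure Fil (P B : Type*) [Group P] [AddCommGroup B] where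
  /-- number of levels -/
  r : ℕ
  V : ℕ → Subgroup P
  V0 : V 0 = ⊤
  Vr : V r = ⊥
  chi : ℕ → P → B
  step : ∀ i < r, ∀ u, u ∈ V (i + 1) ↔ u ∈ V i ∧ chi i u = 0
  add : ∀ i < r, ∀ g u, g ∈ V i → u ∈ V i → chi i (g * u) = chi i g + chi i u
  conj : ∀ i < r, ∀ h u, u ∈ V i → h⁻¹ * u * h ∈ V i ∧ chi i (h⁻¹ * u * h) = chi i u
  /-- number of digits of a level -/
  f : ℕ → ℕ
  vals : ℕ → ℕ → B
  pl : ℕ → B → ℕ
  hr : ℕ → ℕ → P
  pl_lt : ∀ i < r, ∀ y ∈ V i, pl i (chi i y) < f i
  vals_pl : ∀ i < r, ∀ y ∈ V i, vals i (pl i (chi i y)) = chi i y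
  pl_vals : ∀ i < r, ∀ c < f i, pl i (vals i c) = c
  hr_mem : ∀ i < r, ∀ c < f i, hr i c ∈ V i
  chi_hr : ∀ i < r, ∀ c < f i, chi i (hr i c) = vals i c

namespace Fil

variable {P B : Type*} [Group P] [AddCommGroup B] (F : Fil P B)

/-- the rest after `i` digits -/
def red : ℕ → P → P
  | 0, x => x
  | i + 1, x => (F.hr i (F.pl i (F.chi i (red i x))))⁻¹ * red i x

/-- the `i`-th digit -/
def dg (i : ℕ) (x : P) : ℕ := F.pl i (F.chi i (F.red i x))

/-- the part of `x` described by the first `i` digits -/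
def pre (i : ℕ) (x : P) : P := x * (F.red i x)⁻¹

/-- the element that raises the `i`-th digit from `c` to `c+1` -/
def up (i c : ℕ) : P := F.hr i (c + 1) * (F.hr i c)⁻¹

theorem red_succ (i : ℕ) (x : P) : F.red (i + 1) x = (F.hr i (F.dg i x))⁻¹ * F.red i x := rfl

theorem pre_mul_red (i : ℕ) (x : P) : F.pre i x * F.red i x = x := by
  simp [pre]

theorem pre_succ (i : ℕ) (x : P) : F.pre (i + 1) x = F.pre i x * F.hr i (F.dg i x) := by
  simp [pre, red_succ, mul_assoc]

theorem pre_zero (x : P) : F.pre 0 x = 1 := by simp [pre, red]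

theorem chi_one {i : ℕ} (hi : i < F.r) : F.chi i 1 = 0 := by
  have h := F.add i hi 1 1 (one_mem _) (one_mem _)
  rw [mul_one] at h
  exact (left_eq_add.1 h)

theorem chi_inv {i : ℕ} (hi : i < F.r) {h : P} (hh : h ∈ F.V i) :
    F.chi i h⁻¹ = - F.chi i h := by
  have h1 := F.add i hi h⁻¹ h (inv_mem hh) hh
  rw [inv_mul_cancel, F.chi_one hi] at h1
  exact eq_neg_of_add_eq_zero_left h1.symm

theorem V_succ_le {i : ℕ} (hi : i < F.r) : F.V (i + 1) ≤ F.V i :=
  fun _ hu => ((F.step i hi _).1 hu).1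

theorem V_le {i j : ℕ} (hij : i ≤ j) (hj : j ≤ F.r) : F.V j ≤ F.V i := by
  induction j, hij using Nat.le_induction with
  | base => exact le_rfl
  | succ j hij ih => exact (F.V_succ_le (by omega)).trans (ih (by omega))

theorem conj_mem {i : ℕ} (hi : i ≤ F.r) (h : P) {u : P} (hu : u ∈ F.V i) :
    h⁻¹ * u * h ∈ F.V i := by
  rcases Nat.lt_or_ge i F.r with h1 | h1
  · exact (F.conj i h1 h u hu).1
  · have : i = F.r := by omega
    subst this
    rw [F.Vr, Subgroup.mem_bot] at hu ⊢
    rw [hu]; group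

theorem red_mem (x : P) : ∀ i ≤ F.r, F.red i x ∈ F.V i := by
  intro i
  induction i with
  | zero => intro _; rw [F.V0]; trivial
  | succ i ih =>
    intro hi
    have h0 := ih (by omega)
    have hlt := F.pl_lt i (by omega) _ h0
    have hm := F.hr_mem i (by omega) _ hlt
    rw [F.step i (by omega)]
    refine ⟨mul_mem (inv_mem hm) h0, ?_⟩
    show F.chi i ((F.hr i (F.pl i (F.chi i (F.red i x))))⁻¹ * F.red i x) = 0
    rw [F.add i (by omega) _ _ (inv_mem hm) h0, F.chi_inv (by omega) hm,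
      F.chi_hr i (by omega) _ hlt, F.vals_pl i (by omega) _ h0]
    simp

theorem dg_lt {i : ℕ} (hi : i < F.r) (x : P) : F.dg i x < F.f i :=
  F.pl_lt i hi _ (F.red_mem x i hi.le)

theorem vals_dg {i : ℕ} (hi : i < F.r) (x : P) : F.vals i (F.dg i x) = F.chi i (F.red i x) :=
  F.vals_pl i hi _ (F.red_mem x i hi.le)

/-- reduction of a product with an element of a deep layer -/
theorem red_mul {i : ℕ} (hi : i ≤ F.r) {u : P} (hu : u ∈ F.V i) (x : P) :
    ∀ j ≤ i, F.red j (u * x) = (F.pre j x)⁻¹ * u * F.pre j x * F.red j x := by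
  intro j
  induction j with
  | zero => intro _; simp [red, pre]
  | succ j ih =>
    intro hj
    have h1 := ih (by omega)
    have hj' : j < F.r := by omega
    have hc : (F.pre j x)⁻¹ * u * F.pre j x ∈ F.V (j + 1) :=
      F.V_le (show j + 1 ≤ i by omega) hi (F.conj_mem hi _ hu)
    have hc2 := (F.step j hj' _).1 hc
    have hd : F.dg j (u * x) = F.dg j x := by
      rw [dg, dg, h1, F.add j hj' _ _ hc2.1 (F.red_mem x j (by omega)), hc2.2, zero_add]
    rw [red_succ, hd, h1, pre_succ, red_succ]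
    group

/-- left multiplication by an element of `V i` keeps the digits below `i` -/
theorem dg_mul_of_lt {i : ℕ} (hi : i ≤ F.r) {u : P} (hu : u ∈ F.V i) (x : P) {j : ℕ}
    (hj : j < i) : F.dg j (u * x) = F.dg j x := by
  have hj' : j < F.r := by omega
  have hc : (F.pre j x)⁻¹ * u * F.pre j x ∈ F.V (j + 1) :=
    F.V_le (show j + 1 ≤ i by omega) hi (F.conj_mem hi _ hu)
  have hc2 := (F.step j hj' _).1 hc
  rw [dg, dg, F.red_mul hi hu x j hj.le, F.add j hj' _ _ hc2.1 (F.red_mem x j (by omega)), hc2.2,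
    zero_add]

/-- left multiplication by an element of `V i` adds its coordinate to the `i`-th digit value -/
theorem chi_red_mul {i : ℕ} (hi : i < F.r) {u : P} (hu : u ∈ F.V i) (x : P) :
    F.chi i (F.red i (u * x)) = F.chi i u + F.chi i (F.red i x) := by
  have hc := F.conj i hi (F.pre i x) u hu
  rw [F.red_mul hi.le hu x i le_rfl, F.add i hi _ _ hc.1 (F.red_mem x i hi.le), hc.2]

theorem up_mem {i c : ℕ} (hi : i < F.r) (hc : c + 1 < F.f i) : F.up i c ∈ F.V i :=
  mul_mem (F.hr_mem i hi _ hc) (inv_mem (F.hr_mem i hi _ (by omega)))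

theorem chi_up {i c : ℕ} (hi : i < F.r) (hc : c + 1 < F.f i) :
    F.chi i (F.up i c) = F.vals i (c + 1) - F.vals i c := by
  have h1 := F.hr_mem i hi _ hc
  have h2 := F.hr_mem i hi c (by omega)
  rw [up, F.add i hi _ _ h1 (inv_mem h2), F.chi_inv hi h2, F.chi_hr i hi _ hc,
    F.chi_hr i hi c (by omega)]
  abel

theorem dg_up {i c : ℕ} (hi : i < F.r) (hc : c + 1 < F.f i) {x : P} (hx : F.dg i x = c) :
    F.dg i (F.up i c * x) = c + 1 := by
  rw [dg, F.chi_red_mul hi (F.up_mem hi hc), F.chi_up hi hc, ← F.vals_dg hi x, hx,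
    sub_add_cancel, F.pl_vals i hi _ hc]

theorem dg_up_of_lt {i c j : ℕ} (hi : i < F.r) (hc : c + 1 < F.f i) (x : P) (hj : j < i) :
    F.dg j (F.up i c * x) = F.dg j x :=
  F.dg_mul_of_lt hi.le (F.up_mem hi hc) x hj

theorem dg_down {i c : ℕ} (hi : i < F.r) (hc : c + 1 < F.f i) {x : P}
    (hx : F.dg i x = c + 1) : F.dg i ((F.up i c)⁻¹ * x) = c := by
  rw [dg, F.chi_red_mul hi (inv_mem (F.up_mem hi hc)), F.chi_inv hi (F.up_mem hi hc),
    F.chi_up hi hc, ← F.vals_dg hi x, hx]
  have : -(F.vals i (c + 1) - F.vals i c) + F.vals i (c + 1) = F.vals i c := by abel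
  rw [this, F.pl_vals i hi _ (by omega)]

theorem dg_down_of_lt {i c j : ℕ} (hi : i < F.r) (hc : c + 1 < F.f i) (x : P) (hj : j < i) :
    F.dg j ((F.up i c)⁻¹ * x) = F.dg j x :=
  F.dg_mul_of_lt hi.le (inv_mem (F.up_mem hi hc)) x hj

/-- the digits separate the points -/
theorem dg_sep {x y : P} (h : ∀ i < F.r, F.dg i x = F.dg i y) : x = y := by
  have hp : ∀ i ≤ F.r, F.pre i x = F.pre i y := by
    intro i
    induction i with
    | zero => intro _; rw [pre_zero, pre_zero]
    | succ i ih => intro hi; rw [pre_succ, pre_succ, ih (by omega), h i (by omega)]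
  have hx := F.red_mem x F.r le_rfl
  have hy := F.red_mem y F.r le_rfl
  rw [F.Vr, Subgroup.mem_bot] at hx hy
  have h1 := F.pre_mul_red F.r x
  have h2 := F.pre_mul_red F.r y
  rw [hx, mul_one] at h1
  rw [hy, mul_one] at h2
  rw [← h1, ← h2, hp F.r le_rfl]

/-! ### rows: the element with a given `i`-th digit -/

/-- the element with `i`-th digit `d` in the row of `x`: a left multiplication that depends only on
the `i`-th digit of `x` -/
def mv (i d : ℕ) (x : P) : P := F.hr i d * (F.hr i (F.dg i x))⁻¹ * x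

theorem mv_mem {i d : ℕ} (hi : i < F.r) (hd : d < F.f i) (x : P) :
    F.hr i d * (F.hr i (F.dg i x))⁻¹ ∈ F.V i :=
  mul_mem (F.hr_mem i hi _ hd) (inv_mem (F.hr_mem i hi _ (F.dg_lt hi x)))

theorem dg_mv {i d : ℕ} (hi : i < F.r) (hd : d < F.f i) (x : P) : F.dg i (F.mv i d x) = d := by
  have h1 := F.hr_mem i hi d hd
  have h2 := F.hr_mem i hi _ (F.dg_lt hi x)
  rw [mv, dg, F.chi_red_mul hi (F.mv_mem hi hd x), F.add i hi _ _ h1 (inv_mem h2),
    F.chi_inv hi h2, F.chi_hr i hi d hd, F.chi_hr i hi _ (F.dg_lt hi x), F.vals_dg hi x,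
    neg_add_cancel_right, F.pl_vals i hi d hd]

theorem dg_mv_of_lt {i j d : ℕ} (hi : i < F.r) (hd : d < F.f i) (x : P) (hj : j < i) :
    F.dg j (F.mv i d x) = F.dg j x :=
  F.dg_mul_of_lt hi.le (F.mv_mem hi hd x) x hj

theorem mv_mv {i d e : ℕ} (hi : i < F.r) (hd : d < F.f i) (x : P) :
    F.mv i e (F.mv i d x) = F.mv i e x := by
  rw [mv, F.dg_mv hi hd x, mv, mv]
  group

theorem mv_dg (i : ℕ) (x : P) : F.mv i (F.dg i x) x = x := by
  rw [mv]; group

/-- cyclic successor in the row -/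
def nx (i : ℕ) (x : P) : P := F.mv i ((F.dg i x + 1) % F.f i) x

theorem dg_nx {i : ℕ} (hi : i < F.r) (x : P) : F.dg i (F.nx i x) = (F.dg i x + 1) % F.f i := by
  have := F.dg_lt hi x
  exact F.dg_mv hi (Nat.mod_lt _ (by omega)) x

theorem nx_iterate {i : ℕ} (hi : i < F.r) (x : P) (n : ℕ) :
    (F.nx i)^[n] x = F.mv i ((F.dg i x + n) % F.f i) x := by
  have hlt := F.dg_lt hi x
  induction n with
  | zero => rw [Nat.add_zero, Nat.mod_eq_of_lt hlt, F.mv_dg]; rfl
  | succ n ih =>
    have hm : (F.dg i x + n) % F.f i < F.f i := Nat.mod_lt _ (by omega)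
    rw [Function.iterate_succ_apply', ih, nx, F.mv_mv hi hm, F.dg_mv hi hm, Nat.mod_add_mod]
    congr 2

end Fil

end Crest.Agent.R289.TowerP784
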