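import Mathlib

/-!
# Row 289, block C, leaf C_TR (Lemma P2b of post 5912): transcripts are unique

Abstract form.  A walk `vis : ℕ → Gam × J` (injective below `L + 1`), instructions
`ins : ℕ → Option (Lane × Op)`: the step `s < L` writes the cell `(lane, (vis s).1)` with the value
of the operation, which reads only cells written before.  `pre t X` = the cells written before time
`t`.  The content relations (mask times (cell minus mark times operation)) hold at all addresses iff
the content of the lanes is `pre t X`.
-/

set_option autoImplicit false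
set_option linter.unusedSectionVars false

namespace Crest.Agent.R289.Tr762

variable {K Gam J Lane Op : Type}

/-- the transcript before time `t` -/
def pre [Zero K] [DecidableEq Lane] [DecidableEq Gam] (vis : ℕ → Gam × J)
    (ins : ℕ → Option (Lane × Op)) (opv : Op → (Lane → Gam → K) → Gam → K) :
    ℕ → Lane → Gam → K
  | 0 => fun _ _ => 0
  | t + 1 => fun l a =>
      match ins t with
      | none => pre vis ins opv t l a
      | some (l', k) => if l = l' ∧ a = (vis t).1 then opv k (pre vis ins opv t) a
          else pre vis ins opv t l a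

section
variable [Zero K] [DecidableEq Lane] [DecidableEq Gam] (vis : ℕ → Gam × J)
  (ins : ℕ → Option (Lane × Op)) (opv : Op → (Lane → Gam → K) → Gam → K)

theorem pre_zero : pre vis ins opv 0 = fun _ _ => 0 := rfl

theorem pre_succ_none {t : ℕ} (h : ins t = none) :
    pre vis ins opv (t + 1) = pre vis ins opv t := by
  funext l a
  simp [pre, h]

theorem pre_succ_some {t : ℕ} {l' : Lane} {k : Op} (h : ins t = some (l', k)) (l : Lane) (a : Gam) :
    pre vis ins opv (t + 1) l a = if l = l' ∧ a = (vis t).1 then opv k (pre vis ins opv t) a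
      else pre vis ins opv t l a := by
  simp [pre, h]

/-- a cell that is not written before `t` is `0` -/
theorem pre_eq_zero {t : ℕ} {l : Lane} {a : Gam}
    (h : ∀ s < t, ∀ k, ins s = some (l, k) → (vis s).1 ≠ a) : pre vis ins opv t l a = 0 := by
  induction t with
  | zero => rfl
  | succ t ih =>
    have ih' := ih fun s hs => h s (by omega)
    rcases hi : ins t with _ | ⟨l', k⟩
    · rw [pre_succ_none vis ins opv hi]; exact ih'
    · rw [pre_succ_some vis ins opv hi]
      split
      · rename_i hc
        exfalso
        obtain ⟨rfl, rfl⟩ := hc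
        exact h t (by omega) k hi rfl
      · exact ih'

variable {L : ℕ}
  (W1 : ∀ s < L, ∀ s' < L, ∀ l k k', ins s = some (l, k) → ins s' = some (l, k') →
    (vis s).1 = (vis s').1 → s = s')

include W1

/-- the value of the cell written at time `s` -/
theorem pre_cell {s : ℕ} {l : Lane} {k : Op} (hs : s < L) (h : ins s = some (l, k)) {t : ℕ}
    (ht : t ≤ L) : pre vis ins opv t l (vis s).1 =
      if s < t then opv k (pre vis ins opv s) (vis s).1 else 0 := by
  induction t with
  | zero => simp [pre]
  | succ t ih =>
    have ih' := ih (by omega)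
    by_cases hst : t = s
    · subst hst
      rw [pre_succ_some vis ins opv h]
      simp
    · have hif : (if s < t + 1 then opv k (pre vis ins opv s) (vis s).1 else (0 : K)) =
          if s < t then opv k (pre vis ins opv s) (vis s).1 else 0 := by
        by_cases h1 : s < t
        · rw [if_pos h1, if_pos (by omega)]
        · rw [if_neg h1, if_neg (by omega)]
      rw [hif, ← ih']
      rcases hi : ins t with _ | ⟨l', k'⟩
      · rw [pre_succ_none vis ins opv hi]
      · rw [pre_succ_some vis ins opv hi]
        rw [if_neg]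
        rintro ⟨rfl, h2⟩
        exact hst (W1 t (by omega) s hs _ _ _ hi h h2.symm)

end

/-! ### the content relations -/

section
variable [Field K] [DecidableEq Lane] [DecidableEq Gam] [Fintype J] [Fintype Op]

open Classical in
/-- mask of the cells of lane `l` written by operation `k` at their visit `j` -/
noncomputable def wm (vis : ℕ → Gam × J) (ins : ℕ → Option (Lane × Op)) (L : ℕ) (j : J) (l : Lane)
    (k : Op) (a : Gam) : K :=
  if ∃ s < L, vis s = (a, j) ∧ ins s = some (l, k) then 1 else 0

open Classical in
/-- mark of the visits before `t` -/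
noncomputable def mk (vis : ℕ → Gam × J) (t : ℕ) (j : J) (a : Gam) : K :=
  if ∃ s < t, vis s = (a, j) then 1 else 0

variable (vis : ℕ → Gam × J) (ins : ℕ → Option (Lane × Op))
  (opv : Op → (Lane → Gam → K) → Gam → K) {L : ℕ}
  (hinj : ∀ s < L, ∀ s' < L, vis s = vis s' → s = s')
  (W1 : ∀ s < L, ∀ s' < L, ∀ l k k', ins s = some (l, k) → ins s' = some (l, k') →
    (vis s).1 = (vis s').1 → s = s')
  (dep : Op → Gam → Set (Lane × Gam))
  (hdep : ∀ k a (F G : Lane → Gam → K), (∀ c ∈ dep k a, F c.1 c.2 = G c.1 c.2) →
    opv k F a = opv k G a)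
  (W2 : ∀ s < L, ∀ l k, ins s = some (l, k) → ∀ c ∈ dep k (vis s).1,
    ∃ s' < s, (vis s').1 = c.2 ∧ ∃ k', ins s' = some (c.1, k'))

open Classical in
include hinj in
theorem wm_cell {s : ℕ} (hs : s < L) {l l' : Lane} {k k' : Op} (h : ins s = some (l, k)) :
    wm (K := K) vis ins L (vis s).2 l' k' (vis s).1 = if l' = l ∧ k' = k then 1 else 0 := by
  classical
  unfold wm
  by_cases hc : l' = l ∧ k' = k
  · obtain ⟨rfl, rfl⟩ := hc
    rw [if_pos, if_pos ⟨rfl, rfl⟩]
    exact ⟨s, hs, rfl, h⟩
  · rw [if_neg hc, if_neg]
    rintro ⟨s', hs', h1, h2⟩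
    have : s' = s := hinj s' hs' s hs h1
    subst this
    rw [h] at h2
    simp only [Option.some.injEq, Prod.mk.injEq] at h2
    exact hc ⟨h2.1.symm, h2.2.symm⟩

include hinj in
theorem mk_cell {s t : ℕ} (hs : s < L) (_ht : t ≤ L) :
    mk (K := K) vis t (vis s).2 (vis s).1 = if s < t then 1 else 0 := by
  classical
  unfold mk
  by_cases hc : s < t
  · rw [if_pos, if_pos hc]
    exact ⟨s, hc, rfl⟩
  · rw [if_neg hc, if_neg]
    rintro ⟨s', hs', h1⟩
    have := hinj s' (by omega) s hs h1
    omega

include W1 in
theorem wm_sum {s : ℕ} (hs : s < L) {l : Lane} {k : Op} (h : ins s = some (l, k)) :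
    ∑ j, ∑ k', wm (K := K) vis ins L j l k' (vis s).1 = 1 := by
  classical
  rw [Finset.sum_eq_single (vis s).2, Finset.sum_eq_single k]
  · unfold wm
    rw [if_pos]
    exact ⟨s, hs, rfl, h⟩
  · intro k' _ hk'
    unfold wm
    rw [if_neg]
    rintro ⟨s', hs', h1, h2⟩
    have h3 : (vis s').1 = (vis s).1 := by rw [h1]
    have : s' = s := W1 s' hs' s hs _ _ _ h2 h h3
    subst this
    rw [h] at h2
    simp only [Option.some.injEq, Prod.mk.injEq, true_and] at h2
    exact hk' h2.symm
  · simp
  · intro j _ hj
    refine Finset.sum_eq_zero fun k' _ => ?_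
    unfold wm
    rw [if_neg]
    rintro ⟨s', hs', h1, h2⟩
    have h3 : (vis s').1 = (vis s).1 := by rw [h1]
    have : s' = s := W1 s' hs' s hs _ _ _ h2 h h3
    subst this
    exact hj (by rw [h1])
  · simp

theorem wm_sum_zero {l : Lane} {a : Gam}
    (h : ∀ s < L, ∀ k, ins s = some (l, k) → (vis s).1 ≠ a) :
    ∑ j, ∑ k, wm (K := K) vis ins L j l k a = 0 := by
  refine Finset.sum_eq_zero fun j _ => Finset.sum_eq_zero fun k _ => ?_
  unfold wm
  rw [if_neg]
  rintro ⟨s, hs, h1, h2⟩
  exact h s hs k h2 (by rw [h1])

/-- the content relations of a transcript with marks `N` -/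
def Rel (N : J → Gam → K) (F : Lane → Gam → K) : Prop :=
  (∀ l a, (1 - ∑ j, ∑ k, wm (K := K) vis ins L j l k a) * F l a = 0) ∧
    ∀ j l k a, wm (K := K) vis ins L j l k a * (F l a - N j a * opv k F a) = 0

include W1 W2 hdep in
/-- operations see the same values at time `s` and at any later time -/
theorem opv_pre {s t : ℕ} (hst : s ≤ t) (ht : t ≤ L) (hs : s < L) {l : Lane} {k : Op}
    (h : ins s = some (l, k)) :
    opv k (pre vis ins opv t) (vis s).1 = opv k (pre vis ins opv s) (vis s).1 := by
  refine hdep k _ _ _ fun c hc => ?_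
  obtain ⟨s', hs', h1, k', h2⟩ := W2 s hs l k h c hc
  rw [← h1, pre_cell vis ins opv W1 (by omega) h2 ht,
    pre_cell vis ins opv W1 (by omega) h2 (by omega), if_pos (by omega), if_pos hs']

include hinj W1 W2 hdep in
/-- **Lemma P2b**: the relations with the marks of time `t` hold iff the lanes hold `pre t` -/
theorem rel_iff {t : ℕ} (ht : t ≤ L) (N : J → Gam → K)
    (hN : ∀ s < L, N (vis s).2 (vis s).1 = if s < t then 1 else 0) (F : Lane → Gam → K) :
    Rel vis ins opv (L := L) N F ↔ F = pre vis ins opv t := by
  classical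
  constructor
  · rintro ⟨hA, hB⟩
    -- the cells, by strong induction
    have cell : ∀ s < L, ∀ l k, ins s = some (l, k) →
        F l (vis s).1 = pre vis ins opv t l (vis s).1 := by
      intro s
      induction s using Nat.strong_induction_on with
      | _ s ih =>
        intro hs l k h
        have h1 := hB (vis s).2 l k (vis s).1
        rw [wm_cell vis ins hinj hs h, if_pos ⟨rfl, rfl⟩, one_mul, hN s hs, sub_eq_zero] at h1
        rw [h1, pre_cell vis ins opv W1 hs h ht]
        by_cases hst : s < t
        · rw [if_pos hst, if_pos hst, one_mul]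
          rw [← opv_pre vis ins opv W1 dep hdep W2 hst.le ht hs h]
          refine hdep k _ _ _ fun c hc => ?_
          obtain ⟨s', hs', h3, k', h4⟩ := W2 s hs l k h c hc
          rw [← h3]
          exact ih s' hs' (by omega) _ _ h4
        · rw [if_neg hst, if_neg hst, zero_mul]
    funext l a
    by_cases hc : ∃ s < L, ∃ k, ins s = some (l, k) ∧ (vis s).1 = a
    · obtain ⟨s, hs, k, h, rfl⟩ := hc
      exact cell s hs l k h
    · push Not at hc
      have h1 := hA l a
      rw [wm_sum_zero vis ins (fun s hs k h => hc s hs k h), sub_zero, one_mul] at h1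
      rw [h1, pre_eq_zero vis ins opv fun s hs k h => hc s (by omega) k h]
  · rintro rfl
    constructor
    · intro l a
      by_cases hc : ∃ s < L, ∃ k, ins s = some (l, k) ∧ (vis s).1 = a
      · obtain ⟨s, hs, k, h, rfl⟩ := hc
        rw [wm_sum vis ins W1 hs h, sub_self, zero_mul]
      · push Not at hc
        rw [pre_eq_zero vis ins opv fun s hs k h => hc s (by omega) k h, mul_zero]
    · intro j l k a
      by_cases hc : ∃ s < L, vis s = (a, j) ∧ ins s = some (l, k)
      · obtain ⟨s, hs, h1, h2⟩ := hc
        have ha : a = (vis s).1 := by rw [h1]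
        have hj : j = (vis s).2 := by rw [h1]
        subst ha hj
        rw [hN s hs, pre_cell vis ins opv W1 hs h2 ht]
        by_cases hst : s < t
        · rw [if_pos hst, if_pos hst, one_mul,
            opv_pre vis ins opv W1 dep hdep W2 hst.le ht hs h2, sub_self, mul_zero]
        · rw [if_neg hst, if_neg hst, zero_mul, sub_zero, mul_zero]
      · unfold wm
        rw [if_neg hc, zero_mul]

include hinj W1 W2 hdep in
/-- the same with the marks `mk t` -/
theorem rel_mk_iff {t : ℕ} (ht : t ≤ L) (F : Lane → Gam → K) :
    Rel vis ins opv (L := L) (mk vis t) F ↔ F = pre vis ins opv t :=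
  rel_iff vis ins opv hinj W1 dep hdep W2 ht _ (fun _ hs => mk_cell vis hinj hs ht) F

end

end Crest.Agent.R289.Tr762
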