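import Mathlib

/-!
# R289, block C, leaf C_TR (= P2b of C-FINAL part 1, post 5912): transcripts (helper988)

Cells `Gam × Lane`; a program writes at time `s < L` nothing or the cell `(adr s, l)` with operation
`k`.  `opv k x F a` = value of operation `k` at address `a`, it reads `F` only at `args k a`.
`pre t x` = the cells written at times `s < t`.

* `TProg.OK` : (W1) no cell is written twice, (W2) arguments are written before.
* `pre_succ`, `pre_written`, `pre_unwritten`, `pre_stable`, `opv_pre`
* `pre_iff` : the content conditions (c4) `⟺ F = pre t x` (`t = L` : the full form)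
* `eq_of_fix` : `pre L x` is the only function that satisfies the program equations
* `pre_bool`
-/

set_option autoImplicit false
set_option linter.unusedSectionVars false

namespace Crest.Agent.R289.Trans988

open Finset

/-- a program over the cells `Gam × Lane` with operations `κ` -/
structure TProg (Gam Lane J κ K : Type) where
  /-- number of visits that can write -/
  L : ℕ
  /-- address of the visit `s` -/
  adr : ℕ → Gam
  /-- index of the visit `s` among the visits of its address -/
  vj : ℕ → J
  /-- instruction of the visit `s` -/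
  ins : ℕ → Option (Lane × κ)
  /-- cells read by an operation at an address -/
  args : κ → Gam → Set (Gam × Lane)
  /-- value of an operation -/
  opv : κ → (Gam → K) → (Gam → Lane → K) → Gam → K

namespace TProg

variable {Gam Lane J κ K : Type}

/-- well formed programs -/
structure OK (T : TProg Gam Lane J κ K) : Prop where
  /-- visits are distinct -/
  inj : ∀ s < T.L, ∀ s' < T.L, T.adr s = T.adr s' → T.vj s = T.vj s' → s = s'
  /-- (W1) -/
  w1 : ∀ s < T.L, ∀ s' < T.L, ∀ l k k', T.ins s = some (l, k) → T.ins s' = some (l, k') →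
    T.adr s = T.adr s' → s = s'
  /-- (W2) -/
  w2 : ∀ s < T.L, ∀ l k, T.ins s = some (l, k) → ∀ c ∈ T.args k (T.adr s),
    ∃ s' < s, ∃ k', T.ins s' = some (c.2, k') ∧ T.adr s' = c.1
  /-- operations read only their arguments -/
  loc : ∀ k a x F F', (∀ c ∈ T.args k a, F c.1 c.2 = F' c.1 c.2) → T.opv k x F a = T.opv k x F' a

section
variable [Zero K] [DecidableEq Gam] [DecidableEq Lane]

/-- the cells written at times `< t` -/
def pre (T : TProg Gam Lane J κ K) (x : Gam → K) : ℕ → Gam → Lane → K
  | 0 => fun _ _ => 0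
  | t + 1 =>
    match T.ins t with
    | none => pre T x t
    | some (l, k) => fun a l' => if a = T.adr t ∧ l' = l then T.opv k x (pre T x t) (T.adr t)
        else pre T x t a l'

variable {T : TProg Gam Lane J κ K} {x : Gam → K}

theorem pre_zero : T.pre x 0 = fun _ _ => 0 := rfl

theorem pre_succ_none {t : ℕ} (h : T.ins t = none) : T.pre x (t + 1) = T.pre x t := by
  rw [pre, h]

theorem pre_succ_some {t : ℕ} {l : Lane} {k : κ} (h : T.ins t = some (l, k)) :
    T.pre x (t + 1) = fun a l' => if a = T.adr t ∧ l' = l then T.opv k x (T.pre x t) (T.adr t)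
        else T.pre x t a l' := by
  rw [pre, h]

/-- cells not written before `t` are zero -/
theorem pre_unwritten {t : ℕ} {a : Gam} {l : Lane}
    (h : ∀ s < t, ∀ k, T.ins s = some (l, k) → T.adr s ≠ a) : T.pre x t a l = 0 := by
  induction t with
  | zero => rfl
  | succ t ih =>
    have ih' := ih (fun s hs k hk => h s (Nat.lt_succ_of_lt hs) k hk)
    rcases hi : T.ins t with _ | ⟨l', k⟩
    · rw [pre_succ_none hi]; exact ih'
    · rw [pre_succ_some hi]
      simp only
      rw [if_neg, ih']
      rintro ⟨h1, h2⟩
      subst h2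
      exact h t (Nat.lt_succ_self t) k hi h1.symm

/-- a cell does not change after its writing time -/
theorem pre_stable (hT : T.OK) {s t : ℕ} (hs : s < t) (ht : t ≤ T.L) {l : Lane} {k : κ}
    (h : T.ins s = some (l, k)) : T.pre x t (T.adr s) l = T.pre x (s + 1) (T.adr s) l := by
  induction t with
  | zero => omega
  | succ t ih =>
    rcases Nat.lt_or_ge s t with h1 | h1
    · have ih' := ih h1 (by omega)
      rcases hi : T.ins t with _ | ⟨l', k'⟩
      · rw [pre_succ_none hi]; exact ih'
      · rw [pre_succ_some hi]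
        simp only
        rw [if_neg, ih']
        rintro ⟨h2, h3⟩
        subst h3
        have := hT.w1 s (by omega) t (by omega) l k k' h hi h2
        omega
    · have : s = t := by omega
      subst this
      rfl

theorem pre_cell (hT : T.OK) {s t : ℕ} (hs : s < t) (ht : t ≤ T.L) {l : Lane} {k : κ}
    (h : T.ins s = some (l, k)) :
    T.pre x t (T.adr s) l = T.opv k x (T.pre x s) (T.adr s) := by
  rw [pre_stable hT hs ht h, pre_succ_some h]
  simp

/-- the arguments of the instruction `s` have their final values at time `s` -/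
theorem opv_pre (hT : T.OK) {s t : ℕ} (hs : s ≤ t) (ht : t ≤ T.L) (hsL : s < T.L) {l : Lane} {k : κ}
    (h : T.ins s = some (l, k)) :
    T.opv k x (T.pre x t) (T.adr s) = T.opv k x (T.pre x s) (T.adr s) := by
  apply hT.loc
  intro c hc
  obtain ⟨s', hs', k', h1, h2⟩ := hT.w2 s hsL l k h c hc
  rw [← h2, pre_cell hT (by omega) ht h1, pre_cell hT hs' (by omega) h1]

/-- program equation at a written cell -/
theorem pre_written (hT : T.OK) {s t : ℕ} (hs : s < t) (ht : t ≤ T.L) {l : Lane} {k : κ}
    (h : T.ins s = some (l, k)) :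
    T.pre x t (T.adr s) l = T.opv k x (T.pre x t) (T.adr s) := by
  rw [pre_cell hT hs ht h, opv_pre hT hs.le ht (by omega) h]

/-- a function that satisfies the program equations at the times `< t` and is zero elsewhere -/
theorem eq_of_fix (hT : T.OK) {t : ℕ} (ht : t ≤ T.L) {F : Gam → Lane → K}
    (h1 : ∀ s < t, ∀ l k, T.ins s = some (l, k) → F (T.adr s) l = T.opv k x F (T.adr s))
    (h2 : ∀ a l, (∀ s < t, ∀ k, T.ins s = some (l, k) → T.adr s ≠ a) → F a l = 0) :
    F = T.pre x t := by
  have key : ∀ s < t, ∀ l k, T.ins s = some (l, k) → F (T.adr s) l = T.pre x t (T.adr s) l := by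
    intro s
    induction s using Nat.strong_induction_on with
    | _ s ih =>
      intro hs l k hk
      rw [h1 s hs l k hk, pre_written hT hs ht hk]
      apply hT.loc
      intro c hc
      obtain ⟨s', hs', k', h3, h4⟩ := hT.w2 s (by omega) l k hk c hc
      rw [← h4]
      exact ih s' hs' (by omega) c.2 k' h3
  funext a l
  by_cases h : ∀ s < t, ∀ k, T.ins s = some (l, k) → T.adr s ≠ a
  · rw [h2 a l h, pre_unwritten h]
  · push Not at h
    obtain ⟨s, hs, k, hk, ha⟩ := h
    rw [← ha]
    exact key s hs l k hk

end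

section
variable [CommRing K] [Fintype J] [Fintype κ] [DecidableEq Gam] [DecidableEq Lane] [DecidableEq J]
  [DecidableEq κ]
variable {T : TProg Gam Lane J κ K} {x : Gam → K}

open Classical in
/-- public word: visit `(a, j)` writes lane `l` with operation `k` -/
noncomputable def Wt (T : TProg Gam Lane J κ K) (j : J) (l : Lane) (k : κ) (a : Gam) : K :=
  if ∃ s < T.L, T.adr s = a ∧ T.vj s = j ∧ T.ins s = some (l, k) then 1 else 0

open Classical in
/-- prefix word: visit `(a, j)` happens before `t` -/
noncomputable def Nt (T : TProg Gam Lane J κ K) (t : ℕ) (j : J) (a : Gam) : K :=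
  if ∃ s < t, T.adr s = a ∧ T.vj s = j then 1 else 0

theorem Wt_self {s : ℕ} (hs : s < T.L) {l : Lane} {k : κ} (h : T.ins s = some (l, k)) :
    T.Wt (T.vj s) l k (T.adr s) = 1 := by
  unfold Wt
  rw [if_pos ⟨s, hs, rfl, rfl, h⟩]

theorem Nt_self (hT : T.OK) {s t : ℕ} (ht : t ≤ T.L) (hs : s < T.L) :
    T.Nt t (T.vj s) (T.adr s) = if s < t then 1 else 0 := by
  unfold Nt
  by_cases h : s < t
  · rw [if_pos ⟨s, h, rfl, rfl⟩, if_pos h]
  · rw [if_neg, if_neg h]
    rintro ⟨s', hs', h1, h2⟩
    have := hT.inj s' (by omega) s hs h1 h2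
    omega

/-- sum of the write masks of a lane -/
theorem sum_Wt (hT : T.OK) (l : Lane) (a : Gam) :
    (∑ j, ∑ k, T.Wt j l k a = 1 ∧ ∃ s < T.L, ∃ k, T.adr s = a ∧ T.ins s = some (l, k)) ∨
      (∑ j, ∑ k, T.Wt j l k a = 0 ∧ ∀ s < T.L, ∀ k, T.ins s = some (l, k) → T.adr s ≠ a) := by
  classical
  by_cases h : ∃ s < T.L, ∃ k, T.adr s = a ∧ T.ins s = some (l, k)
  · left
    refine ⟨?_, h⟩
    obtain ⟨s, hs, k, ha, hk⟩ := h
    rw [Finset.sum_eq_single (T.vj s), Finset.sum_eq_single k]
    · rw [← ha]; exact Wt_self hs hk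
    · intro k' _ hne
      unfold Wt
      rw [if_neg]
      rintro ⟨s', hs', h1, h2, h3⟩
      have := hT.w1 s' hs' s hs l k' k h3 hk (h1.trans ha.symm)
      subst this
      rw [h3] at hk
      simp only [Option.some.injEq, Prod.mk.injEq, true_and] at hk
      exact hne hk
    · intro h'; exact absurd (Finset.mem_univ _) h'
    · intro j _ hne
      refine Finset.sum_eq_zero fun k' _ => ?_
      unfold Wt
      rw [if_neg]
      rintro ⟨s', hs', h1, h2, h3⟩
      have := hT.w1 s' hs' s hs l k' k h3 hk (h1.trans ha.symm)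
      subst this
      exact hne h2.symm
    · intro h'; exact absurd (Finset.mem_univ _) h'
  · right
    push Not at h
    refine ⟨?_, fun s hs k hk ha => h s hs k ha hk⟩
    refine Finset.sum_eq_zero fun j _ => Finset.sum_eq_zero fun k _ => ?_
    unfold Wt
    rw [if_neg]
    rintro ⟨s, hs, h1, _, h3⟩
    exact h s hs k h1 h3

/-- **P2b**: the content conditions (c4) say that `F` is the transcript prefix (`t = T.L`: the full
transcript) -/
theorem pre_iff (hT : T.OK) {t : ℕ} (ht : t ≤ T.L) (F : Gam → Lane → K) :
    ((∀ a l, (1 - ∑ j, ∑ k, T.Wt j l k a) * F a l = 0) ∧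
      (∀ a j l k, T.Wt j l k a * (F a l - T.Nt t j a * T.opv k x F a) = 0)) ↔ F = T.pre x t := by
  classical
  constructor
  · rintro ⟨h1, h2⟩
    have hw : ∀ s < T.L, ∀ l k, T.ins s = some (l, k) →
        F (T.adr s) l = if s < t then T.opv k x F (T.adr s) else 0 := by
      intro s hs l k hk
      have := h2 (T.adr s) (T.vj s) l k
      rw [Wt_self hs hk, one_mul, Nt_self hT ht hs, sub_eq_zero] at this
      rw [this]
      by_cases h : s < t <;> simp [h]
    refine eq_of_fix hT ht (fun s hs l k hk => ?_) (fun a l h => ?_)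
    · rw [hw s (by omega) l k hk, if_pos hs]
    · rcases sum_Wt hT l a with ⟨_, s, hs, k, ha, hk⟩ | ⟨h3, _⟩
      · have h4 := hw s hs l k hk
        rw [ha] at h4
        rw [h4, if_neg]
        intro hst
        exact h s hst k hk ha
      · have := h1 a l
        rwa [h3, sub_zero, one_mul] at this
  · rintro rfl
    constructor
    · intro a l
      rcases sum_Wt hT l a with ⟨h3, _⟩ | ⟨_, h4⟩
      · rw [h3, sub_self, zero_mul]
      · rw [pre_unwritten (fun s hs k hk => h4 s (by omega) k hk), mul_zero]
    · intro a j l k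
      unfold Wt
      split_ifs with h
      · obtain ⟨s, hs, rfl, rfl, hk⟩ := h
        rw [one_mul, Nt_self hT ht hs, sub_eq_zero]
        split_ifs with hst
        · rw [one_mul, pre_written hT hst ht hk]
        · rw [zero_mul, pre_unwritten]
          intro s' hs' k' hk' ha
          have := hT.w1 s' (by omega) s hs l k' k hk' hk ha
          omega
      · rw [zero_mul]

/-- Boolean transcripts -/
theorem pre_bool (hx : ∀ a, x a = 0 ∨ x a = 1)
    (hop : ∀ k a F, (∀ a l, F a l = 0 ∨ F a l = 1) → T.opv k x F a = 0 ∨ T.opv k x F a = 1)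
    (t : ℕ) : ∀ a l, T.pre x t a l = 0 ∨ T.pre x t a l = 1 := by
  induction t with
  | zero => intro a l; left; rfl
  | succ t ih =>
    intro a l
    rcases hi : T.ins t with _ | ⟨l', k⟩
    · rw [pre_succ_none hi]; exact ih a l
    · rw [pre_succ_some hi]
      simp only
      split_ifs
      · exact hop k _ _ ih
      · exact ih a l

/-- step: writing one cell = adding a multiple of the delta function of the address -/
theorem pre_succ_add (hT : T.OK) {t : ℕ} (ht : t < T.L) {l : Lane} {k : κ}
    (h : T.ins t = some (l, k)) :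
    T.pre x (t + 1) = fun a l' => T.pre x t a l' +
      (if l' = l then T.opv k x (T.pre x t) (T.adr t) * (if a = T.adr t then 1 else 0) else 0) := by
  rw [pre_succ_some h]
  funext a l'
  by_cases h1 : a = T.adr t ∧ l' = l
  · obtain ⟨rfl, rfl⟩ := h1
    simp only [and_self, if_true, mul_one]
    rw [pre_unwritten, zero_add]
    intro s hs k' hk ha
    have := hT.w1 s (by omega) t ht l' k' k hk h ha
    omega
  · rw [if_neg h1]
    by_cases h2 : l' = l
    · have h3 : ¬ a = T.adr t := fun h3 => h1 ⟨h3, h2⟩
      simp [h2, h3]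
    · simp [h2]

end

end TProg

/-! ### the operations of part 1 -/

/-- operations: input, constant, nand of two neighbouring cells -/
inductive Op (G Lane : Type)
  | inp : Op G Lane
  | cst : Bool → Op G Lane
  | nand : G → Lane → G → Lane → Op G Lane
  deriving DecidableEq, Fintype

/-- cells read by an operation -/
def Op.args {G Lane Gam : Type} (act : G → Gam → Gam) : Op G Lane → Gam → Set (Gam × Lane)
  | .inp, _ => ∅
  | .cst _, _ => ∅
  | .nand g1 l1 g2 l2, a => {(act g1 a, l1), (act g2 a, l2)}

/-- value of an operation -/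
def Op.val {G Lane Gam K : Type} [CommRing K] (act : G → Gam → Gam) :
    Op G Lane → (Gam → K) → (Gam → Lane → K) → Gam → K
  | .inp, x, _, a => x a
  | .cst b, _, _, _ => if b then 1 else 0
  | .nand g1 l1 g2 l2, _, F, a => 1 - F (act g1 a) l1 * F (act g2 a) l2

theorem Op.val_loc {G Lane Gam K : Type} [CommRing K] (act : G → Gam → Gam) (k : Op G Lane) (a : Gam)
    (x : Gam → K) (F F' : Gam → Lane → K) (h : ∀ c ∈ k.args act a, F c.1 c.2 = F' c.1 c.2) :
    k.val act x F a = k.val act x F' a := by
  cases k with
  | inp => rfl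
  | cst b => rfl
  | nand g1 l1 g2 l2 =>
    simp only [Op.args, Set.mem_insert_iff, Set.mem_singleton_iff, forall_eq_or_imp, forall_eq] at h
    simp only [Op.val, h.1, h.2]

theorem Op.val_bool {G Lane Gam K : Type} [CommRing K] (act : G → Gam → Gam) (k : Op G Lane)
    (a : Gam) (x : Gam → K) (F : Gam → Lane → K) (hx : ∀ a, x a = 0 ∨ x a = 1)
    (hF : ∀ a l, F a l = 0 ∨ F a l = 1) : k.val act x F a = 0 ∨ k.val act x F a = 1 := by
  cases k with
  | inp => exact hx a
  | cst b => cases b <;> simp [Op.val]
  | nand g1 l1 g2 l2 =>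
    simp only [Op.val]
    rcases hF (act g1 a) l1 with h1 | h1 <;> rcases hF (act g2 a) l2 with h2 | h2 <;>
      simp [h1, h2]

end Crest.Agent.R289.Trans988
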