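import Crest.Agent.R289.TwoAlg_591

/-!
Row 289, block B (helper591), part 2: homogeneity, transport of the odd coordinate, points of the
projective line, label maps `M`, `L` and their bijectivity, commutation in label form.
-/

set_option autoImplicit false
set_option linter.unusedSectionVars false
set_option linter.unusedVariables false

namespace Crest.Agent.R289.TwoAlg591

variable {K : Type*} [Field K] {σ : K →+* K}

/-! ### homogeneity -/

theorem Q_smul (x c l0 l1 : K) : Q σ x (c * l0) (c * l1) = nm σ c * Q σ x l0 l1 := by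
  simp only [Q, nm, map_mul]; ring

theorem Qb_smul (x c l0 l1 : K) : Qb σ x (c * l0) (c * l1) = nm σ c * Qb σ x l0 l1 := by
  simp only [Qb, nm, map_mul]; ring

theorem nm_ne {c : K} (hc : c ≠ 0) : nm σ c ≠ 0 := mul_ne_zero hc ((map_ne_zero σ).2 hc)

theorem rho_smul {x c : K} (hc : c ≠ 0) (l0 l1 : K) :
    rho σ x (c * l0) (c * l1) = rho σ x l0 l1 := by
  rw [rho, rho, Q_smul, Qb_smul, mul_div_mul_left _ _ (nm_ne hc)]

theorem gam_smul {x c : K} (hc : c ≠ 0) (l0 l1 : K) :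
    gam σ x (c * l0) (c * l1) = gam σ x l0 l1 := by
  rw [gam, gam, rho_smul hc]

theorem bet_smul {x c : K} (hc : c ≠ 0) (l0 l1 : K) :
    bet σ x (c * l0) (c * l1) = bet σ x l0 l1 := by
  have h : c * l0 * σ (c * l1) = nm σ c * (l0 * σ l1) := by simp only [nm, map_mul]; ring
  rw [bet, bet, Qb_smul, h, mul_div_mul_left _ _ (nm_ne hc)]

theorem od0_smul {x c : K} (hc : c ≠ 0) (l0 l1 : K) :
    od0 σ x (c * l0) (c * l1) = c⁻¹ * od0 σ x l0 l1 := by
  rw [od0, od0, Qb_smul, map_mul, nm]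
  have := (map_ne_zero σ).2 hc
  by_cases h : Qb σ x l0 l1 = 0
  · simp [h]
  · field_simp

theorem od1_smul {x c : K} (hc : c ≠ 0) (l0 l1 : K) :
    od1 σ x (c * l0) (c * l1) = c⁻¹ * od1 σ x l0 l1 := by
  rw [od1, od1, Q_smul, map_mul, nm]
  have := (map_ne_zero σ).2 hc
  by_cases h : Q σ x l0 l1 = 0
  · simp [h]
  by_cases h' : σ x = 0
  · simp [h']
  field_simp

theorem ac0_smul (x b g c l0 l1 : K) : ac0 σ x b g (c * l0) (c * l1) = c * ac0 σ x b g l0 l1 := by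
  simp only [ac0]; ring

theorem ac1_smul (x b g c l0 l1 : K) : ac1 σ x b g (c * l0) (c * l1) = c * ac1 σ x b g l0 l1 := by
  simp only [ac1]; ring

/-- the odd vector is non-zero -/
theorem od_ne (hσ : ∀ a, σ (σ a) = a) {x : K} (hx : σ x ≠ x) {l0 l1 : K} (hl : l0 ≠ 0 ∨ l1 ≠ 0) :
    od0 σ x l0 l1 ≠ 0 ∨ od1 σ x l0 l1 ≠ 0 := by
  rcases hl with h | h
  · right
    exact div_ne_zero ((map_ne_zero σ).2 h) (mul_ne_zero (sx_ne hx) (Q_ne hσ hx (Or.inl h)))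
  · left
    exact div_ne_zero ((map_ne_zero σ).2 h) (Qb_ne hσ hx (Or.inr h))

/-! ### transport of the odd vector -/

/-- the four coefficient identities of `w * w2 = w1 * w'` -/
def SameProd (σ : K →+* K) (b1 g1 b2 g2 b3 g3 b4 g4 : K) : Prop :=
  b1 + b2 = b3 + b4 ∧
    g1 + b1 * σ b2 + g2 = g3 + b3 * σ b4 + g4 ∧
    g1 * b2 + b1 * σ g2 = g3 * b4 + b3 * σ g4 ∧
    g1 * g2 = g3 * g4

theorem SameProd.act0 (hσ : ∀ a, σ (σ a) = a) {b1 g1 b2 g2 b3 g3 b4 g4 : K}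
    (h : SameProd σ b1 g1 b2 g2 b3 g3 b4 g4) (x v0 v1 : K) :
    ac0 σ x b2 g2 (ac0 σ x b1 g1 v0 v1) (ac1 σ x b1 g1 v0 v1) =
      ac0 σ x b4 g4 (ac0 σ x b3 g3 v0 v1) (ac1 σ x b3 g3 v0 v1) := by
  obtain ⟨h1, h2, h3, h4⟩ := h
  rw [comp0 hσ, comp0 hσ, h1, h2, h3, h4]

theorem SameProd.act1 (hσ : ∀ a, σ (σ a) = a) {b1 g1 b2 g2 b3 g3 b4 g4 : K}
    (h : SameProd σ b1 g1 b2 g2 b3 g3 b4 g4) (x v0 v1 : K) :
    ac1 σ x b2 g2 (ac0 σ x b1 g1 v0 v1) (ac1 σ x b1 g1 v0 v1) =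
      ac1 σ x b4 g4 (ac0 σ x b3 g3 v0 v1) (ac1 σ x b3 g3 v0 v1) := by
  obtain ⟨h1, h2, h3, h4⟩ := h
  rw [comp1 hσ, comp1 hσ, h1, h2, h3, h4]

/-- `w be_{l.w} = be_l w'` implies `N(w)(x) od(l.w) = od(l).w'` -/
theorem od_act (hσ : ∀ a, σ (σ a) = a) {x : K} (hx : σ x ≠ x) {l0 l1 : K} (hl : l0 ≠ 0 ∨ l1 ≠ 0)
    {b g b' g' l0' l1' : K} (hd : dt σ x b g ≠ 0)
    (el0 : l0' = ac0 σ x b g l0 l1) (el1 : l1' = ac1 σ x b g l0 l1)
    (h : SameProd σ b g (bet σ x l0' l1') (gam σ x l0' l1') (bet σ x l0 l1) (gam σ x l0 l1) b' g') :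
    dt σ x b g * od0 σ x l0' l1' = ac0 σ x b' g' (od0 σ x l0 l1) (od1 σ x l0 l1) ∧
      dt σ x b g * od1 σ x l0' l1' = ac1 σ x b' g' (od0 σ x l0 l1) (od1 σ x l0 l1) := by
  have hl' : l0' ≠ 0 ∨ l1' ≠ 0 := by rw [el0, el1]; exact act_ne hd hl
  obtain ⟨v0, v1, hv⟩ : ∃ v0 v1 : K, l0 * v1 - l1 * v0 ≠ 0 := by
    rcases hl with hl | hl
    · exact ⟨0, 1, by simpa using hl⟩
    · exact ⟨1, 0, by simpa using hl⟩
  have hc : -(x - σ x) * (l0 * v1 - l1 * v0) ≠ 0 :=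
    mul_ne_zero (neg_ne_zero.2 (sub_ne_zero.2 hx.symm)) hv
  have e := det_act (σ := σ) x b g l0 l1 v0 v1
  rw [← el0, ← el1] at e
  constructor
  · have h0 := h.act0 hσ x v0 v1
    rw [rank1_0 hσ hx hl', rank1_0 hσ hx hl, rank1_1 hσ hx hl, ac0_smul, e] at h0
    apply mul_left_cancel₀ hc
    linear_combination h0
  · have h0 := h.act1 hσ x v0 v1
    rw [rank1_1 hσ hx hl', rank1_0 hσ hx hl, rank1_1 hσ hx hl, ac1_smul, e] at h0
    apply mul_left_cancel₀ hc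
    linear_combination h0

/-- parallel odd vectors come from parallel vectors -/
theorem par_of_od (hσ : ∀ a, σ (σ a) = a) {x : K} (hx : σ x ≠ x) {l0 l1 m0 m1 : K}
    (hl : l0 ≠ 0 ∨ l1 ≠ 0) (hm : m0 ≠ 0 ∨ m1 ≠ 0)
    (h : od0 σ x l0 l1 * od1 σ x m0 m1 = od1 σ x l0 l1 * od0 σ x m0 m1) : l0 * m1 = l1 * m0 := by
  have q1 := Q_ne hσ hx hl
  have q2 := Qb_ne hσ hx hl
  have q3 := Q_ne hσ hx hm
  have q4 := Qb_ne hσ hx hm
  have s := sx_ne hx
  have n1 := sig_Q hσ x l0 l1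
  have n2 := sig_Qb hσ x l0 l1
  have n3 := sig_Q hσ x m0 m1
  have n4 := sig_Qb hσ x m0 m1
  have h1 : (σ l1 * σ m0) * (Q σ x l0 l1 * Qb σ x m0 m1) =
      (σ l0 * σ m1) * (Q σ x m0 m1 * Qb σ x l0 l1) := by
    simp only [od0, od1] at h
    field_simp at h
    linear_combination h
  have h2 := congrArg σ h1
  simp only [map_mul, hσ, n1, n2, n3, n4] at h2
  have h3 : nm σ l1 * nm σ m0 = nm σ l0 * nm σ m1 := by
    have hz : Q σ x l0 l1 * Qb σ x m0 m1 * (Q σ x m0 m1 * Qb σ x l0 l1) ≠ 0 :=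
      mul_ne_zero (mul_ne_zero q1 q4) (mul_ne_zero q3 q2)
    apply mul_right_cancel₀ hz
    have := congrArg₂ (fun a b : K => a * b) h1 h2
    simp only [nm]
    linear_combination this
  have h4 : Q σ x l0 l1 * Qb σ x m0 m1 = Q σ x m0 m1 * Qb σ x l0 l1 := by
    simp only [Q, Qb]
    linear_combination (x - σ x) * (-h3)
  rw [h4] at h1
  have h5 := mul_right_cancel₀ (mul_ne_zero q3 q2) h1
  rw [← map_mul, ← map_mul] at h5
  exact (σ.injective h5).symm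

/-! ### points of the projective line -/

def rp0 : Option K → K
  | none => 1
  | some z => z

def rp1 : Option K → K
  | none => 0
  | some _ => 1

open Classical in
noncomputable def pt (l0 l1 : K) : Option K := if l1 = 0 then none else some (l0 / l1)

open Classical in
noncomputable def sc (l0 l1 : K) : K := if l1 = 0 then l0 else l1

theorem rp_ne (i : Option K) : rp0 i ≠ 0 ∨ rp1 i ≠ 0 := by
  cases i
  · left; exact one_ne_zero
  · right; exact one_ne_zero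

theorem pt_rp (i : Option K) : pt (rp0 i) (rp1 i) = i := by
  cases i
  · simp [pt, rp1]
  · simp [pt, rp0, rp1]

theorem sc_rp (i : Option K) : sc (rp0 i) (rp1 i) = 1 := by
  cases i
  · simp [sc, rp0, rp1]
  · simp [sc, rp1]

theorem sc_ne {l0 l1 : K} (hl : l0 ≠ 0 ∨ l1 ≠ 0) : sc l0 l1 ≠ 0 := by
  unfold sc
  split_ifs with h
  · rcases hl with h' | h'
    · exact h'
    · exact absurd h h'
  · exact h

theorem sc_rp0 (l0 l1 : K) : l0 = sc l0 l1 * rp0 (pt l0 l1) := by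
  unfold sc pt
  split_ifs with h
  · simp [rp0]
  · simp only [rp0]; field_simp

theorem sc_rp1 (l0 l1 : K) : l1 = sc l0 l1 * rp1 (pt l0 l1) := by
  unfold sc pt
  split_ifs with h
  · simp [rp1, h]
  · simp [rp1]

theorem pt_smul {c : K} (hc : c ≠ 0) (l0 l1 : K) : pt (c * l0) (c * l1) = pt l0 l1 := by
  unfold pt
  by_cases h : l1 = 0
  · simp [h]
  · simp only [mul_eq_zero, hc, h, or_self, if_false]
    rw [mul_div_mul_left _ _ hc]

theorem sc_smul {c : K} (l0 l1 : K) (hc : c ≠ 0) : sc (c * l0) (c * l1) = c * sc l0 l1 := by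
  unfold sc
  by_cases h : l1 = 0
  · simp [h]
  · simp [hc, h]

theorem par_of_pt {l0 l1 m0 m1 : K} (h : pt l0 l1 = pt m0 m1) : l0 * m1 = l1 * m0 := by
  have a := sc_rp0 l0 l1
  have b := sc_rp1 l0 l1
  have c := sc_rp0 m0 m1
  have d := sc_rp1 m0 m1
  rw [← h] at c d
  calc l0 * m1 = (sc l0 l1 * rp0 (pt l0 l1)) * (sc m0 m1 * rp1 (pt l0 l1)) := by rw [← a, ← d]
    _ = (sc l0 l1 * rp1 (pt l0 l1)) * (sc m0 m1 * rp0 (pt l0 l1)) := by ring
    _ = l1 * m0 := by rw [← b, ← c]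

theorem pt_of_par {l0 l1 m0 m1 : K} (hl : l0 ≠ 0 ∨ l1 ≠ 0) (hm : m0 ≠ 0 ∨ m1 ≠ 0)
    (h : l0 * m1 = l1 * m0) : pt l0 l1 = pt m0 m1 := by
  unfold pt
  by_cases h1 : l1 = 0
  · have h2 : l0 ≠ 0 := hl.resolve_right (not_not.2 h1)
    have h3 : m1 = 0 := by
      rw [h1, zero_mul] at h
      exact (mul_eq_zero.1 h).resolve_left h2
    simp [h1, h3]
  · by_cases h3 : m1 = 0
    · exfalso
      rw [h3, mul_zero] at h
      have h4 := (mul_eq_zero.1 h.symm).resolve_left h1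
      rcases hm with hm | hm
      · exact hm h4
      · exact hm h3
    · simp only [h1, h3, if_false]
      congr 1
      rw [div_eq_div_iff h1 h3, h, mul_comm]

/-! ### labels -/

variable (σ)

/-- `bet, gam` at a label -/
def bt (x : K) (i : Option K) : K := bet σ x (rp0 i) (rp1 i)
def gm (x : K) (i : Option K) : K := gam σ x (rp0 i) (rp1 i)

/-- action of `be^y_j` on the representative of `i` at the place `x` -/
def v0 (x y : K) (i j : Option K) : K := ac0 σ x (bt σ y j) (gm σ y j) (rp0 i) (rp1 i)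
def v1 (x y : K) (i j : Option K) : K := ac1 σ x (bt σ y j) (gm σ y j) (rp0 i) (rp1 i)

/-- new `x`-label along the `y`-edge `j` -/
noncomputable def Lx (x y : K) (i j : Option K) : Option K := pt (v0 σ x y i j) (v1 σ x y i j)

/-- new `y`-label along the `x`-edge `i` -/
noncomputable def Mx (x y : K) (i j : Option K) : Option K := pt (v0 σ y x j i) (v1 σ y x j i)

/-- two coprime places -/
structure Pl (x y : K) : Prop where
  inv : ∀ a, σ (σ a) = a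
  hx : σ x ≠ x
  hy : σ y ≠ y
  hxy : x ≠ y
  hxy' : x ≠ σ y

variable {σ}

theorem Pl.symm {x y : K} (P : Pl σ x y) : Pl σ y x :=
  ⟨P.inv, P.hy, P.hx, P.hxy.symm, fun h => P.hxy' (by rw [h, P.inv])⟩

theorem Lx_eq_Mx (x y : K) (i j : Option K) : Lx σ x y i j = Mx σ y x j i := rfl

theorem bet_pt (x : K) {l0 l1 : K} (hl : l0 ≠ 0 ∨ l1 ≠ 0) : bt σ x (pt l0 l1) = bet σ x l0 l1 := by
  have h := bet_smul (σ := σ) (x := x) (sc_ne hl) (rp0 (pt l0 l1)) (rp1 (pt l0 l1))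
  rw [← sc_rp0, ← sc_rp1] at h
  exact h.symm

theorem gam_pt (x : K) {l0 l1 : K} (hl : l0 ≠ 0 ∨ l1 ≠ 0) : gm σ x (pt l0 l1) = gam σ x l0 l1 := by
  have h := gam_smul (σ := σ) (x := x) (sc_ne hl) (rp0 (pt l0 l1)) (rp1 (pt l0 l1))
  rw [← sc_rp0, ← sc_rp1] at h
  exact h.symm

namespace Pl

variable {x y : K}

theorem dt_ne (P : Pl σ x y) (j : Option K) : dt σ x (bt σ y j) (gm σ y j) ≠ 0 :=
  dt_be_ne P.inv P.hy P.hxy P.hxy' (rp_ne j)

theorem dt_eq (P : Pl σ x y) (j : Option K) :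
    dt σ x (bt σ y j) (gm σ y j) = (x - y) * (x - σ y) / (y * σ y) :=
  dt_be P.inv P.hy (rp_ne j) x

theorem v_ne (P : Pl σ x y) (i j : Option K) :
    v0 σ x y i j ≠ 0 ∨ v1 σ x y i j ≠ 0 := act_ne (P.dt_ne j) (rp_ne i)

/-- **The square relation in label form.** -/
theorem same (P : Pl σ x y) (i j : Option K) :
    SameProd σ (bt σ x i) (gm σ x i) (bt σ y (Mx σ x y i j)) (gm σ y (Mx σ x y i j))
      (bt σ y j) (gm σ y j) (bt σ x (Lx σ x y i j)) (gm σ x (Lx σ x y i j)) := by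
  rw [Mx, Lx, bet_pt _ (P.v_ne i j), gam_pt _ (P.v_ne i j), bet_pt _ (P.symm.v_ne j i),
    gam_pt _ (P.symm.v_ne j i)]
  exact comm4 P.inv P.hx P.hy P.hxy P.hxy' (rp_ne i) (rp_ne j) rfl rfl rfl rfl rfl rfl rfl rfl
    rfl rfl rfl rfl

/-- the square relation in a ring -/
theorem el_comm (P : Pl σ x y) {R : Type*} [Ring R] {ι : K →+* R} {τ : R}
    (hτ : ∀ a, τ * ι a = ι (σ a) * τ) (i j : Option K) :
    el ι τ (bt σ x i) (gm σ x i) * el ι τ (bt σ y (Mx σ x y i j)) (gm σ y (Mx σ x y i j)) =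
      el ι τ (bt σ y j) (gm σ y j) * el ι τ (bt σ x (Lx σ x y i j)) (gm σ x (Lx σ x y i j)) := by
  obtain ⟨c1, c2, c3, c4⟩ := P.same i j
  rw [el_mul hτ P.inv, el_mul hτ P.inv, c1, c2, c3, c4]

theorem L_inj (P : Pl σ x y) (j : Option K) : Function.Injective (fun i => Lx σ x y i j) := by
  intro i i' h
  have h1 := par_of_pt (h : pt (v0 σ x y i j) (v1 σ x y i j) = pt (v0 σ x y i' j) (v1 σ x y i' j))
  have h2 := det_act (σ := σ) x (bt σ y j) (gm σ y j) (rp0 i) (rp1 i) (rp0 i') (rp1 i')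
  have h3 : dt σ x (bt σ y j) (gm σ y j) * (rp0 i * rp1 i' - rp1 i * rp0 i') = 0 := by
    rw [← h2]
    simp only [v0, v1] at h1
    linear_combination h1
  have h4 := (mul_eq_zero.1 h3).resolve_left (P.dt_ne j)
  have := pt_of_par (rp_ne i) (rp_ne i') (sub_eq_zero.1 h4)
  rwa [pt_rp, pt_rp] at this

theorem M_inj (P : Pl σ x y) (i : Option K) : Function.Injective (Mx σ x y i) := P.symm.L_inj i

/-- the odd vector is transported linearly along the `y`-edges -/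
theorem od_v (P : Pl σ x y) (i j : Option K) :
    dt σ x (bt σ y j) (gm σ y j) * od0 σ x (v0 σ x y i j) (v1 σ x y i j) =
      ac0 σ x (bt σ y (Mx σ x y i j)) (gm σ y (Mx σ x y i j)) (od0 σ x (rp0 i) (rp1 i))
        (od1 σ x (rp0 i) (rp1 i)) ∧
    dt σ x (bt σ y j) (gm σ y j) * od1 σ x (v0 σ x y i j) (v1 σ x y i j) =
      ac1 σ x (bt σ y (Mx σ x y i j)) (gm σ y (Mx σ x y i j)) (od0 σ x (rp0 i) (rp1 i))
        (od1 σ x (rp0 i) (rp1 i)) := by
  refine od_act P.inv P.hx (rp_ne i) (P.dt_ne j) rfl rfl ?_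
  have h := P.same i j
  rw [Lx, bet_pt _ (P.v_ne i j), gam_pt _ (P.v_ne i j)] at h
  obtain ⟨c1, c2, c3, c4⟩ := h
  exact ⟨c1.symm, c2.symm, c3.symm, c4.symm⟩

theorem LM_inj (P : Pl σ x y) :
    Function.Injective (fun p : Option K × Option K => (Lx σ x y p.1 p.2, Mx σ x y p.1 p.2)) := by
  rintro ⟨i, j⟩ ⟨i', j'⟩ h
  simp only [Prod.mk.injEq] at h
  obtain ⟨hL, hM⟩ := h
  have hpar := par_of_pt (show pt (v0 σ x y i j) (v1 σ x y i j) =
    pt (v0 σ x y i' j') (v1 σ x y i' j') from hL)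
  have hod : od0 σ x (v0 σ x y i j) (v1 σ x y i j) * od1 σ x (v0 σ x y i' j') (v1 σ x y i' j') =
      od1 σ x (v0 σ x y i j) (v1 σ x y i j) * od0 σ x (v0 σ x y i' j') (v1 σ x y i' j') := by
    have a0 := sc_rp0 (v0 σ x y i j) (v1 σ x y i j)
    have a1 := sc_rp1 (v0 σ x y i j) (v1 σ x y i j)
    have b0 := sc_rp0 (v0 σ x y i' j') (v1 σ x y i' j')
    have b1 := sc_rp1 (v0 σ x y i' j') (v1 σ x y i' j')
    have ha := sc_ne (P.v_ne i j)
    have hb := sc_ne (P.v_ne i' j')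
    have hL' : pt (v0 σ x y i' j') (v1 σ x y i' j') = pt (v0 σ x y i j) (v1 σ x y i j) := hL.symm
    rw [hL'] at b0 b1
    have e0 := od0_smul (σ := σ) (x := x) ha (rp0 (pt (v0 σ x y i j) (v1 σ x y i j)))
      (rp1 (pt (v0 σ x y i j) (v1 σ x y i j)))
    have e1 := od1_smul (σ := σ) (x := x) ha (rp0 (pt (v0 σ x y i j) (v1 σ x y i j)))
      (rp1 (pt (v0 σ x y i j) (v1 σ x y i j)))
    have f0 := od0_smul (σ := σ) (x := x) hb (rp0 (pt (v0 σ x y i j) (v1 σ x y i j)))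
      (rp1 (pt (v0 σ x y i j) (v1 σ x y i j)))
    have f1 := od1_smul (σ := σ) (x := x) hb (rp0 (pt (v0 σ x y i j) (v1 σ x y i j)))
      (rp1 (pt (v0 σ x y i j) (v1 σ x y i j)))
    rw [← a0, ← a1] at e0 e1
    rw [← b0, ← b1] at f0 f1
    rw [e0, e1, f0, f1]
    ring
  obtain ⟨p0, p1⟩ := P.od_v i j
  obtain ⟨q0, q1⟩ := P.od_v i' j'
  rw [← hM] at q0 q1
  rw [P.dt_eq] at p0 p1 q0 q1
  have hd := det_act (σ := σ) x (bt σ y (Mx σ x y i j)) (gm σ y (Mx σ x y i j))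
    (od0 σ x (rp0 i) (rp1 i)) (od1 σ x (rp0 i) (rp1 i))
    (od0 σ x (rp0 i') (rp1 i')) (od1 σ x (rp0 i') (rp1 i'))
  rw [← p0, ← p1, ← q0, ← q1] at hd
  have hz : dt σ x (bt σ y (Mx σ x y i j)) (gm σ y (Mx σ x y i j)) *
      (od0 σ x (rp0 i) (rp1 i) * od1 σ x (rp0 i') (rp1 i') -
        od1 σ x (rp0 i) (rp1 i) * od0 σ x (rp0 i') (rp1 i')) = 0 := by
    rw [← hd]
    linear_combination ((x - y) * (x - σ y) / (y * σ y)) ^ 2 * hod
  have h4 := (mul_eq_zero.1 hz).resolve_left (P.dt_ne _)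
  have h5 := par_of_od P.inv P.hx (rp_ne i) (rp_ne i') (sub_eq_zero.1 h4)
  have h6 := pt_of_par (rp_ne i) (rp_ne i') h5
  rw [pt_rp, pt_rp] at h6
  subst h6
  have h7 := P.M_inj i hM
  rw [h7]

section fin
variable [Finite K]

theorem L_bij (P : Pl σ x y) (j : Option K) : Function.Bijective (fun i => Lx σ x y i j) :=
  Finite.injective_iff_bijective.1 (P.L_inj j)

theorem M_bij (P : Pl σ x y) (i : Option K) : Function.Bijective (Mx σ x y i) :=
  Finite.injective_iff_bijective.1 (P.M_inj i)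

theorem LM_bij (P : Pl σ x y) :
    Function.Bijective (fun p : Option K × Option K => (Lx σ x y p.1 p.2, Mx σ x y p.1 p.2)) :=
  Finite.injective_iff_bijective.1 P.LM_inj

end fin

end Pl

end Crest.Agent.R289.TwoAlg591
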