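import Mathlib

/-!
Row 289, block B (helper591): two places in `K{τ}`.

Row vectors `(l0,l1)`, `l.a = (σ a l0, a l1)`, `l.τ = (-x l1, -l0)` at the place `x`.
`1 + b τ + g τ²` acts by `ac0, ac1`.  `be^x_l = 1 + bet τ + gam τ²` kills `l` at `x`.
Main results: `comm4` (`be^x_l be^y_{m.be_l} = be^y_m be^x_{l.be_m}`), the ring form `be_comm`,
the odd coordinate `od` and its linear transport `od_act`, injectivity of
`(l,m) ↦ (l.be_m, m.be_l)` on lines.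
-/

set_option autoImplicit false
set_option linter.unusedSectionVars false
set_option linter.unusedVariables false

namespace Crest.Agent.R289.TwoAlg591

variable {K : Type*} [Field K] (σ : K →+* K)

/-- norm -/
def nm (a : K) : K := a * σ a
def Q (x l0 l1 : K) : K := nm σ l0 - x * nm σ l1
def Qb (x l0 l1 : K) : K := nm σ l0 - σ x * nm σ l1
def rho (x l0 l1 : K) : K := Qb σ x l0 l1 / Q σ x l0 l1
def bet (x l0 l1 : K) : K := (x - σ x) / x * (l0 * σ l1 / Qb σ x l0 l1)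
def gam (x l0 l1 : K) : K := - rho σ x l0 l1 / σ x

/-- right action of `1 + b τ + g τ²` on row vectors at the place `x` -/
def ac0 (x b g l0 l1 : K) : K := l0 - x * b * l1 + x * σ g * l0
def ac1 (x b g l0 l1 : K) : K := l1 - σ b * l0 + x * g * l1

/-- determinant of the action = reduced norm at `x` -/
def dt (x b g : K) : K := (1 + x * σ g) * (1 + x * g) - x * (b * σ b)

variable {σ}

theorem nm_fix (hσ : ∀ a, σ (σ a) = a) (a : K) : σ (nm σ a) = nm σ a := by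
  simp only [nm, map_mul, hσ]; ring

theorem nm_eq_zero {a : K} (h : nm σ a = 0) : a = 0 := by
  rcases mul_eq_zero.1 h with h | h
  · exact h
  · exact (map_eq_zero σ).1 h

theorem sig_Q (hσ : ∀ a, σ (σ a) = a) (x l0 l1 : K) : σ (Q σ x l0 l1) = Qb σ x l0 l1 := by
  simp only [Q, Qb, map_sub, map_mul, nm_fix hσ]

theorem sig_Qb (hσ : ∀ a, σ (σ a) = a) (x l0 l1 : K) : σ (Qb σ x l0 l1) = Q σ x l0 l1 := by
  simp only [Q, Qb, map_sub, map_mul, nm_fix hσ, hσ]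

theorem Q_ne (hσ : ∀ a, σ (σ a) = a) {x : K} (hx : σ x ≠ x) {l0 l1 : K} (hl : l0 ≠ 0 ∨ l1 ≠ 0) :
    Q σ x l0 l1 ≠ 0 := by
  intro h
  have h1 : nm σ l0 = x * nm σ l1 := by
    have := h; rw [Q, sub_eq_zero] at this; exact this
  by_cases h2 : nm σ l1 = 0
  · rw [h2, mul_zero] at h1
    rcases hl with hl | hl
    · exact hl (nm_eq_zero h1)
    · exact hl (nm_eq_zero h2)
  · apply hx
    have h3 : σ x * nm σ l1 = x * nm σ l1 := by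
      rw [← h1, ← nm_fix hσ l0, h1, map_mul, nm_fix hσ]
    exact mul_right_cancel₀ h2 h3

theorem Qb_ne (hσ : ∀ a, σ (σ a) = a) {x : K} (hx : σ x ≠ x) {l0 l1 : K} (hl : l0 ≠ 0 ∨ l1 ≠ 0) :
    Qb σ x l0 l1 ≠ 0 := by
  rw [← sig_Q hσ]
  exact (map_ne_zero σ).2 (Q_ne hσ hx hl)

theorem x_ne {x : K} (hx : σ x ≠ x) : x ≠ 0 := by
  rintro rfl; exact hx (map_zero σ)

theorem sx_ne {x : K} (hx : σ x ≠ x) : σ x ≠ 0 := (map_ne_zero σ).2 (x_ne hx)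

theorem sig_bet (hσ : ∀ a, σ (σ a) = a) (x l0 l1 : K) :
    σ (bet σ x l0 l1) = (σ x - x) / σ x * (σ l0 * l1 / Q σ x l0 l1) := by
  simp only [bet, map_mul, map_div₀, map_sub, hσ, sig_Qb hσ]

theorem sig_gam (hσ : ∀ a, σ (σ a) = a) (x l0 l1 : K) :
    σ (gam σ x l0 l1) = - (Q σ x l0 l1 / Qb σ x l0 l1) / x := by
  simp only [gam, rho, map_div₀, map_neg, hσ, sig_Q hσ, sig_Qb hσ]

/-- the odd coordinate -/
def od0 (σ : K →+* K) (x l0 l1 : K) : K := σ l1 / Qb σ x l0 l1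
def od1 (σ : K →+* K) (x l0 l1 : K) : K := σ l0 / (σ x * Q σ x l0 l1)

/-- `be_l` has rank one at `x` -/
theorem rank1_0 (hσ : ∀ a, σ (σ a) = a) {x : K} (hx : σ x ≠ x) {l0 l1 : K} (hl : l0 ≠ 0 ∨ l1 ≠ 0)
    (v0 v1 : K) : ac0 σ x (bet σ x l0 l1) (gam σ x l0 l1) v0 v1 =
      -(x - σ x) * (l0 * v1 - l1 * v0) * od0 σ x l0 l1 := by
  have h1 := Q_ne hσ hx hl
  have h2 := Qb_ne hσ hx hl
  have h3 := x_ne hx
  have h4 := sx_ne hx
  simp only [ac0, od0, sig_gam hσ]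
  rw [bet]
  field_simp
  simp only [Q, Qb, nm]
  ring

theorem rank1_1 (hσ : ∀ a, σ (σ a) = a) {x : K} (hx : σ x ≠ x) {l0 l1 : K} (hl : l0 ≠ 0 ∨ l1 ≠ 0)
    (v0 v1 : K) : ac1 σ x (bet σ x l0 l1) (gam σ x l0 l1) v0 v1 =
      -(x - σ x) * (l0 * v1 - l1 * v0) * od1 σ x l0 l1 := by
  have h1 := Q_ne hσ hx hl
  have h2 := Qb_ne hσ hx hl
  have h3 := x_ne hx
  have h4 := sx_ne hx
  simp only [ac1, od1, sig_bet hσ]
  rw [gam, rho]
  field_simp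
  simp only [Q, Qb, nm]
  ring

theorem kill0 (hσ : ∀ a, σ (σ a) = a) {x : K} (hx : σ x ≠ x) {l0 l1 : K} (hl : l0 ≠ 0 ∨ l1 ≠ 0) :
    ac0 σ x (bet σ x l0 l1) (gam σ x l0 l1) l0 l1 = 0 := by
  rw [rank1_0 hσ hx hl]; ring

theorem kill1 (hσ : ∀ a, σ (σ a) = a) {x : K} (hx : σ x ≠ x) {l0 l1 : K} (hl : l0 ≠ 0 ∨ l1 ≠ 0) :
    ac1 σ x (bet σ x l0 l1) (gam σ x l0 l1) l0 l1 = 0 := by
  rw [rank1_1 hσ hx hl]; ring

/-! ### composition -/

/-- action of `1 + c1 τ + c2 τ² + c3 τ³ + c4 τ⁴` -/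
def A0 (σ : K →+* K) (x c1 c2 c3 c4 l0 l1 : K) : K :=
  l0 - x * c1 * l1 + x * σ c2 * l0 - x ^ 2 * c3 * l1 + x ^ 2 * σ c4 * l0
def A1 (σ : K →+* K) (x c1 c2 c3 c4 l0 l1 : K) : K :=
  l1 - σ c1 * l0 + x * c2 * l1 - x * σ c3 * l0 + x ^ 2 * c4 * l1

theorem comp0 (hσ : ∀ a, σ (σ a) = a) (x b1 g1 b2 g2 l0 l1 : K) :
    ac0 σ x b2 g2 (ac0 σ x b1 g1 l0 l1) (ac1 σ x b1 g1 l0 l1) =
      A0 σ x (b1 + b2) (g1 + b1 * σ b2 + g2) (g1 * b2 + b1 * σ g2) (g1 * g2) l0 l1 := by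
  simp only [ac0, ac1, A0, map_add, map_mul, hσ]
  ring

theorem comp1 (hσ : ∀ a, σ (σ a) = a) (x b1 g1 b2 g2 l0 l1 : K) :
    ac1 σ x b2 g2 (ac0 σ x b1 g1 l0 l1) (ac1 σ x b1 g1 l0 l1) =
      A1 σ x (b1 + b2) (g1 + b1 * σ b2 + g2) (g1 * b2 + b1 * σ g2) (g1 * g2) l0 l1 := by
  simp only [ac0, ac1, A1, map_add, map_mul, hσ]
  ring

/-- the action multiplies the determinant -/
theorem det_act (x b g l0 l1 v0 v1 : K) :
    ac0 σ x b g l0 l1 * ac1 σ x b g v0 v1 - ac1 σ x b g l0 l1 * ac0 σ x b g v0 v1 =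
      dt σ x b g * (l0 * v1 - l1 * v0) := by
  simp only [ac0, ac1, dt]
  ring

/-- the action of an element of non-zero norm is injective -/
theorem act_ne {x b g l0 l1 : K} (hd : dt σ x b g ≠ 0) (hl : l0 ≠ 0 ∨ l1 ≠ 0) :
    ac0 σ x b g l0 l1 ≠ 0 ∨ ac1 σ x b g l0 l1 ≠ 0 := by
  by_contra h
  push Not at h
  have h1 := det_act (σ := σ) x b g l0 l1 0 1
  have h2 := det_act (σ := σ) x b g l0 l1 1 0
  rw [h.1, h.2] at h1 h2
  simp only [zero_mul, sub_zero, mul_one, mul_zero, zero_sub] at h1 h2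
  rcases hl with hl | hl
  · exact mul_ne_zero hd hl h1.symm
  · exact mul_ne_zero hd (neg_ne_zero.2 hl) h2.symm

/-- norm of `be_m` at another place -/
theorem dt_be (hσ : ∀ a, σ (σ a) = a) {y : K} (hy : σ y ≠ y) {m0 m1 : K} (hm : m0 ≠ 0 ∨ m1 ≠ 0)
    (x : K) : dt σ x (bet σ y m0 m1) (gam σ y m0 m1) = (x - y) * (x - σ y) / (y * σ y) := by
  have h1 := Q_ne hσ hy hm
  have h2 := Qb_ne hσ hy hm
  have h3 := x_ne hy
  have h4 := sx_ne hy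
  rw [dt, sig_gam hσ, sig_bet hσ, gam, rho, bet]
  field_simp
  simp only [Q, Qb, nm]
  ring

theorem dt_be_ne (hσ : ∀ a, σ (σ a) = a) {x y : K} (hy : σ y ≠ y) (hxy : x ≠ y) (hxy' : x ≠ σ y)
    {m0 m1 : K} (hm : m0 ≠ 0 ∨ m1 ≠ 0) : dt σ x (bet σ y m0 m1) (gam σ y m0 m1) ≠ 0 := by
  rw [dt_be hσ hy hm]
  exact div_ne_zero (mul_ne_zero (sub_ne_zero.2 hxy) (sub_ne_zero.2 hxy'))
    (mul_ne_zero (x_ne hy) (sx_ne hy))

/-! ### the uniqueness lemma -/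

theorem cubic_zero {n0 n1 n2 n3 a b c d : K} (hab : a ≠ b) (hac : a ≠ c) (had : a ≠ d)
    (hbc : b ≠ c) (hbd : b ≠ d) (hcd : c ≠ d)
    (ha : n0 + n1 * a + n2 * a ^ 2 + n3 * a ^ 3 = 0)
    (hb : n0 + n1 * b + n2 * b ^ 2 + n3 * b ^ 3 = 0)
    (hc : n0 + n1 * c + n2 * c ^ 2 + n3 * c ^ 3 = 0)
    (hd : n0 + n1 * d + n2 * d ^ 2 + n3 * d ^ 3 = 0) : n0 = 0 ∧ n1 = 0 ∧ n2 = 0 ∧ n3 = 0 := by
  have e1 : n1 + n2 * (a + b) + n3 * (a ^ 2 + a * b + b ^ 2) = 0 := by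
    apply mul_left_cancel₀ (sub_ne_zero.2 hab)
    linear_combination ha - hb
  have e2 : n1 + n2 * (a + c) + n3 * (a ^ 2 + a * c + c ^ 2) = 0 := by
    apply mul_left_cancel₀ (sub_ne_zero.2 hac)
    linear_combination ha - hc
  have e3 : n1 + n2 * (a + d) + n3 * (a ^ 2 + a * d + d ^ 2) = 0 := by
    apply mul_left_cancel₀ (sub_ne_zero.2 had)
    linear_combination ha - hd
  have f1 : n2 + n3 * (a + b + c) = 0 := by
    apply mul_left_cancel₀ (sub_ne_zero.2 hbc)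
    linear_combination e1 - e2
  have f2 : n2 + n3 * (a + b + d) = 0 := by
    apply mul_left_cancel₀ (sub_ne_zero.2 hbd)
    linear_combination e1 - e3
  have g1 : n3 = 0 := by
    apply mul_left_cancel₀ (sub_ne_zero.2 hcd)
    linear_combination f1 - f2
  subst g1
  have h2 : n2 = 0 := by linear_combination f1
  subst h2
  have h3 : n1 = 0 := by linear_combination e1
  subst h3
  refine ⟨by linear_combination ha, rfl, rfl, rfl⟩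

/-- a cubic killing a vector at `x` has norm zero at `x` -/
theorem norm_zero {x d0 d1 d2 d3 l0 l1 : K} (hl : l0 ≠ 0 ∨ l1 ≠ 0)
    (h0 : σ d0 * l0 - x * d1 * l1 + x * σ d2 * l0 - x ^ 2 * d3 * l1 = 0)
    (h1 : d0 * l1 - σ d1 * l0 + x * d2 * l1 - x * σ d3 * l0 = 0) :
    d0 * σ d0 + (d0 * σ d2 + d2 * σ d0 - d1 * σ d1) * x +
      (d2 * σ d2 - d1 * σ d3 - d3 * σ d1) * x ^ 2 + (- (d3 * σ d3)) * x ^ 3 = 0 := by
  rcases hl with hl | hl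
  · apply mul_right_cancel₀ hl
    linear_combination (d0 + x * d2) * h0 + x * (d1 + x * d3) * h1
  · apply mul_right_cancel₀ hl
    linear_combination (σ d0 + x * σ d2) * h1 + (σ d1 + x * σ d3) * h0

theorem uniq (hσ : ∀ a, σ (σ a) = a) {x y : K} (hx : σ x ≠ x) (hy : σ y ≠ y) (hxy : x ≠ y)
    (hxy' : x ≠ σ y) {d0 d1 d2 d3 l0 l1 m0 m1 : K} (hl : l0 ≠ 0 ∨ l1 ≠ 0) (hm : m0 ≠ 0 ∨ m1 ≠ 0)
    (h0 : σ d0 * l0 - x * d1 * l1 + x * σ d2 * l0 - x ^ 2 * d3 * l1 = 0)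
    (h1 : d0 * l1 - σ d1 * l0 + x * d2 * l1 - x * σ d3 * l0 = 0)
    (k0 : σ d0 * m0 - y * d1 * m1 + y * σ d2 * m0 - y ^ 2 * d3 * m1 = 0)
    (k1 : d0 * m1 - σ d1 * m0 + y * d2 * m1 - y * σ d3 * m0 = 0) :
    d0 = 0 ∧ d1 = 0 ∧ d2 = 0 ∧ d3 = 0 := by
  have px := norm_zero hl h0 h1
  have py := norm_zero hm k0 k1
  have sx := congrArg σ px
  have sy := congrArg σ py
  simp only [map_add, map_mul, map_sub, map_neg, map_pow, hσ, map_zero] at sx sy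
  have hsxy : σ x ≠ y := fun h => hxy' (by rw [← h, hσ])
  have hsxsy : σ x ≠ σ y := fun h => hxy (σ.injective h)
  obtain ⟨a0, a1, a2, a3⟩ := cubic_zero (a := x) (b := σ x) (c := y) (d := σ y) hx.symm hxy hxy'
    hsxy hsxsy hy.symm px (by linear_combination sx) py (by linear_combination sy)
  have z3 : d3 = 0 := nm_eq_zero (σ := σ) (by rw [nm]; linear_combination -a3)
  subst z3
  simp only [map_zero, mul_zero, zero_mul, sub_zero] at a2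
  have z2 : d2 = 0 := nm_eq_zero (σ := σ) a2
  subst z2
  simp only [map_zero, mul_zero, zero_mul, add_zero, zero_sub] at a1
  have z1 : d1 = 0 := nm_eq_zero (σ := σ) (by rw [nm]; linear_combination -a1)
  exact ⟨nm_eq_zero (σ := σ) a0, z1, rfl, rfl⟩

/-! ### the square relation -/

/-- **Unique factorisation, coefficient form.** -/
theorem comm4 (hσ : ∀ a, σ (σ a) = a) {x y : K} (hx : σ x ≠ x) (hy : σ y ≠ y) (hxy : x ≠ y)
    (hxy' : x ≠ σ y) {l0 l1 m0 m1 : K} (hl : l0 ≠ 0 ∨ l1 ≠ 0) (hm : m0 ≠ 0 ∨ m1 ≠ 0)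
    {b1 g1 b2 g2 b1' g1' b2' g2' l0' l1' m0' m1' : K}
    (eb1 : b1 = bet σ x l0 l1) (eg1 : g1 = gam σ x l0 l1)
    (eb2 : b2 = bet σ y m0 m1) (eg2 : g2 = gam σ y m0 m1)
    (el0 : l0' = ac0 σ x b2 g2 l0 l1) (el1 : l1' = ac1 σ x b2 g2 l0 l1)
    (em0 : m0' = ac0 σ y b1 g1 m0 m1) (em1 : m1' = ac1 σ y b1 g1 m0 m1)
    (eb1' : b1' = bet σ x l0' l1') (eg1' : g1' = gam σ x l0' l1')
    (eb2' : b2' = bet σ y m0' m1') (eg2' : g2' = gam σ y m0' m1') :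
    b1 + b2' = b2 + b1' ∧
    g1 + b1 * σ b2' + g2' = g2 + b2 * σ b1' + g1' ∧
    g1 * b2' + b1 * σ g2' = g2 * b1' + b2 * σ g1' ∧
    g1 * g2' = g2 * g1' := by
  have hyx : y ≠ x := hxy.symm
  have hyx' : y ≠ σ x := fun h => hxy' (by rw [h, hσ])
  have hl' : l0' ≠ 0 ∨ l1' ≠ 0 := by
    rw [el0, el1]; refine act_ne ?_ hl
    rw [eb2, eg2]; exact dt_be_ne hσ hy hxy hxy' hm
  have hm' : m0' ≠ 0 ∨ m1' ≠ 0 := by
    rw [em0, em1]; refine act_ne ?_ hm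
    rw [eb1, eg1]; exact dt_be_ne hσ hx hyx hyx' hl
  -- both products kill l at x
  have p0 : A0 σ x (b1 + b2') (g1 + b1 * σ b2' + g2') (g1 * b2' + b1 * σ g2') (g1 * g2') l0 l1 = 0 := by
    rw [← comp0 hσ, eb1, eg1, kill0 hσ hx hl, kill1 hσ hx hl]; simp [ac0]
  have p1 : A1 σ x (b1 + b2') (g1 + b1 * σ b2' + g2') (g1 * b2' + b1 * σ g2') (g1 * g2') l0 l1 = 0 := by
    rw [← comp1 hσ, eb1, eg1, kill0 hσ hx hl, kill1 hσ hx hl]; simp [ac1]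
  have r0 : A0 σ x (b2 + b1') (g2 + b2 * σ b1' + g1') (g2 * b1' + b2 * σ g1') (g2 * g1') l0 l1 = 0 := by
    rw [← comp0 hσ, ← el0, ← el1, eb1', eg1', kill0 hσ hx hl']
  have r1 : A1 σ x (b2 + b1') (g2 + b2 * σ b1' + g1') (g2 * b1' + b2 * σ g1') (g2 * g1') l0 l1 = 0 := by
    rw [← comp1 hσ, ← el0, ← el1, eb1', eg1', kill1 hσ hx hl']
  have q0 : A0 σ y (b1 + b2') (g1 + b1 * σ b2' + g2') (g1 * b2' + b1 * σ g2') (g1 * g2') m0 m1 = 0 := by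
    rw [← comp0 hσ, ← em0, ← em1, eb2', eg2', kill0 hσ hy hm']
  have q1 : A1 σ y (b1 + b2') (g1 + b1 * σ b2' + g2') (g1 * b2' + b1 * σ g2') (g1 * g2') m0 m1 = 0 := by
    rw [← comp1 hσ, ← em0, ← em1, eb2', eg2', kill1 hσ hy hm']
  have s0 : A0 σ y (b2 + b1') (g2 + b2 * σ b1' + g1') (g2 * b1' + b2 * σ g1') (g2 * g1') m0 m1 = 0 := by
    rw [← comp0 hσ, eb2, eg2, kill0 hσ hy hm, kill1 hσ hy hm]; simp [ac0]
  have s1 : A1 σ y (b2 + b1') (g2 + b2 * σ b1' + g1') (g2 * b1' + b2 * σ g1') (g2 * g1') m0 m1 = 0 := by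
    rw [← comp1 hσ, eb2, eg2, kill0 hσ hy hm, kill1 hσ hy hm]; simp [ac1]
  set e1 := (b1 + b2') - (b2 + b1') with he1
  set e2 := (g1 + b1 * σ b2' + g2') - (g2 + b2 * σ b1' + g1') with he2
  set e3 := (g1 * b2' + b1 * σ g2') - (g2 * b1' + b2 * σ g1') with he3
  set e4 := (g1 * g2') - (g2 * g1') with he4
  have t0 : - x * e1 * l1 + x * σ e2 * l0 - x ^ 2 * e3 * l1 + x ^ 2 * σ e4 * l0 = 0 := by
    have := p0.trans r0.symm
    rw [he1, he2, he3, he4]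
    simp only [A0] at this
    simp only [map_sub]
    linear_combination this
  have t1 : - σ e1 * l0 + x * e2 * l1 - x * σ e3 * l0 + x ^ 2 * e4 * l1 = 0 := by
    have := p1.trans r1.symm
    rw [he1, he2, he3, he4]
    simp only [A1] at this
    simp only [map_sub]
    linear_combination this
  have u0 : - y * e1 * m1 + y * σ e2 * m0 - y ^ 2 * e3 * m1 + y ^ 2 * σ e4 * m0 = 0 := by
    have := q0.trans s0.symm
    rw [he1, he2, he3, he4]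
    simp only [A0] at this
    simp only [map_sub]
    linear_combination this
  have u1 : - σ e1 * m0 + y * e2 * m1 - y * σ e3 * m0 + y ^ 2 * e4 * m1 = 0 := by
    have := q1.trans s1.symm
    rw [he1, he2, he3, he4]
    simp only [A1] at this
    simp only [map_sub]
    linear_combination this
  have w0 : e1 * l1 - σ e2 * l0 + x * e3 * l1 - x * σ e4 * l0 = 0 := by
    apply mul_left_cancel₀ (x_ne hx)
    linear_combination -t0
  have w1 : e1 * m1 - σ e2 * m0 + y * e3 * m1 - y * σ e4 * m0 = 0 := by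
    apply mul_left_cancel₀ (x_ne hy)
    linear_combination -u0
  obtain ⟨z1, z2, z3, z4⟩ := uniq hσ hx hy hxy hxy' (d0 := e1) (d1 := e2) (d2 := e3) (d3 := e4) hl hm
    (by linear_combination -t1) w0 (by linear_combination -u1) w1
  exact ⟨sub_eq_zero.1 z1, sub_eq_zero.1 z2, sub_eq_zero.1 z3, sub_eq_zero.1 z4⟩

/-! ### ring form -/

section ring
variable {R : Type*} [Ring R] (ι : K →+* R) (τ : R)

/-- `1 + b τ + g τ²` in the ring -/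
def el (b g : K) : R := 1 + ι b * τ + ι g * τ ^ 2

variable {ι τ}

theorem el_mul (hτ : ∀ a, τ * ι a = ι (σ a) * τ) (hσ : ∀ a, σ (σ a) = a) (b1 g1 b2 g2 : K) :
    el ι τ b1 g1 * el ι τ b2 g2 = 1 + ι (b1 + b2) * τ + ι (g1 + b1 * σ b2 + g2) * τ ^ 2 +
      ι (g1 * b2 + b1 * σ g2) * τ ^ 3 + ι (g1 * g2) * τ ^ 4 := by
  have h2 : ∀ a, τ ^ 2 * ι a = ι a * τ ^ 2 := by
    intro a
    rw [pow_two, mul_assoc, hτ, ← mul_assoc, hτ, hσ, mul_assoc]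
  simp only [el, map_add, map_mul]
  have e1 : (ι b1 * τ) * (ι b2 * τ) = ι b1 * ι (σ b2) * τ ^ 2 := by
    rw [mul_assoc, ← mul_assoc τ, hτ, mul_assoc, ← pow_two, mul_assoc]
  have e2 : (ι b1 * τ) * (ι g2 * τ ^ 2) = ι b1 * ι (σ g2) * τ ^ 3 := by
    rw [mul_assoc, ← mul_assoc τ, hτ, mul_assoc, ← pow_succ', mul_assoc]
  have e3 : (ι g1 * τ ^ 2) * (ι b2 * τ) = ι g1 * ι b2 * τ ^ 3 := by
    rw [mul_assoc, ← mul_assoc (τ ^ 2), h2, mul_assoc, ← pow_succ, mul_assoc]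
  have e4 : (ι g1 * τ ^ 2) * (ι g2 * τ ^ 2) = ι g1 * ι g2 * τ ^ 4 := by
    rw [mul_assoc, ← mul_assoc (τ ^ 2), h2, mul_assoc, ← pow_add, mul_assoc]
  simp only [add_mul, mul_add, one_mul, mul_one, e1, e2, e3, e4]
  abel

/-- **Unique factorisation, ring form**: `be^x_l be^y_{m.be_l} = be^y_m be^x_{l.be_m}`. -/
theorem be_comm (hτ : ∀ a, τ * ι a = ι (σ a) * τ) (hσ : ∀ a, σ (σ a) = a) {x y : K}
    (hx : σ x ≠ x) (hy : σ y ≠ y) (hxy : x ≠ y)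
    (hxy' : x ≠ σ y) {l0 l1 m0 m1 : K} (hl : l0 ≠ 0 ∨ l1 ≠ 0) (hm : m0 ≠ 0 ∨ m1 ≠ 0)
    {b1 g1 b2 g2 b1' g1' b2' g2' l0' l1' m0' m1' : K}
    (eb1 : b1 = bet σ x l0 l1) (eg1 : g1 = gam σ x l0 l1)
    (eb2 : b2 = bet σ y m0 m1) (eg2 : g2 = gam σ y m0 m1)
    (el0 : l0' = ac0 σ x b2 g2 l0 l1) (el1 : l1' = ac1 σ x b2 g2 l0 l1)
    (em0 : m0' = ac0 σ y b1 g1 m0 m1) (em1 : m1' = ac1 σ y b1 g1 m0 m1)
    (eb1' : b1' = bet σ x l0' l1') (eg1' : g1' = gam σ x l0' l1')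
    (eb2' : b2' = bet σ y m0' m1') (eg2' : g2' = gam σ y m0' m1') :
    el ι τ b1 g1 * el ι τ b2' g2' = el ι τ b2 g2 * el ι τ b1' g1' := by
  obtain ⟨c1, c2, c3, c4⟩ := comm4 hσ hx hy hxy hxy' hl hm eb1 eg1 eb2 eg2 el0 el1 em0 em1 eb1' eg1'
    eb2' eg2'
  rw [el_mul hτ hσ, el_mul hτ hσ, c1, c2, c3, c4]

end ring

end Crest.Agent.R289.TwoAlg591
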