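import Mathlib

/-!
Row 289, two-place object, scalar identities (helper82).

`be_l = 1 + bet_l τ + gam_l τ²` at the place `x`, `be_m` at the place `y` (622's normalisation).
With the linear label transports `m ↦ m*`, `l ↦ l*` we have `be^x_l * be^y_{m*} = be^y_m * be^x_{l*}`.
-/

set_option autoImplicit false
set_option linter.unusedSectionVars false
set_option linter.unusedVariables false
set_option linter.style.longLine false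

namespace Crest.Agent.R289.TwoComm82

section Poly

variable {R : Type*} [CommRing R]

/-- numerator of the transported `m0` -/
def M0 (x X y Y l0 k0 l1 k1 m0 n0 m1 n1 : R) : R :=
  m0 * (x * (l0 * k0 - X * (l1 * k1)) - y * (l0 * k0 - x * (l1 * k1))) - y * (x - X) * l0 * k1 * m1

/-- numerator of the transported `m1` -/
def M1 (x X y Y l0 k0 l1 k1 m0 n0 m1 n1 : R) : R :=
  m1 * (X * (l0 * k0 - x * (l1 * k1)) - y * (l0 * k0 - X * (l1 * k1))) + (x - X) * k0 * l1 * m0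

/-- conjugate of `M0` -/
def N0 (x X y Y l0 k0 l1 k1 m0 n0 m1 n1 : R) : R :=
  n0 * (X * (l0 * k0 - x * (l1 * k1)) - Y * (l0 * k0 - X * (l1 * k1))) - Y * (X - x) * k0 * l1 * n1

/-- conjugate of `M1` -/
def N1 (x X y Y l0 k0 l1 k1 m0 n0 m1 n1 : R) : R :=
  n1 * (x * (l0 * k0 - X * (l1 * k1)) - Y * (l0 * k0 - x * (l1 * k1))) + (X - x) * l0 * k1 * n0

/-- the symmetric form -/
def B (x X y Y l0 k0 l1 k1 m0 n0 m1 n1 : R) : R :=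
  (y - x) * (Y - X) * (l0 * k0) * (m0 * n0) - y * (x - Y) * (X - y) * (l0 * k0) * (m1 * n1)
    - x * (Y - x) * (y - X) * (l1 * k1) * (m0 * n0) + x * y * (x - y) * (X - Y) * (l1 * k1) * (m1 * n1)
    + y * (y - Y) * (X - x) * (l0 * k1) * (n0 * m1) + x * (y - Y) * (X - x) * (k0 * l1) * (m0 * n1)

/-- conjugate of `B` -/
def Bb (x X y Y l0 k0 l1 k1 m0 n0 m1 n1 : R) : R :=
  (Y - X) * (y - x) * (l0 * k0) * (m0 * n0) - Y * (X - y) * (x - Y) * (l0 * k0) * (m1 * n1)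
    - X * (y - X) * (Y - x) * (l1 * k1) * (m0 * n0) + X * Y * (X - Y) * (x - y) * (l1 * k1) * (m1 * n1)
    + Y * (Y - y) * (x - X) * (k0 * l1) * (m0 * n1) + X * (Y - y) * (x - X) * (l0 * k1) * (n0 * m1)

def U (x X y Y l0 k0 l1 k1 m0 n0 m1 n1 : R) : R :=
  l0 * k1 * ((x - X) * (y - x) * Y * (y - X) * (m0 * n0) - y ^ 2 * (x - X) * (x - Y) * (X - Y) * (m1 * n1))
    + m0 * n1 * ((y - Y) * (x - y) * X * (x - Y) * (l0 * k0) - x ^ 2 * (y - Y) * (y - X) * (Y - X) * (l1 * k1))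

def V (x X y Y l0 k0 l1 k1 m0 n0 m1 n1 : R) : R :=
  l0 * k1 * ((x - X) * (y - x) * (y - X) * (m0 * n0) - y * (x - X) * (x - Y) * (X - Y) * (m1 * n1))
    + m0 * n1 * ((y - Y) * (x - y) * (x - Y) * (l0 * k0) - x * (y - Y) * (y - X) * (Y - X) * (l1 * k1))

def W (x X y Y l0 k0 l1 k1 m0 n0 m1 n1 : R) : R :=
  -(X + Y) * (y - x) * (Y - X) * (l0 * k0) * (m0 * n0) + Y * (y + X) * (X - y) * (x - Y) * (l0 * k0) * (m1 * n1)
    + X * (x + Y) * (Y - x) * (y - X) * (l1 * k1) * (m0 * n0)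
    - X * Y * (x - y) * (X - Y) * (x + y) * (l1 * k1) * (m1 * n1)
    - X * (y + Y) * (y - Y) * (X - x) * (l0 * k1) * (n0 * m1)
    - Y * (x + X) * (y - Y) * (X - x) * (k0 * l1) * (m0 * n1)

variable (x X y Y l0 k0 l1 k1 m0 n0 m1 n1 : R)

theorem B_symm : B y Y x X m0 n0 m1 n1 l0 k0 l1 k1 = B x X y Y l0 k0 l1 k1 m0 n0 m1 n1 := by
  simp only [B]; ring

theorem Bb_symm : Bb y Y x X m0 n0 m1 n1 l0 k0 l1 k1 = Bb x X y Y l0 k0 l1 k1 m0 n0 m1 n1 := by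
  simp only [Bb]; ring

theorem U_symm : U y Y x X m0 n0 m1 n1 l0 k0 l1 k1 = U x X y Y l0 k0 l1 k1 m0 n0 m1 n1 := by
  simp only [U]; ring

theorem V_symm : V y Y x X m0 n0 m1 n1 l0 k0 l1 k1 = V x X y Y l0 k0 l1 k1 m0 n0 m1 n1 := by
  simp only [V]; ring

theorem W_symm : W y Y x X m0 n0 m1 n1 l0 k0 l1 k1 = W x X y Y l0 k0 l1 k1 m0 n0 m1 n1 := by
  simp only [W]; ring

theorem p1 : M0 x X y Y l0 k0 l1 k1 m0 n0 m1 n1 * N0 x X y Y l0 k0 l1 k1 m0 n0 m1 n1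
    - y * (M1 x X y Y l0 k0 l1 k1 m0 n0 m1 n1 * N1 x X y Y l0 k0 l1 k1 m0 n0 m1 n1)
    = (l0 * k0 - X * (l1 * k1)) * B x X y Y l0 k0 l1 k1 m0 n0 m1 n1 := by
  simp only [M0, N0, M1, N1, B]; ring

theorem p1b : M0 x X y Y l0 k0 l1 k1 m0 n0 m1 n1 * N0 x X y Y l0 k0 l1 k1 m0 n0 m1 n1
    - Y * (M1 x X y Y l0 k0 l1 k1 m0 n0 m1 n1 * N1 x X y Y l0 k0 l1 k1 m0 n0 m1 n1)
    = (l0 * k0 - x * (l1 * k1)) * Bb x X y Y l0 k0 l1 k1 m0 n0 m1 n1 := by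
  simp only [M0, N0, M1, N1, Bb]; ring

theorem p2 : y * (x - X) * l0 * k1 * Bb x X y Y l0 k0 l1 k1 m0 n0 m1 n1
    + X * (y - Y) * (M0 x X y Y l0 k0 l1 k1 m0 n0 m1 n1 * N1 x X y Y l0 k0 l1 k1 m0 n0 m1 n1)
    = (l0 * k0 - X * (l1 * k1)) * U x X y Y l0 k0 l1 k1 m0 n0 m1 n1 := by
  simp only [M0, N1, Bb, U]; ring

theorem p4 : (x - X) * l0 * k1 * B x X y Y l0 k0 l1 k1 m0 n0 m1 n1
    + (y - Y) * (M0 x X y Y l0 k0 l1 k1 m0 n0 m1 n1 * N1 x X y Y l0 k0 l1 k1 m0 n0 m1 n1)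
    = (l0 * k0 - x * (l1 * k1)) * V x X y Y l0 k0 l1 k1 m0 n0 m1 n1 := by
  simp only [M0, N1, B, V]; ring

theorem p3 : -(Y * (l0 * k0 - X * (l1 * k1)) ^ 2 * B x X y Y l0 k0 l1 k1 m0 n0 m1 n1)
    - X * (l0 * k0 - x * (l1 * k1)) ^ 2 * Bb x X y Y l0 k0 l1 k1 m0 n0 m1 n1
    + (x - X) * (Y - y) * l0 * k1 * (N0 x X y Y l0 k0 l1 k1 m0 n0 m1 n1 * M1 x X y Y l0 k0 l1 k1 m0 n0 m1 n1)
    = (l0 * k0 - x * (l1 * k1)) * (l0 * k0 - X * (l1 * k1)) * W x X y Y l0 k0 l1 k1 m0 n0 m1 n1 := by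
  simp only [N0, M1, B, Bb, W]; ring

theorem dt : (x * (l0 * k0 - X * (l1 * k1)) - y * (l0 * k0 - x * (l1 * k1)))
      * (X * (l0 * k0 - x * (l1 * k1)) - y * (l0 * k0 - X * (l1 * k1)))
    + y * (x - X) ^ 2 * (l0 * k0) * (l1 * k1)
    = (x - y) * (X - y) * (l0 * k0 - x * (l1 * k1)) * (l0 * k0 - X * (l1 * k1)) := by
  ring

end Poly

section FieldPart

variable {K : Type*} [Field K] (σ : K →+* K)

/-- `nm l0 - x nm l1` -/
def Q (x l0 l1 : K) : K := l0 * σ l0 - x * (l1 * σ l1)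

/-- `nm l0 - σ x nm l1` -/
def Qb (x l0 l1 : K) : K := l0 * σ l0 - σ x * (l1 * σ l1)

def bet (x l0 l1 : K) : K := (x - σ x) / x * (l0 * σ l1 / Qb σ x l0 l1)

def gam (x l0 l1 : K) : K := - (Qb σ x l0 l1 / Q σ x l0 l1) / σ x

/-- row `(y m1, -m0)` times the image of `1 + b τ + g τ²` at the place `y` -/
def st0 (y b g m0 m1 : K) : K := (1 + y * σ g) * m0 - y * b * m1

def st1 (y b g m0 m1 : K) : K := (1 + y * g) * m1 - σ b * m0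

variable {σ}

theorem sQ (hσ : ∀ a, σ (σ a) = a) (x l0 l1 : K) : σ (Q σ x l0 l1) = Qb σ x l0 l1 := by
  simp only [Q, Qb, map_sub, map_mul, hσ]; ring

theorem sQb (hσ : ∀ a, σ (σ a) = a) (x l0 l1 : K) : σ (Qb σ x l0 l1) = Q σ x l0 l1 := by
  simp only [Q, Qb, map_sub, map_mul, hσ]; ring

theorem Q_ne (hσ : ∀ a, σ (σ a) = a) {x l0 l1 : K} (hx : σ x ≠ x) (hl : l0 ≠ 0 ∨ l1 ≠ 0) :
    Q σ x l0 l1 ≠ 0 := by
  intro h
  have h2 : Qb σ x l0 l1 = 0 := by rw [← sQ hσ, h, map_zero]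
  have h3 : (σ x - x) * (l1 * σ l1) = 0 := by
    have : Q σ x l0 l1 - Qb σ x l0 l1 = 0 := by rw [h, h2]; ring
    rw [← this]; simp only [Q, Qb]; ring
  have h4 : l1 = 0 := by
    rcases mul_eq_zero.1 h3 with h5 | h5
    · exact absurd (sub_eq_zero.1 h5) hx
    · rcases mul_eq_zero.1 h5 with h6 | h6
      · exact h6
      · exact (map_eq_zero σ).1 h6
  subst h4
  have h5 : l0 * σ l0 = 0 := by simpa [Q] using h
  rcases mul_eq_zero.1 h5 with h6 | h6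
  · rcases hl with h7 | h7
    · exact h7 h6
    · exact h7 rfl
  · rcases hl with h7 | h7
    · exact h7 ((map_eq_zero σ).1 h6)
    · exact h7 rfl

theorem Qb_ne (hσ : ∀ a, σ (σ a) = a) {x l0 l1 : K} (hx : σ x ≠ x) (hl : l0 ≠ 0 ∨ l1 ≠ 0) :
    Qb σ x l0 l1 ≠ 0 := by
  intro h
  apply Q_ne hσ hx hl
  rw [← sQb hσ, h, map_zero]

theorem x_ne {x : K} (hx : σ x ≠ x) : x ≠ 0 := by
  rintro rfl
  exact hx (map_zero σ)

theorem sx_ne {x : K} (hx : σ x ≠ x) : σ x ≠ 0 := fun h => x_ne hx ((map_eq_zero σ).1 h)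

/-- norm identities: `be_l` has norm `X/X(0)` -/
theorem norm1 (hσ : ∀ a, σ (σ a) = a) {x l0 l1 : K} (hx : σ x ≠ x) (hl : l0 ≠ 0 ∨ l1 ≠ 0) :
    gam σ x l0 l1 * σ (gam σ x l0 l1) = 1 / (x * σ x) := by
  have h1 := Q_ne hσ hx hl
  have h2 := Qb_ne hσ hx hl
  have h3 := x_ne hx
  have h4 := sx_ne hx
  simp only [gam, map_div₀, map_neg, sQ hσ, sQb hσ, hσ]
  field_simp

theorem norm2 (hσ : ∀ a, σ (σ a) = a) {x l0 l1 : K} (hx : σ x ≠ x) (hl : l0 ≠ 0 ∨ l1 ≠ 0) :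
    gam σ x l0 l1 + σ (gam σ x l0 l1) - bet σ x l0 l1 * σ (bet σ x l0 l1)
      = -(1 / x + 1 / σ x) := by
  have h1 := Q_ne hσ hx hl
  have h2 := Qb_ne hσ hx hl
  have h3 := x_ne hx
  have h4 := sx_ne hx
  simp only [gam, bet, map_div₀, map_neg, map_mul, map_sub, sQ hσ, sQb hσ, hσ]
  field_simp
  simp only [Q, Qb]
  ring

section Star

variable (hσ : ∀ a, σ (σ a) = a) {x y l0 l1 m0 m1 : K} (hx : σ x ≠ x) (hl : l0 ≠ 0 ∨ l1 ≠ 0)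

include hσ hx hl

theorem st0_eq : st0 σ y (bet σ x l0 l1) (gam σ x l0 l1) m0 m1
    = M0 x (σ x) y (σ y) l0 (σ l0) l1 (σ l1) m0 (σ m0) m1 (σ m1) / (x * Qb σ x l0 l1) := by
  have h1 := Q_ne hσ hx hl
  have h2 := Qb_ne hσ hx hl
  have h3 := x_ne hx
  have h4 := sx_ne hx
  simp only [st0, gam, bet, map_div₀, map_neg, sQ hσ, sQb hσ, hσ]
  field_simp
  simp only [Q, Qb, M0]
  ring

theorem st1_eq : st1 σ y (bet σ x l0 l1) (gam σ x l0 l1) m0 m1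
    = M1 x (σ x) y (σ y) l0 (σ l0) l1 (σ l1) m0 (σ m0) m1 (σ m1) / (σ x * Q σ x l0 l1) := by
  have h1 := Q_ne hσ hx hl
  have h2 := Qb_ne hσ hx hl
  have h3 := x_ne hx
  have h4 := sx_ne hx
  simp only [st1, gam, bet, map_div₀, map_neg, map_mul, map_sub, sQ hσ, sQb hσ, hσ]
  field_simp
  simp only [Q, Qb, M1]
  ring

theorem sst0_eq : σ (st0 σ y (bet σ x l0 l1) (gam σ x l0 l1) m0 m1)
    = N0 x (σ x) y (σ y) l0 (σ l0) l1 (σ l1) m0 (σ m0) m1 (σ m1) / (σ x * Q σ x l0 l1) := by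
  rw [st0_eq hσ hx hl, map_div₀, map_mul, sQb hσ]
  congr 1
  simp only [M0, N0, map_sub, map_mul, hσ]
  ring

theorem sst1_eq : σ (st1 σ y (bet σ x l0 l1) (gam σ x l0 l1) m0 m1)
    = N1 x (σ x) y (σ y) l0 (σ l0) l1 (σ l1) m0 (σ m0) m1 (σ m1) / (x * Qb σ x l0 l1) := by
  rw [st1_eq hσ hx hl, map_div₀, map_mul, sQ hσ, hσ]
  congr 1
  simp only [M1, N1, map_add, map_sub, map_mul, hσ]
  ring

/-- the determinant of the transport -/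
theorem st_det : (1 + y * σ (gam σ x l0 l1)) * (1 + y * gam σ x l0 l1)
    - y * (bet σ x l0 l1 * σ (bet σ x l0 l1)) = (1 - y / x) * (1 - y / σ x) := by
  have h1 := norm1 hσ hx hl
  have h2 := norm2 hσ hx hl
  have h3 := x_ne hx
  have h4 := sx_ne hx
  have e : (1 + y * σ (gam σ x l0 l1)) * (1 + y * gam σ x l0 l1)
      - y * (bet σ x l0 l1 * σ (bet σ x l0 l1))
      = 1 + y * (gam σ x l0 l1 + σ (gam σ x l0 l1) - bet σ x l0 l1 * σ (bet σ x l0 l1))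
        + y ^ 2 * (gam σ x l0 l1 * σ (gam σ x l0 l1)) := by ring
  rw [e, h1, h2]
  field_simp
  ring

theorem det_ne (hxy : x ≠ y) (hxy' : σ x ≠ y) : (1 + y * σ (gam σ x l0 l1)) * (1 + y * gam σ x l0 l1)
    - y * (bet σ x l0 l1 * σ (bet σ x l0 l1)) ≠ 0 := by
  rw [st_det hσ hx hl]
  have h3 := x_ne hx
  have h4 := sx_ne hx
  apply mul_ne_zero
  · intro h
    apply hxy
    have h5 : y / x = 1 := (sub_eq_zero.1 h).symm
    rw [div_eq_one_iff_eq h3] at h5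
    exact h5.symm
  · intro h
    apply hxy'
    have h5 : y / σ x = 1 := (sub_eq_zero.1 h).symm
    rw [div_eq_one_iff_eq h4] at h5
    exact h5.symm

theorem st_ne (hxy : x ≠ y) (hxy' : σ x ≠ y) (hm : m0 ≠ 0 ∨ m1 ≠ 0) :
    st0 σ y (bet σ x l0 l1) (gam σ x l0 l1) m0 m1 ≠ 0 ∨
      st1 σ y (bet σ x l0 l1) (gam σ x l0 l1) m0 m1 ≠ 0 := by
  by_contra hc
  push Not at hc
  obtain ⟨c0, c1⟩ := hc
  have hd := det_ne (y := y) hσ hx hl hxy hxy'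
  simp only [st0] at c0
  simp only [st1] at c1
  set g := gam σ x l0 l1
  set b := bet σ x l0 l1
  have e0 : ((1 + y * σ g) * (1 + y * g) - y * (b * σ b)) * m0 = 0 := by
    have : ((1 + y * σ g) * (1 + y * g) - y * (b * σ b)) * m0
        = (1 + y * g) * ((1 + y * σ g) * m0 - y * b * m1) + y * b * ((1 + y * g) * m1 - σ b * m0) := by
      ring
    rw [this, c0, c1]; ring
  have e1 : ((1 + y * σ g) * (1 + y * g) - y * (b * σ b)) * m1 = 0 := by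
    have : ((1 + y * σ g) * (1 + y * g) - y * (b * σ b)) * m1
        = σ b * ((1 + y * σ g) * m0 - y * b * m1) + (1 + y * σ g) * ((1 + y * g) * m1 - σ b * m0) := by
      ring
    rw [this, c0, c1]; ring
  rcases hm with h | h
  · exact h ((mul_eq_zero.1 e0).resolve_left hd)
  · exact h ((mul_eq_zero.1 e1).resolve_left hd)

theorem Q_st : Q σ y (st0 σ y (bet σ x l0 l1) (gam σ x l0 l1) m0 m1)
      (st1 σ y (bet σ x l0 l1) (gam σ x l0 l1) m0 m1)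
    = B x (σ x) y (σ y) l0 (σ l0) l1 (σ l1) m0 (σ m0) m1 (σ m1) / (x * σ x * Q σ x l0 l1) := by
  have h1 := Q_ne hσ hx hl
  have h2 := Qb_ne hσ hx hl
  have h3 := x_ne hx
  have h4 := sx_ne hx
  have e := p1 x (σ x) y (σ y) l0 (σ l0) l1 (σ l1) m0 (σ m0) m1 (σ m1)
  rw [Q, sst0_eq hσ hx hl, sst1_eq hσ hx hl, st0_eq hσ hx hl, st1_eq hσ hx hl]
  rw [show (l0 * σ l0 - σ x * (l1 * σ l1)) = Qb σ x l0 l1 from rfl] at e
  field_simp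
  linear_combination e

theorem Qb_st : Qb σ y (st0 σ y (bet σ x l0 l1) (gam σ x l0 l1) m0 m1)
      (st1 σ y (bet σ x l0 l1) (gam σ x l0 l1) m0 m1)
    = Bb x (σ x) y (σ y) l0 (σ l0) l1 (σ l1) m0 (σ m0) m1 (σ m1) / (x * σ x * Qb σ x l0 l1) := by
  have h1 := Q_ne hσ hx hl
  have h2 := Qb_ne hσ hx hl
  have h3 := x_ne hx
  have h4 := sx_ne hx
  have e := p1b x (σ x) y (σ y) l0 (σ l0) l1 (σ l1) m0 (σ m0) m1 (σ m1)
  rw [Qb, sst0_eq hσ hx hl, sst1_eq hσ hx hl, st0_eq hσ hx hl, st1_eq hσ hx hl]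
  rw [show (l0 * σ l0 - x * (l1 * σ l1)) = Q σ x l0 l1 from rfl] at e
  field_simp
  linear_combination e

variable (hy : σ y ≠ y) (hxy : x ≠ y) (hxy' : σ x ≠ y) (hm : m0 ≠ 0 ∨ m1 ≠ 0)

include hy hxy hxy' hm

theorem B_ne : B x (σ x) y (σ y) l0 (σ l0) l1 (σ l1) m0 (σ m0) m1 (σ m1) ≠ 0 := by
  have h := Q_ne hσ hy (st_ne hσ hx hl hxy hxy' hm)
  rw [Q_st hσ hx hl] at h
  intro h0
  rw [h0, zero_div] at h
  exact h rfl

theorem Bb_ne : Bb x (σ x) y (σ y) l0 (σ l0) l1 (σ l1) m0 (σ m0) m1 (σ m1) ≠ 0 := by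
  have h := Qb_ne hσ hy (st_ne hσ hx hl hxy hxy' hm)
  rw [Qb_st hσ hx hl] at h
  intro h0
  rw [h0, zero_div] at h
  exact h rfl

theorem gam_st : gam σ y (st0 σ y (bet σ x l0 l1) (gam σ x l0 l1) m0 m1)
      (st1 σ y (bet σ x l0 l1) (gam σ x l0 l1) m0 m1)
    = -(Bb x (σ x) y (σ y) l0 (σ l0) l1 (σ l1) m0 (σ m0) m1 (σ m1) * Q σ x l0 l1
      / (B x (σ x) y (σ y) l0 (σ l0) l1 (σ l1) m0 (σ m0) m1 (σ m1) * Qb σ x l0 l1 * σ y)) := by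
  have h1 := Q_ne hσ hx hl
  have h2 := Qb_ne hσ hx hl
  have h3 := x_ne hx
  have h4 := sx_ne hx
  have h5 := B_ne hσ hx hl hy hxy hxy' hm
  have h6 := sx_ne hy
  rw [gam, Q_st hσ hx hl, Qb_st hσ hx hl]
  field_simp

theorem bet_st : bet σ y (st0 σ y (bet σ x l0 l1) (gam σ x l0 l1) m0 m1)
      (st1 σ y (bet σ x l0 l1) (gam σ x l0 l1) m0 m1)
    = (y - σ y) * σ x * (M0 x (σ x) y (σ y) l0 (σ l0) l1 (σ l1) m0 (σ m0) m1 (σ m1)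
        * N1 x (σ x) y (σ y) l0 (σ l0) l1 (σ l1) m0 (σ m0) m1 (σ m1))
      / (x * y * Qb σ x l0 l1 * Bb x (σ x) y (σ y) l0 (σ l0) l1 (σ l1) m0 (σ m0) m1 (σ m1)) := by
  have h1 := Q_ne hσ hx hl
  have h2 := Qb_ne hσ hx hl
  have h3 := x_ne hx
  have h4 := sx_ne hx
  have h5 := Bb_ne hσ hx hl hy hxy hxy' hm
  have h6 := x_ne hy
  rw [bet, Qb_st hσ hx hl, sst1_eq hσ hx hl, st0_eq hσ hx hl]
  field_simp

theorem c1 : bet σ x l0 l1 + bet σ y (st0 σ y (bet σ x l0 l1) (gam σ x l0 l1) m0 m1)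
      (st1 σ y (bet σ x l0 l1) (gam σ x l0 l1) m0 m1)
    = U x (σ x) y (σ y) l0 (σ l0) l1 (σ l1) m0 (σ m0) m1 (σ m1)
      / (x * y * Bb x (σ x) y (σ y) l0 (σ l0) l1 (σ l1) m0 (σ m0) m1 (σ m1)) := by
  have h2 := Qb_ne hσ hx hl
  have h3 := x_ne hx
  have h5 := Bb_ne hσ hx hl hy hxy hxy' hm
  have h6 := x_ne hy
  have e := p2 x (σ x) y (σ y) l0 (σ l0) l1 (σ l1) m0 (σ m0) m1 (σ m1)
  rw [bet_st hσ hx hl hy hxy hxy' hm, bet]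
  rw [show (l0 * σ l0 - σ x * (l1 * σ l1)) = Qb σ x l0 l1 from rfl] at e
  field_simp
  linear_combination e

theorem c4 : gam σ x l0 l1 * gam σ y (st0 σ y (bet σ x l0 l1) (gam σ x l0 l1) m0 m1)
      (st1 σ y (bet σ x l0 l1) (gam σ x l0 l1) m0 m1)
    = Bb x (σ x) y (σ y) l0 (σ l0) l1 (σ l1) m0 (σ m0) m1 (σ m1)
      / (σ x * σ y * B x (σ x) y (σ y) l0 (σ l0) l1 (σ l1) m0 (σ m0) m1 (σ m1)) := by
  have h1 := Q_ne hσ hx hl
  have h2 := Qb_ne hσ hx hl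
  have h4 := sx_ne hx
  have h5 := B_ne hσ hx hl hy hxy hxy' hm
  have h6 := sx_ne hy
  rw [gam_st hσ hx hl hy hxy hxy' hm, gam]
  field_simp

theorem c3 : bet σ x l0 l1 * σ (gam σ y (st0 σ y (bet σ x l0 l1) (gam σ x l0 l1) m0 m1)
      (st1 σ y (bet σ x l0 l1) (gam σ x l0 l1) m0 m1))
      + gam σ x l0 l1 * bet σ y (st0 σ y (bet σ x l0 l1) (gam σ x l0 l1) m0 m1)
      (st1 σ y (bet σ x l0 l1) (gam σ x l0 l1) m0 m1)
    = -(V x (σ x) y (σ y) l0 (σ l0) l1 (σ l1) m0 (σ m0) m1 (σ m1)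
      / (x * y * Bb x (σ x) y (σ y) l0 (σ l0) l1 (σ l1) m0 (σ m0) m1 (σ m1))) := by
  have h1 := Q_ne hσ hx hl
  have h2 := Qb_ne hσ hx hl
  have h3 := x_ne hx
  have h4 := sx_ne hx
  have h5 := B_ne hσ hx hl hy hxy hxy' hm
  have h5' := Bb_ne hσ hx hl hy hxy hxy' hm
  have h6 := x_ne hy
  have h7 := sx_ne hy
  have e := p4 x (σ x) y (σ y) l0 (σ l0) l1 (σ l1) m0 (σ m0) m1 (σ m1)
  have hB : σ (B x (σ x) y (σ y) l0 (σ l0) l1 (σ l1) m0 (σ m0) m1 (σ m1))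
      = Bb x (σ x) y (σ y) l0 (σ l0) l1 (σ l1) m0 (σ m0) m1 (σ m1) := by
    simp only [B, Bb, map_add, map_sub, map_mul, hσ]; ring
  have hBb : σ (Bb x (σ x) y (σ y) l0 (σ l0) l1 (σ l1) m0 (σ m0) m1 (σ m1))
      = B x (σ x) y (σ y) l0 (σ l0) l1 (σ l1) m0 (σ m0) m1 (σ m1) := by
    simp only [B, Bb, map_add, map_sub, map_mul, hσ]; ring
  rw [bet_st hσ hx hl hy hxy hxy' hm, gam_st hσ hx hl hy hxy hxy' hm, bet, gam]
  rw [map_neg, map_div₀, map_mul, map_mul, map_mul, hB, hBb, sQ hσ, sQb hσ, hσ]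
  rw [show (l0 * σ l0 - x * (l1 * σ l1)) = Q σ x l0 l1 from rfl] at e
  field_simp
  linear_combination -e

theorem c2 : gam σ x l0 l1 + gam σ y (st0 σ y (bet σ x l0 l1) (gam σ x l0 l1) m0 m1)
      (st1 σ y (bet σ x l0 l1) (gam σ x l0 l1) m0 m1)
      + bet σ x l0 l1 * σ (bet σ y (st0 σ y (bet σ x l0 l1) (gam σ x l0 l1) m0 m1)
      (st1 σ y (bet σ x l0 l1) (gam σ x l0 l1) m0 m1))
    = W x (σ x) y (σ y) l0 (σ l0) l1 (σ l1) m0 (σ m0) m1 (σ m1)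
      / (σ x * σ y * B x (σ x) y (σ y) l0 (σ l0) l1 (σ l1) m0 (σ m0) m1 (σ m1)) := by
  have h1 := Q_ne hσ hx hl
  have h2 := Qb_ne hσ hx hl
  have h3 := x_ne hx
  have h4 := sx_ne hx
  have h5 := B_ne hσ hx hl hy hxy hxy' hm
  have h5' := Bb_ne hσ hx hl hy hxy hxy' hm
  have h6 := x_ne hy
  have h7 := sx_ne hy
  have e := p3 x (σ x) y (σ y) l0 (σ l0) l1 (σ l1) m0 (σ m0) m1 (σ m1)
  have hBb : σ (Bb x (σ x) y (σ y) l0 (σ l0) l1 (σ l1) m0 (σ m0) m1 (σ m1))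
      = B x (σ x) y (σ y) l0 (σ l0) l1 (σ l1) m0 (σ m0) m1 (σ m1) := by
    simp only [B, Bb, map_add, map_sub, map_mul, hσ]; ring
  have hM : σ (M0 x (σ x) y (σ y) l0 (σ l0) l1 (σ l1) m0 (σ m0) m1 (σ m1))
      = N0 x (σ x) y (σ y) l0 (σ l0) l1 (σ l1) m0 (σ m0) m1 (σ m1) := by
    simp only [M0, N0, map_sub, map_mul, hσ]; ring
  have hN : σ (N1 x (σ x) y (σ y) l0 (σ l0) l1 (σ l1) m0 (σ m0) m1 (σ m1))
      = M1 x (σ x) y (σ y) l0 (σ l0) l1 (σ l1) m0 (σ m0) m1 (σ m1) := by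
    simp only [M1, N1, map_add, map_sub, map_mul, hσ]; ring
  rw [bet_st hσ hx hl hy hxy hxy' hm, gam_st hσ hx hl hy hxy hxy' hm, bet, gam]
  rw [map_div₀ σ (_ * _ * _) _, map_mul, map_mul, map_mul, map_mul, map_mul, map_mul, map_sub, hBb, hM, hN,
    sQb hσ, hσ, hσ]
  rw [show (l0 * σ l0 - x * (l1 * σ l1)) = Q σ x l0 l1 from rfl,
    show (l0 * σ l0 - σ x * (l1 * σ l1)) = Qb σ x l0 l1 from rfl] at e
  field_simp
  linear_combination e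

end Star

section Main

variable (hσ : ∀ a, σ (σ a) = a) {x y l0 l1 m0 m1 : K} (hx : σ x ≠ x) (hy : σ y ≠ y)
  (hxy : x ≠ y) (hxy' : σ x ≠ y) (hl : l0 ≠ 0 ∨ l1 ≠ 0) (hm : m0 ≠ 0 ∨ m1 ≠ 0)

variable (σ)

/-- transport of the `y`-label `m` across the `x`-edge `l` (also used with `x`, `y` exchanged) -/
def tr0 (x y l0 l1 m0 m1 : K) : K := st0 σ y (bet σ x l0 l1) (gam σ x l0 l1) m0 m1

def tr1 (x y l0 l1 m0 m1 : K) : K := st1 σ y (bet σ x l0 l1) (gam σ x l0 l1) m0 m1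

variable {σ}

include hσ hx hy hxy hxy' hl hm

theorem sxy_ne : σ y ≠ x := by
  intro h
  apply hxy'
  rw [← h, hσ]

/-- coefficient of `τ` in `be_l be_{m*} = be_m be_{l*}` -/
theorem comm1 : bet σ x l0 l1 + bet σ y (tr0 σ x y l0 l1 m0 m1) (tr1 σ x y l0 l1 m0 m1)
    = bet σ y m0 m1 + bet σ x (tr0 σ y x m0 m1 l0 l1) (tr1 σ y x m0 m1 l0 l1) := by
  have h := sxy_ne hσ hx hy hxy hxy' hl hm
  unfold tr0 tr1
  rw [c1 hσ hx hl hy hxy hxy' hm, c1 hσ hy hm hx hxy.symm h hl, U_symm, Bb_symm]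
  ring

/-- coefficient of `τ²` -/
theorem comm2 : gam σ x l0 l1 + gam σ y (tr0 σ x y l0 l1 m0 m1) (tr1 σ x y l0 l1 m0 m1)
      + bet σ x l0 l1 * σ (bet σ y (tr0 σ x y l0 l1 m0 m1) (tr1 σ x y l0 l1 m0 m1))
    = gam σ y m0 m1 + gam σ x (tr0 σ y x m0 m1 l0 l1) (tr1 σ y x m0 m1 l0 l1)
      + bet σ y m0 m1 * σ (bet σ x (tr0 σ y x m0 m1 l0 l1) (tr1 σ y x m0 m1 l0 l1)) := by
  have h := sxy_ne hσ hx hy hxy hxy' hl hm
  unfold tr0 tr1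
  rw [c2 hσ hx hl hy hxy hxy' hm, c2 hσ hy hm hx hxy.symm h hl, W_symm, B_symm]
  ring

/-- coefficient of `τ³` -/
theorem comm3 : bet σ x l0 l1 * σ (gam σ y (tr0 σ x y l0 l1 m0 m1) (tr1 σ x y l0 l1 m0 m1))
      + gam σ x l0 l1 * bet σ y (tr0 σ x y l0 l1 m0 m1) (tr1 σ x y l0 l1 m0 m1)
    = bet σ y m0 m1 * σ (gam σ x (tr0 σ y x m0 m1 l0 l1) (tr1 σ y x m0 m1 l0 l1))
      + gam σ y m0 m1 * bet σ x (tr0 σ y x m0 m1 l0 l1) (tr1 σ y x m0 m1 l0 l1) := by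
  have h := sxy_ne hσ hx hy hxy hxy' hl hm
  unfold tr0 tr1
  rw [c3 hσ hx hl hy hxy hxy' hm, c3 hσ hy hm hx hxy.symm h hl, V_symm, Bb_symm]
  ring

/-- coefficient of `τ⁴` -/
theorem comm4 : gam σ x l0 l1 * gam σ y (tr0 σ x y l0 l1 m0 m1) (tr1 σ x y l0 l1 m0 m1)
    = gam σ y m0 m1 * gam σ x (tr0 σ y x m0 m1 l0 l1) (tr1 σ y x m0 m1 l0 l1) := by
  have h := sxy_ne hσ hx hy hxy hxy' hl hm
  unfold tr0 tr1
  rw [c4 hσ hx hl hy hxy hxy' hm, c4 hσ hy hm hx hxy.symm h hl, B_symm, Bb_symm]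
  ring

end Main

end FieldPart

end Crest.Agent.R289.TwoComm82
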