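import Crest.Agent.R289.TwoPlace_595

/-!
Row 289, block B, leaf B3 (helper595, post #5449), second part: the global inequality and the
theorem `two_place`.
-/

set_option autoImplicit false
set_option linter.unusedSectionVars false

namespace Crest.Agent.R289.TwoPlace595

open Finset
open scoped Classical

variable {V : Bool → Bool → Type*} {Eh Ev : Bool → Type*} {S : Type*}
    [∀ i j, Fintype (V i j)] [∀ j, Fintype (Eh j)] [∀ i, Fintype (Ev i)] [Fintype S]
    {n N : ℕ} {C : SqC V Eh Ev S n N} {K : Type*}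

/-! ### the global inequality -/

theorem sum_not {M : Type*} [AddCommMonoid M] (F : Bool → M) : ∑ i, F (!i) = ∑ i, F i := by
  rw [Fintype.sum_bool, Fintype.sum_bool]
  simp [add_comm]

theorem sum_sq_le {ι : Type*} (s : Finset ι) (F : ι → ℝ) (h : ∀ i ∈ s, 0 ≤ F i) :
    ∑ i ∈ s, F i ^ 2 ≤ (∑ i ∈ s, F i) ^ 2 := by
  rw [sq (∑ i ∈ s, F i), sum_mul]
  refine sum_le_sum fun i hi => ?_
  rw [sq]
  exact mul_le_mul_of_nonneg_left (single_le_sum h hi) (h i hi)

/-- the sum of the disputed degrees -/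
theorem sum_dh (T : W V → S → K) (i j : Bool) :
    ∑ v : V i j, dh C T i j v = (univ.filter fun e : Eh j => Dh C T j e).card := by
  rw [card_eq_sum_card_fiberwise (f := C.hv i j) (t := univ)]
  · refine sum_congr rfl fun v _ => ?_
    unfold dh
    congr 1
    ext e
    simp only [mem_filter, mem_univ, true_and]
    tauto
  · intro e _
    simp

theorem sum_dv (T : W V → S → K) (i j : Bool) :
    ∑ v : V i j, dv C T i j v = (univ.filter fun f : Ev i => Dv C T i f).card := by
  rw [card_eq_sum_card_fiberwise (f := C.vv i j) (t := univ)]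
  · refine sum_congr rfl fun v _ => ?_
    unfold dv
    congr 1
    ext e
    simp only [mem_filter, mem_univ, true_and]
    tauto
  · intro e _
    simp

theorem sum_all (T : W V → S → K) :
    ∑ i, ∑ j, ∑ v : V i j, (dh C T i j v + dv C T i j v) = 2 * DD C T := by
  have h : ∀ i j, ∑ v : V i j, (dh C T i j v + dv C T i j v) =
      (univ.filter fun e : Eh j => Dh C T j e).card +
        (univ.filter fun f : Ev i => Dv C T i f).card := by
    intro i j
    rw [sum_add_distrib, sum_dh, sum_dv]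
  simp only [h]
  unfold DD
  simp only [Fintype.sum_bool]
  ring

/-- if the minimal assignment has a disputed edge, it has many -/
theorem stuck_large (A : Codes C K) {κ : ℕ} {Λ : ℝ} (hAT : A.AT κ) (hΛ : 0 ≤ Λ)
    (hEV : ExpV C Λ) (hEH : ExpH C Λ) (hnum : 4 * (κ : ℝ) ^ 2 * Λ ≤ (n : ℝ) ^ 2)
    (hn : 0 < n) (hN : 0 < N) (T0 T : W V → S → K) (hT : Valid A T)
    (hmin : ∀ T' : W V → S → K, Valid A T' → 2 * DD C T + chg T0 T ≤ 2 * DD C T' + chg T0 T')
    (hD : 0 < DD C T) : N ≤ 8 * κ ^ 2 * DD C T := by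
  -- notation
  set x : ∀ i j, V i j → ℝ := fun i j v => (dh C T i j v : ℝ) with hx
  set y : ∀ i j, V i j → ℝ := fun i j v => (dv C T i j v : ℝ) with hy
  set a : ∀ i j, V i j → ℝ := fun i j v =>
    ∑ f ∈ univ.filter (fun f : Ev i => C.vv i j f = v), x i (!j) (C.vv i (!j) f) with ha
  set b : ∀ i j, V i j → ℝ := fun i j v =>
    ∑ e ∈ univ.filter (fun e : Eh j => C.hv i j e = v), y (!i) j (C.hv (!i) j e) with hb
  have hx0 : ∀ i j v, 0 ≤ x i j v := fun i j v => Nat.cast_nonneg _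
  have hy0 : ∀ i j v, 0 ≤ y i j v := fun i j v => Nat.cast_nonneg _
  have hloc : ∀ i j v, (n : ℝ) * (x i j v + y i j v) ≤ κ * (a i j v + b i j v) := by
    intro i j v
    have := local_ineq A hAT T0 T hT hmin i j v
    simp only [hx, hy, ha, hb]
    exact_mod_cast this
  have hloc2 : ∀ i j v, (n : ℝ) ^ 2 * (x i j v + y i j v) ^ 2 ≤
      2 * (κ : ℝ) ^ 2 * (a i j v ^ 2 + b i j v ^ 2) := by
    intro i j v
    have h1 := hloc i j v
    have h2 : 0 ≤ (n : ℝ) * (x i j v + y i j v) :=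
      mul_nonneg (Nat.cast_nonneg _) (add_nonneg (hx0 i j v) (hy0 i j v))
    have h3 : ((n : ℝ) * (x i j v + y i j v)) ^ 2 ≤ (κ * (a i j v + b i j v)) ^ 2 :=
      pow_le_pow_left₀ h2 h1 2
    have h4 : (a i j v + b i j v) ^ 2 ≤ 2 * (a i j v ^ 2 + b i j v ^ 2) := by
      nlinarith [sq_nonneg (a i j v - b i j v)]
    have h5 : 0 ≤ (κ : ℝ) ^ 2 := sq_nonneg _
    calc (n : ℝ) ^ 2 * (x i j v + y i j v) ^ 2 = ((n : ℝ) * (x i j v + y i j v)) ^ 2 := by ring
      _ ≤ (κ * (a i j v + b i j v)) ^ 2 := h3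
      _ = (κ : ℝ) ^ 2 * (a i j v + b i j v) ^ 2 := by ring
      _ ≤ (κ : ℝ) ^ 2 * (2 * (a i j v ^ 2 + b i j v ^ 2)) := mul_le_mul_of_nonneg_left h4 h5
      _ = _ := by ring
  set X : Bool → Bool → ℝ := fun i j => ∑ v, x i j v with hX
  set Y : Bool → Bool → ℝ := fun i j => ∑ v, y i j v with hY
  have hX0 : ∀ i j, 0 ≤ X i j := fun i j => sum_nonneg fun v _ => hx0 i j v
  have hY0 : ∀ i j, 0 ≤ Y i j := fun i j => sum_nonneg fun v _ => hy0 i j v
  set s1 : ℝ := ∑ i, ∑ j, ∑ v, (x i j v + y i j v) with hs1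
  set s2 : ℝ := ∑ i, ∑ j, ∑ v, (x i j v + y i j v) ^ 2 with hs2
  have hs1' : s1 = ∑ i, ∑ j, (X i j + Y i j) := by
    rw [hs1]
    refine sum_congr rfl fun i _ => sum_congr rfl fun j _ => ?_
    rw [sum_add_distrib]
  have hA2 : ∑ i, ∑ j, ∑ v : V i j, a i j v ^ 2 ≤
      (n : ℝ) ^ 2 / N * ∑ i, ∑ j, X i j ^ 2 + Λ * ∑ i, ∑ j, ∑ v, x i j v ^ 2 := by
    have h1 : ∀ i j, ∑ v : V i j, a i j v ^ 2 ≤
        (n : ℝ) ^ 2 / N * X i (!j) ^ 2 + Λ * ∑ v, x i (!j) v ^ 2 := by
      intro i j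
      have := mixV (C := C) hΛ hEV hN i j (x i (!j))
      calc ∑ v : V i j, a i j v ^ 2 ≤ (n : ℝ) ^ 2 * (∑ w, x i (!j) w) ^ 2 / N +
          Λ * ∑ w, x i (!j) w ^ 2 := this
        _ = _ := by rw [hX]; ring
    calc ∑ i, ∑ j, ∑ v : V i j, a i j v ^ 2 ≤
        ∑ i, ∑ j, ((n : ℝ) ^ 2 / N * X i (!j) ^ 2 + Λ * ∑ v, x i (!j) v ^ 2) :=
          sum_le_sum fun i _ => sum_le_sum fun j _ => h1 i j
      _ = ∑ i, ∑ j, ((n : ℝ) ^ 2 / N * X i j ^ 2 + Λ * ∑ v, x i j v ^ 2) :=
          sum_congr rfl fun i _ =>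
            sum_not (fun j => (n : ℝ) ^ 2 / N * X i j ^ 2 + Λ * ∑ v, x i j v ^ 2)
      _ = _ := by
          simp only [sum_add_distrib, mul_sum]
  have hB2 : ∑ i, ∑ j, ∑ v : V i j, b i j v ^ 2 ≤
      (n : ℝ) ^ 2 / N * ∑ i, ∑ j, Y i j ^ 2 + Λ * ∑ i, ∑ j, ∑ v, y i j v ^ 2 := by
    have h1 : ∀ i j, ∑ v : V i j, b i j v ^ 2 ≤
        (n : ℝ) ^ 2 / N * Y (!i) j ^ 2 + Λ * ∑ v, y (!i) j v ^ 2 := by
      intro i j
      have := mixH (C := C) hΛ hEH hN i j (y (!i) j)
      calc ∑ v : V i j, b i j v ^ 2 ≤ (n : ℝ) ^ 2 * (∑ w, y (!i) j w) ^ 2 / N +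
          Λ * ∑ w, y (!i) j w ^ 2 := this
        _ = _ := by rw [hY]; ring
    calc ∑ i, ∑ j, ∑ v : V i j, b i j v ^ 2 ≤
        ∑ i, ∑ j, ((n : ℝ) ^ 2 / N * Y (!i) j ^ 2 + Λ * ∑ v, y (!i) j v ^ 2) :=
          sum_le_sum fun i _ => sum_le_sum fun j _ => h1 i j
      _ = ∑ i, ∑ j, ((n : ℝ) ^ 2 / N * Y i j ^ 2 + Λ * ∑ v, y i j v ^ 2) :=
          sum_not (fun i => ∑ j, ((n : ℝ) ^ 2 / N * Y i j ^ 2 + Λ * ∑ v, y i j v ^ 2))
      _ = _ := by
          simp only [sum_add_distrib, mul_sum]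
  have hsq : ∑ i, ∑ j, X i j ^ 2 + ∑ i, ∑ j, Y i j ^ 2 ≤ s1 ^ 2 := by
    have h1 := sum_sq_le (univ : Finset (Bool × Bool × Bool))
      (fun p => if p.1 then X p.2.1 p.2.2 else Y p.2.1 p.2.2) (by
        intro p _
        show 0 ≤ (if p.1 then X p.2.1 p.2.2 else Y p.2.1 p.2.2)
        split_ifs
        · exact hX0 _ _
        · exact hY0 _ _)
    simp only [Fintype.sum_prod_type, Fintype.sum_bool] at h1
    rw [hs1']
    simp only [Fintype.sum_bool]
    simp only [if_true, Bool.false_eq_true, if_false] at h1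
    refine le_trans (le_of_eq ?_) (h1.trans (le_of_eq ?_)) <;> ring
  have hxy : ∑ i, ∑ j, ∑ v, x i j v ^ 2 + ∑ i, ∑ j, ∑ v, y i j v ^ 2 ≤ s2 := by
    rw [hs2]
    simp only [← sum_add_distrib]
    refine sum_le_sum fun i _ => sum_le_sum fun j _ => sum_le_sum fun v _ => ?_
    nlinarith [mul_nonneg (hx0 i j v) (hy0 i j v)]
  have hmain : (n : ℝ) ^ 2 * s2 ≤ 2 * (κ : ℝ) ^ 2 * ((n : ℝ) ^ 2 / N * s1 ^ 2 + Λ * s2) := by
    calc (n : ℝ) ^ 2 * s2 = ∑ i, ∑ j, ∑ v, (n : ℝ) ^ 2 * (x i j v + y i j v) ^ 2 := by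
          rw [hs2]; simp only [mul_sum]
      _ ≤ ∑ i, ∑ j, ∑ v, 2 * (κ : ℝ) ^ 2 * (a i j v ^ 2 + b i j v ^ 2) :=
          sum_le_sum fun i _ => sum_le_sum fun j _ => sum_le_sum fun v _ => hloc2 i j v
      _ = 2 * (κ : ℝ) ^ 2 * (∑ i, ∑ j, ∑ v, a i j v ^ 2 + ∑ i, ∑ j, ∑ v, b i j v ^ 2) := by
          simp only [← mul_sum, sum_add_distrib]
      _ ≤ 2 * (κ : ℝ) ^ 2 * ((n : ℝ) ^ 2 / N * s1 ^ 2 + Λ * s2) := by
          refine mul_le_mul_of_nonneg_left ?_ (by positivity)
          have h1 : 0 ≤ (n : ℝ) ^ 2 / N := by positivity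
          have h2 := mul_le_mul_of_nonneg_left hsq h1
          have h3 := mul_le_mul_of_nonneg_left hxy hΛ
          linarith
  have hs20 : 0 ≤ s2 := by
    rw [hs2]
    exact sum_nonneg fun i _ => sum_nonneg fun j _ => sum_nonneg fun v _ => sq_nonneg _
  have hn' : (0 : ℝ) < (n : ℝ) ^ 2 := by positivity
  have hfin : s2 ≤ 4 * (κ : ℝ) ^ 2 / N * s1 ^ 2 := by
    have h1 : 2 * (κ : ℝ) ^ 2 * (Λ * s2) ≤ (n : ℝ) ^ 2 * s2 / 2 := by
      have := mul_le_mul_of_nonneg_right hnum hs20
      linarith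
    have h2 : (n : ℝ) ^ 2 * s2 ≤ (n : ℝ) ^ 2 * (4 * (κ : ℝ) ^ 2 / N * s1 ^ 2) := by
      have h3 : 2 * (κ : ℝ) ^ 2 * ((n : ℝ) ^ 2 / N * s1 ^ 2 + Λ * s2) =
        (n : ℝ) ^ 2 * (4 * (κ : ℝ) ^ 2 / N * s1 ^ 2) / 2 + 2 * (κ : ℝ) ^ 2 * (Λ * s2) := by ring
      rw [h3] at hmain
      linarith
    exact le_of_mul_le_mul_left h2 hn'
  have hs12 : s1 ≤ s2 := by
    rw [hs1, hs2]
    refine sum_le_sum fun i _ => sum_le_sum fun j _ => sum_le_sum fun v _ => ?_
    have : ∀ m : ℕ, (m : ℝ) ≤ (m : ℝ) ^ 2 := fun m => by exact_mod_cast Nat.le_self_pow (by norm_num) m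
    have h := this (dh C T i j v + dv C T i j v)
    simp only [hx, hy]
    exact_mod_cast h
  have hs1D : s1 = 2 * (DD C T : ℝ) := by
    have := sum_all (C := C) T
    rw [hs1]
    simp only [hx, hy]
    exact_mod_cast this
  have hpos : 0 < s1 := by
    rw [hs1D]
    have : (0 : ℝ) < DD C T := by exact_mod_cast hD
    linarith
  have hN' : (0 : ℝ) < N := by exact_mod_cast hN
  have h1 : s1 ≤ 4 * (κ : ℝ) ^ 2 / N * s1 ^ 2 := hs12.trans hfin
  have h2 : (N : ℝ) ≤ 4 * (κ : ℝ) ^ 2 * s1 := by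
    have h3 : s1 * N ≤ s1 * (4 * (κ : ℝ) ^ 2 * s1) := by
      have := mul_le_mul_of_nonneg_right h1 hN'.le
      calc s1 * N ≤ 4 * (κ : ℝ) ^ 2 / N * s1 ^ 2 * N := this
        _ = s1 * (4 * (κ : ℝ) ^ 2 * s1) := by field_simp
    exact le_of_mul_le_mul_left h3 hpos
  rw [hs1D] at h2
  have h4 : (N : ℝ) ≤ ((8 * κ ^ 2 * DD C T : ℕ) : ℝ) := by
    push_cast
    linarith
  exact_mod_cast h4

/-! ### the theorem -/

/-- number of bad vertices -/
noncomputable def bad (A : Codes C K) (f : S → K) : ℕ :=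
  ∑ i, ∑ j, (univ.filter fun v : V i j => ¬ A.okV i j v f).card

theorem card_edges_h (i j : Bool) (P : V i j → Prop) :
    (univ.filter fun e : Eh j => P (C.hv i j e)).card = n * (univ.filter P).card := by
  rw [card_eq_sum_card_fiberwise (f := C.hv i j) (t := univ.filter P)]
  · rw [sum_congr rfl (g := fun _ => n), sum_const, smul_eq_mul, mul_comm]
    intro v hv
    refine (congrArg card ?_).trans (C.regh i j v)
    ext e
    simp only [mem_filter, mem_univ, true_and]
    constructor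
    · exact fun h => h.2
    · intro h
      rw [h]
      exact ⟨(mem_filter.1 hv).2, rfl⟩
  · intro e he
    simpa using he

theorem card_edges_v (i j : Bool) (P : V i j → Prop) :
    (univ.filter fun f : Ev i => P (C.vv i j f)).card = n * (univ.filter P).card := by
  rw [card_eq_sum_card_fiberwise (f := C.vv i j) (t := univ.filter P)]
  · rw [sum_congr rfl (g := fun _ => n), sum_const, smul_eq_mul, mul_comm]
    intro v hv
    refine (congrArg card ?_).trans (C.regv i j v)
    ext e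
    simp only [mem_filter, mem_univ, true_and]
    constructor
    · exact fun h => h.2
    · intro h
      rw [h]
      exact ⟨(mem_filter.1 hv).2, rfl⟩
  · intro e he
    simpa using he

/-- the starting assignment -/
noncomputable def start (A : Codes C K) (z f : S → K) : W V → S → K :=
  fun w => if A.okV w.1.1 w.1.2 w.2 f then f else z

theorem start_valid (A : Codes C K) (z f : S → K) (hz : ∀ i j v, A.okV i j v z) :
    Valid A (start A z f) := by
  intro i j v
  unfold start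
  dsimp only
  split_ifs with h
  · exact h
  · exact hz i j v

theorem start_DD (A : Codes C K) (z f : S → K) : DD C (start A z f) ≤ 2 * n * bad A f := by
  have hh : ∀ j, (univ.filter fun e : Eh j => Dh C (start A z f) j e).card ≤
      ∑ i, n * (univ.filter fun v : V i j => ¬ A.okV i j v f).card := by
    intro j
    have h1 : ∀ i, n * (univ.filter fun v : V i j => ¬ A.okV i j v f).card =
        (univ.filter fun e : Eh j => ¬ A.okV i j (C.hv i j e) f).card := fun i => by
      have h := (card_edges_h (C := C) i j fun v => ¬ A.okV i j v f).symm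
      convert h
    rw [sum_congr rfl fun i _ => h1 i, Fintype.sum_bool]
    refine le_trans (card_le_card ?_) (card_union_le _ _)
    intro e he
    rw [mem_union, mem_filter, mem_filter]
    by_contra hcon
    have c1 : A.okV true j (C.hv true j e) f := by
      by_contra h; exact hcon (Or.inl ⟨mem_univ _, h⟩)
    have c2 : A.okV false j (C.hv false j e) f := by
      by_contra h; exact hcon (Or.inr ⟨mem_univ _, h⟩)
    obtain ⟨σ, _, h2⟩ := (mem_filter.1 he).2
    apply h2
    unfold start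
    dsimp only
    rw [if_pos c1, if_pos c2]
  have hv : ∀ i, (univ.filter fun e : Ev i => Dv C (start A z f) i e).card ≤
      ∑ j, n * (univ.filter fun v : V i j => ¬ A.okV i j v f).card := by
    intro i
    have h1 : ∀ j, n * (univ.filter fun v : V i j => ¬ A.okV i j v f).card =
        (univ.filter fun e : Ev i => ¬ A.okV i j (C.vv i j e) f).card := fun j => by
      have h := (card_edges_v (C := C) i j fun v => ¬ A.okV i j v f).symm
      convert h
    rw [sum_congr rfl fun j _ => h1 j, Fintype.sum_bool]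
    refine le_trans (card_le_card ?_) (card_union_le _ _)
    intro e he
    rw [mem_union, mem_filter, mem_filter]
    by_contra hcon
    have c1 : A.okV i true (C.vv i true e) f := by
      by_contra h; exact hcon (Or.inl ⟨mem_univ _, h⟩)
    have c2 : A.okV i false (C.vv i false e) f := by
      by_contra h; exact hcon (Or.inr ⟨mem_univ _, h⟩)
    obtain ⟨σ, _, h2⟩ := (mem_filter.1 he).2
    apply h2
    unfold start
    dsimp only
    rw [if_pos c1, if_pos c2]
  unfold DD bad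
  have h1 : ∑ j, (univ.filter fun e : Eh j => Dh C (start A z f) j e).card ≤
      ∑ j, ∑ i, n * (univ.filter fun v : V i j => ¬ A.okV i j v f).card :=
    sum_le_sum fun j _ => hh j
  have h2 : ∑ i, (univ.filter fun e : Ev i => Dv C (start A z f) i e).card ≤
      ∑ i, ∑ j, n * (univ.filter fun v : V i j => ¬ A.okV i j v f).card :=
    sum_le_sum fun i _ => hv i
  rw [sum_comm] at h1
  simp only [← mul_sum] at h1 h2
  calc _ ≤ _ := Nat.add_le_add h1 h2
    _ = _ := by ring

theorem card_sq_at (i j : Bool) (v : V i j) :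
    (univ.filter fun σ : S => C.vt i j σ = v).card ≤ n ^ 2 := by
  have h : (univ.filter fun σ : S => C.vt i j σ = v).card ≤
      ((univ.filter fun e : Eh j => C.hv i j e = v) ×ˢ
        (univ.filter fun f : Ev i => C.vv i j f = v)).card := by
    refine card_le_card_of_injOn (fun σ => (C.eh j σ, C.ev i σ)) ?_ ?_
    · intro σ hσ
      have h1 := (mem_filter.1 hσ).2
      rw [mem_coe, mem_product, mem_filter, mem_filter]
      refine ⟨⟨mem_univ _, h1⟩, mem_univ _, ?_⟩
      rw [← C.vt_eq]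
      exact h1
    · intro σ _ σ' _ h
      have h1 : C.eh j σ = C.eh j σ' := congrArg Prod.fst h
      have h2 : C.ev i σ = C.ev i σ' := congrArg Prod.snd h
      exact (C.uniq i j (C.eh j σ) (C.ev i σ) (C.comp i j σ)).unique ⟨rfl, rfl⟩
        ⟨h1.symm, h2.symm⟩
  rw [card_product, C.regh, C.regv] at h
  rwa [sq]

theorem card_sq_of (i j : Bool) (B : Finset (V i j)) :
    (univ.filter fun σ : S => C.vt i j σ ∈ B).card ≤ n ^ 2 * B.card := by
  rw [card_eq_sum_card_fiberwise (f := C.vt i j) (t := B)]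
  · rw [mul_comm, ← smul_eq_mul, ← sum_const]
    refine sum_le_sum fun v _ => ?_
    refine le_trans (card_le_card ?_) (card_sq_at (C := C) i j v)
    intro σ hσ
    rw [mem_filter] at hσ ⊢
    exact ⟨mem_univ _, hσ.2⟩
  · intro σ hσ
    simpa using hσ

/-- **Theorem B3.**  A function with few bad vertices is close to a code word. -/
theorem two_place (A : Codes C K) {κ : ℕ} {Λ : ℝ} (hAT : A.AT κ) (hΛ : 0 ≤ Λ)
    (hEV : ExpV C Λ) (hEH : ExpH C Λ) (hnum : 4 * (κ : ℝ) ^ 2 * Λ ≤ (n : ℝ) ^ 2)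
    (hn : 0 < n) (z : S → K) (hz : ∀ i j v, A.okV i j v z) (f : S → K)
    (hf : 16 * κ ^ 2 * n * bad A f < N) :
    ∃ c : S → K, (∀ i j v, A.okV i j v c) ∧
      (univ.filter fun σ : S => f σ ≠ c σ).card ≤ n ^ 2 * ((4 * n + 1) * bad A f) := by
  have hN : 0 < N := lt_of_le_of_lt (Nat.zero_le _) hf
  set T0 := start A z f with hT0
  -- a minimal assignment
  obtain ⟨T, hT, hmin⟩ : ∃ T : W V → S → K, Valid A T ∧
      ∀ T' : W V → S → K, Valid A T' → 2 * DD C T + chg T0 T ≤ 2 * DD C T' + chg T0 T' := by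
    have hex : ∃ m, ∃ T : W V → S → K, Valid A T ∧ 2 * DD C T + chg T0 T = m :=
      ⟨_, T0, start_valid A z f hz, rfl⟩
    obtain ⟨T, hT, hTm⟩ := Nat.find_spec hex
    refine ⟨T, hT, fun T' hT' => ?_⟩
    rw [hTm]
    exact Nat.find_min' hex ⟨T', hT', rfl⟩
  have hΦ0 := hmin T0 (start_valid A z f hz)
  have hc0 : chg T0 T0 = 0 := by
    unfold chg
    rw [card_eq_zero, filter_eq_empty_iff]
    intro w _ h
    exact h rfl
  have hD0 := start_DD A z f
  rw [← hT0] at hD0
  have hΦ : 2 * DD C T + chg T0 T ≤ 4 * n * bad A f := by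
    rw [hc0] at hΦ0
    calc 2 * DD C T + chg T0 T ≤ 2 * DD C T0 + 0 := hΦ0
      _ ≤ 4 * n * bad A f := by nlinarith
  have hDD : DD C T = 0 := by
    by_contra h
    have h1 := stuck_large A hAT hΛ hEV hEH hnum hn hN T0 T hT hmin (Nat.pos_of_ne_zero h)
    have h2 : 8 * κ ^ 2 * DD C T ≤ 16 * κ ^ 2 * n * bad A f := by
      have h3 : 2 * DD C T ≤ 4 * n * bad A f := by omega
      calc 8 * κ ^ 2 * DD C T = 4 * κ ^ 2 * (2 * DD C T) := by ring
        _ ≤ 4 * κ ^ 2 * (4 * n * bad A f) := Nat.mul_le_mul_left _ h3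
        _ = _ := by ring
    omega
  -- no disputes
  have hDh : ∀ j (e : Eh j), ¬ Dh C T j e := by
    intro j e he
    unfold DD at hDD
    have h1 : ∑ j, (univ.filter fun e : Eh j => Dh C T j e).card = 0 := by omega
    rw [sum_eq_zero_iff] at h1
    have h2 := h1 j (mem_univ _)
    rw [card_eq_zero, filter_eq_empty_iff] at h2
    exact h2 (mem_univ e) he
  have hDv : ∀ i (e : Ev i), ¬ Dv C T i e := by
    intro i e he
    unfold DD at hDD
    have h1 : ∑ i, (univ.filter fun e : Ev i => Dv C T i e).card = 0 := by omega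
    rw [sum_eq_zero_iff] at h1
    have h2 := h1 i (mem_univ _)
    rw [card_eq_zero, filter_eq_empty_iff] at h2
    exact h2 (mem_univ e) he
  have hh : ∀ j σ, T ⟨(false, j), C.vt false j σ⟩ σ = T ⟨(true, j), C.vt true j σ⟩ σ := by
    intro j σ
    by_contra h
    exact hDh j (C.eh j σ) ⟨σ, rfl, h⟩
  have hv : ∀ i σ, T ⟨(i, false), C.vt i false σ⟩ σ = T ⟨(i, true), C.vt i true σ⟩ σ := by
    intro i σ
    by_contra h
    refine hDv i (C.ev i σ) ⟨σ, rfl, ?_⟩
    rwa [← C.vt_eq, ← C.vt_eq]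
  have hall : ∀ i j σ, T ⟨(i, j), C.vt i j σ⟩ σ = T ⟨(false, false), C.vt false false σ⟩ σ := by
    intro i j σ
    cases i <;> cases j
    · rfl
    · exact (hv false σ).symm
    · exact (hh false σ).symm
    · rw [← hv true σ]; exact (hh false σ).symm
  refine ⟨fun σ => T ⟨(false, false), C.vt false false σ⟩ σ, fun i j v => ?_, ?_⟩
  · refine A.okV_congr i j v (T ⟨(i, j), v⟩) _ (fun σ hσ => ?_) (hT i j v)
    rw [← hall i j σ, hσ]
  · set B : Finset (V false false) := univ.filter fun v =>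
      ¬ A.okV false false v f ∨ T ⟨(false, false), v⟩ ≠ T0 ⟨(false, false), v⟩ with hB
    have h1 : (univ.filter fun σ : S => f σ ≠ T ⟨(false, false), C.vt false false σ⟩ σ) ⊆
        univ.filter fun σ : S => C.vt false false σ ∈ B := by
      intro σ hσ
      rw [mem_filter] at hσ ⊢
      refine ⟨mem_univ _, ?_⟩
      rw [hB, mem_filter]
      refine ⟨mem_univ _, ?_⟩
      by_contra hcon
      rw [not_or, not_not, not_not] at hcon
      apply hσ.2
      rw [hcon.2, hT0]
      unfold start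
      dsimp only
      rw [if_pos hcon.1]
    have h2 : B.card ≤ bad A f + chg T0 T := by
      have h3 : B ⊆ (univ.filter fun v : V false false => ¬ A.okV false false v f) ∪
          (univ.filter fun v : V false false =>
            T ⟨(false, false), v⟩ ≠ T0 ⟨(false, false), v⟩) := by
        intro v hv'
        rw [hB, mem_filter] at hv'
        rw [mem_union, mem_filter, mem_filter]
        rcases hv'.2 with h | h
        · exact Or.inl ⟨mem_univ _, h⟩
        · exact Or.inr ⟨mem_univ _, h⟩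
      refine (card_le_card h3).trans ((card_union_le _ _).trans (Nat.add_le_add ?_ ?_))
      · unfold bad
        simp only [Fintype.sum_bool]
        omega
      · unfold chg
        refine card_le_card_of_injOn
          (fun v => (⟨(false, false), v⟩ : W V)) ?_ ?_
        · intro v hv'
          rw [mem_coe, mem_filter] at hv' ⊢
          exact ⟨mem_univ _, hv'.2⟩
        · intro v _ v' _ h
          exact eq_of_heq (Sigma.mk.inj h).2
    have h3 : B.card ≤ (4 * n + 1) * bad A f := by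
      calc B.card ≤ bad A f + chg T0 T := h2
        _ ≤ bad A f + 4 * n * bad A f := by omega
        _ = _ := by ring
    exact (card_le_card h1).trans ((card_sq_of (C := C) false false B).trans
      (Nat.mul_le_mul_left _ h3))

end Crest.Agent.R289.TwoPlace595
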