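import Crest.Agent.R289.TwoSq_79
import Crest.Agent.R289.PS_459

/-!
# TP4a, part 2: odd coordinates, four corner charts, edge conditions from both ends

Everything over `Sk σ`; labels `Option K`.  `U x y b i j` = `x`-vector at the corners of `y`-parity
`b`; `V x y a b i j` = `x`-coordinate at the corner of `x`-parity `a`, `y`-parity `b` (odd
coordinate `psi` when `a = true`).  `W x y a b i j = sc (V x y a b i j) • V y x b a j i` = coordinate
vector along the `x`-edge (fixed `x`-label), seen from the corner `(a,b)`.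

* `edge`: for every `x`-edge the polynomial condition in `W x y false b` and in `W x y true b` are
  the same;
* `chart_bij`: the corner charts are bijections.
-/

set_option autoImplicit false
set_option linter.unusedSectionVars false

namespace Crest.Agent.R289.TwoSq79

open Polynomial Exp820 Exp820.Sk
open RSlin750 (rp pt sc lin Cd)

variable {K : Type*} [Field K] {σ : K →+* K}

/-! ### odd coordinate -/

variable (σ) in
/-- odd coordinate vector -/
noncomputable def psi (x : K) (l : K × K) : K × K := (σ (fl σ x l).1, σ (fl σ x l).2)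

theorem psi_ne (hσ : ∀ a, σ (σ a) = a) {x : K} (hx : Pl σ x) {l : K × K} (hl : l ≠ 0) :
    psi σ x l ≠ 0 := by
  intro h
  apply fl_ne_zero hσ hx hl
  have h1 : σ (fl σ x l).1 = 0 := congrArg Prod.fst h
  have h2 : σ (fl σ x l).2 = 0 := congrArg Prod.snd h
  exact Prod.ext ((map_eq_zero σ).1 h1) ((map_eq_zero σ).1 h2)

theorem D_smul (c y : K) (l : K × K) : D σ y (c • l) = (c * σ c) * D σ y l := by
  simp only [D, Prod.smul_fst, Prod.smul_snd, smul_eq_mul, map_mul]; ring

theorem fl_smul {c : K} (hc : c ≠ 0) (x : K) (l : K × K) :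
    fl σ x (c • l) = c⁻¹ • fl σ x l := by
  have hsc : σ c ≠ 0 := (map_ne_zero σ).2 hc
  ext
  · simp only [fl, D_smul, Prod.smul_fst, Prod.smul_snd, smul_eq_mul, map_mul]
    rw [show (σ x - x) * (σ c * σ l.2) = σ c * ((σ x - x) * σ l.2) by ring,
      show c * σ c * D σ (σ x) l = σ c * (c * D σ (σ x) l) by ring, mul_div_mul_left _ _ hsc,
      mul_comm c, ← div_div, div_eq_mul_inv _ c]
    ring
  · simp only [fl, D_smul, Prod.smul_fst, Prod.smul_snd, smul_eq_mul, map_mul]
    rw [show (σ x - x) * (σ c * σ l.1) = σ c * ((σ x - x) * σ l.1) by ring,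
      show σ x * (c * σ c * D σ x l) = σ c * (σ x * D σ x l * c) by ring,
      mul_div_mul_left _ _ hsc, ← div_div, div_eq_mul_inv _ c]
    ring

theorem psi_smul {c : K} (hc : c ≠ 0) (x : K) (l : K × K) :
    psi σ x (c • l) = (σ c)⁻¹ • psi σ x l := by
  ext
  · simp only [psi, fl_smul hc, Prod.smul_fst, smul_eq_mul, map_mul, map_inv₀]
  · simp only [psi, fl_smul hc, Prod.smul_snd, smul_eq_mul, map_mul, map_inv₀]

/-- transport of the image direction -/
theorem fl_act (hσ : ∀ a, σ (σ a) = a) {x y : K} (h : Pl2 σ x y) {l m : K × K} (hl : l ≠ 0)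
    (hm : m ≠ 0) :
    (N (be y m : Sk σ)).eval x • fl σ x (act x l (be y m : Sk σ))
      = act x (fl σ x l) (be y (act y m (be x l : Sk σ)) : Sk σ) := by
  have hl' : act x l (be y m : Sk σ) ≠ 0 := act_ne_zero hl (N_be_ne hσ h.hy hm h.ne h.nes)
  obtain ⟨n, hn⟩ := exists_dt_one hl
  have e1 : act x (act x n (be y m : Sk σ)) (be x (act x l (be y m : Sk σ)) : Sk σ)
      = (N (be y m : Sk σ)).eval x • fl σ x (act x l (be y m : Sk σ)) := by
    rw [act_be hσ h.hx hl', dt_act, hn, mul_one]
  have e2 : act x (act x n (be y m : Sk σ)) (be x (act x l (be y m : Sk σ)) : Sk σ)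
      = act x (fl σ x l) (be y (act y m (be x l : Sk σ)) : Sk σ) := by
    rw [← act_mul hσ, ← comm hσ h hl hm, act_mul hσ, act_be hσ h.hx hl, hn, one_smul]
  rw [← e1, e2]

/-- entries of the conjugate of the action -/
theorem conj_act (x : K) (v : K × K) (r : Sk σ) :
    (σ (act x v r).1, σ (act x v r).2)
      = lin (σ ((sg σ r.re).eval x)) (-(σ x * σ (r.im.eval x)))
          (-σ ((sg σ r.im).eval x)) (σ (r.re.eval x)) (σ v.1, σ v.2) := by
  ext
  · simp only [act, lin, map_sub, map_mul]; ring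
  · simp only [act, lin, map_sub, map_mul]; ring

theorem act_lin (x : K) (v : K × K) (r : Sk σ) :
    act x v r = lin ((sg σ r.re).eval x) (-(x * r.im.eval x)) (-((sg σ r.im).eval x))
      (r.re.eval x) v := by
  ext
  · simp only [act, lin]; ring
  · simp only [act, lin]; ring

theorem act_lin_det (x : K) (r : Sk σ) :
    (sg σ r.re).eval x * r.re.eval x - -(x * r.im.eval x) * -((sg σ r.im).eval x)
      = (N r).eval x := by
  simp only [N, eval_sub, eval_mul, eval_X]; ring

/-- transport of the odd coordinate: linear, the matrix depends only on the odd label -/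
theorem psi_act (hσ : ∀ a, σ (σ a) = a) {x y : K} (h : Pl2 σ x y) {l m : K × K} (hl : l ≠ 0)
    (hm : m ≠ 0) {w : K × K} (hw : (be y w : Sk σ) = be y (act y m (be x l : Sk σ))) :
    psi σ x (act x l (be y m : Sk σ))
      = (σ ((N (be y m : Sk σ)).eval x))⁻¹ •
        lin (σ ((sg σ (be y w : Sk σ).re).eval x)) (-(σ x * σ ((be y w : Sk σ).im.eval x)))
          (-σ ((sg σ (be y w : Sk σ).im).eval x)) (σ ((be y w : Sk σ).re.eval x)) (psi σ x l) := by
  have n0 : σ ((N (be y m : Sk σ)).eval x) ≠ 0 :=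
    (map_ne_zero σ).2 (N_be_ne hσ h.hy hm h.ne h.nes)
  have e := fl_act hσ h hl hm
  rw [← hw] at e
  have e' : σ ((N (be y m : Sk σ)).eval x) • psi σ x (act x l (be y m : Sk σ))
      = (σ (act x (fl σ x l) (be y w : Sk σ)).1, σ (act x (fl σ x l) (be y w : Sk σ)).2) := by
    rw [← e]
    ext
    · simp only [psi, Prod.smul_fst, smul_eq_mul, map_mul]
    · simp only [psi, Prod.smul_snd, smul_eq_mul, map_mul]
  rw [conj_act] at e'
  rw [show psi σ x l = (σ (fl σ x l).1, σ (fl σ x l).2) from rfl, ← e', smul_smul,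
    inv_mul_cancel₀ n0, one_smul]

/-! ### corner coordinates -/

variable (σ) in
/-- `x`-vector at the corners of `y`-parity `b` -/
noncomputable def U (x y : K) (b : Bool) (i j : Option K) : K × K :=
  if b then act x (rp i) (be y (rp j) : Sk σ) else rp i

variable (σ) in
/-- `x`-coordinate at the corner of `x`-parity `a`, `y`-parity `b` -/
noncomputable def V (x y : K) (a b : Bool) (i j : Option K) : K × K :=
  if a then psi σ x (U σ x y b i j) else U σ x y b i j

variable (σ) in
/-- coordinate vector along the `x`-edge seen from the corner `(a,b)` -/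
noncomputable def W (x y : K) (a b : Bool) (i j : Option K) : K × K :=
  sc (V σ x y a b i j) • V σ y x b a j i

theorem U_ne (hσ : ∀ a, σ (σ a) = a) {x y : K} (h : Pl2 σ x y) (b : Bool) (i j : Option K) :
    U σ x y b i j ≠ 0 := by
  cases b
  · exact rp_ne i
  · exact act_ne_zero (rp_ne i) (N_be_ne hσ h.hy (rp_ne j) h.ne h.nes)

theorem V_ne (hσ : ∀ a, σ (σ a) = a) {x y : K} (h : Pl2 σ x y) (a b : Bool) (i j : Option K) :
    V σ x y a b i j ≠ 0 := by
  cases a
  · exact U_ne hσ h b i j
  · exact psi_ne hσ h.hx (U_ne hσ h b i j)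

theorem W_ne (hσ : ∀ a, σ (σ a) = a) {x y : K} (h : Pl2 σ x y) (a b : Bool) (i j : Option K) :
    W σ x y a b i j ≠ 0 :=
  smul_ne_zero (sc_ne (V_ne hσ h a b i j)) (V_ne hσ (h.symm hσ) b a j i)

/-- norm of `be` at another place does not depend on the line -/
theorem N_be_eval_eq (hσ : ∀ a, σ (σ a) = a) {x : K} (hx : Pl σ x) {l l' : K × K} (hl : l ≠ 0)
    (hl' : l' ≠ 0) (y : K) : (N (be x l : Sk σ)).eval y = (N (be x l' : Sk σ)).eval y := by
  rw [N_be hσ hx hl, N_be hσ hx hl']

/-- **edge theorem**: on the `x`-edge with label `v` (`y`-parity `b`) the two vectors differ by an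
invertible linear map and scalars with constant `D`-th power -/
theorem edge_lin (hσ : ∀ a, σ (σ a) = a) {x y : K} (h : Pl2 σ x y) (Dg : ℕ)
    (hD : ∀ c : K, c ≠ 0 → (c * σ c) ^ Dg = 1) (b : Bool) (v : Option K) :
    ∃ A B C E κ : K, A * E - B * C ≠ 0 ∧ κ ≠ 0 ∧ ∀ i j : Option K, pt (U σ x y b i j) = v →
      ∃ r : K, r ^ Dg = κ ∧ W σ x y true b i j = r • lin A B C E (W σ x y false b i j) := by
  have hv := rp_ne (K := K) v
  have n0 : (N (be x (rp v) : Sk σ)).eval y ≠ 0 := N_be_ne hσ h.hx hv h.ne.symm (h.nes' hσ)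
  cases b
  · -- even x-edges
    refine ⟨(sg σ (be x (rp v) : Sk σ).re).eval y, -(y * (be x (rp v) : Sk σ).im.eval y),
      -((sg σ (be x (rp v) : Sk σ).im).eval y), (be x (rp v) : Sk σ).re.eval y,
      (sc (psi σ x (rp v))) ^ Dg, ?_, ?_, ?_⟩
    · rw [act_lin_det]; exact n0
    · exact pow_ne_zero _ (sc_ne (psi_ne hσ h.hx hv))
    · intro i j hi
      have hi' : i = v := by rw [← hi]; exact (pt_rp i).symm
      subst hi'
      refine ⟨sc (psi σ x (rp i)), rfl, ?_⟩
      have e1 : W σ x y false false i j = rp j := by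
        simp only [W, V, U, Bool.false_eq_true, if_false, sc_rp, one_smul]
      rw [e1, ← act_lin]
      simp [W, V, U]
  · -- odd x-edges
    have ns : σ ((N (be x (rp v) : Sk σ)).eval y) ≠ 0 := (map_ne_zero σ).2 n0
    refine ⟨σ ((sg σ (be x (rp v) : Sk σ).re).eval y),
      -(σ y * σ ((be x (rp v) : Sk σ).im.eval y)),
      -σ ((sg σ (be x (rp v) : Sk σ).im).eval y), σ ((be x (rp v) : Sk σ).re.eval y),
      (sc (psi σ x (rp v)) * (σ ((N (be x (rp v) : Sk σ)).eval y))⁻¹) ^ Dg, ?_, ?_, ?_⟩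
    · have e : σ ((sg σ (be x (rp v) : Sk σ).re).eval y) * σ ((be x (rp v) : Sk σ).re.eval y)
          - -(σ y * σ ((be x (rp v) : Sk σ).im.eval y)) * -σ ((sg σ (be x (rp v) : Sk σ).im).eval y)
          = σ ((N (be x (rp v) : Sk σ)).eval y) := by
        rw [← act_lin_det]
        simp only [map_sub, map_mul, map_neg]
      rw [e]; exact ns
    · exact pow_ne_zero _ (mul_ne_zero (sc_ne (psi_ne hσ h.hx hv)) (inv_ne_zero ns))
    · intro i j hij
      have hU := U_ne hσ h true i j
      set d := sc (U σ x y true i j) with hd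
      have hd0 : d ≠ 0 := sc_ne hU
      have hsd0 : σ d ≠ 0 := (map_ne_zero σ).2 hd0
      have eU : U σ x y true i j = d • rp v := by rw [← hij, hd]; exact (sc_smul_rp _).symm
      have hbe : (be x (rp v) : Sk σ) = be x (act x (rp i) (be y (rp j) : Sk σ)) := by
        have e3 : act x (rp i) (be y (rp j) : Sk σ) = d • rp v := by
          rw [← eU]; simp [U]
        rw [e3, be_smul hd0]
      have e4 := psi_act hσ (h.symm hσ) (l := rp j) (m := rp i) (rp_ne j) (rp_ne i) hbe
      have e5 : (N (be x (rp i) : Sk σ)).eval y = (N (be x (rp v) : Sk σ)).eval y :=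
        N_be_eval_eq hσ h.hx (rp_ne i) hv y
      rw [e5] at e4
      have w0 : W σ x y false true i j = d • psi σ y (rp j) := by
        rw [hd]; simp [W, V, U]
      have w1 : W σ x y true true i j
          = sc (psi σ x (U σ x y true i j)) • psi σ y (act y (rp j) (be x (rp i) : Sk σ)) := by
        simp [W, V, U]
      refine ⟨sc (psi σ x (rp v)) * (σ ((N (be x (rp v) : Sk σ)).eval y))⁻¹ * (d * σ d)⁻¹, ?_, ?_⟩
      · rw [mul_pow _ ((d * σ d)⁻¹), inv_pow, hD d hd0, inv_one, mul_one]
      · rw [w1, e4, w0, RSlin750.lin_smul, eU, psi_smul hd0, sc_smul (inv_ne_zero hsd0), smul_smul,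
          smul_smul]
        congr 1
        field_simp

section values

variable {A : Type*} [AddCommGroup A] [Module K A]

/-- the edge condition is the same from both ends -/
theorem edge (hσ : ∀ a, σ (σ a) = a) {x y : K} (h : Pl2 σ x y) (Dg : ℕ)
    (hD : ∀ c : K, c ≠ 0 → (c * σ c) ^ Dg = 1) (b : Bool) (v : Option K)
    {T : Type*} (si sj : T → Option K) (hs : ∀ t, pt (U σ x y b (si t) (sj t)) = v) (u : T → A) :
    Cd Dg (fun t => W σ x y false b (si t) (sj t)) u ↔
      Cd Dg (fun t => W σ x y true b (si t) (sj t)) u := by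
  obtain ⟨A', B', C', E', κ, hdet, hκ, hr⟩ := edge_lin hσ h Dg hD b v
  exact RSlin750.cd_iff hdet hκ fun t => hr (si t) (sj t) (hs t)

end values

/-! ### polynomial form -/

theorem hev_ev_iff {T : Type*} (s : ℕ) (f : T → K) (g : T → Option K) :
    (∃ c : ℕ → K, ∀ t, f t = RSlin750.hev s c (rp (g t))) ↔
      ∃ p : K[X], p.natDegree ≤ s ∧ ∀ t, f t = PS459.ev s p (g t) := by
  constructor
  · rintro ⟨c, hc⟩
    refine ⟨∑ j ∈ Finset.range (s + 1), C (c j) * X ^ j, ?_, ?_⟩
    · refine natDegree_sum_le_of_forall_le _ _ fun j hj => ?_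
      exact (natDegree_C_mul_X_pow_le _ _).trans (Nat.lt_succ_iff.mp (Finset.mem_range.mp hj))
    · intro t
      rw [hc]
      cases g t with
      | some z =>
        rw [RSlin750.hev_rp_some]
        simp only [PS459.ev]
        rw [eval_finsetSum]
        refine Finset.sum_congr rfl fun j _ => ?_
        rw [eval_mul, eval_pow, eval_X, eval_C, smul_eq_mul, mul_comm]
      | none =>
        rw [RSlin750.hev_rp_none]
        simp only [PS459.ev]
        rw [finsetSum_coeff]
        simp only [coeff_C_mul_X_pow]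
        rw [Finset.sum_ite_eq, if_pos (by simp)]
  · rintro ⟨p, hp, h1⟩
    refine ⟨fun j => p.coeff j, fun t => ?_⟩
    rw [h1]
    cases g t with
    | none => rw [RSlin750.hev_rp_none]; rfl
    | some z =>
      rw [RSlin750.hev_rp_some]
      simp only [PS459.ev]
      rw [eval_eq_sum_range' (Nat.lt_succ_of_le hp)]
      refine Finset.sum_congr rfl fun j _ => ?_
      rw [smul_eq_mul, mul_comm]

/-- condition on vectors = polynomial condition on points with scalars -/
theorem Cd_iff_ev {T : Type*} (s : ℕ) {w : T → K × K} (hw : ∀ t, w t ≠ 0) (u : T → K) :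
    Cd s w u ↔ ∃ p : K[X], p.natDegree ≤ s ∧
      ∀ t, ((sc (w t))⁻¹) ^ s * u t = PS459.ev s p (pt (w t)) := by
  rw [RSlin750.cd_iff_rp hw]
  exact hev_ev_iff s (fun t => ((sc (w t))⁻¹) ^ s * u t) (fun t => pt (w t))

variable (σ) in
/-- scalar of the square `(i,j)` at the corner `(a,b)`; the multiplier for bidegree `(s,s)` is
`(mus ..)^s` -/
noncomputable def mus (x y : K) (a b : Bool) (i j : Option K) : K :=
  (sc (V σ x y a b i j) * sc (V σ y x b a j i))⁻¹

theorem mus_ne (hσ : ∀ a, σ (σ a) = a) {x y : K} (h : Pl2 σ x y) (a b : Bool) (i j : Option K) :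
    mus σ x y a b i j ≠ 0 :=
  inv_ne_zero (mul_ne_zero (sc_ne (V_ne hσ h a b i j)) (sc_ne (V_ne hσ (h.symm hσ) b a j i)))

theorem mus_symm (x y : K) (a b : Bool) (i j : Option K) :
    mus σ x y a b i j = mus σ y x b a j i := by
  simp only [mus, mul_comm]

/-- **edge theorem, polynomial form** (an `x`-edge, `y`-parity `b`, label `v`; `t` runs over the
squares of the edge) -/
theorem edge_ev (hσ : ∀ a, σ (σ a) = a) {x y : K} (h : Pl2 σ x y) (Dg : ℕ)
    (hD : ∀ c : K, c ≠ 0 → (c * σ c) ^ Dg = 1) (b : Bool) (v : Option K)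
    {T : Type*} (si sj : T → Option K) (hs : ∀ t, pt (U σ x y b (si t) (sj t)) = v) (u : T → K) :
    (∃ p : K[X], p.natDegree ≤ Dg ∧ ∀ t, mus σ x y false b (si t) (sj t) ^ Dg * u t
        = PS459.ev Dg p (pt (V σ y x b false (sj t) (si t)))) ↔
      ∃ p : K[X], p.natDegree ≤ Dg ∧ ∀ t, mus σ x y true b (si t) (sj t) ^ Dg * u t
        = PS459.ev Dg p (pt (V σ y x b true (sj t) (si t))) := by
  have key : ∀ a : Bool, Cd Dg (fun t => W σ x y a b (si t) (sj t)) u ↔
      ∃ p : K[X], p.natDegree ≤ Dg ∧ ∀ t, mus σ x y a b (si t) (sj t) ^ Dg * u t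
        = PS459.ev Dg p (pt (V σ y x b a (sj t) (si t))) := by
    intro a
    rw [Cd_iff_ev Dg (fun t => W_ne hσ h a b (si t) (sj t)) u]
    simp only [W, mus, sc_smul (sc_ne (V_ne hσ h a b _ _)), pt_smul (sc_ne (V_ne hσ h a b _ _))]
  rw [← key false, ← key true]
  exact edge hσ h Dg hD b v si sj hs u

/-! ### charts are bijective -/

theorem psi_line_inj (hσ : ∀ a, σ (σ a) = a) {x : K} (hx : Pl σ x) {l n : K × K} (hl : l ≠ 0)
    (hn : n ≠ 0) (h : pt (psi σ x l) = pt (psi σ x n)) : pt l = pt n := by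
  -- `fl l` and `fl n` are proportional
  have hfl : dt (fl σ x l) (fl σ x n) = 0 := by
    have e := (pt_eq_iff (psi_ne hσ hx hl) (psi_ne hσ hx hn)).1 h
    have e' : σ (dt (fl σ x l) (fl σ x n)) = 0 := by
      rw [← e]; simp only [dt, psi, map_sub, map_mul]
    exact (map_eq_zero σ).1 e'
  -- `conj (be l)` kills `fl l`
  have kill : ∀ {l : K × K}, l ≠ 0 → act x (fl σ x l) (conj (be x l : Sk σ)) = 0 := by
    intro l hl
    obtain ⟨m, hm⟩ := exists_dt_one hl
    have e1 : act x m (be x l : Sk σ) = fl σ x l := by rw [act_be hσ hx hl, hm, one_smul]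
    have e2 : (be x l * conj (be x l : Sk σ) : Sk σ) = ⟨N (be x l : Sk σ), 0⟩ := by
      ext1
      · simp only [mul_re, conj, N, map_neg]; ring
      · simp only [mul_im, conj, sg_sg hσ]; ring
    rw [← e1, ← act_mul hσ, e2]
    have e3 : (N (be x l : Sk σ)).eval x = 0 := N_be_self hσ hx hl
    ext
    · simp [act, sg_N hσ, e3]
    · simp [act, e3]
  have hfn := fl_ne_zero hσ hx hn
  have k1 := kill hl
  have k2 : act x (fl σ x l) (conj (be x n : Sk σ)) = 0 := by
    have hp := (pt_eq_iff (fl_ne_zero hσ hx hl) hfn).2 hfl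
    have : fl σ x l = (sc (fl σ x l) * (sc (fl σ x n))⁻¹) • fl σ x n := by
      conv_lhs => rw [← sc_smul_rp (fl σ x l), hp]
      conv_rhs => rw [← sc_smul_rp (fl σ x n)]
      rw [smul_smul, mul_assoc, sc_smul (sc_ne hfn), sc_rp, mul_one,
        inv_mul_cancel₀ (sc_ne hfn), mul_one]
    rw [this, act_smul, kill hn, smul_zero]
  have hN : (N (sub (be x l : Sk σ) (be x n))).eval x = 0 := by
    have e : N (sub (be x l : Sk σ) (be x n))
        = N (sub (conj (be x l : Sk σ)) (conj (be x n : Sk σ))) := by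
      simp only [N, sub, conj, map_sub, map_neg, sg_sg hσ]
      ring
    rw [e]
    refine N_eval_of_act_zero (fl_ne_zero hσ hx hl) ?_
    rw [act_sub, k1, k2, sub_zero]
  obtain ⟨b0, b1, b2⟩ := be_sub_bounds (σ := σ) x l n
  have hbe : (be x l : Sk σ) = be x n := eq_of_sub (small_one hσ hx _ b0 b1 b2 hN)
  refine (pt_eq_iff hl hn).2 ?_
  have := dt_of_be_eq hσ hx hl hn hbe
  simp only [dt] at this ⊢
  linear_combination -this

variable (σ) in
/-- the odd chart on the labels -/
noncomputable def Ps (x : K) (i : Option K) : Option K := pt (psi σ x (rp i))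

theorem Ps_inj (hσ : ∀ a, σ (σ a) = a) {x : K} (hx : Pl σ x) : Function.Injective (Ps σ x) := by
  intro i j h
  have := psi_line_inj hσ hx (rp_ne i) (rp_ne j) h
  rwa [pt_rp, pt_rp] at this

theorem pt_psi (x : K) {l : K × K} (hl : l ≠ 0) :
    pt (psi σ x l) = Ps σ x (pt l) := by
  have hs : σ (sc l) ≠ 0 := (map_ne_zero σ).2 (sc_ne hl)
  conv_lhs => rw [← sc_smul_rp l]
  rw [psi_smul (sc_ne hl), pt_smul (inv_ne_zero hs), Ps]

/-- chart coordinate in terms of labels -/
theorem pt_V (hσ : ∀ a, σ (σ a) = a) {x y : K} (h : Pl2 σ x y) (a b : Bool) (i j : Option K) :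
    pt (V σ x y a b i j)
      = (if a then Ps σ x else id) (if b then Lx σ x y i j else i) := by
  cases a <;> cases b
  · simp [V, U]
  · simp [V, U, Lx]
  · simp only [V, U, Bool.false_eq_true, if_false, if_true]; rfl
  · simp only [V, U, if_true]
    rw [pt_psi x (act_ne_zero (rp_ne i) (N_be_ne hσ h.hy (rp_ne j) h.ne h.nes))]
    rfl

theorem pt_W (hσ : ∀ a, σ (σ a) = a) {x y : K} (h : Pl2 σ x y) (a b : Bool) (i j : Option K) :
    pt (W σ x y a b i j) = pt (V σ y x b a j i) :=
  pt_smul (sc_ne (V_ne hσ h a b i j)) _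

theorem sc_W (hσ : ∀ a, σ (σ a) = a) {x y : K} (h : Pl2 σ x y) (a b : Bool) (i j : Option K) :
    sc (W σ x y a b i j) = sc (V σ x y a b i j) * sc (V σ y x b a j i) :=
  sc_smul (sc_ne (V_ne hσ h a b i j)) _

/-- the corner charts are injective (bijective for finite `K`) -/
theorem chart_inj (hσ : ∀ a, σ (σ a) = a) {x y : K} (h : Pl2 σ x y) (a b : Bool) :
    Function.Injective (fun p : Option K × Option K =>
      (pt (V σ x y a b p.1 p.2), pt (V σ y x b a p.2 p.1))) := by
  rintro ⟨i, j⟩ ⟨i', j'⟩ e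
  have e1 : pt (V σ x y a b i j) = pt (V σ x y a b i' j') := congrArg Prod.fst e
  have e2 : pt (V σ y x b a j i) = pt (V σ y x b a j' i') := congrArg Prod.snd e
  rw [pt_V hσ h, pt_V hσ h] at e1
  rw [pt_V hσ (h.symm hσ), pt_V hσ (h.symm hσ)] at e2
  have f1 : (if b then Lx σ x y i j else i) = (if b then Lx σ x y i' j' else i') := by
    cases a
    · exact e1
    · exact Ps_inj hσ h.hx e1
  have f2 : (if a then Lx σ y x j i else j) = (if a then Lx σ y x j' i' else j') := by
    cases b
    · exact e2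
    · exact Ps_inj hσ h.hy e2
  cases a <;> cases b <;> simp only [Bool.false_eq_true, if_false, if_true] at f1 f2
  · rw [f1, f2]
  · subst f2
    rw [Lx_inj hσ h j f1]
  · subst f1
    rw [Lx_inj hσ (h.symm hσ) i f2]
  · obtain ⟨g1, g2⟩ := Phi_inj hσ h f1 f2
    rw [g1, g2]

theorem chart_bij [Finite K] (hσ : ∀ a, σ (σ a) = a) {x y : K} (h : Pl2 σ x y) (a b : Bool) :
    Function.Bijective (fun p : Option K × Option K =>
      (pt (V σ x y a b p.1 p.2), pt (V σ y x b a p.2 p.1))) :=
  Finite.injective_iff_bijective.1 (chart_inj hσ h a b)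

end Crest.Agent.R289.TwoSq79
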