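import Crest.Agent.R289.ExpCnt_820
import Crest.Agent.R289.RSlin_750

/-!
# TP4a: the two-place square complex of `K{τ}` in "constant term one" form (row 289, block B)

`Sk σ` (file `ExpCnt_820`) = elements `re + im τ`, `τ² = X`, `τ a = σ a τ`.  For a place `x`
(`x ≠ 0`, `σ x ≠ x`) the ring acts from the right on row vectors `K × K` (`act x`), and `be x l` is
the unique element `1 + β τ + γ τ²` killing the row vector `l`.

* `comm`: `be x l * be y (act y m (be x l)) = be y m * be x (act x l (be y m))`;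
* labels `i, j : Option K` (`rp none = (1,0)`, `rp (some z) = (z,1)`):
  `Lx x y i j` = `x`-label after the `y`-step, `Lx y x j i` = `y`-label after the `x`-step;
  bijectivity `Lx_bij`, `Phi_bij`;
* `fl`, `psi`: odd coordinate; `edge`: each of the four kinds of edge conditions is the same seen
  from its two ends.
-/

set_option autoImplicit false
set_option linter.unusedSectionVars false

namespace Crest.Agent.R289.TwoSq79

open Polynomial Exp820 Exp820.Sk
open RSlin750 (rp pt sc)

variable {K : Type*} [Field K] {σ : K →+* K}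

/-! ### the right action on row vectors -/

/-- row vector times ring element at the place `x` -/
noncomputable def act (x : K) (l : K × K) (r : Sk σ) : K × K :=
  ((sg σ r.re).eval x * l.1 - x * r.im.eval x * l.2,
   r.re.eval x * l.2 - (sg σ r.im).eval x * l.1)

theorem act_mul (hσ : ∀ a, σ (σ a) = a) (x : K) (l : K × K) (r s : Sk σ) :
    act x l (r * s) = act x (act x l r) s := by
  ext
  · simp only [act, mul_re, mul_im, map_add, map_mul, sg_sg hσ, sg_X, eval_add, eval_mul, eval_X]
    ring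
  · simp only [act, mul_re, mul_im, map_add, map_mul, sg_sg hσ, sg_X, eval_add, eval_mul, eval_X]
    ring

theorem act_one (x : K) (l : K × K) : act x l (1 : Sk σ) = l := by
  ext <;> simp [act]

theorem act_smul (x c : K) (l : K × K) (r : Sk σ) : act x (c • l) r = c • act x l r := by
  ext <;> simp [act] <;> ring

theorem act_zero (x : K) (r : Sk σ) : act x 0 r = 0 := by
  ext <;> simp [act]

theorem act_add (x : K) (l n : K × K) (r : Sk σ) : act x (l + n) r = act x l r + act x n r := by
  ext <;> simp [act] <;> ring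

/-- difference of two ring elements -/
noncomputable def sub (r s : Sk σ) : Sk σ := ⟨r.re - s.re, r.im - s.im⟩

theorem act_sub (x : K) (l : K × K) (r s : Sk σ) :
    act x l (sub r s) = act x l r - act x l s := by
  ext
  · simp only [act, sub, map_sub, eval_sub, Prod.fst_sub]; ring
  · simp only [act, sub, map_sub, eval_sub, Prod.snd_sub]; ring

/-- determinant of two row vectors -/
def dt (l n : K × K) : K := l.1 * n.2 - l.2 * n.1

theorem dt_act (x : K) (l n : K × K) (r : Sk σ) :
    dt (act x l r) (act x n r) = (N r).eval x * dt l n := by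
  simp only [dt, act, N, eval_sub, eval_mul, eval_X]
  ring

theorem dt_smul_left (c : K) (l n : K × K) : dt (c • l) n = c * dt l n := by
  simp only [dt, Prod.smul_fst, Prod.smul_snd, smul_eq_mul]; ring

theorem dt_zero_left (n : K × K) : dt 0 n = 0 := by simp [dt]

theorem dt_self (l : K × K) : dt l l = 0 := by simp only [dt]; ring

/-- a partner of determinant one -/
theorem exists_dt_one {l : K × K} (hl : l ≠ 0) : ∃ n, dt l n = 1 := by
  by_cases h1 : l.1 = 0
  · have h2 : l.2 ≠ 0 := fun h2 => hl (Prod.ext h1 h2)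
    refine ⟨(-(l.2)⁻¹, 0), ?_⟩
    simp only [dt, mul_zero, zero_sub, mul_neg, neg_neg]
    exact mul_inv_cancel₀ h2
  · refine ⟨(0, (l.1)⁻¹), ?_⟩
    simp only [dt, mul_zero, sub_zero]
    exact mul_inv_cancel₀ h1

theorem N_eval_of_act_zero {x : K} {l : K × K} (hl : l ≠ 0) {r : Sk σ} (h : act x l r = 0) :
    (N r).eval x = 0 := by
  obtain ⟨n, hn⟩ := exists_dt_one hl
  have := dt_act x l n r
  rw [h, hn, dt_zero_left, mul_one] at this
  exact this.symm

theorem act_ne_zero {x : K} {l : K × K} (hl : l ≠ 0) {r : Sk σ} (h : (N r).eval x ≠ 0) :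
    act x l r ≠ 0 := fun h0 => h (N_eval_of_act_zero hl h0)

theorem eval_conj (p : K[X]) (x : K) : (sg σ p).eval (σ x) = σ (p.eval x) := by
  simp only [sg, coe_mapRingHom, eval_map, eval₂_hom]

theorem sg_N (hσ : ∀ a, σ (σ a) = a) (r : Sk σ) : sg σ (N r) = N r := by
  simp only [N, map_sub, map_mul, sg_sg hσ, sg_X]
  ring

theorem N_eval_conj (hσ : ∀ a, σ (σ a) = a) (r : Sk σ) (x : K) :
    (N r).eval (σ x) = σ ((N r).eval x) := by
  rw [← eval_conj, sg_N hσ]

theorem eq_zero_of_N (r : Sk σ) (h : N r = 0) : r.re = 0 ∧ r.im = 0 := by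
  have hi : r.im = 0 := by
    by_contra hi
    have hsi : sg σ r.im ≠ 0 := fun h0 => hi (sg_injective (by rw [h0, map_zero]))
    have e : r.re * sg σ r.re = X * r.im * sg σ r.im := by
      have := h; unfold N at this; exact sub_eq_zero.1 this
    have hne : X * r.im * sg σ r.im ≠ 0 := mul_ne_zero (mul_ne_zero X_ne_zero hi) hsi
    have hre : r.re ≠ 0 := by
      intro h0; rw [h0, zero_mul] at e; exact hne e.symm
    have hsre : sg σ r.re ≠ 0 := fun h0 => hre (sg_injective (by rw [h0, map_zero]))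
    have d := congrArg natDegree e
    rw [natDegree_mul hre hsre, natDegree_mul (mul_ne_zero X_ne_zero hi) hsi,
      natDegree_mul X_ne_zero hi, natDegree_X, sg_natDegree, sg_natDegree] at d
    omega
  refine ⟨?_, hi⟩
  have e : r.re * sg σ r.re = 0 := by
    have := h; unfold N at this; rw [hi] at this; simpa using this
  rcases mul_eq_zero.1 e with h0 | h0
  · exact h0
  · exact sg_injective (by rw [h0, map_zero])

/-! ### the elements `be x l` -/

variable (σ) in
/-- `nm l0 - x nm l1` -/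
def D (x : K) (l : K × K) : K := l.1 * σ l.1 - x * (l.2 * σ l.2)

theorem D_conj (hσ : ∀ a, σ (σ a) = a) (x : K) (l : K × K) : σ (D σ x l) = D σ (σ x) l := by
  simp only [D, map_sub, map_mul, hσ]; ring

theorem D_ne_zero (hσ : ∀ a, σ (σ a) = a) {x : K} (hx : σ x ≠ x) {l : K × K} (hl : l ≠ 0) :
    D σ x l ≠ 0 := by
  intro h
  have h' : D σ (σ x) l = 0 := by rw [← D_conj hσ, h, map_zero]
  have e : (x - σ x) * (l.2 * σ l.2) = 0 := by
    have e1 : D σ (σ x) l - D σ x l = (x - σ x) * (l.2 * σ l.2) := by simp only [D]; ring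
    rw [← e1, h, h', sub_zero]
  have h2 : l.2 = 0 := by
    rcases mul_eq_zero.1 e with h0 | h0
    · exact absurd (sub_eq_zero.1 h0).symm hx
    · rcases mul_eq_zero.1 h0 with h1 | h1
      · exact h1
      · exact (map_eq_zero σ).1 h1
  have h1 : l.1 = 0 := by
    have : l.1 * σ l.1 = 0 := by
      have := h; simp only [D, h2, zero_mul, mul_zero, sub_zero] at this; exact this
    rcases mul_eq_zero.1 this with h0 | h0
    · exact h0
    · exact (map_eq_zero σ).1 h0
  exact hl (Prod.ext h1 h2)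

variable (σ) in
/-- coefficient of `τ` -/
noncomputable def bet (x : K) (l : K × K) : K := (x - σ x) * (l.1 * σ l.2) / (x * D σ (σ x) l)

variable (σ) in
/-- coefficient of `τ²` -/
noncomputable def gam (x : K) (l : K × K) : K := - D σ (σ x) l / (σ x * D σ x l)

/-- the element `1 + β τ + γ τ²` killing `l` at the place `x` -/
noncomputable def be (x : K) (l : K × K) : Sk σ := ⟨1 + C (gam σ x l) * X, C (bet σ x l)⟩

/-- a place -/
structure Pl (σ : K →+* K) (x : K) : Prop where
  ne0 : x ≠ 0
  ns : σ x ≠ x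

theorem Pl.sne0 {x : K} (hx : Pl σ x) : σ x ≠ 0 := (map_ne_zero σ).2 hx.ne0

theorem bet_conj (hσ : ∀ a, σ (σ a) = a) (x : K) (l : K × K) :
    σ (bet σ x l) = (σ x - x) * (σ l.1 * l.2) / (σ x * D σ x l) := by
  simp only [bet, map_div₀, map_mul, map_sub, hσ, D_conj hσ]

theorem gam_conj (hσ : ∀ a, σ (σ a) = a) (x : K) (l : K × K) :
    σ (gam σ x l) = - D σ x l / (x * D σ (σ x) l) := by
  simp only [gam, map_div₀, map_mul, map_neg, hσ, D_conj hσ]

/-- the image direction of `be x l` -/
noncomputable def fl (σ : K →+* K) (x : K) (l : K × K) : K × K :=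
  ((σ x - x) * σ l.2 / D σ (σ x) l, (σ x - x) * σ l.1 / (σ x * D σ x l))

theorem act_be (hσ : ∀ a, σ (σ a) = a) {x : K} (hx : Pl σ x) {l : K × K} (hl : l ≠ 0)
    (n : K × K) : act x n (be x l : Sk σ) = dt l n • fl σ x l := by
  have hD := D_ne_zero hσ hx.ns hl
  have hD' : D σ (σ x) l ≠ 0 := by rw [← D_conj hσ]; exact (map_ne_zero σ).2 hD
  have hx0 := hx.ne0
  have hsx0 := hx.sne0
  ext
  · simp only [act, be, map_add, map_one, map_mul, sg_C, sg_X, eval_add, eval_one, eval_mul,
      eval_C, eval_X, gam_conj hσ, bet, dt, fl, Prod.smul_fst, smul_eq_mul]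
    field_simp
    simp only [D]
    ring
  · simp only [act, be, sg_C, eval_add, eval_one, eval_mul,
      eval_C, eval_X, bet_conj hσ, gam, dt, fl, Prod.smul_snd, smul_eq_mul]
    field_simp
    simp only [D]
    ring

theorem act_be_self (hσ : ∀ a, σ (σ a) = a) {x : K} (hx : Pl σ x) {l : K × K} (hl : l ≠ 0) :
    act x l (be x l : Sk σ) = 0 := by
  rw [act_be hσ hx hl, dt_self, zero_smul]

theorem be_smul {c : K} (hc : c ≠ 0) (x : K) (l : K × K) :
    (be x (c • l) : Sk σ) = be x l := by
  have hsc : σ c ≠ 0 := (map_ne_zero σ).2 hc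
  have hn : c * σ c ≠ 0 := mul_ne_zero hc hsc
  have hD : ∀ y, D σ y (c • l) = (c * σ c) * D σ y l := by
    intro y; simp only [D, Prod.smul_fst, Prod.smul_snd, smul_eq_mul, map_mul]; ring
  have h1 : gam σ x (c • l) = gam σ x l := by
    simp only [gam, hD]
    rw [show -(c * σ c * D σ (σ x) l) = (c * σ c) * (- D σ (σ x) l) by ring,
      show σ x * (c * σ c * D σ x l) = (c * σ c) * (σ x * D σ x l) by ring,
      mul_div_mul_left _ _ hn]
  have h2 : bet σ x (c • l) = bet σ x l := by
    simp only [bet, hD, Prod.smul_fst, Prod.smul_snd, smul_eq_mul, map_mul]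
    rw [show (x - σ x) * (c * l.1 * (σ c * σ l.2)) = (c * σ c) * ((x - σ x) * (l.1 * σ l.2)) by ring,
      show x * (c * σ c * D σ (σ x) l) = (c * σ c) * (x * D σ (σ x) l) by ring,
      mul_div_mul_left _ _ hn]
  simp only [be, h1, h2]

theorem N_be (hσ : ∀ a, σ (σ a) = a) {x : K} (hx : Pl σ x) {l : K × K} (hl : l ≠ 0) :
    N (be x l : Sk σ) = C ((x * σ x)⁻¹) * XX σ x := by
  have hD := D_ne_zero hσ hx.ns hl
  have hD' : D σ (σ x) l ≠ 0 := by rw [← D_conj hσ]; exact (map_ne_zero σ).2 hD
  have hx0 := hx.ne0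
  have hsx0 := hx.sne0
  have e0 : (x * σ x)⁻¹ * (x * σ x) = 1 := inv_mul_cancel₀ (mul_ne_zero hx0 hsx0)
  have e1 : gam σ x l + σ (gam σ x l) - bet σ x l * σ (bet σ x l)
      = - ((x * σ x)⁻¹ * (x + σ x)) := by
    rw [gam_conj hσ, bet_conj hσ, gam, bet]
    field_simp
    simp only [D]
    ring
  have e2 : gam σ x l * σ (gam σ x l) = (x * σ x)⁻¹ := by
    rw [gam_conj hσ, gam]
    field_simp
  have h : N (be x l : Sk σ) = 1 + C (gam σ x l + σ (gam σ x l) - bet σ x l * σ (bet σ x l)) * X
      + C (gam σ x l * σ (gam σ x l)) * X ^ 2 := by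
    simp only [N, be, map_add, map_one, map_mul, sg_C, sg_X, map_sub]
    ring
  rw [h, e1, e2, XX]
  have e3 : (1 : K[X]) = C ((x * σ x)⁻¹) * (C x * C (σ x)) := by
    rw [← C_mul, ← C_mul, e0, C_1]
  simp only [C_neg, C_mul, C_add]
  linear_combination e3

theorem N_be_ne (hσ : ∀ a, σ (σ a) = a) {x : K} (hx : Pl σ x) {l : K × K} (hl : l ≠ 0) {y : K}
    (h1 : y ≠ x) (h2 : y ≠ σ x) : (N (be x l : Sk σ)).eval y ≠ 0 := by
  rw [N_be hσ hx hl]
  simp only [XX, eval_mul, eval_C, eval_sub, eval_X]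
  exact mul_ne_zero (inv_ne_zero (mul_ne_zero hx.ne0 hx.sne0))
    (mul_ne_zero (sub_ne_zero.2 h1) (sub_ne_zero.2 h2))

/-! ### uniqueness -/

/-- two different places -/
structure Pl2 (σ : K →+* K) (x y : K) : Prop where
  hx : Pl σ x
  hy : Pl σ y
  ne : x ≠ y
  nes : x ≠ σ y

theorem Pl2.nes' (hσ : ∀ a, σ (σ a) = a) {x y : K} (h : Pl2 σ x y) : y ≠ σ x := by
  intro e; apply h.nes; rw [e, hσ]

theorem Pl2.symm (hσ : ∀ a, σ (σ a) = a) {x y : K} (h : Pl2 σ x y) : Pl2 σ y x :=
  ⟨h.hy, h.hx, h.ne.symm, h.nes' hσ⟩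

theorem Pl2.ness {x y : K} (h : Pl2 σ x y) : σ x ≠ σ y := fun e => h.ne (σ.injective e)

/-- small elements with zero constant term which are singular at two places vanish -/
theorem small_two (hσ : ∀ a, σ (σ a) = a) {x y : K} (h : Pl2 σ x y) (δ : Sk σ)
    (h0 : δ.re.coeff 0 = 0) (h1 : δ.re.natDegree ≤ 2) (h2 : δ.im.natDegree ≤ 1)
    (hx : (N δ).eval x = 0) (hy : (N δ).eval y = 0) : δ.re = 0 ∧ δ.im = 0 := by
  classical
  apply eq_zero_of_N
  have hx' : (N δ).eval (σ x) = 0 := by rw [N_eval_conj hσ, hx, map_zero]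
  have hy' : (N δ).eval (σ y) = 0 := by rw [N_eval_conj hσ, hy, map_zero]
  have hz : (N δ).eval 0 = 0 := by
    simp only [N, eval_sub, eval_mul, eval_X, zero_mul, sub_zero]
    rw [← coeff_zero_eq_eval_zero, h0, zero_mul]
  have hdeg : (N δ).natDegree ≤ 4 := by
    unfold N
    refine (natDegree_sub_le _ _).trans (max_le ?_ ?_)
    · refine natDegree_mul_le.trans ?_
      rw [sg_natDegree]; omega
    · refine natDegree_mul_le.trans ?_
      have : (X * δ.im).natDegree ≤ 1 + 1 :=
        natDegree_mul_le.trans (by rw [natDegree_X]; omega)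
      rw [sg_natDegree]; omega
  refine eq_zero_of_natDegree_lt_card_of_eval_eq_zero' (N δ)
    ({0, x, σ x, y, σ y} : Finset K) ?_ ?_
  · intro i hi
    simp only [Finset.mem_insert, Finset.mem_singleton] at hi
    rcases hi with rfl | rfl | rfl | rfl | rfl
    · exact hz
    · exact hx
    · exact hx'
    · exact hy
    · exact hy'
  · have e : ({0, x, σ x, y, σ y} : Finset K).card = 5 := by
      rw [Finset.card_insert_of_notMem, Finset.card_insert_of_notMem,
        Finset.card_insert_of_notMem, Finset.card_insert_of_notMem, Finset.card_singleton]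
      · simp only [Finset.mem_singleton]; exact h.hy.ns.symm
      · simp only [Finset.mem_insert, Finset.mem_singleton, not_or]
        exact ⟨(h.nes' hσ).symm, h.ness⟩
      · simp only [Finset.mem_insert, Finset.mem_singleton, not_or]
        exact ⟨h.hx.ns.symm, h.ne, h.nes⟩
      · simp only [Finset.mem_insert, Finset.mem_singleton, not_or]
        exact ⟨h.hx.ne0.symm, h.hx.sne0.symm, h.hy.ne0.symm, h.hy.sne0.symm⟩
    rw [e]; omega

/-- small elements with zero constant term which are singular at one place vanish -/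
theorem small_one (hσ : ∀ a, σ (σ a) = a) {x : K} (h : Pl σ x) (δ : Sk σ)
    (h0 : δ.re.coeff 0 = 0) (h1 : δ.re.natDegree ≤ 1) (h2 : δ.im.natDegree ≤ 0)
    (hx : (N δ).eval x = 0) : δ.re = 0 ∧ δ.im = 0 := by
  classical
  apply eq_zero_of_N
  have hx' : (N δ).eval (σ x) = 0 := by rw [N_eval_conj hσ, hx, map_zero]
  have hz : (N δ).eval 0 = 0 := by
    simp only [N, eval_sub, eval_mul, eval_X, zero_mul, sub_zero]
    rw [← coeff_zero_eq_eval_zero, h0, zero_mul]
  have hdeg : (N δ).natDegree ≤ 2 := by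
    unfold N
    refine (natDegree_sub_le _ _).trans (max_le ?_ ?_)
    · refine natDegree_mul_le.trans ?_
      rw [sg_natDegree]; omega
    · refine natDegree_mul_le.trans ?_
      have : (X * δ.im).natDegree ≤ 1 + 0 :=
        natDegree_mul_le.trans (by rw [natDegree_X]; omega)
      rw [sg_natDegree]; omega
  refine eq_zero_of_natDegree_lt_card_of_eval_eq_zero' (N δ) ({0, x, σ x} : Finset K) ?_ ?_
  · intro i hi
    simp only [Finset.mem_insert, Finset.mem_singleton] at hi
    rcases hi with rfl | rfl | rfl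
    · exact hz
    · exact hx
    · exact hx'
  · have e : ({0, x, σ x} : Finset K).card = 3 := by
      rw [Finset.card_insert_of_notMem, Finset.card_insert_of_notMem, Finset.card_singleton]
      · simp only [Finset.mem_singleton]; exact h.ns.symm
      · simp only [Finset.mem_insert, Finset.mem_singleton, not_or]
        exact ⟨h.ne0.symm, h.sne0.symm⟩
    rw [e]; omega

theorem eq_of_sub {r s : Sk σ} (h : (sub r s).re = 0 ∧ (sub r s).im = 0) : r = s := by
  ext1
  · exact sub_eq_zero.1 h.1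
  · exact sub_eq_zero.1 h.2

theorem be_re_natDegree (x : K) (l : K × K) : (be x l : Sk σ).re.natDegree ≤ 1 := by
  simp only [be]; compute_degree

theorem be_im_natDegree (x : K) (l : K × K) : (be x l : Sk σ).im.natDegree ≤ 0 := by
  simp only [be]; compute_degree

theorem be_re_coeff (x : K) (l : K × K) : (be x l : Sk σ).re.coeff 0 = 1 := by
  simp [be]

theorem prod_re_natDegree (x y : K) (l m : K × K) :
    (be x l * be y m : Sk σ).re.natDegree ≤ 2 := by
  rw [mul_re]
  refine (natDegree_add_le _ _).trans (max_le ?_ ?_)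
  · exact natDegree_mul_le.trans (by
      have := be_re_natDegree (σ := σ) x l; have := be_re_natDegree (σ := σ) y m; omega)
  · refine natDegree_mul_le.trans ?_
    have h1 : (X * (be x l : Sk σ).im).natDegree ≤ 1 + 0 :=
      natDegree_mul_le.trans (by rw [natDegree_X]; have := be_im_natDegree (σ := σ) x l; omega)
    have := be_im_natDegree (σ := σ) y m
    rw [sg_natDegree]; omega

theorem prod_im_natDegree (x y : K) (l m : K × K) :
    (be x l * be y m : Sk σ).im.natDegree ≤ 1 := by
  rw [mul_im]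
  have := be_re_natDegree (σ := σ) x l
  have := be_re_natDegree (σ := σ) y m
  have := be_im_natDegree (σ := σ) x l
  have := be_im_natDegree (σ := σ) y m
  refine (natDegree_add_le _ _).trans (max_le ?_ ?_)
  · exact natDegree_mul_le.trans (by omega)
  · exact natDegree_mul_le.trans (by rw [sg_natDegree]; omega)

theorem prod_re_coeff (x y : K) (l m : K × K) :
    (be x l * be y m : Sk σ).re.coeff 0 = 1 := by
  rw [mul_re, coeff_add, mul_coeff_zero, be_re_coeff, be_re_coeff, mul_assoc, coeff_X_mul_zero]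
  ring

/-- difference of two products: degree bounds -/
theorem sub_prod_bounds (x y x' y' : K) (l m l' m' : K × K) :
    (sub (be x l * be y m : Sk σ) (be x' l' * be y' m')).re.coeff 0 = 0 ∧
    (sub (be x l * be y m : Sk σ) (be x' l' * be y' m')).re.natDegree ≤ 2 ∧
    (sub (be x l * be y m : Sk σ) (be x' l' * be y' m')).im.natDegree ≤ 1 := by
  refine ⟨?_, ?_, ?_⟩
  · simp only [sub, coeff_sub, prod_re_coeff, sub_self]
  · exact (natDegree_sub_le _ _).trans (max_le (prod_re_natDegree _ _ _ _)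
      (prod_re_natDegree _ _ _ _))
  · exact (natDegree_sub_le _ _).trans (max_le (prod_im_natDegree _ _ _ _)
      (prod_im_natDegree _ _ _ _))

/-- **unique factorisation**: the square relation -/
theorem comm (hσ : ∀ a, σ (σ a) = a) {x y : K} (h : Pl2 σ x y) {l m : K × K} (hl : l ≠ 0)
    (hm : m ≠ 0) :
    (be x l * be y (act y m (be x l : Sk σ)) : Sk σ)
      = be y m * be x (act x l (be y m : Sk σ)) := by
  have hm' : act y m (be x l : Sk σ) ≠ 0 :=
    act_ne_zero hm (N_be_ne hσ h.hx hl h.ne.symm (h.nes' hσ))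
  have hl' : act x l (be y m : Sk σ) ≠ 0 := act_ne_zero hl (N_be_ne hσ h.hy hm h.ne h.nes)
  apply eq_of_sub
  obtain ⟨b0, b1, b2⟩ := sub_prod_bounds (σ := σ) x y y x l (act y m (be x l : Sk σ)) m
    (act x l (be y m : Sk σ))
  refine small_two hσ h _ b0 b1 b2 ?_ ?_
  · refine N_eval_of_act_zero hl ?_
    rw [act_sub, act_mul hσ, act_be_self hσ h.hx hl, act_zero, act_mul hσ,
      act_be_self hσ h.hx hl', sub_zero]
  · refine N_eval_of_act_zero hm ?_
    rw [act_sub, act_mul hσ, act_be_self hσ h.hy hm', act_mul hσ, act_be_self hσ h.hy hm,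
      act_zero, sub_zero]

/-- `be x l = be x l'` only if `l`, `l'` are proportional -/
theorem fl_ne_zero (hσ : ∀ a, σ (σ a) = a) {x : K} (hx : Pl σ x) {l : K × K} (hl : l ≠ 0) :
    fl σ x l ≠ 0 := by
  have hD := D_ne_zero hσ hx.ns hl
  have hD' : D σ (σ x) l ≠ 0 := by rw [← D_conj hσ]; exact (map_ne_zero σ).2 hD
  intro h0
  have e1 : (σ x - x) * σ l.2 / D σ (σ x) l = 0 := congrArg Prod.fst h0
  have e2 : (σ x - x) * σ l.1 / (σ x * D σ x l) = 0 := congrArg Prod.snd h0
  have hs : σ x - x ≠ 0 := sub_ne_zero.2 hx.ns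
  rw [div_eq_zero_iff] at e1 e2
  have h2 : l.2 = 0 := by
    rcases e1 with e | e
    · rcases mul_eq_zero.1 e with e | e
      · exact absurd e hs
      · exact (map_eq_zero σ).1 e
    · exact absurd e hD'
  have h1 : l.1 = 0 := by
    rcases e2 with e | e
    · rcases mul_eq_zero.1 e with e | e
      · exact absurd e hs
      · exact (map_eq_zero σ).1 e
    · exact absurd e (mul_ne_zero hx.sne0 hD)
  exact hl (Prod.ext h1 h2)

theorem dt_of_be_eq (hσ : ∀ a, σ (σ a) = a) {x : K} (hx : Pl σ x) {l l' : K × K} (hl : l ≠ 0)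
    (hl' : l' ≠ 0) (h : (be x l : Sk σ) = be x l') : dt l' l = 0 := by
  have e : act x l (be x l' : Sk σ) = 0 := by rw [← h]; exact act_be_self hσ hx hl
  rw [act_be hσ hx hl'] at e
  rcases smul_eq_zero.1 e with h0 | h0
  · exact h0
  · exact absurd h0 (fl_ne_zero hσ hx hl')

/-! ### lines and labels -/

theorem rp_ne (i : Option K) : (rp i : K × K) ≠ 0 := RSlin750.rp_ne_zero i

theorem pt_rp (i : Option K) : pt (rp i : K × K) = i := RSlin750.pt_rp i

theorem sc_rp (i : Option K) : sc (rp i : K × K) = 1 := RSlin750.sc_rp i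

theorem sc_smul_rp (l : K × K) : sc l • rp (pt l) = l := RSlin750.sc_smul_rp l

theorem sc_ne {l : K × K} (hl : l ≠ 0) : sc l ≠ 0 := RSlin750.sc_ne_zero hl

theorem pt_smul {c : K} (hc : c ≠ 0) (l : K × K) : pt (c • l) = pt l := RSlin750.pt_smul hc l

theorem sc_smul {c : K} (hc : c ≠ 0) (l : K × K) : sc (c • l) = c * sc l := RSlin750.sc_smul hc l

theorem dt_smul_right (c : K) (l n : K × K) : dt l (c • n) = c * dt l n := by
  simp only [dt, Prod.smul_fst, Prod.smul_snd, smul_eq_mul]; ring

theorem dt_rp {i j : Option K} (h : dt (rp i) (rp j) = 0) : i = j := by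
  cases i with
  | none => cases j with
    | none => rfl
    | some w => simp [dt, rp] at h
  | some z => cases j with
    | none => simp [dt, rp] at h
    | some w =>
      simp only [dt, rp, mul_one, one_mul] at h
      rw [sub_eq_zero.1 h]

theorem pt_eq_iff {l n : K × K} (hl : l ≠ 0) (hn : n ≠ 0) : pt l = pt n ↔ dt l n = 0 := by
  have e : dt l n = sc l * (sc n * dt (rp (pt l)) (rp (pt n))) := by
    rw [← dt_smul_right, ← dt_smul_left, sc_smul_rp, sc_smul_rp]
  constructor
  · intro h; rw [e, h, dt_self, mul_zero, mul_zero]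
  · intro h
    rw [e] at h
    rcases mul_eq_zero.1 h with h | h
    · exact absurd h (sc_ne hl)
    · rcases mul_eq_zero.1 h with h | h
      · exact absurd h (sc_ne hn)
      · exact dt_rp h

variable (σ) in
/-- the `x`-label after the `y`-step with label `j` -/
noncomputable def Lx (x y : K) (i j : Option K) : Option K :=
  pt (act x (rp i) (be y (rp j) : Sk σ))

theorem be_pt (x : K) {l : K × K} (hl : l ≠ 0) : (be x (rp (pt l)) : Sk σ) = be x l := by
  conv_rhs => rw [← sc_smul_rp l]
  rw [be_smul (sc_ne hl)]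

/-- square relation for the labels -/
theorem comm_lab (hσ : ∀ a, σ (σ a) = a) {x y : K} (h : Pl2 σ x y) (i j : Option K) :
    (be x (rp i) * be y (rp (Lx σ y x j i)) : Sk σ) = be y (rp j) * be x (rp (Lx σ x y i j)) := by
  have hl := rp_ne (K := K) i
  have hm := rp_ne (K := K) j
  have hm' : act y (rp j) (be x (rp i) : Sk σ) ≠ 0 :=
    act_ne_zero hm (N_be_ne hσ h.hx hl h.ne.symm (h.nes' hσ))
  have hl' : act x (rp i) (be y (rp j) : Sk σ) ≠ 0 :=
    act_ne_zero hl (N_be_ne hσ h.hy hm h.ne h.nes)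
  rw [Lx, Lx, be_pt y hm', be_pt x hl', comm hσ h hl hm]

theorem Lx_inj (hσ : ∀ a, σ (σ a) = a) {x y : K} (h : Pl2 σ x y) (j : Option K) :
    Function.Injective (fun i => Lx σ x y i j) := by
  intro i i' e
  have hj := rp_ne (K := K) j
  have n0 := N_be_ne hσ h.hy hj h.ne h.nes
  have e' := (pt_eq_iff (act_ne_zero (rp_ne i) n0) (act_ne_zero (rp_ne i') n0)).1 e
  rw [dt_act] at e'
  rcases mul_eq_zero.1 e' with e' | e'
  · exact absurd e' n0
  · exact dt_rp e'

theorem be_rp_inj (hσ : ∀ a, σ (σ a) = a) {x : K} (hx : Pl σ x) :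
    Function.Injective (fun i : Option K => (be x (rp i) : Sk σ)) := fun i j e =>
  (dt_rp (dt_of_be_eq hσ hx (rp_ne i) (rp_ne j) e)).symm

theorem be_sub_bounds (x : K) (l n : K × K) :
    (sub (be x l : Sk σ) (be x n)).re.coeff 0 = 0 ∧
    (sub (be x l : Sk σ) (be x n)).re.natDegree ≤ 1 ∧
    (sub (be x l : Sk σ) (be x n)).im.natDegree ≤ 0 := by
  refine ⟨?_, ?_, ?_⟩
  · simp only [sub, coeff_sub, be_re_coeff, sub_self]
  · exact (natDegree_sub_le _ _).trans (max_le (be_re_natDegree _ _) (be_re_natDegree _ _))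
  · exact (natDegree_sub_le _ _).trans (max_le (be_im_natDegree _ _) (be_im_natDegree _ _))

theorem sub_mul (r s u : Sk σ) : sub (r * u) (s * u) = sub r s * u := by
  ext1
  · simp only [sub, mul_re]; ring
  · simp only [sub, mul_im]; ring

/-- right cancellation -/
theorem mul_right_cancel_N (hσ : ∀ a, σ (σ a) = a) {r s u : Sk σ} (hu : N u ≠ 0)
    (h : r * u = s * u) : r = s := by
  have e : sub r s * u = sub (s * u) (s * u) := by rw [← sub_mul, h]
  have e0 : N (sub r s * u) = 0 := by
    rw [e]; simp [N, sub]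
  rw [N_mul hσ] at e0
  rcases mul_eq_zero.1 e0 with e1 | e1
  · exact eq_of_sub (eq_zero_of_N _ e1)
  · exact absurd e1 hu

theorem N_be_ne_zero (hσ : ∀ a, σ (σ a) = a) {x : K} (hx : Pl σ x) {l : K × K} (hl : l ≠ 0) :
    N (be x l : Sk σ) ≠ 0 := by
  rw [N_be hσ hx hl]
  exact mul_ne_zero (C_ne_zero.2 (inv_ne_zero (mul_ne_zero hx.ne0 hx.sne0))) XX_ne_zero

theorem N_be_self (hσ : ∀ a, σ (σ a) = a) {x : K} (hx : Pl σ x) {l : K × K} (hl : l ≠ 0) :
    (N (be x l : Sk σ)).eval x = 0 := N_eval_of_act_zero hl (act_be_self hσ hx hl)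

/-- the two odd labels determine the two even labels -/
theorem Phi_inj (hσ : ∀ a, σ (σ a) = a) {x y : K} (h : Pl2 σ x y) {i j i' j' : Option K}
    (e1 : Lx σ x y i j = Lx σ x y i' j') (e2 : Lx σ y x j i = Lx σ y x j' i') :
    i = i' ∧ j = j' := by
  have c1 := comm_lab hσ h i j
  have c2 := comm_lab hσ h i' j'
  rw [← e1, ← e2] at c2
  set v := Lx σ x y i j
  set w := Lx σ y x j i
  have hv := rp_ne (K := K) v
  have hw := rp_ne (K := K) w
  have key : (be x (rp i) * be y (rp w) : Sk σ) = be x (rp i') * be y (rp w) := by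
    apply eq_of_sub
    obtain ⟨b0, b1, b2⟩ := sub_prod_bounds (σ := σ) x y x y (rp i) (rp w) (rp i') (rp w)
    refine small_two hσ h _ b0 b1 b2 ?_ ?_
    · rw [c1, c2, sub_mul, N_mul hσ, eval_mul, N_be_self hσ h.hx hv, mul_zero]
    · rw [sub_mul, N_mul hσ, eval_mul, N_be_self hσ h.hy hw, mul_zero]
  have hi : i = i' := be_rp_inj hσ h.hx (mul_right_cancel_N hσ (N_be_ne_zero hσ h.hy hw) key)
  refine ⟨hi, ?_⟩
  rw [hi, c2] at c1
  exact (be_rp_inj hσ h.hy (mul_right_cancel_N hσ (N_be_ne_zero hσ h.hx hv) c1)).symm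

theorem Lx_bij [Finite K] (hσ : ∀ a, σ (σ a) = a) {x y : K} (h : Pl2 σ x y) (j : Option K) :
    Function.Bijective (fun i => Lx σ x y i j) :=
  Finite.injective_iff_bijective.1 (Lx_inj hσ h j)

theorem Phi_bij [Finite K] (hσ : ∀ a, σ (σ a) = a) {x y : K} (h : Pl2 σ x y) :
    Function.Bijective
      (fun p : Option K × Option K => (Lx σ x y p.1 p.2, Lx σ y x p.2 p.1)) :=
  Finite.injective_iff_bijective.1 (by
    intro p p' e
    have := Phi_inj hσ h (congrArg Prod.fst e) (congrArg Prod.snd e)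
    exact Prod.ext this.1 this.2)

end Crest.Agent.R289.TwoSq79
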