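import Crest.Agent.R289.ULSteps_579
import Crest.Agent.R289.UFam_715

/-!
# Row 289: `fam289_of_sem` with the steps of the frame and the slots of the code separated (helper579)
-/

set_option autoImplicit false

namespace Crest.Agent.R289.ULTop579

open Crest.PPADPCP Crest.Agent.Lib.PT Crest.Agent.R289 Crest.Agent.R289.DefD
open Crest.Agent.R289.Asm12 Crest.Agent.R289.Word508 Crest.Agent.R289.ULoc406
open Crest.Agent.R289.ULAsm406 Crest.Agent.R289.UFam715 Crest.Agent.R289.ULSteps579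

variable {Inst St : Type} {U : Inst → Type} {A P ι0 P0 Jr J J' : Type} {V : J → Type}
    {V' : J' → Type} {D : Sem Inst U A Jr J J' V V'} {mv : ∀ i, St → U i → U i}
    {pub : ∀ i, U i → P} {nb0 : ∀ i, ι0 → U i → U i} {pub0 : ∀ i, U i → P0}

/-- **from the semantic machine to `Fam289`**, `D` local over the steps `mv` and the public data `pub`
of the frame, code slots `nb0` and code data `pub0` arbitrary -/
theorem fam289_of_sem' [Finite St] [Finite A] [Nonempty A] [Finite P] [Nonempty P] [Finite ι0]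
    [Finite P0] [Nonempty P0]
    [Finite Jr] [Finite J] [Finite J'] [∀ j, Finite (V j)] [∀ j, Finite (V' j)]
    [∀ i, Fintype (U i)] (hD : D.Loc mv pub) {R0 : CRules ι0 A P0}
    {C : ∀ i, Set (U i → A)} {w0 : ∀ i, U i → A} {m mm zs r0 d0 c θ g ρ : ℝ}
    (hcode : ∀ i, CAx R0 (nb0 i) (pub0 i) (C i) m zs r0 d0 c θ)
    (hmv : ∀ i, NbMult (mv i) mm) (hmm : 1 ≤ mm) (hzs : 0 < zs) (hr0 : 0 < r0) (hd0 : 0 < d0)
    (hc : 0 ≤ c) (hθ : θ ≤ 1 / 4) (hg : 0 < g) (hρ : 0 < ρ)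
    (hex : ∀ i, Exact D i (C i) (w0 i) g ρ) (gN gM : A → Bool)
    (H : ∀ n0 : ℕ, ∃ (T : BaseT (St ⊕ ι0) A (P × P0)) (a b : ℕ), T.PT ∧ ∀ I : EOL, I.WF →
      ∃ i : Inst, T.On I (mvS mv nb0 i) (pubS2 pub pub0 i) (w0 i) (D.W i (C i)) (D.N i) (D.M i)
        gN gM n0 a b) :
    Fam289 := by
  have hmono : ∀ {ι : Type} {V : Type} [Fintype V] {nb : ι → V → V} {m m' : ℝ},
      NbMult nb m → m ≤ m' → NbMult nb m' := fun h hm i E =>
    (h i E).trans (mul_le_mul_of_nonneg_right hm (frac_nonneg _))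
  exact fam289_of_sem (mv := mvS mv nb0) (pub := pubS2 pub pub0) (mm := max mm m) Real.inr
    (Sem.Loc.inl hD) hcode
    (fun i => nbMult_mvS (hmono (hmv i) (le_max_left _ _)) (hmono (hcode i).mult (le_max_right _ _)))
    (hmm.trans (le_max_left _ _)) hzs hr0 hd0 hc hθ hg hρ hex gN gM H

end Crest.Agent.R289.ULTop579
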