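import Crest.Agent.R289.ULocI_880
import Crest.Agent.R289.ULAsm_406

/-!
# Row 289, joint I2/C9: the step maps of the compiled machine on label words (helper880)

`ClkI` = clock words with local read, next, previous, wrap maps.  `EnAt`, `BkAt`, `StAt`, `X0At` =
pointwise flags of a bank word.  `stpN`, `stpM` = the step maps on label words with the reads
`y ρ` (`some` = a violated claim of `ρ` has been seen).  `stpN_run`, `stpM_run`: on the label word of a
legal configuration they are the steps of `Compile827.LM`.  `UL` of everything.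
-/

set_option autoImplicit false

namespace Crest.Agent.R289.ULocI880

open Finset DefC DefI Compile827 ULoc406 Crest.Agent.R289.Word508 ULAsm406

section one

variable {K : Type} [Field K] {c : Cst K} (I : Ins c) {Ck : Type}

/-- the clock of one instance: words `cw t`, read of the clock data, next, previous, the wrap maps -/
structure ClkI (Ck : Type) where
  cw : ℕ → I.U → Ck
  rd : (I.U → Ck) → I.U → c.TD
  nx : (I.U → Ck) → I.U → Ck
  pv : (I.U → Ck) → I.U → Ck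
  toz : (I.U → Ck) → I.U → Ck
  toL : (I.U → Ck) → I.U → Ck
  rd_eq : ∀ t, t ≤ I.L → rd (cw t) = fun u => I.td t u.2
  nx_eq : ∀ t, t < I.L → nx (cw t) = cw (t + 1)
  pv_eq : ∀ t, t < I.L → pv (cw (t + 1)) = cw t
  toz_eq : toz (cw I.L) = cw 0
  toL_eq : toL (cw 0) = cw I.L

/-! ### flags -/

/-- component `m` of a full certificate vanishes at the unit -/
def CZAt (B : c.Bank) (m : c.A.Comp) : Prop := ∀ s' a, B.X s' c.s0 a m = 0

/-- identity `i` holds at the unit -/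
def IZAt (B : I.U → c.Bank) (i : c.A.Idl) (u : I.U) : Prop :=
  ∀ s, I.evalW (c.A.idl i) (rR I B u.2) (u.1, s) = 0

def StAt (B : I.U → c.Bank) (u : I.U) : Prop :=
  (∀ m, c.A.leg (B u).stg m → CZAt (B u) m) ∧ ∀ i, c.A.legI (B u).stg i → IZAt I B i u

def EnAt (ρ : c.A.Tr) (B : I.U → c.Bank) (u : I.U) : Prop :=
  (B u).stg = c.A.src ρ ∧ (∀ m, c.A.en ρ m → CZAt (B u) m) ∧ ∀ i, c.A.enI ρ i → IZAt I B i u

def BkAt (ρ : c.A.Tr) (B : I.U → c.Bank) (u : I.U) : Prop :=
  (B u).stg = c.A.tgt ρ ∧ (∀ m, c.A.bk ρ m → CZAt (B u) m) ∧ ∀ i, c.A.bkI ρ i → IZAt I B i u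

def X0At (B : I.U → c.Bank) (u : I.U) : Prop :=
  (B u).stg = I.stg0 ∧ ∀ i s, (B u).R i s = I.x0 i (u.1, s)

theorem cz_iff [Nonempty I.T] (x : I.XW) (z : I.ZW) (m : c.A.Comp) :
    I.CZ z m ↔ ∀ u, CZAt (I.bankE x z u) m :=
  ⟨fun h u s' a => h (u.2, s') u.1 a, fun h p g a => h (g, p.1) p.2 a⟩

theorem iz_iff [Nonempty I.T] (x : I.XW) (z : I.ZW) (i : c.A.Idl) :
    I.IZ x i ↔ ∀ u, IZAt I (I.bankE x z) i u := by
  constructor
  · intro h u s
    exact h (u.1, s)
  · intro h ω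
    obtain ⟨τ⟩ := ‹Nonempty I.T›
    exact h (ω.1, τ) ω.2

theorem st_iff [Nonempty I.T] [Nonempty I.Γ] (x : I.XW) (z : I.ZW) :
    I.St x z ↔ ∀ u, StAt I (I.bankE x z) u := by
  constructor
  · rintro ⟨h1, h2⟩ u
    exact ⟨fun m hm => (cz_iff I x z m).1 (h1 m hm) u, fun i hi => (iz_iff I x z i).1 (h2 i hi) u⟩
  · intro h
    exact ⟨fun m hm => (cz_iff I x z m).2 fun u => (h u).1 m hm,
      fun i hi => (iz_iff I x z i).2 fun u => (h u).2 i hi⟩

theorem en_iff [Nonempty I.T] [Nonempty I.Γ] (ρ : c.A.Tr) (x : I.XW) (z : I.ZW) :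
    I.En ρ x z ↔ ∀ u, EnAt I ρ (I.bankE x z) u := by
  constructor
  · rintro ⟨h0, h1, h2⟩ u
    exact ⟨h0, fun m hm => (cz_iff I x z m).1 (h1 m hm) u,
      fun i hi => (iz_iff I x z i).1 (h2 i hi) u⟩
  · intro h
    obtain ⟨τ⟩ := ‹Nonempty I.T›
    obtain ⟨g⟩ := ‹Nonempty I.Γ›
    have : Nonempty I.T := ⟨τ⟩
    exact ⟨(h (g, τ)).1, fun m hm => (cz_iff I x z m).2 fun u => (h u).2.1 m hm,
      fun i hi => (iz_iff I x z i).2 fun u => (h u).2.2 i hi⟩

theorem bk_iff [Nonempty I.T] [Nonempty I.Γ] (ρ : c.A.Tr) (x : I.XW) (z : I.ZW) :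
    I.Bk ρ x z ↔ ∀ u, BkAt I ρ (I.bankE x z) u := by
  constructor
  · rintro ⟨h0, h1, h2⟩ u
    exact ⟨h0, fun m hm => (cz_iff I x z m).1 (h1 m hm) u,
      fun i hi => (iz_iff I x z i).1 (h2 i hi) u⟩
  · intro h
    obtain ⟨τ⟩ := ‹Nonempty I.T›
    obtain ⟨g⟩ := ‹Nonempty I.Γ›
    have : Nonempty I.T := ⟨τ⟩
    exact ⟨(h (g, τ)).1, fun m hm => (cz_iff I x z m).2 fun u => (h u).2.1 m hm,
      fun i hi => (iz_iff I x z i).2 fun u => (h u).2.2 i hi⟩

theorem x0_iff [Nonempty I.T] [Nonempty I.Γ] (x : I.XW) (z : I.ZW) :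
    x = I.xs ↔ ∀ u, X0At I (I.bankE x z) u := by
  constructor
  · rintro rfl u
    exact ⟨rfl, fun i s => rfl⟩
  · intro h
    obtain ⟨τ⟩ := ‹Nonempty I.T›
    obtain ⟨g⟩ := ‹Nonempty I.Γ›
    refine Prod.ext (h (g, τ)).1 ?_
    funext i ω
    exact (h (ω.1, τ)).2 i ω.2

/-! ### steps -/

open Classical in
/-- a label without a violated claim, if any -/
noncomputable def sel {R : Type} (P : R → Prop) : Option R :=
  if h : ∃ ρ, P ρ then some h.choose else none

theorem sel_congr {R : Type} {P Q : R → Prop} (h : ∀ ρ, P ρ ↔ Q ρ) : sel P = sel Q := by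
  have : P = Q := funext fun ρ => propext (h ρ)
  rw [this]

variable (k : ClkI I Ck)

/-- clock word, bank words of a label word -/
def ckw (w : I.U → c.Lab Ck) : I.U → Ck := fun u => (w u).ck
def bw1 (w : I.U → c.Lab Ck) : I.U → c.Bank := fun u => (w u).b1
def bw2 (w : I.U → c.Lab Ck) : I.U → c.Bank := fun u => (w u).b2

/-- forward step on label words; `o` = the selected label -/
def stpN (o : Option c.A.Tr) (w : I.U → c.Lab Ck) (u : I.U) : c.Lab Ck :=
  match (w u).l with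
  | .boot => if (k.rd (ckw I w) u).lst then
      ⟨.rest, k.toz (ckw I w) u, (w u).b2, regB I.stgz 0⟩
      else ⟨.boot, k.nx (ckw I w) u, (w u).b1, pushB I (k.rd (ckw I w)) (bw2 I w) u⟩
  | .rest => match o with
      | some ρ => ⟨.fw ρ, (w u).ck, (w u).b1, entB I (upB I ρ (bw1 I w)) u⟩
      | none => w u
  | .fw ρ => if (k.rd (ckw I w) u).lst then ⟨.bw ρ, (w u).ck, (w u).b1, (w u).b2⟩
      else ⟨.fw ρ, k.nx (ckw I w) u, (w u).b1, pushB I (k.rd (ckw I w)) (bw2 I w) u⟩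
  | .bw ρ => if (k.rd (ckw I w) u).fst then ⟨.rest, (w u).ck, (w u).b2, regB I.stgz 0⟩
      else ⟨.bw ρ, k.pv (ckw I w) u, popB I (k.rd (ckw I w)) (bw1 I w) u, (w u).b2⟩

/-- backward step on label words; `o` = the selected label, `b` = the bank is the start word -/
def stpM (o : Option c.A.Tr) (b : Bool) (w : I.U → c.Lab Ck) (u : I.U) : c.Lab Ck :=
  match (w u).l with
  | .boot => if (k.rd (ckw I w) u).fst then w u
      else ⟨.boot, k.pv (ckw I w) u, (w u).b1, popB I (k.rd (ckw I w)) (bw2 I w) u⟩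
  | .rest => match o with
      | some ρ => ⟨.bw ρ, (w u).ck, entB I (dnB I ρ (bw1 I w)) u, (w u).b1⟩
      | none => if b then ⟨.boot, k.toL (ckw I w) u, regB I.stgz 0, (w u).b1⟩ else w u
  | .fw ρ => if (k.rd (ckw I w) u).fst then ⟨.rest, (w u).ck, (w u).b1, regB I.stgz 0⟩
      else ⟨.fw ρ, k.pv (ckw I w) u, (w u).b1, popB I (k.rd (ckw I w)) (bw2 I w) u⟩
  | .bw ρ => if (k.rd (ckw I w) u).lst then ⟨.fw ρ, (w u).ck, (w u).b1, (w u).b2⟩
      else ⟨.bw ρ, k.nx (ckw I w) u, pushB I (k.rd (ckw I w)) (bw1 I w) u, (w u).b2⟩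

/-- the LM instance has the operations of `DefI` -/
structure IsLM (m : LM I.XW I.ZW c.A.Tr) : Prop where
  L : m.L = I.L
  push : m.push = I.push
  pop : m.pop = I.pop
  ent : m.ent = I.ent
  up : m.up = I.up
  dn : m.dn = I.dn
  xz : m.xz = I.xz
  zz : m.zz = I.zz
  x0 : m.x0 = I.xs
  En : m.En = I.En
  Bk : m.Bk = I.Bk

theorem stepN_rest (m : LM I.XW I.ZW c.A.Tr) (t : ℕ) (x1 : I.XW) (z1 : I.ZW) (x2 : I.XW)
    (z2 : I.ZW) : m.stepN ⟨.rest, t, x1, z1, x2, z2⟩ =
      match sel (fun ρ => m.En ρ x1 z1) with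
      | some ρ => ⟨.fw ρ, 0, x1, z1, m.up ρ x1, m.ent (m.up ρ x1)⟩
      | none => ⟨.rest, t, x1, z1, x2, z2⟩ := by
  by_cases h : ∃ ρ, m.En ρ x1 z1
  · have hs : sel (fun ρ => m.En ρ x1 z1) = some h.choose := by
      unfold sel; rw [dif_pos h]
    rw [hs]
    simp only [LM.stepN, dif_pos h]
  · have hs : sel (fun ρ => m.En ρ x1 z1) = none := by
      unfold sel; rw [dif_neg h]
    rw [hs]
    simp only [LM.stepN, dif_neg h]

open Classical in
theorem stepM_rest (m : LM I.XW I.ZW c.A.Tr) (t : ℕ) (x1 : I.XW) (z1 : I.ZW) (x2 : I.XW)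
    (z2 : I.ZW) : m.stepM ⟨.rest, t, x1, z1, x2, z2⟩ =
      match sel (fun ρ => m.Bk ρ x1 z1) with
      | some ρ => ⟨.bw ρ, 0, m.dn ρ x1, m.ent (m.dn ρ x1), x1, z1⟩
      | none => if x1 = m.x0 then ⟨.boot, m.L, m.xz, m.zz, x1, z1⟩
        else ⟨.rest, t, x1, z1, x2, z2⟩ := by
  by_cases h : ∃ ρ, m.Bk ρ x1 z1
  · have hs : sel (fun ρ => m.Bk ρ x1 z1) = some h.choose := by
      unfold sel; rw [dif_pos h]
    rw [hs]
    simp only [LM.stepM, dif_pos h]
  · have hs : sel (fun ρ => m.Bk ρ x1 z1) = none := by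
      unfold sel; rw [dif_neg h]
    rw [hs]
    simp only [LM.stepM, dif_neg h]

variable {I k}

theorem stpN_run {m : LM I.XW I.ZW c.A.Tr} (hm : IsLM I m) (f : Conf I.XW I.ZW c.A.Tr)
    (ht : f.t ≤ I.L) (hr : f.l = .rest → f.t = 0) :
    stpN I k (sel fun ρ => I.En ρ f.x1 f.z1) (I.labE k.cw f) = I.labE k.cw (m.stepN f) := by
  obtain ⟨l, t, x1, z1, x2, z2⟩ := f
  simp only at ht hr
  have hck : ckw I (I.labE k.cw ⟨l, t, x1, z1, x2, z2⟩) = k.cw t := rfl
  have h1 : bw1 I (I.labE k.cw ⟨l, t, x1, z1, x2, z2⟩) = I.bankE x1 z1 := rfl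
  have h2 : bw2 I (I.labE k.cw ⟨l, t, x1, z1, x2, z2⟩) = I.bankE x2 z2 := rfl
  have hrd := k.rd_eq t ht
  funext u
  cases l with
  | boot =>
    by_cases hL : t < I.L
    · have hl : (k.rd (k.cw t) u).lst = false := by
        rw [hrd]; simp [Ins.td]; omega
      simp only [stpN, LM.stepN, hm.L, hL, hck, h1, h2, hl, if_true, hm.push]
      show (⟨_, k.nx (k.cw t) u, _, _⟩ : c.Lab Ck) = _
      rw [k.nx_eq t hL, hrd, pushB_bankE]
      rfl
    · have he : t = I.L := by omega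
      subst he
      have hl : (k.rd (k.cw I.L) u).lst = true := by
        rw [hrd]; simp [Ins.td]
      simp only [stpN, LM.stepN, hm.L, hL, hck, h1, h2, hl, if_true, if_false, hm.xz, hm.zz]
      show (⟨_, k.toz (k.cw I.L) u, _, _⟩ : c.Lab Ck) = _
      rw [k.toz_eq]
      rfl
  | rest =>
    have ht0 : t = 0 := hr rfl
    subst ht0
    rw [stepN_rest, hm.En, hm.up, hm.ent]
    rcases sel (fun ρ => I.En ρ x1 z1) with _ | ρ
    · rfl
    · show (⟨_, _, _, entB I (upB I ρ (bw1 I _)) u⟩ : c.Lab Ck) = _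
      rw [h1, upB_bankE, entB_bankE]
      rfl
  | fw ρ =>
    by_cases hL : t < I.L
    · have hl : (k.rd (k.cw t) u).lst = false := by
        rw [hrd]; simp [Ins.td]; omega
      simp only [stpN, LM.stepN, hm.L, hL, hck, h1, h2, hl, if_true, hm.push]
      show (⟨_, k.nx (k.cw t) u, _, _⟩ : c.Lab Ck) = _
      rw [k.nx_eq t hL, hrd, pushB_bankE]
      rfl
    · have he : t = I.L := by omega
      subst he
      have hl : (k.rd (k.cw I.L) u).lst = true := by
        rw [hrd]; simp [Ins.td]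
      simp only [stpN, LM.stepN, hm.L, hL, hck, h1, h2, hl, if_true, if_false]
      rfl
  | bw ρ =>
    by_cases h0 : 0 < t
    · obtain ⟨t, rfl⟩ : ∃ a, t = a + 1 := ⟨t - 1, by omega⟩
      have hl : (k.rd (k.cw (t + 1)) u).fst = false := by
        rw [hrd]; simp [Ins.td]
      simp only [stpN, LM.stepN, h0, hck, h1, h2, hl, if_true, hm.pop, Nat.add_sub_cancel]
      show (⟨_, k.pv (k.cw (t + 1)) u, _, _⟩ : c.Lab Ck) = _
      rw [k.pv_eq t (by omega), hrd, popB_bankE]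
      rfl
    · have he : t = 0 := by omega
      subst he
      have hl : (k.rd (k.cw 0) u).fst = true := by
        rw [hrd]; simp [Ins.td]
      simp only [stpN, LM.stepN, h0, hck, h1, h2, hl, if_true, if_false, hm.xz, hm.zz]
      rfl

open Classical in
theorem stpM_run {m : LM I.XW I.ZW c.A.Tr} (hm : IsLM I m) (f : Conf I.XW I.ZW c.A.Tr)
    (ht : f.t ≤ I.L) (hr : f.l = .rest → f.t = 0) :
    stpM I k (sel fun ρ => I.Bk ρ f.x1 f.z1) (decide (f.x1 = I.xs)) (I.labE k.cw f) =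
      I.labE k.cw (m.stepM f) := by
  obtain ⟨l, t, x1, z1, x2, z2⟩ := f
  simp only at ht hr
  have hck : ckw I (I.labE k.cw ⟨l, t, x1, z1, x2, z2⟩) = k.cw t := rfl
  have h1 : bw1 I (I.labE k.cw ⟨l, t, x1, z1, x2, z2⟩) = I.bankE x1 z1 := rfl
  have h2 : bw2 I (I.labE k.cw ⟨l, t, x1, z1, x2, z2⟩) = I.bankE x2 z2 := rfl
  have hrd := k.rd_eq t ht
  funext u
  cases l with
  | boot =>
    by_cases h0 : 0 < t
    · obtain ⟨t, rfl⟩ : ∃ a, t = a + 1 := ⟨t - 1, by omega⟩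
      have hl : (k.rd (k.cw (t + 1)) u).fst = false := by
        rw [hrd]; simp [Ins.td]
      simp only [stpM, LM.stepM, h0, hck, h1, h2, hl, if_true, hm.pop, Nat.add_sub_cancel]
      show (⟨_, k.pv (k.cw (t + 1)) u, _, _⟩ : c.Lab Ck) = _
      rw [k.pv_eq t (by omega), hrd, popB_bankE]
      rfl
    · have he : t = 0 := by omega
      subst he
      have hl : (k.rd (k.cw 0) u).fst = true := by
        rw [hrd]; simp [Ins.td]
      simp only [stpM, LM.stepM, h0, hck, h1, h2, hl, if_true, if_false]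
      rfl
  | rest =>
    have ht0 : t = 0 := hr rfl
    subst ht0
    rw [stepM_rest, hm.Bk, hm.dn, hm.ent, hm.x0, hm.xz, hm.zz, hm.L]
    rcases sel (fun ρ => I.Bk ρ x1 z1) with _ | ρ
    · by_cases hx : x1 = I.xs
      · simp only [stpM, hx, decide_true, if_true]
        show (⟨_, k.toL (k.cw 0) u, _, _⟩ : c.Lab Ck) = _
        rw [k.toL_eq]
        rfl
      · simp only [stpM, hx, decide_false, if_false]
        rfl
    · show (⟨_, _, entB I (dnB I ρ (bw1 I _)) u, _⟩ : c.Lab Ck) = _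
      rw [h1, dnB_bankE, entB_bankE]
      rfl
  | fw ρ =>
    by_cases h0 : 0 < t
    · obtain ⟨t, rfl⟩ : ∃ a, t = a + 1 := ⟨t - 1, by omega⟩
      have hl : (k.rd (k.cw (t + 1)) u).fst = false := by
        rw [hrd]; simp [Ins.td]
      simp only [stpM, LM.stepM, h0, hck, h1, h2, hl, if_true, hm.pop, Nat.add_sub_cancel]
      show (⟨_, k.pv (k.cw (t + 1)) u, _, _⟩ : c.Lab Ck) = _
      rw [k.pv_eq t (by omega), hrd, popB_bankE]
      rfl
    · have he : t = 0 := by omega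
      subst he
      have hl : (k.rd (k.cw 0) u).fst = true := by
        rw [hrd]; simp [Ins.td]
      simp only [stpM, LM.stepM, h0, hck, h1, h2, hl, if_true, if_false, hm.xz, hm.zz]
      rfl
  | bw ρ =>
    by_cases hL : t < I.L
    · have hl : (k.rd (k.cw t) u).lst = false := by
        rw [hrd]; simp [Ins.td]; omega
      simp only [stpM, LM.stepM, hm.L, hL, hck, h1, h2, hl, if_true, hm.push]
      show (⟨_, k.nx (k.cw t) u, _, _⟩ : c.Lab Ck) = _
      rw [k.nx_eq t hL, hrd, pushB_bankE]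
      rfl
    · have he : t = I.L := by omega
      subst he
      have hl : (k.rd (k.cw I.L) u).lst = true := by
        rw [hrd]; simp [Ins.td]
      simp only [stpM, LM.stepM, hm.L, hL, hck, h1, h2, hl, if_true, if_false]
      rfl

end one

end Crest.Agent.R289.ULocI880
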