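import Crest.Agent.R289.BaseA_975
import Crest.Agent.R289.CoreU_903

/-!
# A.UNIQ: from the odd conditions to the uniqueness of the base word

Glue of `CoreU903.core` with the landed bridge `BaseA975` (windows `win_pos`, `win_neg`).
-/

set_option autoImplicit false

namespace Crest.Agent.R289.UniqB903

open Polynomial Finset BaseDim394 BaseA975 CoreU903

variable {K : Type*} [Field K]

/-- common factor, low degrees -/
noncomputable def QL (s : ℕ) (x y : K) (F : ℕ → ℕ → K) (N : ℕ) : K[X] :=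
  ∑ n ∈ range (s + 1), ∑ k ∈ range (s + 1), if n + k = N then
    C (F n k) * ((1 + C y * X) ^ k * (1 + C x * X) ^ n) else 0

/-- common factor, high degrees -/
noncomputable def QH (s : ℕ) (x y : K) (F : ℕ → ℕ → K) (N : ℕ) : K[X] :=
  ∑ n ∈ range (s + 1), ∑ k ∈ range (s + 1), if n + k = N then
    C (F n k) * ((1 + C y * X) ^ (s - n) * (1 + C x * X) ^ (s - k)) else 0

theorem PX_lo (s : ℕ) (x y : K) (F : ℕ → ℕ → K) {N : ℕ} (hN : N ≤ s) :
    PX s x y F N = (1 + C x * X) ^ (s - N) * QL s x y F N := by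
  unfold PX QL bs
  rw [Finset.mul_sum]
  refine Finset.sum_congr rfl fun n hn => ?_
  rw [Finset.mul_sum]
  refine Finset.sum_congr rfl fun k hk => ?_
  split_ifs with h
  · have e : s - k = (s - N) + n := by omega
    rw [e, pow_add]; ring
  · rw [mul_zero]

theorem PX_hi (s : ℕ) (x y : K) (F : ℕ → ℕ → K) {N : ℕ} (hN : s ≤ N) :
    PX s x y F N = (1 + C y * X) ^ (N - s) * QH s x y F N := by
  unfold PX QH bs
  rw [Finset.mul_sum]
  refine Finset.sum_congr rfl fun n hn => ?_
  rw [Finset.mul_sum]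
  refine Finset.sum_congr rfl fun k hk => ?_
  have h1 := Finset.mem_range.1 hn
  have h2 := Finset.mem_range.1 hk
  split_ifs with h
  · have e : (1 + C y * X : K[X]) ^ k = (1 + C y * X) ^ (N - s) * (1 + C y * X) ^ (s - n) := by
      rw [← pow_add]; congr 1; omega
    rw [e]; ring
  · rw [mul_zero]

theorem QL_swap (s : ℕ) (x y : K) (F : ℕ → ℕ → K) (N : ℕ) :
    QL s y x (fun n k => F k n) N = QL s x y F N := by
  unfold QL
  rw [Finset.sum_comm]
  refine Finset.sum_congr rfl fun n _ => ?_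
  refine Finset.sum_congr rfl fun k _ => ?_
  rw [add_comm k n]
  split_ifs with h
  · ring
  · rfl

theorem QH_swap (s : ℕ) (x y : K) (F : ℕ → ℕ → K) (N : ℕ) :
    QH s y x (fun n k => F k n) N = QH s x y F N := by
  unfold QH
  rw [Finset.sum_comm]
  refine Finset.sum_congr rfl fun n _ => ?_
  refine Finset.sum_congr rfl fun k _ => ?_
  rw [add_comm k n]
  split_ifs with h
  · ring
  · rfl

theorem QL_eq_QH (s : ℕ) (x y : K) (F : ℕ → ℕ → K) : QL s x y F s = QH s x y F s := by
  unfold QL QH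
  refine Finset.sum_congr rfl fun n _ => ?_
  refine Finset.sum_congr rfl fun k _ => ?_
  split_ifs with h
  · have e1 : s - n = k := by omega
    have e2 : s - k = n := by omega
    rw [e1, e2]
  · rfl

theorem natDegree_lin_pow (x : K) (m : ℕ) : ((1 + C x * X : K[X]) ^ m).natDegree ≤ m :=
  natDegree_pow_le.trans (by have := natDegree_lin x; nlinarith)

theorem QL_natDegree (s : ℕ) (x y : K) (F : ℕ → ℕ → K) (N : ℕ) :
    (QL s x y F N).natDegree ≤ N := by
  unfold QL
  refine natDegree_sum_le_of_forall_le _ _ fun n hn => ?_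
  refine natDegree_sum_le_of_forall_le _ _ fun k hk => ?_
  split_ifs with h
  · refine natDegree_mul_le.trans ?_
    rw [natDegree_C, zero_add]
    refine natDegree_mul_le.trans ?_
    have h1 := natDegree_lin_pow y k
    have h2 := natDegree_lin_pow x n
    omega
  · simp

theorem QH_natDegree (s : ℕ) (x y : K) (F : ℕ → ℕ → K) (N : ℕ) :
    (QH s x y F N).natDegree ≤ 2 * s - N := by
  unfold QH
  refine natDegree_sum_le_of_forall_le _ _ fun n hn => ?_
  refine natDegree_sum_le_of_forall_le _ _ fun k hk => ?_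
  have h1 := Finset.mem_range.1 hn
  have h2 := Finset.mem_range.1 hk
  split_ifs with h
  · refine natDegree_mul_le.trans ?_
    rw [natDegree_C, zero_add]
    refine natDegree_mul_le.trans ?_
    have h1 := natDegree_lin_pow y (s - n)
    have h2 := natDegree_lin_pow x (s - k)
    omega
  · simp

theorem QH_zero (s : ℕ) (x y : K) (F : ℕ → ℕ → K) {N : ℕ} (hN : 2 * s < N) :
    QH s x y F N = 0 := by
  unfold QH
  refine Finset.sum_eq_zero fun n hn => Finset.sum_eq_zero fun k hk => ?_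
  have h1 := Finset.mem_range.1 hn
  have h2 := Finset.mem_range.1 hk
  rw [if_neg]
  omega

theorem pol_eq_pw (q : ℕ) (P : ℕ → K[X]) (r i : ℕ) :
    pol (fun j => P (r + (q + 1) * j)) i = pw q P r i := by
  unfold pol pw
  refine Finset.sum_congr rfl fun j _ => ?_
  rw [C_mul_X_pow_eq_monomial]

theorem win_of_odd [Fintype K] {q : ℕ} (hcard : Fintype.card K = q ^ 2) (hq : 11 ≤ q) {x y : K}
    (hx : x ^ q ≠ x) {F G : ℕ → ℕ → K} (h : OddX q x y F G) {r : ℕ} (hr : r ≤ q) :
    Win q r x (x ^ q) (pol (fun j => PX (2 * (q - 1)) x y F (r + (q + 1) * j))) := by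
  intro i _ t e he
  rw [pol_eq_pw]
  refine ⟨fun h1 => ?_, fun h1 => ?_⟩
  · exact win_pos hcard hx h hr (e := e) (m := t) (by omega) (by omega)
  · exact win_neg hcard hx h hr (e := e) (m := t) (by omega) (by omega)

theorem sys_of_odd [Fintype K] {q : ℕ} (hcard : Fintype.card K = q ^ 2) (hq : 11 ≤ q) {x y : K}
    (hx : x ^ q ≠ x) (hy : y ^ q ≠ y) {F G G' : ℕ → ℕ → K} (h : OddX q x y F G)
    (h' : OddX q y x (fun n k => F k n) G') {r : ℕ} (hr : r ≤ q) :
    Sys q r x y (fun j => PX (2 * (q - 1)) x y F (r + (q + 1) * j))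
      (fun j => PY (2 * (q - 1)) x y F (r + (q + 1) * j))
      (fun j => if r + (q + 1) * j ≤ 2 * (q - 1) then QL (2 * (q - 1)) x y F (r + (q + 1) * j)
        else QH (2 * (q - 1)) x y F (r + (q + 1) * j)) := by
  refine ⟨?_, ?_, ?_, ?_⟩
  · intro j _ hN
    simp only [if_pos hN]
    refine ⟨PX_lo _ x y F hN, ?_, QL_natDegree _ x y F _⟩
    unfold PY
    rw [PX_lo _ y x _ hN, QL_swap]
  · intro j _ hN
    have hB : (if r + (q + 1) * j ≤ 2 * (q - 1) then QL (2 * (q - 1)) x y F (r + (q + 1) * j)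
        else QH (2 * (q - 1)) x y F (r + (q + 1) * j)) =
        QH (2 * (q - 1)) x y F (r + (q + 1) * j) := by
      split_ifs with h1
      · have : r + (q + 1) * j = 2 * (q - 1) := le_antisymm h1 hN
        rw [this, QL_eq_QH]
      · rfl
    simp only [hB]
    refine ⟨PX_hi _ x y F hN, ?_, ?_⟩
    · unfold PY
      rw [PX_hi _ y x _ hN, QH_swap]
    · intro hne
      have h2 : r + (q + 1) * j ≤ 2 * (2 * (q - 1)) := by
        by_contra hcon
        exact hne (QH_zero _ x y F (by omega))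
      have := QH_natDegree (2 * (q - 1)) x y F (r + (q + 1) * j)
      omega
  · exact win_of_odd hcard hq hx h hr
  · exact win_of_odd hcard hq hy h' hr

/-- **only `X^(q-1)` in total degree `s` survives** -/
theorem PX_form [Fintype K] {q : ℕ} (hcard : Fintype.card K = q ^ 2) (hq : 11 ≤ q) {x y : K}
    (hx : x ^ q ≠ x) (hy : y ^ q ≠ y) (hxy : x ≠ y) {F G G' : ℕ → ℕ → K} (h : OddX q x y F G)
    (h' : OddX q y x (fun n k => F k n) G') :
    (∀ N, N ≠ 2 * (q - 1) → PX (2 * (q - 1)) x y F N = 0) ∧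
      ∃ c, PX (2 * (q - 1)) x y F (2 * (q - 1)) = C c * X ^ (q - 1) := by
  have hx0 : x ≠ 0 := by
    rintro rfl
    exact hx (zero_pow (by omega))
  have hy0 : y ≠ 0 := by
    rintro rfl
    exact hy (zero_pow (by omega))
  have hxyq : x ^ q ≠ y ^ q := by
    intro h
    apply hxy
    rw [← pow_qq hcard x, ← pow_qq hcard y, h]
  have hfr : ∀ c : K, (1 + C c * X : K[X]) ^ q = 1 + C (c ^ q) * X ^ q := by
    intro c
    obtain ⟨p, m, hp, hc, e⟩ := q_eq (K := K) hcard
    rw [e, add_pow_char_pow, one_pow, mul_pow, ← C_pow]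
  have key := fun (r : ℕ) (hr : r ≤ q) =>
    core (sys_of_odd hcard hq hx hy h h' hr) (by omega) hr hx0 hy0 hxy hxyq hfr
  have dec : ∀ N, N < 4 * (q + 1) → ∃ r j, r ≤ q ∧ j < 4 ∧ r + (q + 1) * j = N := by
    intro N hN
    refine ⟨N % (q + 1), N / (q + 1), ?_, ?_, Nat.mod_add_div N (q + 1)⟩
    · have := Nat.mod_lt N (show 0 < q + 1 by omega); omega
    · exact (Nat.div_lt_iff_lt_mul (by omega)).2 hN
  constructor
  · intro N hN
    by_cases h4 : N < 4 * (q + 1)
    · obtain ⟨r, j, hr, hj, rfl⟩ := dec N h4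
      exact (key r hr).1 j hj hN
    · exact PX_zero_of_lt _ _ _ (by omega)
  · obtain ⟨r, j, hr, hj, hN⟩ := dec (2 * (q - 1)) (by omega)
    obtain ⟨c, hc⟩ := (key r hr).2 j hj hN
    refine ⟨c, ?_⟩
    simp only [hN] at hc
    exact hc

end Crest.Agent.R289.UniqB903
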