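import Crest.Agent.R289.Core_975
import Crest.Agent.R289.W0B_540
import Crest.Agent.R289.A1End_740
import Crest.Agent.R289.A1End_14

/-!
Row 289, block A, leaf A.UNIQ, literal end (helper975): base uniqueness for the official object
`ObjDef233.Par`, `D.q ≥ 11`, in the two forms `A1End740.Uniq D` and `A1End14.content_of`'s
`huniq`.
-/

set_option autoImplicit false

namespace Crest.Agent.R289.UniqD975

open Polynomial Finset
open Crest.Agent.R289.HeckeTwo622 Crest.Agent.R289.TPhom964 Crest.Agent.R289.A1Two14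
open Crest.Agent.R289.Exp820 Crest.Agent.R289.Exp820.Sk Crest.Agent.R289.Fac281
open Crest.Agent.R289.ObjDef233 Crest.Agent.R289.BaseDim2_975

section abstract

variable {K : Type} [Field K] [Fintype K] {σ : K →+* K} {q : ℕ}

/-- **A.UNIQ** in the uniform corner notation `C1`, `C2` -/
theorem uniq_C (hcard : Fintype.card K = q ^ 2) (h11 : 11 ≤ q) (hfr : ∀ a, σ a = a ^ q)
    {x y : K} (H : Places σ x y) {v : Option K → Option K → K}
    (hv : ∀ i j : Bool, v ∈ BC (2 * (q - 1)) (2 * (q - 1)) (C1 σ x y i j) (C2 σ x y i j)) :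
    ∃ κ, ∀ i j, v i j = κ * W0540.w0 (q - 1) x y (rp i) (rp j) := by
  have hx' : x ^ q ≠ x := by
    rw [← hfr]
    exact H.hx
  have hy' : y ^ q ≠ y := by
    rw [← hfr]
    exact H.hy
  refine uniq hcard (by omega) H.hσ hfr H.hx H.hy H.hxy
    (Core975.core_all hcard h11 hx' hy' H.hxy) ?_ ?_ ?_
  · obtain ⟨G, hG, h⟩ := mem_BC.1 (hv false false)
    refine mem_BC.2 ⟨G, hG, fun i j => ?_⟩
    rw [h]
    simp only [C1, C2, V, U, Bool.false_eq_true, if_false]
  · obtain ⟨G, hG, h⟩ := mem_BC.1 (hv true false)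
    refine mem_BC.2 ⟨G, hG, fun i j => ?_⟩
    rw [h]
    simp only [C1, C2, V, U, Bool.false_eq_true, if_false, if_true, W0540.psi540_eq]
  · obtain ⟨G, hG, h⟩ := mem_BC.1 (hv false true)
    refine mem_BC.2 ⟨G, hG, fun i j => ?_⟩
    rw [h]
    simp only [C1, C2, V, U, Bool.false_eq_true, if_false, if_true, W0540.psi540_eq]

end abstract

variable (D : Par)

/-- **base uniqueness** (form of `A1End740`) -/
theorem uniq740 (h11 : 11 ≤ D.q) : A1End740.Uniq D := by
  intro v hv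
  obtain ⟨κ, hκ⟩ := uniq_C D.card h11 D.frob (places D) hv
  refine ⟨κ, ?_⟩
  funext i j
  rw [hκ]
  rfl

/-- **base uniqueness** (form of `A1End14`) -/
theorem uniq14 (h11 : 11 ≤ D.q) (v : Option D.K → Option D.K → D.K)
    (hv : ∀ i j : Bool, v ∈ BC (D.dg 1) (D.dg 1) (C1 D.σ D.x D.y i j) (C2 D.σ D.x D.y i j)) :
    ∃ κ : D.K, v = κ • A1End14.w0 D := by
  rw [A1End14.dg_one] at hv
  obtain ⟨κ, hκ⟩ := uniq_C D.card h11 D.frob (places D) hv
  refine ⟨κ, ?_⟩
  funext i j
  rw [hκ]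
  rfl

end Crest.Agent.R289.UniqD975
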