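import Crest.Agent.R289.BaseDim2_975
import Crest.Agent.R289.UniqB_903

/-!
# A.UNIQ closed: `BaseDim2_975.Core` and the final forms without hypothesis
-/

set_option autoImplicit false

namespace Crest.Agent.R289.Uniq903

open Polynomial Finset BaseDim394 BaseA975 BaseDim2_975 Fac281 HeckeTwo622

variable {K : Type*} [Field K] [Fintype K] {σ : K →+* K} {q : ℕ}

/-- **the polynomial heart** -/
theorem core (hcard : Fintype.card K = q ^ 2) (hq : 11 ≤ q) {x y : K} (hx : x ^ q ≠ x)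
    (hy : y ^ q ≠ y) (hxy : x ≠ y) : BaseDim2_975.Core q x y :=
  fun _ _ _ h h' => UniqB903.PX_form hcard hq hx hy hxy h h'

/-- the base code is a line -/
theorem uniq (hcard : Fintype.card K = q ^ 2) (h11 : 11 ≤ q)
    (hσ : ∀ a, σ (σ a) = a) (hq : ∀ a, σ a = a ^ q) {x y : K} (hx : σ x ≠ x) (hy : σ y ≠ y)
    (hxy : x ≠ y) {v : Option K → Option K → K}
    (hff : v ∈ A1Two14.BC (2 * (q - 1)) (2 * (q - 1)) (fun l _ => l) (fun _ m => m))
    (htf : v ∈ A1Two14.BC (2 * (q - 1)) (2 * (q - 1)) (fun l _ => W0540.psi σ x l)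
      (fun l m => act y m (be σ x l)))
    (hft : v ∈ A1Two14.BC (2 * (q - 1)) (2 * (q - 1)) (fun l m => act x l (be σ y m))
      (fun _ m => W0540.psi σ y m)) :
    ∃ c, ∀ i j, v i j = c * W0540.w0 (q - 1) x y (rp i) (rp j) :=
  BaseDim2_975.uniq hcard (by omega) hσ hq hx hy hxy
    (core hcard h11 (by rw [← hq]; exact hx) (by rw [← hq]; exact hy) hxy) hff htf hft

/-- the form used by `A1Two14.content_corner` -/
theorem hV0 (hcard : Fintype.card K = q ^ 2) (h11 : 11 ≤ q)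
    (hσ : ∀ a, σ (σ a) = a) (hq : ∀ a, σ a = a ^ q) {x y : K} (hx : σ x ≠ x) (hy : σ y ≠ y)
    (hxy : x ≠ y) {v : Option K → Option K → K}
    (hff : v ∈ A1Two14.BC (2 * (q - 1)) (2 * (q - 1)) (fun l _ => l) (fun _ m => m))
    (htf : v ∈ A1Two14.BC (2 * (q - 1)) (2 * (q - 1)) (fun l _ => W0540.psi σ x l)
      (fun l m => act y m (be σ x l)))
    (hft : v ∈ A1Two14.BC (2 * (q - 1)) (2 * (q - 1)) (fun l m => act x l (be σ y m))
      (fun _ m => W0540.psi σ y m))
    (h0 : v (some 1) (some 0) = 0) : v = 0 :=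
  BaseDim2_975.hV0 hcard (by omega) hσ hq hx hy hxy
    (core hcard h11 (by rw [← hq]; exact hx) (by rw [← hq]; exact hy) hxy) hff htf hft h0

end Crest.Agent.R289.Uniq903
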