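import Crest.Agent.R289.Mirror2_545

/-!
Row 289: a code given by finitely many kinds of local views (edge codes or corner codes, right
translations, absolute local codes) is of the form `InV α γ` with ABSOLUTE coefficients `α`
(parity checks of the local codes); so the mirror relation of `Mirror_545` exists for it.

`sy e x` = symbol, `γ (e, x)` = right translation of the position `x` of a view of kind `e`;
`InCode sy C γ f : ∀ e g, (fun x => f (g * γ (e, x)) (sy e x)) ∈ C e`.
-/

set_option autoImplicit false
set_option linter.unusedSectionVars false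

namespace Crest.Agent.R289.Mirror545

open Finset

variable {K S E X : Type*} [Field K] [Fintype S] [DecidableEq S] [Fintype E] [DecidableEq E]
  [Fintype X]

/-- the code defined by the views -/
def InCode {T : Type*} [Group T] (sy : E → X → S) (C : E → Submodule K (X → K)) (γ : E × X → T)
    (f : T → S → K) : Prop := ∀ e g, (fun x => f (g * γ (e, x)) (sy e x)) ∈ C e

/-- parity checks of the local codes -/
def Par (C : E → Submodule K (X → K)) : Type _ :=
  Σ e : E, {φ : X → K // ∀ v ∈ C e, ∑ x, φ x * v x = 0}

noncomputable instance [Fintype K] (C : E → Submodule K (X → K)) : Fintype (Par C) := by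
  classical
  unfold Par
  infer_instance

/-- the absolute coefficients -/
def alp (sy : E → X → S) (C : E → Submodule K (X → K)) (i : Par C) (s : S) (j : E × X) : K :=
  if j.1 = i.1 ∧ sy j.1 j.2 = s then i.2.1 j.2 else 0

theorem mem_iff_checks (V : Submodule K (X → K)) (v : X → K) :
    v ∈ V ↔ ∀ φ : X → K, (∀ w ∈ V, ∑ x, φ x * w x = 0) → ∑ x, φ x * v x = 0 := by
  classical
  constructor
  · intro hv φ hφ
    exact hφ v hv
  · intro h
    by_contra hv
    obtain ⟨f, hf, hker⟩ := Submodule.exists_le_ker_of_notMem hv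
    apply hf
    have hrep : ∀ w : X → K, f w = ∑ x, f (Pi.single x 1) * w x := by
      intro w
      conv_lhs => rw [← Finset.univ_sum_single w]
      rw [map_sum]
      refine Finset.sum_congr rfl fun x _ => ?_
      have : (Pi.single x (w x) : X → K) = w x • Pi.single x 1 := by
        rw [← Pi.single_smul, smul_eq_mul, mul_one]
      rw [this, map_smul, smul_eq_mul, mul_comm]
    rw [hrep]
    refine h _ fun w hw => ?_
    rw [← hrep]
    exact hker hw

theorem sum_alp (sy : E → X → S) (C : E → Submodule K (X → K)) (i : Par C)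
    (F : S → E × X → K) :
    ∑ s, ∑ j, alp sy C i s j * F s j = ∑ x, i.2.1 x * F (sy i.1 x) (i.1, x) := by
  classical
  rw [Finset.sum_comm]
  rw [Fintype.sum_prod_type]
  rw [Finset.sum_eq_single i.1]
  · refine Finset.sum_congr rfl fun x _ => ?_
    rw [Finset.sum_eq_single (sy i.1 x)]
    · simp [alp]
    · intro s _ hs
      simp [alp, Ne.symm hs]
    · intro h; exact absurd (Finset.mem_univ _) h
  · intro e _ he
    refine Finset.sum_eq_zero fun x _ => Finset.sum_eq_zero fun s _ => ?_
    simp [alp, he]
  · intro h; exact absurd (Finset.mem_univ _) h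

/-- **the code is `InV` with absolute coefficients** -/
theorem inV_iff {T : Type*} [Group T] (sy : E → X → S) (C : E → Submodule K (X → K))
    (γ : E × X → T) (f : T → S → K) : InV (alp sy C) γ f ↔ InCode sy C γ f := by
  unfold InV InCode
  constructor
  · intro h e g
    rw [mem_iff_checks]
    intro φ hφ
    have := h ⟨e, φ, hφ⟩ g
    rw [sum_alp sy C ⟨e, φ, hφ⟩ (fun s j => f (g * γ j) s)] at this
    exact this
  · intro h i g
    rw [sum_alp sy C i (fun s j => f (g * γ j) s)]
    exact i.2.2 _ (h i.1 g)

/-- base condition in terms of the views -/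
theorem base_iff (sy : E → X → S) (C : E → Submodule K (X → K)) (x : S → K) :
    (∀ i, ∑ s, (∑ j, alp sy C i s j) * x s = 0) ↔ ∀ e, (fun i => x (sy e i)) ∈ C e := by
  constructor
  · intro h e
    rw [mem_iff_checks]
    intro φ hφ
    have := h ⟨e, φ, hφ⟩
    simp only [Finset.sum_mul] at this
    rw [sum_alp sy C ⟨e, φ, hφ⟩ (fun s _ => x s)] at this
    exact this
  · intro h i
    simp only [Finset.sum_mul]
    rw [sum_alp sy C i (fun s _ => x s)]
    exact i.2.2 _ (h i.1)

/-- **the mirror relation of a code given by views**: absolute coefficients `β`, and for every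
level: existence and uniqueness of mirror words, zero content, density. -/
theorem exists_mirror [Fintype K] (sy : E → X → S) (C : E → Submodule K (X → K)) (s0 : S)
    (hbase : ∀ x : S → K, (∀ e, (fun i => x (sy e i)) ∈ C e) → x s0 = 0 → x = 0) :
    ∃ P, IsP s0 (alp sy C) P := by
  classical
  exact exists_P s0 (alp sy C) fun x hx h0 => hbase x ((base_iff sy C x).1 hx) h0

/-- the base condition follows from injectivity of the content map at one level -/
theorem base_of_level {T : Type*} [Group T] (sy : E → X → S) (C : E → Submodule K (X → K))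
    (γ : E × X → T) (s0 : S)
    (hinj : ∀ f : T → S → K, InCode sy C γ f → (∀ g, f g s0 = 0) → f = 0) :
    ∀ x : S → K, (∀ e, (fun i => x (sy e i)) ∈ C e) → x s0 = 0 → x = 0 := by
  intro x hx h0
  have h := hinj (fun _ => x) (fun e _ => hx e) (fun _ => h0)
  exact congrFun h 1

section level

variable {T : Type*} [Group T] {M : Type*} [AddCommGroup M] [Module K M] [Fintype K]

/-- existence and uniqueness of mirror words -/
theorem view_existsUnique (sy : E → X → S) (C : E → Submodule K (X → K)) (s0 : S)
    (P : {s : S // s ≠ s0} → Par C → K) (hP : IsP s0 (alp sy C) P) (γ : E × X → T) {L : ℕ}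
    (hL : AugNil322.J K T ^ L = ⊥) (q : T → M) :
    ∃! U : {s : S // s ≠ s0} → T → M, MirRel s0 (bet s0 (alp sy C) P) γ q U :=
  mir_existsUnique s0 (alp sy C) P hP γ hL q

/-- density in units, two factors -/
theorem view_units [Fintype T] {Pg SP : Type*} [Finite Pg] [Fintype SP] (sy : E → X → S)
    (C : E → Submodule K (X → K)) (s0 : S) (P : {s : S // s ≠ s0} → Par C → K)
    (hP : IsP s0 (alp sy C) P) (γ : E × X → T) {L : ℕ} (hL : AugNil322.J K T ^ L = ⊥)
    (hsurj : ∀ c : T → K, ∃ f : T → S → K, InCode sy C γ f ∧ ∀ g, f g s0 = c g)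
    {d : ℕ} (hd : ∀ f : T → S → K, InCode sy C γ f → f ≠ 0 →
      d ≤ Nat.card {x : T × S // f x.1 x.2 ≠ 0})
    {q : T → (Pg × SP) → K} {U : {s : S // s ≠ s0} → T → (Pg × SP) → K}
    (h : MirRel s0 (bet s0 (alp sy C) P) γ q U) {dP : ℕ} {τ0 : T}
    (hdP : dP ≤ Nat.card {ω : Pg × SP // q τ0 ω ≠ 0}) :
    dP * d ≤ Nat.card {u : Pg × T // ∃ b : SP × S, ext s0 q U b.2 u.2 (u.1, b.1) ≠ 0}
      * (Fintype.card SP * Fintype.card S) :=
  mir_units s0 (alp sy C) P hP γ hL
    (fun c => (hsurj c).imp fun _ hf => ⟨(inV_iff sy C γ _).2 hf.1, hf.2⟩)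
    (fun f hf hne => hd f ((inV_iff sy C γ f).1 hf) hne) h hdP

end level

end Crest.Agent.R289.Mirror545
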