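import Crest.Agent.R289.Fac_281
import Crest.Agent.R289.HeckeTwo_622

/-!
Row 289, block A, leaf A.W0 (helper243): the base word
`w0 (l, m) = ((l₀ m₁ - l₁ m₀) (x l₁ m₀ - y l₀ m₁)) ^ (q - 1)` is, as a constant word, in the four
corner codes of the two-place complex.

`psi x l = conj (l#)`, `l# = l'.be_l` for `det (l, l') = 1` (closed form, `psi_eq`).
-/

set_option autoImplicit false

namespace Crest.Agent.R289.W0243

open Polynomial Crest.Agent.R289.Exp820 Crest.Agent.R289.Exp820.Sk Crest.Agent.R289.Fac281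
  Crest.Agent.R289.HeckeTwo622

variable {K : Type*} [Field K] {σ : K →+* K}

/-! ### the odd coordinate -/

/-- `psi x l = conj (l#)` -/
noncomputable def psi (σ : K →+* K) (x : K) (l : K × K) : K × K :=
  ((x - σ x) * (l.2 / Q σ x l), (x - σ x) * (l.1 / (x * σ (Q σ x l))))

theorem sigma_gam (hσ : ∀ a, σ (σ a) = a) (x : K) (l : K × K) :
    σ (gam σ x l) = -(Q σ x l / σ (Q σ x l)) / x := by
  simp only [gam, map_div₀, map_neg, hσ]

theorem sigma_bet (hσ : ∀ a, σ (σ a) = a) (x : K) (l : K × K) :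
    σ (bet σ x l) = (σ x - x) / σ x * (σ l.1 * l.2 / Q σ x l) := by
  simp only [bet, map_div₀, map_mul, map_sub, hσ]

/-- the action of `be` in closed form -/
theorem act_be_form (hσ : ∀ a, σ (σ a) = a) {x : K} (hx : σ x ≠ x) {l : K × K} (hl : l ≠ 0)
    (y : K) (m : K × K) :
    act y m (be σ x l) =
      (((x * σ (Q σ x l) - y * Q σ x l) * m.1 - y * (x - σ x) * (l.1 * σ l.2) * m.2) /
        (x * σ (Q σ x l)),
       ((σ x * Q σ x l - y * σ (Q σ x l)) * m.2 + (x - σ x) * (σ l.1 * l.2) * m.1) /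
        (σ x * Q σ x l)) := by
  have hx0 : x ≠ 0 := x_ne_zero hx
  have hsx0 : σ x ≠ 0 := (map_ne_zero σ).2 hx0
  have hQ := Q_ne_zero hσ hx hl
  have hQs : σ (Q σ x l) ≠ 0 := (map_ne_zero σ).2 hQ
  have hsg : sg σ (1 + C (gam σ x l) * X) = 1 + C (σ (gam σ x l)) * X := by
    simp only [map_add, map_one, map_mul, sg_C, sg_X]
  ext
  · simp only [act, be, hsg, eval_add, eval_one, eval_mul, eval_C, eval_X, sigma_gam hσ]
    simp only [bet]
    field_simp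
    ring
  · simp only [act, be, sg_C, eval_add, eval_one, eval_mul, eval_C, eval_X, sigma_bet hσ]
    simp only [gam]
    field_simp
    ring

/-- `psi` is the conjugate of `l#` -/
theorem psi_eq (hσ : ∀ a, σ (σ a) = a) {x : K} (hx : σ x ≠ x) {l : K × K} (hl : l ≠ 0)
    {l' : K × K} (hd : l.1 * l'.2 - l.2 * l'.1 = 1) :
    psi σ x l = (σ (act x l' (be σ x l)).1, σ (act x l' (be σ x l)).2) := by
  have hx0 : x ≠ 0 := x_ne_zero hx
  have hsx0 : σ x ≠ 0 := (map_ne_zero σ).2 hx0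
  have hQ := Q_ne_zero hσ hx hl
  have hQs : σ (Q σ x l) ≠ 0 := (map_ne_zero σ).2 hQ
  have e1 : σ (Q σ x l) = nm σ l.1 - σ x * nm σ l.2 := Q_sigma hσ x l
  have hds : σ l.1 * σ l'.2 - σ l.2 * σ l'.1 = 1 := by
    have := congrArg σ hd
    simpa only [map_sub, map_mul, map_one] using this
  rw [act_be_form hσ hx hl]
  ext
  · simp only [psi, map_div₀, map_sub, map_mul, map_add, hσ]
    rw [mul_div_assoc', div_eq_div_iff hQ (mul_ne_zero hsx0 hQ)]
    rw [e1]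
    simp only [Q, nm]
    linear_combination (σ x * (σ x - x) * l.2 * (l.1 * σ l.1 - x * (l.2 * σ l.2))) * hds
  · simp only [psi, map_div₀, map_sub, map_mul, map_add, hσ]
    rw [mul_div_assoc', div_eq_div_iff (mul_ne_zero hx0 hQs) (mul_ne_zero hx0 hQs)]
    rw [e1]
    simp only [Q, nm]
    linear_combination ((σ x - x) * x * l.1 * (l.1 * σ l.1 - σ x * (l.2 * σ l.2))) * hds

/-! ### the two bilinear forms and their transport -/

/-- `det (l, m)` -/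
def D0 (l m : K × K) : K := l.1 * m.2 - l.2 * m.1

/-- `det (l.τ, m.τ)` -/
def D1 (x y : K) (l m : K × K) : K := x * l.2 * m.1 - y * l.1 * m.2

/-- forms at the odd-even corner -/
def E0 (x' : K) (p m : K × K) : K := p.1 * m.1 - x' * p.2 * m.2

/-- forms at the odd-odd corner -/
def F0 (x' y' : K) (p r : K × K) : K := y' * p.1 * r.2 - x' * p.2 * r.1

theorem oe0 (hσ : ∀ a, σ (σ a) = a) {x : K} (hx : σ x ≠ x) {l : K × K} (hl : l ≠ 0)
    (y : K) (m : K × K) :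
    E0 (σ x) (psi σ x l) (act y m (be σ x l)) =
      (x - σ x) / x * (y - σ x) * (D0 l m / σ (Q σ x l)) := by
  have hx0 : x ≠ 0 := x_ne_zero hx
  have hsx0 : σ x ≠ 0 := (map_ne_zero σ).2 hx0
  have hQ := Q_ne_zero hσ hx hl
  have hQs : σ (Q σ x l) ≠ 0 := (map_ne_zero σ).2 hQ
  have e1 : σ (Q σ x l) = nm σ l.1 - σ x * nm σ l.2 := Q_sigma hσ x l
  rw [act_be_form hσ hx hl]
  simp only [E0, D0, psi]
  rw [eq_comm]
  field_simp
  rw [e1]
  simp only [Q, nm]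
  ring

theorem oe1 (hσ : ∀ a, σ (σ a) = a) {x : K} (hx : σ x ≠ x) {l : K × K} (hl : l ≠ 0)
    (y : K) (m : K × K) :
    E0 y (psi σ x l) (act y m (be σ x l)) =
      (x - σ x) / (x * σ x) * (σ x - y) * (D1 x y l m / Q σ x l) := by
  have hx0 : x ≠ 0 := x_ne_zero hx
  have hsx0 : σ x ≠ 0 := (map_ne_zero σ).2 hx0
  have hQ := Q_ne_zero hσ hx hl
  have hQs : σ (Q σ x l) ≠ 0 := (map_ne_zero σ).2 hQ
  have e1 : σ (Q σ x l) = nm σ l.1 - σ x * nm σ l.2 := Q_sigma hσ x l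
  rw [act_be_form hσ hx hl]
  simp only [E0, D1, psi]
  rw [eq_comm]
  field_simp
  rw [e1]
  simp only [Q, nm]
  ring

/-! ### the odd-odd corner -/

theorem det_act (x : K) (l l' : K × K) (r : Sk σ) :
    (act x l r).1 * (act x l' r).2 - (act x l r).2 * (act x l' r).1 =
      (N r).eval x * (l.1 * l'.2 - l.2 * l'.1) := by
  simp only [act, N, eval_sub, eval_mul, eval_X]
  ring

/-- a partner of determinant one -/
theorem exists_partner {l : K × K} (hl : l ≠ 0) :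
    ∃ l' : K × K, l.1 * l'.2 - l.2 * l'.1 = 1 := by
  by_cases h : l.1 = 0
  · have h2 : l.2 ≠ 0 := fun h2 => hl (Prod.ext h h2)
    refine ⟨(-(l.2)⁻¹, 0), ?_⟩
    simp [h2]
  · refine ⟨(0, (l.1)⁻¹), ?_⟩
    simp [h]

/-- the constant between the two descriptions of the odd-odd coordinate -/
noncomputable def cst (σ : K →+* K) (x y : K) : K := (y * σ y)⁻¹ * ((x - y) * (x - σ y))

/-- `psi` of the `y`-neighbour = the odd coordinate moved by `be` at the new label -/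
theorem psi_flip (hσ : ∀ a, σ (σ a) = a) {x y : K} (hx : σ x ≠ x) (hy : σ y ≠ y)
    (hxy : x ≠ y) (hxy' : σ x ≠ y) {l m : K × K} (hl : l ≠ 0) (hm : m ≠ 0) :
    ∃ u : K × K, psi σ x l = (σ u.1, σ u.2) ∧
      psi σ x (act x l (be σ y m)) =
        ((σ (cst σ x y))⁻¹ * σ (act x u (be σ y (act y m (be σ x l)))).1,
         (σ (cst σ x y))⁻¹ * σ (act x u (be σ y (act y m (be σ x l)))).2) := by
  obtain ⟨l', hl'⟩ := exists_partner hl
  have hyx' : σ y ≠ x := fun h => hxy' (by rw [← h, hσ])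
  have hN : (N (be σ y m)).eval x = cst σ x y := N_be_eval hσ hy hm x
  have hN0 : cst σ x y ≠ 0 := by
    rw [← hN]; exact N_be_eval_ne hσ hy hm hxy.symm hyx'
  have hL0 : act x l (be σ y m) ≠ 0 :=
    act_ne_zero hσ hl (N_be_eval_ne hσ hy hm hxy.symm hyx')
  refine ⟨act x l' (be σ x l), psi_eq hσ hx hl hl', ?_⟩
  have hd : (act x l (be σ y m)).1 * ((cst σ x y)⁻¹ • act x l' (be σ y m)).2 -
      (act x l (be σ y m)).2 * ((cst σ x y)⁻¹ • act x l' (be σ y m)).1 = 1 := by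
    have h := det_act x l l' (be σ y m)
    rw [hN, hl', mul_one] at h
    simp only [Prod.smul_fst, Prod.smul_snd, smul_eq_mul]
    have : (cst σ x y)⁻¹ * cst σ x y = 1 := inv_mul_cancel₀ hN0
    linear_combination (cst σ x y)⁻¹ * h + this
  rw [psi_eq hσ hx hL0 hd, act_smul, ← act_mul hσ, ← comm hσ hx hy hxy hxy' hl hm, act_mul hσ]
  simp only [Prod.smul_fst, Prod.smul_snd, smul_eq_mul, map_mul, map_inv₀]

theorem oo_aux (hσ : ∀ a, σ (σ a) = a) (x : K) {y : K} (hy : σ y ≠ y)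
    {m : K × K} (hm : m ≠ 0) (u : K × K) :
    (F0 (σ x) (σ y) (σ (act x u (be σ y m)).1, σ (act x u (be σ y m)).2) (psi σ y m) =
      (y - σ y) / y * (σ y - σ x) * (E0 (σ x) (σ u.1, σ u.2) m / σ (Q σ y m))) ∧
    (F0 1 1 (σ (act x u (be σ y m)).1, σ (act x u (be σ y m)).2) (psi σ y m) =
      (y - σ y) / (y * σ y) * (σ y - σ x) * (E0 y (σ u.1, σ u.2) m / Q σ y m)) := by
  have hy0 : y ≠ 0 := x_ne_zero hy
  have hsy0 : σ y ≠ 0 := (map_ne_zero σ).2 hy0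
  have hQ := Q_ne_zero hσ hy hm
  have hQs : σ (Q σ y m) ≠ 0 := (map_ne_zero σ).2 hQ
  have e1 : σ (Q σ y m) = nm σ m.1 - σ y * nm σ m.2 := Q_sigma hσ y m
  rw [act_be_form hσ hy hm]
  simp only [map_div₀, map_sub, map_mul, map_add, hσ, E0, F0, psi]
  constructor
  · rw [eq_comm]
    field_simp
    rw [e1]
    simp only [Q, nm]
    ring
  · rw [eq_comm]
    field_simp
    rw [e1]
    simp only [Q, nm]
    ring

/-! ### the base word -/

/-- the base word -/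
def w0 (q : ℕ) (x y : K) (l m : K × K) : K := (D0 l m * D1 x y l m) ^ (q - 1)

theorem BP_one : (fun _ _ : K × K => (1 : K)) ∈ BP K 0 0 := by
  have := BP_of (K := K) HP_one HP_one
  simpa using this

theorem BP_pow {s t : ℕ} {B : K × K → K × K → K} (hB : B ∈ BP K s t) (n : ℕ) :
    (fun l m => B l m ^ n) ∈ BP K (n * s) (n * t) := by
  induction n with
  | zero => simpa using BP_one (K := K)
  | succ n ih =>
    have := BP_mul ih hB
    rw [show (n + 1) * s = n * s + s by ring, show (n + 1) * t = n * t + t by ring]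
    simpa only [pow_succ] using this

/-- a general bilinear form -/
theorem BP_bil (a b c d : K) :
    (fun l m : K × K => a * (l.1 * m.1) + b * (l.1 * m.2) + c * (l.2 * m.1) + d * (l.2 * m.2))
      ∈ BP K 1 1 := by
  have h1 := BP_of (K := K) HP_fst HP_fst
  have h2 := BP_of (K := K) HP_fst HP_snd
  have h3 := BP_of (K := K) HP_snd HP_fst
  have h4 := BP_of (K := K) HP_snd HP_snd
  have := Submodule.add_mem _ (Submodule.add_mem _ (Submodule.add_mem _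
    (Submodule.smul_mem _ a h1) (Submodule.smul_mem _ b h2)) (Submodule.smul_mem _ c h3))
    (Submodule.smul_mem _ d h4)
  exact this

theorem BP_D0 : (D0 : K × K → K × K → K) ∈ BP K 1 1 := by
  have := BP_bil (K := K) 0 1 (-1) 0
  convert this using 1
  funext l m
  simp only [D0]; ring

theorem BP_D1 (x y : K) : D1 x y ∈ BP K 1 1 := by
  have := BP_bil (K := K) 0 (-y) x 0
  convert this using 1
  funext l m
  simp only [D1]; ring

theorem BP_E0 (a : K) : E0 a ∈ BP K 1 1 := by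
  have := BP_bil (K := K) 1 0 0 (-a)
  convert this using 1
  funext l m
  simp only [E0]; ring

theorem BP_F0 (a b : K) : F0 a b ∈ BP K 1 1 := by
  have := BP_bil (K := K) 0 b (-a) 0
  convert this using 1
  funext l m
  simp only [F0]; ring

theorem BP_prod_pow {A B : K × K → K × K → K} (hA : A ∈ BP K 1 1) (hB : B ∈ BP K 1 1) (n : ℕ) :
    (fun l m => (A l m * B l m) ^ n) ∈ BP K (2 * n) (2 * n) := by
  have := BP_pow (BP_mul hA hB) n
  rw [show 2 * n = n * (1 + 1) by ring]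
  exact this

/-- corner `ee` -/
theorem w0_mem (q : ℕ) (x y : K) : w0 q x y ∈ BP K (2 * (q - 1)) (2 * (q - 1)) :=
  BP_prod_pow BP_D0 (BP_D1 x y) (q - 1)

/-- norms are killed by the exponent `q - 1` -/
theorem nm_pow {q : ℕ} (hq : ∀ a, σ a = a ^ q) (hσ : ∀ a, σ (σ a) = a) (hq1 : 1 ≤ q) {a : K}
    (ha : a ≠ 0) : (a * σ a) ^ (q - 1) = 1 := by
  have hsa : σ a ≠ 0 := (map_ne_zero σ).2 ha
  have hn : a * σ a ≠ 0 := mul_ne_zero ha hsa
  have h1 : σ (a * σ a) = a * σ a := by rw [map_mul, hσ, mul_comm]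
  rw [hq] at h1
  have h2 : (a * σ a) ^ (q - 1) * (a * σ a) = 1 * (a * σ a) := by
    rw [← pow_succ, Nat.sub_add_cancel hq1, h1, one_mul]
  exact mul_right_cancel₀ hn h2

theorem pow_aux {n : ℕ} (k A : K) {B : K} (hB : B ^ n = 1) :
    (k * A * B⁻¹) ^ n = k ^ n * A ^ n := by
  rw [mul_pow, mul_pow, inv_pow, hB, inv_one, mul_one]

/-- corner `oe` -/
theorem w0_oe {q : ℕ} (hq : ∀ a, σ a = a ^ q) (hσ : ∀ a, σ (σ a) = a) (hq1 : 1 ≤ q) {x y : K}
    (hx : σ x ≠ x) (hxy' : σ x ≠ y) :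
    ∃ c : K, c ≠ 0 ∧ ∀ l m : K × K, l ≠ 0 →
      w0 q x y l m = c * (E0 (σ x) (psi σ x l) (act y m (be σ x l)) *
        E0 y (psi σ x l) (act y m (be σ x l))) ^ (q - 1) := by
  have hx0 : x ≠ 0 := x_ne_zero hx
  have hsx0 : σ x ≠ 0 := (map_ne_zero σ).2 hx0
  have h1 : x - σ x ≠ 0 := sub_ne_zero.2 hx.symm
  have h2 : σ x - y ≠ 0 := sub_ne_zero.2 hxy'
  have h3 : y - σ x ≠ 0 := sub_ne_zero.2 hxy'.symm
  set k : K := (x - σ x) / x * (y - σ x) * ((x - σ x) / (x * σ x) * (σ x - y)) with hk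
  have hk0 : k ≠ 0 := mul_ne_zero (mul_ne_zero (div_ne_zero h1 hx0) h3)
    (mul_ne_zero (div_ne_zero h1 (mul_ne_zero hx0 hsx0)) h2)
  refine ⟨(k ^ (q - 1))⁻¹, inv_ne_zero (pow_ne_zero _ hk0), fun l m hl => ?_⟩
  have hQ := Q_ne_zero hσ hx hl
  have hQs : σ (Q σ x l) ≠ 0 := (map_ne_zero σ).2 hQ
  rw [oe0 hσ hx hl, oe1 hσ hx hl]
  have e : (x - σ x) / x * (y - σ x) * (D0 l m / σ (Q σ x l)) *
      ((x - σ x) / (x * σ x) * (σ x - y) * (D1 x y l m / Q σ x l)) =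
      k * (D0 l m * D1 x y l m) * (Q σ x l * σ (Q σ x l))⁻¹ := by
    rw [hk, mul_inv, div_eq_mul_inv (D0 l m), div_eq_mul_inv (D1 x y l m)]
    ring
  rw [e, pow_aux k (D0 l m * D1 x y l m) (nm_pow hq hσ hq1 hQ),
    inv_mul_cancel_left₀ (pow_ne_zero _ hk0)]
  rfl

/-- corner `oo` -/
theorem w0_oo {q : ℕ} (hq : ∀ a, σ a = a ^ q) (hσ : ∀ a, σ (σ a) = a) (hq1 : 1 ≤ q) {x y : K}
    (hx : σ x ≠ x) (hy : σ y ≠ y) (hxy : x ≠ y) (hxy' : σ x ≠ y) :
    ∃ c : K, c ≠ 0 ∧ ∀ l m : K × K, l ≠ 0 → m ≠ 0 →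
      w0 q x y l m = c * (F0 (σ x) (σ y) (psi σ x (act x l (be σ y m)))
          (psi σ y (act y m (be σ x l))) *
        F0 1 1 (psi σ x (act x l (be σ y m))) (psi σ y (act y m (be σ x l)))) ^ (q - 1) := by
  obtain ⟨c, hc0, hc⟩ := w0_oe hq hσ hq1 hx hxy'
  have hy0 : y ≠ 0 := x_ne_zero hy
  have hsy0 : σ y ≠ 0 := (map_ne_zero σ).2 hy0
  have h1 : y - σ y ≠ 0 := sub_ne_zero.2 hy.symm
  have h2 : σ y - σ x ≠ 0 := sub_ne_zero.2 fun h => hxy (σ.injective h).symm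
  have hyx' : σ y ≠ x := fun h => hxy' (by rw [← h, hσ])
  have hcst : cst σ x y ≠ 0 := mul_ne_zero (inv_ne_zero (mul_ne_zero hy0 hsy0))
    (mul_ne_zero (sub_ne_zero.2 hxy) (sub_ne_zero.2 hyx'.symm))
  have hcs : σ (cst σ x y) ≠ 0 := (map_ne_zero σ).2 hcst
  set k : K := (σ (cst σ x y))⁻¹ * (σ (cst σ x y))⁻¹ *
    ((y - σ y) / y * (σ y - σ x) * ((y - σ y) / (y * σ y) * (σ y - σ x))) with hk
  have hk0 : k ≠ 0 := mul_ne_zero (mul_ne_zero (inv_ne_zero hcs) (inv_ne_zero hcs))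
    (mul_ne_zero (mul_ne_zero (div_ne_zero h1 hy0) h2)
    (mul_ne_zero (div_ne_zero h1 (mul_ne_zero hy0 hsy0)) h2))
  refine ⟨c * (k ^ (q - 1))⁻¹, mul_ne_zero hc0 (inv_ne_zero (pow_ne_zero _ hk0)),
    fun l m hl hm => ?_⟩
  set m' := act y m (be σ x l) with hm'
  have hm0 : m' ≠ 0 := act_ne_zero hσ hm (N_be_eval_ne hσ hx hl hxy hxy')
  have hQ := Q_ne_zero hσ hy hm0
  have hQs : σ (Q σ y m') ≠ 0 := (map_ne_zero σ).2 hQ
  obtain ⟨u, hu, hP⟩ := psi_flip hσ hx hy hxy hxy' hl hm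
  rw [hP, ← hm']
  obtain ⟨g0, g1⟩ := oo_aux hσ x hy hm0 u
  have f0 : ∀ a b c : K, ∀ p r : K × K, F0 a b (c * p.1, c * p.2) r = c * F0 a b p r := by
    intro a b c p r
    simp only [F0]; ring
  have f1 := f0 (σ x) (σ y) (σ (cst σ x y))⁻¹
    (σ (act x u (be σ y m')).1, σ (act x u (be σ y m')).2) (psi σ y m')
  have f2 := f0 1 1 (σ (cst σ x y))⁻¹
    (σ (act x u (be σ y m')).1, σ (act x u (be σ y m')).2) (psi σ y m')
  rw [f1, f2, g0, g1, hc l m hl, hu, ← hm']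
  have e : (σ (cst σ x y))⁻¹ * ((y - σ y) / y * (σ y - σ x) *
        (E0 (σ x) (σ u.1, σ u.2) m' / σ (Q σ y m'))) *
      ((σ (cst σ x y))⁻¹ * ((y - σ y) / (y * σ y) * (σ y - σ x) *
        (E0 y (σ u.1, σ u.2) m' / Q σ y m'))) =
      k * (E0 (σ x) (σ u.1, σ u.2) m' * E0 y (σ u.1, σ u.2) m') *
        (Q σ y m' * σ (Q σ y m'))⁻¹ := by
    rw [hk, mul_inv (Q σ y m'), div_eq_mul_inv (E0 (σ x) (σ u.1, σ u.2) m'),
      div_eq_mul_inv (E0 y (σ u.1, σ u.2) m')]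
    ring
  rw [e, pow_aux k (E0 (σ x) (σ u.1, σ u.2) m' * E0 y (σ u.1, σ u.2) m')
    (nm_pow hq hσ hq1 hQ), mul_assoc, inv_mul_cancel_left₀ (pow_ne_zero _ hk0)]

/-- exchange of the two places -/
theorem w0_swap (q : ℕ) (x y : K) (l m : K × K) : w0 q x y l m = w0 q y x m l := by
  unfold w0
  congr 1
  simp only [D0, D1]
  ring

/-- corner `eo` -/
theorem w0_eo {q : ℕ} (hq : ∀ a, σ a = a ^ q) (hσ : ∀ a, σ (σ a) = a) (hq1 : 1 ≤ q) {x y : K}
    (hy : σ y ≠ y) (hyx' : σ y ≠ x) :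
    ∃ c : K, c ≠ 0 ∧ ∀ l m : K × K, m ≠ 0 →
      w0 q x y l m = c * (E0 (σ y) (psi σ y m) (act x l (be σ y m)) *
        E0 x (psi σ y m) (act x l (be σ y m))) ^ (q - 1) := by
  obtain ⟨c, hc0, hc⟩ := w0_oe (y := x) hq hσ hq1 hy hyx'
  exact ⟨c, hc0, fun l m hm => by rw [w0_swap, hc m l hm]⟩

/-! ### the corner codes -/

/-- the base table -/
def w0T (q : ℕ) (x y : K) (i j : Option K) : K := w0 q x y (rp i) (rp j)

theorem w0_homog (q : ℕ) (x y c d : K) (l m : K × K) :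
    w0 q x y (c • l) (d • m) = c ^ (2 * (q - 1)) * d ^ (2 * (q - 1)) * w0 q x y l m :=
  BP_homog (w0_mem q x y) c d l m

theorem ext2_w0T (q : ℕ) (x y : K) (l m : K × K) :
    ext2 (2 * (q - 1)) (2 * (q - 1)) (w0T q x y) l m = w0 q x y l m := by
  unfold ext2 w0T
  rw [← w0_homog, scv_smul_rp, scv_smul_rp]

section corner
variable {P : Type*} [Group P]

theorem corner_ee (q : ℕ) (x y : K) (tc : K × K → K × K → P) :
    (fun _ : P => w0T q x y) ∈
      Corner (2 * (q - 1)) (2 * (q - 1)) tc (fun l _ => l) (fun _ m => m) := by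
  intro h
  refine ⟨w0 q x y, w0_mem q x y, fun l m _ _ => ?_⟩
  exact ext2_w0T q x y l m

theorem corner_oe {q : ℕ} (hq : ∀ a, σ a = a ^ q) (hσ : ∀ a, σ (σ a) = a) (hq1 : 1 ≤ q)
    {x y : K} (hx : σ x ≠ x) (hxy' : σ x ≠ y) (tc : K × K → K × K → P) :
    (fun _ : P => w0T q x y) ∈
      Corner (2 * (q - 1)) (2 * (q - 1)) tc (fun l _ => psi σ x l)
        (fun l m => act y m (be σ x l)) := by
  intro h
  obtain ⟨c, -, hc⟩ := w0_oe (y := y) hq hσ hq1 hx hxy'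
  refine ⟨c • (fun l m => (E0 (σ x) l m * E0 y l m) ^ (q - 1)),
    Submodule.smul_mem _ _ (BP_prod_pow (BP_E0 _) (BP_E0 _) _), fun l m hl _ => ?_⟩
  rw [ext2_w0T, hc l m hl]
  rfl

theorem corner_eo {q : ℕ} (hq : ∀ a, σ a = a ^ q) (hσ : ∀ a, σ (σ a) = a) (hq1 : 1 ≤ q)
    {x y : K} (hy : σ y ≠ y) (hyx' : σ y ≠ x) (tc : K × K → K × K → P) :
    (fun _ : P => w0T q x y) ∈
      Corner (2 * (q - 1)) (2 * (q - 1)) tc (fun l m => act x l (be σ y m))
        (fun _ m => psi σ y m) := by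
  intro h
  obtain ⟨c, -, hc⟩ := w0_eo (x := x) hq hσ hq1 hy hyx'
  refine ⟨c • (fun l m => (E0 (σ y) m l * E0 x m l) ^ (q - 1)),
    Submodule.smul_mem _ _ (BP_swap (BP_prod_pow (BP_E0 _) (BP_E0 _) _)), fun l m _ hm => ?_⟩
  rw [ext2_w0T, hc l m hm]
  rfl

theorem corner_oo {q : ℕ} (hq : ∀ a, σ a = a ^ q) (hσ : ∀ a, σ (σ a) = a) (hq1 : 1 ≤ q)
    {x y : K} (hx : σ x ≠ x) (hy : σ y ≠ y) (hxy : x ≠ y) (hxy' : σ x ≠ y)
    (tc : K × K → K × K → P) :
    (fun _ : P => w0T q x y) ∈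
      Corner (2 * (q - 1)) (2 * (q - 1)) tc (fun l m => psi σ x (act x l (be σ y m)))
        (fun l m => psi σ y (act y m (be σ x l))) := by
  intro h
  obtain ⟨c, -, hc⟩ := w0_oo hq hσ hq1 hx hy hxy hxy'
  refine ⟨c • (fun l m => (F0 (σ x) (σ y) l m * F0 1 1 l m) ^ (q - 1)),
    Submodule.smul_mem _ _ (BP_prod_pow (BP_F0 _ _) (BP_F0 _ _) _), fun l m hl hm => ?_⟩
  rw [ext2_w0T, hc l m hl hm]
  rfl

end corner

/-- the content position: `z₀ = 1` (vector `(1,1)`), `w₀ = 0` (vector `(0,1)`) -/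
theorem w0T_ne (q : ℕ) {x y : K} (hy : y ≠ 0) : w0T q x y (some 1) (some 0) ≠ 0 := by
  unfold w0T w0
  apply pow_ne_zero
  simp only [rp, Hecke622.rp0, Hecke622.rp1, D0, D1]
  simp [hy]

end Crest.Agent.R289.W0243
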