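import Crest.Agent.R289.FacB_281
import Crest.Agent.R289.Corner_223
import Crest.Agent.R289.HeckeTwo_622

/-!
Row 289, block A, leaf A.W0 (helper285): the base word
`w0 (l, m) = (det (l, m) · det (l.τ, m.τ)) ^ (q - 1)` of the two-place object satisfies the four
corner conditions of bidegree `(s, s)`, `s = 2 (q - 1)`.

Key: `W x y l m = (l.1 m.2 - l.2 m.1) (x l.2 m.1 - y l.1 m.2)`.  With the odd vector
`L = swp (psi x l)` and `m* = act y m (be x l)` both factors are diagonal: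
`det (L, m*) = c · det (l, m) / σ Q`, `E (L, m*) = c · E (l, m) / Q` (`W_odd`), so
`W (σ x) y L m* = const · W x y l m / N Q`, and `(N Q) ^ (q - 1) = 1`.
-/

set_option autoImplicit false

namespace Crest.Agent.R289.W0_285

open Polynomial Crest.Agent.R289.Exp820 Crest.Agent.R289.Exp820.Sk Crest.Agent.R289.Fac281
open Crest.Agent.R289.HeckeTwo622 Crest.Agent.R289.FacB281

variable {K : Type*} [Field K]

/-! ### the form `W` -/

/-- the form `det (l, m) · det (l.τ, m.τ)` -/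
def W (x y : K) (l m : K × K) : K :=
  (l.1 * m.2 - l.2 * m.1) * (x * (l.2 * m.1) - y * (l.1 * m.2))

theorem W_swap (x y : K) (l m : K × K) : W x y l m = W y x m l := by
  unfold W; ring

theorem W_smul (x y c d : K) (l m : K × K) : W x y (c • l) (d • m) = c ^ 2 * d ^ 2 * W x y l m := by
  simp only [W, Prod.smul_fst, Prod.smul_snd, smul_eq_mul]; ring

/-- the base word -/
def w0 (q : ℕ) (x y : K) (l m : K × K) : K := W x y l m ^ (q - 1)

theorem BP_one : (fun _ _ : K × K => (1 : K)) ∈ BP K 0 0 := by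
  have := BP_of (HP_one (K := K)) (HP_one (K := K))
  simpa using this

theorem BP_pow {s t : ℕ} {A : K × K → K × K → K} (hA : A ∈ BP K s t) (n : ℕ) :
    (fun l m => A l m ^ n) ∈ BP K (n * s) (n * t) := by
  induction n with
  | zero => simpa using BP_one
  | succ n ih =>
    have := BP_mul ih hA
    rw [show (n + 1) * s = n * s + s by ring, show (n + 1) * t = n * t + t by ring]
    simpa only [pow_succ] using this

theorem det_mem : (fun l m : K × K => l.1 * m.2 - l.2 * m.1) ∈ BP K 1 1 := by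
  have h1 := BP_of (HP_fst (K := K)) (HP_snd (K := K))
  have h2 := BP_of (HP_snd (K := K)) (HP_fst (K := K))
  exact Submodule.sub_mem _ h1 h2

theorem E_mem (x y : K) :
    (fun l m : K × K => x * (l.2 * m.1) - y * (l.1 * m.2)) ∈ BP K 1 1 := by
  have h1 := BP_of (HP_fst (K := K)) (HP_snd (K := K))
  have h2 := BP_of (HP_snd (K := K)) (HP_fst (K := K))
  exact Submodule.sub_mem _ (Submodule.smul_mem _ x h2) (Submodule.smul_mem _ y h1)

theorem W_mem (x y : K) : W x y ∈ BP K 2 2 := by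
  have h := BP_mul (det_mem (K := K)) (E_mem x y)
  have e : W x y = fun l m : K × K =>
      (l.1 * m.2 - l.2 * m.1) * (x * (l.2 * m.1) - y * (l.1 * m.2)) := by
    funext l m; rfl
  rw [e]
  exact h

theorem w0_mem (q : ℕ) (x y : K) : w0 q x y ∈ BP K (2 * (q - 1)) (2 * (q - 1)) := by
  have := BP_pow (W_mem x y) (q - 1)
  rw [mul_comm] at this
  exact this

theorem w0_homog (q : ℕ) (x y c d : K) (l m : K × K) :
    w0 q x y (c • l) (d • m) = c ^ (2 * (q - 1)) * d ^ (2 * (q - 1)) * w0 q x y l m := by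
  unfold w0
  rw [W_smul, mul_pow, mul_pow, ← pow_mul, ← pow_mul]

theorem w0_swap (q : ℕ) (x y : K) (l m : K × K) : w0 q x y l m = w0 q y x m l := by
  unfold w0; rw [W_swap]

/-! ### the odd vector -/

variable {σ : K →+* K}

/-- the odd coordinate as an even coordinate of the conjugate place -/
def swp (σ : K →+* K) (x : K) : (K × K) →ₗ[K] (K × K) where
  toFun v := (σ x * v.2, v.1)
  map_add' u v := by ext <;> simp [mul_add]
  map_smul' c v := by
    ext
    · simp only [Prod.smul_snd, smul_eq_mul, RingHom.id_apply, Prod.smul_mk]; ring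
    · simp

theorem swp_apply (x : K) (v : K × K) : swp σ x v = (σ x * v.2, v.1) := rfl

theorem sg_eval (hσ : ∀ a, σ (σ a) = a) (p : K[X]) (x : K) :
    σ ((sg σ p).eval x) = p.eval (σ x) := by
  rw [← eval_sg, sg_sg hσ]

theorem act_swp (hσ : ∀ a, σ (σ a) = a) (x : K) (v : K × K) (r : Sk σ) :
    act (σ x) (swp σ x v) r = swp σ x (cj σ (act x (cj σ v) r)) := by
  ext
  · simp only [act, swp_apply, cj, map_sub, map_mul, hσ, sg_eval hσ, ← eval_sg]
    ring
  · simp only [act, swp_apply, cj, map_sub, map_mul, hσ, sg_eval hσ, ← eval_sg]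
    ring

/-- **the two factors are diagonal at the x-odd corner** -/
theorem det_odd (hσ : ∀ a, σ (σ a) = a) {x y : K} (hx : σ x ≠ x) {l m : K × K} (hl : l ≠ 0) :
    ((swp σ x (psi σ x l)).1 * (act y m (be σ x l)).2
      - (swp σ x (psi σ x l)).2 * (act y m (be σ x l)).1) * (x * σ (Q σ x l))
      = (x - σ x) * (σ x - y) * (l.1 * m.2 - l.2 * m.1) := by
  have hx0 : x ≠ 0 := x_ne_zero hx
  have hsx0 : σ x ≠ 0 := (map_ne_zero σ).2 hx0
  have hQ := Q_ne_zero hσ hx hl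
  have hQs : σ (Q σ x l) ≠ 0 := (map_ne_zero σ).2 hQ
  have hgs : σ (gam σ x l) = -(Q σ x l / σ (Q σ x l)) / x := by
    simp only [gam, map_div₀, map_neg, hσ]
  have hbs : σ (bet σ x l) = (σ x - x) / σ x * (σ l.1 * l.2 / Q σ x l) := by
    simp only [bet, map_div₀, map_mul, map_sub, hσ]
  have e1 : σ (Q σ x l) = nm σ l.1 - σ x * nm σ l.2 := Q_sigma hσ x l
  have hsg : sg σ (1 + C (gam σ x l) * X) = 1 + C (σ (gam σ x l)) * X := by
    simp only [map_add, map_one, map_mul, sg_C, sg_X]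
  simp only [psi_eq hσ, swp_apply, act, be, hsg, sg_C, eval_add, eval_one, eval_mul, eval_C,
    eval_X, hgs, hbs]
  simp only [bet, gam]
  generalize hQ1 : Q σ x l = Q1 at *
  generalize hQ2 : σ Q1 = Q2 at *
  simp only [Q, nm] at hQ1
  simp only [nm] at e1
  field_simp
  rw [← hQ1, e1]
  ring

theorem E_odd (hσ : ∀ a, σ (σ a) = a) {x y : K} (hx : σ x ≠ x) {l m : K × K} (hl : l ≠ 0) :
    (σ x * ((swp σ x (psi σ x l)).2 * (act y m (be σ x l)).1)
      - y * ((swp σ x (psi σ x l)).1 * (act y m (be σ x l)).2)) * (x * Q σ x l)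
      = (x - σ x) * (σ x - y) * (x * (l.2 * m.1) - y * (l.1 * m.2)) := by
  have hx0 : x ≠ 0 := x_ne_zero hx
  have hsx0 : σ x ≠ 0 := (map_ne_zero σ).2 hx0
  have hQ := Q_ne_zero hσ hx hl
  have hQs : σ (Q σ x l) ≠ 0 := (map_ne_zero σ).2 hQ
  have hgs : σ (gam σ x l) = -(Q σ x l / σ (Q σ x l)) / x := by
    simp only [gam, map_div₀, map_neg, hσ]
  have hbs : σ (bet σ x l) = (σ x - x) / σ x * (σ l.1 * l.2 / Q σ x l) := by
    simp only [bet, map_div₀, map_mul, map_sub, hσ]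
  have e1 : σ (Q σ x l) = nm σ l.1 - σ x * nm σ l.2 := Q_sigma hσ x l
  have hsg : sg σ (1 + C (gam σ x l) * X) = 1 + C (σ (gam σ x l)) * X := by
    simp only [map_add, map_one, map_mul, sg_C, sg_X]
  simp only [psi_eq hσ, swp_apply, act, be, hsg, sg_C, eval_add, eval_one, eval_mul, eval_C,
    eval_X, hgs, hbs]
  simp only [bet, gam]
  generalize hQ1 : Q σ x l = Q1 at *
  generalize hQ2 : σ Q1 = Q2 at *
  simp only [Q, nm] at hQ1
  simp only [nm] at e1
  field_simp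
  rw [← hQ1, e1]
  ring

theorem W_odd (hσ : ∀ a, σ (σ a) = a) {x y : K} (hx : σ x ≠ x) {l m : K × K} (hl : l ≠ 0) :
    W (σ x) y (swp σ x (psi σ x l)) (act y m (be σ x l)) * (x ^ 2 * nm σ (Q σ x l))
      = ((x - σ x) * (σ x - y)) ^ 2 * W x y l m := by
  have h1 := det_odd (y := y) (m := m) hσ hx hl
  have h2 := E_odd (y := y) (m := m) hσ hx hl
  unfold W nm
  generalize (swp σ x (psi σ x l)).1 * (act y m (be σ x l)).2
      - (swp σ x (psi σ x l)).2 * (act y m (be σ x l)).1 = A at *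
  generalize σ x * ((swp σ x (psi σ x l)).2 * (act y m (be σ x l)).1)
      - y * ((swp σ x (psi σ x l)).1 * (act y m (be σ x l)).2) = B at *
  have : A * B * (x ^ 2 * (Q σ x l * σ (Q σ x l)))
      = (A * (x * σ (Q σ x l))) * (B * (x * Q σ x l)) := by ring
  rw [this, h1, h2]
  ring

/-! ### the word -/

variable {q : ℕ}

/-- the constant of the x-odd corner -/
noncomputable def cc (σ : K →+* K) (x y : K) : K := ((x - σ x) * (σ x - y) / x) ^ 2

theorem nm_pow (hs : ∀ a, σ a = a ^ q) (hq : 1 ≤ q) (hσ : ∀ a, σ (σ a) = a) {a : K} (ha : a ≠ 0) :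
    nm σ a ^ (q - 1) = 1 := by
  have h1 : nm σ a ^ q = nm σ a := by rw [← hs, nm_fix hσ]
  have h2 : nm σ a ≠ 0 := nm_ne_zero ha
  have h3 : nm σ a ^ (q - 1) * nm σ a = nm σ a := by
    rw [← pow_succ, Nat.sub_add_cancel hq, h1]
  exact mul_right_cancel₀ h2 (by rw [h3, one_mul])

/-- x-odd transport of the word -/
theorem w0_odd (hs : ∀ a, σ a = a ^ q) (hq : 1 ≤ q) (hσ : ∀ a, σ (σ a) = a) {x y : K}
    (hx : σ x ≠ x) {l m : K × K} (hl : l ≠ 0) :
    w0 q (σ x) y (swp σ x (psi σ x l)) (act y m (be σ x l))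
      = cc σ x y ^ (q - 1) * w0 q x y l m := by
  have hx0 : x ≠ 0 := x_ne_zero hx
  have h := W_odd (y := y) (m := m) hσ hx hl
  have h2 := congrArg (fun a => a ^ (q - 1)) h
  simp only [mul_pow _ _ (q - 1), nm_pow hs hq hσ (Q_ne_zero hσ hx hl), mul_one] at h2
  unfold w0 cc
  rw [div_pow, div_pow, div_mul_eq_mul_div, eq_div_iff (pow_ne_zero _ (pow_ne_zero _ hx0))]
  rw [h2, mul_pow]


theorem cc_ne_zero (hσ : ∀ a, σ (σ a) = a) {x y : K} (hx : σ x ≠ x) (hxy' : σ x ≠ y) :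
    cc σ x y ≠ 0 := by
  have hx0 : x ≠ 0 := x_ne_zero hx
  exact pow_ne_zero _ (div_ne_zero (mul_ne_zero (sub_ne_zero.2 hx.symm) (sub_ne_zero.2 hxy')) hx0)

theorem w0_eq_odd (hs : ∀ a, σ a = a ^ q) (hq : 1 ≤ q) (hσ : ∀ a, σ (σ a) = a) {x y : K}
    (hx : σ x ≠ x) (hxy' : σ x ≠ y) {l m : K × K} (hl : l ≠ 0) :
    w0 q x y l m = (cc σ x y ^ (q - 1))⁻¹ *
      w0 q (σ x) y (swp σ x (psi σ x l)) (act y m (be σ x l)) := by
  rw [w0_odd hs hq hσ hx hl, inv_mul_cancel_left₀ (pow_ne_zero _ (cc_ne_zero hσ hx hxy'))]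

/-- the word at the even-even corner -/
theorem w0_ee (x y : K) : ∃ G ∈ BP K (2 * (q - 1)) (2 * (q - 1)), ∀ l m : K × K,
    l ≠ 0 → m ≠ 0 → w0 q x y l m = G l m :=
  ⟨_, w0_mem q x y, fun _ _ _ _ => rfl⟩

/-- the word at the x-odd corner -/
theorem w0_oe (hs : ∀ a, σ a = a ^ q) (hq : 1 ≤ q) (hσ : ∀ a, σ (σ a) = a) {x y : K}
    (hx : σ x ≠ x) (hxy' : σ x ≠ y) :
    ∃ G ∈ BP K (2 * (q - 1)) (2 * (q - 1)), ∀ l m : K × K,
      l ≠ 0 → m ≠ 0 → w0 q x y l m = G (psi σ x l) (act y m (be σ x l)) := by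
  refine ⟨(cc σ x y ^ (q - 1))⁻¹ • fun a b => w0 q (σ x) y (swp σ x a) (LinearMap.id b),
    Submodule.smul_mem _ _ (BP_comp (w0_mem q (σ x) y) (swp σ x) LinearMap.id),
    fun l m hl _ => ?_⟩
  rw [w0_eq_odd hs hq hσ hx hxy' hl]
  rfl

/-- the word at the y-odd corner -/
theorem w0_eo (hs : ∀ a, σ a = a ^ q) (hq : 1 ≤ q) (hσ : ∀ a, σ (σ a) = a) {x y : K}
    (hy : σ y ≠ y) (hyx' : σ y ≠ x) :
    ∃ G ∈ BP K (2 * (q - 1)) (2 * (q - 1)), ∀ l m : K × K,
      l ≠ 0 → m ≠ 0 → w0 q x y l m = G (act x l (be σ y m)) (psi σ y m) := by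
  obtain ⟨G, hG, hG'⟩ := w0_oe (q := q) hs hq hσ hy hyx'
  refine ⟨fun a b => G b a, BP_swap hG, fun l m hl hm => ?_⟩
  rw [w0_swap, hG' m l hm hl]

/-- the word at the odd-odd corner -/
theorem w0_oo (hs : ∀ a, σ a = a ^ q) (hq : 1 ≤ q) (hσ : ∀ a, σ (σ a) = a) {x y : K}
    (hx : σ x ≠ x) (hy : σ y ≠ y) (hxy : x ≠ y) (hxy' : σ x ≠ y) :
    ∃ G ∈ BP K (2 * (q - 1)) (2 * (q - 1)), ∀ l m : K × K,
      l ≠ 0 → m ≠ 0 → w0 q x y l m =
        G (psi σ x (act x l (be σ y m))) (psi σ y (act y m (be σ x l))) := by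
  have hyx' : σ y ≠ σ x := fun h => hxy (σ.injective h).symm
  have hσσ : σ (σ x) ≠ σ x := by rw [hσ]; exact hx.symm
  -- the constant norm
  set c0 : K := σ ((y * σ y)⁻¹ * ((x - y) * (x - σ y))) with hc0
  have hN : ∀ m : K × K, m ≠ 0 → σ ((N (be σ y m)).eval x) = c0 := by
    intro m hm
    rw [hc0, N_be_eval hσ hy hm]
  refine ⟨((cc σ x y ^ (q - 1))⁻¹ * (cc σ y (σ x) ^ (q - 1))⁻¹) •
      fun a b => w0 q (σ x) (σ y) (c0 • swp σ x a) (swp σ y b), ?_, fun l m hl hm => ?_⟩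
  · apply Submodule.smul_mem
    exact BP_comp (w0_mem q (σ x) (σ y)) (c0 • swp σ x) (swp σ y)
  · have hm' : act y m (be σ x l) ≠ 0 := act_ne_zero hσ hm (N_be_eval_ne hσ hx hl hxy hxy')
    rw [w0_eq_odd hs hq hσ hx hxy' hl, w0_swap q (σ x) y,
      w0_eq_odd (x := y) (y := σ x) hs hq hσ hy hyx' hm', act_swp hσ,
      psi_transport hσ hx hy hxy hxy' hl hm, hN m hm, map_smul, w0_swap q (σ y) (σ x)]
    simp only [Pi.smul_apply, smul_eq_mul]
    ring

/-! ### tables and corner codes -/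

/-- the base table -/
def tab (q : ℕ) (x y : K) : Option K → Option K → K := fun i j => w0 q x y (rp i) (rp j)

theorem ext2_tab (x y : K) (l m : K × K) :
    ext2 (2 * (q - 1)) (2 * (q - 1)) (tab q x y) l m = w0 q x y l m := by
  unfold ext2 tab
  rw [← w0_homog, scv_smul_rp, scv_smul_rp]

variable {P : Type*} [Group P]

/-- a corner identity gives membership of the constant word in the corner code -/
theorem const_mem_Corner {x y : K} {c1 c2 : K × K → K × K → K × K} (tc : K × K → K × K → P)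
    (h : ∃ G ∈ BP K (2 * (q - 1)) (2 * (q - 1)), ∀ l m : K × K,
      l ≠ 0 → m ≠ 0 → w0 q x y l m = G (c1 l m) (c2 l m)) :
    (fun _ => tab q x y) ∈ Corner (2 * (q - 1)) (2 * (q - 1)) tc c1 c2 := by
  obtain ⟨G, hG, hG'⟩ := h
  exact fun _ => ⟨G, hG, fun l m hl hm => by rw [ext2_tab, hG' l m hl hm]⟩

theorem tab_ee (x y : K) (tc : K × K → K × K → P) :
    (fun _ => tab q x y) ∈ Corner (2 * (q - 1)) (2 * (q - 1)) tc (fun l _ => l) fun _ m => m :=
  const_mem_Corner tc (w0_ee x y)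

theorem tab_oe (hs : ∀ a, σ a = a ^ q) (hq : 1 ≤ q) (hσ : ∀ a, σ (σ a) = a) {x y : K}
    (hx : σ x ≠ x) (hxy' : σ x ≠ y) (tc : K × K → K × K → P) :
    (fun _ => tab q x y) ∈ Corner (2 * (q - 1)) (2 * (q - 1)) tc
      (fun l _ => psi σ x l) fun l m => act y m (be σ x l) :=
  const_mem_Corner tc (w0_oe hs hq hσ hx hxy')

theorem tab_eo (hs : ∀ a, σ a = a ^ q) (hq : 1 ≤ q) (hσ : ∀ a, σ (σ a) = a) {x y : K}
    (hy : σ y ≠ y) (hyx' : σ y ≠ x) (tc : K × K → K × K → P) :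
    (fun _ => tab q x y) ∈ Corner (2 * (q - 1)) (2 * (q - 1)) tc
      (fun l m => act x l (be σ y m)) fun _ m => psi σ y m :=
  const_mem_Corner tc (w0_eo hs hq hσ hy hyx')

theorem tab_oo (hs : ∀ a, σ a = a ^ q) (hq : 1 ≤ q) (hσ : ∀ a, σ (σ a) = a) {x y : K}
    (hx : σ x ≠ x) (hy : σ y ≠ y) (hxy : x ≠ y) (hxy' : σ x ≠ y) (tc : K × K → K × K → P) :
    (fun _ => tab q x y) ∈ Corner (2 * (q - 1)) (2 * (q - 1)) tc
      (fun l m => psi σ x (act x l (be σ y m))) fun l m => psi σ y (act y m (be σ x l)) :=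
  const_mem_Corner tc (w0_oo hs hq hσ hx hy hxy hxy')

/-- value at the content point -/
theorem tab_h0 (x y : K) : tab q x y (some 1) (some 0) = (-y) ^ (q - 1) := by
  unfold tab w0 W rp
  simp [Crest.Agent.R289.Hecke622.rp0, Crest.Agent.R289.Hecke622.rp1]

theorem tab_ne_zero {x y : K} (hy : y ≠ 0) : tab q x y (some 1) (some 0) ≠ 0 := by
  rw [tab_h0]
  exact pow_ne_zero _ (neg_ne_zero.2 hy)

/-- the odd coordinates of `Corner_223` and `FacB_281` agree -/
theorem psi_eq_sharp (x : K) (l : K × K) :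
    psi σ x l = (σ (Corner223.sharp σ x l).1, σ (Corner223.sharp σ x l).2) := by
  have : fl σ x l = Corner223.sharp σ x l := by
    ext
    · simp only [fl, Corner223.sharp]; ring
    · simp only [fl, Corner223.sharp]
      rw [mul_comm (Q σ x l), div_mul_eq_div_div]
      ring
  rw [psi, this, cj]

end Crest.Agent.R289.W0_285
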