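import Mathlib
import Crest.Agent.R289.Level_492

/-!
# Row 289, block C, leaf (s3) of C-FINAL (#6198): the walk in `T` as public words of `V_T`

Units of the T-object: `T` (a group, acting by left translations), symbols of a unit: `S`, content
symbol `s0 : S`.  Words are functions `T × S → A` with values in any `K`-module `A` (P-side words,
bundles).  `V` is a linear code that is rigid (content bijection), `C2 ⊇ V * V`.

* `InC C X` : the word `X : T × S → A` has all its functionals in the code `C`.
* `wd hV c` : the word of `V` with content `c`.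
* `Uw`, `Dw`, `E1`, `E2` : public words of the walk `p 0, .., p L` (steps `p (i+1) = gam (dir i) * p i`).
* `opU`, `opN1`, `opN2` : the T-side operators of `Level492`, pointwise local.
* `walk` : literally `Level492.Walk`; `off_*` : the off-path part.
* `rec_iff`, `recm_iff` : for `X ∈ V ⊗ A` the content symbols of the residual word vanish iff
  `X = recX t` (resp. `recXm t`).
-/

set_option autoImplicit false
set_option linter.unusedSectionVars false

namespace Crest.Agent.R289.WalkT780

open Finset Matrix Crest.Agent.R289.Level492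

variable {K : Type*} [Field K] {A B : Type*} [AddCommGroup A] [Module K A]
  [AddCommGroup B] [Module K B]

/-! ### words with values in a module -/

section inc

variable {n : Type*}

/-- a word `X : n → A` all of whose functionals are in the code `C` -/
def InC (C : Submodule K (n → K)) (X : n → A) : Prop := ∀ φ : A →ₗ[K] K, (fun u => φ (X u)) ∈ C

variable {C : Submodule K (n → K)}

theorem InC.zero : InC C (0 : n → A) := by
  intro φ
  have : (fun u => φ ((0 : n → A) u)) = 0 := by funext u; simp
  rw [this]; exact C.zero_mem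

theorem InC.add {X Y : n → A} (hX : InC C X) (hY : InC C Y) : InC C (X + Y) := by
  intro φ
  have : (fun u => φ ((X + Y) u)) = (fun u => φ (X u)) + fun u => φ (Y u) := by
    funext u; simp
  rw [this]; exact C.add_mem (hX φ) (hY φ)

theorem InC.neg {X : n → A} (hX : InC C X) : InC C (-X) := by
  intro φ
  have : (fun u => φ ((-X) u)) = -(fun u => φ (X u)) := by
    funext u; simp
  rw [this]; exact C.neg_mem (hX φ)

theorem InC.sub {X Y : n → A} (hX : InC C X) (hY : InC C Y) : InC C (X - Y) := by
  rw [sub_eq_add_neg]; exact hX.add hY.neg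

theorem InC.smul {X : n → A} (c : K) (hX : InC C X) : InC C (c • X) := by
  intro φ
  have : (fun u => φ ((c • X) u)) = c • (fun u => φ (X u)) := by
    funext u; simp
  rw [this]; exact C.smul_mem c (hX φ)

theorem InC.sum {ι : Type*} (s : Finset ι) {X : ι → n → A} (h : ∀ i ∈ s, InC C (X i)) :
    InC C (∑ i ∈ s, X i) := by
  classical
  induction s using Finset.induction_on with
  | empty => simpa using InC.zero (C := C) (A := A)
  | insert a s ha ih =>
    rw [sum_insert ha]
    exact (h a (mem_insert_self _ _)).add (ih fun i hi => h i (mem_insert_of_mem hi))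

/-- P-side linear maps preserve membership -/
theorem InC.map {X : n → A} (f : A →ₗ[K] B) (hX : InC C X) : InC C (fun u => f (X u)) :=
  fun φ => hX (φ.comp f)

theorem InC.tensor {D : n → K} (hD : D ∈ C) (w : A) : InC C (Level492.ten D w) := by
  intro φ
  have : (fun u => φ (Level492.ten D w u)) = (φ w) • D := by
    funext u; simp [Level492.ten, mul_comm]
  rw [this]; exact C.smul_mem _ hD

/-- words with values in a finite function space: all coordinates are in the code -/
theorem inC_pi {ι : Type*} [Finite ι] {X : n → ι → A} :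
    InC C X ↔ ∀ i, InC C (fun u => X u i) := by
  classical
  have := Fintype.ofFinite ι
  constructor
  · intro h i
    exact h.map (LinearMap.proj i)
  · intro h φ
    have : (fun u => φ (X u)) =
        ∑ i, fun u => (φ.comp (LinearMap.single K (fun _ : ι => A) i)) (X u i) := by
      funext u
      rw [Finset.sum_apply]
      conv_lhs => rw [show X u = ∑ i, Pi.single i (X u i) from
        (Finset.univ_sum_single (X u)).symm]
      rw [map_sum]
      rfl
    rw [this]
    exact C.sum_mem fun i _ => h i _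

/-- scalar words -/
theorem inC_scalar {X : n → K} : InC C X ↔ X ∈ C := by
  constructor
  · intro h; exact h LinearMap.id
  · intro h φ
    have : (fun u => φ (X u)) = (φ 1) • X := by
      funext u
      have := φ.map_smul (X u) 1
      simp only [smul_eq_mul, mul_one] at this
      rw [this]; simp [mul_comm]
    rw [this]; exact C.smul_mem _ h

/-- words with values in `ι → K`, `ι` finite -/
theorem inC_fun {ι : Type*} [Finite ι] {X : n → ι → K} :
    InC C X ↔ ∀ i, (fun u => X u i) ∈ C := by
  rw [inC_pi]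
  exact forall_congr' fun i => inC_scalar

/-- words with values in `ι → κ → K`, both finite -/
theorem inC_fun2 {ι κ : Type*} [Finite ι] [Finite κ] {X : n → ι → κ → K} :
    InC C X ↔ ∀ i j, (fun u => X u i j) ∈ C := by
  rw [inC_pi]
  exact forall_congr' fun i => inC_fun

theorem InC.mono {C' : Submodule K (n → K)} (h : C ≤ C') {X : n → A} (hX : InC C X) : InC C' X :=
  fun φ => h (hX φ)

/-- equality of words with values in a vector space is checked by functionals -/
theorem eq_of_dual {X Y : n → A} (h : ∀ φ : A →ₗ[K] K, ∀ u, φ (X u) = φ (Y u)) : X = Y := by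
  funext u
  rw [← sub_eq_zero, ← Module.forall_dual_apply_eq_zero_iff K]
  intro φ
  have := h φ u
  rw [map_sub, this, sub_self]

end inc

/-! ### rigid codes -/

variable {T S : Type*}

/-- every content belongs to exactly one word of `V` -/
def Rigid (V : Submodule K (T × S → K)) (s0 : S) : Prop :=
  ∀ c : T → K, ∃! f : T × S → K, f ∈ V ∧ ∀ g, f (g, s0) = c g

section rigid
variable {V : Submodule K (T × S → K)} {s0 : S}

/-- the word of `V` with content `c` -/
noncomputable def wd (hV : Rigid V s0) (c : T → K) : T × S → K := (hV c).choose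

theorem wd_mem (hV : Rigid V s0) (c : T → K) : wd hV c ∈ V := (hV c).choose_spec.1.1

@[simp] theorem wd_content (hV : Rigid V s0) (c : T → K) (g : T) : wd hV c (g, s0) = c g :=
  (hV c).choose_spec.1.2 g

theorem eq_wd (hV : Rigid V s0) {c : T → K} {f : T × S → K} (hf : f ∈ V)
    (h : ∀ g, f (g, s0) = c g) : f = wd hV c :=
  (hV c).choose_spec.2 f ⟨hf, h⟩

theorem eq_of_content (hV : Rigid V s0) {f f' : T × S → K} (hf : f ∈ V) (hf' : f' ∈ V)
    (h : ∀ g, f (g, s0) = f' (g, s0)) : f = f' :=
  (hV (fun g => f' (g, s0))).unique ⟨hf, h⟩ ⟨hf', fun _ => rfl⟩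

/-- uniqueness for words with values in a module -/
theorem InC.eq_of_content (hV : Rigid V s0) {X Y : T × S → A} (hX : InC V X) (hY : InC V Y)
    (h : ∀ g, X (g, s0) = Y (g, s0)) : X = Y := by
  apply eq_of_dual (K := K)
  intro φ u
  have := WalkT780.eq_of_content hV (hX φ) (hY φ) (fun g => by simp only [h g])
  exact congrFun this u

theorem InC.eq_zero (hV : Rigid V s0) {X : T × S → A} (hX : InC V X)
    (h : ∀ g, X (g, s0) = 0) : X = 0 :=
  hX.eq_of_content hV InC.zero (fun g => by simp [h g])

/-- `wd` is linear -/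
theorem wd_add (hV : Rigid V s0) (c c' : T → K) : wd hV (c + c') = wd hV c + wd hV c' :=
  (eq_wd hV (V.add_mem (wd_mem hV c) (wd_mem hV c')) (fun g => by simp)).symm

theorem wd_smul (hV : Rigid V s0) (a : K) (c : T → K) : wd hV (a • c) = a • wd hV c :=
  (eq_wd hV (V.smul_mem a (wd_mem hV c)) (fun g => by simp)).symm

theorem wd_zero (hV : Rigid V s0) : wd hV (0 : T → K) = 0 :=
  (eq_wd hV V.zero_mem (fun g => by simp)).symm

end rigid

/-! ### local operators -/

section ops
variable [Fintype T] [Fintype S] [DecidableEq T] [DecidableEq S]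

/-- multiplication by the word `d` -/
def mulOp (d : T × S → K) : Matrix (T × S) (T × S) K := Matrix.diagonal d

@[simp] theorem act_mulOp (d : T × S → K) (X : T × S → A) (u : T × S) :
    act (mulOp d) X u = d u • X u := by
  simp only [act, mulOp, Matrix.diagonal_apply, ite_smul, zero_smul]
  simp

variable [Group T] {J : Type*} [Fintype J]

/-- masked sum of left neighbours -/
def shiftOp (E : J → T × S → K) (gam : J → T) : Matrix (T × S) (T × S) K :=
  fun u v => ∑ j, if v = (gam j * u.1, u.2) then E j u else 0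

@[simp] theorem act_shiftOp (E : J → T × S → K) (gam : J → T) (X : T × S → A) (u : T × S) :
    act (shiftOp E gam) X u = ∑ j, E j u • X (gam j * u.1, u.2) := by
  simp only [act, shiftOp, sum_smul, ite_smul, zero_smul]
  rw [sum_comm]
  refine sum_congr rfl fun j _ => ?_
  simp

/-- the codes: `V * V ≤ C2`, `V` closed under left translations -/
structure Codes (V C2 : Submodule K (T × S → K)) : Prop where
  mul : ∀ f ∈ V, ∀ g ∈ V, (fun u => f u * g u) ∈ C2
  left : ∀ (t : T), ∀ f ∈ V, (fun u : T × S => f (t * u.1, u.2)) ∈ V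

variable {V C2 : Submodule K (T × S → K)}

theorem inC_mulOp (hC : Codes V C2) {d : T × S → K} (hd : d ∈ V) {X : T × S → A}
    (hX : InC V X) : InC C2 (act (mulOp d) X) := by
  intro φ
  have : (fun u => φ (act (mulOp d) X u)) = fun u => d u * φ (X u) := by
    funext u; simp
  rw [this]
  exact hC.mul d hd _ (hX φ)

theorem inC_shiftOp (hC : Codes V C2) {E : J → T × S → K} (hE : ∀ j, E j ∈ V) (gam : J → T)
    {X : T × S → A} (hX : InC V X) : InC C2 (act (shiftOp E gam) X) := by
  intro φ
  have : (fun u => φ (act (shiftOp E gam) X u))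
      = ∑ j, fun u => E j u * φ (X (gam j * u.1, u.2)) := by
    funext u
    rw [Finset.sum_apply, act_shiftOp, map_sum]
    exact sum_congr rfl fun j _ => by simp
  rw [this]
  exact C2.sum_mem fun j _ => hC.mul (E j) (hE j) _ (hC.left (gam j) _ (hX φ))

end ops

/-! ### the walk -/

/-- a walk `p 0, .., p L` in the group `T`, steps `p (i+1) = gam (dir i) * p i` -/
structure Path (T J : Type*) [Group T] where
  gam : J → T
  L : ℕ
  p : ℕ → T
  dir : ℕ → J
  step : ∀ i, i < L → p (i + 1) = gam (dir i) * p i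
  inj : ∀ i, i ≤ L → ∀ j, j ≤ L → p i = p j → i = j

section walk
variable [Group T] [Fintype T] [Fintype S] [DecidableEq T] [DecidableEq S]
variable {J : Type*} [Fintype J] [DecidableEq J]
variable {V C2 : Submodule K (T × S → K)} {s0 : S}

open Classical in
/-- content of the first mask: `1` at `p i` iff `i + 1 ≤ L` and `dir i = j` -/
noncomputable def c1 (P : Path T J) (j : J) (g : T) : K :=
  if ∃ i, i + 1 ≤ P.L ∧ P.p i = g ∧ P.dir i = j then 1 else 0

open Classical in
/-- content of the second mask -/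
noncomputable def c2 (P : Path T J) (j : J × J) (g : T) : K :=
  if ∃ i, i + 2 ≤ P.L ∧ P.p i = g ∧ P.dir i = j.1 ∧ P.dir (i + 1) = j.2 then 1 else 0

/-- content of `D t` -/
def cD (P : Path T J) (t : ℕ) (g : T) : K := if t ≤ P.L ∧ P.p t = g then 1 else 0

variable (K) in
theorem c1_path (P : Path T J) (j : J) {i : ℕ} (hi : i ≤ P.L) :
    (c1 P j (P.p i) : K) = if i < P.L ∧ P.dir i = j then 1 else 0 := by
  unfold c1
  by_cases h : i < P.L ∧ P.dir i = j
  · rw [if_pos h, if_pos ⟨i, h.1, rfl, h.2⟩]
  · rw [if_neg h, if_neg]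
    rintro ⟨i', h1, h2, h3⟩
    have := P.inj i' (by omega) i hi h2
    subst this
    exact h ⟨h1, h3⟩

variable (K) in
theorem c2_path (P : Path T J) (j : J × J) {i : ℕ} (hi : i ≤ P.L) :
    (c2 P j (P.p i) : K) = if i + 2 ≤ P.L ∧ (P.dir i, P.dir (i + 1)) = j then 1 else 0 := by
  unfold c2
  by_cases h : i + 2 ≤ P.L ∧ (P.dir i, P.dir (i + 1)) = j
  · rw [if_pos h, if_pos ⟨i, h.1, rfl, by rw [← h.2], by rw [← h.2]⟩]
  · rw [if_neg h, if_neg]
    rintro ⟨i', h1, h2, h3, h4⟩
    have := P.inj i' (by omega) i hi h2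
    subst this
    exact h ⟨h1, by rw [h3, h4]⟩

variable (K) in
theorem cD_path (P : Path T J) {t i : ℕ} (ht : t ≤ P.L) (hi : i ≤ P.L) :
    (cD P t (P.p i) : K) = if i = t then 1 else 0 := by
  unfold cD
  by_cases h : i = t
  · subst h; simp [hi]
  · rw [if_neg h, if_neg]
    rintro ⟨_, h2⟩
    exact h (P.inj i hi t ht h2.symm)

/-- `g` is on the path -/
def Path.On (P : Path T J) (g : T) : Prop := ∃ i, i ≤ P.L ∧ P.p i = g

theorem c1_off (P : Path T J) (j : J) {g : T} (hg : ¬ P.On g) : (c1 P j g : K) = 0 := by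
  unfold c1
  rw [if_neg]
  rintro ⟨i, h1, h2, _⟩
  exact hg ⟨i, by omega, h2⟩

theorem c2_off (P : Path T J) (j : J × J) {g : T} (hg : ¬ P.On g) : (c2 P j g : K) = 0 := by
  unfold c2
  rw [if_neg]
  rintro ⟨i, h1, h2, _⟩
  exact hg ⟨i, by omega, h2⟩

theorem cD_off (P : Path T J) (t : ℕ) {g : T} (hg : ¬ P.On g) : (cD P t g : K) = 0 := by
  unfold cD
  rw [if_neg]
  rintro ⟨h1, h2⟩
  exact hg ⟨t, h1, h2⟩

/-- public words of the walk -/
noncomputable def Uw (hV : Rigid V s0) : T × S → K := wd hV (fun _ => 1)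
noncomputable def Dw (hV : Rigid V s0) (P : Path T J) (t : ℕ) : T × S → K := wd hV (cD P t)
noncomputable def E1 (hV : Rigid V s0) (P : Path T J) (j : J) : T × S → K := wd hV (c1 P j)
noncomputable def E2 (hV : Rigid V s0) (P : Path T J) (j : J × J) : T × S → K := wd hV (c2 P j)

theorem Uw_mem (hV : Rigid V s0) : Uw hV ∈ V := wd_mem _ _
theorem Dw_mem (hV : Rigid V s0) (P : Path T J) (t : ℕ) : Dw hV P t ∈ V := wd_mem _ _
theorem E1_mem (hV : Rigid V s0) (P : Path T J) (j : J) : E1 hV P j ∈ V := wd_mem _ _
theorem E2_mem (hV : Rigid V s0) (P : Path T J) (j : J × J) : E2 hV P j ∈ V := wd_mem _ _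

/-- the T-side operators -/
noncomputable def opU (hV : Rigid V s0) : Matrix (T × S) (T × S) K := mulOp (Uw hV)
noncomputable def opN1 (hV : Rigid V s0) (P : Path T J) : Matrix (T × S) (T × S) K :=
  shiftOp (E1 hV P) P.gam
noncomputable def opN2 (hV : Rigid V s0) (P : Path T J) : Matrix (T × S) (T × S) K :=
  shiftOp (E2 hV P) (fun j : J × J => P.gam j.2 * P.gam j.1)

theorem act_opU (hV : Rigid V s0) (X : T × S → A) (u : T × S) :
    act (opU hV) X u = Uw hV u • X u := act_mulOp _ _ _

theorem act_opN1 (hV : Rigid V s0) (P : Path T J) (X : T × S → A) (u : T × S) :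
    act (opN1 hV P) X u = ∑ j, E1 hV P j u • X (P.gam j * u.1, u.2) := act_shiftOp _ _ _ _

theorem act_opN2 (hV : Rigid V s0) (P : Path T J) (X : T × S → A) (u : T × S) :
    act (opN2 hV P) X u
      = ∑ j : J × J, E2 hV P j u • X (P.gam j.2 * P.gam j.1 * u.1, u.2) := act_shiftOp _ _ _ _

/-- contents of the operators -/
theorem act_opU_content (hV : Rigid V s0) (X : T × S → A) (g : T) :
    act (opU hV) X (g, s0) = X (g, s0) := by
  rw [act_opU, Uw, wd_content, one_smul]

theorem act_opN1_path (hV : Rigid V s0) (P : Path T J) (X : T × S → A) {i : ℕ} (hi : i < P.L) :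
    act (opN1 hV P) X (P.p i, s0) = X (P.p (i + 1), s0) := by
  rw [act_opN1, sum_eq_single (P.dir i)]
  · rw [E1, wd_content, c1_path K P _ hi.le, if_pos ⟨hi, rfl⟩, one_smul, P.step i hi]
  · intro j _ hj
    rw [E1, wd_content, c1_path K P _ hi.le, if_neg, zero_smul]
    rintro ⟨_, h⟩; exact hj h.symm
  · intro h; exact absurd (mem_univ _) h

theorem act_opN1_end (hV : Rigid V s0) (P : Path T J) (X : T × S → A) :
    act (opN1 hV P) X (P.p P.L, s0) = 0 := by
  rw [act_opN1]
  refine sum_eq_zero fun j _ => ?_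
  rw [E1, wd_content, c1_path K P _ le_rfl, if_neg (by omega), zero_smul]

theorem act_opN2_path (hV : Rigid V s0) (P : Path T J) (X : T × S → A) {i : ℕ}
    (hi : i + 2 ≤ P.L) : act (opN2 hV P) X (P.p i, s0) = X (P.p (i + 2), s0) := by
  rw [act_opN2, sum_eq_single (P.dir i, P.dir (i + 1))]
  · rw [E2, wd_content, c2_path K P _ (by omega), if_pos ⟨hi, rfl⟩, one_smul]
    have h1 := P.step i (by omega)
    have h2 := P.step (i + 1) (by omega)
    rw [h2, h1, mul_assoc]
  · intro j _ hj
    rw [E2, wd_content, c2_path K P _ (by omega), if_neg, zero_smul]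
    rintro ⟨_, h⟩; exact hj h.symm
  · intro h; exact absurd (mem_univ _) h

theorem act_opN2_end (hV : Rigid V s0) (P : Path T J) (X : T × S → A) {i : ℕ} (hi : i ≤ P.L)
    (hi2 : P.L < i + 2) : act (opN2 hV P) X (P.p i, s0) = 0 := by
  rw [act_opN2]
  refine sum_eq_zero fun j _ => ?_
  rw [E2, wd_content, c2_path K P _ hi, if_neg (by omega), zero_smul]

/-- off the path -/
theorem act_opN1_off (hV : Rigid V s0) (P : Path T J) (X : T × S → A) {g : T} (hg : ¬ P.On g) :
    act (opN1 hV P) X (g, s0) = 0 := by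
  rw [act_opN1]
  refine sum_eq_zero fun j _ => ?_
  rw [E1, wd_content, c1_off P j hg, zero_smul]

theorem act_opN2_off (hV : Rigid V s0) (P : Path T J) (X : T × S → A) {g : T} (hg : ¬ P.On g) :
    act (opN2 hV P) X (g, s0) = 0 := by
  rw [act_opN2]
  refine sum_eq_zero fun j _ => ?_
  rw [E2, wd_content, c2_off P j hg, zero_smul]

theorem Dw_path (hV : Rigid V s0) (P : Path T J) {t i : ℕ} (ht : t ≤ P.L) (hi : i ≤ P.L) :
    Dw hV P t (P.p i, s0) = if i = t then 1 else 0 := by
  rw [Dw, wd_content, cD_path K P ht hi]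

theorem Dw_off (hV : Rigid V s0) (P : Path T J) (t : ℕ) {g : T} (hg : ¬ P.On g) :
    Dw hV P t (g, s0) = 0 := by
  rw [Dw, wd_content, cD_off P t hg]

theorem Dw_large (hV : Rigid V s0) (P : Path T J) {t : ℕ} (ht : P.L < t) : Dw hV P t = 0 := by
  have : (cD P t : T → K) = 0 := by
    funext g
    unfold cD
    rw [if_neg (by omega)]
    rfl
  rw [Dw, this, wd_zero]

/-- MAIN THEOREM 1: the walk in the sense of `Level492`, values in any module -/
theorem walk (hV : Rigid V s0) (P : Path T J) :
    Walk (A := A) (opU hV) (opN1 hV P) (opN2 hV P) (fun i => (P.p i, s0)) P.L where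
  U_pos _ _ X := act_opU_content hV X _
  N1_pos _ hi X := act_opN1_path hV P X hi
  N1_end X := act_opN1_end hV P X
  N2_pos _ hi X := act_opN2_path hV P X hi
  N2_end _ hi hi2 X := act_opN2_end hV P X hi hi2

/-! ### the operators map `V` to `C2` -/

theorem inC_opU (hC : Codes V C2) (hV : Rigid V s0) {X : T × S → A} (hX : InC V X) :
    InC C2 (act (opU hV) X) := inC_mulOp hC (Uw_mem hV) hX

theorem inC_opN1 (hC : Codes V C2) (hV : Rigid V s0) (P : Path T J) {X : T × S → A}
    (hX : InC V X) : InC C2 (act (opN1 hV P) X) := inC_shiftOp hC (E1_mem hV P) _ hX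

theorem inC_opN2 (hC : Codes V C2) (hV : Rigid V s0) (P : Path T J) {X : T × S → A}
    (hX : InC V X) : InC C2 (act (opN2 hV P) X) := inC_shiftOp hC (E2_mem hV P) _ hX

theorem opU_mem (hC : Codes V C2) (hV : Rigid V s0) {D : T × S → K} (hD : D ∈ V) :
    opU hV *ᵥ D ∈ C2 := by
  have h := inC_scalar.mp (inC_opU hC hV (inC_scalar.mpr hD))
  have h2 : act (opU hV) D = opU hV *ᵥ D := by
    funext i; simp [act, Matrix.mulVec, dotProduct]
  rwa [h2] at h

theorem opN1_mem (hC : Codes V C2) (hV : Rigid V s0) (P : Path T J) {D : T × S → K}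
    (hD : D ∈ V) : opN1 hV P *ᵥ D ∈ C2 := by
  have h := inC_scalar.mp (inC_opN1 hC hV P (inC_scalar.mpr hD))
  have h2 : act (opN1 hV P) D = opN1 hV P *ᵥ D := by
    funext i; simp [act, Matrix.mulVec, dotProduct]
  rwa [h2] at h

theorem opN2_mem (hC : Codes V C2) (hV : Rigid V s0) (P : Path T J) {D : T × S → K}
    (hD : D ∈ V) : opN2 hV P *ᵥ D ∈ C2 := by
  have h := inC_scalar.mp (inC_opN2 hC hV P (inC_scalar.mpr hD))
  have h2 : act (opN2 hV P) D = opN2 hV P *ᵥ D := by
    funext i; simp [act, Matrix.mulVec, dotProduct]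
  rwa [h2] at h

/-- the residual word is a word of `C2` -/
theorem inC_Q (hC : Codes V C2) (hV : Rigid V s0) (P : Path T J) (Λ : A →ₗ[K] A) (w : A)
    {E : T × S → K} (hE : E ∈ V) {X : T × S → A} (hX : InC V X) :
    InC C2 (Q Λ (opU hV) (opN1 hV P) (opN2 hV P) w E X) := by
  have h1 := inC_opU hC hV hX
  have h2 := (inC_opN1 hC hV P hX).map Λ
  have h3 := inC_opN2 hC hV P hX
  have h4 : InC C2 (ten (opU hV *ᵥ E) w) := InC.tensor (opU_mem hC hV hE) w
  have : Q Λ (opU hV) (opN1 hV P) (opN2 hV P) w E X
      = act (opU hV) X - (fun j => Λ (act (opN1 hV P) X j)) - act (opN2 hV P) X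
        - ten (opU hV *ᵥ E) w := by
    funext j; simp [Q, Lc]
  rw [this]
  exact ((h1.sub h2).sub h3).sub h4

theorem kap_mem (hC : Codes V C2) (hV : Rigid V s0) (P : Path T J) (t : ℕ) :
    kap (opU hV) (opN1 hV P) (Dw hV P) t ∈ C2 :=
  C2.sub_mem (opU_mem hC hV (Dw_mem hV P t)) (opN1_mem hC hV P (Dw_mem hV P (t + 1)))

theorem Dm_mem (hV : Rigid V s0) (P : Path T J) (t : ℕ) : Dm (Dw hV P) t ∈ V := by
  cases t with
  | zero => exact V.zero_mem
  | succ t => exact Dw_mem hV P t

theorem kap'_mem (hC : Codes V C2) (hV : Rigid V s0) (P : Path T J) (t : ℕ) :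
    kap' (opU hV) (opN2 hV P) (Dw hV P) t ∈ C2 :=
  C2.sub_mem (opU_mem hC hV (Dm_mem hV P t)) (opN2_mem hC hV P (Dw_mem hV P (t + 1)))

/-! ### records -/

theorem inC_recX (hV : Rigid V s0) (P : Path T J) (Λ : A →ₗ[K] A) (w : A) (t : ℕ) :
    InC V (recX Λ (Dw hV P) w t) :=
  InC.sum _ fun i _ => InC.tensor (Dw_mem hV P i) _

theorem inC_recXm (hV : Rigid V s0) (P : Path T J) (Λ : A →ₗ[K] A) (w : A) (t : ℕ) :
    InC V (recXm Λ (Dw hV P) w t) := by
  cases t with
  | zero => exact InC.zero
  | succ t => exact inC_recX hV P Λ w t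

/-- contents of the record -/
theorem recX_path (hV : Rigid V s0) (P : Path T J) (Λ : A →ₗ[K] A) (w : A) {t i : ℕ}
    (ht : t ≤ P.L) (hi : i ≤ P.L) :
    recX Λ (Dw hV P) w t (P.p i, s0) = if i ≤ t then chain Λ w (t - i) else 0 := by
  rw [recX, Finset.sum_apply]
  have h : ∀ i' ∈ range (t + 1), ten (Dw hV P i') (chain Λ w (t - i')) (P.p i, s0)
      = if i = i' then chain Λ w (t - i') else 0 := by
    intro i' hi'
    have : i' ≤ P.L := by have := mem_range.mp hi'; omega
    simp only [ten, Dw_path hV P this hi]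
    split_ifs <;> simp
  rw [sum_congr rfl h]
  by_cases hit : i ≤ t
  · rw [if_pos hit, sum_ite_eq, if_pos (mem_range.mpr (by omega))]
  · rw [if_neg hit, sum_ite_eq, if_neg (by simpa using by omega)]

theorem recX_off (hV : Rigid V s0) (P : Path T J) (Λ : A →ₗ[K] A) (w : A) (t : ℕ) {g : T}
    (hg : ¬ P.On g) : recX Λ (Dw hV P) w t (g, s0) = 0 := by
  rw [recX, Finset.sum_apply]
  refine sum_eq_zero fun i _ => ?_
  simp only [ten, Dw_off hV P i hg, zero_smul]

theorem chain_zero (Λ : A →ₗ[K] A) (j : ℕ) : chain Λ (0 : A) j = 0 := by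
  induction j using Nat.strong_induction_on with
  | _ j ih =>
    match j, ih with
    | 0, _ => rfl
    | 1, _ => simp [chain]
    | j + 2, ih => simp [chain, ih (j + 1) (by omega), ih j (by omega)]

/-- MAIN THEOREM 2 (static record): for `X ∈ V ⊗ A`, all content symbols of the residual word
vanish iff `X` is the record of `(w, t)` -/
theorem rec_iff (hV : Rigid V s0) (P : Path T J) (Λ : A →ₗ[K] A) (w : A) {t : ℕ} (ht : t ≤ P.L)
    {X : T × S → A} (hX : InC V X) :
    (∀ g, Q Λ (opU hV) (opN1 hV P) (opN2 hV P) w (Dw hV P t) X (g, s0) = 0) ↔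
      X = recX Λ (Dw hV P) w t := by
  have hUD : ∀ g, ten (opU hV *ᵥ Dw hV P t) w (g, s0) = Dw hV P t (g, s0) • w := by
    intro g
    rw [← act_ten, act_opU_content]
    rfl
  constructor
  · intro h
    apply hX.eq_of_content hV (inC_recX hV P Λ w t)
    intro g
    by_cases hg : P.On g
    · obtain ⟨i, hi, rfl⟩ := hg
      have := content_unique (walk (A := A) hV P) ht
        (E := Dw hV P t) (fun i hi => Dw_path hV P ht hi) (X := X)
        (fun i _ => h (P.p i)) i hi
      rw [this, recX_path hV P Λ w ht hi]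
    · have h1 := h g
      simp only [Q, Lc, Pi.sub_apply, hUD, act_opU_content, act_opN1_off hV P X hg,
        act_opN2_off hV P X hg, Dw_off hV P t hg, map_zero, sub_zero, zero_smul] at h1
      rw [h1, recX_off hV P Λ w t hg]
  · rintro rfl g
    by_cases hg : P.On g
    · obtain ⟨i, hi, rfl⟩ := hg
      simp only [Q, Lc, Pi.sub_apply, hUD, act_opU_content]
      rw [recX_path hV P Λ w ht hi, Dw_path hV P ht hi]
      by_cases h1 : i + 2 ≤ P.L
      · rw [act_opN1_path hV P _ (by omega), act_opN2_path hV P _ h1,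
          recX_path hV P Λ w ht (by omega : i + 1 ≤ P.L), recX_path hV P Λ w ht h1]
        by_cases h2 : i + 2 ≤ t
        · obtain ⟨j, hj⟩ : ∃ j, t - (i + 2) = j := ⟨_, rfl⟩
          rw [if_pos (by omega : i ≤ t), if_pos (by omega : i + 1 ≤ t), if_pos h2,
            if_neg (by omega : ¬ i = t), hj, show t - i = j + 2 from by omega,
            show t - (i + 1) = j + 1 from by omega]
          simp only [chain, zero_smul]
          abel
        · by_cases h3 : i + 1 ≤ t
          · rw [if_pos (by omega : i ≤ t), if_pos h3, if_neg h2, if_neg (by omega : ¬ i = t),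
              show t - i = 1 from by omega, show t - (i + 1) = 0 from by omega]
            simp [chain]
          · by_cases h4 : i = t
            · subst h4
              rw [if_pos le_rfl, if_neg h3, if_neg h2, if_pos rfl, Nat.sub_self]
              simp [chain]
            · rw [if_neg (by omega : ¬ i ≤ t), if_neg h3, if_neg h2, if_neg h4]
              simp
      · rw [act_opN2_end hV P _ hi (by omega)]
        by_cases h5 : i < P.L
        · rw [act_opN1_path hV P _ h5, recX_path hV P Λ w ht (by omega : i + 1 ≤ P.L)]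
          by_cases h3 : i + 1 ≤ t
          · rw [if_pos (by omega : i ≤ t), if_pos h3, if_neg (by omega : ¬ i = t),
              show t - i = 1 from by omega, show t - (i + 1) = 0 from by omega]
            simp [chain]
          · by_cases h4 : i = t
            · subst h4
              rw [if_pos le_rfl, if_neg h3, if_pos rfl, Nat.sub_self]
              simp [chain]
            · rw [if_neg (by omega : ¬ i ≤ t), if_neg h3, if_neg h4]
              simp
        · have : i = P.L := by omega
          subst this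
          rw [act_opN1_end]
          by_cases h4 : P.L = t
          · rw [if_pos (by omega : P.L ≤ t), if_pos h4, show t - P.L = 0 from by omega]
            simp [chain]
          · rw [if_neg (by omega : ¬ P.L ≤ t), if_neg h4]
            simp
    · simp only [Q, Lc, Pi.sub_apply, hUD, act_opU_content, act_opN1_off hV P _ hg,
        act_opN2_off hV P _ hg, Dw_off hV P t hg, recX_off hV P Λ w t hg, map_zero, sub_zero,
        zero_smul]

/-- the residual word with `E = 0` does not see `w` -/
theorem Q_zero (Λ : A →ₗ[K] A) {n : Type*} [Fintype n] (U N1 N2 : Matrix n n K) (w : A)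
    (D : n → K) (X : n → A) : Q Λ U N1 N2 w 0 X = Q Λ U N1 N2 (0 : A) D X := by
  funext j
  simp [Q, ten, Matrix.mulVec_zero]

/-- MAIN THEOREM 2, previous record -/
theorem recm_iff (hV : Rigid V s0) (P : Path T J) (Λ : A →ₗ[K] A) (w : A) {t : ℕ}
    (ht : t ≤ P.L) {X : T × S → A} (hX : InC V X) :
    (∀ g, Q Λ (opU hV) (opN1 hV P) (opN2 hV P) w (Dm (Dw hV P) t) X (g, s0) = 0) ↔
      X = recXm Λ (Dw hV P) w t := by
  cases t with
  | zero =>
    have h0 : (Dm (Dw hV P) 0 : T × S → K) = 0 := rfl
    rw [h0, Q_zero Λ _ _ _ w (Dw hV P 0) X, rec_iff hV P Λ (0 : A) (Nat.zero_le _) hX]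
    have : recX Λ (Dw hV P) (0 : A) 0 = (0 : T × S → A) := by
      rw [recX_zero]; funext j; simp [ten]
    rw [this]
    rfl
  | succ t => exact rec_iff hV P Λ w (by omega) hX

end walk

end Crest.Agent.R289.WalkT780
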