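import Crest.Agent.R289.Level_492

/-!
# Row 289, C-FINAL (s3): the walk in `T` as public words of a rigid left-invariant code (helper87)

Positions `T × S` (`T` a finite group, `S` the symbols of a label), content position `s0`.
`Rigid V C2 s0`: every content `T → K` is the content of exactly one word of `V`, `V` is closed
under left translations, `V · V ≤ C2`.

* `enc V s0 c` : the word with content `c` (`enc_mem`, `enc_s0`, `enc_unique`, `encL` linear,
  `enc_left` equivariant);
* `Nop G E` : matrix of `X ↦ Σ_{g ∈ G} E g · X(g ·)` (`act_Nop`);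
* `Path G1 G2 pos L` : injective path with steps in `G1`, double steps in `G2`;
  `Dw`, `Uo`, `N1o`, `N2o` : delta words, unit operator, next, next-next, from public words of `V`;
* `walk : Level492.Walk Uo N1o N2o (pos ·, s0) L`, `kap_content`, `kap'_content`, `kap_mem`, ..;
* `InV V X` : word of `V ⊗ A`; `Q_mem`, `rec_mem`; **`rec_iff`**, **`recm_iff`**: the contents of the
  residual word `Q` vanish iff `X` is the explicit record.
-/

set_option autoImplicit false
set_option linter.unusedSectionVars false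

namespace Crest.Agent.R289.WalkT87

open Finset Matrix
open Crest.Agent.R289.Level492

/-! ### operators -/

section op

variable {K : Type*} [CommRing K] {T S : Type*} [Group T] [Fintype T] [DecidableEq T]
  [Fintype S] [DecidableEq S]
variable {A : Type*} [AddCommGroup A] [Module K A]

/-- matrix of `X ↦ Σ_{g ∈ G} E g · (x ↦ X (g x))` -/
def Nop (G : Finset T) (E : T → T × S → K) : Matrix (T × S) (T × S) K :=
  fun i j => ∑ g ∈ G, if j = (g * i.1, i.2) then E g i else 0

theorem act_Nop (G : Finset T) (E : T → T × S → K) (X : T × S → A) (i : T × S) :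
    act (Nop G E) X i = ∑ g ∈ G, E g i • X (g * i.1, i.2) := by
  simp only [act, Nop, Finset.sum_smul, ite_smul, zero_smul]
  rw [Finset.sum_comm]
  refine Finset.sum_congr rfl fun g _ => ?_
  rw [Finset.sum_ite_eq']
  simp

theorem Nop_mulVec (G : Finset T) (E : T → T × S → K) (f : T × S → K) (i : T × S) :
    (Nop G E *ᵥ f) i = ∑ g ∈ G, E g i * f (g * i.1, i.2) := by
  have := act_Nop (A := K) G E f i
  simpa [act, Matrix.mulVec, dotProduct] using this

/-- the operator reads only the units `g * x`, same symbol -/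
theorem act_Nop_one (u : T × S → K) (X : T × S → A) (i : T × S) :
    act (Nop {1} fun _ => u) X i = u i • X i := by
  rw [act_Nop]
  simp

end op

/-! ### rigid codes -/

section rigid

variable {K : Type*} [Field K] {T S : Type*} [Group T]

/-- rigid left-invariant code -/
structure Rigid (V C2 : Submodule K (T × S → K)) (s0 : S) : Prop where
  content : ∀ c : T → K, ∃! f, f ∈ V ∧ ∀ x, f (x, s0) = c x
  left : ∀ (g : T) (f : T × S → K), f ∈ V → (fun i : T × S => f (g * i.1, i.2)) ∈ V
  mul : ∀ f g : T × S → K, f ∈ V → g ∈ V → (fun i => f i * g i) ∈ C2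

open Classical in
/-- the word with content `c` -/
noncomputable def enc (V : Submodule K (T × S → K)) (s0 : S) (c : T → K) : T × S → K :=
  if h : ∃ f, f ∈ V ∧ ∀ x, f (x, s0) = c x then h.choose else 0

variable {V C2 : Submodule K (T × S → K)} {s0 : S} (h : Rigid V C2 s0)

include h

theorem enc_mem (c : T → K) : enc V s0 c ∈ V := by
  have hex := (h.content c).exists
  unfold enc
  rw [dif_pos hex]
  exact hex.choose_spec.1

theorem enc_s0 (c : T → K) (x : T) : enc V s0 c (x, s0) = c x := by
  have hex := (h.content c).exists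
  unfold enc
  rw [dif_pos hex]
  exact hex.choose_spec.2 x

theorem enc_unique {c : T → K} {f : T × S → K} (hf : f ∈ V) (hc : ∀ x, f (x, s0) = c x) :
    f = enc V s0 c :=
  (h.content c).unique ⟨hf, hc⟩ ⟨enc_mem h c, enc_s0 h c⟩

theorem ext_content {f g : T × S → K} (hf : f ∈ V) (hg : g ∈ V)
    (hc : ∀ x, f (x, s0) = g (x, s0)) : f = g :=
  (enc_unique h hf hc).trans (enc_unique h hg fun _ => rfl).symm

theorem enc_content {f : T × S → K} (hf : f ∈ V) : enc V s0 (fun x => f (x, s0)) = f :=
  (enc_unique h hf fun _ => rfl).symm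

theorem enc_add (c d : T → K) : enc V s0 (c + d) = enc V s0 c + enc V s0 d := by
  symm
  apply enc_unique h (V.add_mem (enc_mem h c) (enc_mem h d))
  intro x
  simp [enc_s0 h]

theorem enc_smul (a : K) (c : T → K) : enc V s0 (a • c) = a • enc V s0 c := by
  symm
  apply enc_unique h (V.smul_mem a (enc_mem h c))
  intro x
  simp [enc_s0 h]

theorem enc_zero : enc V s0 (0 : T → K) = 0 := by
  symm
  apply enc_unique h V.zero_mem
  intro x
  rfl

/-- the encoder as a linear map -/
noncomputable def encL : (T → K) →ₗ[K] (T × S → K) where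
  toFun := enc V s0
  map_add' := enc_add h
  map_smul' := enc_smul h

/-- the encoder is equivariant -/
theorem enc_left (g : T) (c : T → K) :
    enc V s0 (fun x => c (g * x)) = fun i => enc V s0 c (g * i.1, i.2) := by
  symm
  apply enc_unique h (h.left g _ (enc_mem h c))
  intro x
  simp [enc_s0 h]

end rigid

/-! ### words with values in a module -/

section inv

variable {K : Type*} [Field K] {n : Type*}
variable {A : Type*} [AddCommGroup A] [Module K A] {B : Type*} [AddCommGroup B] [Module K B]

/-- word of `V ⊗ A` -/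
def InV (V : Submodule K (n → K)) (X : n → A) : Prop :=
  ∀ φ : A →ₗ[K] K, (fun j => φ (X j)) ∈ V

variable {V : Submodule K (n → K)}

theorem InV.zero : InV V (0 : n → A) := by
  intro φ
  have : (fun j => φ ((0 : n → A) j)) = 0 := by funext j; simp
  rw [this]
  exact V.zero_mem

theorem InV.add {X Y : n → A} (hX : InV V X) (hY : InV V Y) : InV V (X + Y) := by
  intro φ
  have : (fun j => φ ((X + Y) j)) = (fun j => φ (X j)) + fun j => φ (Y j) := by
    funext j; simp
  rw [this]
  exact V.add_mem (hX φ) (hY φ)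

theorem InV.sub {X Y : n → A} (hX : InV V X) (hY : InV V Y) : InV V (X - Y) := by
  intro φ
  have : (fun j => φ ((X - Y) j)) = (fun j => φ (X j)) - fun j => φ (Y j) := by
    funext j; simp
  rw [this]
  exact V.sub_mem (hX φ) (hY φ)

theorem InV.neg {X : n → A} (hX : InV V X) : InV V (-X) := by
  have := (InV.zero (V := V) (A := A)).sub hX
  simpa using this

theorem InV.smul {X : n → A} (a : K) (hX : InV V X) : InV V (a • X) := by
  intro φ
  have : (fun j => φ ((a • X) j)) = a • fun j => φ (X j) := by
    funext j; simp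
  rw [this]
  exact V.smul_mem a (hX φ)

theorem InV.sum {ι : Type*} (s : Finset ι) {X : ι → n → A} (hX : ∀ i ∈ s, InV V (X i)) :
    InV V (∑ i ∈ s, X i) := by
  classical
  induction s using Finset.induction_on with
  | empty => simpa using InV.zero
  | insert a s ha ih =>
    rw [Finset.sum_insert ha]
    exact (hX a (Finset.mem_insert_self _ _)).add
      (ih fun i hi => hX i (Finset.mem_insert_of_mem hi))

theorem InV.map {X : n → A} (f : A →ₗ[K] B) (hX : InV V X) : InV V (fun j => f (X j)) :=
  fun φ => hX (φ.comp f)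

theorem InV.ten {D : n → K} (hD : D ∈ V) (w : A) : InV V (ten D w) := by
  intro φ
  have : (fun j => φ (Level492.ten D w j)) = φ w • D := by
    funext j
    simp [Level492.ten, mul_comm]
  rw [this]
  exact V.smul_mem _ hD

/-- scalar words -/
theorem inV_self {f : n → K} : InV V f ↔ f ∈ V := by
  constructor
  · intro hf
    exact hf LinearMap.id
  · intro hf φ
    have : (fun j => φ (f j)) = φ 1 • f := by
      funext j
      have : φ (f j) = φ (f j • (1 : K)) := by simp
      rw [this, map_smul]
      simp [mul_comm]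
    rw [this]
    exact V.smul_mem _ hf

/-- tables: a word with values in `B → A` is a word of `V ⊗ (B → A)` iff all its components are
words of `V ⊗ A` -/
theorem inV_pi {β : Type*} [Fintype β] {X : n → β → A} :
    InV V X ↔ ∀ b, InV V (fun j => X j b) := by
  classical
  constructor
  · intro hX b
    exact hX.map (LinearMap.proj b)
  · intro hX φ
    have h1 : (fun j => φ (X j)) = ∑ b, fun j => φ (LinearMap.single K (fun _ : β => A) b (X j b)) := by
      funext j
      rw [Finset.sum_apply, ← map_sum]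
      congr 1
      funext b
      rw [Finset.sum_apply]
      simp only [LinearMap.coe_single]
      rw [Finset.sum_eq_single b]
      · simp
      · intro b' _ hb
        rw [Pi.single_eq_of_ne hb.symm]
      · intro hb
        exact absurd (Finset.mem_univ _) hb
    rw [h1]
    refine V.sum_mem fun b _ => ?_
    exact hX b (φ.comp (LinearMap.single K (fun _ : β => A) b))

theorem inV_fun {β : Type*} [Fintype β] {X : n → β → K} :
    InV V X ↔ ∀ b, (fun j => X j b) ∈ V := by
  rw [inV_pi]
  exact forall_congr' fun b => inV_self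

theorem InV.mono {V' : Submodule K (n → K)} (hV : V ≤ V') {X : n → A} (hX : InV V X) :
    InV V' X := fun φ => hV (hX φ)

/-- functionals separate -/
theorem ext_dual {X Y : n → A} (hXY : ∀ φ : A →ₗ[K] K, (fun j => φ (X j)) = fun j => φ (Y j)) :
    X = Y := by
  funext j
  rw [← sub_eq_zero]
  apply (Module.forall_dual_apply_eq_zero_iff K _).1
  intro φ
  rw [map_sub, sub_eq_zero]
  exact congrFun (hXY φ) j

end inv

section inv2

variable {K : Type*} [Field K] {T S : Type*} [Group T] [Fintype T] [DecidableEq T]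
  [Fintype S] [DecidableEq S]
variable {A : Type*} [AddCommGroup A] [Module K A]
variable {V C2 : Submodule K (T × S → K)} {s0 : S} (h : Rigid V C2 s0)

include h

/-- a word of `V ⊗ A` is determined by its contents -/
theorem InV.ext {X Y : T × S → A} (hX : InV V X) (hY : InV V Y)
    (hc : ∀ x, X (x, s0) = Y (x, s0)) : X = Y := by
  apply ext_dual (K := K)
  intro φ
  apply ext_content h (hX φ) (hY φ)
  intro x
  rw [hc x]

theorem InV.left {X : T × S → A} (hX : InV V X) (g : T) :
    InV V (fun i : T × S => X (g * i.1, i.2)) := fun φ => h.left g _ (hX φ)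

theorem InV.mulE {X : T × S → A} (hX : InV V X) {E : T × S → K} (hE : E ∈ V) :
    InV C2 (fun i => E i • X i) := by
  intro φ
  have : (fun i => φ (E i • X i)) = fun i => E i * (fun i => φ (X i)) i := by
    funext i; simp
  rw [this]
  exact h.mul _ _ hE (hX φ)

theorem InV.act_Nop {X : T × S → A} (hX : InV V X) (G : Finset T) {E : T → T × S → K}
    (hE : ∀ g, E g ∈ V) : InV C2 (act (Nop G E) X) := by
  have : act (Nop G E) X = ∑ g ∈ G, fun i => E g i • X (g * i.1, i.2) := by
    funext i
    rw [WalkT87.act_Nop, Finset.sum_apply]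
  rw [this]
  exact InV.sum G fun g _ => InV.mulE h (InV.left h hX g) (hE g)

theorem Nop_mulVec_mem {f : T × S → K} (hf : f ∈ V) (G : Finset T) {E : T → T × S → K}
    (hE : ∀ g, E g ∈ V) : Nop G E *ᵥ f ∈ C2 := by
  have := inV_self.1 (InV.act_Nop h (inV_self.2 hf) G hE)
  have e : act (Nop G E) f = Nop G E *ᵥ f := by
    funext i
    simp [act, Matrix.mulVec, dotProduct]
  rwa [e] at this

end inv2

/-! ### the walk -/

section walk

variable {K : Type*} [Field K] {T S : Type*} [Group T] [Fintype T] [DecidableEq T]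
  [Fintype S] [DecidableEq S]
variable {A : Type*} [AddCommGroup A] [Module K A]

/-- injective path with steps in `G1` and double steps in `G2` (left multiplications) -/
structure Path (G1 G2 : Finset T) (pos : ℕ → T) (L : ℕ) : Prop where
  inj : ∀ i j, i ≤ L → j ≤ L → pos i = pos j → i = j
  s1 : ∀ i, i + 1 ≤ L → pos (i + 1) * (pos i)⁻¹ ∈ G1
  s2 : ∀ i, i + 2 ≤ L → pos (i + 2) * (pos i)⁻¹ ∈ G2

open Pointwise in
/-- double steps are products of two steps -/
theorem Path.mk' {G1 : Finset T} {pos : ℕ → T} {L : ℕ}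
    (inj : ∀ i j, i ≤ L → j ≤ L → pos i = pos j → i = j)
    (s1 : ∀ i, i + 1 ≤ L → pos (i + 1) * (pos i)⁻¹ ∈ G1) : Path G1 (G1 * G1) pos L where
  inj := inj
  s1 := s1
  s2 i hi := by
    have h1 := s1 (i + 1) (by omega)
    have h2 := s1 i (by omega)
    have : pos (i + 2) * (pos i)⁻¹ =
        (pos (i + 1 + 1) * (pos (i + 1))⁻¹) * (pos (i + 1) * (pos i)⁻¹) := by group
    rw [this]
    exact Finset.mul_mem_mul h1 h2

open Classical in
/-- content of the delta word of position `i` -/
noncomputable def cD (K : Type*) [Field K] (pos : ℕ → T) (L i : ℕ) : T → K :=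
  fun x => if i ≤ L ∧ x = pos i then 1 else 0

open Classical in
/-- content of the mask of the `d`-fold step `g` -/
noncomputable def cE (K : Type*) [Field K] (pos : ℕ → T) (L d : ℕ) (g : T) : T → K :=
  fun x => if ∃ i, i + d ≤ L ∧ pos i = x ∧ pos (i + d) = g * x then 1 else 0

variable (V C2 : Submodule K (T × S → K)) (s0 : S) (G1 G2 : Finset T) (pos : ℕ → T) (L : ℕ)

/-- delta words (`0` beyond the end) -/
noncomputable def Dw (i : ℕ) : T × S → K := enc V s0 (cD K pos L i)

/-- the unit word -/
noncomputable def one : T × S → K := enc V s0 fun _ => 1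

/-- multiplication by the unit word -/
noncomputable def Uo : Matrix (T × S) (T × S) K := Nop {1} fun _ => one V s0

/-- `d`-fold next operator -/
noncomputable def No (d : ℕ) (G : Finset T) : Matrix (T × S) (T × S) K :=
  Nop G fun g => enc V s0 (cE K pos L d g)

variable {V C2 s0 G1 G2 pos L} (h : Rigid V C2 s0)

include h

theorem Dw_mem (i : ℕ) : Dw V s0 pos L i ∈ V := enc_mem h _

theorem Dw_s0 (i : ℕ) (x : T) : Dw V s0 pos L i (x, s0) = if i ≤ L ∧ x = pos i then 1 else 0 := by
  classical
  rw [Dw, enc_s0 h]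
  unfold cD
  congr

theorem Dw_beyond {i : ℕ} (hi : L < i) : Dw V s0 pos L i = 0 := by
  rw [Dw]
  have : cD K pos L i = 0 := by
    funext x
    unfold cD
    rw [if_neg (by omega)]
    rfl
  rw [this, enc_zero h]

theorem one_mem : one V s0 ∈ V := enc_mem h _

theorem one_s0 (x : T) : one V s0 (x, s0) = 1 := enc_s0 h _ x

/-- `U` is the identity on contents -/
theorem U_cont (X : T × S → A) (x : T) : act (Uo V s0) X (x, s0) = X (x, s0) := by
  rw [Uo, act_Nop_one, one_s0 h, one_smul]

variable {d : ℕ} {G : Finset T}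

/-- contents of the `d`-fold next operator on the path -/
theorem No_pos (inj : ∀ i j, i ≤ L → j ≤ L → pos i = pos j → i = j)
    (hG : ∀ i, i + d ≤ L → pos (i + d) * (pos i)⁻¹ ∈ G) (X : T × S → A) {i : ℕ}
    (hi : i + d ≤ L) :
    act (No V s0 pos L d G) X (pos i, s0) = X (pos (i + d), s0) := by
  classical
  rw [No, act_Nop]
  simp only
  rw [Finset.sum_eq_single (pos (i + d) * (pos i)⁻¹)]
  · rw [enc_s0 h]
    have e1 : cE K pos L d (pos (i + d) * (pos i)⁻¹) (pos i) = 1 := by
      unfold cE
      rw [if_pos ⟨i, hi, rfl, by group⟩]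
    rw [e1, one_smul]
    congr 2
    group
  · intro g _ hg
    rw [enc_s0 h]
    have e1 : cE K pos L d g (pos i) = 0 := by
      unfold cE
      rw [if_neg]
      rintro ⟨j, hj, hj1, hj2⟩
      have : j = i := inj j i (by omega) (by omega) hj1
      subst this
      exact hg (by rw [hj2]; group)
    rw [e1, zero_smul]
  · intro hg
    exact absurd (hG i hi) hg

/-- contents of the `d`-fold next operator beyond the end and off the path -/
theorem No_zero (X : T × S → A) {x : T} (hx : ∀ i, i + d ≤ L → pos i ≠ x) :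
    act (No V s0 pos L d G) X (x, s0) = 0 := by
  classical
  rw [No, act_Nop]
  apply Finset.sum_eq_zero
  intro g _
  simp only
  rw [enc_s0 h]
  have e1 : cE K pos L d g x = 0 := by
    unfold cE
    rw [if_neg]
    rintro ⟨j, hj, hj1, hj2⟩
    exact hx j hj hj1
  rw [e1, zero_smul]

/-- **(s3)** the walk of `Level492` -/
theorem walk (hp : Path G1 G2 pos L) :
    Walk (A := A) (Uo V s0) (No V s0 pos L 1 G1) (No V s0 pos L 2 G2) (fun i => (pos i, s0)) L where
  U_pos i _ X := U_cont h X (pos i)
  N1_pos i hi X := No_pos h hp.inj hp.s1 X hi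
  N1_end X := No_zero h X fun i hi he => by
    have := hp.inj i L (by omega) le_rfl he
    omega
  N2_pos i hi X := No_pos h hp.inj hp.s2 X hi
  N2_end i hi hL X := No_zero h X fun j hj he => by
    have := hp.inj j i (by omega) hi he
    omega

/-- hypothesis `hE` of `Level492.content_unique` -/
theorem Dw_pos (hp : Path G1 G2 pos L) {t : ℕ} (ht : t ≤ L) (i : ℕ) (hi : i ≤ L) :
    Dw V s0 pos L t (pos i, s0) = if i = t then 1 else 0 := by
  rw [Dw_s0 h]
  by_cases hit : i = t
  · subst hit
    simp [hi]
  · rw [if_neg, if_neg hit]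
    rintro ⟨_, h2⟩
    exact hit (hp.inj i t hi ht h2)

end walk

/-! ### records -/

section record

variable {K : Type*} [Field K] {T S : Type*} [Group T] [Fintype T] [DecidableEq T]
  [Fintype S] [DecidableEq S]
variable {A : Type*} [AddCommGroup A] [Module K A]
variable {V C2 : Submodule K (T × S → K)} {s0 : S} {G1 G2 : Finset T} {pos : ℕ → T} {L : ℕ}
variable (h : Rigid V C2 s0) (Λ : A →ₗ[K] A) (w : A)

include h

theorem recX_mem (t : ℕ) : InV V (recX Λ (Dw V s0 pos L) w t) :=
  InV.sum _ fun i _ => InV.ten (Dw_mem h i) _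

theorem recXm_mem (t : ℕ) : InV V (recXm Λ (Dw V s0 pos L) w t) := by
  cases t with
  | zero => exact InV.zero
  | succ t => exact recX_mem h Λ w t

/-- contents of the explicit record on the path -/
theorem recX_pos (hp : Path G1 G2 pos L) {t : ℕ} (ht : t ≤ L) {i : ℕ} (hi : i ≤ L) :
    recX Λ (Dw V s0 pos L) w t (pos i, s0) = if i ≤ t then chain Λ w (t - i) else 0 := by
  classical
  unfold recX
  rw [Finset.sum_apply]
  by_cases hit : i ≤ t
  · rw [if_pos hit, Finset.sum_eq_single i]
    · simp only [Level492.ten]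
      rw [Dw_pos h hp hi i hi, if_pos rfl, one_smul]
    · intro j hj hji
      simp only [Level492.ten]
      rw [Dw_pos h hp (by have := Finset.mem_range.1 hj; omega) i hi, if_neg (Ne.symm hji), zero_smul]
    · intro hj
      exact absurd (Finset.mem_range.2 (by omega)) hj
  · rw [if_neg hit]
    apply Finset.sum_eq_zero
    intro j hj
    have hj' := Finset.mem_range.1 hj
    simp only [Level492.ten]
    rw [Dw_pos h hp (by omega) i hi, if_neg (by omega), zero_smul]

/-- contents of the explicit record off the path -/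
theorem recX_off {x : T} (hx : ∀ i, i ≤ L → pos i ≠ x) (t : ℕ) :
    recX Λ (Dw V s0 pos L) w t (x, s0) = 0 := by
  unfold recX
  rw [Finset.sum_apply]
  apply Finset.sum_eq_zero
  intro j _
  simp only [Level492.ten]
  rw [Dw_s0 h, if_neg, zero_smul]
  rintro ⟨h1, h2⟩
  exact hx j h1 h2.symm

/-- content of the residual word -/
theorem Q_cont (E : T × S → K) (X : T × S → A) (x : T) :
    Q Λ (Uo V s0) (No V s0 pos L 1 G1) (No V s0 pos L 2 G2) w E X (x, s0) =
      X (x, s0) - Λ (act (No V s0 pos L 1 G1) X (x, s0)) - act (No V s0 pos L 2 G2) X (x, s0)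
        - E (x, s0) • w := by
  have e1 : ten (Uo V s0 *ᵥ E) w (x, s0) = E (x, s0) • w := by
    rw [← act_ten, U_cont h]
    rfl
  simp only [Q, Lc, Pi.sub_apply]
  rw [e1, U_cont h]

/-- the explicit record satisfies the relation -/
theorem rec_sat (hp : Path G1 G2 pos L) {t : ℕ} (ht : t ≤ L) (x : T) :
    Q Λ (Uo V s0) (No V s0 pos L 1 G1) (No V s0 pos L 2 G2) w (Dw V s0 pos L t)
      (recX Λ (Dw V s0 pos L) w t) (x, s0) = 0 := by
  rw [Q_cont h]
  by_cases hx : ∃ i, i ≤ L ∧ pos i = x
  · obtain ⟨i, hi, rfl⟩ := hx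
    rw [recX_pos h Λ w hp ht hi, Dw_pos h hp ht i hi]
    have e1 : act (No V s0 pos L 1 G1) (recX Λ (Dw V s0 pos L) w t) (pos i, s0) =
        if i + 1 ≤ t then chain Λ w (t - (i + 1)) else 0 := by
      by_cases h1 : i + 1 ≤ L
      · rw [No_pos h hp.inj hp.s1 _ h1, recX_pos h Λ w hp ht h1]
      · rw [No_zero h _ (fun j hj he => by
          have := hp.inj j i (by omega) hi he
          omega), if_neg (by omega)]
    have e2 : act (No V s0 pos L 2 G2) (recX Λ (Dw V s0 pos L) w t) (pos i, s0) =
        if i + 2 ≤ t then chain Λ w (t - (i + 2)) else 0 := by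
      by_cases h1 : i + 2 ≤ L
      · rw [No_pos h hp.inj hp.s2 _ h1, recX_pos h Λ w hp ht h1]
      · rw [No_zero h _ (fun j hj he => by
          have := hp.inj j i (by omega) hi he
          omega), if_neg (by omega)]
    rw [e1, e2]
    by_cases h1 : i = t
    · subst h1
      simp [chain]
    · by_cases h2 : i + 1 = t
      · subst h2
        have : i + 1 - i = 1 := by omega
        simp [this, chain]
      · by_cases h3 : i ≤ t
        · obtain ⟨j, hj⟩ : ∃ j, t = i + 2 + j := ⟨t - (i + 2), by omega⟩
          have a1 : t - i = j + 2 := by omega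
          have a2 : t - (i + 1) = j + 1 := by omega
          have a3 : t - (i + 2) = j := by omega
          rw [if_pos h3, if_pos (by omega), if_pos (by omega), if_neg h1, a1, a2, a3]
          simp [chain]
        · rw [if_neg h3, if_neg (by omega), if_neg (by omega), if_neg h1]
          simp
  · have hx' : ∀ i, i ≤ L → pos i ≠ x := fun i hi he => hx ⟨i, hi, he⟩
    rw [recX_off h Λ w hx', No_zero h _ (fun i hi => hx' i (by omega)),
      No_zero h _ (fun i hi => hx' i (by omega)), Dw_s0 h, if_neg]
    · simp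
    · rintro ⟨h1, h2⟩
      exact hx' t h1 h2.symm

/-- contents are forced -/
theorem content_forced (hp : Path G1 G2 pos L) {t : ℕ} (ht : t ≤ L) {X : T × S → A}
    (hQ : ∀ x, Q Λ (Uo V s0) (No V s0 pos L 1 G1) (No V s0 pos L 2 G2) w (Dw V s0 pos L t) X
      (x, s0) = 0) (x : T) :
    X (x, s0) = recX Λ (Dw V s0 pos L) w t (x, s0) := by
  by_cases hx : ∃ i, i ≤ L ∧ pos i = x
  · obtain ⟨i, hi, rfl⟩ := hx
    rw [recX_pos h Λ w hp ht hi]
    exact content_unique (walk h hp) ht (fun i hi => Dw_pos h hp ht i hi)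
      (fun i _ => hQ (pos i)) i hi
  · have hx' : ∀ i, i ≤ L → pos i ≠ x := fun i hi he => hx ⟨i, hi, he⟩
    have h0 := hQ x
    rw [Q_cont h, No_zero h _ (fun i hi => hx' i (by omega)),
      No_zero h _ (fun i hi => hx' i (by omega)), Dw_s0 h, if_neg] at h0
    · rw [recX_off h Λ w hx']
      simpa using h0
    · rintro ⟨h1, h2⟩
      exact hx' t h1 h2.symm

/-- **record theorem**: `X ∈ V ⊗ A` is the record of `w` at time `t` iff the contents of the
residual word vanish -/
theorem rec_iff (hp : Path G1 G2 pos L) {t : ℕ} (ht : t ≤ L) {X : T × S → A} (hX : InV V X) :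
    (∀ x, Q Λ (Uo V s0) (No V s0 pos L 1 G1) (No V s0 pos L 2 G2) w (Dw V s0 pos L t) X
      (x, s0) = 0) ↔ X = recX Λ (Dw V s0 pos L) w t := by
  constructor
  · intro hQ
    exact InV.ext h hX (recX_mem h Λ w t) (content_forced h Λ w hp ht hQ)
  · rintro rfl x
    exact rec_sat h Λ w hp ht x

/-- the empty record -/
theorem zero_iff (hp : Path G1 G2 pos L) {X : T × S → A} (hX : InV V X) :
    (∀ x, Q Λ (Uo V s0) (No V s0 pos L 1 G1) (No V s0 pos L 2 G2) w 0 X (x, s0) = 0) ↔
      X = 0 := by
  have key : ∀ (Y : T × S → A) (x : T),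
      Q Λ (Uo V s0) (No V s0 pos L 1 G1) (No V s0 pos L 2 G2) w 0 Y (x, s0) =
        Q Λ (Uo V s0) (No V s0 pos L 1 G1) (No V s0 pos L 2 G2) 0 (Dw V s0 pos L 0) Y (x, s0) := by
    intro Y x
    rw [Q_cont h, Q_cont h]
    simp
  have h0 : recX Λ (Dw V s0 pos L) (0 : A) 0 = 0 := by
    rw [recX_zero]
    funext i
    simp [Level492.ten]
  have := rec_iff h Λ (0 : A) hp (Nat.zero_le L) hX
  rw [h0] at this
  rw [← this]
  exact forall_congr' fun x => by rw [key]

/-- **previous record**: clock value `t`, delta `D_(t-1)` -/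
theorem recm_iff (hp : Path G1 G2 pos L) {t : ℕ} (ht : t ≤ L) {X : T × S → A} (hX : InV V X) :
    (∀ x, Q Λ (Uo V s0) (No V s0 pos L 1 G1) (No V s0 pos L 2 G2) w (Dm (Dw V s0 pos L) t) X
      (x, s0) = 0) ↔ X = recXm Λ (Dw V s0 pos L) w t := by
  cases t with
  | zero => exact zero_iff h Λ w hp hX
  | succ t => exact rec_iff h Λ w hp (by omega) hX

/-- degrees: the residual word is a word of `C2 ⊗ A` -/
theorem Q_mem {E : T × S → K} (hE : E ∈ V) {X : T × S → A} (hX : InV V X) :
    InV C2 (Q Λ (Uo V s0) (No V s0 pos L 1 G1) (No V s0 pos L 2 G2) w E X) := by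
  have h1 : InV C2 (act (Uo V s0) X) := InV.act_Nop h hX _ fun _ => one_mem h
  have h2 : InV C2 (fun j => Λ (act (No V s0 pos L 1 G1) X j)) :=
    (InV.act_Nop h hX _ fun _ => enc_mem h _).map Λ
  have h3 : InV C2 (act (No V s0 pos L 2 G2) X) := InV.act_Nop h hX _ fun _ => enc_mem h _
  have h4 : InV C2 (ten (Uo V s0 *ᵥ E) w) := InV.ten (Nop_mulVec_mem h hE _ fun _ => one_mem h) w
  exact ((h1.sub h2).sub h3).sub h4

theorem Dm_mem (t : ℕ) : Dm (Dw V s0 pos L) t ∈ V := by
  cases t with
  | zero => exact V.zero_mem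
  | succ t => exact Dw_mem h t

theorem push_mem {t : ℕ} {X Xm : T × S → A} (hX : InV V X) (hXm : InV V Xm) :
    InV V (push Λ (Dw V s0 pos L) w t X Xm) :=
  ((hX.map Λ).add hXm).add (InV.ten (Dw_mem h _) w)

/-- the public words `kap`, `kap'` are words of `C2` -/
theorem kap_mem (t : ℕ) : kap (Uo V s0) (No V s0 pos L 1 G1) (Dw V s0 pos L) t ∈ C2 :=
  C2.sub_mem (Nop_mulVec_mem h (Dw_mem h _) _ fun _ => one_mem h)
    (Nop_mulVec_mem h (Dw_mem h _) _ fun _ => enc_mem h _)

theorem kap'_mem (t : ℕ) : kap' (Uo V s0) (No V s0 pos L 2 G2) (Dw V s0 pos L) t ∈ C2 :=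
  C2.sub_mem (Nop_mulVec_mem h (Dm_mem h _) _ fun _ => one_mem h)
    (Nop_mulVec_mem h (Dw_mem h _) _ fun _ => enc_mem h _)

end record

/-! ### contents of the public words `kap` -/

section kap

variable {K : Type*} [Field K] {T S : Type*} [Group T] [Fintype T] [DecidableEq T]
  [Fintype S] [DecidableEq S]
variable {V C2 : Submodule K (T × S → K)} {s0 : S} {G1 G2 : Finset T} {pos : ℕ → T} {L : ℕ}
variable (h : Rigid V C2 s0)

include h

theorem mulVec_eq_act (k : Matrix (T × S) (T × S) K) (f : T × S → K) : k *ᵥ f = act k f := by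
  funext i
  simp [act, Matrix.mulVec, dotProduct]

/-- the contents of `kap_t` vanish (`t < L`) -/
theorem kap_content (hp : Path G1 G2 pos L) {t : ℕ} (ht : t < L) (x : T) :
    kap (Uo V s0) (No V s0 pos L 1 G1) (Dw V s0 pos L) t (x, s0) = 0 := by
  unfold kap
  rw [mulVec_eq_act h, mulVec_eq_act h, Pi.sub_apply, U_cont h]
  by_cases hx : ∃ i, i ≤ L ∧ pos i = x
  · obtain ⟨i, hi, rfl⟩ := hx
    rw [Dw_pos h hp ht.le i hi]
    by_cases h1 : i + 1 ≤ L
    · rw [No_pos h hp.inj hp.s1 _ h1, Dw_pos h hp (Nat.succ_le_of_lt ht) _ h1]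
      by_cases h2 : i = t
      · subst h2; simp
      · rw [if_neg h2, if_neg (by omega), sub_zero]
    · rw [No_zero h _ (fun j hj he => by
        have := hp.inj j i (by omega) hi he
        omega), if_neg (by omega), sub_zero]
  · have hx' : ∀ i, i ≤ L → pos i ≠ x := fun i hi he => hx ⟨i, hi, he⟩
    rw [No_zero h _ (fun i hi => hx' i (by omega)), Dw_s0 h, if_neg, sub_zero]
    rintro ⟨h1, h2⟩
    exact hx' t h1 h2.symm

/-- the contents of `kap'_t` vanish (`t < L`) -/
theorem kap'_content (hp : Path G1 G2 pos L) {t : ℕ} (ht : t < L) (x : T) :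
    kap' (Uo V s0) (No V s0 pos L 2 G2) (Dw V s0 pos L) t (x, s0) = 0 := by
  unfold kap'
  rw [mulVec_eq_act h, mulVec_eq_act h, Pi.sub_apply, U_cont h]
  by_cases hx : ∃ i, i ≤ L ∧ pos i = x
  · obtain ⟨i, hi, rfl⟩ := hx
    have e1 : act (No V s0 pos L 2 G2) (Dw V s0 pos L (t + 1)) (pos i, s0) =
        if i + 1 = t then 1 else 0 := by
      by_cases h1 : i + 2 ≤ L
      · rw [No_pos h hp.inj hp.s2 _ h1, Dw_pos h hp (Nat.succ_le_of_lt ht) _ h1]
        by_cases h2 : i + 1 = t
        · rw [if_pos h2, if_pos (by omega)]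
        · rw [if_neg h2, if_neg (by omega)]
      · rw [No_zero h _ (fun j hj he => by
          have := hp.inj j i (by omega) hi he
          omega), if_neg (by omega)]
    rw [e1]
    cases t with
    | zero => simp [Dm]
    | succ t =>
      simp only [Dm]
      rw [Dw_pos h hp (by omega) i hi]
      by_cases h2 : i = t
      · subst h2; simp
      · rw [if_neg h2, if_neg (by omega), sub_zero]
  · have hx' : ∀ i, i ≤ L → pos i ≠ x := fun i hi he => hx ⟨i, hi, he⟩
    rw [No_zero h _ (fun i hi => hx' i (by omega)), sub_zero]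
    cases t with
    | zero => rfl
    | succ t =>
      simp only [Dm]
      rw [Dw_s0 h, if_neg]
      rintro ⟨h1, h2⟩
      exact hx' t h1 h2.symm

end kap

end Crest.Agent.R289.WalkT87
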