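import Mathlib
import Crest.Agent.R289.Word2_508
import Crest.Agent.R289.MixProd_178

/-!
# Row 289: control letter from the expansion `MixF` (178), and the sampler from `MixF`

* `expands_of_mixF`, `majC_of_mixF`;
* `rep_CAx_mixF` : the constant words over any finite alphabet as a `CAx`.
-/

set_option autoImplicit false

namespace Crest.Agent.R289.Word508

open Finset Crest.Agent.R289.DefD Crest.Agent.R289.MixProd178

section mix
variable {κ U : Type} [Fintype κ] [Fintype U]

open Classical in
/-- the variance inequality on a set, in fractions: if `B` is a set of units with at least `a n`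
of their `n` slots in `E` then `a² frac B ≤ (frac E + lam²) frac E` -/
theorem mixF_set [Nonempty κ] [Nonempty U] {s : κ → U → U} {lam : ℝ} (h : MixF s lam)
    (E B : U → Prop) (a : ℝ) (ha : 0 ≤ a)
    (hB : ∀ u, B u → a * (Fintype.card κ : ℝ) ≤ ((univ.filter fun i => E (s i u)).card : ℝ)) :
    a ^ 2 * frac B ≤ (frac E + lam ^ 2) * frac E := by
  set n : ℝ := (Fintype.card κ : ℝ) with hn
  set N : ℝ := (Fintype.card U : ℝ) with hN
  have hnpos : 0 < n := by rw [hn]; exact_mod_cast Fintype.card_pos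
  have hNpos : 0 < N := by rw [hN]; exact_mod_cast Fintype.card_pos
  set f : U → ℝ := fun u => if E u then 1 else 0 with hf
  have h0 := h f (fun u => by simp only [hf]; split_ifs <;> norm_num)
  have e1 : ∑ v, f v = ((univ.filter E).card : ℝ) := by
    simp only [hf, sum_boole]
  have e2 : ∑ v, f v ^ 2 = ((univ.filter E).card : ℝ) := by
    rw [← e1]
    refine sum_congr rfl fun v _ => ?_
    simp only [hf]; split_ifs <;> norm_num
  have e3 : ∀ v, ∑ i, f (s i v) = ((univ.filter fun i => E (s i v)).card : ℝ) := fun v => by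
    simp only [hf, sum_boole]
  have e4 : (a * n) ^ 2 * ((univ.filter B).card : ℝ) ≤ ∑ v, (∑ i, f (s i v)) ^ 2 := by
    calc (a * n) ^ 2 * ((univ.filter B).card : ℝ) = ∑ v ∈ univ.filter B, (a * n) ^ 2 := by
          rw [sum_const, nsmul_eq_mul, mul_comm]
      _ ≤ ∑ v ∈ univ.filter B, (∑ i, f (s i v)) ^ 2 := by
          refine sum_le_sum fun v hv => ?_
          rw [e3]
          exact pow_le_pow_left₀ (by positivity) (hB v (by simpa using hv)) 2
      _ ≤ ∑ v, (∑ i, f (s i v)) ^ 2 :=
          sum_le_sum_of_subset_of_nonneg (subset_univ _) fun v _ _ => sq_nonneg _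
  rw [e1, e2] at h0
  have h1 := e4.trans h0
  have fE : frac E = ((univ.filter E).card : ℝ) / N := rfl
  have fB : frac B = ((univ.filter B).card : ℝ) / N := rfl
  rw [fE, fB]
  set x : ℝ := ((univ.filter E).card : ℝ) with hx
  set y : ℝ := ((univ.filter B).card : ℝ) with hy
  have h2 : a ^ 2 * y ≤ x ^ 2 / N + lam ^ 2 * x := by
    have h3 : n ^ 2 * (a ^ 2 * y) ≤ n ^ 2 * (x ^ 2 / N + lam ^ 2 * x) := by
      calc n ^ 2 * (a ^ 2 * y) = (a * n) ^ 2 * y := by ring
        _ ≤ _ := h1
    exact le_of_mul_le_mul_left h3 (by positivity)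
  calc a ^ 2 * (y / N) = (a ^ 2 * y) / N := by ring
    _ ≤ (x ^ 2 / N + lam ^ 2 * x) / N := div_le_div_of_nonneg_right h2 hNpos.le
    _ = (x / N + lam ^ 2) * (x / N) := by field_simp

/-- expansion of sets of density at most `1/2` -/
theorem expands_of_mixF [Nonempty κ] [Nonempty U] {s : κ → U → U} {lam : ℝ} (h : MixF s lam) :
    Expands s (1 / 2 - lam ^ 2) := by
  classical
  intro E hE
  set B : U → Prop := fun u => E u ∧ ∀ i, E (s i u) with hBdef
  have h1 := mixF_set h E B 1 zero_le_one (fun u hu => by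
    rw [one_mul]
    have : (univ.filter fun i => E (s i u)) = univ := by
      ext i; simp [hu.2 i]
    rw [this, card_univ])
  have h2 : frac E ≤ frac B + frac (fun u => ∃ i, ¬ (E (s i u) ↔ E u)) := by
    refine (frac_mono ?_).trans (frac_or _ _)
    intro u hu
    by_cases hB : B u
    · exact Or.inl hB
    · right
      by_contra hcon
      push Not at hcon
      exact hB ⟨hu, fun i => (hcon i).mpr hu⟩
  have h3 := frac_nonneg E
  have h4 : (frac E + lam ^ 2) * frac E ≤ (1 / 2 + lam ^ 2) * frac E :=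
    mul_le_mul_of_nonneg_right (by linarith) h3
  linarith

/-- majority contraction -/
theorem majC_of_mixF [Nonempty κ] [Nonempty U] {s : κ → U → U} {lam r0 θ : ℝ} (h : MixF s lam)
    (hθ : 4 * (r0 + lam ^ 2) ≤ θ) : MajC s r0 θ := by
  classical
  intro E hE
  have h1 := mixF_set h E
    (fun u => Fintype.card κ ≤ 2 * (univ.filter fun i => E (s i u)).card) (1 / 2) (by norm_num)
    (fun u hu => by
      have : (Fintype.card κ : ℝ) ≤ 2 * ((univ.filter fun i => E (s i u)).card : ℝ) := by
        exact_mod_cast hu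
      linarith)
  have h3 := frac_nonneg E
  have h4 : (frac E + lam ^ 2) * frac E ≤ (r0 + lam ^ 2) * frac E :=
    mul_le_mul_of_nonneg_right (by linarith) h3
  have h5 : 4 * (r0 + lam ^ 2) * frac E ≤ θ * frac E := mul_le_mul_of_nonneg_right hθ h3
  linarith

/-- CONTROL LETTER over any finite alphabet from an expanding family of injective unit maps -/
theorem rep_CAx_mixF {A : Type} [Fintype A] [Nonempty A] [Nonempty κ] [Nonempty U]
    (s : κ → U → U) {m lam r0 θ : ℝ} (hm : 1 ≤ m) (hmult : NbMult s m) (h : MixF s lam)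
    (hlam : lam ^ 2 < 1 / 2) (hθ : 4 * (r0 + lam ^ 2) ≤ θ) :
    CAx (repRules κ A) (onb s) (fun _ => ()) {w : U → A | ∃ a, w = fun _ => a} m
      ((1 / 2 - lam ^ 2) / 5) r0 1 (1 / 2 - lam ^ 2)⁻¹ θ :=
  rep_CAx s hm hmult (by linarith) (expands_of_mixF h) (majC_of_mixF h hθ)

/-- a variance bound gives a `Sampler` -/
theorem sampler_of_var {d : ℕ} [NeZero d] {s : Fin d → U → U} [Nonempty U] {v e γ : ℝ}
    (he : 0 < e) (hv : v ≤ e ^ 2 * γ)
    (h : ∀ y : U → ℝ, (∀ u, 0 ≤ y u ∧ y u ≤ 1) →
      (∑ u, ((∑ i, y (s i u)) / (d : ℝ) - (∑ w, y w) / (Fintype.card U : ℝ)) ^ 2) /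
        (Fintype.card U : ℝ) ≤ v) : Sampler d s e γ := by
  classical
  intro y hy
  have h0 := h y hy
  set N : ℝ := (Fintype.card U : ℝ) with hN
  have hNpos : 0 < N := by rw [hN]; exact_mod_cast Fintype.card_pos
  set g : U → ℝ := fun u => (∑ i, y (s i u)) / (d : ℝ) - (∑ w, y w) / N with hg
  set B : U → Prop := fun u => ¬ |g u| ≤ e with hB
  have h1 : e ^ 2 * ((univ.filter B).card : ℝ) ≤ ∑ u, g u ^ 2 := by
    calc e ^ 2 * ((univ.filter B).card : ℝ) = ∑ u ∈ univ.filter B, e ^ 2 := by
          rw [sum_const, nsmul_eq_mul, mul_comm]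
      _ ≤ ∑ u ∈ univ.filter B, g u ^ 2 := by
          refine sum_le_sum fun u hu => ?_
          have hu' : e < |g u| := by
            have := (mem_filter.mp hu).2
            exact lt_of_not_ge this
          rw [← sq_abs (g u)]
          exact pow_le_pow_left₀ he.le hu'.le 2
      _ ≤ ∑ u, g u ^ 2 :=
          sum_le_sum_of_subset_of_nonneg (subset_univ _) fun u _ _ => sq_nonneg _
  show frac B ≤ γ
  have fB : frac B = ((univ.filter B).card : ℝ) / N := by
    unfold frac
    congr!
  have h2 : e ^ 2 * frac B ≤ v := by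
    rw [fB]
    calc e ^ 2 * (((univ.filter B).card : ℝ) / N) = (e ^ 2 * ((univ.filter B).card : ℝ)) / N := by
          ring
      _ ≤ (∑ u, g u ^ 2) / N := div_le_div_of_nonneg_right h1 hNpos.le
      _ ≤ v := h0
  have h3 : e ^ 2 * frac B ≤ e ^ 2 * γ := h2.trans hv
  exact le_of_mul_le_mul_left h3 (by positivity)

end mix

end Crest.Agent.R289.Word508
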