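import Crest.Agent.R289.GkIdx_594
import Crest.Agent.R289.Stack_827
import Crest.Agent.R289.Gauss_115

/-!
# R289: index tables of the Hadamard factor and of product unit sets (helper448)

`Y = Fin L → K`, numbered by base-`Q` numerals (`Q = qK K`, lowest digit first).

* `dg K L i j` : entry `j` of vector number `i` (`0` for `L ≤ j`); `vec L i : Fin L → K`; `num y : ℕ`;
  `vec_num`, `num_vec`, `num_lt`, `yE : (Fin L → K) ≃ Fin (Q ^ L)`.
* `nop L f` = number of the vector with entries `f 0, f 1, ..`; `ptf_nop`, `vec_nop`, `nop_lt`.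
* `addN, subN, negN, mulN, smulN, upN, dnN, unitN, onesN` with `vec_*` and `ptf_*`.
* products: `pr B a b = a * B + b`, `prodE`, `Pres e f F` (`F` presents the map `f` in the
  numbering `e`), `Pres.prod`, `Pres.mk2`, `Pres.comp`.
-/

set_option autoImplicit false
set_option linter.dupNamespace false
set_option linter.unusedSectionVars false

namespace Crest.Agent.R289.YTab448

open Crest.Agent.Lib.PT Crest.Agent.Lib.PT.Arith Crest.Agent.R288.PtDp115
open Crest.Agent.R289.GkIdx594 Crest.Agent.R289.Gauss115 Crest.Agent.R289.Stack827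

/-! ### vectors and numerals -/

section vec

variable {K : Type} [Field K] [Finite K] [Inhabited K]

/-- entry `j` of vector number `i` of length `L`, `0` for `L ≤ j` -/
noncomputable def dg (K : Type) [Field K] [Finite K] [Inhabited K] (L i j : ℕ) : K :=
  (digs K L i).getD j 0

/-- vector number `i` of length `L` -/
noncomputable def vec (K : Type) [Field K] [Finite K] [Inhabited K] (L i : ℕ) : Fin L → K :=
  fun j => dg K L i j

/-- the number of a vector -/
noncomputable def num {L : ℕ} (y : Fin L → K) : ℕ := idx (List.ofFn y)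

theorem dg_of_le {L i j : ℕ} (h : L ≤ j) : dg K L i j = 0 := by
  unfold dg
  exact List.getD_eq_default _ _ (by simpa using h)

theorem ent_vec (L i j : ℕ) : ent (vec K L i) j = dg K L i j := by
  by_cases h : j < L
  · rw [ent_of_lt _ h]; rfl
  · rw [ent_of_ge _ (not_lt.1 h), dg_of_le (not_lt.1 h)]

theorem num_lt {L : ℕ} (y : Fin L → K) : num y < qK K ^ L := by
  have h := idx_lt (List.ofFn y)
  rwa [List.length_ofFn] at h

theorem vec_num {L : ℕ} (y : Fin L → K) : vec K L (num y) = y := by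
  funext j
  have h := digs_idx (List.ofFn y)
  rw [List.length_ofFn] at h
  unfold vec dg num
  rw [h, List.getD_eq_getElem _ _ (by simp)]
  simp

theorem ofFn_vec (L i : ℕ) : List.ofFn (vec K L i) = digs K L i := by
  apply List.ext_getElem
  · simp
  · intro j h1 h2
    rw [List.getElem_ofFn]
    unfold vec dg
    rw [List.getD_eq_getElem _ _ h2]

theorem num_vec {L i : ℕ} (h : i < qK K ^ L) : num (vec K L i) = i := by
  unfold num
  rw [ofFn_vec, idx_digs h]

theorem num_injective {L : ℕ} : Function.Injective (num : (Fin L → K) → ℕ) := by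
  intro y y' h
  rw [← vec_num y, ← vec_num y', h]

/-- the numbering of vectors -/
noncomputable def yE (K : Type) [Field K] [Finite K] [Inhabited K] (L : ℕ) :
    (Fin L → K) ≃ Fin (qK K ^ L) where
  toFun y := ⟨num y, num_lt y⟩
  invFun i := vec K L i
  left_inv y := vec_num y
  right_inv i := Fin.ext (num_vec i.2)

@[simp] theorem yE_val (L : ℕ) (y : Fin L → K) : ((yE K L y : Fin _) : ℕ) = num y := rfl

@[simp] theorem yE_symm (L : ℕ) (i : Fin (qK K ^ L)) : (yE K L).symm i = vec K L i := rfl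

/-- number of the vector with entries `f 0, f 1, …` -/
noncomputable def nop (L : ℕ) (f : ℕ → K) : ℕ := idx ((List.range L).map f)

theorem nop_eq (L : ℕ) (f : ℕ → K) : nop L f = num (fun j : Fin L => f j) := by
  unfold nop num
  congr 1
  apply List.ext_getElem
  · simp
  · intro j h1 h2
    simp

theorem nop_lt (L : ℕ) (f : ℕ → K) : nop L f < qK K ^ L := by
  rw [nop_eq]; exact num_lt _

theorem vec_nop (L : ℕ) (f : ℕ → K) : vec K L (nop L f) = fun j : Fin L => f j := by
  rw [nop_eq, vec_num]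

theorem dg_nop (L : ℕ) (f : ℕ → K) {j : ℕ} (h : j < L) : dg K L (nop L f) j = f j := by
  have h1 := congrFun (vec_nop L f) ⟨j, h⟩
  exact h1

theorem num_eq_nop {L : ℕ} (y : Fin L → K) : num y = nop L (ent y) := by
  rw [nop_eq]
  congr 1
  funext j
  rw [ent_of_lt _ j.2]

theorem eq_nop_of {L i : ℕ} {f : ℕ → K} (hi : i < qK K ^ L) (h : ∀ j < L, dg K L i j = f j) :
    i = nop L f := by
  rw [nop_eq, ← num_vec hi]
  congr 1
  funext j
  exact h j j.2

end vec

section ptvec

variable {K : Type} [Field K] [Finite K] [Inhabited K] [PTCode K]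
variable {α : Type} [PTCode α]

theorem ptf_dg {L i j : α → ℕ} (hL : PTU L) (hi : PTF i) (hj : PTF j) :
    PTF (fun a => dg K (L a) (i a) (j a)) := by
  unfold dg
  exact ptf_getB (ptf_digs hL hi) hj (PTF.const _)

theorem ptf_nop {L : α → ℕ} {f : α → ℕ → K} (hL : PTU L)
    (hf : PTF (fun p : α × ℕ => f p.1 p.2)) : PTF (fun a => nop (L a) (f a)) := by
  unfold nop
  exact ptf_idx (PTF.map (l := fun a => List.range (L a)) (f := f) (PTF.range hL) hf)

end ptvec

/-! ### the operations -/

section ops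

variable {K : Type} [Field K] [Finite K] [Inhabited K]

noncomputable def addN (K : Type) [Field K] [Finite K] [Inhabited K] (L i j : ℕ) : ℕ :=
  nop L (fun k => dg K L i k + dg K L j k)
noncomputable def subN (K : Type) [Field K] [Finite K] [Inhabited K] (L i j : ℕ) : ℕ :=
  nop L (fun k => dg K L i k - dg K L j k)
noncomputable def negN (K : Type) [Field K] [Finite K] [Inhabited K] (L i : ℕ) : ℕ :=
  nop L (fun k => - dg K L i k)
noncomputable def mulN (K : Type) [Field K] [Finite K] [Inhabited K] (L i j : ℕ) : ℕ :=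
  nop L (fun k => dg K L i k * dg K L j k)
noncomputable def smulN (L : ℕ) (c : K) (i : ℕ) : ℕ := nop L (fun k => c * dg K L i k)
/-- the entries of number `i` outside position `m` replaced by `0` -/
noncomputable def onlyN (K : Type) [Field K] [Finite K] [Inhabited K] (L m i : ℕ) : ℕ :=
  nop L (fun k => if k = m then dg K L i k else 0)
noncomputable def upN (K : Type) [Field K] [Finite K] [Inhabited K] (L i : ℕ) : ℕ :=
  nop L (fun k => if k = 0 then (0 : K) else dg K L i (k - 1))
noncomputable def dnN (K : Type) [Field K] [Finite K] [Inhabited K] (L i : ℕ) : ℕ :=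
  nop L (fun k => dg K L i (k + 1))
noncomputable def unitN (K : Type) [Field K] [Finite K] [Inhabited K] (L m : ℕ) : ℕ :=
  nop L (fun k => if k = m then (1 : K) else 0)
noncomputable def constN (L : ℕ) (c : K) : ℕ := nop L (fun _ => c)

theorem addN_lt (L i j : ℕ) : addN K L i j < qK K ^ L := nop_lt _ _
theorem subN_lt (L i j : ℕ) : subN K L i j < qK K ^ L := nop_lt _ _
theorem negN_lt (L i : ℕ) : negN K L i < qK K ^ L := nop_lt _ _
theorem mulN_lt (L i j : ℕ) : mulN K L i j < qK K ^ L := nop_lt _ _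
theorem smulN_lt (L : ℕ) (c : K) (i : ℕ) : smulN L c i < qK K ^ L := nop_lt _ _
theorem onlyN_lt (L m i : ℕ) : onlyN K L m i < qK K ^ L := nop_lt _ _
theorem upN_lt (L i : ℕ) : upN K L i < qK K ^ L := nop_lt _ _
theorem dnN_lt (L i : ℕ) : dnN K L i < qK K ^ L := nop_lt _ _
theorem unitN_lt (L m : ℕ) : unitN K L m < qK K ^ L := nop_lt _ _
theorem constN_lt (L : ℕ) (c : K) : constN L c < qK K ^ L := nop_lt _ _

theorem vec_addN (L i j : ℕ) : vec K L (addN K L i j) = vec K L i + vec K L j := by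
  unfold addN; rw [vec_nop]; rfl
theorem vec_subN (L i j : ℕ) : vec K L (subN K L i j) = vec K L i - vec K L j := by
  unfold subN; rw [vec_nop]; rfl
theorem vec_negN (L i : ℕ) : vec K L (negN K L i) = - vec K L i := by
  unfold negN; rw [vec_nop]; rfl
theorem vec_mulN (L i j : ℕ) : vec K L (mulN K L i j) = vec K L i * vec K L j := by
  unfold mulN; rw [vec_nop]; rfl
theorem vec_smulN (L : ℕ) (c : K) (i : ℕ) : vec K L (smulN L c i) = c • vec K L i := by
  unfold smulN; rw [vec_nop]; rfl
theorem vec_onlyN (L m i : ℕ) :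
    vec K L (onlyN K L m i) = fun k : Fin L => if (k : ℕ) = m then vec K L i k else 0 := by
  unfold onlyN; rw [vec_nop]; rfl
theorem vec_upN (L i : ℕ) : vec K L (upN K L i) = up (vec K L i) := by
  unfold upN; rw [vec_nop]; funext k
  unfold up
  split_ifs with h
  · rfl
  · rw [ent_vec]
theorem vec_dnN (L i : ℕ) : vec K L (dnN K L i) = dn (vec K L i) := by
  unfold dnN; rw [vec_nop]; funext k
  unfold dn
  rw [ent_vec]
theorem vec_unitN (L m : ℕ) : vec K L (unitN K L m) = unit m := by
  unfold unitN; rw [vec_nop]; rfl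
theorem vec_constN (L : ℕ) (c : K) : vec K L (constN L c) = fun _ => c := by
  unfold constN; rw [vec_nop]

theorem num_add {L : ℕ} (y z : Fin L → K) : num (y + z) = addN K L (num y) (num z) := by
  rw [← num_vec (addN_lt L (num y) (num z)), vec_addN, vec_num, vec_num]
theorem num_sub {L : ℕ} (y z : Fin L → K) : num (y - z) = subN K L (num y) (num z) := by
  rw [← num_vec (subN_lt L (num y) (num z)), vec_subN, vec_num, vec_num]
theorem num_neg {L : ℕ} (y : Fin L → K) : num (-y) = negN K L (num y) := by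
  rw [← num_vec (negN_lt L (num y)), vec_negN, vec_num]
theorem num_mul {L : ℕ} (y z : Fin L → K) : num (y * z) = mulN K L (num y) (num z) := by
  rw [← num_vec (mulN_lt L (num y) (num z)), vec_mulN, vec_num, vec_num]
theorem num_smul {L : ℕ} (c : K) (y : Fin L → K) : num (c • y) = smulN L c (num y) := by
  rw [← num_vec (smulN_lt L c (num y)), vec_smulN, vec_num]
theorem num_up {L : ℕ} (y : Fin L → K) : num (up y) = upN K L (num y) := by
  rw [← num_vec (upN_lt L (num y)), vec_upN, vec_num]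
theorem num_dn {L : ℕ} (y : Fin L → K) : num (dn y) = dnN K L (num y) := by
  rw [← num_vec (dnN_lt L (num y)), vec_dnN, vec_num]
theorem num_unit (L m : ℕ) : num (unit m : Fin L → K) = unitN K L m := by
  rw [← num_vec (unitN_lt L m), vec_unitN]
theorem num_const (L : ℕ) (c : K) : num (fun _ : Fin L => c) = constN L c := by
  rw [← num_vec (constN_lt L c), vec_constN]

variable [PTCode K] {α : Type} [PTCode α]

private theorem sh1 {i : α → ℕ} (hi : PTF i) : PTF (fun p : α × ℕ => i p.1) :=
  PTF.comp (g := i) hi PTF.fst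

private theorem sh1u {i : α → ℕ} (hi : PTU i) : PTU (fun p : α × ℕ => i p.1) :=
  PTU.comp (n := i) hi PTF.fst

theorem ptf_addN {L i j : α → ℕ} (hL : PTU L) (hi : PTF i) (hj : PTF j) :
    PTF (fun a => addN K (L a) (i a) (j a)) :=
  ptf_nop (f := fun a k => dg K (L a) (i a) k + dg K (L a) (j a) k) hL
    (ptf_kadd (ptf_dg (sh1u hL) (sh1 hi) PTF.snd) (ptf_dg (sh1u hL) (sh1 hj) PTF.snd))
theorem ptf_subN {L i j : α → ℕ} (hL : PTU L) (hi : PTF i) (hj : PTF j) :
    PTF (fun a => subN K (L a) (i a) (j a)) :=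
  ptf_nop (f := fun a k => dg K (L a) (i a) k - dg K (L a) (j a) k) hL
    (ptf_ksub (ptf_dg (sh1u hL) (sh1 hi) PTF.snd) (ptf_dg (sh1u hL) (sh1 hj) PTF.snd))
theorem ptf_negN {L i : α → ℕ} (hL : PTU L) (hi : PTF i) :
    PTF (fun a => negN K (L a) (i a)) :=
  ptf_nop (f := fun a k => - dg K (L a) (i a) k) hL
    (ptf_kneg (ptf_dg (sh1u hL) (sh1 hi) PTF.snd))
theorem ptf_mulN {L i j : α → ℕ} (hL : PTU L) (hi : PTF i) (hj : PTF j) :
    PTF (fun a => mulN K (L a) (i a) (j a)) :=
  ptf_nop (f := fun a k => dg K (L a) (i a) k * dg K (L a) (j a) k) hL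
    (ptf_kmul (ptf_dg (sh1u hL) (sh1 hi) PTF.snd) (ptf_dg (sh1u hL) (sh1 hj) PTF.snd))
theorem ptf_smulN {L i : α → ℕ} {c : α → K} (hL : PTU L) (hc : PTF c) (hi : PTF i) :
    PTF (fun a => smulN (L a) (c a) (i a)) :=
  ptf_nop (f := fun a k => c a * dg K (L a) (i a) k) hL
    (ptf_kmul (PTF.comp (g := c) hc PTF.fst) (ptf_dg (sh1u hL) (sh1 hi) PTF.snd))
theorem ptf_onlyN {L m i : α → ℕ} (hL : PTU L) (hm : PTF m) (hi : PTF i) :
    PTF (fun a => onlyN K (L a) (m a) (i a)) :=
  ptf_nop (f := fun a k => if k = m a then dg K (L a) (i a) k else 0) hL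
    (PTF.ite (PTPred.natEq PTF.snd (sh1 hm)) (ptf_dg (sh1u hL) (sh1 hi) PTF.snd) (PTF.const _))
theorem ptf_upN {L i : α → ℕ} (hL : PTU L) (hi : PTF i) : PTF (fun a => upN K (L a) (i a)) :=
  ptf_nop (f := fun a k => if k = 0 then (0 : K) else dg K (L a) (i a) (k - 1)) hL
    (PTF.ite (PTPred.natEq PTF.snd (PTF.const 0)) (PTF.const _)
      (ptf_dg (sh1u hL) (sh1 hi) (PTF.natSub PTF.snd (PTF.const 1))))
theorem ptf_dnN {L i : α → ℕ} (hL : PTU L) (hi : PTF i) : PTF (fun a => dnN K (L a) (i a)) :=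
  ptf_nop (f := fun a k => dg K (L a) (i a) (k + 1)) hL
    (ptf_dg (sh1u hL) (sh1 hi) (PTF.natAdd PTF.snd (PTF.const 1)))
theorem ptf_unitN {L m : α → ℕ} (hL : PTU L) (hm : PTF m) : PTF (fun a => unitN K (L a) (m a)) :=
  ptf_nop (f := fun a k => if k = m a then (1 : K) else 0) hL
    (PTF.ite (PTPred.natEq PTF.snd (sh1 hm)) (PTF.const _) (PTF.const _))
theorem ptf_constN {L : α → ℕ} {c : α → K} (hL : PTU L) (hc : PTF c) :
    PTF (fun a => constN (L a) (c a)) :=
  ptf_nop (f := fun a _ => c a) hL (PTF.comp (g := c) hc PTF.fst)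

end ops

/-! ### product numberings -/

section prod

/-- number of a pair -/
def pr (B a b : ℕ) : ℕ := a * B + b

theorem pr_lt {A B a b : ℕ} (ha : a < A) (hb : b < B) : pr B a b < A * B := by
  unfold pr
  calc a * B + b < a * B + B := by omega
    _ = (a + 1) * B := by ring
    _ ≤ A * B := Nat.mul_le_mul_right _ ha

theorem pr_div {B a b : ℕ} (hb : b < B) : pr B a b / B = a := by
  unfold pr
  rw [Nat.add_comm, Nat.add_mul_div_right _ _ (by omega), Nat.div_eq_of_lt hb, Nat.zero_add]

theorem pr_mod {B a b : ℕ} (hb : b < B) : pr B a b % B = b := by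
  unfold pr
  rw [Nat.add_comm, Nat.add_mul_mod_self_right, Nat.mod_eq_of_lt hb]

theorem pr_div_mod (B i : ℕ) : pr B (i / B) (i % B) = i := by
  unfold pr
  rw [Nat.mul_comm]; exact Nat.div_add_mod i B

theorem div_lt_of_lt {A B i : ℕ} (h : i < A * B) : i / B < A :=
  Nat.div_lt_of_lt_mul (by rwa [Nat.mul_comm] at h)

theorem mod_lt_of_lt {A B i : ℕ} (h : i < A * B) : i % B < B := by
  refine Nat.mod_lt _ (Nat.pos_of_ne_zero ?_)
  rintro rfl
  simp at h

variable {U V W : Type} {A B C : ℕ}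

/-- numbering of a product -/
def prodE (e : U ≃ Fin A) (f : V ≃ Fin B) : U × V ≃ Fin (A * B) where
  toFun p := ⟨pr B (e p.1) (f p.2), pr_lt (e p.1).2 (f p.2).2⟩
  invFun i := (e.symm ⟨i / B, div_lt_of_lt i.2⟩, f.symm ⟨i % B, mod_lt_of_lt i.2⟩)
  left_inv p := by
    ext
    · simp only
      rw [Equiv.symm_apply_eq]
      exact Fin.ext (pr_div (f p.2).2)
    · simp only
      rw [Equiv.symm_apply_eq]
      exact Fin.ext (pr_mod (f p.2).2)
  right_inv i := by
    apply Fin.ext
    simp only [Equiv.apply_symm_apply]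
    exact pr_div_mod B i

@[simp] theorem prodE_val (e : U ≃ Fin A) (f : V ≃ Fin B) (p : U × V) :
    ((prodE e f p : Fin _) : ℕ) = pr B (e p.1) (f p.2) := rfl

theorem prodE_div (e : U ≃ Fin A) (f : V ≃ Fin B) (p : U × V) :
    ((prodE e f p : Fin _) : ℕ) / B = e p.1 := pr_div (f p.2).2

theorem prodE_mod (e : U ≃ Fin A) (f : V ≃ Fin B) (p : U × V) :
    ((prodE e f p : Fin _) : ℕ) % B = f p.2 := pr_mod (f p.2).2

/-- `F` presents the map `f` with respect to the numberings `e`, `e'` -/
def Pres (e : U ≃ Fin A) (e' : V ≃ Fin B) (f : U → V) (F : ℕ → ℕ) : Prop :=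
  ∀ u, F (e u) = e' (f u)

theorem Pres.lt {e : U ≃ Fin A} {e' : V ≃ Fin B} {f : U → V} {F : ℕ → ℕ} (h : Pres e e' f F)
    {i : ℕ} (hi : i < A) : F i < B := by
  have h1 := h (e.symm ⟨i, hi⟩)
  rw [Equiv.apply_symm_apply] at h1
  simp only at h1
  rw [h1]
  exact Fin.isLt _

theorem Pres.apply {e : U ≃ Fin A} {e' : V ≃ Fin B} {f : U → V} {F : ℕ → ℕ} (h : Pres e e' f F)
    (i : Fin A) : F i = e' (f (e.symm i)) := by
  have h1 := h (e.symm i)
  rwa [Equiv.apply_symm_apply] at h1

theorem Pres.id (e : U ≃ Fin A) : Pres e e id _root_.id := fun _ => rfl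

theorem Pres.comp {e : U ≃ Fin A} {e' : V ≃ Fin B} {e'' : W ≃ Fin C} {f : U → V} {g : V → W}
    {F G : ℕ → ℕ} (hg : Pres e' e'' g G) (hf : Pres e e' f F) :
    Pres e e'' (g ∘ f) (fun i => G (F i)) := fun u => by
  simp only [Function.comp]
  rw [hf u, hg]

variable {U' V' : Type} {A' B' : ℕ}

theorem Pres.prod {e : U ≃ Fin A} {e' : U' ≃ Fin A'} {g : V ≃ Fin B} {g' : V' ≃ Fin B'}
    {f : U → U'} {h : V → V'} {F H : ℕ → ℕ} (hf : Pres e e' f F) (hh : Pres g g' h H) :
    Pres (prodE e g) (prodE e' g') (Prod.map f h)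
      (fun i => pr B' (F (i / B)) (H (i % B))) := fun p => by
  simp only [prodE_val, Prod.map_fst, Prod.map_snd]
  rw [pr_div (g p.2).2, pr_mod (g p.2).2, hf, hh]

/-- a map of a product, both coordinates depend on both arguments -/
theorem Pres.mk2 {e : U ≃ Fin A} {e' : U' ≃ Fin A'} {g : V ≃ Fin B} {g' : V' ≃ Fin B'}
    {f : U × V → U' × V'} {F H : ℕ → ℕ → ℕ} (hf : ∀ u v, F (e u) (g v) = e' (f (u, v)).1)
    (hh : ∀ u v, H (e u) (g v) = g' (f (u, v)).2) :
    Pres (prodE e g) (prodE e' g') f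
      (fun i => pr B' (F (i / B) (i % B)) (H (i / B) (i % B))) := fun p => by
  simp only [prodE_val]
  rw [pr_div (g p.2).2, pr_mod (g p.2).2, hf, hh]

theorem Pres.fst {e : U ≃ Fin A} {g : V ≃ Fin B} :
    Pres (prodE e g) e Prod.fst (fun i => i / B) := fun p => pr_div (g p.2).2

theorem Pres.snd {e : U ≃ Fin A} {g : V ≃ Fin B} :
    Pres (prodE e g) g Prod.snd (fun i => i % B) := fun p => pr_mod (g p.2).2

variable {α : Type} [PTCode α]

theorem ptf_pr {B a b : α → ℕ} (hB : PTF B) (ha : PTF a) (hb : PTF b) :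
    PTF (fun x => pr (B x) (a x) (b x)) :=
  PTF.natAdd (PTF.natMul ha hB) hb

end prod

/-! ### presentations of the operations on `Y` -/

section presY

variable {K : Type} [Field K] [Finite K] [Inhabited K] {L : ℕ}

theorem pres_up : Pres (yE K L) (yE K L) up (upN K L) := fun y => (num_up y).symm
theorem pres_dn : Pres (yE K L) (yE K L) dn (dnN K L) := fun y => (num_dn y).symm
theorem pres_neg : Pres (yE K L) (yE K L) (fun y => -y) (negN K L) := fun y => (num_neg y).symm
theorem pres_smul (c : K) : Pres (yE K L) (yE K L) (fun y => c • y) (smulN L c) :=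
  fun y => (num_smul c y).symm
theorem pres_addr (z : Fin L → K) :
    Pres (yE K L) (yE K L) (fun y => y + z) (fun i => addN K L i (num z)) :=
  fun y => (num_add y z).symm
theorem pres_add : Pres (prodE (yE K L) (yE K L)) (yE K L) (fun p => p.1 + p.2)
    (fun i => addN K L (i / qK K ^ L) (i % qK K ^ L)) := fun p => by
  simp only [prodE_val, yE_val]
  rw [pr_div (num_lt _), pr_mod (num_lt _), num_add]
theorem pres_sub : Pres (prodE (yE K L) (yE K L)) (yE K L) (fun p => p.1 - p.2)
    (fun i => subN K L (i / qK K ^ L) (i % qK K ^ L)) := fun p => by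
  simp only [prodE_val, yE_val]
  rw [pr_div (num_lt _), pr_mod (num_lt _), num_sub]
theorem pres_mul : Pres (prodE (yE K L) (yE K L)) (yE K L) (fun p => p.1 * p.2)
    (fun i => mulN K L (i / qK K ^ L) (i % qK K ^ L)) := fun p => by
  simp only [prodE_val, yE_val]
  rw [pr_div (num_lt _), pr_mod (num_lt _), num_mul]

/-- general form: a map of `Y × Y` given by two binary operations on numerals -/
theorem pres_YY {f : (Fin L → K) × (Fin L → K) → (Fin L → K) × (Fin L → K)} {F H : ℕ → ℕ → ℕ}
    (hf : ∀ y z, num (f (y, z)).1 = F (num y) (num z))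
    (hh : ∀ y z, num (f (y, z)).2 = H (num y) (num z)) :
    Pres (prodE (yE K L) (yE K L)) (prodE (yE K L) (yE K L)) f
      (fun i => pr (qK K ^ L) (F (i / qK K ^ L) (i % qK K ^ L))
        (H (i / qK K ^ L) (i % qK K ^ L))) :=
  Pres.mk2 (fun y z => (hf y z).symm) (fun y z => (hh y z).symm)

end presY

end Crest.Agent.R289.YTab448
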