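import Mathlib

/-! LEMMA 289-514Z: zero test on one orbit by a mirrored nilpotent chain (helper514). -/

set_option autoImplicit false

namespace Crest.Agent.R289.ZeroChain

open Finset

section Abstract

variable {K S : Type*} [Field K] [Ring S] [Algebra K S]
variable {c : Type*} [Fintype c] [DecidableEq c]

/-- one step of the chain: `y ↦ - B0i (a w + N y)`. -/
def step {W : Type*} [AddCommGroup W] [Module S W]
    (a : c → S) (N : Matrix c c S) (B0i : Matrix c c K) (w : W) (y : c → W) : c → W :=
  fun i => - ∑ j, algebraMap K S (B0i i j) • (a j • w + ∑ k, N j k • y k)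

/-- the chain `y_0 = 0`, `y_{m+1} = step w y_m`. -/
def chain {W : Type*} [AddCommGroup W] [Module S W]
    (a : c → S) (N : Matrix c c S) (B0i : Matrix c c K) (w : W) : ℕ → c → W
  | 0 => 0
  | m + 1 => step a N B0i w (chain a N B0i w m)

omit [DecidableEq c] in
theorem chain_map {W W' : Type*} [AddCommGroup W] [Module S W] [AddCommGroup W'] [Module S W']
    (φ : W →ₗ[S] W') (a : c → S) (N : Matrix c c S) (B0i : Matrix c c K) (w : W) (m : ℕ) (i : c) :
    φ (chain a N B0i w m i) = chain a N B0i (φ w) m i := by
  induction m generalizing i with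
  | zero => simp [chain]
  | succ m ih => simp [chain, step, map_sum, ih]

/-- products of `L` elements of the augmentation ideal vanish -/
def NilAug (ε : S →+* K) (L : ℕ) : Prop :=
  ∀ l : List S, (∀ x ∈ l, ε x = 0) → l.length = L → l.prod = 0

omit [Algebra K S] [DecidableEq c] in
/-- Applying `m` times a matrix with entries in the augmentation ideal lands in the span of
products of length `m`. -/
theorem iterate_mem {W : Type*} [AddCommGroup W] [Module S W] (ε : S →+* K)
    (X : Matrix c c S) (hX : ∀ i j, ε (X i j) = 0) (d : ℕ → c → W)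
    (hd : ∀ m i, d (m + 1) i = ∑ j, X i j • d m j) (m : ℕ) (i : c) :
    d m i ∈ AddSubgroup.closure {z : W | ∃ (l : List S) (j : c),
      (∀ x ∈ l, ε x = 0) ∧ l.length = m ∧ z = l.prod • d 0 j} := by
  induction m generalizing i with
  | zero =>
    apply AddSubgroup.subset_closure
    exact ⟨[], i, by simp, rfl, by simp⟩
  | succ m ih =>
    rw [hd]
    refine AddSubgroup.sum_mem _ fun j _ => ?_
    have h := ih j
    refine AddSubgroup.closure_induction (p := fun z _ => X i j • z ∈ AddSubgroup.closure
      {z : W | ∃ (l : List S) (j : c), (∀ x ∈ l, ε x = 0) ∧ l.length = m + 1 ∧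
        z = l.prod • d 0 j}) ?_ ?_ ?_ ?_ h
    · rintro z ⟨l, k, hl, hlen, rfl⟩
      apply AddSubgroup.subset_closure
      refine ⟨X i j :: l, k, ?_, by simp [hlen], by simp [mul_smul]⟩
      intro x hx
      rcases List.mem_cons.1 hx with rfl | hx
      · exact hX _ _
      · exact hl _ hx
    · simp
    · intro x y _ _ hx hy
      simpa [smul_add] using AddSubgroup.add_mem _ hx hy
    · intro x _ hx
      simpa using AddSubgroup.neg_mem _ hx

omit [Algebra K S] [DecidableEq c] in
theorem iterate_eq_zero {W : Type*} [AddCommGroup W] [Module S W] (ε : S →+* K)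
    (X : Matrix c c S) (hX : ∀ i j, ε (X i j) = 0) (d : ℕ → c → W)
    (hd : ∀ m i, d (m + 1) i = ∑ j, X i j • d m j) {L : ℕ} (hL : NilAug ε L) (i : c) :
    d L i = 0 := by
  have h := iterate_mem ε X hX d hd L i
  refine AddSubgroup.closure_induction (p := fun z _ => z = 0) ?_ rfl ?_ ?_ h
  · rintro z ⟨l, k, hl, hlen, rfl⟩
    rw [hL l hl hlen, zero_smul]
  · rintro x y _ _ rfl rfl; simp
  · rintro x _ rfl; simp

/-- The chain reaches the unique solution of the square system after `L` steps. -/
theorem chain_eq {W : Type*} [AddCommGroup W] [Module S W] (ε : S →+* K)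
    (a : c → S) (N : Matrix c c S) (B0 B0i : Matrix c c K) (hB : B0i * B0 = 1)
    (hN : ∀ i j, ε (N i j) = 0) {L : ℕ} (hL : NilAug ε L) (w : W) (v : c → W)
    (hv : ∀ i, a i • w + ∑ j, (algebraMap K S (B0 i j) + N i j) • v j = 0) :
    chain a N B0i w L = v := by
  -- error recursion
  set X : Matrix c c S := fun i k => - ∑ j, algebraMap K S (B0i i j) * N j k with hXdef
  have hX : ∀ i k, ε (X i k) = 0 := by
    intro i k
    simp [hXdef, map_sum, hN]
  let d : ℕ → c → W := fun m i => v i - chain a N B0i w m i
  have hd : ∀ m i, d (m + 1) i = ∑ j, X i j • d m j := by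
    intro m i
    have h1 : ∀ j, a j • w = - (∑ k, algebraMap K S (B0 j k) • v k) - ∑ k, N j k • v k := by
      intro j
      have := hv j
      simp only [add_smul, Finset.sum_add_distrib] at this
      rw [← sub_eq_zero]
      rw [← this]
      abel
    have h2 : v i = ∑ j, algebraMap K S (B0i i j) • ∑ k, algebraMap K S (B0 j k) • v k := by
      have : ∀ k, ∑ j, (algebraMap K S (B0i i j)) * (algebraMap K S (B0 j k)) =
          algebraMap K S ((1 : Matrix c c K) i k) := by
        intro k
        rw [← hB, Matrix.mul_apply, map_sum]
        simp [map_mul]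
      calc v i = ∑ k, algebraMap K S ((1 : Matrix c c K) i k) • v k := by
              simp only [Matrix.one_apply]
              rw [Finset.sum_eq_single i]
              · simp
              · intro b _ hb
                simp [Ne.symm hb]
              · simp
        _ = ∑ k, (∑ j, (algebraMap K S (B0i i j)) * (algebraMap K S (B0 j k))) • v k := by
              simp [this]
        _ = ∑ j, algebraMap K S (B0i i j) • ∑ k, algebraMap K S (B0 j k) • v k := by
              simp only [Finset.sum_smul, Finset.smul_sum, mul_smul]
              rw [Finset.sum_comm]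
    show v i - step a N B0i w (chain a N B0i w m) i = ∑ j, X i j • (v j - chain a N B0i w m j)
    simp only [step, sub_neg_eq_add]
    simp only [h1]
    conv_lhs => rw [h2]
    simp only [hXdef, neg_smul, Finset.sum_smul, mul_smul]
    simp only [smul_add, smul_sub, smul_neg, Finset.smul_sum, Finset.sum_add_distrib,
      Finset.sum_sub_distrib, Finset.sum_neg_distrib]
    rw [Finset.sum_comm (f := fun x x_1 => (algebraMap K S) (B0i i x_1) • N x_1 x • v x)]
    rw [Finset.sum_comm (f := fun x x_1 => (algebraMap K S) (B0i i x_1) • N x_1 x • chain a N B0i w m x)]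
    abel
  funext i
  have := iterate_eq_zero ε X hX d hd hL i
  exact (sub_eq_zero.1 this).symm

end Abstract

section Group

variable {P K : Type*} [Group P] [Field K]

/-- `(R_g f)(u) = f (u g)` -/
def rHom : P →* Module.End K (P → K) where
  toFun g := LinearMap.funLeft K K (fun u => u * g)
  map_one' := by ext f u; simp [LinearMap.funLeft_apply]
  map_mul' g h := by
    apply LinearMap.ext; intro f; funext u
    simp [LinearMap.funLeft_apply, mul_assoc]

/-- `(L_g f)(u) = f (g⁻¹ u)` -/
def lHom : P →* Module.End K (P → K) where
  toFun g := LinearMap.funLeft K K (fun u => g⁻¹ * u)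
  map_one' := by ext f u; simp [LinearMap.funLeft_apply]
  map_mul' g h := by
    apply LinearMap.ext; intro f; funext u
    simp [LinearMap.funLeft_apply, mul_assoc]

/-- right action of the group algebra on functions -/
noncomputable def rAct : MonoidAlgebra K P →ₐ[K] Module.End K (P → K) :=
  MonoidAlgebra.lift K (Module.End K (P → K)) P rHom

/-- left action of the group algebra on functions -/
noncomputable def lAct : MonoidAlgebra K P →ₐ[K] Module.End K (P → K) :=
  MonoidAlgebra.lift K (Module.End K (P → K)) P lHom

/-- augmentation -/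
noncomputable def aug : MonoidAlgebra K P →ₐ[K] K :=
  MonoidAlgebra.lift K K P (1 : P →* K)

/-- functions with the right action -/
def FR (P K : Type*) : Type _ := P → K
/-- functions with the left action -/
def FL (P K : Type*) : Type _ := P → K

instance : AddCommGroup (FR P K) := inferInstanceAs (AddCommGroup (P → K))
instance : AddCommGroup (FL P K) := inferInstanceAs (AddCommGroup (P → K))

noncomputable instance : Module (MonoidAlgebra K P) (FR P K) :=
  Module.compHom (P → K) (rAct (P := P) (K := K)).toRingHom

noncomputable instance : Module (MonoidAlgebra K P) (FL P K) :=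
  Module.compHom (P → K) (lAct (P := P) (K := K)).toRingHom

theorem FR_smul (s : MonoidAlgebra K P) (f : FR P K) : s • f = rAct s f := rfl
theorem FL_smul (s : MonoidAlgebra K P) (f : FL P K) : s • f = lAct s f := rfl

/-- `ι f (u) = f (u⁻¹)` -/
def flip (f : P → K) : P → K := fun u => f u⁻¹

theorem flip_rAct (s : MonoidAlgebra K P) (f : P → K) : flip (rAct s f) = lAct s (flip f) := by
  induction s using MonoidAlgebra.induction_linear with
  | zero => funext u; simp [flip]
  | add s t hs ht =>
    have h1 : rAct (s + t) f = rAct s f + rAct t f := by simp [map_add]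
    have h2 : lAct (s + t) (flip f) = lAct s (flip f) + lAct t (flip f) := by simp [map_add]
    rw [h1, h2, ← hs, ← ht]
    rfl
  | single g b =>
    have h1 : rAct (MonoidAlgebra.single g b) f = b • rHom g f := by
      simp [rAct, MonoidAlgebra.lift_single]
    have h2 : lAct (MonoidAlgebra.single g b) (flip f) = b • lHom g (flip f) := by
      simp [lAct, MonoidAlgebra.lift_single]
    rw [h1, h2]
    funext u
    simp [flip, rHom, lHom, LinearMap.funLeft_apply]

/-- underlying function -/
def FL.fn (f : FL P K) : P → K := f
/-- underlying function -/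
def FR.fn (f : FR P K) : P → K := f
/-- function as an element of `FR` -/
def FR.of (f : P → K) : FR P K := f
/-- function as an element of `FL` -/
def FL.of (f : P → K) : FL P K := f

/-- the flip as an isomorphism of modules -/
def flipL : FR P K →ₗ[MonoidAlgebra K P] FL P K where
  toFun f := FL.of (flip f.fn)
  map_add' _ _ := rfl
  map_smul' s f := flip_rAct s f.fn

omit [Field K] in
theorem flip_flip (f : P → K) : flip (flip f) = f := by
  funext u; simp [flip]

variable {c : Type*} [Fintype c] [DecidableEq c]

open Classical in
/-- **LEMMA 289-514Z (1),(3),(4)**. -/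
theorem zero_test [Fintype P]
    (a : c → MonoidAlgebra K P) (N : Matrix c c (MonoidAlgebra K P)) (B0 B0i : Matrix c c K)
    (hB : B0i * B0 = 1) (hN : ∀ i j, aug (N i j) = 0) {L : ℕ}
    (hL : NilAug (K := K) (S := MonoidAlgebra K P) (aug (P := P) (K := K)).toRingHom L)
    (V : Set (Option c → P → K))
    (hVrow : ∀ v ∈ V, ∀ i, rAct (a i) (v none) +
      ∑ j, rAct (algebraMap K (MonoidAlgebra K P) (B0 i j) + N i j) (v (some j)) = 0)
    (hVsurj : ∀ e : P → K, ∃ v ∈ V, v none = e)
    (d : ℕ) (hdist : ∀ v ∈ V, v ≠ 0 → d ≤ (univ.filter fun u : P => ∃ j, v j u ≠ 0).card)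
    {W : Type*} [AddCommGroup W] [Module (MonoidAlgebra K P) W]
    (res : W →ₗ[MonoidAlgebra K P] FL P K) (w : W) (hw : res w ≠ 0) :
    d ≤ (univ.filter fun u : P => (res w).fn u ≠ 0 ∨
      ∃ j, (res (chain a N B0i w L j)).fn u ≠ 0).card := by
  obtain ⟨v, hvV, hv⟩ := hVsurj (flip (res w).fn)
  have hv0 : v ≠ 0 := by
    rintro rfl
    apply hw
    have h : (res w).fn = flip (flip (res w).fn) := (flip_flip _).symm
    have h' : flip (res w).fn = 0 := by rw [← hv]; rfl
    rw [h'] at h
    exact h
  have hrow := hVrow v hvV
  -- the flipped solution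
  have key : chain a N B0i (res w) L = fun j => flipL (FR.of (v (some j))) := by
    refine chain_eq (aug (P := P) (K := K)).toRingHom a N B0 B0i hB (fun i j => hN i j) hL _ _ ?_
    intro i
    have h1 : res w = flipL (FR.of (v none)) := by
      rw [hv]; exact (flip_flip (res w).fn).symm
    have h2 : a i • (FR.of (v none)) +
      ∑ j, (algebraMap K (MonoidAlgebra K P) (B0 i j) + N i j) • (FR.of (v (some j))) = 0 := hrow i
    have h3 := congrArg flipL h2
    rw [map_add, map_sum, map_zero] at h3
    simp only [map_smul] at h3
    rw [h1]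
    exact h3
  refine (hdist v hvV hv0).trans ?_
  have hinj : Function.Injective (fun u : P => u⁻¹) := inv_injective
  rw [← Finset.card_image_of_injective (univ.filter fun u : P => ∃ j, v j u ≠ 0) hinj]
  apply Finset.card_le_card
  intro u hu
  simp only [Finset.mem_image, Finset.mem_filter, Finset.mem_univ, true_and] at hu ⊢
  obtain ⟨x, ⟨j, hj⟩, rfl⟩ := hu
  cases j with
  | none =>
    left
    have : (res w).fn x⁻¹ = v none x := by rw [hv]; rfl
    rwa [this]
  | some j =>
    right
    refine ⟨j, ?_⟩
    rw [chain_map, key]
    show v (some j) (x⁻¹)⁻¹ ≠ 0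
    rwa [inv_inv]

omit [DecidableEq c] in
/-- completeness: if the content is zero, every layer has zero content. -/
theorem zero_test_complete
    (a : c → MonoidAlgebra K P) (N : Matrix c c (MonoidAlgebra K P)) (B0i : Matrix c c K)
    {W : Type*} [AddCommGroup W] [Module (MonoidAlgebra K P) W]
    (res : W →ₗ[MonoidAlgebra K P] FL P K) (w : W) (hw : res w = 0) (m : ℕ) (j : c) :
    res (chain a N B0i w m j) = 0 := by
  rw [chain_map, hw]
  induction m generalizing j with
  | zero => rfl
  | succ m ih => simp [chain, step, ih]

end Group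

section Rows

theorem exists_rows {K r c : Type*} [Field K] [Fintype c] [DecidableEq c]
    (M : Matrix r c K) (hinj : ∀ y : c → K, M.mulVec y = 0 → y = 0) :
    ∃ ρ : c → r, ∃ Bi : Matrix c c K, Bi * (M.submatrix ρ id) = 1 := by
  classical
  -- the rows span everything
  have hspan : Submodule.span K (Set.range M) = ⊤ := by
    by_contra hne
    obtain ⟨f, hf0, hf⟩ := Submodule.exists_le_ker_of_lt_top _ (lt_top_iff_ne_top.2 hne)
    apply hf0
    -- f = dot product with y
    have hy : ∀ v : c → K, f v = ∑ j, v j * f (Pi.single j 1) := by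
      intro v
      conv_lhs => rw [← Finset.univ_sum_single v]
      rw [map_sum]
      refine Finset.sum_congr rfl fun j _ => ?_
      rw [← smul_eq_mul, ← map_smul]
      congr 1
      funext k
      by_cases h : k = j
      · subst h; simp
      · simp [h]
    have h0 : (fun j => f (Pi.single j 1)) = 0 := by
      apply hinj
      funext i
      have := hf (Submodule.subset_span ⟨i, rfl⟩)
      rw [LinearMap.mem_ker, hy] at this
      simpa [Matrix.mulVec, dotProduct] using this
    apply LinearMap.ext
    intro v
    rw [hy]
    simp [fun j => congrFun h0 j]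
  obtain ⟨κ, b, hbinj, hbspan, hblin⟩ := exists_linearIndependent' K M
  rw [hspan] at hbspan
  let B : Module.Basis κ K (c → K) := Module.Basis.mk hblin (by rw [hbspan])
  have hcard : Nat.card κ = Nat.card c := by
    have := Module.finrank_eq_nat_card_basis B
    rw [← this, Module.finrank_fintype_fun_eq_card, Nat.card_eq_fintype_card]
  have : Finite κ := Module.Finite.finite_basis B
  obtain ⟨e⟩ : Nonempty (κ ≃ c) := by
    have := Fintype.ofFinite κ
    rw [Nat.card_eq_fintype_card, Nat.card_eq_fintype_card] at hcard
    exact ⟨Fintype.equivOfCardEq hcard⟩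
  refine ⟨fun j => b (e.symm j), ?_⟩
  have hli : LinearIndependent K (M.submatrix (fun j => b (e.symm j)) id).row := by
    have := hblin.comp e.symm e.symm.injective
    exact this
  have hu := Matrix.linearIndependent_rows_iff_isUnit.1 hli
  obtain ⟨u, hu⟩ := hu
  exact ⟨↑u⁻¹, by rw [← hu]; simp⟩

variable {P K : Type*} [Group P] [Field K]

theorem rAct_const (s : MonoidAlgebra K P) (k : K) :
    rAct s (fun _ : P => k) = fun _ => aug s * k := by
  induction s using MonoidAlgebra.induction_linear with
  | zero => funext u; simp
  | add s t hs ht =>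
    have h1 : rAct (s + t) (fun _ : P => k) = rAct s (fun _ => k) + rAct t (fun _ => k) := by
      simp [map_add]
    rw [h1, hs, ht]
    funext u
    simp [add_mul]
  | single g b =>
    funext u
    simp [rAct, aug, MonoidAlgebra.lift_single, rHom, LinearMap.funLeft_apply]

/-- **LEMMA 289-514Z (1)**: a right-translation system whose only solution with content zero is
zero contains a square subsystem with invertible augmentation. -/
theorem exists_square {r c : Type*} [Fintype c] [DecidableEq c]
    (A : r → Option c → MonoidAlgebra K P)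
    (hinj : ∀ v : Option c → P → K, (∀ i, ∑ j, rAct (A i j) (v j) = 0) → v none = 0 → v = 0) :
    ∃ ρ : c → r, ∃ B0i : Matrix c c K,
      B0i * (Matrix.of fun i j => aug (A (ρ i) (some j))) = 1 := by
  obtain ⟨ρ, Bi, h⟩ := exists_rows (Matrix.of fun (i : r) (j : c) => aug (A i (some j))) (by
    intro y hy
    have := hinj (fun j => match j with
      | none => 0
      | some j => fun _ => y j) (by
        intro i
        rw [Fintype.sum_option]
        simp only [map_zero, zero_add, rAct_const]
        funext u
        have := congrFun hy i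
        simpa [Matrix.mulVec, dotProduct] using this) rfl
    funext j
    have h2 := congrFun (congrFun this (some j)) 1
    exact h2)
  exact ⟨ρ, Bi, h⟩

/-- the split `B = B0 + N` used by the chain has `aug N = 0`. -/
theorem split_aug {r c : Type*} (A : r → Option c → MonoidAlgebra K P) (ρ : c → r) (i j : c) :
    aug (A (ρ i) (some j) - algebraMap K (MonoidAlgebra K P) (aug (A (ρ i) (some j)))) = 0 := by
  rw [map_sub, AlgHom.commutes]
  exact sub_self _

end Rows

end Crest.Agent.R289.ZeroChain
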